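import Vale.Agent.P032.H437.Ev2.T

namespace Vale.Agent.P032.H437.Ev2
open Vale.Agent.P032.H859.Rup Vale.Agent.P032.H437

def c1024_0 : Tr :=
 .n (.n (.n (.n (.n (.n (.p (nat_lit 0x1) (nat_lit 0x0) (nat_lit 0))
 (.p (nat_lit 0x16a6611f02) (nat_lit 0x35056a3a4000000040600) (nat_lit 50)))
 (.p (nat_lit 0x265e265a265826562ae12ad906) (nat_lit 0x880004450f) (nat_lit 51)))
 (.n (.p (nat_lit 0x8f376f02) (nat_lit 0x400303) (nat_lit 30))
 (.p (nat_lit 0x194a1948194219400458043b04391947194509) (nat_lit 0x1a0072a) (nat_lit 10))))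
 (.n (.n (.p (nat_lit 0x1cde1cdc1cda1cd81cd41a5f06) (nat_lit 0x10000ca800) (nat_lit 51))
 (.p (nat_lit 0x218c558902) (nat_lit 0x400a1c) (nat_lit 29)))
 (.n (.p (nat_lit 0x1c441c421c401c3e1c3c1c2f06) (nat_lit 0x800090806) (nat_lit 52))
 (.p (nat_lit 0x5e38154102) (nat_lit 0x600) (nat_lit 46)))))
 (.n (.n (.n (.p (nat_lit 0xe9a0e960e920e900c970c9306) (nat_lit 0xa0000c0300) (nat_lit 52))
 (.p (nat_lit 0x22e854a702) (nat_lit 0x540a15) (nat_lit 29)))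
 (.n (.p (nat_lit 0x1ab81fd702) (nat_lit 0x440704) (nat_lit 4))
 (.p (nat_lit 0x22a5a9902) (nat_lit 0x40070e) (nat_lit 27))))
 (.n (.n (.p (nat_lit 0x1a281a261a241a221d871d7d06) (nat_lit 0x108000d2801) (nat_lit 51))
 (.p (nat_lit 0x1c04106b02) (nat_lit 0x300823) (nat_lit 5)))
 (.n (.p (nat_lit 0x2696269426922690268e33d506) (nat_lit 0x10000090b09) (nat_lit 51))
 (.p (nat_lit 0x1aea5f1902) (nat_lit 0x1a2274b50000200000600) (nat_lit 50))))))
 (.n (.n (.n (.n (.p (nat_lit 0x741064d02) (nat_lit 0x48000) (nat_lit 16))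
 (.p (nat_lit 0x26f626f426f226f026ec500b06) (nat_lit 0x10000c8714) (nat_lit 51)))
 (.n (.p (nat_lit 0xb93c6f02) (nat_lit 0x240004) (nat_lit 30))
 (.p (nat_lit 0x452c452a45264524452204b1452907) (nat_lit 0x30012f) (nat_lit 7))))
 (.n (.n (.p (nat_lit 0x23d423d223d023cc215f215706) (nat_lit 0x1100000eb00) (nat_lit 52))
 (.p (nat_lit 0x4826482448224820481c495906) (nat_lit 0x10000c4521) (nat_lit 52)))
 (.n (.p (nat_lit 0x3969122b02) (nat_lit 0x150407) (nat_lit 16))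
 (.p (nat_lit 0x5cc31da302) (nat_lit 0x2a0020000900) (nat_lit 38)))))
 (.n (.n (.n (.p (nat_lit 0x15ec15ea15e815e615e4155706) (nat_lit 0x10000090600) (nat_lit 52))
 (.p (nat_lit 0x5067505b02) (nat_lit 0x50881b) (nat_lit 16)))
 (.n (.p (nat_lit 0x21e221e021de21da195d195906) (nat_lit 0x2800094705) (nat_lit 51))
 (.p (nat_lit 0x5d9d08ff02) (nat_lit 0x1000a0000100) (nat_lit 41))))
 (.n (.n (.p (nat_lit 0x63320302) (nat_lit 0x540502) (nat_lit 30))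
 (.p (nat_lit 0x488c488a48884884488244ad06) (nat_lit 0x20000c4028) (nat_lit 51)))
 (.n (.p (nat_lit 0x10e50e1702) (nat_lit 0x50030e) (nat_lit 15))
 (.p (nat_lit 0x114a601b02) (nat_lit 0x4099a2354800400040000) (nat_lit 50))))))

def c1024_512 : Tr :=
 .n (.n (.n (.n (.n (.n (.p (nat_lit 0x30e0308031503) (nat_lit 0x900050001c) (nat_lit 17))
 (.p (nat_lit 0xbb4619d02) (nat_lit 0x380aa5c14800200040000) (nat_lit 50)))
 (.p (nat_lit 0x3b7e53cd02) (nat_lit 0x400b11) (nat_lit 29)))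
 (.n (.p (nat_lit 0x21c81d0102) (nat_lit 0x400a03) (nat_lit 5))
 (.p (nat_lit 0x1a341a321a301a2e1a2c2faf06) (nat_lit 0x1000005422c) (nat_lit 51))))
 (.n (.n (.p (nat_lit 0x20091d3302) (nat_lit 0x540900) (nat_lit 16))
 (.p (nat_lit 0x363a36383636363436320359363d07) (nat_lit 0x54011f) (nat_lit 7)))
 (.n (.p (nat_lit 0x7da07d807d607d407d20c9b06) (nat_lit 0x8000c8207) (nat_lit 51))
 (.p (nat_lit 0x5d575e6102) (nat_lit 0x260080000700) (nat_lit 36)))))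
 (.n (.n (.n (.p (nat_lit 0x121f0f5f02) (nat_lit 0x140400) (nat_lit 15))
 (.p (nat_lit 0x3b913b8502) (nat_lit 0x108b18) (nat_lit 16)))
 (.n (.p (nat_lit 0xfbf0cf102) (nat_lit 0x140205) (nat_lit 15))
 (.p (nat_lit 0x5c425c405c3c5c3a5c3804bd044007) (nat_lit 0x31462a) (nat_lit 25))))
 (.n (.n (.p (nat_lit 0x602199302) (nat_lit 0x500002) (nat_lit 4))
 (.p (nat_lit 0x602ec302) (nat_lit 0x440125) (nat_lit 1)))
 (.n (.p (nat_lit 0x5140510050c050a4265426106) (nat_lit 0xa0000c660b) (nat_lit 51))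
 (.p (nat_lit 0xbba5f9702) (nat_lit 0x88bb0155800200040000) (nat_lit 50))))))
 (.n (.n (.n (.n (.p (nat_lit 0xb160b140b120b100873087106) (nat_lit 0x1800094200) (nat_lit 52))
 (.p (nat_lit 0x419d139502) (nat_lit 0x512515) (nat_lit 16)))
 (.n (.p (nat_lit 0x41364132412e412c13cf13cb06) (nat_lit 0xa000004504) (nat_lit 52))
 (.p (nat_lit 0x8c008a00880086000b006106) (nat_lit 0x2c16603) (nat_lit 26))))
 (.n (.n (.p (nat_lit 0xb680b660b640b5e0046002f002d0b630b6109) (nat_lit 0x1100201) (nat_lit 10))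
 (.p (nat_lit 0x154a1548154615441540088b06) (nat_lit 0x100000c123) (nat_lit 51)))
 (.n (.p (nat_lit 0x20e281102) (nat_lit 0x200208) (nat_lit 1))
 (.p (nat_lit 0x5eb24f6102) (nat_lit 0x20004b00) (nat_lit 48)))))
 (.n (.n (.n (.p (nat_lit 0x5a179502) (nat_lit 0x140700) (nat_lit 1))
 (.p (nat_lit 0x13a0139e139c13981396030b139b07) (nat_lit 0x20051c) (nat_lit 7)))
 (.n (.p (nat_lit 0xa420a400a3e0a3c0124011501130a3b0a3909) (nat_lit 0x840106) (nat_lit 10))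
 (.p (nat_lit 0x5cb10fd502) (nat_lit 0xc0000000400) (nat_lit 38))))
 (.n (.n (.p (nat_lit 0x245c33bf02) (nat_lit 0xb02) (nat_lit 29))
 (.p (nat_lit 0x6f606f406f006ee06ec09f706) (nat_lit 0x400005412a) (nat_lit 52)))
 (.n (.p (nat_lit 0x163e52ff02) (nat_lit 0x30060e) (nat_lit 29))
 (.p (nat_lit 0x1f1a609702) (nat_lit 0x344580ca4000300040600) (nat_lit 50))))))

def c512_0 : Tr := .n c1024_0 c1024_512

def c1024_256 : Tr :=
 .n (.n (.n (.n (.n (.n (.p (nat_lit 0xec00e600f103) (nat_lit 0x12000500005) (nat_lit 17))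
 (.p (nat_lit 0x21cc615b02) (nat_lit 0x3503a8d64000400040600) (nat_lit 49)))
 (.p (nat_lit 0x33322e8f02) (nat_lit 0x200a10) (nat_lit 4)))
 (.n (.p (nat_lit 0x15041cd502) (nat_lit 0x40503) (nat_lit 5))
 (.p (nat_lit 0x25b1230d02) (nat_lit 0x540a2a) (nat_lit 15))))
 (.n (.n (.p (nat_lit 0x1e721e701e6c1e6a1e681bc906) (nat_lit 0x400008e900) (nat_lit 51))
 (.p (nat_lit 0x2cfc2fbd02) (nat_lit 0x1e) (nat_lit 4)))
 (.n (.p (nat_lit 0x213a21362134213221301f0106) (nat_lit 0x800008e906) (nat_lit 51))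
 (.p (nat_lit 0x5cb75e5102) (nat_lit 0x60000000700) (nat_lit 37)))))
 (.n (.n (.n (.p (nat_lit 0x10261024102210200df70df506) (nat_lit 0x1800004400) (nat_lit 51))
 (.p (nat_lit 0x32e82f0502) (nat_lit 0x140917) (nat_lit 4)))
 (.n (.p (nat_lit 0x43a125cd02) (nat_lit 0x14ab04) (nat_lit 16))
 (.p (nat_lit 0x2885b8302) (nat_lit 0x40011c) (nat_lit 27))))
 (.n (.n (.p (nat_lit 0x140013fe13fc13fa13f8204706) (nat_lit 0x8000ca901) (nat_lit 51))
 (.p (nat_lit 0x3ae03c103bb120f10b505) (nat_lit 0x84500b23) (nat_lit 9)))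
 (.n (.p (nat_lit 0x3c3e3c3c3c383c363c343ae906) (nat_lit 0x400008ca0a) (nat_lit 52))
 (.p (nat_lit 0x20765f5b02) (nat_lit 0x1a2276350000400000600) (nat_lit 50))))))
 (.n (.n (.n (.n (.p (nat_lit 0x9220920091e091a0918072106) (nat_lit 0x2000048100) (nat_lit 51))
 (.p (nat_lit 0xea60ea40ea20ea00e9c10e906) (nat_lit 0x1000002415) (nat_lit 52)))
 (.n (.p (nat_lit 0x3eec3eea3ee83ee63ee40ce306) (nat_lit 0x8000cc204) (nat_lit 52))
 (.p (nat_lit 0x58925890588e588c588a02af003607) (nat_lit 0x6101) (nat_lit 25))))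
 (.n (.n (.p (nat_lit 0x257922bd02) (nat_lit 0x142b00) (nat_lit 16))
 (.p (nat_lit 0xd280d240d220d200d1e50b906) (nat_lit 0x8000040822) (nat_lit 52)))
 (.n (.p (nat_lit 0x346a34683466346434621d3f06) (nat_lit 0x100000c6807) (nat_lit 51))
 (.p (nat_lit 0x5ce521cf02) (nat_lit 0x80020000a00) (nat_lit 39)))))
 (.n (.n (.n (.p (nat_lit 0x179516b302) (nat_lit 0x140600) (nat_lit 15))
 (.p (nat_lit 0x1c501c4e1c4c1c4a1c46073706) (nat_lit 0x10000d001c) (nat_lit 51)))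
 (.n (.p (nat_lit 0x4a731c2902) (nat_lit 0x300805) (nat_lit 16))
 (.p (nat_lit 0x5dec505902) (nat_lit 0x80016200) (nat_lit 47))))
 (.n (.n (.p (nat_lit 0xa580a560a540a520a5021bf06) (nat_lit 0x10000004a02) (nat_lit 51))
 (.p (nat_lit 0x579a57985796579457925790042807) (nat_lit 0x829) (nat_lit 8)))
 (.n (.p (nat_lit 0x12aa12a812a412a212a0123b06) (nat_lit 0x400004a40e) (nat_lit 51))
 (.p (nat_lit 0x1ae8605d02) (nat_lit 0x506272b31000200000600) (nat_lit 50))))))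

def c1024_768 : Tr :=
 .n (.n (.n (.n (.n (.n (.p (nat_lit 0x51405120510050e04dd04db06) (nat_lit 0x1800086000) (nat_lit 51))
 (.p (nat_lit 0x8e861db02) (nat_lit 0x542266c0c800100040000) (nat_lit 49)))
 (.p (nat_lit 0x25553ef02) (nat_lit 0x340b12) (nat_lit 30)))
 (.n (.p (nat_lit 0x1db61db41db21dae1dac246d06) (nat_lit 0x2000012b03) (nat_lit 51))
 (.p (nat_lit 0x3b1c3a4702) (nat_lit 0x100a2d) (nat_lit 4))))
 (.n (.n (.p (nat_lit 0x21db21cf02) (nat_lit 0x140a00) (nat_lit 34))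
 (.p (nat_lit 0x3e2a3e283e263e243e223de706) (nat_lit 0x80004a120) (nat_lit 52)))
 (.n (.p (nat_lit 0x1ade1adc1ad81ad61ad40f6f06) (nat_lit 0x4000050307) (nat_lit 52))
 (.p (nat_lit 0x5d395e7502) (nat_lit 0x140060000800) (nat_lit 37)))))
 (.n (.n (.n (.p (nat_lit 0x121c13f702) (nat_lit 0x40500) (nat_lit 5))
 (.p (nat_lit 0x4494462702) (nat_lit 0x24001a) (nat_lit 4)))
 (.n (.p (nat_lit 0x48de48dc48da48d848d648d400f015251521151f0a) (nat_lit 0x11140505) (nat_lit 31))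
 (.p (nat_lit 0x5d6704cb02) (nat_lit 0x160080000000) (nat_lit 38))))
 (.n (.n (.p (nat_lit 0x2fa50ccb02) (nat_lit 0x4a202) (nat_lit 16))
 (.p (nat_lit 0xff60ff40ff00fee0fec3ba106) (nat_lit 0x4000000b26) (nat_lit 52)))
 (.n (.p (nat_lit 0x4cf4529102) (nat_lit 0x20020d) (nat_lit 29))
 (.p (nat_lit 0x20785fdd02) (nat_lit 0x3842a1c35000400000600) (nat_lit 50))))))
 (.n (.n (.n (.n (.p (nat_lit 0xb300d1502) (nat_lit 0x100300) (nat_lit 5))
 (.p (nat_lit 0x281545502) (nat_lit 0x40715) (nat_lit 30)))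
 (.n (.p (nat_lit 0x7aa07a807a407a207a017f906) (nat_lit 0x4000042604) (nat_lit 51))
 (.p (nat_lit 0xe459e902) (nat_lit 0x100906) (nat_lit 27))))
 (.n (.n (.p (nat_lit 0x13ac15cb02) (nat_lit 0x500501) (nat_lit 5))
 (.p (nat_lit 0xeca0ec60ec40ec00b4f0b4906) (nat_lit 0x900008a223) (nat_lit 51)))
 (.n (.p (nat_lit 0x2f902c9d02) (nat_lit 0x240209) (nat_lit 4))
 (.p (nat_lit 0x8fa5ed502) (nat_lit 0x4a1a22344000100040000) (nat_lit 50)))))
 (.n (.n (.n (.p (nat_lit 0x1b0c1b0a1b081b06190318f906) (nat_lit 0x10800002800) (nat_lit 51))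
 (.p (nat_lit 0x1935192902) (nat_lit 0xa71c) (nat_lit 16)))
 (.n (.p (nat_lit 0x11b4f4102) (nat_lit 0x400506) (nat_lit 30))
 (.p (nat_lit 0x5e2405e102) (nat_lit 0x6500) (nat_lit 47))))
 (.n (.n (.p (nat_lit 0x9134d502) (nat_lit 0x540003) (nat_lit 30))
 (.p (nat_lit 0x3f2b0cb902) (nat_lit 0x35222a) (nat_lit 16)))
 (.n (.p (nat_lit 0x2b9f1eaf02) (nat_lit 0x50c90e) (nat_lit 16))
 (.p (nat_lit 0x13fc60db02) (nat_lit 0x340a621b0000500040000) (nat_lit 50))))))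

def c512_256 : Tr := .n c1024_256 c1024_768

def c256_0 : Tr := .n c512_0 c512_256

def c1024_128 : Tr :=
 .n (.n (.n (.n (.n (.n (.p (nat_lit 0x830079006603) (nat_lit 0x81900002) (nat_lit 19))
 (.p (nat_lit 0xbac613f02) (nat_lit 0x352a21d84000200040000) (nat_lit 49)))
 (.p (nat_lit 0x5830fb02) (nat_lit 0x410) (nat_lit 1)))
 (.n (.p (nat_lit 0x38c438c038be38bc38ba111306) (nat_lit 0x8000016403) (nat_lit 52))
 (.p (nat_lit 0x1ede581f02) (nat_lit 0x50092a) (nat_lit 29))))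
 (.n (.n (.p (nat_lit 0x1d8f1a6302) (nat_lit 0x354800) (nat_lit 16))
 (.p (nat_lit 0x25920f5502) (nat_lit 0x240b1c) (nat_lit 5)))
 (.n (.p (nat_lit 0x1ade1adc1ada1ad81ad61d9506) (nat_lit 0x800050806) (nat_lit 52))
 (.p (nat_lit 0x5d3d153b02) (nat_lit 0x100060000600) (nat_lit 38)))))
 (.n (.n (.n (.p (nat_lit 0xf890c9702) (nat_lit 0x44a300) (nat_lit 16))
 (.p (nat_lit 0x2b1e27e502) (nat_lit 0x500816) (nat_lit 4)))
 (.n (.p (nat_lit 0x22a0229e22982296247b247906) (nat_lit 0x600008eb04) (nat_lit 52))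
 (.p (nat_lit 0x28a02860282028002d3000906) (nat_lit 0x1410515) (nat_lit 26))))
 (.n (.n (.p (nat_lit 0x1820181c181a181818161ee906) (nat_lit 0x800000e901) (nat_lit 51))
 (.p (nat_lit 0x219b1ed302) (nat_lit 0x500923) (nat_lit 15)))
 (.n (.p (nat_lit 0x1d021d001cfe1cfc1cfa385b06) (nat_lit 0x80005430a) (nat_lit 51))
 (.p (nat_lit 0x6425f3902) (nat_lit 0x3a2560c44000000040000) (nat_lit 50))))))
 (.n (.n (.n (.n (.p (nat_lit 0x7f207f007ee07ec07e805bf06) (nat_lit 0x100008a100) (nat_lit 51))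
 (.p (nat_lit 0x1ea072d02) (nat_lit 0x240015) (nat_lit 1)))
 (.n (.p (nat_lit 0x3df30a2102) (nat_lit 0x48104) (nat_lit 16))
 (.p (nat_lit 0x4a0c4a0a4a064a044a0204b14a0907) (nat_lit 0x30072f) (nat_lit 7))))
 (.n (.n (.p (nat_lit 0x2493248702) (nat_lit 0x340b00) (nat_lit 34))
 (.p (nat_lit 0x3004c0702) (nat_lit 0x300122) (nat_lit 1)))
 (.n (.p (nat_lit 0x143518702) (nat_lit 0x140707) (nat_lit 30))
 (.p (nat_lit 0x5d6f1f1902) (nat_lit 0xe0080000900) (nat_lit 41)))))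
 (.n (.n (.n (.p (nat_lit 0x16af16a302) (nat_lit 0x540600) (nat_lit 34))
 (.p (nat_lit 0x1f1a1f181f161f121f1005d906) (nat_lit 0x200009201c) (nat_lit 51)))
 (.n (.p (nat_lit 0x1c501c4e1c4c1c4a1c461abf06) (nat_lit 0x10000d0705) (nat_lit 51))
 (.p (nat_lit 0x5de2422f02) (nat_lit 0x20012200) (nat_lit 48))))
 (.n (.n (.p (nat_lit 0x205818c302) (nat_lit 0x340902) (nat_lit 4))
 (.p (nat_lit 0x4a5247cb02) (nat_lit 0x540728) (nat_lit 5)))
 (.n (.p (nat_lit 0x129e129c129a1298129410dd06) (nat_lit 0x100000a40e) (nat_lit 52))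
 (.p (nat_lit 0x2495248b21dd21cd1f131f0b1c471c431983197516a5169b603a0d) (nat_lit 0x4a8162340800000040600) (nat_lit 33))))))

def c1024_640 : Tr :=
 .n (.n (.n (.n (.n (.n (.p (nat_lit 0x43e04380436044104) (nat_lit 0x1300040002a) (nat_lit 17))
 (.p (nat_lit 0x114661bb02) (nat_lit 0x322266c15000400040000) (nat_lit 50)))
 (.p (nat_lit 0x1ff01fee1fea1fe81fe6410706) (nat_lit 0x40000d6412) (nat_lit 51)))
 (.n (.p (nat_lit 0x1e661e621e601e5e1e5c232f06) (nat_lit 0x800004ea03) (nat_lit 51))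
 (.p (nat_lit 0x3408326702) (nat_lit 0x300b2c) (nat_lit 5))))
 (.n (.n (.p (nat_lit 0x21222120211c211a21181e9306) (nat_lit 0x400008ca00) (nat_lit 52))
 (.p (nat_lit 0x3be6385302) (nat_lit 0x240b1f) (nat_lit 5)))
 (.n (.p (nat_lit 0x198619821980197e197c0e0906) (nat_lit 0x800008e307) (nat_lit 51))
 (.p (nat_lit 0x5e681eed02) (nat_lit 0xc800) (nat_lit 47)))))
 (.n (.n (.n (.p (nat_lit 0x12ce12ca12c612c410cb10c706) (nat_lit 0xa000004500) (nat_lit 52))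
 (.p (nat_lit 0x422e3ed902) (nat_lit 0x100619) (nat_lit 4)))
 (.n (.p (nat_lit 0xe9477502) (nat_lit 0x300405) (nat_lit 30))
 (.p (nat_lit 0x5dae14c902) (nat_lit 0x44000) (nat_lit 47))))
 (.n (.n (.p (nat_lit 0x2e2b08b102) (nat_lit 0x206102) (nat_lit 16))
 (.p (nat_lit 0x8a364302) (nat_lit 0x240126) (nat_lit 1)))
 (.n (.p (nat_lit 0x4756444f02) (nat_lit 0x44030c) (nat_lit 4))
 (.p (nat_lit 0x153a5fc502) (nat_lit 0x8982e915800000000600) (nat_lit 49))))))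
 (.n (.n (.n (.n (.p (nat_lit 0xbdc0bda0bd80bd609d709d506) (nat_lit 0x18000048200) (nat_lit 51))
 (.p (nat_lit 0x2b4164b02) (nat_lit 0x300615) (nat_lit 1)))
 (.n (.p (nat_lit 0xd100d0e0d0a0d080d06168706) (nat_lit 0x4000006604) (nat_lit 52))
 (.p (nat_lit 0xe359a102) (nat_lit 0x505) (nat_lit 28))))
 (.n (.n (.p (nat_lit 0xf94171702) (nat_lit 0x440301) (nat_lit 5))
 (.p (nat_lit 0x13f413f213f013ee13ec09e506) (nat_lit 0x8000ca123) (nat_lit 52)))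
 (.n (.p (nat_lit 0x2b8f2b0302) (nat_lit 0x300808) (nat_lit 15))
 (.p (nat_lit 0x5d5b234702) (nat_lit 0x220080000b00) (nat_lit 40)))))
 (.n (.n (.n (.p (nat_lit 0x1a4e1a4c1a4a1a481a46179306) (nat_lit 0x800056700) (nat_lit 52))
 (.p (nat_lit 0x1198119611941192119014e106) (nat_lit 0x8000c451c) (nat_lit 52)))
 (.n (.p (nat_lit 0x4e0c4e0a4e084e064e044e0206) (nat_lit 0x50306) (nat_lit 52))
 (.p (nat_lit 0x5e180f8702) (nat_lit 0x60040400) (nat_lit 47))))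
 (.n (.n (.p (nat_lit 0x25ba1a5902) (nat_lit 0x440b02) (nat_lit 4))
 (.p (nat_lit 0x2f3b0b5302) (nat_lit 0xe22a) (nat_lit 16)))
 (.n (.p (nat_lit 0x1ef532502) (nat_lit 0x40080e) (nat_lit 30))
 (.p (nat_lit 0x249260b302) (nat_lit 0x350521a84000500040600) (nat_lit 50))))))

def c512_128 : Tr := .n c1024_128 c1024_640

def c1024_384 : Tr :=
 .n (.n (.n (.n (.n (.n (.p (nat_lit 0x1e201e001d801e504) (nat_lit 0x1880040000d) (nat_lit 17))
 (.p (nat_lit 0x8fa617b02) (nat_lit 0x521a86b11000100040000) (nat_lit 50)))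
 (.p (nat_lit 0x1b1a1b181b161b1038e338e106) (nat_lit 0x3000082411) (nat_lit 51)))
 (.n (.p (nat_lit 0x3aab167d02) (nat_lit 0x404603) (nat_lit 16))
 (.p (nat_lit 0x2b382a4502) (nat_lit 0x30082b) (nat_lit 5))))
 (.n (.n (.p (nat_lit 0x1d301d2e1d2a1d280022000b00051d331d2d09) (nat_lit 0x2a40900) (nat_lit 10))
 (.p (nat_lit 0x33a22ffd02) (nat_lit 0x440a1e) (nat_lit 4)))
 (.n (.p (nat_lit 0xb4204ef02) (nat_lit 0x400207) (nat_lit 4))
 (.p (nat_lit 0x5d0b198102) (nat_lit 0x120040000700) (nat_lit 41)))))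
 (.n (.n (.n (.p (nat_lit 0x112f0df502) (nat_lit 0x16400) (nat_lit 16))
 (.p (nat_lit 0x380838063804380037fe38ef06) (nat_lit 0x2000080418) (nat_lit 52)))
 (.n (.p (nat_lit 0x44d444d244d044ce44cc08d106) (nat_lit 0x800088105) (nat_lit 51))
 (.p (nat_lit 0x3a803a603a403a203df000b06) (nat_lit 0x50e123) (nat_lit 26))))
 (.n (.n (.p (nat_lit 0x2538253625342532253021a906) (nat_lit 0x80008ea01) (nat_lit 51))
 (.p (nat_lit 0x173c173a17381734173227af06) (nat_lit 0x200004a124) (nat_lit 52)))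
 (.n (.p (nat_lit 0xb63f9302) (nat_lit 0x10030b) (nat_lit 1))
 (.p (nat_lit 0x7985f7902) (nat_lit 0x560bb0344000100000000) (nat_lit 49))))))
 (.n (.n (.n (.n (.p (nat_lit 0xa5a0a580a560a540a520a5006) (nat_lit 0x200) (nat_lit 3))
 (.p (nat_lit 0x138c0a8f02) (nat_lit 0x100515) (nat_lit 4)))
 (.n (.p (nat_lit 0x111e1e1d02) (nat_lit 0x400404) (nat_lit 4))
 (.p (nat_lit 0x48258f502) (nat_lit 0x400502) (nat_lit 27))))
 (.n (.n (.p (nat_lit 0xa05075502) (nat_lit 0x440001) (nat_lit 15))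
 (.p (nat_lit 0x744568d02) (nat_lit 0x240023) (nat_lit 29)))
 (.n (.p (nat_lit 0x22ca059d02) (nat_lit 0x240a07) (nat_lit 5))
 (.p (nat_lit 0x5d6d207302) (nat_lit 0x100080000a00) (nat_lit 38)))))
 (.n (.n (.n (.p (nat_lit 0x18b818b618b418b218b0162b06) (nat_lit 0x10000012700) (nat_lit 52))
 (.p (nat_lit 0xaea0ae60ae40ae20885087d06) (nat_lit 0x880009011c) (nat_lit 52)))
 (.n (.p (nat_lit 0x632235502) (nat_lit 0x500006) (nat_lit 4))
 (.p (nat_lit 0x5dfc339f02) (nat_lit 0x4004e300) (nat_lit 48))))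
 (.n (.n (.p (nat_lit 0x23222320231c231a00800063005d2325231f09) (nat_lit 0x2a40a02) (nat_lit 10))
 (.p (nat_lit 0x4f004ee04ea04e804e6089b06) (nat_lit 0x400000412a) (nat_lit 52)))
 (.n (.p (nat_lit 0x6780676067406720670138906) (nat_lit 0x1000000650e) (nat_lit 51))
 (.p (nat_lit 0x8fa607b02) (nat_lit 0x511a22b85000100040000) (nat_lit 50))))))

def c1024_896 : Tr :=
 .n (.n (.n (.n (.n (.p (nat_lit 0x146065302) (nat_lit 0x340000) (nat_lit 1))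
 (.p (nat_lit 0x50114a2d02) (nat_lit 0x44c713) (nat_lit 16)))
 (.n (.p (nat_lit 0x16ae16ac16aa16a616a425c306) (nat_lit 0x20000ccb03) (nat_lit 51))
 (.p (nat_lit 0x1fbe1fbc1fba1fb81fb63f2f06) (nat_lit 0x100000cc22e) (nat_lit 52))))
 (.n (.n (.p (nat_lit 0x22b822b622b422b022ae1ff706) (nat_lit 0x20000d0a00) (nat_lit 52))
 (.p (nat_lit 0x434a400902) (nat_lit 0x300b20) (nat_lit 5)))
 (.n (.p (nat_lit 0x12d812d612d412d212d010d906) (nat_lit 0x10000084407) (nat_lit 51))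
 (.p (nat_lit 0x5da75e7d02) (nat_lit 0x600a0000800) (nat_lit 37)))))
 (.n (.n (.n (.p (nat_lit 0x14cb121f02) (nat_lit 0x142500) (nat_lit 16))
 (.p (nat_lit 0x49ea49e649e449e249e002fb49e907) (nat_lit 0x40071a) (nat_lit 7)))
 (.n (.p (nat_lit 0x1804228502) (nat_lit 0x340605) (nat_lit 5))
 (.p (nat_lit 0x5dca509b02) (nat_lit 0x20056100) (nat_lit 48))))
 (.n (.n (.p (nat_lit 0x1104188702) (nat_lit 0x300402) (nat_lit 4))
 (.p (nat_lit 0x3e7c404702) (nat_lit 0x500227) (nat_lit 5)))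
 (.n (.p (nat_lit 0x50805060502050004fe503f06) (nat_lit 0x400000680d) (nat_lit 52))
 (.p (nat_lit 0xba85ffb02) (nat_lit 0x16a88cd50000200040000) (nat_lit 49))))))
 (.n (.n (.n (.n (.p (nat_lit 0xda60da40da20da00b390b3706) (nat_lit 0x18000090300) (nat_lit 51))
 (.p (nat_lit 0x28b548302) (nat_lit 0x500915) (nat_lit 30)))
 (.n (.p (nat_lit 0x19501fc702) (nat_lit 0x200704) (nat_lit 4))
 (.p (nat_lit 0x1a2019c019a01980147008f06) (nat_lit 0x1c1630a) (nat_lit 26))))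
 (.n (.n (.p (nat_lit 0x182c1828182618221c1f1c1906) (nat_lit 0x9000000801) (nat_lit 51))
 (.p (nat_lit 0x166211a102) (nat_lit 0x300623) (nat_lit 5)))
 (.n (.p (nat_lit 0x316a2d5302) (nat_lit 0x240409) (nat_lit 4))
 (.p (nat_lit 0x1db65ef102) (nat_lit 0x4a1d22344000300000600) (nat_lit 50)))))
 (.n (.n (.n (.p (nat_lit 0x1bfb190102) (nat_lit 0x406800) (nat_lit 16))
 (.p (nat_lit 0x1d62556702) (nat_lit 0x54081c) (nat_lit 29)))
 (.n (.p (nat_lit 0x1ad24ffd02) (nat_lit 0x540706) (nat_lit 29))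
 (.p (nat_lit 0x5d795e3102) (nat_lit 0x40080000500) (nat_lit 36))))
 (.n (.n (.p (nat_lit 0x35ec35ea35e835e435e20a1906) (nat_lit 0x2000048103) (nat_lit 51))
 (.p (nat_lit 0x1180117e117c117a11760f8306) (nat_lit 0x10000c232a) (nat_lit 52)))
 (.n (.p (nat_lit 0x4c7e4c7c4c7a4c784c74242306) (nat_lit 0x1000012b0e) (nat_lit 51))
 (.p (nat_lit 0x154860fd02) (nat_lit 0x340a623b0000000000600) (nat_lit 50))))))

def c512_384 : Tr := .n c1024_384 c1024_896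

def c256_128 : Tr := .n c512_128 c512_384

def c128_0 : Tr := .n c256_0 c256_128

def c1024_64 : Tr :=
 .n (.n (.n (.n (.n (.n (.p (nat_lit 0x510047003803) (nat_lit 0x42900001) (nat_lit 19))
 (.p (nat_lit 0x1548613102) (nat_lit 0x35486a1b0000000000600) (nat_lit 50)))
 (.p (nat_lit 0x218021d02212795271b05) (nat_lit 0x6a50090f) (nat_lit 9)))
 (.n (.p (nat_lit 0x38083806380438000fa90fa506) (nat_lit 0x28000c0303) (nat_lit 52))
 (.p (nat_lit 0x1c14147702) (nat_lit 0x50082a) (nat_lit 4))))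
 (.n (.n (.p (nat_lit 0x1d261d241d221d201d1e1d1c06) (nat_lit 0xd6800) (nat_lit 52))
 (.p (nat_lit 0x46d646d446d246ce22f522ed06) (nat_lit 0x1100004ea1c) (nat_lit 51)))
 (.n (.p (nat_lit 0x1d9e1d9a1d981d940130011b01151d9d1d9709) (nat_lit 0x2140806) (nat_lit 10))
 (.p (nat_lit 0x5cc116a702) (nat_lit 0x2c0020000600) (nat_lit 41)))))
 (.n (.n (.n (.p (nat_lit 0xefa0ef80ef40ef20ef00c9506) (nat_lit 0x40000ce300) (nat_lit 52))
 (.p (nat_lit 0x4ccc4cca4cc84cc64cc4258706) (nat_lit 0x20000ceb15) (nat_lit 51)))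
 (.n (.p (nat_lit 0xb5432d02) (nat_lit 0xb04) (nat_lit 30))
 (.p (nat_lit 0x20c5adf02) (nat_lit 0x100b10) (nat_lit 27))))
 (.n (.n (.p (nat_lit 0x1ee81ee61ee41ee21ee000351eeb07) (nat_lit 0x500901) (nat_lit 7))
 (.p (nat_lit 0x1d6e56ff02) (nat_lit 0x540823) (nat_lit 29)))
 (.n (.p (nat_lit 0x3630362e362c362a3626374506) (nat_lit 0x10000d620a) (nat_lit 52))
 (.p (nat_lit 0x13fc5f2302) (nat_lit 0x3a2560b44000500040000) (nat_lit 50))))))
 (.n (.n (.n (.n (.p (nat_lit 0x5c605c405c005be05bc000705c307) (nat_lit 0x300100) (nat_lit 7))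
 (.p (nat_lit 0x28553f902) (nat_lit 0x200015) (nat_lit 30)))
 (.n (.p (nat_lit 0x3d2e3d2c3d2a3d283d2408c706) (nat_lit 0x1000088104) (nat_lit 51))
 (.p (nat_lit 0x211621122110210e210c469506) (nat_lit 0x800004c22f) (nat_lit 52))))
 (.n (.n (.p (nat_lit 0x2427215b02) (nat_lit 0x302b00) (nat_lit 16))
 (.p (nat_lit 0xea40ea20ea00e9e0e9c4a4706) (nat_lit 0x10000042721) (nat_lit 52)))
 (.n (.p (nat_lit 0x51825180517e517c517a5178014c07) (nat_lit 0x707) (nat_lit 8))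
 (.p (nat_lit 0x5e883f2902) (nat_lit 0x4004a900) (nat_lit 47)))))
 (.n (.n (.n (.p (nat_lit 0x165f154f02) (nat_lit 0x108600) (nat_lit 16))
 (.p (nat_lit 0x4d604d404d204ce05df05d706) (nat_lit 0x1100000001c) (nat_lit 51)))
 (.n (.p (nat_lit 0x4cc04c804c604c21ac51abf06) (nat_lit 0x9000040705) (nat_lit 52))
 (.p (nat_lit 0x5c915ddf02) (nat_lit 0x2c0000000200) (nat_lit 36))))
 (.n (.n (.p (nat_lit 0x1ef61ef01eee1eec00820061005f1ef51ef309) (nat_lit 0x2300902) (nat_lit 10))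
 (.p (nat_lit 0x21522150214e214c214a458706) (nat_lit 0x8000d0128) (nat_lit 51)))
 (.n (.p (nat_lit 0xc100c0a0c080c060f7d0f7b06) (nat_lit 0xc00004c30e) (nat_lit 52))
 (.p (nat_lit 0x2078602d02) (nat_lit 0x406a62335000400000600) (nat_lit 50))))))

def c1024_576 : Tr :=
 .n (.n (.n (.n (.n (.n (.p (nat_lit 0x39803960394039f04) (nat_lit 0x7000400022) (nat_lit 17))
 (.p (nat_lit 0x21d861a902) (nat_lit 0x340b8ac64000400040600) (nat_lit 50)))
 (.p (nat_lit 0x40863d1d02) (nat_lit 0x200412) (nat_lit 4)))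
 (.n (.p (nat_lit 0x246f21c702) (nat_lit 0x300a03) (nat_lit 15))
 (.p (nat_lit 0x39c439c239c039be39bc330b06) (nat_lit 0x8000d492c) (nat_lit 51))))
 (.n (.n (.p (nat_lit 0xea1e9502) (nat_lit 0x400a00) (nat_lit 1))
 (.p (nat_lit 0x3b4037b502) (nat_lit 0x340a1f) (nat_lit 4)))
 (.n (.p (nat_lit 0xe08067902) (nat_lit 0x400307) (nat_lit 5))
 (.p (nat_lit 0x5d8d181502) (nat_lit 0x2000a0000700) (nat_lit 38)))))
 (.n (.n (.n (.p (nat_lit 0x43610c502) (nat_lit 0x100500) (nat_lit 1))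
 (.p (nat_lit 0x41943ec102) (nat_lit 0x100519) (nat_lit 5)))
 (.n (.p (nat_lit 0xfbe223902) (nat_lit 0x140305) (nat_lit 4))
 (.p (nat_lit 0x4980496049404900435047f06) (nat_lit 0x21662d) (nat_lit 26))))
 (.n (.n (.p (nat_lit 0x2d342d302d2e2d2a0761075b06) (nat_lit 0x9000046002) (nat_lit 51))
 (.p (nat_lit 0x33ae316302) (nat_lit 0x440a25) (nat_lit 5)))
 (.n (.p (nat_lit 0x1c5528102) (nat_lit 0x20c) (nat_lit 30))
 (.p (nat_lit 0xd185fa502) (nat_lit 0x588bb0344000300000000) (nat_lit 50))))))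
 (.n (.n (.n (.n (.p (nat_lit 0xbb30ba702) (nat_lit 0x40200) (nat_lit 34))
 (.p (nat_lit 0x16ae16ac16aa16a616a414d906) (nat_lit 0x20000cc515) (nat_lit 51)))
 (.n (.p (nat_lit 0x41ea41e841e441e21519151506) (nat_lit 0xa00004e504) (nat_lit 51))
 (.p (nat_lit 0x8c597902) (nat_lit 0x300704) (nat_lit 27))))
 (.n (.n (.p (nat_lit 0xd010cc502) (nat_lit 0x354201) (nat_lit 16))
 (.p (nat_lit 0x4517088902) (nat_lit 0x14123) (nat_lit 16)))
 (.n (.p (nat_lit 0x300d28cd02) (nat_lit 0x110308) (nat_lit 16))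
 (.p (nat_lit 0x5d2d234502) (nat_lit 0x200060000b00) (nat_lit 40)))))
 (.n (.n (.n (.p (nat_lit 0x19ee19ea19e619e4179b179706) (nat_lit 0xa000048700) (nat_lit 51))
 (.p (nat_lit 0x39fd139d02) (nat_lit 0x31051c) (nat_lit 16)))
 (.n (.p (nat_lit 0x4d424d404d3e4d3c0d030cff06) (nat_lit 0xa000052206) (nat_lit 51))
 (.p (nat_lit 0x5e100fe302) (nat_lit 0x20000400) (nat_lit 46))))
 (.n (.n (.p (nat_lit 0x15e215e015dc15d82463245f06) (nat_lit 0x5000010b02) (nat_lit 52))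
 (.p (nat_lit 0xe740e720e700e6e0e6c0b5d06) (nat_lit 0x1000008622a) (nat_lit 52)))
 (.n (.p (nat_lit 0x2e242e222e202e1e2e1c191506) (nat_lit 0x200009670e) (nat_lit 51))
 (.p (nat_lit 0x114260a702) (nat_lit 0x356068ca4000400040000) (nat_lit 49))))))

def c512_64 : Tr := .n c1024_64 c1024_576

def c1024_320 : Tr :=
 .n (.n (.n (.n (.n (.n (.p (nat_lit 0x14801460140014d04) (nat_lit 0xc800400007) (nat_lit 17))
 (.p (nat_lit 0x634616d02) (nat_lit 0x421aa4394000000040000) (nat_lit 49)))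
 (.p (nat_lit 0x33e02ead02) (nat_lit 0x500b10) (nat_lit 4)))
 (.n (.p (nat_lit 0x167e167c167816761674008d167b07) (nat_lit 0x300603) (nat_lit 7))
 (.p (nat_lit 0x30281f02) (nat_lit 0x30022b) (nat_lit 1))))
 (.n (.n (.p (nat_lit 0x1ecd1bc702) (nat_lit 0x208900) (nat_lit 16))
 (.p (nat_lit 0x2eb0305302) (nat_lit 0x14011e) (nat_lit 4)))
 (.n (.p (nat_lit 0x20a420a220a0209e2061205f06) (nat_lit 0x1800042906) (nat_lit 52))
 (.p (nat_lit 0x5ce3181902) (nat_lit 0xa0020000700) (nat_lit 40)))))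
 (.n (.n (.n (.p (nat_lit 0x10a810a410a2109e0dfd0df706) (nat_lit 0x9000094400) (nat_lit 52))
 (.p (nat_lit 0xa720a700a6c0a6a0a68339506) (nat_lit 0x40000c0a17) (nat_lit 51)))
 (.n (.p (nat_lit 0x78021f502) (nat_lit 0x240005) (nat_lit 5))
 (.p (nat_lit 0x36c036803660364035703fb06) (nat_lit 0x200e520) (nat_lit 26))))
 (.n (.n (.p (nat_lit 0x2c19204702) (nat_lit 0x4a901) (nat_lit 16))
 (.p (nat_lit 0x17d3259f02) (nat_lit 0x240b23) (nat_lit 15)))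
 (.n (.p (nat_lit 0x3bc83bc43bc23bc03bbe01a13bc707) (nat_lit 0x440b0a) (nat_lit 7))
 (.p (nat_lit 0x233c5f6d02) (nat_lit 0x3aa074b44000500000600) (nat_lit 49))))))
 (.n (.n (.n (.n (.p (nat_lit 0x9b009ac09aa09a80727072306) (nat_lit 0x140000d4100) (nat_lit 52))
 (.p (nat_lit 0x289542102) (nat_lit 0x440415) (nat_lit 30)))
 (.n (.p (nat_lit 0xfb01e0902) (nat_lit 0x40304) (nat_lit 5))
 (.p (nat_lit 0x3400320030002e0003005906) (nat_lit 0x812801) (nat_lit 26))))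
 (.n (.n (.p (nat_lit 0x5f425df02) (nat_lit 0x400001) (nat_lit 29))
 (.p (nat_lit 0x5e805e605e405e003c203ab03a305eb05e309) (nat_lit 0x2900023) (nat_lit 10)))
 (.n (.p (nat_lit 0x200820062002200001540147014120051fff09) (nat_lit 0x1840907) (nat_lit 10))
 (.p (nat_lit 0x5d0f5e9d02) (nat_lit 0xe0040000a00) (nat_lit 36)))))
 (.n (.n (.n (.p (nat_lit 0x60162902) (nat_lit 0x400700) (nat_lit 1))
 (.p (nat_lit 0x87e0e9f02) (nat_lit 0x10011c) (nat_lit 4)))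
 (.n (.p (nat_lit 0x1f921f901f8e1f8a1f881d8d06) (nat_lit 0x20000c8805) (nat_lit 51))
 (.p (nat_lit 0x5cdf5dfb02) (nat_lit 0xe0020000300) (nat_lit 37))))
 (.n (.n (.p (nat_lit 0x1f161f141f121f1021bf21bd06) (nat_lit 0x18000092a02) (nat_lit 51))
 (.p (nat_lit 0x100c100a10081006100450c706) (nat_lit 0x10000042829) (nat_lit 52)))
 (.n (.p (nat_lit 0x3973123502) (nat_lit 0x5040e) (nat_lit 16))
 (.p (nat_lit 0x2497248921dd21cd1f131f0b1c471c451983197516a5169b606c0d) (nat_lit 0x588162b40800000040600) (nat_lit 33))))))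

def c1024_832 : Tr :=
 .n (.n (.n (.n (.n (.n (.p (nat_lit 0x5bf04dd02) (nat_lit 0x100000) (nat_lit 15))
 (.p (nat_lit 0x1f0e61e702) (nat_lit 0x3422b0d64000300040600) (nat_lit 49)))
 (.p (nat_lit 0x22ac22aa22a822a622a2484d06) (nat_lit 0x1000050413) (nat_lit 52)))
 (.n (.p (nat_lit 0x25c41bbd02) (nat_lit 0x340b03) (nat_lit 5))
 (.p (nat_lit 0x3c0439dd02) (nat_lit 0x540b2d) (nat_lit 4))))
 (.n (.n (.p (nat_lit 0x225822542250224e1ffb1ff706) (nat_lit 0xa0000c8a00) (nat_lit 52))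
 (.p (nat_lit 0x42883ff302) (nat_lit 0x440620) (nat_lit 4)))
 (.n (.p (nat_lit 0x40170f7102) (nat_lit 0x452307) (nat_lit 16))
 (.p (nat_lit 0x5d6d1c4f02) (nat_lit 0x100080000800) (nat_lit 41)))))
 (.n (.n (.n (.p (nat_lit 0x142e142c142a14261227121f06) (nat_lit 0x110000c4500) (nat_lit 52))
 (.p (nat_lit 0x214421422140213e213c48c706) (nat_lit 0x1000001051a) (nat_lit 51)))
 (.n (.p (nat_lit 0x23842380237e237c237a169506) (nat_lit 0x8000004605) (nat_lit 52))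
 (.p (nat_lit 0x5c9507a102) (nat_lit 0x280000000100) (nat_lit 40))))
 (.n (.n (.p (nat_lit 0x30130e3902) (nat_lit 0x400302) (nat_lit 16))
 (.p (nat_lit 0x3d7a403102) (nat_lit 0x500127) (nat_lit 4)))
 (.n (.p (nat_lit 0x4f1652a702) (nat_lit 0x14040d) (nat_lit 29))
 (.p (nat_lit 0x180c5fed02) (nat_lit 0x306a81d31000100000600) (nat_lit 49))))))
 (.n (.n (.n (.n (.p (nat_lit 0xd400d3e0d380d360b350b3306) (nat_lit 0x6000002300) (nat_lit 51))
 (.p (nat_lit 0x1bfd1bf102) (nat_lit 0x508815) (nat_lit 16)))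
 (.n (.p (nat_lit 0x1aea1ae81ae61ae41ae217f306) (nat_lit 0x800050604) (nat_lit 51))
 (.p (nat_lit 0x16f5a1d02) (nat_lit 0x208) (nat_lit 28))))
 (.n (.n (.p (nat_lit 0x75114f102) (nat_lit 0x240501) (nat_lit 15))
 (.p (nat_lit 0xe9a0e980e960e940e920ca706) (nat_lit 0x8000c0223) (nat_lit 52)))
 (.n (.p (nat_lit 0x301b301102) (nat_lit 0x308309) (nat_lit 16))
 (.p (nat_lit 0xd0e5ee102) (nat_lit 0x4a8d84344000300000000) (nat_lit 49)))))
 (.n (.n (.n (.p (nat_lit 0x1b9c1b9a1b941b9218ff18fd06) (nat_lit 0x6000014800) (nat_lit 52))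
 (.p (nat_lit 0x1bf8555702) (nat_lit 0x30081c) (nat_lit 29)))
 (.n (.p (nat_lit 0x15821580157e157a196f196706) (nat_lit 0x11000004706) (nat_lit 52))
 (.p (nat_lit 0x5cf512a502) (nat_lit 0x280040000500) (nat_lit 40))))
 (.n (.n (.p (nat_lit 0x357e357a35783576357408c106) (nat_lit 0x8000008103) (nat_lit 52))
 (.p (nat_lit 0x109c109a1098109410920e1d06) (nat_lit 0x200001432a) (nat_lit 52)))
 (.n (.p (nat_lit 0x22d2534d02) (nat_lit 0x40a0e) (nat_lit 29))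
 (.p (nat_lit 0x64260f102) (nat_lit 0x440d623a4000000040000) (nat_lit 50))))))

def c512_320 : Tr := .n c1024_320 c1024_832

def c256_64 : Tr := .n c512_64 c512_320

def c1024_192 : Tr :=
 .n (.n (.n (.n (.n (.n (.p (nat_lit 0xb800b400c303) (nat_lit 0x2800500004) (nat_lit 17))
 (.p (nat_lit 0x1c46614f02) (nat_lit 0x3503a0d84000200040600) (nat_lit 50)))
 (.p (nat_lit 0x3979317902) (nat_lit 0x352410) (nat_lit 16)))
 (.n (.p (nat_lit 0x1507126702) (nat_lit 0x140403) (nat_lit 15))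
 (.p (nat_lit 0x21a0583102) (nat_lit 0x200a2a) (nat_lit 29))))
 (.n (.n (.p (nat_lit 0x1dfc1dfa1df61df41bcd1bc706) (nat_lit 0x12000084900) (nat_lit 51))
 (.p (nat_lit 0x2b20289f02) (nat_lit 0x81d) (nat_lit 5)))
 (.n (.p (nat_lit 0xe41efb02) (nat_lit 0x100906) (nat_lit 1))
 (.p (nat_lit 0x5d6516a102) (nat_lit 0x180080000600) (nat_lit 39)))))
 (.n (.n (.n (.p (nat_lit 0xdfe0fdf02) (nat_lit 0x500400) (nat_lit 4))
 (.p (nat_lit 0x2cf62edf02) (nat_lit 0x200017) (nat_lit 5)))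
 (.n (.p (nat_lit 0x25d425d025ce25cc00ca00bd00b525d325cb09) (nat_lit 0x2040b04) (nat_lit 10))
 (.p (nat_lit 0x2ed5b5902) (nat_lit 0x400b19) (nat_lit 28))))
 (.n (.n (.p (nat_lit 0x20482bd302) (nat_lit 0x140901) (nat_lit 29))
 (.p (nat_lit 0x244d219902) (nat_lit 0x400a23) (nat_lit 15)))
 (.n (.p (nat_lit 0x3a383a363a323a303a2e396d06) (nat_lit 0x40000c440a) (nat_lit 52))
 (.p (nat_lit 0x248f248b21d921d51f1b1f071c471c431983197516ad16995f480d) (nat_lit 0x1a2522350000000040600) (nat_lit 33))))))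
 (.n (.n (.n (.n (.p (nat_lit 0x8bf05c302) (nat_lit 0x310100) (nat_lit 16))
 (.p (nat_lit 0x3543072f02) (nat_lit 0x350015) (nat_lit 16)))
 (.n (.p (nat_lit 0x3e770b8702) (nat_lit 0x208204) (nat_lit 16))
 (.p (nat_lit 0x254e254c254a254825464d0706) (nat_lit 0x10000090230) (nat_lit 52))))
 (.n (.n (.p (nat_lit 0x253625342532253022c522bb06) (nat_lit 0x108000ceb00) (nat_lit 51))
 (.p (nat_lit 0x39b567902) (nat_lit 0x440722) (nat_lit 30)))
 (.n (.p (nat_lit 0x1bd8519b02) (nat_lit 0x500807) (nat_lit 29))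
 (.p (nat_lit 0x5e903e8902) (nat_lit 0xa000a900) (nat_lit 48)))))
 (.n (.n (.n (.p (nat_lit 0x1760175c175a175616b916b306) (nat_lit 0x90000d0600) (nat_lit 51))
 (.p (nat_lit 0x73e073a073807340326030f0309073d073709) (nat_lit 0x214001c) (nat_lit 10)))
 (.n (.p (nat_lit 0x1c2822a902) (nat_lit 0x300805) (nat_lit 4))
 (.p (nat_lit 0x5d7d0baf02) (nat_lit 0x80000200) (nat_lit 39))))
 (.n (.n (.p (nat_lit 0x1bc01bbe1bbc1bb81bb6205706) (nat_lit 0x20000d6902) (nat_lit 51))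
 (.p (nat_lit 0x1144c8902) (nat_lit 0x140129) (nat_lit 1)))
 (.n (.p (nat_lit 0x10ef10e302) (nat_lit 0x40640e) (nat_lit 16))
 (.p (nat_lit 0x1820604d02) (nat_lit 0x406a6254c800100000600) (nat_lit 50))))))

def c1024_704 : Tr :=
 .n (.n (.n (.n (.n (.n (.p (nat_lit 0x4e404e204e004dc04da000504df07) (nat_lit 0x200000) (nat_lit 7))
 (.p (nat_lit 0x12a712990fe10fdd0d150d0d0a550a4507a9079f04cf04c561c80d) (nat_lit 0x3421684a0800000000000) (nat_lit 33)))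
 (.p (nat_lit 0x7c207c007be07bc07ba422106) (nat_lit 0x800086612) (nat_lit 52)))
 (.n (.p (nat_lit 0x8f208ee08ec08ea08e8247106) (nat_lit 0x8000082b03) (nat_lit 52))
 (.p (nat_lit 0x36d63a2b02) (nat_lit 0x40022d) (nat_lit 5))))
 (.n (.n (.p (nat_lit 0x21631e8f02) (nat_lit 0x100a00) (nat_lit 16))
 (.p (nat_lit 0x3d083fc502) (nat_lit 0x440020) (nat_lit 4)))
 (.n (.p (nat_lit 0xf720f700f6e0f6a0f6801450f6d07) (nat_lit 0x240307) (nat_lit 7))
 (.p (nat_lit 0x5e6c38e102) (nat_lit 0x20002800) (nat_lit 47)))))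
 (.n (.n (.n (.p (nat_lit 0x1370136c1368136610cb10c706) (nat_lit 0xa000016500) (nat_lit 52))
 (.p (nat_lit 0x42c83eef02) (nat_lit 0x719) (nat_lit 4)))
 (.n (.p (nat_lit 0x13d2225b02) (nat_lit 0x505) (nat_lit 5))
 (.p (nat_lit 0x5cfb5db702) (nat_lit 0x220040000000) (nat_lit 37))))
 (.n (.n (.p (nat_lit 0xb6e19bd02) (nat_lit 0x200202) (nat_lit 5))
 (.p (nat_lit 0x375438ab02) (nat_lit 0x340226) (nat_lit 5)))
 (.n (.p (nat_lit 0x49c843ed02) (nat_lit 0x70c) (nat_lit 4))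
 (.p (nat_lit 0x1ade5fcf02) (nat_lit 0x9582ec05000200000600) (nat_lit 49))))))
 (.n (.n (.n (.n (.p (nat_lit 0xc9109cf02) (nat_lit 0x140200) (nat_lit 15))
 (.p (nat_lit 0x191c0c1d02) (nat_lit 0x715) (nat_lit 4)))
 (.n (.p (nat_lit 0x1955168902) (nat_lit 0x400604) (nat_lit 15))
 (.p (nat_lit 0x11959c902) (nat_lit 0x300106) (nat_lit 28))))
 (.n (.n (.p (nat_lit 0x2b299f02) (nat_lit 0x40401) (nat_lit 30))
 (.p (nat_lit 0x3df509e702) (nat_lit 0x152123) (nat_lit 16)))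
 (.n (.p (nat_lit 0x2bdc26a502) (nat_lit 0x40908) (nat_lit 4))
 (.p (nat_lit 0x7985ec502) (nat_lit 0x260b84344000100000000) (nat_lit 49)))))
 (.n (.n (.n (.p (nat_lit 0x1aa1179b02) (nat_lit 0x448700) (nat_lit 16))
 (.p (nat_lit 0x17c60d7702) (nat_lit 0x24061c) (nat_lit 5)))
 (.n (.p (nat_lit 0x128c250302) (nat_lit 0x240406) (nat_lit 4))
 (.p (nat_lit 0x5da90fdf02) (nat_lit 0x400a0000400) (nat_lit 38))))
 (.n (.n (.p (nat_lit 0x89343502) (nat_lit 0x100003) (nat_lit 30))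
 (.p (nat_lit 0x12aa12a812a412a00cb90cb506) (nat_lit 0x500004a22a) (nat_lit 51)))
 (.n (.p (nat_lit 0x53325330532e532c532a532801f41d471d451d430a) (nat_lit 0xd14080e) (nat_lit 31))
 (.p (nat_lit 0xe6e60d102) (nat_lit 0x35052a3a4000300040000) (nat_lit 49))))))

def c512_192 : Tr := .n c1024_192 c1024_704

def c1024_448 : Tr :=
 .n (.n (.n (.n (.n (.n (.p (nat_lit 0x28a02880280028d04) (nat_lit 0x18800400015) (nat_lit 17))
 (.p (nat_lit 0x1c48618902) (nat_lit 0x340b86c64000200040600) (nat_lit 50)))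
 (.p (nat_lit 0x1bc01bbc1bba1bb81bb6397b06) (nat_lit 0x80000d6411) (nat_lit 51)))
 (.n (.p (nat_lit 0x18961894188e188c17ed17eb06) (nat_lit 0x60000c8603) (nat_lit 52))
 (.p (nat_lit 0x2c222c202c1c2c1a2c1804692c1f07) (nat_lit 0x34092b) (nat_lit 7))))
 (.n (.n (.p (nat_lit 0x1fc01fbe1fbc1fb61d2d1d2b06) (nat_lit 0x30000cc900) (nat_lit 52))
 (.p (nat_lit 0x8a354d02) (nat_lit 0x24001f) (nat_lit 1)))
 (.n (.p (nat_lit 0xb570b3f02) (nat_lit 0x208207) (nat_lit 16))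
 (.p (nat_lit 0x5d275e5d02) (nat_lit 0x260060000700) (nat_lit 36)))))
 (.n (.n (.n (.p (nat_lit 0x11721170116e116a0f670f5f06) (nat_lit 0x11000042400) (nat_lit 51))
 (.p (nat_lit 0x2cf54c102) (nat_lit 0x618) (nat_lit 30)))
 (.n (.p (nat_lit 0xeb45a702) (nat_lit 0x400205) (nat_lit 30))
 (.p (nat_lit 0x3565c1302) (nat_lit 0x400226) (nat_lit 27))))
 (.n (.n (.p (nat_lit 0x231623142312231000440035002b2319230f09) (nat_lit 0x2840a01) (nat_lit 10))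
 (.p (nat_lit 0x11741170116e116c116a2bc106) (nat_lit 0x8000002924) (nat_lit 51)))
 (.n (.p (nat_lit 0x4087407b02) (nat_lit 0x20440b) (nat_lit 16))
 (.p (nat_lit 0x15425f8d02) (nat_lit 0x581a30344000000000600) (nat_lit 50))))))
 (.n (.n (.n (.n (.p (nat_lit 0xa7e0a7c0a7a0a760a74087506) (nat_lit 0x2000008200) (nat_lit 52))
 (.p (nat_lit 0x13f213f013ee13ec13ea139506) (nat_lit 0x1000008a515) (nat_lit 52)))
 (.n (.p (nat_lit 0x127812741272127000de00bf00bb127b127709) (nat_lit 0x2b40404) (nat_lit 10))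
 (.p (nat_lit 0x8e008a00880086000701a306) (nat_lit 0x1d16003) (nat_lit 26))))
 (.n (.n (.p (nat_lit 0xa0216e502) (nat_lit 0x340101) (nat_lit 5))
 (.p (nat_lit 0x4b97074702) (nat_lit 0x356023) (nat_lit 16)))
 (.n (.p (nat_lit 0x4ace4aca4ac84ac64ac4241d06) (nat_lit 0x8000086b07) (nat_lit 51))
 (.p (nat_lit 0x5cbd5ead02) (nat_lit 0xb00) (nat_lit 37)))))
 (.n (.n (.n (.p (nat_lit 0x18fd162502) (nat_lit 0x200700) (nat_lit 15))
 (.p (nat_lit 0x9e209e009de09da031a030b030709dd09d909) (nat_lit 0x104011c) (nat_lit 10)))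
 (.n (.p (nat_lit 0x8e024b502) (nat_lit 0x200106) (nat_lit 5))
 (.p (nat_lit 0x5d655e0702) (nat_lit 0x180080000300) (nat_lit 37))))
 (.n (.n (.p (nat_lit 0x197a1978197219702321231f06) (nat_lit 0x60000cea02) (nat_lit 52))
 (.p (nat_lit 0x9fa09f809f609f209f0043909f507) (nat_lit 0x24012a) (nat_lit 7)))
 (.n (.p (nat_lit 0x4fc04fa04f804f604f414c906) (nat_lit 0x8000c450e) (nat_lit 52))
 (.p (nat_lit 0x8fc608d02) (nat_lit 0x342221ca4000100040000) (nat_lit 50))))))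

def c1024_960 : Tr :=
 .n (.n (.n (.n (.n (.p (nat_lit 0x690068e068c06880657064f06) (nat_lit 0x11000048000) (nat_lit 52))
 (.p (nat_lit 0x4f204c4d02) (nat_lit 0x40414) (nat_lit 4)))
 (.n (.p (nat_lit 0x6123c0902) (nat_lit 0x100004) (nat_lit 29))
 (.p (nat_lit 0x429e41dd02) (nat_lit 0x34062e) (nat_lit 5))))
 (.n (.n (.p (nat_lit 0x114215702) (nat_lit 0x100b00) (nat_lit 1))
 (.p (nat_lit 0xe844a302) (nat_lit 0x340021) (nat_lit 1)))
 (.n (.p (nat_lit 0x1230052b02) (nat_lit 0x440407) (nat_lit 5))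
 (.p (nat_lit 0x5cb71f0502) (nat_lit 0x60000000900) (nat_lit 39)))))
 (.n (.n (.n (.p (nat_lit 0x1552154702) (nat_lit 0x300600) (nat_lit 5))
 (.p (nat_lit 0x4f324d1702) (nat_lit 0x34041b) (nat_lit 5)))
 (.n (.p (nat_lit 0x64a0648064606440640195b06) (nat_lit 0x1000080705) (nat_lit 51))
 (.p (nat_lit 0x5d2b5dd302) (nat_lit 0x220060000100) (nat_lit 36))))
 (.n (.n (.p (nat_lit 0x59317f02) (nat_lit 0x502) (nat_lit 30))
 (.p (nat_lit 0x42e240d702) (nat_lit 0x100727) (nat_lit 4)))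
 (.n (.p (nat_lit 0xe0e090302) (nat_lit 0x10030e) (nat_lit 5))
 (.p (nat_lit 0x1ae0600f02) (nat_lit 0x405aa0b94800200000600) (nat_lit 50))))))
 (.n (.n (.n (.n (.p (nat_lit 0xe470b3902) (nat_lit 0x510300) (nat_lit 16))
 (.p (nat_lit 0x21800b0902) (nat_lit 0x400a15) (nat_lit 4)))
 (.n (.p (nat_lit 0x1d0e1d0a1d081d041955194f06) (nat_lit 0x9000094704) (nat_lit 51))
 (.p (nat_lit 0x28a5a7702) (nat_lit 0x50030e) (nat_lit 27))))
 (.n (.n (.p (nat_lit 0x2b482b462b442b422b402b3e003607) (nat_lit 0x40801) (nat_lit 8))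
 (.p (nat_lit 0x3e6193d02) (nat_lit 0x400723) (nat_lit 1)))
 (.n (.p (nat_lit 0x66e066c066a06660664332706) (nat_lit 0x2000084a09) (nat_lit 51))
 (.p (nat_lit 0x15425f0f02) (nat_lit 0x3a2570344000000000600) (nat_lit 50)))))
 (.n (.n (.n (.p (nat_lit 0x1a641a621a601a5e1a5c000b1a6707) (nat_lit 0x540800) (nat_lit 7))
 (.p (nat_lit 0x1ed11ec502) (nat_lit 0x40a91c) (nat_lit 16)))
 (.n (.p (nat_lit 0x1c36254302) (nat_lit 0x400806) (nat_lit 5))
 (.p (nat_lit 0x5d9312ab02) (nat_lit 0x1a00a0000500) (nat_lit 40))))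
 (.n (.n (.p (nat_lit 0x36c50b7902) (nat_lit 0x108203) (nat_lit 16))
 (.p (nat_lit 0x4253166b02) (nat_lit 0x11262a) (nat_lit 16)))
 (.n (.p (nat_lit 0x2994275502) (nat_lit 0x10040f) (nat_lit 5))
 (.p (nat_lit 0xe6e611302) (nat_lit 0x34252a1b0000300040000) (nat_lit 49))))))

def c512_448 : Tr := .n c1024_448 c1024_960

def c256_192 : Tr := .n c512_192 c512_448

def c128_64 : Tr := .n c256_64 c256_192

def c64_0 : Tr := .n c128_0 c128_64

def c1024_32 : Tr :=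
 .n (.n (.n (.n (.n (.n (.p (nat_lit 0x320030002a003704) (nat_lit 0xc800400001) (nat_lit 17))
 (.p (nat_lit 0xbb6612b02) (nat_lit 0x35486a3b0000200040000) (nat_lit 50)))
 (.p (nat_lit 0x2b12278102) (nat_lit 0x50080f) (nat_lit 5)))
 (.n (.p (nat_lit 0xfa61ca702) (nat_lit 0x140303) (nat_lit 5))
 (.p (nat_lit 0x1aaa146702) (nat_lit 0x34072a) (nat_lit 5))))
 (.n (.n (.p (nat_lit 0x1d021d001cfe1cfc1cfa1a5d06) (nat_lit 0x800054800) (nat_lit 51))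
 (.p (nat_lit 0x22ea0dd102) (nat_lit 0x40a1c) (nat_lit 4)))
 (.n (.p (nat_lit 0x50671c3902) (nat_lit 0x506806) (nat_lit 16))
 (.p (nat_lit 0x5cdd169b02) (nat_lit 0x100020000600) (nat_lit 39)))))
 (.n (.n (.n (.p (nat_lit 0xebe0ebc0eba0eb40c930c9106) (nat_lit 0x300004a300) (nat_lit 51))
 (.p (nat_lit 0x1647242f02) (nat_lit 0x100b15) (nat_lit 15)))
 (.n (.p (nat_lit 0x1d021d001cfe1cfa1ab51ab106) (nat_lit 0x2800054704) (nat_lit 51))
 (.p (nat_lit 0x20b5ab502) (nat_lit 0x30f) (nat_lit 28))))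
 (.n (.n (.p (nat_lit 0x2b6f1d8702) (nat_lit 0x548801) (nat_lit 16))
 (.p (nat_lit 0x1c111c0502) (nat_lit 0x300823) (nat_lit 16)))
 (.n (.p (nat_lit 0x36be521d02) (nat_lit 0x40020a) (nat_lit 29))
 (.p (nat_lit 0x181c5f1f02) (nat_lit 0x1a2260b50000100000600) (nat_lit 50))))))
 (.n (.n (.n (.n (.p (nat_lit 0x783065302) (nat_lit 0x354000) (nat_lit 16))
 (.p (nat_lit 0x50a24bff02) (nat_lit 0x540814) (nat_lit 4)))
 (.n (.p (nat_lit 0xa29077902) (nat_lit 0x440004) (nat_lit 15))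
 (.p (nat_lit 0x460c488102) (nat_lit 0x50022f) (nat_lit 4))))
 (.n (.n (.p (nat_lit 0x23f823f623f423f0215f215706) (nat_lit 0x11000090b00) (nat_lit 51))
 (.p (nat_lit 0xf400f3c0f3a0f3849f749f306) (nat_lit 0x14000094721) (nat_lit 51)))
 (.n (.p (nat_lit 0x3a8d162f02) (nat_lit 0x110607) (nat_lit 16))
 (.p (nat_lit 0x5d0b1db102) (nat_lit 0x120040000900) (nat_lit 40)))))
 (.n (.n (.n (.p (nat_lit 0x161e161c161816161614155306) (nat_lit 0x4000094600) (nat_lit 51))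
 (.p (nat_lit 0x5d80e8902) (nat_lit 0x20001c) (nat_lit 5)))
 (.n (.p (nat_lit 0x1abc4a0f02) (nat_lit 0x40705) (nat_lit 29))
 (.p (nat_lit 0x5dda2bf302) (nat_lit 0xa004c100) (nat_lit 48))))
 (.n (.n (.p (nat_lit 0x1eec328502) (nat_lit 0x902) (nat_lit 29))
 (.p (nat_lit 0x22a0229e229a22982296451d06) (nat_lit 0x400008e128) (nat_lit 52)))
 (.n (.p (nat_lit 0x28a0f7f02) (nat_lit 0x54030e) (nat_lit 1))
 (.p (nat_lit 0x1820602502) (nat_lit 0x406a6252d000100000600) (nat_lit 50))))))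

def c1024_544 : Tr :=
 .n (.n (.n (.n (.n (.n (.p (nat_lit 0x3350333031403) (nat_lit 0xa230001c) (nat_lit 19))
 (.p (nat_lit 0x64a61a502) (nat_lit 0x3222a5c15000000040000) (nat_lit 50)))
 (.p (nat_lit 0x3bd235b502) (nat_lit 0x440b11) (nat_lit 5)))
 (.n (.p (nat_lit 0x1e4e1e4c1e4a1e4621c521c106) (nat_lit 0x280000ca03) (nat_lit 52))
 (.p (nat_lit 0x30aa323502) (nat_lit 0x44032c) (nat_lit 4))))
 (.n (.n (.p (nat_lit 0x20491d2b02) (nat_lit 0x14c900) (nat_lit 16))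
 (.p (nat_lit 0x3a74382902) (nat_lit 0x14051f) (nat_lit 5)))
 (.n (.p (nat_lit 0x2f8d0c9b02) (nat_lit 0x4e207) (nat_lit 16))
 (.p (nat_lit 0x5da7182102) (nat_lit 0x600a0000700) (nat_lit 40)))))
 (.n (.n (.n (.p (nat_lit 0x125f0f6302) (nat_lit 0x34e400) (nat_lit 16))
 (.p (nat_lit 0x3cf63e1902) (nat_lit 0x140019) (nat_lit 5)))
 (.n (.p (nat_lit 0xe5c223302) (nat_lit 0x400305) (nat_lit 4))
 (.p (nat_lit 0x5c6e5c6c5c6a5c685c6401c7044007) (nat_lit 0x102a2a) (nat_lit 25))))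
 (.n (.n (.p (nat_lit 0x5b2d0b02) (nat_lit 0x140002) (nat_lit 30))
 (.p (nat_lit 0x32fe314b02) (nat_lit 0x40925) (nat_lit 4)))
 (.n (.p (nat_lit 0x43043c4f02) (nat_lit 0x14070b) (nat_lit 4))
 (.p (nat_lit 0x6345f9f02) (nat_lit 0x589832b44000000040000) (nat_lit 49))))))
 (.n (.n (.n (.n (.p (nat_lit 0xb61087302) (nat_lit 0x10c200) (nat_lit 16))
 (.p (nat_lit 0xa5a0a580a560a540a5214d506) (nat_lit 0x800044515) (nat_lit 51)))
 (.n (.p (nat_lit 0x15121fa102) (nat_lit 0x140504) (nat_lit 5))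
 (.p (nat_lit 0xb9596102) (nat_lit 0x200404) (nat_lit 28))))
 (.n (.n (.p (nat_lit 0xcc80cc60cc40cc20cbe002d0cc107) (nat_lit 0x140201) (nat_lit 7))
 (.p (nat_lit 0x2080207e207c207a2078088906) (nat_lit 0x800014123) (nat_lit 51)))
 (.n (.p (nat_lit 0x286c25f502) (nat_lit 0x340208) (nat_lit 4))
 (.p (nat_lit 0x5cf1249102) (nat_lit 0x2c0040000b00) (nat_lit 41)))))
 (.n (.n (.n (.p (nat_lit 0x179c179617941792002400090007179b179909) (nat_lit 0x2340700) (nat_lit 10))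
 (.p (nat_lit 0x1180117e117c117a1176139906) (nat_lit 0x100008251c) (nat_lit 52)))
 (.n (.p (nat_lit 0xba0238102) (nat_lit 0x300206) (nat_lit 4))
 (.p (nat_lit 0x5ce5113d02) (nat_lit 0x80020000400) (nat_lit 39))))
 (.n (.n (.p (nat_lit 0x24661a4f02) (nat_lit 0x500b02) (nat_lit 4))
 (.p (nat_lit 0xb5c142502) (nat_lit 0x50022a) (nat_lit 5)))
 (.n (.p (nat_lit 0x17ae095902) (nat_lit 0x24060e) (nat_lit 4))
 (.p (nat_lit 0x197a609f02) (nat_lit 0x344588ca4000100040600) (nat_lit 49))))))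

def c512_32 : Tr := .n c1024_32 c1024_544

def c1024_288 : Tr :=
 .n (.n (.n (.n (.n (.n (.p (nat_lit 0x11c011a0112011f04) (nat_lit 0x18800400006) (nat_lit 17))
 (.p (nat_lit 0x181c616302) (nat_lit 0x421aa4395000100000600) (nat_lit 50)))
 (.p (nat_lit 0x338c2e0f02) (nat_lit 0x540a10) (nat_lit 5)))
 (.n (.p (nat_lit 0x3a563a543a523a503a4e150f06) (nat_lit 0x10000056503) (nat_lit 51))
 (.p (nat_lit 0x25aa137702) (nat_lit 0x240b2a) (nat_lit 4))))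
 (.n (.n (.p (nat_lit 0x1e881e861e821e801bcd1bc706) (nat_lit 0x12000096900) (nat_lit 52))
 (.p (nat_lit 0x2da4304102) (nat_lit 0x44001e) (nat_lit 4)))
 (.n (.p (nat_lit 0xe6206302) (nat_lit 0x240906) (nat_lit 1))
 (.p (nat_lit 0x5c935e5302) (nat_lit 0x2a0000000700) (nat_lit 36)))))
 (.n (.n (.n (.p (nat_lit 0x10621060105c105a0dfb0df506) (nat_lit 0x480008e400) (nat_lit 51))
 (.p (nat_lit 0xbd40bd20bd00bce0bca333d06) (nat_lit 0x1000080a17) (nat_lit 52)))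
 (.n (.p (nat_lit 0x43be43bc43ba43b843b6062506) (nat_lit 0x8000004005) (nat_lit 52))
 (.p (nat_lit 0x340033c033a0338030f034506) (nat_lit 0x201281d) (nat_lit 26))))
 (.n (.n (.p (nat_lit 0x1f1a1f181f141f121f10204d06) (nat_lit 0x40000d2901) (nat_lit 51))
 (.p (nat_lit 0x259a10b702) (nat_lit 0x40b23) (nat_lit 4)))
 (.n (.p (nat_lit 0x4fc04fa04f804f404f23b6f06) (nat_lit 0x2000084b0a) (nat_lit 52))
 (.p (nat_lit 0xd0c5f6102) (nat_lit 0x3aa570344000300000000) (nat_lit 49))))))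
 (.n (.n (.n (.n (.p (nat_lit 0x94609420940093e093c072506) (nat_lit 0x80000ca100) (nat_lit 52))
 (.p (nat_lit 0x409310eb02) (nat_lit 0x212415) (nat_lit 16)))
 (.n (.p (nat_lit 0xe4c1e0302) (nat_lit 0x200304) (nat_lit 5))
 (.p (nat_lit 0x320030002c002a000b03d506) (nat_lit 0x2a12401) (nat_lit 26))))
 (.n (.n (.p (nat_lit 0x25bb22c302) (nat_lit 0x44eb00) (nat_lit 16))
 (.p (nat_lit 0x5e20fef02) (nat_lit 0x100023) (nat_lit 4)))
 (.n (.p (nat_lit 0x3cd43cd23cd03ccc3cca1e9d06) (nat_lit 0x200008c907) (nat_lit 51))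
 (.p (nat_lit 0x5cc95e9b02) (nat_lit 0x240020000a00) (nat_lit 37)))))
 (.n (.n (.n (.p (nat_lit 0x17eb16b502) (nat_lit 0x250600) (nat_lit 16))
 (.p (nat_lit 0x741073502) (nat_lit 0x4a01c) (nat_lit 16)))
 (.n (.p (nat_lit 0xbc1d9102) (nat_lit 0x440805) (nat_lit 1))
 (.p (nat_lit 0x5cbd5df502) (nat_lit 0x300) (nat_lit 36))))
 (.n (.n (.p (nat_lit 0x153e153c15381536153421bb06) (nat_lit 0x400000ca02) (nat_lit 52))
 (.p (nat_lit 0x11741170116e116c116a507106) (nat_lit 0x8000002829) (nat_lit 51)))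
 (.n (.p (nat_lit 0x1da81da61da41da21da0123f06) (nat_lit 0x1000005240e) (nat_lit 52))
 (.p (nat_lit 0x181c606502) (nat_lit 0x85ab0335000100000600) (nat_lit 50))))))

def c1024_800 : Tr :=
 .n (.n (.n (.n (.n (.n (.p (nat_lit 0x538053605340532053004db06) (nat_lit 0x80000c000) (nat_lit 52))
 (.p (nat_lit 0x249261df02) (nat_lit 0x3508a5d84000500040600) (nat_lit 50)))
 (.p (nat_lit 0x47e0454302) (nat_lit 0x400413) (nat_lit 5)))
 (.n (.p (nat_lit 0x3b7f247102) (nat_lit 0x402b03) (nat_lit 16))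
 (.p (nat_lit 0x3bac39cd02) (nat_lit 0x300b2d) (nat_lit 4))))
 (.n (.n (.p (nat_lit 0x21ee21e821e621e41ffb1ff906) (nat_lit 0xc000040a00) (nat_lit 51))
 (.p (nat_lit 0x30e424102) (nat_lit 0x400620) (nat_lit 1)))
 (.n (.p (nat_lit 0x249624922490248e0f710f6906) (nat_lit 0x88000d6307) (nat_lit 51))
 (.p (nat_lit 0x5e7236d502) (nat_lit 0x6000a800) (nat_lit 48)))))
 (.n (.n (.n (.p (nat_lit 0x140a1408140614041227121d06) (nat_lit 0x10800042500) (nat_lit 51))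
 (.p (nat_lit 0x486045bd02) (nat_lit 0x54041a) (nat_lit 4)))
 (.n (.p (nat_lit 0x1690211102) (nat_lit 0x200605) (nat_lit 4))
 (.p (nat_lit 0x5d9904cd02) (nat_lit 0x1400a0000000) (nat_lit 38))))
 (.n (.n (.p (nat_lit 0xe382fb902) (nat_lit 0x400302) (nat_lit 29))
 (.p (nat_lit 0x115c115a1156115411523bf506) (nat_lit 0x4000040b26) (nat_lit 51)))
 (.n (.p (nat_lit 0x252c252a2528252625224dc306) (nat_lit 0x100000e30d) (nat_lit 51))
 (.p (nat_lit 0x1db05fe502) (nat_lit 0x3062a1c35000300000600) (nat_lit 50))))))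
 (.n (.n (.n (.n (.p (nat_lit 0xd280d260d240d220d200d1e06) (nat_lit 0x300) (nat_lit 52))
 (.p (nat_lit 0x1a951a8902) (nat_lit 0x448715) (nat_lit 16)))
 (.n (.p (nat_lit 0x11441142113e113c113a17f906) (nat_lit 0x40000c8604) (nat_lit 52))
 (.p (nat_lit 0x14801460142014001b7000506) (nat_lit 0x2a12307) (nat_lit 26))))
 (.n (.n (.p (nat_lit 0x380051004915cf174105) (nat_lit 0xa9940501) (nat_lit 9))
 (.p (nat_lit 0xca856bb02) (nat_lit 0x140223) (nat_lit 29)))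
 (.n (.p (nat_lit 0x5a300d02) (nat_lit 0x100309) (nat_lit 1))
 (.p (nat_lit 0x12a85ed902) (nat_lit 0x4a0d84344000500000000) (nat_lit 50)))))
 (.n (.n (.n (.p (nat_lit 0x1b6c1b661b641b62190118ff06) (nat_lit 0xc00000a800) (nat_lit 52))
 (.p (nat_lit 0x306430623060305e305c1a8f06) (nat_lit 0x10000d271c) (nat_lit 51)))
 (.n (.p (nat_lit 0x2c196702) (nat_lit 0x100706) (nat_lit 1))
 (.p (nat_lit 0x5ccd5e2902) (nat_lit 0x200020000500) (nat_lit 37))))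
 (.n (.n (.p (nat_lit 0x8b8356102) (nat_lit 0x103) (nat_lit 29))
 (.p (nat_lit 0xe22143d02) (nat_lit 0x50032a) (nat_lit 4)))
 (.n (.p (nat_lit 0x22dd201502) (nat_lit 0x54090e) (nat_lit 15))
 (.p (nat_lit 0x8f260eb02) (nat_lit 0x340d623a4000100040000) (nat_lit 49))))))

def c512_288 : Tr := .n c1024_288 c1024_800

def c256_32 : Tr := .n c512_32 c512_288

def c1024_160 : Tr :=
 .n (.n (.n (.n (.n (.n (.p (nat_lit 0x90009702) (nat_lit 0x10000600003) (nat_lit 17))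
 (.p (nat_lit 0x114e614902) (nat_lit 0x350221d84000400040000) (nat_lit 50)))
 (.p (nat_lit 0x38df30fb02) (nat_lit 0x12410) (nat_lit 16)))
 (.n (.p (nat_lit 0x126a1cc302) (nat_lit 0x340403) (nat_lit 5))
 (.p (nat_lit 0x2042582902) (nat_lit 0x44092a) (nat_lit 29))))
 (.n (.n (.p (nat_lit 0x1db71dab02) (nat_lit 0x500900) (nat_lit 34))
 (.p (nat_lit 0x26c028f702) (nat_lit 0x24001d) (nat_lit 4)))
 (.n (.p (nat_lit 0x248a24882486248224801d9906) (nat_lit 0x20000d6806) (nat_lit 52))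
 (.p (nat_lit 0x5d25154702) (nat_lit 0x280060000600) (nat_lit 40)))))
 (.n (.n (.n (.p (nat_lit 0xfcd0c9302) (nat_lit 0x256300) (nat_lit 16))
 (.p (nat_lit 0xc040c020c000bfc0bfa2ba506) (nat_lit 0x200008a916) (nat_lit 52)))
 (.n (.p (nat_lit 0xc200df00cb1fe71e8105) (nat_lit 0xae040b04) (nat_lit 9))
 (.p (nat_lit 0x2815b3102) (nat_lit 0xa15) (nat_lit 28))))
 (.n (.n (.p (nat_lit 0x2b931eeb02) (nat_lit 0x500901) (nat_lit 16))
 (.p (nat_lit 0x22f7202f02) (nat_lit 0x40923) (nat_lit 15)))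
 (.n (.p (nat_lit 0x38dc523702) (nat_lit 0x50040a) (nat_lit 29))
 (.p (nat_lit 0x13fc5f3d02) (nat_lit 0x3a2560c64000500040000) (nat_lit 50))))))
 (.n (.n (.n (.n (.p (nat_lit 0x87705c302) (nat_lit 0x300100) (nat_lit 15))
 (.p (nat_lit 0x7c207c007be07bc07b8072b06) (nat_lit 0x10000c6015) (nat_lit 52)))
 (.n (.p (nat_lit 0xb8a1df102) (nat_lit 0x400204) (nat_lit 5))
 (.p (nat_lit 0x43e4a5f02) (nat_lit 0x54072f) (nat_lit 1))))
 (.n (.n (.p (nat_lit 0x24e424e224e024de22bd22bb06) (nat_lit 0x1800046b00) (nat_lit 52))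
 (.p (nat_lit 0x4fba4d8902) (nat_lit 0x140522) (nat_lit 4)))
 (.n (.p (nat_lit 0x1bce055d02) (nat_lit 0x807) (nat_lit 4))
 (.p (nat_lit 0x5dab5e9102) (nat_lit 0x200a0000900) (nat_lit 36)))))
 (.n (.n (.n (.p (nat_lit 0x17221720171e171c171a16bb06) (nat_lit 0x10000048600) (nat_lit 52))
 (.p (nat_lit 0x34c905df02) (nat_lit 0x51001c) (nat_lit 16)))
 (.n (.p (nat_lit 0x4a231ac702) (nat_lit 0x540705) (nat_lit 16))
 (.p (nat_lit 0x5de409dd02) (nat_lit 0x40048200) (nat_lit 47))))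
 (.n (.n (.p (nat_lit 0x1cc61cc01cbe1cbc205b205906) (nat_lit 0xc0000c8902) (nat_lit 51))
 (.p (nat_lit 0x1144c0f02) (nat_lit 0x100129) (nat_lit 1)))
 (.n (.p (nat_lit 0x1c501c4e1c4a1c481c4610e106) (nat_lit 0x400009040e) (nat_lit 51))
 (.p (nat_lit 0x114a604302) (nat_lit 0x40a96254c800400040000) (nat_lit 50))))))

def c1024_672 : Tr :=
 .n (.n (.n (.n (.n (.n (.p (nat_lit 0x45d044f044203) (nat_lit 0xa100002a) (nat_lit 19))
 (.p (nat_lit 0xbac61c302) (nat_lit 0x3221a9c15000200040000) (nat_lit 49)))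
 (.p (nat_lit 0x41fa53e102) (nat_lit 0x240512) (nat_lit 29)))
 (.n (.p (nat_lit 0x246c1baf02) (nat_lit 0x200b03) (nat_lit 4))
 (.p (nat_lit 0x36523a1f02) (nat_lit 0x44012d) (nat_lit 5))))
 (.n (.n (.p (nat_lit 0x214621442140213e213c1e9306) (nat_lit 0x4000010a00) (nat_lit 51))
 (.p (nat_lit 0x3c5e3fb102) (nat_lit 0x20) (nat_lit 5)))
 (.n (.p (nat_lit 0xe0f0e0302) (nat_lit 0x104307) (nat_lit 16))
 (.p (nat_lit 0x5cd95e6d02) (nat_lit 0x140020000800) (nat_lit 37)))))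
 (.n (.n (.n (.p (nat_lit 0x12f212f012ec12ea10c910c306) (nat_lit 0x4800086500) (nat_lit 51))
 (.p (nat_lit 0x42743ee302) (nat_lit 0x40619) (nat_lit 4)))
 (.n (.p (nat_lit 0x128020ed02) (nat_lit 0x240405) (nat_lit 5))
 (.p (nat_lit 0x5cd104c502) (nat_lit 0x1c0020000000) (nat_lit 38))))
 (.n (.n (.p (nat_lit 0x2e6a2e682e662e642e622e6006) (nat_lit 0xc8102) (nat_lit 52))
 (.p (nat_lit 0x3753364302) (nat_lit 0x240126) (nat_lit 15)))
 (.n (.p (nat_lit 0x487448724870486e47d747d306) (nat_lit 0x1400000240c) (nat_lit 52))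
 (.p (nat_lit 0x20705fc902) (nat_lit 0x9582ec15800400000600) (nat_lit 49))))))
 (.n (.n (.n (.n (.p (nat_lit 0xc180c160c140c1209d709d506) (nat_lit 0x180000cc200) (nat_lit 52))
 (.p (nat_lit 0x2ae17b702) (nat_lit 0x40615) (nat_lit 1)))
 (.n (.p (nat_lit 0x19781976197419721970168b06) (nat_lit 0x1000008e604) (nat_lit 52))
 (.p (nat_lit 0xea00e800e600e200bf000306) (nat_lit 0x2910705) (nat_lit 26))))
 (.n (.n (.p (nat_lit 0x31294102) (nat_lit 0x300401) (nat_lit 30))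
 (.p (nat_lit 0x1f1a1f161f141f121f1009ed06) (nat_lit 0x80000d2123) (nat_lit 51)))
 (.n (.p (nat_lit 0x2b752b4f02) (nat_lit 0x248808) (nat_lit 16))
 (.p (nat_lit 0x5d9f5ec302) (nat_lit 0xe00a0000b00) (nat_lit 36)))))
 (.n (.n (.n (.p (nat_lit 0x1a5d179302) (nat_lit 0x40700) (nat_lit 15))
 (.p (nat_lit 0x4fbb14e302) (nat_lit 0x15651c) (nat_lit 16)))
 (.n (.p (nat_lit 0x11b4e3b02) (nat_lit 0x400406) (nat_lit 30))
 (.p (nat_lit 0x5d610fe902) (nat_lit 0x1c0080000400) (nat_lit 40))))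
 (.n (.n (.p (nat_lit 0x15ee15ec15ea15e815e425b506) (nat_lit 0x10000d0b02) (nat_lit 52))
 (.p (nat_lit 0xcbc0cba0cb60cb20452043b04370cb90cb509) (nat_lit 0x194022a) (nat_lit 10)))
 (.n (.p (nat_lit 0x50471bdd02) (nat_lit 0x11680e) (nat_lit 16))
 (.p (nat_lit 0x114e60cb02) (nat_lit 0x3505623a4000400040000) (nat_lit 50))))))

def c512_160 : Tr := .n c1024_160 c1024_672

def c1024_416 : Tr :=
 .n (.n (.n (.n (.n (.n (.p (nat_lit 0x22802260222022f04) (nat_lit 0x6800400010) (nat_lit 17))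
 (.p (nat_lit 0x1146618302) (nat_lit 0x421a86b15000400040000) (nat_lit 50)))
 (.p (nat_lit 0x397453bb02) (nat_lit 0x140411) (nat_lit 29)))
 (.n (.p (nat_lit 0x17ee1cf502) (nat_lit 0x440603) (nat_lit 4))
 (.p (nat_lit 0x2bc62ac302) (nat_lit 0x10092b) (nat_lit 4))))
 (.n (.n (.p (nat_lit 0x1f7a1f741f721f701d311d2f06) (nat_lit 0xc0000c6900) (nat_lit 52))
 (.p (nat_lit 0x3b9933f702) (nat_lit 0x512b1e) (nat_lit 16)))
 (.n (.p (nat_lit 0x92e092c092a092609240b3f06) (nat_lit 0x2000088207) (nat_lit 52))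
 (.p (nat_lit 0x5d3d5e5b02) (nat_lit 0x100060000700) (nat_lit 37)))))
 (.n (.n (.n (.p (nat_lit 0xf660f620f600f5e0012000900010f650f5d09) (nat_lit 0x2040400) (nat_lit 10))
 (.p (nat_lit 0x1bb41bb01bae1bac1baa39f306) (nat_lit 0x8000016518) (nat_lit 52)))
 (.n (.p (nat_lit 0xcf50a3302) (nat_lit 0x340105) (nat_lit 15))
 (.p (nat_lit 0x3da03d603d203d003e7002f06) (nat_lit 0x2210124) (nat_lit 26))))
 (.n (.n (.p (nat_lit 0x114231102) (nat_lit 0x140a01) (nat_lit 1))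
 (.p (nat_lit 0x2fa1287b02) (nat_lit 0x450224) (nat_lit 16)))
 (.n (.p (nat_lit 0x400e3c1f02) (nat_lit 0x4030b) (nat_lit 5))
 (.p (nat_lit 0x20705f8102) (nat_lit 0x581a22b44000400000600) (nat_lit 49))))))
 (.n (.n (.n (.n (.p (nat_lit 0x87a0a4f02) (nat_lit 0x500200) (nat_lit 4))
 (.p (nat_lit 0x8f208f008ee08ec08e8138d06) (nat_lit 0x1000082515) (nat_lit 52)))
 (.n (.p (nat_lit 0x1270409902) (nat_lit 0x40404) (nat_lit 29))
 (.p (nat_lit 0x62005e005c005a002b000906) (nat_lit 0x416a02) (nat_lit 26))))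
 (.n (.n (.p (nat_lit 0x8aa26df02) (nat_lit 0x500101) (nat_lit 29))
 (.p (nat_lit 0x14241420141c141a0749074506) (nat_lit 0xa000044023) (nat_lit 51)))
 (.n (.p (nat_lit 0x3b3722cf02) (nat_lit 0x450a07) (nat_lit 16))
 (.p (nat_lit 0x5ea621e102) (nat_lit 0x80040a00) (nat_lit 46)))))
 (.n (.n (.n (.p (nat_lit 0x18dc18da18d818d618d4162b06) (nat_lit 0x10000094700) (nat_lit 51))
 (.p (nat_lit 0x9d80ea902) (nat_lit 0x4011c) (nat_lit 4)))
 (.n (.p (nat_lit 0x1e0079102) (nat_lit 0x440006) (nat_lit 1))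
 (.p (nat_lit 0x5d275e0102) (nat_lit 0x260060000300) (nat_lit 36))))
 (.n (.n (.p (nat_lit 0xfde0fdc0fda0fd60fd4231f06) (nat_lit 0x2000048a02) (nat_lit 52))
 (.p (nat_lit 0x6ea06e806e606e20899089706) (nat_lit 0x300009212a) (nat_lit 52)))
 (.n (.p (nat_lit 0x14cc07ed02) (nat_lit 0x24050e) (nat_lit 5))
 (.p (nat_lit 0x2336608102) (nat_lit 0x354221ca4000500000600) (nat_lit 49))))))

def c1024_928 : Tr :=
 .n (.n (.n (.n (.n (.p (nat_lit 0x66c066a066606640657065106) (nat_lit 0x120000c4000) (nat_lit 51))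
 (.p (nat_lit 0x4e2e4baf02) (nat_lit 0x440314) (nat_lit 4)))
 (.n (.p (nat_lit 0x17eb25c302) (nat_lit 0x240b03) (nat_lit 15))
 (.p (nat_lit 0x425441cf02) (nat_lit 0x20062e) (nat_lit 5))))
 (.n (.n (.p (nat_lit 0x22f31ffb02) (nat_lit 0x446a00) (nat_lit 16))
 (.p (nat_lit 0x441246a902) (nat_lit 0x200021) (nat_lit 4)))
 (.n (.p (nat_lit 0x47d110d302) (nat_lit 0x214407) (nat_lit 16))
 (.p (nat_lit 0x5d855e7b02) (nat_lit 0x2800a0000800) (nat_lit 36)))))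
 (.n (.n (.n (.p (nat_lit 0x150b122302) (nat_lit 0x350500) (nat_lit 16))
 (.p (nat_lit 0x2ec4a9d02) (nat_lit 0x44081a) (nat_lit 1)))
 (.n (.p (nat_lit 0x24042402240023fe180917ff06) (nat_lit 0x10800052605) (nat_lit 51))
 (.p (nat_lit 0x5d4b07a702) (nat_lit 0x20060000100) (nat_lit 40))))
 (.n (.n (.p (nat_lit 0x125c310b02) (nat_lit 0x240402) (nat_lit 29))
 (.p (nat_lit 0x1180117e117c117a1176424706) (nat_lit 0x1000082627) (nat_lit 52)))
 (.n (.p (nat_lit 0x1c850e502) (nat_lit 0x20090d) (nat_lit 1))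
 (.p (nat_lit 0x13fe600102) (nat_lit 0x405aa2354800500040000) (nat_lit 50))))))
 (.n (.n (.n (.n (.p (nat_lit 0xe050b3302) (nat_lit 0x200300) (nat_lit 16))
 (.p (nat_lit 0x2020548f02) (nat_lit 0x540915) (nat_lit 29)))
 (.n (.p (nat_lit 0x1b0e1b0c1b0a1b08194f194d06) (nat_lit 0x1800002704) (nat_lit 51))
 (.p (nat_lit 0x1b201b001ae01ac01cd014b06) (nat_lit 0x251660b) (nat_lit 26))))
 (.n (.n (.p (nat_lit 0x1a401a3e1a3c1a3a1a381c2106) (nat_lit 0x10000094801) (nat_lit 52))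
 (.p (nat_lit 0x17d0104302) (nat_lit 0x140623) (nat_lit 4)))
 (.n (.p (nat_lit 0x32d62d6902) (nat_lit 0x140909) (nat_lit 4))
 (.p (nat_lit 0x8fa5ef702) (nat_lit 0x3a2530344000100040000) (nat_lit 50)))))
 (.n (.n (.n (.p (nat_lit 0x861a5d02) (nat_lit 0x40800) (nat_lit 1))
 (.p (nat_lit 0x1ebe0f1702) (nat_lit 0x10091c) (nat_lit 5)))
 (.n (.p (nat_lit 0x1610160e160c160a1ad31ac906) (nat_lit 0x10800054706) (nat_lit 51))
 (.p (nat_lit 0x5e3010d702) (nat_lit 0x80002500) (nat_lit 48))))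
 (.n (.n (.p (nat_lit 0xa2b0a1f02) (nat_lit 0x554103) (nat_lit 16))
 (.p (nat_lit 0x166c57dd02) (nat_lit 0x20062a) (nat_lit 29)))
 (.n (.p (nat_lit 0x1ef536d02) (nat_lit 0x440b0e) (nat_lit 30))
 (.p (nat_lit 0xbac610d02) (nat_lit 0x3425219b0000200040000) (nat_lit 49))))))

def c512_416 : Tr := .n c1024_416 c1024_928

def c256_160 : Tr := .n c512_160 c512_416

def c128_32 : Tr := .n c256_32 c256_160

def c1024_96 : Tr :=
 .n (.n (.n (.n (.n (.n (.p (nat_lit 0x60005c006703) (nat_lit 0xa000500002) (nat_lit 17))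
 (.p (nat_lit 0x2076613502) (nat_lit 0x342a21d84000400000600) (nat_lit 50)))
 (.p (nat_lit 0x2bf02bee2bec2bea2be802152bf307) (nat_lit 0x54090f) (nat_lit 7)))
 (.n (.p (nat_lit 0x110e1cb502) (nat_lit 0x200403) (nat_lit 5))
 (.p (nat_lit 0x1d7a133702) (nat_lit 0x54082a) (nat_lit 5))))
 (.n (.n (.p (nat_lit 0x1d4d1a5d02) (nat_lit 0x44800) (nat_lit 16))
 (.p (nat_lit 0x24400de502) (nat_lit 0x400b1c) (nat_lit 4)))
 (.n (.p (nat_lit 0xfea0fe80fe60fe40fe01d9706) (nat_lit 0x1000048806) (nat_lit 51))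
 (.p (nat_lit 0x5d07153902) (nat_lit 0x160040000600) (nat_lit 38)))))
 (.n (.n (.n (.p (nat_lit 0xf400f3e0f3a0f380c990c9306) (nat_lit 0x120000d4300) (nat_lit 51))
 (.p (nat_lit 0x2ae4283b02) (nat_lit 0x40516) (nat_lit 4)))
 (.n (.p (nat_lit 0xc200d900d51fe51e7f05) (nat_lit 0x88d00b04) (nat_lit 9))
 (.p (nat_lit 0x26602620260025c01e9027106) (nat_lit 0xc0e613) (nat_lit 26))))
 (.n (.n (.p (nat_lit 0xe820e800e7e0e7c0e7a1ee106) (nat_lit 0x800086901) (nat_lit 51))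
 (.p (nat_lit 0x1eca11dd02) (nat_lit 0x100923) (nat_lit 4)))
 (.n (.p (nat_lit 0x1b901b8e1b8a1b881b8637d906) (nat_lit 0x400008c30a) (nat_lit 51))
 (.p (nat_lit 0x181e5f3302) (nat_lit 0x3aa560c44000100000600) (nat_lit 50))))))
 (.n (.n (.n (.n (.p (nat_lit 0x7c207be07bc07ba07b805c506) (nat_lit 0x8000086100) (nat_lit 52))
 (.p (nat_lit 0x7e607e407e207e007de05c906) (nat_lit 0x80000a015) (nat_lit 51)))
 (.n (.p (nat_lit 0xa263d8302) (nat_lit 0x340104) (nat_lit 29))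
 (.p (nat_lit 0x4dd746f502) (nat_lit 0x10c32f) (nat_lit 16))))
 (.n (.n (.p (nat_lit 0x2471215d02) (nat_lit 0x410b00) (nat_lit 16))
 (.p (nat_lit 0x4b884d7502) (nat_lit 0x240022) (nat_lit 5)))
 (.n (.p (nat_lit 0x51825180517e517c517a5178014e190d190919050a) (nat_lit 0x11000707) (nat_lit 31))
 (.p (nat_lit 0x5d251da702) (nat_lit 0x280060000900) (nat_lit 38)))))
 (.n (.n (.n (.p (nat_lit 0x16b016a502) (nat_lit 0x40600) (nat_lit 5))
 (.p (nat_lit 0x153e153c153a1538153405d706) (nat_lit 0x100000c01c) (nat_lit 52)))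
 (.n (.p (nat_lit 0x129e129c129a129812941abf06) (nat_lit 0x100004a705) (nat_lit 52))
 (.p (nat_lit 0x5cdd0a5302) (nat_lit 0x100020000200) (nat_lit 40))))
 (.n (.n (.p (nat_lit 0x1d261d241d221d1e1d1c1ef106) (nat_lit 0x2000096902) (nat_lit 52))
 (.p (nat_lit 0x4990482b02) (nat_lit 0x200628) (nat_lit 5)))
 (.n (.p (nat_lit 0x63e063c063a0638063610db06) (nat_lit 0x80008040e) (nat_lit 52))
 (.p (nat_lit 0x1adc603502) (nat_lit 0x4099a2335000200000600) (nat_lit 49))))))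

def c1024_608 : Tr :=
 .n (.n (.n (.n (.n (.n (.p (nat_lit 0x3bb03b503b303b004) (nat_lit 0x15100023) (nat_lit 20))
 (.p (nat_lit 0x8fc61b302) (nat_lit 0x522266c0d000100040000) (nat_lit 50)))
 (.p (nat_lit 0x41023d9f02) (nat_lit 0x140412) (nat_lit 4)))
 (.n (.p (nat_lit 0x232c1d0b02) (nat_lit 0x340a03) (nat_lit 5))
 (.p (nat_lit 0x12da12d812d612d412d0336106) (nat_lit 0x1000084a2c) (nat_lit 51))))
 (.n (.n (.p (nat_lit 0x20c220c020be20bc1e971e9506) (nat_lit 0x18000084a00) (nat_lit 51))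
 (.p (nat_lit 0x3b96384b02) (nat_lit 0x400b1f) (nat_lit 5)))
 (.n (.p (nat_lit 0xd1a0d180d160d140d120e0b06) (nat_lit 0x10000006307) (nat_lit 51))
 (.p (nat_lit 0x5cb71ae102) (nat_lit 0x60000000800) (nat_lit 40)))))
 (.n (.n (.n (.p (nat_lit 0x10cc10c610c410c200240009000710cb10c909) (nat_lit 0x2300500) (nat_lit 10))
 (.p (nat_lit 0x42043e2f02) (nat_lit 0x140519) (nat_lit 5)))
 (.n (.p (nat_lit 0x4740473e473a473847360fc306) (nat_lit 0x400004e305) (nat_lit 52))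
 (.p (nat_lit 0x5cb104c302) (nat_lit 0xc0000000000) (nat_lit 38))))
 (.n (.n (.p (nat_lit 0x767075b02) (nat_lit 0x152002) (nat_lit 16))
 (.p (nat_lit 0x35c4388702) (nat_lit 0x200126) (nat_lit 4)))
 (.n (.p (nat_lit 0x46e643c102) (nat_lit 0x30c) (nat_lit 4))
 (.p (nat_lit 0x1ade5fbf02) (nat_lit 0x89832955800200000600) (nat_lit 49))))))
 (.n (.n (.n (.n (.p (nat_lit 0xbc80bc40bc20bbe09d509cf06) (nat_lit 0x9000040200) (nat_lit 52))
 (.p (nat_lit 0x72914d502) (nat_lit 0x40515) (nat_lit 15)))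
 (.n (.p (nat_lit 0x168a16861684168000d200bd00b71689168309) (nat_lit 0x2100604) (nat_lit 10))
 (.p (nat_lit 0xec00ea00e400e20007026106) (nat_lit 0x1a0e105) (nat_lit 26))))
 (.n (.n (.p (nat_lit 0x28b228b028ae28ac28aa28a806) (nat_lit 0x12301) (nat_lit 52))
 (.p (nat_lit 0x4cc04ca04c804c604c409e506) (nat_lit 0x800040123) (nat_lit 52)))
 (.n (.p (nat_lit 0x2a062a042a0229fe29fc01732a0107) (nat_lit 0x240408) (nat_lit 7))
 (.p (nat_lit 0x5eba180502) (nat_lit 0x60052b00) (nat_lit 48)))))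
 (.n (.n (.n (.p (nat_lit 0x1a2a1a281a241a221a20179906) (nat_lit 0x40000d2700) (nat_lit 51))
 (.p (nat_lit 0x14e8552902) (nat_lit 0x44051c) (nat_lit 29)))
 (.n (.p (nat_lit 0x4de84de64de44de24de04dde011e07) (nat_lit 0x40306) (nat_lit 8))
 (.p (nat_lit 0x5e140f8502) (nat_lit 0x40040400) (nat_lit 47))))
 (.n (.n (.p (nat_lit 0x33f1246102) (nat_lit 0x206b02) (nat_lit 16))
 (.p (nat_lit 0x1ade1adc1ada1ad81ad40b5506) (nat_lit 0x100001022a) (nat_lit 52)))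
 (.n (.p (nat_lit 0x1d411a7502) (nat_lit 0x4070e) (nat_lit 15))
 (.p (nat_lit 0x198460af02) (nat_lit 0x344589ca4000100040600) (nat_lit 50))))))

def c512_96 : Tr := .n c1024_96 c1024_608

def c1024_352 : Tr :=
 .n (.n (.n (.n (.n (.n (.p (nat_lit 0x15d0155014e03) (nat_lit 0x60800007) (nat_lit 19))
 (.p (nat_lit 0x1140617302) (nat_lit 0x421aa6315000400040000) (nat_lit 49)))
 (.p (nat_lit 0x38de357502) (nat_lit 0x411) (nat_lit 4)))
 (.n (.p (nat_lit 0x18b818b618b418b218b0167f06) (nat_lit 0x10000012603) (nat_lit 52))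
 (.p (nat_lit 0x28882a9d02) (nat_lit 0x54022b) (nat_lit 4))))
 (.n (.n (.p (nat_lit 0x1f111f0502) (nat_lit 0x40900) (nat_lit 34))
 (.p (nat_lit 0x334c2fef02) (nat_lit 0x300a1e) (nat_lit 4)))
 (.n (.p (nat_lit 0x22b822b622b422b02063205f06) (nat_lit 0x28000d0906) (nat_lit 52))
 (.p (nat_lit 0x5e56167702) (nat_lit 0x20012700) (nat_lit 48)))))
 (.n (.n (.n (.p (nat_lit 0x10ed0dfb02) (nat_lit 0x304400) (nat_lit 16))
 (.p (nat_lit 0x353c36e502) (nat_lit 0x40018) (nat_lit 4)))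
 (.n (.p (nat_lit 0x449f077f02) (nat_lit 0x146005) (nat_lit 16))
 (.p (nat_lit 0x39a0398039603920309042706) (nat_lit 0xd10522) (nat_lit 26))))
 (.n (.n (.p (nat_lit 0x21ae2c2b02) (nat_lit 0x300a01) (nat_lit 29))
 (.p (nat_lit 0x273c295b02) (nat_lit 0x400124) (nat_lit 4)))
 (.n (.p (nat_lit 0x52725270526e526c526a526801b807) (nat_lit 0x20b) (nat_lit 8))
 (.p (nat_lit 0x1da65f7302) (nat_lit 0x1aa074b50000300000600) (nat_lit 49))))))
 (.n (.n (.n (.n (.p (nat_lit 0xa07072702) (nat_lit 0x54c100) (nat_lit 16))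
 (.p (nat_lit 0xd3e0d3c0d3a0d36124b124306) (nat_lit 0x11000042415) (nat_lit 51)))
 (.n (.p (nat_lit 0x40003ffe3ffc3ff83ff60fb506) (nat_lit 0x200004e304) (nat_lit 52))
 (.p (nat_lit 0x58e058de58dc58da58d6019b006407) (nat_lit 0x112002) (nat_lit 25))))
 (.n (.n (.p (nat_lit 0x74e264b02) (nat_lit 0x140001) (nat_lit 29))
 (.p (nat_lit 0x12ee12ec12ea12e805eb05e906) (nat_lit 0x18000086023) (nat_lit 51)))
 (.n (.p (nat_lit 0x14951bd02) (nat_lit 0x400a07) (nat_lit 30))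
 (.p (nat_lit 0x5d2d5ea302) (nat_lit 0x200060000a00) (nat_lit 37)))))
 (.n (.n (.n (.p (nat_lit 0x186418621860185e162b162106) (nat_lit 0x10800084700) (nat_lit 52))
 (.p (nat_lit 0xa660a640a620a600a5e087d06) (nat_lit 0x80000011c) (nat_lit 51)))
 (.n (.p (nat_lit 0x1e8a1e881e821e801d8f1d8d06) (nat_lit 0x60000d6805) (nat_lit 52))
 (.p (nat_lit 0x5d1b0d0b02) (nat_lit 0x20040000300) (nat_lit 38))))
 (.n (.n (.p (nat_lit 0x21c921bd02) (nat_lit 0x412a02) (nat_lit 16))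
 (.p (nat_lit 0x89812b102) (nat_lit 0x20012a) (nat_lit 4)))
 (.n (.p (nat_lit 0x146138502) (nat_lit 0x30050e) (nat_lit 1))
 (.p (nat_lit 0xfd6607302) (nat_lit 0x570aa2344000400000000) (nat_lit 49))))))

def c1024_864 : Tr :=
 .n (.n (.n (.n (.n (.n (.p (nat_lit 0x60504db02) (nat_lit 0x10000) (nat_lit 16))
 (.p (nat_lit 0x63861f102) (nat_lit 0x382a31d05000000040000) (nat_lit 49)))
 (.p (nat_lit 0x49d6456b02) (nat_lit 0x100713) (nat_lit 5)))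
 (.n (.p (nat_lit 0xbbc0bba0bb80bb60bb425bf06) (nat_lit 0x8000c4b03) (nat_lit 51))
 (.p (nat_lit 0x3e84413302) (nat_lit 0x30022e) (nat_lit 4))))
 (.n (.n (.p (nat_lit 0x22942290228e228c1ffb1ff306) (nat_lit 0x880004ea00) (nat_lit 51))
 (.p (nat_lit 0x42da3ffd02) (nat_lit 0x300720) (nat_lit 4)))
 (.n (.p (nat_lit 0x43c10d702) (nat_lit 0x400407) (nat_lit 1))
 (.p (nat_lit 0x5d555e7702) (nat_lit 0x280080000800) (nat_lit 36)))))
 (.n (.n (.n (.p (nat_lit 0x1476147414721470146e121d06) (nat_lit 0x800050500) (nat_lit 52))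
 (.p (nat_lit 0x498054e502) (nat_lit 0x61a) (nat_lit 29)))
 (.n (.p (nat_lit 0x1961169502) (nat_lit 0x400605) (nat_lit 15))
 (.p (nat_lit 0x5cd908eb02) (nat_lit 0x140020000100) (nat_lit 39))))
 (.n (.n (.p (nat_lit 0xfa20f9c0f9a0f9800820061005f0fa10f9f09) (nat_lit 0x2340302) (nat_lit 10))
 (.p (nat_lit 0x3df8403902) (nat_lit 0x340127) (nat_lit 5)))
 (.n (.p (nat_lit 0x4ffe4ae702) (nat_lit 0x4070d) (nat_lit 4))
 (.p (nat_lit 0x20745ff502) (nat_lit 0x306a81c35000400000600) (nat_lit 49))))))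
 (.n (.n (.n (.n (.p (nat_lit 0xd640d620d600d5e0d5c0d5a06) (nat_lit 0x8a300) (nat_lit 52))
 (.p (nat_lit 0x36a836a636a436a21d531d5106) (nat_lit 0x6000056815) (nat_lit 51)))
 (.n (.p (nat_lit 0x427717f502) (nat_lit 0x144604) (nat_lit 16))
 (.p (nat_lit 0x18e0188018601840147022b06) (nat_lit 0x1c14209) (nat_lit 26))))
 (.n (.n (.p (nat_lit 0x1c1a174f02) (nat_lit 0x200801) (nat_lit 5))
 (.p (nat_lit 0xdf20dee0dec0dea0caf0ca706) (nat_lit 0x88000d6223) (nat_lit 52)))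
 (.n (.p (nat_lit 0x18de18dc18da18d618d4308f06) (nat_lit 0x20000d4309) (nat_lit 51))
 (.p (nat_lit 0x15345eeb02) (nat_lit 0x4a8876344000000000600) (nat_lit 49)))))
 (.n (.n (.n (.p (nat_lit 0x1bc01bbc1bba1bb8190118f906) (nat_lit 0x8800096800) (nat_lit 51))
 (.p (nat_lit 0x505f1bf502) (nat_lit 0x11681c) (nat_lit 16)))
 (.n (.p (nat_lit 0x4ffc4ffa4ff84ff64ff44ff2011e07) (nat_lit 0x40706) (nat_lit 8))
 (.p (nat_lit 0x5d395e2d02) (nat_lit 0x140060000500) (nat_lit 36))))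
 (.n (.n (.p (nat_lit 0x23c0a1902) (nat_lit 0x240103) (nat_lit 1))
 (.p (nat_lit 0x3a60f8702) (nat_lit 0x34032a) (nat_lit 1)))
 (.n (.p (nat_lit 0x22e522d902) (nat_lit 0x346a0e) (nat_lit 16))
 (.p (nat_lit 0x233660f502) (nat_lit 0x440d623a4000500000600) (nat_lit 49))))))

def c512_352 : Tr := .n c1024_352 c1024_864

def c256_96 : Tr := .n c512_96 c512_352

def c1024_224 : Tr :=
 .n (.n (.n (.n (.n (.n (.p (nat_lit 0xdf00dd00d100c404) (nat_lit 0x76100004) (nat_lit 20))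
 (.p (nat_lit 0x63a615702) (nat_lit 0x1503a8895800000040000) (nat_lit 49)))
 (.p (nat_lit 0x329c2e7902) (nat_lit 0x910) (nat_lit 5)))
 (.n (.p (nat_lit 0x8d398d02) (nat_lit 0x300503) (nat_lit 30))
 (.p (nat_lit 0x245b21a702) (nat_lit 0x500a2a) (nat_lit 15))))
 (.n (.n (.p (nat_lit 0x1e4e1e4c1e461e441bc91bc706) (nat_lit 0x600000c900) (nat_lit 52))
 (.p (nat_lit 0xd640d620d600d5e0d5a2baf06) (nat_lit 0x100008a91d) (nat_lit 52)))
 (.n (.p (nat_lit 0x1f021efc1efa1ef8013a011b01191f011eff09) (nat_lit 0x2300906) (nat_lit 10))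
 (.p (nat_lit 0x5d995e4f02) (nat_lit 0x1400a0000600) (nat_lit 36)))))
 (.n (.n (.n (.p (nat_lit 0x10020ffe0ffa0ff80dfd0df906) (nat_lit 0xa000080400) (nat_lit 52))
 (.p (nat_lit 0x327c2f6302) (nat_lit 0x240517) (nat_lit 4)))
 (.n (.p (nat_lit 0x213a213821342132213025d106) (nat_lit 0x40000ceb04) (nat_lit 51))
 (.p (nat_lit 0x2fd5b7902) (nat_lit 0x50071a) (nat_lit 28))))
 (.n (.n (.p (nat_lit 0x6480646064406420640205106) (nat_lit 0x100000c0901) (nat_lit 51))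
 (.p (nat_lit 0x3b4722f702) (nat_lit 0x50a23) (nat_lit 16)))
 (.n (.p (nat_lit 0x2cdc2cda2cd62cd42cd23a9106) (nat_lit 0x400009460a) (nat_lit 51))
 (.p (nat_lit 0x23405f5502) (nat_lit 0x1a2522350000500000600) (nat_lit 50))))))
 (.n (.n (.n (.n (.p (nat_lit 0x72208ef02) (nat_lit 0x340100) (nat_lit 4))
 (.p (nat_lit 0x10ee0a7d02) (nat_lit 0x400415) (nat_lit 4)))
 (.n (.p (nat_lit 0xcea1f6102) (nat_lit 0x440204) (nat_lit 4))
 (.p (nat_lit 0x12da12d812d612d412d0507706) (nat_lit 0x1000084830) (nat_lit 51))))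
 (.n (.n (.p (nat_lit 0x255c255825562554255222c306) (nat_lit 0x8000052b00) (nat_lit 52))
 (.p (nat_lit 0xd340d320d300d2c0d2a506106) (nat_lit 0x2000080822) (nat_lit 51)))
 (.n (.p (nat_lit 0x1c0f1bd302) (nat_lit 0x208807) (nat_lit 16))
 (.p (nat_lit 0x5c955e9702) (nat_lit 0x280000000a00) (nat_lit 37)))))
 (.n (.n (.n (.p (nat_lit 0x177617741770176e16bb16b506) (nat_lit 0x120000d2600) (nat_lit 52))
 (.p (nat_lit 0x13f413f213f013ee13ec073506) (nat_lit 0x8000ca01c) (nat_lit 52)))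
 (.n (.p (nat_lit 0x1dfe1dfc1df81df41c291c2506) (nat_lit 0x5000084805) (nat_lit 51))
 (.p (nat_lit 0x5d5f0a4d02) (nat_lit 0x1e0080000200) (nat_lit 38))))
 (.n (.n (.p (nat_lit 0x21b818cd02) (nat_lit 0x200a02) (nat_lit 4))
 (.p (nat_lit 0x4d444edf02) (nat_lit 0x40229) (nat_lit 4)))
 (.n (.p (nat_lit 0x123c123a12381236123401f1123f07) (nat_lit 0x54040e) (nat_lit 7))
 (.p (nat_lit 0x2346605302) (nat_lit 0x40a962335000500000600) (nat_lit 50))))))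

def c1024_736 : Tr :=
 .n (.n (.n (.n (.n (.n (.p (nat_lit 0x4ee04ea04e804e604e504e106) (nat_lit 0x14000004000) (nat_lit 52))
 (.p (nat_lit 0x1dae61d102) (nat_lit 0x54216ac0c800300000600) (nat_lit 50)))
 (.p (nat_lit 0x42bc3d4f02) (nat_lit 0x712) (nat_lit 4)))
 (.n (.p (nat_lit 0x140013fe13fa13f813f6246f06) (nat_lit 0x400008ab03) (nat_lit 51))
 (.p (nat_lit 0x1cea1ce61ce41ce21ce0376306) (nat_lit 0x800004c22d) (nat_lit 52))))
 (.n (.n (.p (nat_lit 0x21a51e9502) (nat_lit 0x40aa00) (nat_lit 16))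
 (.p (nat_lit 0x3e4e3e4c3e4a3e483e463d6506) (nat_lit 0x80008c120) (nat_lit 51)))
 (.n (.p (nat_lit 0xbae0bac0baa0ba80ba60f7306) (nat_lit 0x100000c4307) (nat_lit 52))
 (.p (nat_lit 0x5d031ae502) (nat_lit 0x1a0040000800) (nat_lit 40)))))
 (.n (.n (.n (.p (nat_lit 0x13ab10cb02) (nat_lit 0x40c500) (nat_lit 16))
 (.p (nat_lit 0x43123e5b02) (nat_lit 0x240719) (nat_lit 5)))
 (.n (.p (nat_lit 0x13e913dd02) (nat_lit 0x50c505) (nat_lit 16))
 (.p (nat_lit 0x5d395dbd02) (nat_lit 0x140060000000) (nat_lit 36))))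
 (.n (.n (.p (nat_lit 0xcce19c702) (nat_lit 0x240202) (nat_lit 5))
 (.p (nat_lit 0x3b48576302) (nat_lit 0x140a26) (nat_lit 29)))
 (.n (.p (nat_lit 0x4a1a447d02) (nat_lit 0x14070c) (nat_lit 5))
 (.p (nat_lit 0x4c25fd502) (nat_lit 0x382c60b44000000000000) (nat_lit 49))))))
 (.n (.n (.n (.n (.p (nat_lit 0xcd509d702) (nat_lit 0x54e200) (nat_lit 16))
 (.p (nat_lit 0x2ee22ee02ede2edc2eda192706) (nat_lit 0x10000000715) (nat_lit 51)))
 (.n (.p (nat_lit 0x17f41e5302) (nat_lit 0x140604) (nat_lit 5))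
 (.p (nat_lit 0x11c011a011401120007042106) (nat_lit 0x1a10406) (nat_lit 26))))
 (.n (.n (.p (nat_lit 0x1259124d02) (nat_lit 0x50401) (nat_lit 16))
 (.p (nat_lit 0xb4e102502) (nat_lit 0x400223) (nat_lit 5)))
 (.n (.p (nat_lit 0x2c6026b702) (nat_lit 0x340a08) (nat_lit 4))
 (.p (nat_lit 0x1db05ecf02) (nat_lit 0x4a1a34344000300000600) (nat_lit 50)))))
 (.n (.n (.n (.p (nat_lit 0x18fc1ad902) (nat_lit 0x200800) (nat_lit 4))
 (.p (nat_lit 0x309553b02) (nat_lit 0x10071c) (nat_lit 30)))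
 (.n (.p (nat_lit 0x4f084f064f044f024f004efe06) (nat_lit 0xd0406) (nat_lit 52))
 (.p (nat_lit 0x5e200f8b02) (nat_lit 0xa0040400) (nat_lit 47))))
 (.n (.n (.p (nat_lit 0x611060502) (nat_lit 0x14003) (nat_lit 16))
 (.p (nat_lit 0x1db61db41db01dae1dac0cb906) (nat_lit 0x400005222a) (nat_lit 51)))
 (.n (.p (nat_lit 0x1ea8083102) (nat_lit 0x20090e) (nat_lit 4))
 (.p (nat_lit 0x8f260d702) (nat_lit 0x354a623b0000100040000) (nat_lit 49))))))

def c512_224 : Tr := .n c1024_224 c1024_736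

def c1024_480 : Tr :=
 .n (.n (.n (.n (.n (.n (.p (nat_lit 0x2d402d202d002d904) (nat_lit 0xb000400018) (nat_lit 17))
 (.p (nat_lit 0x12a712990fe10fdd0d170d110a530a4b07a9079504d904c561900d) (nat_lit 0x3422a5c14800000000000) (nat_lit 33)))
 (.p (nat_lit 0x2e0e2e0c2e0a2e082e043a9906) (nat_lit 0x1000094611) (nat_lit 51)))
 (.n (.p (nat_lit 0x1a5a1a561a541a521a5017ef06) (nat_lit 0x80000d6603) (nat_lit 52))
 (.p (nat_lit 0x2f40319902) (nat_lit 0x30022c) (nat_lit 4))))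
 (.n (.n (.p (nat_lit 0x1fd61fd41fd01fce1d331d2d06) (nat_lit 0x120000ce900) (nat_lit 52))
 (.p (nat_lit 0x3d03354b02) (nat_lit 0x15401f) (nat_lit 16)))
 (.n (.p (nat_lit 0xc9e066902) (nat_lit 0x240207) (nat_lit 5))
 (.p (nat_lit 0x5d73181f02) (nat_lit 0xa0080000700) (nat_lit 40)))))
 (.n (.n (.n (.p (nat_lit 0x11981194119211900f650f5d06) (nat_lit 0x88000c4400) (nat_lit 52))
 (.p (nat_lit 0x3b0436a102) (nat_lit 0x500a18) (nat_lit 4)))
 (.n (.p (nat_lit 0xe5461102) (nat_lit 0x140205) (nat_lit 30))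
 (.p (nat_lit 0x43e043c0436043403a7000506) (nat_lit 0x1a0622a) (nat_lit 26))))
 (.n (.n (.p (nat_lit 0x2c71231102) (nat_lit 0x146a01) (nat_lit 16))
 (.p (nat_lit 0x2dac311702) (nat_lit 0x240025) (nat_lit 5)))
 (.n (.p (nat_lit 0x520051c051a05180516421d06) (nat_lit 0x800000860b) (nat_lit 51))
 (.p (nat_lit 0x20765f9102) (nat_lit 0x581a303a5000400000600) (nat_lit 50))))))
 (.n (.n (.n (.n (.p (nat_lit 0xaa20aa00a9e0a9c0873087106) (nat_lit 0x180008a200) (nat_lit 51))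
 (.p (nat_lit 0x2080207e207c207a2078138b06) (nat_lit 0x800014515) (nat_lit 51)))
 (.n (.p (nat_lit 0x4a413c902) (nat_lit 0x100504) (nat_lit 1))
 (.p (nat_lit 0x8e008a008800860007035906) (nat_lit 0x1d16303) (nat_lit 26))))
 (.n (.n (.p (nat_lit 0xa3909fd02) (nat_lit 0x54101) (nat_lit 16))
 (.p (nat_lit 0x7aa07a607a407a207a0089106) (nat_lit 0x8000002123) (nat_lit 51)))
 (.n (.p (nat_lit 0x2570071702) (nat_lit 0x340b07) (nat_lit 4))
 (.p (nat_lit 0x5eac230f02) (nat_lit 0x4eb00) (nat_lit 47)))))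
 (.n (.n (.n (.p (nat_lit 0x193f162b02) (nat_lit 0x508700) (nat_lit 16))
 (.p (nat_lit 0xb0a0b080b060b0009dd09db06) (nat_lit 0x300005411c) (nat_lit 52)))
 (.n (.p (nat_lit 0x4c0b08e702) (nat_lit 0x506106) (nat_lit 16))
 (.p (nat_lit 0x5da30e8302) (nat_lit 0xa00a0000300) (nat_lit 41))))
 (.n (.n (.p (nat_lit 0x2348234623422340233e232106) (nat_lit 0x4000056a02) (nat_lit 51))
 (.p (nat_lit 0x66e066c066a0668066609f106) (nat_lit 0x8000c412a) (nat_lit 51)))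
 (.n (.p (nat_lit 0x14dd14d102) (nat_lit 0x44650e) (nat_lit 16))
 (.p (nat_lit 0x2344609102) (nat_lit 0x342221ca4000500000600) (nat_lit 50))))))

def c1024_992 : Tr :=
 .n (.n (.n (.n (.n (.p (nat_lit 0x6f406f206f006ee06ec065706) (nat_lit 0x10000054000) (nat_lit 52))
 (.p (nat_lit 0x4fa64bd102) (nat_lit 0x340514) (nat_lit 5)))
 (.n (.p (nat_lit 0x3c323c303c2e3c2c3c2a3c2806) (nat_lit 0xc004) (nat_lit 52))
 (.p (nat_lit 0x435041ed02) (nat_lit 0x100b2e) (nat_lit 5))))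
 (.n (.n (.p (nat_lit 0x236c236823662364215d215506) (nat_lit 0x8800002b00) (nat_lit 52))
 (.p (nat_lit 0x45d445d245ce45cc45ca451106) (nat_lit 0x400008a121) (nat_lit 51)))
 (.n (.p (nat_lit 0x12c212c012ba12b8122f122d06) (nat_lit 0x60000c2407) (nat_lit 52))
 (.p (nat_lit 0x5cdf5e8502) (nat_lit 0xe0020000900) (nat_lit 37)))))
 (.n (.n (.n (.p (nat_lit 0x15b215b015ae15aa1551154f06) (nat_lit 0x3000008600) (nat_lit 51))
 (.p (nat_lit 0x2550254c254a254825464fb506) (nat_lit 0x80000d051b) (nat_lit 52)))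
 (.n (.p (nat_lit 0x140013fe13fc13fa13f8195906) (nat_lit 0x80008a705) (nat_lit 51))
 (.p (nat_lit 0x5d695dd702) (nat_lit 0x140080000100) (nat_lit 36))))
 (.n (.n (.p (nat_lit 0x31d431d031ce31cc31ca13b706) (nat_lit 0x8000014502) (nat_lit 51))
 (.p (nat_lit 0x439840f102) (nat_lit 0x340b27) (nat_lit 5)))
 (.n (.p (nat_lit 0xe120e100e0e0e0c020801f101ef0e170e1509) (nat_lit 0x2c0030e) (nat_lit 10))
 (.p (nat_lit 0x154a601702) (nat_lit 0x405aa2335000000000600) (nat_lit 50))))))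
 (.n (.n (.n (.n (.p (nat_lit 0xc940e7302) (nat_lit 0x340300) (nat_lit 4))
 (.p (nat_lit 0x2187217b02) (nat_lit 0x108a15) (nat_lit 16)))
 (.n (.p (nat_lit 0x42eb195702) (nat_lit 0x508704) (nat_lit 16))
 (.p (nat_lit 0x1ec01ea01e801e60267000906) (nat_lit 0x2c1440e) (nat_lit 26))))
 (.n (.n (.p (nat_lit 0x621d8702) (nat_lit 0x540801) (nat_lit 1))
 (.p (nat_lit 0x1aa2106302) (nat_lit 0x540723) (nat_lit 5)))
 (.n (.p (nat_lit 0x4f004ee04ea04e804e6337d06) (nat_lit 0x4000044a09) (nat_lit 52))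
 (.p (nat_lit 0x207a5f1302) (nat_lit 0x3aa570344000400000600) (nat_lit 50)))))
 (.n (.n (.n (.p (nat_lit 0x1c981c961c941c921c901a5d06) (nat_lit 0x8000c4800) (nat_lit 52))
 (.p (nat_lit 0x22ef202702) (nat_lit 0x24091c) (nat_lit 15)))
 (.n (.p (nat_lit 0xd0e0d0c0d0a0d080d061c3906) (nat_lit 0x10000006806) (nat_lit 52))
 (.p (nat_lit 0x5cad169902) (nat_lit 0x100000000600) (nat_lit 39))))
 (.n (.n (.p (nat_lit 0xfa90cdb02) (nat_lit 0x240203) (nat_lit 15))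
 (.p (nat_lit 0x1aa917df02) (nat_lit 0x24062a) (nat_lit 15)))
 (.n (.p (nat_lit 0x1778177617721770176e2a0f06) (nat_lit 0x40000d240f) (nat_lit 52))
 (.p (nat_lit 0x1ae0611902) (nat_lit 0x342521ca4000200000600) (nat_lit 50))))))

def c512_480 : Tr := .n c1024_480 c1024_992

def c256_224 : Tr := .n c512_224 c512_480

def c128_96 : Tr := .n c256_96 c256_224

def c64_32 : Tr := .n c128_32 c128_96

def c32_0 : Tr := .n c64_0 c64_32

def c1024_16 : Tr :=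
 .n (.n (.n (.n (.n (.n (.p (nat_lit 0x290025001b001304) (nat_lit 0x58c800000) (nat_lit 21))
 (.p (nat_lit 0x642612902) (nat_lit 0x35486a3a4000000040000) (nat_lit 50)))
 (.p (nat_lit 0x2b0a270702) (nat_lit 0x10080f) (nat_lit 4)))
 (.n (.p (nat_lit 0x110f0e4102) (nat_lit 0x200303) (nat_lit 15))
 (.p (nat_lit 0x4a05194302) (nat_lit 0x11472a) (nat_lit 16))))
 (.n (.n (.p (nat_lit 0x1ce81ce61ce41ce21ce01a6706) (nat_lit 0x1000004c800) (nat_lit 52))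
 (.p (nat_lit 0x46e246e046de46dc46da218f06) (nat_lit 0x1000008ea1c) (nat_lit 51)))
 (.n (.p (nat_lit 0x2496249424922490248e1c2f06) (nat_lit 0x800096806) (nat_lit 51))
 (.p (nat_lit 0x5ce9154302) (nat_lit 0x40020000600) (nat_lit 40)))))
 (.n (.n (.n (.p (nat_lit 0xea40ea20ea00e9c0c990c9106) (nat_lit 0x11000042300) (nat_lit 52))
 (.p (nat_lit 0x22f122e502) (nat_lit 0x348a15) (nat_lit 16)))
 (.n (.p (nat_lit 0x1c801c7c1c7a1c781c761ab906) (nat_lit 0x80000c2704) (nat_lit 52))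
 (.p (nat_lit 0x1f15aa702) (nat_lit 0x50080e) (nat_lit 28))))
 (.n (.n (.p (nat_lit 0x1a5a1a581a561a541a501d7f06) (nat_lit 0x10000d6801) (nat_lit 52))
 (.p (nat_lit 0x3898389638943892388e1c0106) (nat_lit 0x1000082823) (nat_lit 51)))
 (.n (.p (nat_lit 0x265e265a265826563423341b06) (nat_lit 0x8800044b09) (nat_lit 51))
 (.p (nat_lit 0x20765f1b02) (nat_lit 0x3a2274b50000400000600) (nat_lit 50))))))
 (.n (.n (.n (.n (.p (nat_lit 0x763065702) (nat_lit 0x54e000) (nat_lit 16))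
 (.p (nat_lit 0x504e4c7302) (nat_lit 0x500814) (nat_lit 5)))
 (.n (.p (nat_lit 0x3c8c3c8a3c863c843c82077706) (nat_lit 0x40000c4004) (nat_lit 51))
 (.p (nat_lit 0x447a4478447644744470459506) (nat_lit 0x100004e12f) (nat_lit 51))))
 (.n (.n (.p (nat_lit 0x23ee23ec23e823e623e4215b06) (nat_lit 0x4000010b00) (nat_lit 52))
 (.p (nat_lit 0x31049f702) (nat_lit 0x500721) (nat_lit 1)))
 (.n (.p (nat_lit 0x1636053902) (nat_lit 0x500607) (nat_lit 4))
 (.p (nat_lit 0x5e841d8b02) (nat_lit 0x20056900) (nat_lit 47)))))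
 (.n (.n (.n (.p (nat_lit 0x16061604160015fe15fc155306) (nat_lit 0x4000092600) (nat_lit 51))
 (.p (nat_lit 0x50fc4ceb02) (nat_lit 0x20091b) (nat_lit 4)))
 (.n (.p (nat_lit 0x49d3196302) (nat_lit 0x500705) (nat_lit 16))
 (.p (nat_lit 0x5d89079f02) (nat_lit 0x2400a0000100) (nat_lit 38))))
 (.n (.n (.p (nat_lit 0x75d14fd02) (nat_lit 0x240502) (nat_lit 15))
 (.p (nat_lit 0x4520451e451c45184516040d451b07) (nat_lit 0x200128) (nat_lit 7)))
 (.n (.p (nat_lit 0xf7807bd02) (nat_lit 0x24030e) (nat_lit 4))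
 (.p (nat_lit 0x638602102) (nat_lit 0x406a6252d000000040000) (nat_lit 49))))))

def c1024_528 : Tr :=
 .n (.n (.n (.n (.n (.n (.p (nat_lit 0x32703250319031604) (nat_lit 0x3180001c) (nat_lit 20))
 (.p (nat_lit 0x13f2619f02) (nat_lit 0x380aa5c15000500040000) (nat_lit 49)))
 (.p (nat_lit 0x7f207f007ec07ea07e83b7d06) (nat_lit 0x400008ab11) (nat_lit 51)))
 (.n (.p (nat_lit 0x1f3e1f3c1f3a1f381f3621c106) (nat_lit 0x800002a03) (nat_lit 52))
 (.p (nat_lit 0x301a322902) (nat_lit 0x30032c) (nat_lit 4))))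
 (.n (.n (.p (nat_lit 0x20291d2f02) (nat_lit 0x346900) (nat_lit 16))
 (.p (nat_lit 0x39f6381d02) (nat_lit 0x51f) (nat_lit 5)))
 (.n (.p (nat_lit 0x97609740970096e0ca10c9b06) (nat_lit 0x4800050207) (nat_lit 51))
 (.p (nat_lit 0x5e5e1c1f02) (nat_lit 0x80016700) (nat_lit 47)))))
 (.n (.n (.n (.p (nat_lit 0x123f0f6702) (nat_lit 0x542400) (nat_lit 16))
 (.p (nat_lit 0xa7e0a7c0a7a0a780a763bd706) (nat_lit 0x800048b18) (nat_lit 52)))
 (.n (.p (nat_lit 0xe5e0e5c0e5a0e580e5600e30e5507) (nat_lit 0x305) (nat_lit 7))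
 (.p (nat_lit 0x5c565c545c525c505c4e047f044007) (nat_lit 0x20c82a) (nat_lit 25))))
 (.n (.n (.p (nat_lit 0x2cf505fb02) (nat_lit 0x104002) (nat_lit 16))
 (.p (nat_lit 0x2f9e313902) (nat_lit 0x340225) (nat_lit 4)))
 (.n (.p (nat_lit 0x42ba42b842b642b242b001b142b507) (nat_lit 0x20070b) (nat_lit 7))
 (.p (nat_lit 0x206c5f9b02) (nat_lit 0x88bb0155800400000600) (nat_lit 49))))))
 (.n (.n (.n (.n (.p (nat_lit 0xb41087702) (nat_lit 0x300200) (nat_lit 16))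
 (.p (nat_lit 0x14de14da14d814d614d4028914dd07) (nat_lit 0x440515) (nat_lit 7)))
 (.n (.p (nat_lit 0x61113c702) (nat_lit 0x504) (nat_lit 15))
 (.p (nat_lit 0xbe00bc00ba00b8000301ad06) (nat_lit 0x80c004) (nat_lit 26))))
 (.n (.n (.p (nat_lit 0xb710b6502) (nat_lit 0x310201) (nat_lit 16))
 (.p (nat_lit 0x1ade1adc1ada1ad81ad6088906) (nat_lit 0x800010123) (nat_lit 52)))
 (.n (.p (nat_lit 0x17951ef02) (nat_lit 0x500208) (nat_lit 30))
 (.p (nat_lit 0x5d11233702) (nat_lit 0xc0040000b00) (nat_lit 38)))))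
 (.n (.n (.n (.p (nat_lit 0x179c179a1796179417920007179907) (nat_lit 0x340700) (nat_lit 7))
 (.p (nat_lit 0x311551f02) (nat_lit 0x50051c) (nat_lit 30)))
 (.n (.p (nat_lit 0xcff0a3d02) (nat_lit 0x240106) (nat_lit 15))
 (.p (nat_lit 0x5c8f113b02) (nat_lit 0x2e0000000400) (nat_lit 39))))
 (.n (.n (.p (nat_lit 0x660077008118e51a4905) (nat_lit 0x66a00b02) (nat_lit 9))
 (.p (nat_lit 0x459d09fb02) (nat_lit 0x55412a) (nat_lit 16)))
 (.n (.p (nat_lit 0x271a2718271627142710163b06) (nat_lit 0x100001260e) (nat_lit 52))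
 (.p (nat_lit 0x13ee609b02) (nat_lit 0x342529ca4000500040000) (nat_lit 49))))))

def c512_16 : Tr := .n c1024_16 c1024_528

def c1024_272 : Tr :=
 .n (.n (.n (.n (.n (.n (.p (nat_lit 0x11100fb00f003) (nat_lit 0x82800005) (nat_lit 19))
 (.p (nat_lit 0x13fc615f02) (nat_lit 0x352829d84000500040000) (nat_lit 50)))
 (.p (nat_lit 0x33822e9702) (nat_lit 0x40a10) (nat_lit 4)))
 (.n (.p (nat_lit 0x150c1cdd02) (nat_lit 0x440503) (nat_lit 5))
 (.p (nat_lit 0x4f4c4f4a4f484f464f44245306) (nat_lit 0x1000004b2a) (nat_lit 52))))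
 (.n (.n (.p (nat_lit 0x1e7e1e7c1e761e741bc91bc706) (nat_lit 0x6000016900) (nat_lit 52))
 (.p (nat_lit 0x18ea18e818e418e218e02d0306) (nat_lit 0x400001601e) (nat_lit 51)))
 (.n (.p (nat_lit 0x51151eff02) (nat_lit 0x308906) (nat_lit 16))
 (.p (nat_lit 0x5ca1180b02) (nat_lit 0x1c0000000700) (nat_lit 38)))))
 (.n (.n (.n (.p (nat_lit 0x10321030102a10280dfb0df906) (nat_lit 0x6000084400) (nat_lit 51))
 (.p (nat_lit 0x333c2f7702) (nat_lit 0x100a17) (nat_lit 5)))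
 (.n (.p (nat_lit 0xe743af02) (nat_lit 0x200005) (nat_lit 30))
 (.p (nat_lit 0x5b985b965b945b925b900359031207) (nat_lit 0x51271c) (nat_lit 25))))
 (.n (.n (.p (nat_lit 0x18141812180e180c180a204d06) (nat_lit 0x400004e901) (nat_lit 52))
 (.p (nat_lit 0x1661244902) (nat_lit 0x200b23) (nat_lit 15)))
 (.n (.p (nat_lit 0x3b6c349d02) (nat_lit 0x100b0a) (nat_lit 5))
 (.p (nat_lit 0x6425f5f02) (nat_lit 0x4a1d22344000000040000) (nat_lit 50))))))
 (.n (.n (.n (.n (.p (nat_lit 0x92e0928092609240725072306) (nat_lit 0xc0000c8100) (nat_lit 52))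
 (.p (nat_lit 0xd640d620d600d5e0d5a10e906) (nat_lit 0x100008a415) (nat_lit 52)))
 (.n (.p (nat_lit 0xcef0ce302) (nat_lit 0x56204) (nat_lit 16))
 (.p (nat_lit 0x2b589f02) (nat_lit 0x301) (nat_lit 28))))
 (.n (.n (.p (nat_lit 0x259b22bb02) (nat_lit 0x48b00) (nat_lit 16))
 (.p (nat_lit 0x50c350b702) (nat_lit 0x34a822) (nat_lit 16)))
 (.n (.p (nat_lit 0x1e9806d702) (nat_lit 0x907) (nat_lit 4))
 (.p (nat_lit 0x5cd7207902) (nat_lit 0x160020000a00) (nat_lit 40)))))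
 (.n (.n (.n (.p (nat_lit 0x17c116bb02) (nat_lit 0x544600) (nat_lit 16))
 (.p (nat_lit 0x21d621d421d221d021cc073706) (nat_lit 0x10000d401c) (nat_lit 52)))
 (.n (.p (nat_lit 0x1d8a214b02) (nat_lit 0x140805) (nat_lit 5))
 (.p (nat_lit 0x5d970a5b02) (nat_lit 0x1600a0000200) (nat_lit 40))))
 (.n (.n (.p (nat_lit 0xfea0fe60fe40fe20fe021bd06) (nat_lit 0x8000008a02) (nat_lit 51))
 (.p (nat_lit 0x506e579702) (nat_lit 0x300829) (nat_lit 29)))
 (.n (.p (nat_lit 0x18121810180e180c180a123f06) (nat_lit 0x1000004e40e) (nat_lit 52))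
 (.p (nat_lit 0x2078605f02) (nat_lit 0x506272831000400000600) (nat_lit 50))))))

def c1024_784 : Tr :=
 .n (.n (.n (.n (.n (.n (.p (nat_lit 0x520051c051a051804e304db06) (nat_lit 0x8800008000) (nat_lit 51))
 (.p (nat_lit 0x1db061dd02) (nat_lit 0x3302a5895000300000600) (nat_lit 50)))
 (.p (nat_lit 0x4764453902) (nat_lit 0x540313) (nat_lit 5)))
 (.n (.p (nat_lit 0x248a2488248624842480246b06) (nat_lit 0x1000096b03) (nat_lit 52))
 (.p (nat_lit 0x3b5c39c502) (nat_lit 0x540a2d) (nat_lit 5))))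
 (.n (.n (.p (nat_lit 0x1ffc1ff81ff61ff41ff200091ffb07) (nat_lit 0x440a00) (nat_lit 7))
 (.p (nat_lit 0x4212560302) (nat_lit 0x540520) (nat_lit 29)))
 (.n (.p (nat_lit 0x1f181f161f141f120f730f6906) (nat_lit 0x108000d2307) (nat_lit 51))
 (.p (nat_lit 0x5d2b1adb02) (nat_lit 0x220060000800) (nat_lit 38)))))
 (.n (.n (.n (.p (nat_lit 0x122413ff02) (nat_lit 0x440500) (nat_lit 5))
 (.p (nat_lit 0x485645b302) (nat_lit 0x4041a) (nat_lit 4)))
 (.n (.p (nat_lit 0x152d152102) (nat_lit 0x24c505) (nat_lit 16))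
 (.p (nat_lit 0x5d515dbf02) (nat_lit 0x2c0080000000) (nat_lit 37))))
 (.n (.n (.p (nat_lit 0xe322fb302) (nat_lit 0x100302) (nat_lit 29))
 (.p (nat_lit 0x3baf3ba302) (nat_lit 0x400b26) (nat_lit 16)))
 (.n (.p (nat_lit 0x4dc24abb02) (nat_lit 0x10030d) (nat_lit 4))
 (.p (nat_lit 0xbac5fe102) (nat_lit 0x3062a1c35000200040000) (nat_lit 49))))))
 (.n (.n (.n (.n (.p (nat_lit 0x30e0b3702) (nat_lit 0x400300) (nat_lit 1))
 (.p (nat_lit 0x1a88545d02) (nat_lit 0x440715) (nat_lit 29)))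
 (.n (.p (nat_lit 0xd1c0d1a0d180d140d1217f706) (nat_lit 0x2000046604) (nat_lit 51))
 (.p (nat_lit 0x148014601440142000b01e706) (nat_lit 0x2806207) (nat_lit 26))))
 (.n (.n (.p (nat_lit 0x13b913ad02) (nat_lit 0x510501) (nat_lit 16))
 (.p (nat_lit 0xb5b0b4f02) (nat_lit 0x400223) (nat_lit 16)))
 (.n (.p (nat_lit 0x2de62de42de22de02f972f8f06) (nat_lit 0x1100004a209) (nat_lit 51))
 (.p (nat_lit 0xe7c5ed702) (nat_lit 0x4a1a36344000300040000) (nat_lit 50)))))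
 (.n (.n (.n (.p (nat_lit 0x1b481b461b401b3e18ff18fd06) (nat_lit 0x6000086800) (nat_lit 52))
 (.p (nat_lit 0x314033503190d8d0ef305) (nat_lit 0xb014071c) (nat_lit 9)))
 (.n (.p (nat_lit 0x4f924f904f8e4f8c4f8a4f8806) (nat_lit 0x50506) (nat_lit 52))
 (.p (nat_lit 0x5ce35e2702) (nat_lit 0xa0020000500) (nat_lit 36))))
 (.n (.n (.p (nat_lit 0xa1f076f02) (nat_lit 0x540003) (nat_lit 15))
 (.p (nat_lit 0xe1a57c302) (nat_lit 0x10032a) (nat_lit 29)))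
 (.n (.p (nat_lit 0x2010099702) (nat_lit 0x34090e) (nat_lit 5))
 (.p (nat_lit 0x181c60df02) (nat_lit 0x340d623a4000100000600) (nat_lit 50))))))

def c512_272 : Tr := .n c1024_272 c1024_784

def c256_16 : Tr := .n c512_16 c512_272

def c1024_144 : Tr :=
 .n (.n (.n (.n (.n (.n (.p (nat_lit 0x90008c008a009304) (nat_lit 0x16000400003) (nat_lit 17))
 (.p (nat_lit 0x2074614102) (nat_lit 0x352a21d84000400000600) (nat_lit 49)))
 (.p (nat_lit 0x31042e5f02) (nat_lit 0x500410) (nat_lit 5)))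
 (.n (.p (nat_lit 0x111d111102) (nat_lit 0x314403) (nat_lit 16))
 (.p (nat_lit 0x203a134302) (nat_lit 0x4092a) (nat_lit 5))))
 (.n (.n (.p (nat_lit 0x1daf1da302) (nat_lit 0x100900) (nat_lit 34))
 (.p (nat_lit 0x259825942590258e032c030f030b2597259309) (nat_lit 0x2240b1c) (nat_lit 10)))
 (.n (.p (nat_lit 0x1db41db21db01dae1dac1d9f06) (nat_lit 0x10000052806) (nat_lit 51))
 (.p (nat_lit 0x5d315e4702) (nat_lit 0x1c0060000600) (nat_lit 36)))))
 (.n (.n (.n (.p (nat_lit 0xfad0c9702) (nat_lit 0x450300) (nat_lit 16))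
 (.p (nat_lit 0x2ba2284902) (nat_lit 0x100916) (nat_lit 5)))
 (.n (.p (nat_lit 0x1681247502) (nat_lit 0xb04) (nat_lit 15))
 (.p (nat_lit 0x2c45b2302) (nat_lit 0x400715) (nat_lit 27))))
 (.n (.n (.p (nat_lit 0x21d621d421d221ce21cc1ee506) (nat_lit 0x2000094901) (nat_lit 52))
 (.p (nat_lit 0x203211eb02) (nat_lit 0x240923) (nat_lit 4)))
 (.n (.p (nat_lit 0x19b522f02) (nat_lit 0x10040a) (nat_lit 30))
 (.p (nat_lit 0xe725f3b02) (nat_lit 0x3a6560c44000300040000) (nat_lit 49))))))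
 (.n (.n (.n (.n (.p (nat_lit 0x82a08260824082005c505bf06) (nat_lit 0x9000090100) (nat_lit 52))
 (.p (nat_lit 0x1f0073302) (nat_lit 0x540015) (nat_lit 1)))
 (.n (.p (nat_lit 0xc200df00cb1de91f4d05) (nat_lit 0xae000204) (nat_lit 9))
 (.p (nat_lit 0x14481446144214404a094a0306) (nat_lit 0x480008672f) (nat_lit 52))))
 (.n (.n (.p (nat_lit 0x22c422c022bc22ba00200009000522c322bf09) (nat_lit 0x2240b00) (nat_lit 10))
 (.p (nat_lit 0x4cd84cd44cd24cd04cce4c0906) (nat_lit 0x8000010122) (nat_lit 52)))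
 (.n (.p (nat_lit 0x1a72518f02) (nat_lit 0x540707) (nat_lit 29))
 (.p (nat_lit 0x5d571f0d02) (nat_lit 0x260080000900) (nat_lit 39)))))
 (.n (.n (.n (.p (nat_lit 0x16e816e616e216e016de16b706) (nat_lit 0x40000c2600) (nat_lit 51))
 (.p (nat_lit 0x2346234423422340233e05df06) (nat_lit 0x1000001601c) (nat_lit 51)))
 (.n (.p (nat_lit 0x21d621d421d021cc1ac31abf06) (nat_lit 0x50000d4705) (nat_lit 52))
 (.p (nat_lit 0x5cff0a4902) (nat_lit 0x1e0040000200) (nat_lit 38))))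
 (.n (.n (.p (nat_lit 0x205c205a205820520074005d005b2057205509) (nat_lit 0x1140902) (nat_lit 10))
 (.p (nat_lit 0x4b904e4902) (nat_lit 0x40029) (nat_lit 4)))
 (.n (.p (nat_lit 0x16a0169e169c169a169810e506) (nat_lit 0x1000008c40e) (nat_lit 52))
 (.p (nat_lit 0x1adc604102) (nat_lit 0x4a8176340800200000600) (nat_lit 49))))))

def c1024_656 : Tr :=
 .n (.n (.n (.n (.n (.n (.p (nat_lit 0x438044502) (nat_lit 0x200060002a) (nat_lit 17))
 (.p (nat_lit 0x154a61bf02) (nat_lit 0x3221a9c15000000000600) (nat_lit 50)))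
 (.p (nat_lit 0x419053db02) (nat_lit 0x500512) (nat_lit 29)))
 (.n (.p (nat_lit 0x25c7232f02) (nat_lit 0x440a03) (nat_lit 15))
 (.p (nat_lit 0x345434523450344e344c35cd06) (nat_lit 0x80008412d) (nat_lit 52))))
 (.n (.n (.p (nat_lit 0x212e212a212621241e951e9106) (nat_lit 0xa00000ea00) (nat_lit 52))
 (.p (nat_lit 0xd340d320d300d2c0d2a3be706) (nat_lit 0x20000c0b1f) (nat_lit 51)))
 (.n (.p (nat_lit 0x21d621d421d221d021ce0e0106) (nat_lit 0x800094307) (nat_lit 52))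
 (.p (nat_lit 0x5ce51c4902) (nat_lit 0x80020000800) (nat_lit 41)))))
 (.n (.n (.n (.p (nat_lit 0x12d612d412d212d010cd10cb06) (nat_lit 0x18000084500) (nat_lit 51))
 (.p (nat_lit 0x42363e4302) (nat_lit 0x500619) (nat_lit 5)))
 (.n (.p (nat_lit 0x47eb112d02) (nat_lit 0x504405) (nat_lit 16))
 (.p (nat_lit 0x5cdd04c502) (nat_lit 0x100020000000) (nat_lit 38))))
 (.n (.n (.p (nat_lit 0xa0c19b102) (nat_lit 0x240102) (nat_lit 4))
 (.p (nat_lit 0x1cf61cf41cf01cee1cec364506) (nat_lit 0x40000cc126) (nat_lit 52)))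
 (.n (.p (nat_lit 0x22a0229c229a22982296475706) (nat_lit 0x80000ce30c) (nat_lit 52))
 (.p (nat_lit 0x1ade5fc702) (nat_lit 0x89832b05000200000600) (nat_lit 49))))))
 (.n (.n (.n (.n (.p (nat_lit 0xbf80bf60bf40bf20bee09cf06) (nat_lit 0x100004a200) (nat_lit 51))
 (.p (nat_lit 0x164e164a1646164402a402890285164d164909) (nat_lit 0x2200615) (nat_lit 10)))
 (.n (.p (nat_lit 0x12aa12a812a412a212a0168706) (nat_lit 0x400000a604) (nat_lit 51))
 (.p (nat_lit 0xed59b502) (nat_lit 0x500605) (nat_lit 28))))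
 (.n (.n (.p (nat_lit 0xfd10f9502) (nat_lit 0x454301) (nat_lit 16))
 (.p (nat_lit 0x1986198419821980197c09e706) (nat_lit 0x10000ce123) (nat_lit 51)))
 (.n (.p (nat_lit 0x2b52262702) (nat_lit 0x440808) (nat_lit 4))
 (.p (nat_lit 0x5ebe4dc902) (nat_lit 0x80000b00) (nat_lit 48)))))
 (.n (.n (.n (.p (nat_lit 0x1a4c1a481a461a44179d179906) (nat_lit 0x14000056700) (nat_lit 52))
 (.p (nat_lit 0x10a410a210a0109e14eb14e906) (nat_lit 0x180000d451c) (nat_lit 52)))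
 (.n (.p (nat_lit 0x113024f502) (nat_lit 0x100406) (nat_lit 4))
 (.p (nat_lit 0x5d735e1b02) (nat_lit 0xa0080000400) (nat_lit 36))))
 (.n (.n (.p (nat_lit 0x25bc25b625b425b200820061005f25bb25b909) (nat_lit 0x2340b02) (nat_lit 10))
 (.p (nat_lit 0x43757b702) (nat_lit 0x14022a) (nat_lit 30)))
 (.n (.p (nat_lit 0x362436223620361e361c1bdb06) (nat_lit 0x80001680e) (nat_lit 52))
 (.p (nat_lit 0xbb260c902) (nat_lit 0x3505223a4000200040000) (nat_lit 50))))))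

def c512_144 : Tr := .n c1024_144 c1024_656

def c1024_400 : Tr :=
 .n (.n (.n (.n (.n (.n (.p (nat_lit 0x1f001ea01f503) (nat_lit 0x1200050000e) (nat_lit 17))
 (.p (nat_lit 0x1db0617d02) (nat_lit 0x421a86b15000300000600) (nat_lit 50)))
 (.p (nat_lit 0x1d261d221d201d1e1d1c38e706) (nat_lit 0x8000096411) (nat_lit 52)))
 (.n (.p (nat_lit 0x17e81b8902) (nat_lit 0x140603) (nat_lit 5))
 (.p (nat_lit 0x2b762a5102) (nat_lit 0x34082b) (nat_lit 5))))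
 (.n (.n (.p (nat_lit 0x1f541f521f4e1f4c1d331d2d06) (nat_lit 0x12000044900) (nat_lit 52))
 (.p (nat_lit 0x33a9339d02) (nat_lit 0x14aa1e) (nat_lit 16)))
 (.n (.p (nat_lit 0xb440b420b3e0b3a015c014701430b410b3d09) (nat_lit 0x1900207) (nat_lit 10))
 (.p (nat_lit 0x5e582ebf02) (nat_lit 0x40048700) (nat_lit 47)))))
 (.n (.n (.n (.p (nat_lit 0xf60114b02) (nat_lit 0x240400) (nat_lit 5))
 (.p (nat_lit 0x39ee370102) (nat_lit 0x200518) (nat_lit 5)))
 (.n (.p (nat_lit 0xa30220d02) (nat_lit 0x240105) (nat_lit 5))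
 (.p (nat_lit 0x5be05bde5bdc5bda5bd804b103ac07) (nat_lit 0x300a23) (nat_lit 25))))
 (.n (.n (.p (nat_lit 0x2c3d21a902) (nat_lit 0x4a01) (nat_lit 16))
 (.p (nat_lit 0x2ec327b302) (nat_lit 0x450124) (nat_lit 16)))
 (.n (.p (nat_lit 0x1f321f2c1f2a1f283f993f9706) (nat_lit 0xc00008030b) (nat_lit 51))
 (.p (nat_lit 0xe6e5f7b02) (nat_lit 0x581a22b44000300040000) (nat_lit 49))))))
 (.n (.n (.n (.n (.p (nat_lit 0xa540a48087503) (nat_lit 0x200200) (nat_lit 6))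
 (.p (nat_lit 0x13940a9702) (nat_lit 0x500515) (nat_lit 4)))
 (.n (.p (nat_lit 0x4050404e404c404a4048111d06) (nat_lit 0x4000084404) (nat_lit 51))
 (.p (nat_lit 0x90590102) (nat_lit 0x500902) (nat_lit 27))))
 (.n (.n (.p (nat_lit 0x8aa08a808a608a408a0002d08a307) (nat_lit 0x100101) (nat_lit 7))
 (.p (nat_lit 0x74a116902) (nat_lit 0x540023) (nat_lit 5)))
 (.n (.p (nat_lit 0x22ce22cc22ca22c60160014b014322d122c909) (nat_lit 0x2940a07) (nat_lit 10))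
 (.p (nat_lit 0x5d5f5ea702) (nat_lit 0x1e0080000a00) (nat_lit 37)))))
 (.n (.n (.n (.p (nat_lit 0x18d218d018ce18cc18ca18c806) (nat_lit 0x14700) (nat_lit 52))
 (.p (nat_lit 0x2733088702) (nat_lit 0x50c11c) (nat_lit 16)))
 (.n (.p (nat_lit 0x4b3a4b384b364b344b324b30011e07) (nat_lit 0x40006) (nat_lit 8))
 (.p (nat_lit 0x5d375e0302) (nat_lit 0x160060000300) (nat_lit 37))))
 (.n (.n (.p (nat_lit 0xa4e0a4c0a4a0a480a44231d06) (nat_lit 0x1000044a02) (nat_lit 52))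
 (.p (nat_lit 0x6920690068e068a0688089906) (nat_lit 0x200000812a) (nat_lit 52)))
 (.n (.p (nat_lit 0x39e3138302) (nat_lit 0x21050e) (nat_lit 16))
 (.p (nat_lit 0x1da2607f02) (nat_lit 0x511a22b85000300000600) (nat_lit 49))))))

def c1024_912 : Tr :=
 .n (.n (.n (.n (.n (.p (nat_lit 0x6620660065e065c065a064d06) (nat_lit 0x800044000) (nat_lit 51))
 (.p (nat_lit 0x3dc43dc23dc03dbe3dbc4a8f06) (nat_lit 0x80004c813) (nat_lit 52)))
 (.n (.p (nat_lit 0x1daa1da81da41da21da025c506) (nat_lit 0x4000052b03) (nat_lit 52))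
 (.p (nat_lit 0x3fa6414702) (nat_lit 0x10032e) (nat_lit 5))))
 (.n (.n (.p (nat_lit 0x22d11ffd02) (nat_lit 0x540a00) (nat_lit 16))
 (.p (nat_lit 0x365562b02) (nat_lit 0x140b20) (nat_lit 30)))
 (.n (.p (nat_lit 0x1370136c136a1368136610d706) (nat_lit 0x8000016407) (nat_lit 52))
 (.p (nat_lit 0x5d971c5102) (nat_lit 0x1600a0000800) (nat_lit 41)))))
 (.n (.n (.n (.p (nat_lit 0x14eb122702) (nat_lit 0x546500) (nat_lit 16))
 (.p (nat_lit 0x49f549e902) (nat_lit 0x40871a) (nat_lit 16)))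
 (.n (.p (nat_lit 0x2520251e251c25182516180306) (nat_lit 0x20000ca605) (nat_lit 52))
 (.p (nat_lit 0x5cfb079902) (nat_lit 0x220040000100) (nat_lit 38))))
 (.n (.n (.p (nat_lit 0x110b10ff02) (nat_lit 0x12402) (nat_lit 16))
 (.p (nat_lit 0x4246405502) (nat_lit 0x100627) (nat_lit 4)))
 (.n (.p (nat_lit 0x50924b6d02) (nat_lit 0x34080d) (nat_lit 5))
 (.p (nat_lit 0x1dac5fff02) (nat_lit 0x16a88cd50000300000600) (nat_lit 50))))))
 (.n (.n (.n (.n (.p (nat_lit 0xdda0dd80dd20dd00b350b3306) (nat_lit 0x6000094300) (nat_lit 52))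
 (.p (nat_lit 0x2018548702) (nat_lit 0x140915) (nat_lit 29)))
 (.n (.p (nat_lit 0x90195702) (nat_lit 0x500704) (nat_lit 1))
 (.p (nat_lit 0x1a2019e019c01980143018d06) (nat_lit 0xc1660a) (nat_lit 26))))
 (.n (.n (.p (nat_lit 0x1a121a101a0c1a081c1d1c1906) (nat_lit 0x500008a801) (nat_lit 52))
 (.p (nat_lit 0x193d166502) (nat_lit 0x400623) (nat_lit 15)))
 (.n (.p (nat_lit 0x32902d5b02) (nat_lit 0x909) (nat_lit 4))
 (.p (nat_lit 0x12a85ef302) (nat_lit 0x4a9d84344000500000000) (nat_lit 50)))))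
 (.n (.n (.n (.p (nat_lit 0x1c1f190102) (nat_lit 0x40c800) (nat_lit 16))
 (.p (nat_lit 0x20291d5f02) (nat_lit 0x34081c) (nat_lit 15)))
 (.n (.p (nat_lit 0x176c17681766176417621ad106) (nat_lit 0x8000052706) (nat_lit 51))
 (.p (nat_lit 0x5d6312a902) (nat_lit 0x1a0080000500) (nat_lit 40))))
 (.n (.n (.p (nat_lit 0xcdb0a1902) (nat_lit 0x240103) (nat_lit 15))
 (.p (nat_lit 0x30ab0f8902) (nat_lit 0x44e32a) (nat_lit 16)))
 (.n (.p (nat_lit 0x1e7536502) (nat_lit 0x40b0e) (nat_lit 30))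
 (.p (nat_lit 0x1ae060ff02) (nat_lit 0x3425219b0000200000600) (nat_lit 50))))))

def c512_400 : Tr := .n c1024_400 c1024_912

def c256_144 : Tr := .n c512_144 c512_400

def c128_16 : Tr := .n c256_16 c256_144

def c1024_80 : Tr :=
 .n (.n (.n (.n (.n (.n (.p (nat_lit 0x60005c0058006504) (nat_lit 0xa800400002) (nat_lit 17))
 (.p (nat_lit 0x1ae4613302) (nat_lit 0x35486a3b0000200000600) (nat_lit 50)))
 (.p (nat_lit 0x50ef2b9702) (nat_lit 0x11490f) (nat_lit 16)))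
 (.n (.p (nat_lit 0xfb50fa902) (nat_lit 0x254303) (nat_lit 16))
 (.p (nat_lit 0x435580902) (nat_lit 0x4082a) (nat_lit 30))))
 (.n (.n (.p (nat_lit 0x1d2b1a5f02) (nat_lit 0x140800) (nat_lit 15))
 (.p (nat_lit 0x3b4322f302) (nat_lit 0x450a1c) (nat_lit 16)))
 (.n (.p (nat_lit 0xa4e0a4c0a480a441d9b1d9706) (nat_lit 0x5000044806) (nat_lit 52))
 (.p (nat_lit 0x5d1d16a902) (nat_lit 0x40000600) (nat_lit 41)))))
 (.n (.n (.n (.p (nat_lit 0xf100f0c0f0a0f080c990c9506) (nat_lit 0x140000d0300) (nat_lit 52))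
 (.p (nat_lit 0x2a7027c502) (nat_lit 0x100516) (nat_lit 4)))
 (.n (.p (nat_lit 0xe8247b02) (nat_lit 0x300b04) (nat_lit 1))
 (.p (nat_lit 0x5aee5aec5aea5ae85ae6018d024407) (nat_lit 0x40a611) (nat_lit 25))))
 (.n (.n (.p (nat_lit 0x8fe08fc08fa08f808f41ee306) (nat_lit 0x1000082901) (nat_lit 51))
 (.p (nat_lit 0x38d038cc38ca38c61d6d1d6706) (nat_lit 0x90000d6823) (nat_lit 52)))
 (.n (.p (nat_lit 0x37dc37da37d837d437d2019d37d707) (nat_lit 0x20030a) (nat_lit 7))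
 (.p (nat_lit 0x233c5f2f02) (nat_lit 0x3a2560b44000500000600) (nat_lit 49))))))
 (.n (.n (.n (.n (.p (nat_lit 0x5c605c405be05bc001e0007000505c305c109) (nat_lit 0x1a00100) (nat_lit 10))
 (.p (nat_lit 0x5d205ce05cc05ca02960289028105d105c909) (nat_lit 0x2000015) (nat_lit 10)))
 (.n (.p (nat_lit 0x8d708cb02) (nat_lit 0x316104) (nat_lit 16))
 (.p (nat_lit 0x40c46f702) (nat_lit 0x20032f) (nat_lit 1))))
 (.n (.n (.p (nat_lit 0x244b215b02) (nat_lit 0x308b00) (nat_lit 16))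
 (.p (nat_lit 0x4b244d7102) (nat_lit 0x500022) (nat_lit 4)))
 (.n (.p (nat_lit 0x18c190d02) (nat_lit 0x400707) (nat_lit 1))
 (.p (nat_lit 0x5d395e8d02) (nat_lit 0x140060000900) (nat_lit 37)))))
 (.n (.n (.n (.p (nat_lit 0x1681154d02) (nat_lit 0x12600) (nat_lit 16))
 (.p (nat_lit 0xd0e0d0c0d0a0d080d0605df06) (nat_lit 0x1000000601c) (nat_lit 52)))
 (.n (.p (nat_lit 0xd1c0d1a0d180d160d141abd06) (nat_lit 0x800046705) (nat_lit 51))
 (.p (nat_lit 0x5ddc0bb302) (nat_lit 0x40200) (nat_lit 46))))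
 (.n (.n (.p (nat_lit 0x1b901b8e1b8c1b881b861ef106) (nat_lit 0x200008c902) (nat_lit 51))
 (.p (nat_lit 0x4160419041b47a5482305) (nat_lit 0x80b40228) (nat_lit 9)))
 (.n (.p (nat_lit 0x10dc07c702) (nat_lit 0x10040e) (nat_lit 4))
 (.p (nat_lit 0x64a603102) (nat_lit 0x4099a2335000000040000) (nat_lit 50))))))

def c1024_592 : Tr :=
 .n (.n (.n (.n (.n (.n (.p (nat_lit 0x3ab03a903a303a103ac05) (nat_lit 0x19800400023) (nat_lit 18))
 (.p (nat_lit 0x153861af02) (nat_lit 0x522266c0d000000000600) (nat_lit 49)))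
 (.p (nat_lit 0x1fc01fbe1fba1fb81fb6408906) (nat_lit 0x400008c412) (nat_lit 52)))
 (.n (.p (nat_lit 0x23261b9f02) (nat_lit 0x40a03) (nat_lit 4))
 (.p (nat_lit 0x3368336633623360335e0481336507) (nat_lit 0x300a2c) (nat_lit 7))))
 (.n (.n (.p (nat_lit 0x208a2088208420821e971e9106) (nat_lit 0x12000000a00) (nat_lit 52))
 (.p (nat_lit 0x3bed3b4502) (nat_lit 0x540a1f) (nat_lit 15)))
 (.n (.p (nat_lit 0x64a06460644064206400e0906) (nat_lit 0x8000080307) (nat_lit 51))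
 (.p (nat_lit 0x5e642d0702) (nat_lit 0xa0006700) (nat_lit 48)))))
 (.n (.n (.n (.p (nat_lit 0x10cc10ca10c610c410c2000710c907) (nat_lit 0x300500) (nat_lit 7))
 (.p (nat_lit 0x1fc01fbe1fba1fb81fb6419906) (nat_lit 0x400008c519) (nat_lit 52)))
 (.n (.p (nat_lit 0xfc4470702) (nat_lit 0x440305) (nat_lit 29))
 (.p (nat_lit 0x5d4c5d4a5d485d465d445d425d405d3e5d3c5d3a5d385d365d345d325d305d2e5d2c5d2a5d285d265d245d225d205d1e18) (nat_lit 0x60000000) (nat_lit 35))))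
 (.n (.n (.p (nat_lit 0x2d782d762d742d722d70076306) (nat_lit 0x10000054002) (nat_lit 52))
 (.p (nat_lit 0x340030ed02) (nat_lit 0x400b25) (nat_lit 4)))
 (.n (.p (nat_lit 0x460043bf02) (nat_lit 0x50020c) (nat_lit 4))
 (.p (nat_lit 0x13f65fa702) (nat_lit 0x89832955800500040000) (nat_lit 50))))))
 (.n (.n (.n (.n (.p (nat_lit 0xbbb0baf02) (nat_lit 0x440200) (nat_lit 34))
 (.p (nat_lit 0x1daa1da61da41da21da014dd06) (nat_lit 0x8000052515) (nat_lit 52)))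
 (.n (.p (nat_lit 0x168a168816861682168000b9168507) (nat_lit 0x200604) (nat_lit 7))
 (.p (nat_lit 0x1c6598b02) (nat_lit 0x100005) (nat_lit 27))))
 (.n (.n (.p (nat_lit 0x2f288f02) (nat_lit 0x200301) (nat_lit 30))
 (.p (nat_lit 0x9e8101502) (nat_lit 0x240123) (nat_lit 5)))
 (.n (.p (nat_lit 0x176c1768176617641762292b06) (nat_lit 0x8000052308) (nat_lit 51))
 (.p (nat_lit 0x5d1f249302) (nat_lit 0x2e0060000b00) (nat_lit 41)))))
 (.n (.n (.n (.p (nat_lit 0x1a1e1a1c1a1a1a181a14179506) (nat_lit 0x1000052700) (nat_lit 51))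
 (.p (nat_lit 0x14e40d5f02) (nat_lit 0x24051c) (nat_lit 4)))
 (.n (.p (nat_lit 0xe66239902) (nat_lit 0x300306) (nat_lit 5))
 (.p (nat_lit 0x5d195e1302) (nat_lit 0x40040000400) (nat_lit 36))))
 (.n (.n (.p (nat_lit 0x16061604160015fe15fc246306) (nat_lit 0x4000092b02) (nat_lit 51))
 (.p (nat_lit 0x154a15481546154415400b5506) (nat_lit 0x100000c22a) (nat_lit 51)))
 (.n (.p (nat_lit 0x1e9531302) (nat_lit 0x14070e) (nat_lit 30))
 (.p (nat_lit 0x12a712990fe10fdd0d1d0d090a510a4b07a9079f04d104c360aa0d) (nat_lit 0x342521ca4000000000000) (nat_lit 33))))))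

def c512_80 : Tr := .n c1024_80 c1024_592

def c1024_336 : Tr :=
 .n (.n (.n (.n (.n (.n (.p (nat_lit 0x14a0142014f03) (nat_lit 0x11000500007) (nat_lit 17))
 (.p (nat_lit 0x1ae2616f02) (nat_lit 0x421aa6315000200000600) (nat_lit 50)))
 (.p (nat_lit 0x342c2e2102) (nat_lit 0x340b10) (nat_lit 5)))
 (.n (.p (nat_lit 0x167e167c167a16780098008900871677167509) (nat_lit 0x800603) (nat_lit 10))
 (.p (nat_lit 0x1790178e178a17881786281f06) (nat_lit 0x400009422b) (nat_lit 52))))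
 (.n (.n (.p (nat_lit 0x1ef11bc702) (nat_lit 0x20e900) (nat_lit 16))
 (.p (nat_lit 0x32fa306302) (nat_lit 0x44091e) (nat_lit 5)))
 (.n (.p (nat_lit 0x22782276227422722069206706) (nat_lit 0x1800004c906) (nat_lit 51))
 (.p (nat_lit 0x5cd35e5702) (nat_lit 0x1a0020000700) (nat_lit 36)))))
 (.n (.n (.n (.p (nat_lit 0x10cd0dff02) (nat_lit 0x500400) (nat_lit 15))
 (.p (nat_lit 0x2850284e284c284a284833e306) (nat_lit 0x800012b17) (nat_lit 51)))
 (.n (.p (nat_lit 0x7860782077e077c010800eb00e70785078109) (nat_lit 0x2240005) (nat_lit 10))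
 (.p (nat_lit 0x38e038a038803860307041106) (nat_lit 0x40e521) (nat_lit 26))))
 (.n (.n (.p (nat_lit 0x21b221b021ae21ac21aa002b21a907) (nat_lit 0xa01) (nat_lit 7))
 (.p (nat_lit 0x26ce294d02) (nat_lit 0x340024) (nat_lit 4)))
 (.n (.p (nat_lit 0x6920690068e068c068a3bbf06) (nat_lit 0x800048b0a) (nat_lit 52))
 (.p (nat_lit 0x180e5f7102) (nat_lit 0x3aa074c44000100000600) (nat_lit 49))))))
 (.n (.n (.n (.n (.p (nat_lit 0x9e7071f02) (nat_lit 0x148100) (nat_lit 16))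
 (.p (nat_lit 0xe8e0e8c0e8a0e880e84124306) (nat_lit 0x1000040415) (nat_lit 51)))
 (.n (.p (nat_lit 0xfb80fb60fb40fb20fb000bf0fbb07) (nat_lit 0x540304) (nat_lit 7))
 (.p (nat_lit 0x11658cf02) (nat_lit 0x200a01) (nat_lit 27))))
 (.n (.n (.p (nat_lit 0x8ab05f702) (nat_lit 0x500001) (nat_lit 15))
 (.p (nat_lit 0x1430142e142c142a142605e306) (nat_lit 0x1000084023) (nat_lit 52)))
 (.n (.p (nat_lit 0x2160058d02) (nat_lit 0xa07) (nat_lit 5))
 (.p (nat_lit 0x5e9c21d102) (nat_lit 0x40040a00) (nat_lit 45)))))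
 (.n (.n (.n (.p (nat_lit 0x182c182a182418221627162506) (nat_lit 0x6000000700) (nat_lit 51))
 (.p (nat_lit 0x88608820880087e087c030f088507) (nat_lit 0x40011c) (nat_lit 7)))
 (.n (.p (nat_lit 0x1fcc1fca1fc61fc41fc21d8f06) (nat_lit 0x400004e805) (nat_lit 52))
 (.p (nat_lit 0x5cc95df902) (nat_lit 0x240020000300) (nat_lit 36))))
 (.n (.n (.p (nat_lit 0x333121b702) (nat_lit 0x102a02) (nat_lit 16))
 (.p (nat_lit 0x51164f1302) (nat_lit 0x400929) (nat_lit 4)))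
 (.n (.p (nat_lit 0x140137f02) (nat_lit 0x50e) (nat_lit 1))
 (.p (nat_lit 0x1ade607102) (nat_lit 0x588162b40800200000600) (nat_lit 49))))))

def c1024_848 : Tr :=
 .n (.n (.n (.n (.n (.n (.p (nat_lit 0x5df04e502) (nat_lit 0x506000) (nat_lit 16))
 (.p (nat_lit 0x114c61eb02) (nat_lit 0x14e0a8c74000400040000) (nat_lit 50)))
 (.p (nat_lit 0x43c843c643c443c243c0494906) (nat_lit 0x10000046513) (nat_lit 52)))
 (.n (.p (nat_lit 0x4d604d404d204d025c925bf06) (nat_lit 0x10800040b03) (nat_lit 51))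
 (.p (nat_lit 0x3e0241af02) (nat_lit 0x24012e) (nat_lit 5))))
 (.n (.n (.p (nat_lit 0x227a22782276227422721ffd06) (nat_lit 0x1000004ca00) (nat_lit 51))
 (.p (nat_lit 0x34e42d502) (nat_lit 0x720) (nat_lit 1)))
 (.n (.p (nat_lit 0x43610d102) (nat_lit 0x100407) (nat_lit 1))
 (.p (nat_lit 0x5d611c4f02) (nat_lit 0x1c0080000800) (nat_lit 41)))))
 (.n (.n (.n (.p (nat_lit 0x144814461442143e1223121f06) (nat_lit 0x50000c6500) (nat_lit 52))
 (.p (nat_lit 0x4954464f02) (nat_lit 0x54051a) (nat_lit 4)))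
 (.n (.p (nat_lit 0x255c255a255825562552168f06) (nat_lit 0x1000012605) (nat_lit 52))
 (.p (nat_lit 0x5dc4338302) (nat_lit 0x4e100) (nat_lit 47))))
 (.n (.n (.p (nat_lit 0x5b302302) (nat_lit 0x140302) (nat_lit 30))
 (.p (nat_lit 0x1fe41fe21fe01fdc1fda3d7506) (nat_lit 0x2000016127) (nat_lit 51)))
 (.n (.p (nat_lit 0x4f1e4adb02) (nat_lit 0x54040d) (nat_lit 5))
 (.p (nat_lit 0xe745fef02) (nat_lit 0x306a81c35000300040000) (nat_lit 49))))))
 (.n (.n (.n (.n (.p (nat_lit 0xd4c0d480d440d420b370b3306) (nat_lit 0xa000082300) (nat_lit 51))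
 (.p (nat_lit 0x287547302) (nat_lit 0x340815) (nat_lit 30)))
 (.n (.p (nat_lit 0x20742070206e206c206a17fb06) (nat_lit 0x8000054604) (nat_lit 52))
 (.p (nat_lit 0x5a2e5a2c5a2a5a285a26002d017a07) (nat_lit 0x104408) (nat_lit 25))))
 (.n (.n (.p (nat_lit 0x1c16174b02) (nat_lit 0x801) (nat_lit 5))
 (.p (nat_lit 0xebc0eba0eb80eb60cb10ca706) (nat_lit 0x1080004a223) (nat_lit 51)))
 (.n (.p (nat_lit 0x30902cb702) (nat_lit 0x340309) (nat_lit 5))
 (.p (nat_lit 0x13f45ee302) (nat_lit 0x4a8866344000500040000) (nat_lit 49)))))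
 (.n (.n (.n (.p (nat_lit 0x1bb41bb21bb01bae1bac18f906) (nat_lit 0x800016800) (nat_lit 52))
 (.p (nat_lit 0x379c379a379837961bfd1bf906) (nat_lit 0x1400000a81c) (nat_lit 52)))
 (.n (.p (nat_lit 0x178417821780177e1967196506) (nat_lit 0x1800014706) (nat_lit 52))
 (.p (nat_lit 0x5e2a122d02) (nat_lit 0x40042500) (nat_lit 47))))
 (.n (.n (.p (nat_lit 0x8c508b902) (nat_lit 0x14103) (nat_lit 16))
 (.p (nat_lit 0x4ddb0e2102) (nat_lit 0x41632a) (nat_lit 16)))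
 (.n (.p (nat_lit 0x1ef535502) (nat_lit 0x440a0e) (nat_lit 30))
 (.p (nat_lit 0xe7260f302) (nat_lit 0x440d663a4000300040000) (nat_lit 49))))))

def c512_336 : Tr := .n c1024_336 c1024_848

def c256_80 : Tr := .n c512_80 c512_336

def c1024_208 : Tr :=
 .n (.n (.n (.n (.n (.n (.p (nat_lit 0xcd00cb00c900c404) (nat_lit 0x16200004) (nat_lit 20))
 (.p (nat_lit 0x114e615102) (nat_lit 0x2b0221d84000400040000) (nat_lit 50)))
 (.p (nat_lit 0x32702ded02) (nat_lit 0x240510) (nat_lit 5)))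
 (.n (.p (nat_lit 0x3990398e398c398a39883986009207) (nat_lit 0x503) (nat_lit 8))
 (.p (nat_lit 0x5836583458325830582e582c044221a521a3219f0a) (nat_lit 0x11900a2a) (nat_lit 31))))
 (.n (.n (.p (nat_lit 0x1e281e241e221e201bcd1bc906) (nat_lit 0x14000088900) (nat_lit 52))
 (.p (nat_lit 0x2bae28ab02) (nat_lit 0x10091d) (nat_lit 4)))
 (.n (.p (nat_lit 0x120012b013b2403255905) (nat_lit 0xa2300906) (nat_lit 9))
 (.p (nat_lit 0x5e4825bb02) (nat_lit 0x80050600) (nat_lit 47)))))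
 (.n (.n (.n (.p (nat_lit 0xff60ff40fee0fec0dfb0df906) (nat_lit 0x6000000400) (nat_lit 52))
 (.p (nat_lit 0x31f631f231f031ee31ec02c531f507) (nat_lit 0x400517) (nat_lit 7)))
 (.n (.p (nat_lit 0x2258225622522250224e25d106) (nat_lit 0x40000c8b04) (nat_lit 52))
 (.p (nat_lit 0x2fc02f802f602f20289038706) (nat_lit 0x210e41a) (nat_lit 26))))
 (.n (.n (.p (nat_lit 0x38005100531605177705) (nat_lit 0xa9c40901) (nat_lit 9))
 (.p (nat_lit 0x22fc10a502) (nat_lit 0x340a23) (nat_lit 4)))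
 (.n (.p (nat_lit 0x3a8c351302) (nat_lit 0x10060a) (nat_lit 5))
 (.p (nat_lit 0x181c5f5302) (nat_lit 0x1a9d22350000100000600) (nat_lit 50))))))
 (.n (.n (.n (.n (.p (nat_lit 0x8df05bf02) (nat_lit 0x116100) (nat_lit 16))
 (.p (nat_lit 0x10e8540f02) (nat_lit 0x100415) (nat_lit 29)))
 (.n (.p (nat_lit 0xce41f5b02) (nat_lit 0x140204) (nat_lit 4))
 (.p (nat_lit 0x50764f8b02) (nat_lit 0x100830) (nat_lit 4))))
 (.n (.n (.p (nat_lit 0x2550254e254a254622c122bd06) (nat_lit 0x50000d0b00) (nat_lit 52))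
 (.p (nat_lit 0x50604da102) (nat_lit 0x200822) (nat_lit 5)))
 (.n (.p (nat_lit 0x352c352a3528352635241bd906) (nat_lit 0x10000016807) (nat_lit 52))
 (.p (nat_lit 0x5cb75e9502) (nat_lit 0x60000000a00) (nat_lit 36)))))
 (.n (.n (.n (.p (nat_lit 0x176a17681766176416bb16b106) (nat_lit 0x10800052600) (nat_lit 51))
 (.p (nat_lit 0xbbc0bb80bb60bb40bb2073d06) (nat_lit 0x80000c401c) (nat_lit 51)))
 (.n (.p (nat_lit 0x1c2a1c281c261c241c2200ed1c2d07) (nat_lit 0x500805) (nat_lit 7))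
 (.p (nat_lit 0x5d6d0a5902) (nat_lit 0x100080000200) (nat_lit 40))))
 (.n (.n (.p (nat_lit 0x32fb205b02) (nat_lit 0x446902) (nat_lit 16))
 (.p (nat_lit 0x4c904e6902) (nat_lit 0x540129) (nat_lit 5)))
 (.n (.p (nat_lit 0x4e9d10e102) (nat_lit 0x31640e) (nat_lit 16))
 (.p (nat_lit 0xe7a604f02) (nat_lit 0x40a962335000300040000) (nat_lit 50))))))

def c1024_720 : Tr :=
 .n (.n (.n (.n (.n (.n (.p (nat_lit 0x4e204e004de04dc04da000b04e507) (nat_lit 0x500000) (nat_lit 7))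
 (.p (nat_lit 0x8fc61cf02) (nat_lit 0x3561684a0800100040000) (nat_lit 50)))
 (.p (nat_lit 0x426a3dc902) (nat_lit 0x140612) (nat_lit 4)))
 (.n (.p (nat_lit 0xe820e800e7e0e7c0e78246b06) (nat_lit 0x1000086b03) (nat_lit 51))
 (.p (nat_lit 0x1d1a1d161d141d121d1036d706) (nat_lit 0x800001622d) (nat_lit 51))))
 (.n (.n (.p (nat_lit 0x21851e8d02) (nat_lit 0x6a00) (nat_lit 16))
 (.p (nat_lit 0x1e701e6e1e6c1e6a1e683d0b06) (nat_lit 0x100000ce020) (nat_lit 51)))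
 (.n (.p (nat_lit 0x4d804d404d204d004ce0f7106) (nat_lit 0x8000040307) (nat_lit 51))
 (.p (nat_lit 0x5d175e7102) (nat_lit 0x60040000800) (nat_lit 37)))))
 (.n (.n (.n (.p (nat_lit 0x138310c702) (nat_lit 0x202500) (nat_lit 16))
 (.p (nat_lit 0x42d042ce42cc42ca42c802ef42d307) (nat_lit 0x500719) (nat_lit 7)))
 (.n (.p (nat_lit 0xeb486b02) (nat_lit 0x400505) (nat_lit 30))
 (.p (nat_lit 0x5db6337b02) (nat_lit 0x4004e000) (nat_lit 47))))
 (.n (.n (.p (nat_lit 0xe330b6d02) (nat_lit 0x100202) (nat_lit 15))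
 (.p (nat_lit 0x3ad0393f02) (nat_lit 0x340626) (nat_lit 5)))
 (.n (.p (nat_lit 0x4f004ee04ec04ea04e649cb06) (nat_lit 0x100000470c) (nat_lit 52))
 (.p (nat_lit 0x20705fd102) (nat_lit 0x95a2ec05000400000600) (nat_lit 49))))))
 (.n (.n (.n (.n (.p (nat_lit 0xcb109d702) (nat_lit 0x548200) (nat_lit 16))
 (.p (nat_lit 0x1922544f02) (nat_lit 0x300715) (nat_lit 29)))
 (.n (.p (nat_lit 0x4249168502) (nat_lit 0x208604) (nat_lit 16))
 (.p (nat_lit 0x11c0116011401120007039b06) (nat_lit 0x1c10306) (nat_lit 26))))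
 (.n (.n (.p (nat_lit 0x125415bd02) (nat_lit 0x440401) (nat_lit 5))
 (.p (nat_lit 0xb48118502) (nat_lit 0x100223) (nat_lit 4)))
 (.n (.p (nat_lit 0x50805060502050004fe2be306) (nat_lit 0x4000046908) (nat_lit 52))
 (.p (nat_lit 0xe6e5ec702) (nat_lit 0x4a1a34344000300040000) (nat_lit 49)))))
 (.n (.n (.n (.p (nat_lit 0x1ac7179d02) (nat_lit 0x554700) (nat_lit 16))
 (.p (nat_lit 0x1a9317c902) (nat_lit 0x34061c) (nat_lit 15)))
 (.n (.p (nat_lit 0x129223bf02) (nat_lit 0x540406) (nat_lit 5))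
 (.p (nat_lit 0x5d915e2102) (nat_lit 0x1c00a0000400) (nat_lit 37))))
 (.n (.n (.p (nat_lit 0x3448344634443440343e060906) (nat_lit 0x2000004003) (nat_lit 52))
 (.p (nat_lit 0x18141812180e180c180a0cb906) (nat_lit 0x400004e22a) (nat_lit 52)))
 (.n (.p (nat_lit 0x20131d4902) (nat_lit 0x44080e) (nat_lit 15))
 (.p (nat_lit 0x13ee60d302) (nat_lit 0x340a623b0000500040000) (nat_lit 49))))))

def c512_208 : Tr := .n c1024_208 c1024_720

def c1024_464 : Tr :=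
 .n (.n (.n (.n (.n (.n (.p (nat_lit 0x2a1029f028e03) (nat_lit 0x22c00015) (nat_lit 19))
 (.p (nat_lit 0x113c618d02) (nat_lit 0x54c88a970000400040000) (nat_lit 49)))
 (.p (nat_lit 0x2223a9702) (nat_lit 0x611) (nat_lit 1)))
 (.n (.p (nat_lit 0x18c418c018be18bc17f117ed06) (nat_lit 0x140000d2603) (nat_lit 52))
 (.p (nat_lit 0x33152c2302) (nat_lit 0x55092b) (nat_lit 16))))
 (.n (.n (.p (nat_lit 0x1fcc1fc81fc61fc21d311d2b06) (nat_lit 0x900004e900) (nat_lit 52))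
 (.p (nat_lit 0x1b481b461b441b40354d354906) (nat_lit 0x28000c601f) (nat_lit 52)))
 (.n (.p (nat_lit 0x45fd0b4102) (nat_lit 0x314207) (nat_lit 16))
 (.p (nat_lit 0x5e5c317902) (nat_lit 0x60042700) (nat_lit 48)))))
 (.n (.n (.n (.p (nat_lit 0x118c118a118611820f630f5f06) (nat_lit 0x5000044400) (nat_lit 52))
 (.p (nat_lit 0x3aac3aa83aa63aa402dc02d502cf3aab3aa309) (nat_lit 0x2000618) (nat_lit 10)))
 (.n (.p (nat_lit 0x460d0b9902) (nat_lit 0x50a205) (nat_lit 16))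
 (.p (nat_lit 0x4355c2102) (nat_lit 0x12a) (nat_lit 28))))
 (.n (.n (.p (nat_lit 0x23e223de23dc23da23d8231706) (nat_lit 0x80000cea01) (nat_lit 52))
 (.p (nat_lit 0x1180117e117c117a11762c0f06) (nat_lit 0x10000c2924) (nat_lit 52)))
 (.n (.p (nat_lit 0x421a3c2f02) (nat_lit 0x30060b) (nat_lit 4))
 (.p (nat_lit 0x1ae85f8f02) (nat_lit 0x581a303a4000200000600) (nat_lit 50))))))
 (.n (.n (.n (.n (.p (nat_lit 0xa860a840a820a80087b087906) (nat_lit 0x18000088200) (nat_lit 52))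
 (.p (nat_lit 0x197a1976197419701393138d06) (nat_lit 0x900008e515) (nat_lit 52)))
 (.n (.p (nat_lit 0x151b127b02) (nat_lit 0x540404) (nat_lit 15))
 (.p (nat_lit 0x592459225920591c591a01eb009207) (nat_lit 0x216103) (nat_lit 25))))
 (.n (.n (.p (nat_lit 0xa020a0009fe09fc0056003500330a070a0509) (nat_lit 0x2c40101) (nat_lit 10))
 (.p (nat_lit 0x88e117102) (nat_lit 0x300123) (nat_lit 5)))
 (.n (.p (nat_lit 0x33d3241d02) (nat_lit 0x40eb07) (nat_lit 16))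
 (.p (nat_lit 0x5c935ead02) (nat_lit 0x2a0000000b00) (nat_lit 37)))))
 (.n (.n (.n (.p (nat_lit 0x191d162102) (nat_lit 0x4700) (nat_lit 16))
 (.p (nat_lit 0xa8a0a860a840a8009e109db06) (nat_lit 0x90000c811c) (nat_lit 52)))
 (.n (.p (nat_lit 0x8e64ba702) (nat_lit 0x500106) (nat_lit 29))
 (.p (nat_lit 0x5d550e7502) (nat_lit 0x280080000300) (nat_lit 39))))
 (.n (.n (.p (nat_lit 0x1daa1da61da41da21da0232306) (nat_lit 0x8000052a02) (nat_lit 52))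
 (.p (nat_lit 0x9fa12c302) (nat_lit 0x54012a) (nat_lit 4)))
 (.n (.p (nat_lit 0x68606840680067e067c14cf06) (nat_lit 0x40000c650e) (nat_lit 52))
 (.p (nat_lit 0xe7c608f02) (nat_lit 0x356221ca4000300040000) (nat_lit 50))))))

def c1024_976 : Tr :=
 .n (.n (.n (.n (.n (.p (nat_lit 0x6a806a606a406a206a0065706) (nat_lit 0x100000cc000) (nat_lit 51))
 (.p (nat_lit 0x4f284f264f244f22027c027302694f2b4f2109) (nat_lit 0x2840414) (nat_lit 10)))
 (.n (.p (nat_lit 0xbd3c0f02) (nat_lit 0x400004) (nat_lit 30))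
 (.p (nat_lit 0x42f041e702) (nat_lit 0x20072e) (nat_lit 5))))
 (.n (.n (.p (nat_lit 0x11c215f02) (nat_lit 0x500b00) (nat_lit 1))
 (.p (nat_lit 0x213a213621342132213044a506) (nat_lit 0x80000ce021) (nat_lit 51)))
 (.n (.p (nat_lit 0x1232122e122a12280164014901451231122d09) (nat_lit 0x2240407) (nat_lit 10))
 (.p (nat_lit 0x5e7e3d7102) (nat_lit 0x8900) (nat_lit 48)))))
 (.n (.n (.n (.p (nat_lit 0x1578157615741572156e154f06) (nat_lit 0x1000082600) (nat_lit 52))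
 (.p (nat_lit 0x23fa23f823f423f223f04f6506) (nat_lit 0x400009051b) (nat_lit 51)))
 (.n (.p (nat_lit 0xbb00bac0baa0ba80ba6196106) (nat_lit 0x8000084705) (nat_lit 52))
 (.p (nat_lit 0x5dd2422702) (nat_lit 0x60012100) (nat_lit 48))))
 (.n (.n (.p (nat_lit 0x13b61a0502) (nat_lit 0x400502) (nat_lit 4))
 (.p (nat_lit 0x42ed42e102) (nat_lit 0x727) (nat_lit 16)))
 (.n (.p (nat_lit 0x2880e1502) (nat_lit 0x40030e) (nat_lit 1))
 (.p (nat_lit 0x2332601102) (nat_lit 0x405aa0b95000500000600) (nat_lit 49))))))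
 (.n (.n (.n (.n (.p (nat_lit 0xe670b3502) (nat_lit 0x316300) (nat_lit 16))
 (.p (nat_lit 0x462c462a46284622217d217b06) (nat_lit 0x3000080a15) (nat_lit 52)))
 (.n (.p (nat_lit 0x42bb195702) (nat_lit 0x500704) (nat_lit 16))
 (.p (nat_lit 0x1ee01ea01e801e60211000b06) (nat_lit 0x1d0c40e) (nat_lit 26))))
 (.n (.n (.p (nat_lit 0x1d861d841d821d7e1d7c002f1d8107) (nat_lit 0x240801) (nat_lit 7))
 (.p (nat_lit 0x1a98105902) (nat_lit 0x40723) (nat_lit 5)))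
 (.n (.p (nat_lit 0x33762d7d02) (nat_lit 0x40a09) (nat_lit 4))
 (.p (nat_lit 0x1ae85f1102) (nat_lit 0x3a2270350000200000600) (nat_lit 50)))))
 (.n (.n (.n (.p (nat_lit 0x1c661c621c601c5e1a671a6306) (nat_lit 0x140000c0800) (nat_lit 52))
 (.p (nat_lit 0x20280dbf02) (nat_lit 0x34091c) (nat_lit 4)))
 (.n (.p (nat_lit 0x7aa07a607a407a207a01c3706) (nat_lit 0x8000002806) (nat_lit 51))
 (.p (nat_lit 0x5e3442a302) (nat_lit 0xa0052500) (nat_lit 48))))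
 (.n (.n (.p (nat_lit 0xcde1c9702) (nat_lit 0x440203) (nat_lit 4))
 (.p (nat_lit 0x17e0130702) (nat_lit 0x34062a) (nat_lit 4)))
 (.n (.p (nat_lit 0x2a0a276102) (nat_lit 0x14040f) (nat_lit 4))
 (.p (nat_lit 0x634611702) (nat_lit 0x3562621b0000000040000) (nat_lit 49))))))

def c512_464 : Tr := .n c1024_464 c1024_976

def c256_208 : Tr := .n c512_208 c512_464

def c128_80 : Tr := .n c256_80 c256_208

def c64_16 : Tr := .n c128_16 c128_80

def c1024_48 : Tr :=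
 .n (.n (.n (.n (.n (.n (.p (nat_lit 0x34002a003903) (nat_lit 0x10800500001) (nat_lit 17))
 (.p (nat_lit 0x1150612d02) (nat_lit 0x45486a3a4000400040000) (nat_lit 50)))
 (.p (nat_lit 0x2b94278b02) (nat_lit 0x90f) (nat_lit 5)))
 (.n (.p (nat_lit 0xfac37f102) (nat_lit 0x440303) (nat_lit 29))
 (.p (nat_lit 0x1d731aa702) (nat_lit 0x14072a) (nat_lit 15))))
 (.n (.n (.p (nat_lit 0x1d0e1d0c1d061d041a631a6106) (nat_lit 0x60000d4800) (nat_lit 51))
 (.p (nat_lit 0x30d559302) (nat_lit 0x340a1c) (nat_lit 30)))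
 (.n (.p (nat_lit 0x1d9823f502) (nat_lit 0x240806) (nat_lit 5))
 (.p (nat_lit 0x5cd15e3f02) (nat_lit 0x1c0020000600) (nat_lit 36)))))
 (.n (.n (.n (.p (nat_lit 0xec80ec60ec40ec20ec00c9906) (nat_lit 0x100000ca300) (nat_lit 51))
 (.p (nat_lit 0x258654ad02) (nat_lit 0x240b15) (nat_lit 29)))
 (.n (.p (nat_lit 0x430f1ab102) (nat_lit 0x44704) (nat_lit 16))
 (.p (nat_lit 0x5ac65ac45ac25ac05abe01eb021607) (nat_lit 0x21480f) (nat_lit 25))))
 (.n (.n (.p (nat_lit 0x2d2b7f02) (nat_lit 0x100901) (nat_lit 30))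
 (.p (nat_lit 0x3a356f702) (nat_lit 0x140823) (nat_lit 30)))
 (.n (.p (nat_lit 0x3746344f02) (nat_lit 0x24020a) (nat_lit 4))
 (.p (nat_lit 0xe825f2102) (nat_lit 0x3a2570344000300040000) (nat_lit 50))))))
 (.n (.n (.n (.n (.p (nat_lit 0x7a1079502) (nat_lit 0x100) (nat_lit 34))
 (.p (nat_lit 0x50fd50f102) (nat_lit 0x206914) (nat_lit 16)))
 (.n (.p (nat_lit 0xb73d0f02) (nat_lit 0x100104) (nat_lit 30))
 (.p (nat_lit 0x468c488302) (nat_lit 0x4022f) (nat_lit 5))))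
 (.n (.n (.p (nat_lit 0x2410240e240c240a215f215506) (nat_lit 0x10800092b00) (nat_lit 51))
 (.p (nat_lit 0x38b564702) (nat_lit 0x340721) (nat_lit 30)))
 (.n (.p (nat_lit 0x17a6054102) (nat_lit 0x440607) (nat_lit 4))
 (.p (nat_lit 0x5cf91f1502) (nat_lit 0x240040000900) (nat_lit 41)))))
 (.n (.n (.n (.p (nat_lit 0x163b154f02) (nat_lit 0x102600) (nat_lit 16))
 (.p (nat_lit 0x5de54fb02) (nat_lit 0x50001c) (nat_lit 29)))
 (.n (.p (nat_lit 0x1ac61ac21ac01abe1abc00eb1ac507) (nat_lit 0x440705) (nat_lit 7))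
 (.p (nat_lit 0x5cb10a5102) (nat_lit 0xc0000000200) (nat_lit 40))))
 (.n (.n (.p (nat_lit 0x1ef61ef41ef01eee1eec005f1ef307) (nat_lit 0x300902) (nat_lit 7))
 (.p (nat_lit 0x4590458c458a458845860411458f07) (nat_lit 0x440128) (nat_lit 7)))
 (.n (.p (nat_lit 0xbd40bd20bd00bce0bca0f7706) (nat_lit 0x10000c030e) (nat_lit 52))
 (.p (nat_lit 0xe7c602702) (nat_lit 0x406a62335000300040000) (nat_lit 50))))))

def c1024_560 : Tr :=
 .n (.n (.n (.n (.n (.n (.p (nat_lit 0x36a0366037103) (nat_lit 0xa000500020) (nat_lit 17))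
 (.p (nat_lit 0x1ae461a702) (nat_lit 0x3421a9c14800200000600) (nat_lit 50)))
 (.p (nat_lit 0x9740970096e096c3bd53bd106) (nat_lit 0x14000050b11) (nat_lit 51)))
 (.n (.p (nat_lit 0x1fca1fc81fc61fc421cb21c106) (nat_lit 0x1080000ea03) (nat_lit 52))
 (.p (nat_lit 0x32c631bf02) (nat_lit 0x50092c) (nat_lit 5))))
 (.n (.n (.p (nat_lit 0x20691d3302) (nat_lit 0x556900) (nat_lit 16))
 (.p (nat_lit 0x3b06382f02) (nat_lit 0xa1f) (nat_lit 5)))
 (.n (.p (nat_lit 0xe00514902) (nat_lit 0x307) (nat_lit 29))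
 (.p (nat_lit 0x5d99181502) (nat_lit 0x1400a0000700) (nat_lit 38)))))
 (.n (.n (.n (.p (nat_lit 0x127f0f5f02) (nat_lit 0x154400) (nat_lit 16))
 (.p (nat_lit 0x40943eb102) (nat_lit 0x300419) (nat_lit 5)))
 (.n (.p (nat_lit 0x46e446e246e046de46dc0e5506) (nat_lit 0x80008e305) (nat_lit 51))
 (.p (nat_lit 0x4955c7502) (nat_lit 0x30012d) (nat_lit 28))))
 (.n (.n (.p (nat_lit 0x7602d1102) (nat_lit 0x440002) (nat_lit 29))
 (.p (nat_lit 0x3a6335902) (nat_lit 0x300a25) (nat_lit 1)))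
 (.n (.p (nat_lit 0x433e3ce702) (nat_lit 0x300b0b) (nat_lit 4))
 (.p (nat_lit 0x181c5fa302) (nat_lit 0x589832b44000100000600) (nat_lit 50))))))
 (.n (.n (.n (.n (.p (nat_lit 0xb85087302) (nat_lit 0x112200) (nat_lit 16))
 (.p (nat_lit 0xe740e720e700e6e0e6c14df06) (nat_lit 0x100000c6515) (nat_lit 52)))
 (.n (.p (nat_lit 0x151841a702) (nat_lit 0x440504) (nat_lit 29))
 (.p (nat_lit 0xbe00bc00b600b4000704a706) (nat_lit 0x1a0c504) (nat_lit 26))))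
 (.n (.n (.p (nat_lit 0xcc8159102) (nat_lit 0x540201) (nat_lit 4))
 (.p (nat_lit 0x899088d02) (nat_lit 0x200123) (nat_lit 16)))
 (.n (.p (nat_lit 0x28d025ff02) (nat_lit 0x300308) (nat_lit 4))
 (.p (nat_lit 0x5d39233902) (nat_lit 0x140060000b00) (nat_lit 38)))))
 (.n (.n (.n (.p (nat_lit 0x19b419b019ae19ac179d179906) (nat_lit 0x140000c2700) (nat_lit 52))
 (.p (nat_lit 0x106e106c106a1064139b139906) (nat_lit 0x300001051c) (nat_lit 51)))
 (.n (.p (nat_lit 0xe630b9d02) (nat_lit 0x100206) (nat_lit 15))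
 (.p (nat_lit 0x5cd70fe302) (nat_lit 0x160020000400) (nat_lit 40))))
 (.n (.n (.p (nat_lit 0x16d016ce16cc16ca16c8246706) (nat_lit 0x10000080b02) (nat_lit 52))
 (.p (nat_lit 0xa5a0a580a560a520a500b5706) (nat_lit 0x200000422a) (nat_lit 51)))
 (.n (.p (nat_lit 0x1914080102) (nat_lit 0x20070e) (nat_lit 4))
 (.p (nat_lit 0xba860a502) (nat_lit 0x346068ca4000200040000) (nat_lit 49))))))

def c512_48 : Tr := .n c1024_48 c1024_560

def c1024_304 : Tr :=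
 .n (.n (.n (.n (.n (.n (.p (nat_lit 0x1330131012003) (nat_lit 0x22c00006) (nat_lit 19))
 (.p (nat_lit 0x1f18616502) (nat_lit 0x340c62b84000300040600) (nat_lit 50)))
 (.p (nat_lit 0x33d62ea302) (nat_lit 0xb10) (nat_lit 4)))
 (.n (.p (nat_lit 0x167e167c167a167816760087167507) (nat_lit 0x603) (nat_lit 7))
 (.p (nat_lit 0x43a325ab02) (nat_lit 0x252b2a) (nat_lit 16))))
 (.n (.n (.p (nat_lit 0x1ea91bc702) (nat_lit 0x202900) (nat_lit 16))
 (.p (nat_lit 0x2e262fd502) (nat_lit 0x11e) (nat_lit 5)))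
 (.n (.p (nat_lit 0x11b512102) (nat_lit 0x440906) (nat_lit 30))
 (.p (nat_lit 0x5e501c1702) (nat_lit 0x16700) (nat_lit 47)))))
 (.n (.n (.n (.p (nat_lit 0x10781074107210700dff0dfb06) (nat_lit 0x14000090400) (nat_lit 51))
 (.p (nat_lit 0x33902f8302) (nat_lit 0x140a17) (nat_lit 5)))
 (.n (.p (nat_lit 0x440d062702) (nat_lit 0x504005) (nat_lit 16))
 (.p (nat_lit 0x36c036803660362040300b706) (nat_lit 0x210a020) (nat_lit 26))))
 (.n (.n (.p (nat_lit 0x2313204b02) (nat_lit 0x240901) (nat_lit 15))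
 (.p (nat_lit 0x25a210bf02) (nat_lit 0x440b23) (nat_lit 4)))
 (.n (.p (nat_lit 0x3a8f3b6f02) (nat_lit 0x200b0a) (nat_lit 15))
 (.p (nat_lit 0x13f45f6302) (nat_lit 0x3aa074b44000500040000) (nat_lit 49))))))
 (.n (.n (.n (.n (.p (nat_lit 0x95e095a095809560725071d06) (nat_lit 0x88000cc100) (nat_lit 52))
 (.p (nat_lit 0x12440be702) (nat_lit 0x240415) (nat_lit 5)))
 (.n (.p (nat_lit 0x3f643f623f603f5e3f5c0e4f06) (nat_lit 0x400000c304) (nat_lit 51))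
 (.p (nat_lit 0x58ba58b858b658b458b2043f003607) (nat_lit 0x512501) (nat_lit 25))))
 (.n (.n (.p (nat_lit 0x5ec25d702) (nat_lit 0x1) (nat_lit 29))
 (.p (nat_lit 0x43c05e902) (nat_lit 0x400023) (nat_lit 1)))
 (.n (.p (nat_lit 0x2000058302) (nat_lit 0x140907) (nat_lit 5))
 (.p (nat_lit 0x5e9a484d02) (nat_lit 0x20042a00) (nat_lit 47)))))
 (.n (.n (.n (.p (nat_lit 0x58162102) (nat_lit 0x700) (nat_lit 1))
 (.p (nat_lit 0x3d05073902) (nat_lit 0x25201c) (nat_lit 16)))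
 (.n (.p (nat_lit 0x1d921d901d8a1d88010600e900e71d8f1d8d09) (nat_lit 0x1a40805) (nat_lit 10))
 (.p (nat_lit 0x5df40d0702) (nat_lit 0x300) (nat_lit 45))))
 (.n (.n (.p (nat_lit 0x198419821980197c21bf21b706) (nat_lit 0x1100008ea02) (nat_lit 51))
 (.p (nat_lit 0x50c24f0502) (nat_lit 0x340829) (nat_lit 4)))
 (.n (.p (nat_lit 0x2346234423422340233e123f06) (nat_lit 0x1000005640e) (nat_lit 51))
 (.p (nat_lit 0xfe4606702) (nat_lit 0x5898b0b44000400000000) (nat_lit 50))))))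

def c1024_816 : Tr :=
 .n (.n (.n (.n (.n (.n (.p (nat_lit 0x5720570056e056c04dd04db06) (nat_lit 0x1800090000) (nat_lit 52))
 (.p (nat_lit 0x181061e502) (nat_lit 0x14e0a8c74000100000600) (nat_lit 49)))
 (.p (nat_lit 0x484e44cf02) (nat_lit 0x240413) (nat_lit 5)))
 (.n (.p (nat_lit 0x247d247102) (nat_lit 0x414b03) (nat_lit 16))
 (.p (nat_lit 0x4343bfb02) (nat_lit 0x40b2d) (nat_lit 1))))
 (.n (.n (.p (nat_lit 0x222a2228222222201ff91ff706) (nat_lit 0x60000c4a00) (nat_lit 52))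
 (.p (nat_lit 0xeca0ec80ec40ec20ec0423f06) (nat_lit 0x400008a620) (nat_lit 51)))
 (.n (.p (nat_lit 0xf8b0f7302) (nat_lit 0x548307) (nat_lit 16))
 (.p (nat_lit 0x5d791ae902) (nat_lit 0x40080000800) (nat_lit 40)))))
 (.n (.n (.n (.p (nat_lit 0x142414221420141e141a121f06) (nat_lit 0x1000044500) (nat_lit 51))
 (.p (nat_lit 0x48c4464102) (nat_lit 0x40051a) (nat_lit 5)))
 (.n (.p (nat_lit 0x11c169702) (nat_lit 0x500605) (nat_lit 1))
 (.p (nat_lit 0x5d81064b02) (nat_lit 0x2c00a0000000) (nat_lit 41))))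
 (.n (.n (.p (nat_lit 0x2fc62fc42fc22fbe0e350e3106) (nat_lit 0x2800000302) (nat_lit 52))
 (.p (nat_lit 0x3ad33bf702) (nat_lit 0x440b26) (nat_lit 15)))
 (.n (.p (nat_lit 0x4e204acb02) (nat_lit 0x34030d) (nat_lit 5))
 (.p (nat_lit 0x12a65fe702) (nat_lit 0x38ac60b44000500000000) (nat_lit 50))))))
 (.n (.n (.n (.n (.p (nat_lit 0xd340d320d300d2c0d2a0b3306) (nat_lit 0x2000080300) (nat_lit 51))
 (.p (nat_lit 0x1bec546702) (nat_lit 0x300815) (nat_lit 29)))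
 (.n (.p (nat_lit 0x16ae16ac16aa16a417f717f506) (nat_lit 0x30000cc604) (nat_lit 51))
 (.p (nat_lit 0x1435a0902) (nat_lit 0x100707) (nat_lit 28))))
 (.n (.n (.p (nat_lit 0x14f6174902) (nat_lit 0x540501) (nat_lit 4))
 (.p (nat_lit 0xcb0119902) (nat_lit 0x540223) (nat_lit 4)))
 (.n (.p (nat_lit 0x18ba18b818b618b418b0300d06) (nat_lit 0x1000012309) (nat_lit 52))
 (.p (nat_lit 0x180e5edf02) (nat_lit 0x4a9d22344000100000600) (nat_lit 49)))))
 (.n (.n (.n (.p (nat_lit 0x1b821b7e1b7c1b7a190318ff06) (nat_lit 0x1400000c800) (nat_lit 51))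
 (.p (nat_lit 0x1bf20d9702) (nat_lit 0x81c) (nat_lit 5)))
 (.n (.p (nat_lit 0x196c252b02) (nat_lit 0x400706) (nat_lit 5))
 (.p (nat_lit 0x5d1b129902) (nat_lit 0x20040000500) (nat_lit 38))))
 (.n (.n (.p (nat_lit 0x24008c102) (nat_lit 0x400103) (nat_lit 1))
 (.p (nat_lit 0x116811641162115e0e210e1b06) (nat_lit 0x900008032a) (nat_lit 51)))
 (.n (.p (nat_lit 0x2176084b02) (nat_lit 0x500a0e) (nat_lit 5))
 (.p (nat_lit 0x113c60ed02) (nat_lit 0x340d6a3a4000400040000) (nat_lit 49))))))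

def c512_304 : Tr := .n c1024_304 c1024_816

def c256_48 : Tr := .n c512_48 c512_304

def c1024_176 : Tr :=
 .n (.n (.n (.n (.n (.n (.p (nat_lit 0xa900a1009403) (nat_lit 0xa0800003) (nat_lit 19))
 (.p (nat_lit 0x642614d02) (nat_lit 0x3b0221d85000000040000) (nat_lit 50)))
 (.p (nat_lit 0x317c2e6b02) (nat_lit 0x540410) (nat_lit 4)))
 (.n (.p (nat_lit 0x390c390a390839043902126906) (nat_lit 0x20000c0403) (nat_lit 51))
 (.p (nat_lit 0x330b203b02) (nat_lit 0x4e92a) (nat_lit 16))))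
 (.n (.n (.p (nat_lit 0x1de61de41de21dde1ddc1bc706) (nat_lit 0x2000082900) (nat_lit 51))
 (.p (nat_lit 0x178e178c178a1788178626c706) (nat_lit 0x100000d401d) (nat_lit 52)))
 (.n (.p (nat_lit 0x50a71d9702) (nat_lit 0x144806) (nat_lit 16))
 (.p (nat_lit 0x5d7d154902) (nat_lit 0x80000600) (nat_lit 40)))))
 (.n (.n (.n (.p (nat_lit 0x3a40df902) (nat_lit 0x200400) (nat_lit 1))
 (.p (nat_lit 0xaa20aa00a9e0a9a0a982bf906) (nat_lit 0x20000ca916) (nat_lit 51)))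
 (.n (.p (nat_lit 0xc200cd00d11fed1e8705) (nat_lit 0xa0b40b04) (nat_lit 9))
 (.p (nat_lit 0x2d402d202d002ce008d035906) (nat_lit 0x1d0a418) (nat_lit 26))))
 (.n (.n (.p (nat_lit 0x1ef11ee502) (nat_lit 0x210901) (nat_lit 16))
 (.p (nat_lit 0x2196109902) (nat_lit 0x300a23) (nat_lit 4)))
 (.n (.p (nat_lit 0x19b523b02) (nat_lit 0x14040a) (nat_lit 30))
 (.p (nat_lit 0x11465f4102) (nat_lit 0x3a2260b50000400040000) (nat_lit 50))))))
 (.n (.n (.n (.n (.p (nat_lit 0x89905c102) (nat_lit 0x20a100) (nat_lit 16))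
 (.p (nat_lit 0x93a0938093609320930072d06) (nat_lit 0x200004a015) (nat_lit 52)))
 (.n (.p (nat_lit 0x3e2a3e283e263e243e223e2006) (nat_lit 0xa204) (nat_lit 52))
 (.p (nat_lit 0x4cfc4f4502) (nat_lit 0x230) (nat_lit 4))))
 (.n (.n (.p (nat_lit 0x2520251e251c251a22bd22bb06) (nat_lit 0x18000cab00) (nat_lit 52))
 (.p (nat_lit 0x4e684e664e644e624e604fb906) (nat_lit 0x8000c2522) (nat_lit 51)))
 (.n (.p (nat_lit 0x145519502) (nat_lit 0x200807) (nat_lit 30))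
 (.p (nat_lit 0x5d975e9302) (nat_lit 0x1600a0000900) (nat_lit 37)))))
 (.n (.n (.n (.p (nat_lit 0x17541752174e174a16b716b306) (nat_lit 0x5000050600) (nat_lit 51))
 (.p (nat_lit 0x7380e9502) (nat_lit 0x24001c) (nat_lit 4)))
 (.n (.p (nat_lit 0x1c2222a302) (nat_lit 0x805) (nat_lit 4))
 (.p (nat_lit 0x5d395de902) (nat_lit 0x140060000200) (nat_lit 37))))
 (.n (.n (.p (nat_lit 0x1cf61cf21cf01cee1cec205b06) (nat_lit 0x80000cc902) (nat_lit 52))
 (.p (nat_lit 0x4c164ed102) (nat_lit 0x500129) (nat_lit 5)))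
 (.n (.p (nat_lit 0x21d621d421d021ce21cc10e106) (nat_lit 0x400009440e) (nat_lit 52))
 (.p (nat_lit 0x636604902) (nat_lit 0x406a6254c800000040000) (nat_lit 49))))))

def c1024_688 : Tr :=
 .n (.n (.n (.n (.n (.n (.p (nat_lit 0x4cc04ca04c804c604c404c206) (nat_lit 0x0) (nat_lit 2))
 (.p (nat_lit 0x207261c502) (nat_lit 0x3421684a0800400000600) (nat_lit 49)))
 (.p (nat_lit 0x422a4228422642244222024f422107) (nat_lit 0x612) (nat_lit 7)))
 (.n (.p (nat_lit 0x2470246e246c246a24680091247307) (nat_lit 0x500b03) (nat_lit 7))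
 (.p (nat_lit 0x36ce39a702) (nat_lit 0x22d) (nat_lit 4))))
 (.n (.n (.p (nat_lit 0x21522150214e21481e911e8f06) (nat_lit 0x3000090a00) (nat_lit 51))
 (.p (nat_lit 0x1fd81fd61fd41fd21fd03c5f06) (nat_lit 0x80008e020) (nat_lit 52)))
 (.n (.p (nat_lit 0x3f950e0502) (nat_lit 0x212307) (nat_lit 16))
 (.p (nat_lit 0x5ccf1c3d02) (nat_lit 0x1e0020000800) (nat_lit 39)))))
 (.n (.n (.n (.p (nat_lit 0x131413121310130c10cd10c506) (nat_lit 0x1100000e500) (nat_lit 52))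
 (.p (nat_lit 0xa7e0a7c0a7a0a780a76427506) (nat_lit 0x800048619) (nat_lit 52)))
 (.n (.p (nat_lit 0x4826482448224820481e127d06) (nat_lit 0x8000c4405) (nat_lit 52))
 (.p (nat_lit 0x5db4138102) (nat_lit 0x20004000) (nat_lit 48))))
 (.n (.n (.p (nat_lit 0x2ec70a0b02) (nat_lit 0x14a102) (nat_lit 16))
 (.p (nat_lit 0x36c838a102) (nat_lit 0x300226) (nat_lit 5)))
 (.n (.p (nat_lit 0x490c490a490849044902484306) (nat_lit 0x20000c440c) (nat_lit 52))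
 (.p (nat_lit 0x15385fcd02) (nat_lit 0x95832b05000000000600) (nat_lit 49))))))
 (.n (.n (.n (.n (.p (nat_lit 0xc5e0c5c0c580c560c5409d306) (nat_lit 0x40000d2200) (nat_lit 51))
 (.p (nat_lit 0x17be0c1b02) (nat_lit 0x440615) (nat_lit 4)))
 (.n (.p (nat_lit 0x1f181f141f121f10168b168706) (nat_lit 0x14000092604) (nat_lit 51))
 (.p (nat_lit 0xbc59bf02) (nat_lit 0x400805) (nat_lit 27))))
 (.n (.n (.p (nat_lit 0x297c297a29782976297410fd06) (nat_lit 0x10000012401) (nat_lit 51))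
 (.p (nat_lit 0xcaf09ed02) (nat_lit 0x440123) (nat_lit 15)))
 (.n (.p (nat_lit 0x14a2b9302) (nat_lit 0x500908) (nat_lit 1))
 (.p (nat_lit 0x5ec24dcb02) (nat_lit 0xa0000b00) (nat_lit 48)))))
 (.n (.n (.n (.p (nat_lit 0x1a7f179d02) (nat_lit 0x542700) (nat_lit 16))
 (.p (nat_lit 0x29082906290429022900165106) (nat_lit 0x80000261c) (nat_lit 52)))
 (.n (.p (nat_lit 0x4e944e904e8e4e8c4e8a113706) (nat_lit 0x8000090406) (nat_lit 51))
 (.p (nat_lit 0x5d4f0fdd02) (nat_lit 0x2e0080000400) (nat_lit 38))))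
 (.n (.n (.p (nat_lit 0x17841780177e177c177a25bb06) (nat_lit 0x8000054b02) (nat_lit 52))
 (.p (nat_lit 0xa4e0a4c0a480a440cb90cb506) (nat_lit 0x500004422a) (nat_lit 52)))
 (.n (.p (nat_lit 0x1d44532d02) (nat_lit 0x24080e) (nat_lit 29))
 (.p (nat_lit 0x8f260cf02) (nat_lit 0x35056a3a4000100040000) (nat_lit 49))))))

def c512_176 : Tr := .n c1024_176 c1024_688

def c1024_432 : Tr :=
 .n (.n (.n (.n (.n (.n (.p (nat_lit 0x270026c027503) (nat_lit 0xa000500014) (nat_lit 17))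
 (.p (nat_lit 0x1548618702) (nat_lit 0x54c88a970000000000600) (nat_lit 50)))
 (.p (nat_lit 0x24353c302) (nat_lit 0x540411) (nat_lit 30)))
 (.n (.p (nat_lit 0x17f017ee17ea17e8009c008d008717ed17e709) (nat_lit 0x1840603) (nat_lit 10))
 (.p (nat_lit 0x141814161414141214102bc506) (nat_lit 0x80008292b) (nat_lit 51))))
 (.n (.n (.p (nat_lit 0x1fb41fb21fae1fac1faa1d2f06) (nat_lit 0x400004c900) (nat_lit 51))
 (.p (nat_lit 0x1cae1cac1ca81ca61ca434c506) (nat_lit 0x400008601f) (nat_lit 51)))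
 (.n (.p (nat_lit 0x96a0968096409600b410b3d06) (nat_lit 0x500008e207) (nat_lit 51))
 (.p (nat_lit 0x5d33197702) (nat_lit 0x1a0060000700) (nat_lit 39)))))
 (.n (.n (.n (.p (nat_lit 0x11581156115411520f670f6506) (nat_lit 0x18000040400) (nat_lit 51))
 (.p (nat_lit 0x3a6c370f02) (nat_lit 0x340518) (nat_lit 4)))
 (.n (.p (nat_lit 0xb9020b302) (nat_lit 0x100205) (nat_lit 5))
 (.p (nat_lit 0x3d95bff02) (nat_lit 0x400824) (nat_lit 28))))
 (.n (.n (.p (nat_lit 0x23142c5502) (nat_lit 0x340a01) (nat_lit 29))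
 (.p (nat_lit 0x2bb829dd02) (nat_lit 0x924) (nat_lit 4)))
 (.n (.p (nat_lit 0x1fc01fbc1fba1fb81fb6401706) (nat_lit 0x80000cc30b) (nat_lit 52))
 (.p (nat_lit 0x6345f8502) (nat_lit 0x581a32b44000000040000) (nat_lit 49))))))
 (.n (.n (.n (.n (.p (nat_lit 0xa660a600a5e0a5c0879087706) (nat_lit 0xc000000200) (nat_lit 51))
 (.p (nat_lit 0xd1a0d160d140d121395139106) (nat_lit 0x14000006515) (nat_lit 51)))
 (.n (.p (nat_lit 0x1276409f02) (nat_lit 0x340404) (nat_lit 29))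
 (.p (nat_lit 0x19a591102) (nat_lit 0x100003) (nat_lit 27))))
 (.n (.n (.p (nat_lit 0x8e508a902) (nat_lit 0x414101) (nat_lit 16))
 (.p (nat_lit 0x1460145e145c145a1458074106) (nat_lit 0x80004e023) (nat_lit 51)))
 (.n (.p (nat_lit 0x241a070b02) (nat_lit 0x300b07) (nat_lit 4))
 (.p (nat_lit 0x5d915eab02) (nat_lit 0x1c00a0000a00) (nat_lit 37)))))
 (.n (.n (.n (.p (nat_lit 0x18e818e618e418e0162b162306) (nat_lit 0x11000016700) (nat_lit 51))
 (.p (nat_lit 0x30b550d02) (nat_lit 0x24011c) (nat_lit 30)))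
 (.n (.p (nat_lit 0x4b85078902) (nat_lit 0x46006) (nat_lit 16))
 (.p (nat_lit 0x5d7d0d0f02) (nat_lit 0x80000300) (nat_lit 38))))
 (.n (.n (.p (nat_lit 0x154a1548154415421540232106) (nat_lit 0x400004ca02) (nat_lit 51))
 (.p (nat_lit 0x9f012b902) (nat_lit 0x4012a) (nat_lit 4)))
 (.n (.p (nat_lit 0x14a14d302) (nat_lit 0x54050e) (nat_lit 1))
 (.p (nat_lit 0x12a712990feb0fdd0d170d090a510a4b07a9079f04d104c360880d) (nat_lit 0x356221ca4000000000000) (nat_lit 33))))))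

def c1024_944 : Tr :=
 .n (.n (.n (.n (.n (.p (nat_lit 0x68606840682067c0651064f06) (nat_lit 0x30000c6000) (nat_lit 52))
 (.p (nat_lit 0x4e9c4bb902) (nat_lit 0x300414) (nat_lit 4)))
 (.n (.p (nat_lit 0x3bf725c702) (nat_lit 0x448b03) (nat_lit 16))
 (.p (nat_lit 0x1430142e142c142a1426425306) (nat_lit 0x100008462e) (nat_lit 52))))
 (.n (.n (.p (nat_lit 0x23171ffb02) (nat_lit 0x44ca00) (nat_lit 16))
 (.p (nat_lit 0x21222120211e211a2118441306) (nat_lit 0x200008c021) (nat_lit 52)))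
 (.n (.p (nat_lit 0x14e0159015d0525069705) (nat_lit 0xa1940407) (nat_lit 9))
 (.p (nat_lit 0x5e7a195702) (nat_lit 0xa0014800) (nat_lit 48)))))
 (.n (.n (.n (.p (nat_lit 0x152f122302) (nat_lit 0x356500) (nat_lit 16))
 (.p (nat_lit 0x4eaa4caf02) (nat_lit 0x40041b) (nat_lit 4)))
 (.n (.p (nat_lit 0x195c228f02) (nat_lit 0x200705) (nat_lit 5))
 (.p (nat_lit 0x5d395dd302) (nat_lit 0x140060000100) (nat_lit 36))))
 (.n (.n (.p (nat_lit 0x313c313a313831363134313206) (nat_lit 0xc4402) (nat_lit 52))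
 (.p (nat_lit 0x4292406502) (nat_lit 0x340627) (nat_lit 4)))
 (.n (.p (nat_lit 0x512852c102) (nat_lit 0x24090d) (nat_lit 29))
 (.p (nat_lit 0x2346600b02) (nat_lit 0x405aa2354800500000600) (nat_lit 50))))))
 (.n (.n (.n (.n (.p (nat_lit 0xe250b2f02) (nat_lit 0xc300) (nat_lit 16))
 (.p (nat_lit 0x281549102) (nat_lit 0xa15) (nat_lit 30)))
 (.n (.p (nat_lit 0x1cd21cd01cce1ccc194f194d06) (nat_lit 0x180000a704) (nat_lit 51))
 (.p (nat_lit 0x1df5a6902) (nat_lit 0x30040d) (nat_lit 28))))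
 (.n (.n (.p (nat_lit 0x1ee91c1f02) (nat_lit 0x400801) (nat_lit 15))
 (.p (nat_lit 0x2988298629842982298017cf06) (nat_lit 0x8000d4623) (nat_lit 52)))
 (.n (.p (nat_lit 0x33262d7502) (nat_lit 0x200a09) (nat_lit 4))
 (.p (nat_lit 0x2493248b21d921d51f151f0b1c511c3d1983197516ad16995f060d) (nat_lit 0x3a2274b50000000040600) (nat_lit 33)))))
 (.n (.n (.n (.p (nat_lit 0x1c4b1c3f02) (nat_lit 0x240800) (nat_lit 34))
 (.p (nat_lit 0x1ec60f1f02) (nat_lit 0x50091c) (nat_lit 5)))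
 (.n (.p (nat_lit 0x1c2e23e502) (nat_lit 0x806) (nat_lit 4))
 (.p (nat_lit 0x5da95e3502) (nat_lit 0x400a0000500) (nat_lit 36))))
 (.n (.n (.p (nat_lit 0xb7e1b2302) (nat_lit 0x400203) (nat_lit 5))
 (.p (nat_lit 0x1672145502) (nat_lit 0x50062a) (nat_lit 5)))
 (.n (.p (nat_lit 0x2585257902) (nat_lit 0x146b0e) (nat_lit 16))
 (.p (nat_lit 0x13ee610f02) (nat_lit 0x3425299b0000500040000) (nat_lit 49))))))

def c512_432 : Tr := .n c1024_432 c1024_944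

def c256_176 : Tr := .n c512_176 c512_432

def c128_48 : Tr := .n c256_48 c256_176

def c1024_112 : Tr :=
 .n (.n (.n (.n (.n (.n (.p (nat_lit 0x73006f006d006804) (nat_lit 0x15a00002) (nat_lit 20))
 (.p (nat_lit 0x634613d02) (nat_lit 0x342a21d84000000040000) (nat_lit 49)))
 (.p (nat_lit 0x2c3a27a902) (nat_lit 0x500a0f) (nat_lit 4)))
 (.n (.p (nat_lit 0x1114388102) (nat_lit 0x500403) (nat_lit 29))
 (.p (nat_lit 0x1ed6133b02) (nat_lit 0x10092a) (nat_lit 5))))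
 (.n (.n (.p (nat_lit 0x1d6d1a6502) (nat_lit 0x448800) (nat_lit 16))
 (.p (nat_lit 0x244b243f02) (nat_lit 0x30ab1c) (nat_lit 16)))
 (.n (.p (nat_lit 0x153e153c153a153815361d9506) (nat_lit 0x80004c806) (nat_lit 52))
 (.p (nat_lit 0x5e40273902) (nat_lit 0x40008600) (nat_lit 47)))))
 (.n (.n (.n (.p (nat_lit 0xf690c8f02) (nat_lit 0x40300) (nat_lit 16))
 (.p (nat_lit 0x2aec2aea2ae82ae62ae402b92aef07) (nat_lit 0x540516) (nat_lit 7)))
 (.n (.p (nat_lit 0x20d220d020ce20c82479247706) (nat_lit 0x3000006b04) (nat_lit 51))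
 (.p (nat_lit 0x3085b0902) (nat_lit 0x100415) (nat_lit 27))))
 (.n (.n (.p (nat_lit 0x13f413f213ee13ec13ea1ee706) (nat_lit 0x400008a901) (nat_lit 52))
 (.p (nat_lit 0x1ed0108502) (nat_lit 0x400923) (nat_lit 5)))
 (.n (.p (nat_lit 0x385e34f102) (nat_lit 0x24030a) (nat_lit 4))
 (.p (nat_lit 0x20725f3502) (nat_lit 0x3a2560c44000400000600) (nat_lit 49))))))
 (.n (.n (.n (.n (.p (nat_lit 0x7cc07ca07c607c405c705c106) (nat_lit 0x12000008100) (nat_lit 52))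
 (.p (nat_lit 0x2cf905cf02) (nat_lit 0x30e015) (nat_lit 16)))
 (.n (.p (nat_lit 0x3da43da23da03d9e3d9c0a2b06) (nat_lit 0x100000c8104) (nat_lit 52))
 (.p (nat_lit 0x49a0492502) (nat_lit 0x40062f) (nat_lit 5))))
 (.n (.n (.p (nat_lit 0x11422bd02) (nat_lit 0x140b00) (nat_lit 1))
 (.p (nat_lit 0x23fa23f823f623f423f04b8706) (nat_lit 0x10000d0022) (nat_lit 51)))
 (.n (.p (nat_lit 0x1941190502) (nat_lit 0x8707) (nat_lit 16))
 (.p (nat_lit 0x5e8c3df902) (nat_lit 0x60048900) (nat_lit 47)))))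
 (.n (.n (.n (.p (nat_lit 0x3016b702) (nat_lit 0x340600) (nat_lit 1))
 (.p (nat_lit 0x1ade1adc1ada1ad81ad405d706) (nat_lit 0x100001001c) (nat_lit 52)))
 (.n (.p (nat_lit 0x16a0169e169c169a16981ac706) (nat_lit 0x100000cc705) (nat_lit 52))
 (.p (nat_lit 0x5cd10ba902) (nat_lit 0x1c0020000200) (nat_lit 39))))
 (.n (.n (.p (nat_lit 0x205218bd02) (nat_lit 0x40902) (nat_lit 4))
 (.p (nat_lit 0x1168116411621160115e4a0106) (nat_lit 0x8000080728) (nat_lit 51)))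
 (.n (.p (nat_lit 0xbbc0bb80bb60bb40bb210e306) (nat_lit 0x800008440e) (nat_lit 51))
 (.p (nat_lit 0xfda603702) (nat_lit 0x4a9d80b44000400000000) (nat_lit 49))))))

def c1024_624 : Tr :=
 .n (.n (.n (.n (.n (.n (.p (nat_lit 0x412040c040a041504) (nat_lit 0x13000400028) (nat_lit 17))
 (.p (nat_lit 0x1db061b502) (nat_lit 0x322266c15000300000600) (nat_lit 50)))
 (.p (nat_lit 0x1fb41fb21fb01fae1faa410306) (nat_lit 0x100004c412) (nat_lit 51)))
 (.n (.p (nat_lit 0x3b2e3b2c3b2a3b283b263b2400942331232f232d0a) (nat_lit 0x16340a03) (nat_lit 31))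
 (.p (nat_lit 0x43a33b902) (nat_lit 0x340a2c) (nat_lit 1))))
 (.n (.n (.p (nat_lit 0x2116211421122110210e1e8d06) (nat_lit 0x80000ca00) (nat_lit 52))
 (.p (nat_lit 0xeca0ec60ec40ec20ec03b9706) (nat_lit 0x800008ab1f) (nat_lit 51)))
 (.n (.p (nat_lit 0x154a15481544154215400e0706) (nat_lit 0x400000c307) (nat_lit 51))
 (.p (nat_lit 0x5c971ad502) (nat_lit 0x260000000800) (nat_lit 38)))))
 (.n (.n (.n (.p (nat_lit 0x12c212c012be12ba12b810c706) (nat_lit 0x2000082500) (nat_lit 52))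
 (.p (nat_lit 0x1fb41fb01fae1fac1faa420b06) (nat_lit 0x800004c519) (nat_lit 51)))
 (.n (.p (nat_lit 0xfcf0fc302) (nat_lit 0x34c305) (nat_lit 16))
 (.p (nat_lit 0x5c955daf02) (nat_lit 0x280000000000) (nat_lit 37))))
 (.n (.n (.p (nat_lit 0x8b22db902) (nat_lit 0x300102) (nat_lit 29))
 (.p (nat_lit 0x1d0e1d0c1d081d061d0435c706) (nat_lit 0x4000094126) (nat_lit 51)))
 (.n (.p (nat_lit 0x22922290228e228c228a46f106) (nat_lit 0x1000000e30c) (nat_lit 51))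
 (.p (nat_lit 0x20705fc102) (nat_lit 0x8982e955800400000600) (nat_lit 49))))))
 (.n (.n (.n (.n (.p (nat_lit 0xbd20bd00bce0bcc09d709cd06) (nat_lit 0x108000c0200) (nat_lit 52))
 (.p (nat_lit 0x420d14df02) (nat_lit 0x552515) (nat_lit 16)))
 (.n (.p (nat_lit 0x8f208f008ee08ec08e8168306) (nat_lit 0x1000082604) (nat_lit 52))
 (.p (nat_lit 0x599c599a59985996599402fd00ee07) (nat_lit 0x502305) (nat_lit 25))))
 (.n (.n (.p (nat_lit 0xe690e2d02) (nat_lit 0x414301) (nat_lit 16))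
 (.p (nat_lit 0xd1c0d1a0d180d160d1209e706) (nat_lit 0x1000046123) (nat_lit 51)))
 (.n (.p (nat_lit 0x2afe268502) (nat_lit 0x100808) (nat_lit 5))
 (.p (nat_lit 0x5d695ebf02) (nat_lit 0x140080000b00) (nat_lit 36)))))
 (.n (.n (.n (.p (nat_lit 0x1a341a301a2e1a2c179d179906) (nat_lit 0x14000054700) (nat_lit 51))
 (.p (nat_lit 0x117411721170116c116a14e506) (nat_lit 0x200004251c) (nat_lit 51)))
 (.n (.p (nat_lit 0xfd024ef02) (nat_lit 0x440306) (nat_lit 4))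
 (.p (nat_lit 0x5d375e1902) (nat_lit 0x160060000400) (nat_lit 37))))
 (.n (.n (.p (nat_lit 0x25b418ef02) (nat_lit 0x140b02) (nat_lit 5))
 (.p (nat_lit 0x21d621d421d221d021ce0b5306) (nat_lit 0x80009422a) (nat_lit 52)))
 (.n (.p (nat_lit 0x1bdc081702) (nat_lit 0x10080e) (nat_lit 4))
 (.p (nat_lit 0x1db660b102) (nat_lit 0x3505223a4000300000600) (nat_lit 50))))))

def c512_112 : Tr := .n c1024_112 c1024_624

def c1024_368 : Tr :=
 .n (.n (.n (.n (.n (.n (.p (nat_lit 0x19e019c019a01a504) (nat_lit 0x700040000a) (nat_lit 17))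
 (.p (nat_lit 0x1698617702) (nat_lit 0x340c6ab84000000040600) (nat_lit 49)))
 (.p (nat_lit 0x38e6357d02) (nat_lit 0x400411) (nat_lit 4)))
 (.n (.p (nat_lit 0x18de18dc18da18d818d6167506) (nat_lit 0x800094603) (nat_lit 51))
 (.p (nat_lit 0x301f28e502) (nat_lit 0x51032b) (nat_lit 16))))
 (.n (.n (.p (nat_lit 0x1f161f0a1d2f03) (nat_lit 0x340900) (nat_lit 6))
 (.p (nat_lit 0xeb20eb00eae0eaa0ea8334b06) (nat_lit 0x2000082a1e) (nat_lit 52)))
 (.n (.p (nat_lit 0xb3c065b02) (nat_lit 0x100207) (nat_lit 5))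
 (.p (nat_lit 0x5d195e5902) (nat_lit 0x40040000700) (nat_lit 37)))))
 (.n (.n (.n (.p (nat_lit 0x110f0df902) (nat_lit 0x210400) (nat_lit 16))
 (.p (nat_lit 0x2d754bf02) (nat_lit 0x540018) (nat_lit 30)))
 (.n (.p (nat_lit 0x8d4209f02) (nat_lit 0x200105) (nat_lit 4))
 (.p (nat_lit 0x3aa03a803a603a40001043706) (nat_lit 0x102023) (nat_lit 26))))
 (.n (.n (.p (nat_lit 0x21b021ae21ac21a8004a0035002d21b321ab09) (nat_lit 0x2900a01) (nat_lit 10))
 (.p (nat_lit 0x161c161a161816161614273f06) (nat_lit 0x10000094124) (nat_lit 51)))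
 (.n (.p (nat_lit 0x3f933e6b02) (nat_lit 0x10020b) (nat_lit 15))
 (.p (nat_lit 0x13f45f7502) (nat_lit 0x1aa074b50000500040000) (nat_lit 49))))))
 (.n (.n (.n (.n (.p (nat_lit 0xa27072302) (nat_lit 0x352100) (nat_lit 16))
 (.p (nat_lit 0xf320f300f2e0f2c124b124906) (nat_lit 0x18000054415) (nat_lit 51)))
 (.n (.p (nat_lit 0x1116401b02) (nat_lit 0x404) (nat_lit 29))
 (.p (nat_lit 0x60005e005c0058000b022506) (nat_lit 0x2914102) (nat_lit 26))))
 (.n (.n (.p (nat_lit 0x7560752074e074c004e0033002f0755075109) (nat_lit 0x2240001) (nat_lit 10))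
 (.p (nat_lit 0x434074102) (nat_lit 0x40023) (nat_lit 1)))
 (.n (.p (nat_lit 0x21a1216502) (nat_lit 0x208a07) (nat_lit 16))
 (.p (nat_lit 0x5d7d21d502) (nat_lit 0x80000a00) (nat_lit 39)))))
 (.n (.n (.n (.p (nat_lit 0x18ae18ac18aa18a818a4162306) (nat_lit 0x100008a700) (nat_lit 51))
 (.p (nat_lit 0xbea0be60be40be20887088306) (nat_lit 0x1400008811c) (nat_lit 51)))
 (.n (.p (nat_lit 0x62a234d02) (nat_lit 0x100006) (nat_lit 4))
 (.p (nat_lit 0x5cfd0d0b02) (nat_lit 0x200040000300) (nat_lit 38))))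
 (.n (.n (.p (nat_lit 0x660083008118d91a3d05) (nat_lit 0x8ea40a02) (nat_lit 9))
 (.p (nat_lit 0x43d57a502) (nat_lit 0x40012a) (nat_lit 30)))
 (.n (.p (nat_lit 0x4f004ee04ec04ea04e6138106) (nat_lit 0x100000450e) (nat_lit 52))
 (.p (nat_lit 0x2495248721dd21cf1f111f0f1c4d1c43197f197516af169960760d) (nat_lit 0x4688ae154000000040600) (nat_lit 33))))))

def c1024_880 : Tr :=
 .n (.n (.n (.n (.n (.p (nat_lit 0x62904db02) (nat_lit 0x16000) (nat_lit 16))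
 (.p (nat_lit 0x4a24457302) (nat_lit 0x40713) (nat_lit 5)))
 (.n (.p (nat_lit 0x11441142113e113c113a25c506) (nat_lit 0x40000c8b03) (nat_lit 52))
 (.p (nat_lit 0x3f28413d02) (nat_lit 0x24022e) (nat_lit 5))))
 (.n (.n (.p (nat_lit 0x229e229a229822961ffd1ff906) (nat_lit 0x140000cea00) (nat_lit 52))
 (.p (nat_lit 0x3858385638523850384e42db06) (nat_lit 0x4000096720) (nat_lit 51)))
 (.n (.p (nat_lit 0x12b612b412b012ae12ac10d506) (nat_lit 0x4000002407) (nat_lit 52))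
 (.p (nat_lit 0x5e7636d702) (nat_lit 0x8000a800) (nat_lit 48)))))
 (.n (.n (.n (.p (nat_lit 0x14a214a0149e149c1227121d06) (nat_lit 0x10800054500) (nat_lit 52))
 (.p (nat_lit 0x4d3a4d384d364d344d32498706) (nat_lit 0x400008e61a) (nat_lit 52)))
 (.n (.p (nat_lit 0x1808180618041802180000e317ff07) (nat_lit 0x40605) (nat_lit 7))
 (.p (nat_lit 0x5cc95dcb02) (nat_lit 0x240020000100) (nat_lit 36))))
 (.n (.n (.p (nat_lit 0xfa70f9b02) (nat_lit 0x152302) (nat_lit 16))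
 (.p (nat_lit 0x1e661e621e601e5e1e5c3dfb06) (nat_lit 0x800004e127) (nat_lit 51)))
 (.n (.p (nat_lit 0x503a4af102) (nat_lit 0x10080d) (nat_lit 4))
 (.p (nat_lit 0x4c25ff902) (nat_lit 0x466b80b44000000000000) (nat_lit 49))))))
 (.n (.n (.n (.n (.p (nat_lit 0xd7a0d780d740d720b390b3306) (nat_lit 0x1200008c300) (nat_lit 51))
 (.p (nat_lit 0x1eb40aed02) (nat_lit 0x200915) (nat_lit 4)))
 (.n (.p (nat_lit 0x42ae42ac42aa42a842a642a400c007) (nat_lit 0x704) (nat_lit 8))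
 (.p (nat_lit 0x18e018c018601840173014706) (nat_lit 0x1316a09) (nat_lit 26))))
 (.n (.n (.p (nat_lit 0x332af902) (nat_lit 0x400801) (nat_lit 30))
 (.p (nat_lit 0x3f1f0cab02) (nat_lit 0x252223) (nat_lit 16)))
 (.n (.p (nat_lit 0x3216321432123210320e30f506) (nat_lit 0x4000004409) (nat_lit 51))
 (.p (nat_lit 0xa445eed02) (nat_lit 0x4a1d84344000200000000) (nat_lit 49)))))
 (.n (.n (.n (.p (nat_lit 0x1bdb18f902) (nat_lit 0x2800) (nat_lit 16))
 (.p (nat_lit 0x1d5c556102) (nat_lit 0x24081c) (nat_lit 29)))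
 (.n (.p (nat_lit 0x1acc4ff702) (nat_lit 0x240706) (nat_lit 29))
 (.p (nat_lit 0x5d2913fd02) (nat_lit 0x240060000500) (nat_lit 41))))
 (.n (.n (.p (nat_lit 0xa1e1c8102) (nat_lit 0x540103) (nat_lit 4))
 (.p (nat_lit 0x115c115a1158115411520f8506) (nat_lit 0x200004032a) (nat_lit 51)))
 (.n (.p (nat_lit 0x1ed535f02) (nat_lit 0x300b0e) (nat_lit 30))
 (.p (nat_lit 0x181460f902) (nat_lit 0x460d623a4000100000600) (nat_lit 49))))))

def c512_368 : Tr := .n c1024_368 c1024_880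

def c256_112 : Tr := .n c512_112 c512_368

def c1024_240 : Tr :=
 .n (.n (.n (.n (.n (.n (.p (nat_lit 0xec00e600e400ef04) (nat_lit 0x13000400005) (nat_lit 17))
 (.p (nat_lit 0x1ada615902) (nat_lit 0x352829d84000200000600) (nat_lit 49)))
 (.p (nat_lit 0x32e02e8302) (nat_lit 0x140910) (nat_lit 5)))
 (.n (.p (nat_lit 0x39dc39da39d839d639d439d206) (nat_lit 0x96503) (nat_lit 52))
 (.p (nat_lit 0x2308583f02) (nat_lit 0x340a2a) (nat_lit 29))))
 (.n (.n (.p (nat_lit 0x1e581e541e521e501bcd1bc906) (nat_lit 0x1400008c900) (nat_lit 51))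
 (.p (nat_lit 0xe8e0e8a0e880e860e842c0906) (nat_lit 0x800004091d) (nat_lit 51)))
 (.n (.p (nat_lit 0x2288228622822280227e1eff06) (nat_lit 0x400008c906) (nat_lit 51))
 (.p (nat_lit 0x5d7f154b02) (nat_lit 0x2e00a0000600) (nat_lit 40)))))
 (.n (.n (.n (.p (nat_lit 0x100e100a100610040dfd0df906) (nat_lit 0xa000002400) (nat_lit 52))
 (.p (nat_lit 0x18c418c218c018be18bc328306) (nat_lit 0x100000d2517) (nat_lit 52)))
 (.n (.p (nat_lit 0x17fb25d302) (nat_lit 0x440b04) (nat_lit 15))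
 (.p (nat_lit 0x30e030c030a0308034f000b06) (nat_lit 0x51001c) (nat_lit 26))))
 (.n (.n (.p (nat_lit 0xd100d0e0d0c0d080d06204b06) (nat_lit 0x2000046901) (nat_lit 52))
 (.p (nat_lit 0x244e244c244a2446244403a5244907) (nat_lit 0x200b23) (nat_lit 7)))
 (.n (.p (nat_lit 0x3ae2525d02) (nat_lit 0xa0a) (nat_lit 29))
 (.p (nat_lit 0x1ae05f5902) (nat_lit 0x1a2262350000200000600) (nat_lit 50))))))
 (.n (.n (.n (.n (.p (nat_lit 0x90a0908090409020723071d06) (nat_lit 0x4800046100) (nat_lit 51))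
 (.p (nat_lit 0x10f010ee10e810e602a20287028510ed10eb09) (nat_lit 0x1a00415) (nat_lit 10)))
 (.n (.p (nat_lit 0x3e943e923e903e8e3e8c3e8a00c20ced0ceb0ce30a) (nat_lit 0x16040204) (nat_lit 31))
 (.p (nat_lit 0x2f588502) (nat_lit 0x200001) (nat_lit 28))))
 (.n (.n (.p (nat_lit 0x256625642562256022c522bb06) (nat_lit 0x108000d2b00) (nat_lit 52))
 (.p (nat_lit 0x50b04da902) (nat_lit 0x40822) (nat_lit 5)))
 (.n (.p (nat_lit 0x1d38056d02) (nat_lit 0x240807) (nat_lit 4))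
 (.p (nat_lit 0x5e96247502) (nat_lit 0x10a00) (nat_lit 47)))))
 (.n (.n (.n (.p (nat_lit 0x17821780177e177c16bb16b106) (nat_lit 0x10800054600) (nat_lit 52))
 (.p (nat_lit 0x1820181e181c181a1816073706) (nat_lit 0x100004e01c) (nat_lit 51)))
 (.n (.p (nat_lit 0x1e581e561e541e521e501c2d06) (nat_lit 0x1000008c805) (nat_lit 51))
 (.p (nat_lit 0x5d550baf02) (nat_lit 0x280080000200) (nat_lit 39))))
 (.n (.n (.p (nat_lit 0x21be21b821b621b400820061005f21bd21bb09) (nat_lit 0x2300a02) (nat_lit 10))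
 (.p (nat_lit 0x42a042d04334e734ee705) (nat_lit 0x62540229) (nat_lit 9)))
 (.n (.p (nat_lit 0xbb00bae0bac0baa0ba6123706) (nat_lit 0x10000c440e) (nat_lit 52))
 (.p (nat_lit 0x8fa605702) (nat_lit 0x506272b31000100040000) (nat_lit 50))))))

def c1024_752 : Tr :=
 .n (.n (.n (.n (.n (.n (.p (nat_lit 0x508050605040502050004fe06) (nat_lit 0x6000) (nat_lit 52))
 (.p (nat_lit 0x140061d502) (nat_lit 0x54216ac0c800500040000) (nat_lit 50)))
 (.p (nat_lit 0x42d142c502) (nat_lit 0x406712) (nat_lit 16)))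
 (.n (.p (nat_lit 0x197a1978197619741970246b06) (nat_lit 0x100008eb03) (nat_lit 52))
 (.p (nat_lit 0x37e03a3d02) (nat_lit 0x10032d) (nat_lit 4))))
 (.n (.n (.p (nat_lit 0x21c51e9102) (nat_lit 0x210a00) (nat_lit 16))
 (.p (nat_lit 0x3dee3fdb02) (nat_lit 0x440120) (nat_lit 4)))
 (.n (.p (nat_lit 0x153e153c153a153815340f6b06) (nat_lit 0x100004c307) (nat_lit 52))
 (.p (nat_lit 0x5e6e195102) (nat_lit 0x40014800) (nat_lit 48)))))
 (.n (.n (.n (.p (nat_lit 0x13cb10c702) (nat_lit 0x212500) (nat_lit 16))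
 (.p (nat_lit 0x45c845c645c445c245c0437b06) (nat_lit 0x80004ab19) (nat_lit 52)))
 (.n (.p (nat_lit 0x1522226d02) (nat_lit 0x340505) (nat_lit 5))
 (.p (nat_lit 0x5dbc332902) (nat_lit 0x6000e000) (nat_lit 48))))
 (.n (.n (.p (nat_lit 0xcd40cd20cd00ccc006c005d00590ccf0ccb09) (nat_lit 0x1040202) (nat_lit 10))
 (.p (nat_lit 0x3b9a394f02) (nat_lit 0xb26) (nat_lit 5)))
 (.n (.p (nat_lit 0x5140510050e050c050a4a2106) (nat_lit 0x80000c670c) (nat_lit 51))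
 (.p (nat_lit 0xbac5fd702) (nat_lit 0x3842a1c35000200040000) (nat_lit 49))))))
 (.n (.n (.n (.n (.p (nat_lit 0xcf509d302) (nat_lit 0x354200) (nat_lit 16))
 (.p (nat_lit 0x1929191d02) (nat_lit 0x8715) (nat_lit 16)))
 (.n (.p (nat_lit 0xc200cb00df1e5b1fc105) (nat_lit 0x81d40604) (nat_lit 9))
 (.p (nat_lit 0x11c0118011601140009002b06) (nat_lit 0x2010706) (nat_lit 26))))
 (.n (.n (.p (nat_lit 0x13ac13aa13a813a613a2002d13a507) (nat_lit 0x100501) (nat_lit 7))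
 (.p (nat_lit 0xe8e0e8a0e880e840b4f0b4906) (nat_lit 0x9000000223) (nat_lit 51)))
 (.n (.p (nat_lit 0x2f382c9702) (nat_lit 0x500209) (nat_lit 4))
 (.p (nat_lit 0x23465ed102) (nat_lit 0x4a1a22344000500000600) (nat_lit 50)))))
 (.n (.n (.n (.p (nat_lit 0x190218fe18fc18fa001200090001190118f909) (nat_lit 0x2000800) (nat_lit 10))
 (.p (nat_lit 0x1930192e192c192a19280311193307) (nat_lit 0x50071c) (nat_lit 7)))
 (.n (.p (nat_lit 0x13de4f3902) (nat_lit 0x506) (nat_lit 29))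
 (.p (nat_lit 0x5cb55e2302) (nat_lit 0x80000000500) (nat_lit 36))))
 (.n (.n (.p (nat_lit 0x76834cf02) (nat_lit 0x240003) (nat_lit 29))
 (.p (nat_lit 0x248a24882486248424800cb506) (nat_lit 0x10000d622a) (nat_lit 52)))
 (.n (.p (nat_lit 0x1eae533f02) (nat_lit 0x50090e) (nat_lit 29))
 (.p (nat_lit 0xe7c60d902) (nat_lit 0x3542623b0000300040000) (nat_lit 50))))))

def c512_240 : Tr := .n c1024_240 c1024_752

def c1024_496 : Tr :=
 .n (.n (.n (.n (.n (.n (.p (nat_lit 0x30e030c0308031304) (nat_lit 0xd00040001c) (nat_lit 17))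
 (.p (nat_lit 0x636619b02) (nat_lit 0x340aa5c14800000040000) (nat_lit 49)))
 (.p (nat_lit 0x3b7653c502) (nat_lit 0xb11) (nat_lit 29)))
 (.n (.p (nat_lit 0x21c21cfb02) (nat_lit 0x100a03) (nat_lit 5))
 (.p (nat_lit 0x2fae2fac2faa2fa82fa4047d2fa707) (nat_lit 0x14022c) (nat_lit 7))))
 (.n (.n (.p (nat_lit 0x1ff01fee1fec1fe61d2d1d2b06) (nat_lit 0x30000d6900) (nat_lit 51))
 (.p (nat_lit 0x3632381302) (nat_lit 0x4011f) (nat_lit 4)))
 (.n (.p (nat_lit 0xca4066f02) (nat_lit 0x540207) (nat_lit 5))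
 (.p (nat_lit 0x5d655e6102) (nat_lit 0x180080000700) (nat_lit 36)))))
 (.n (.n (.n (.p (nat_lit 0x11e411e011de11dc11da0f6506) (nat_lit 0x8000052400) (nat_lit 52))
 (.p (nat_lit 0x2883b8b02) (nat_lit 0x400b18) (nat_lit 1)))
 (.n (.p (nat_lit 0xcf8461902) (nat_lit 0x540205) (nat_lit 29))
 (.p (nat_lit 0x43d5c3502) (nat_lit 0x40032a) (nat_lit 28))))
 (.n (.n (.p (nat_lit 0x5fa182502) (nat_lit 0x100002) (nat_lit 5))
 (.p (nat_lit 0x18ba18b618b418b218b02e3b06) (nat_lit 0x8000012125) (nat_lit 52)))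
 (.n (.p (nat_lit 0x426642644262425e425c01b1426107) (nat_lit 0x24060b) (nat_lit 7))
 (.p (nat_lit 0x15425f9502) (nat_lit 0x581a302a4000000000600) (nat_lit 50))))))
 (.n (.n (.n (.n (.p (nat_lit 0xac60ac40ac20ac00873087106) (nat_lit 0x180000e200) (nat_lit 51))
 (.p (nat_lit 0x5cb138d02) (nat_lit 0x100515) (nat_lit 15)))
 (.n (.p (nat_lit 0x13ce411f02) (nat_lit 0x400504) (nat_lit 29))
 (.p (nat_lit 0x87593f02) (nat_lit 0x603) (nat_lit 28))))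
 (.n (.n (.p (nat_lit 0xb62157f02) (nat_lit 0x200201) (nat_lit 4))
 (.p (nat_lit 0xe760e740e720e700e6c088b06) (nat_lit 0x1000086123) (nat_lit 52)))
 (.n (.p (nat_lit 0x17a5257102) (nat_lit 0x340b07) (nat_lit 15))
 (.p (nat_lit 0x5cdb5eb302) (nat_lit 0x120020000b00) (nat_lit 36)))))
 (.n (.n (.n (.p (nat_lit 0x195f162702) (nat_lit 0x314700) (nat_lit 16))
 (.p (nat_lit 0x551e551c551a551855165514031207) (nat_lit 0x51c) (nat_lit 8)))
 (.n (.p (nat_lit 0xa3e237502) (nat_lit 0x340106) (nat_lit 4))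
 (.p (nat_lit 0x5d890d1102) (nat_lit 0x2400a0000300) (nat_lit 38))))
 (.n (.n (.p (nat_lit 0x3393231f02) (nat_lit 0x244a02) (nat_lit 16))
 (.p (nat_lit 0x520051e051a051809f709f106) (nat_lit 0x480004812a) (nat_lit 51)))
 (.n (.p (nat_lit 0x20a163902) (nat_lit 0x60e) (nat_lit 1))
 (.p (nat_lit 0x181e609502) (nat_lit 0x342529ca4000100000600) (nat_lit 50))))))

def c1024_1008 : Tr :=
 .n (.n (.n (.n (.n (.p (nat_lit 0x721065102) (nat_lit 0x240000) (nat_lit 15))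
 (.p (nat_lit 0x270226fe26fc26fa26f84fe306) (nat_lit 0x800008a714) (nat_lit 51)))
 (.n (.p (nat_lit 0x625061902) (nat_lit 0x416004) (nat_lit 16))
 (.p (nat_lit 0x4ae43a302) (nat_lit 0x240b2e) (nat_lit 1))))
 (.n (.n (.p (nat_lit 0x23a623a223a0239e215d215506) (nat_lit 0x8800086b00) (nat_lit 51))
 (.p (nat_lit 0x4818481648144812481048d306) (nat_lit 0x10000082521) (nat_lit 52)))
 (.n (.p (nat_lit 0x131413121310130e130c123306) (nat_lit 0x1000004e407) (nat_lit 52))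
 (.p (nat_lit 0x5cd51f1302) (nat_lit 0x180020000900) (nat_lit 41)))))
 (.n (.n (.n (.p (nat_lit 0x15e215de15dc15da1555154d06) (nat_lit 0x8800010600) (nat_lit 52))
 (.p (nat_lit 0x284428422840283e283a501706) (nat_lit 0x10000ca71b) (nat_lit 52)))
 (.n (.p (nat_lit 0x1ade1adc1ada1ad81ad4195b06) (nat_lit 0x1000010705) (nat_lit 52))
 (.p (nat_lit 0x5d5108fd02) (nat_lit 0x2c0080000100) (nat_lit 41))))
 (.n (.n (.p (nat_lit 0x14fc1a0d02) (nat_lit 0x240502) (nat_lit 4))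
 (.p (nat_lit 0x44ac477f02) (nat_lit 0x240028) (nat_lit 4)))
 (.n (.p (nat_lit 0xa960a940a920a900e0f0e0d06) (nat_lit 0x180000a30e) (nat_lit 52))
 (.p (nat_lit 0xa50601902) (nat_lit 0x46ab80b44000200000000) (nat_lit 50))))))
 (.n (.n (.n (.n (.p (nat_lit 0xe8e0e8c0e880e860e840c9506) (nat_lit 0x4000040300) (nat_lit 51))
 (.p (nat_lit 0x22e00b0f02) (nat_lit 0x140a15) (nat_lit 4)))
 (.n (.p (nat_lit 0x881ab302) (nat_lit 0x140704) (nat_lit 1))
 (.p (nat_lit 0x1e95a8702) (nat_lit 0x10060e) (nat_lit 28))))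
 (.n (.n (.p (nat_lit 0x19d819d619d419d01d811d7d06) (nat_lit 0x2800046801) (nat_lit 51))
 (.p (nat_lit 0x4a4d1a9d02) (nat_lit 0x254723) (nat_lit 16)))
 (.n (.p (nat_lit 0x17033cd02) (nat_lit 0x100b09) (nat_lit 1))
 (.p (nat_lit 0x15485f1702) (nat_lit 0x3a2260b50000000000600) (nat_lit 50)))))
 (.n (.n (.n (.p (nat_lit 0x1cb81cb61cb41cb21a671a5d06) (nat_lit 0x10800048800) (nat_lit 51))
 (.p (nat_lit 0x2186558302) (nat_lit 0x100a1c) (nat_lit 29)))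
 (.n (.p (nat_lit 0x13f413f213ee13ec13ea1c3506) (nat_lit 0x400008a806) (nat_lit 52))
 (.p (nat_lit 0x5c9d153502) (nat_lit 0x200000000600) (nat_lit 38))))
 (.n (.n (.p (nat_lit 0x3770376e376c376a37683766009207) (nat_lit 0x303) (nat_lit 8))
 (.p (nat_lit 0x194457f502) (nat_lit 0x20072a) (nat_lit 29)))
 (.n (.p (nat_lit 0x2adc26fd02) (nat_lit 0x24050f) (nat_lit 5))
 (.p (nat_lit 0x21e0611b02) (nat_lit 0x350522264000400040600) (nat_lit 50))))))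

def c512_496 : Tr := .n c1024_496 c1024_1008

def c256_240 : Tr := .n c512_240 c512_496

def c128_112 : Tr := .n c256_112 c256_240

def c64_48 : Tr := .n c128_48 c128_112

def c32_16 : Tr := .n c64_16 c64_48

def c16_0 : Tr := .n c32_0 c32_16

def b0 : Tr := c16_0

theorem hb4_0 : allp (tst G49 true (getA DT)) b0 = true := by decide +kernel

end Vale.Agent.P032.H437.Ev2
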