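import Vale.Agent.P032.H437.Ev2.T

namespace Vale.Agent.P032.H437.Ev2
open Vale.Agent.P032.H859.Rup Vale.Agent.P032.H437

def c1024_1 : Tr :=
 .n (.n (.n (.n (.n (.n (.p (nat_lit 0x201) (nat_lit 0x100000) (nat_lit 0))
 (.p (nat_lit 0x197a611f02) (nat_lit 0x35056a3a4000100040600) (nat_lit 49)))
 (.p (nat_lit 0x267626742672266e266c2add06) (nat_lit 0x20000c650f) (nat_lit 52)))
 (.n (.p (nat_lit 0x3580e4702) (nat_lit 0x500303) (nat_lit 1))
 (.p (nat_lit 0x194a194619421940045a043d04391949194509) (nat_lit 0x220072a) (nat_lit 10))))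
 (.n (.n (.p (nat_lit 0x1cde1cdc1cda1cd81a5f1a5d06) (nat_lit 0x18000ca800) (nat_lit 51))
 (.p (nat_lit 0x30f558902) (nat_lit 0x400a1c) (nat_lit 30)))
 (.n (.p (nat_lit 0x1c441c421c3e1c3c1c3a1c3506) (nat_lit 0x4000090806) (nat_lit 52))
 (.p (nat_lit 0x5e3828cb02) (nat_lit 0x600) (nat_lit 47)))))
 (.n (.n (.n (.p (nat_lit 0xe980e960e940e920e900c9906) (nat_lit 0x100000c0300) (nat_lit 52))
 (.p (nat_lit 0x28b54a702) (nat_lit 0x540a15) (nat_lit 30)))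
 (.n (.p (nat_lit 0x1ab81e7102) (nat_lit 0x440704) (nat_lit 5))
 (.p (nat_lit 0x22c5a9b02) (nat_lit 0x50070e) (nat_lit 27))))
 (.n (.n (.p (nat_lit 0x1a361a341a321a301a2c1d7f06) (nat_lit 0x1000054801) (nat_lit 51))
 (.p (nat_lit 0x3a756ef02) (nat_lit 0x300823) (nat_lit 30)))
 (.n (.p (nat_lit 0x269426922690268e33d533d306) (nat_lit 0x18000090b09) (nat_lit 51))
 (.p (nat_lit 0x1da65f1902) (nat_lit 0x1a2274b50000300000600) (nat_lit 49))))))
 (.n (.n (.n (.n (.p (nat_lit 0x743064f02) (nat_lit 0x148000) (nat_lit 16))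
 (.p (nat_lit 0x27942792278e278c278a500f06) (nat_lit 0x4000052714) (nat_lit 51)))
 (.n (.p (nat_lit 0x7761dcb02) (nat_lit 0x340004) (nat_lit 4))
 (.p (nat_lit 0x452a487502) (nat_lit 0x40012f) (nat_lit 4))))
 (.n (.n (.p (nat_lit 0x23d423d023ce23cc215f215b06) (nat_lit 0x1400000eb00) (nat_lit 52))
 (.p (nat_lit 0x44a3495d02) (nat_lit 0x340521) (nat_lit 15)))
 (.n (.p (nat_lit 0x396d122f02) (nat_lit 0x350407) (nat_lit 16))
 (.p (nat_lit 0x5e841daf02) (nat_lit 0x20000900) (nat_lit 46)))))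
 (.n (.n (.n (.p (nat_lit 0x15fa15f815f615f415f215f006) (nat_lit 0x12600) (nat_lit 52))
 (.p (nat_lit 0x50a44cdb02) (nat_lit 0x4081b) (nat_lit 4)))
 (.n (.p (nat_lit 0x21e221de21dc21da21d8196106) (nat_lit 0x8000094705) (nat_lit 51))
 (.p (nat_lit 0x5d975ddb02) (nat_lit 0x1600a0000100) (nat_lit 36))))
 (.n (.n (.p (nat_lit 0x1502150014fe14f80074005d005b14fd14fb09) (nat_lit 0x1140502) (nat_lit 10))
 (.p (nat_lit 0x489848944892489044b144a906) (nat_lit 0x8800046028) (nat_lit 51)))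
 (.n (.p (nat_lit 0x28dd0e1502) (nat_lit 0x40c30e) (nat_lit 16))
 (.p (nat_lit 0x13ea601b02) (nat_lit 0x4099a2354800500040000) (nat_lit 49))))))

def c1024_513 : Tr :=
 .n (.n (.n (.n (.n (.n (.p (nat_lit 0x30e030a031503) (nat_lit 0xa00050001c) (nat_lit 17))
 (.p (nat_lit 0xe76619d02) (nat_lit 0x380aa5c14800300040000) (nat_lit 49)))
 (.p (nat_lit 0x1f03b8102) (nat_lit 0x500b11) (nat_lit 1)))
 (.n (.p (nat_lit 0x21c83adf02) (nat_lit 0x400a03) (nat_lit 29))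
 (.p (nat_lit 0x18de18dc18da18d818d62fa506) (nat_lit 0x8000d422c) (nat_lit 51))))
 (.n (.n (.p (nat_lit 0x200b1d2902) (nat_lit 0x42900) (nat_lit 16))
 (.p (nat_lit 0x35955d302) (nat_lit 0x54011f) (nat_lit 30)))
 (.n (.p (nat_lit 0x7da07d807d607d207d00c9f06) (nat_lit 0x20000c8207) (nat_lit 51))
 (.p (nat_lit 0x5d57181302) (nat_lit 0x260080000700) (nat_lit 38)))))
 (.n (.n (.n (.p (nat_lit 0x12210f6102) (nat_lit 0x240400) (nat_lit 15))
 (.p (nat_lit 0x3bd6373902) (nat_lit 0x40b18) (nat_lit 4)))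
 (.n (.p (nat_lit 0xfc10cf302) (nat_lit 0x240205) (nat_lit 15))
 (.p (nat_lit 0x4355c4502) (nat_lit 0x72a) (nat_lit 28))))
 (.n (.n (.p (nat_lit 0x602182d02) (nat_lit 0x500002) (nat_lit 5))
 (.p (nat_lit 0x2ec2312f02) (nat_lit 0x440125) (nat_lit 4)))
 (.n (.p (nat_lit 0x6920690068e068c068a425d06) (nat_lit 0x80004860b) (nat_lit 52))
 (.p (nat_lit 0xe765f9702) (nat_lit 0x88bb0155800300040000) (nat_lit 49))))))
 (.n (.n (.n (.n (.p (nat_lit 0xb160b120b100b0e0879087106) (nat_lit 0x8800094200) (nat_lit 52))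
 (.p (nat_lit 0x48c3139102) (nat_lit 0x314515) (nat_lit 16)))
 (.n (.p (nat_lit 0x41424140413e413c413a13c706) (nat_lit 0x800084504) (nat_lit 51))
 (.p (nat_lit 0x8e008a008800860007006306) (nat_lit 0x1d16603) (nat_lit 26))))
 (.n (.n (.p (nat_lit 0xb660b640b600b5e00500035002f0b690b6309) (nat_lit 0x2a00201) (nat_lit 10))
 (.p (nat_lit 0x154a1548154415421540088f06) (nat_lit 0x400000c123) (nat_lit 51)))
 (.n (.p (nat_lit 0x281025e702) (nat_lit 0x200208) (nat_lit 4))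
 (.p (nat_lit 0x5eb04c0f02) (nat_lit 0x20008b00) (nat_lit 47)))))
 (.n (.n (.n (.p (nat_lit 0x1794197302) (nat_lit 0x140700) (nat_lit 4))
 (.p (nat_lit 0x139a551902) (nat_lit 0x20051c) (nat_lit 29)))
 (.n (.p (nat_lit 0xa400a3e0a3c0a3a012a011d01130a430a3909) (nat_lit 0x2840106) (nat_lit 10))
 (.p (nat_lit 0x5c9d0fe102) (nat_lit 0x200000000400) (nat_lit 40))))
 (.n (.n (.p (nat_lit 0x5933bf02) (nat_lit 0xb02) (nat_lit 30))
 (.p (nat_lit 0x6f606f406ee06ec09f709f506) (nat_lit 0x600005412a) (nat_lit 52)))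
 (.n (.p (nat_lit 0x1ed52ff02) (nat_lit 0x30060e) (nat_lit 30))
 (.p (nat_lit 0x21cc609702) (nat_lit 0x344580ca4000400040600) (nat_lit 49))))))

def c512_1 : Tr := .n c1024_1 c1024_513

def c1024_257 : Tr :=
 .n (.n (.n (.n (.n (.n (.p (nat_lit 0xec00e800f103) (nat_lit 0x14000500005) (nat_lit 17))
 (.p (nat_lit 0x21e0615b02) (nat_lit 0x3503a8d64000400040600) (nat_lit 50)))
 (.p (nat_lit 0x33342e9102) (nat_lit 0x300a10) (nat_lit 4)))
 (.n (.p (nat_lit 0x15043a0302) (nat_lit 0x40503) (nat_lit 29))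
 (.p (nat_lit 0x33b5230502) (nat_lit 0x14ea2a) (nat_lit 16))))
 (.n (.n (.p (nat_lit 0x1e721e701e6c1e6a1bc91bc306) (nat_lit 0x480008e900) (nat_lit 51))
 (.p (nat_lit 0x2cfc302d02) (nat_lit 0x1e) (nat_lit 5)))
 (.n (.p (nat_lit 0x213821362134213221301f0306) (nat_lit 0x1000008e906) (nat_lit 51))
 (.p (nat_lit 0x5cb7181702) (nat_lit 0x60000000700) (nat_lit 40)))))
 (.n (.n (.n (.p (nat_lit 0x102610241020101e101c0dfb06) (nat_lit 0x4000004400) (nat_lit 51))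
 (.p (nat_lit 0x32e82f6b02) (nat_lit 0x140917) (nat_lit 5)))
 (.n (.p (nat_lit 0x43a525d102) (nat_lit 0x34ab04) (nat_lit 16))
 (.p (nat_lit 0x30f5b8302) (nat_lit 0x40011c) (nat_lit 28))))
 (.n (.n (.p (nat_lit 0x140013fe13fc13f813f6204b06) (nat_lit 0x20000ca901) (nat_lit 51))
 (.p (nat_lit 0x244e244c244a244803b203a303a12447244509) (nat_lit 0x800b23) (nat_lit 10)))
 (.n (.p (nat_lit 0x3af13ae502) (nat_lit 0x104a0a) (nat_lit 16))
 (.p (nat_lit 0x233c5f5b02) (nat_lit 0x1a2276350000500000600) (nat_lit 49))))))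
 (.n (.n (.n (.n (.p (nat_lit 0x9220920091e09180721071f06) (nat_lit 0x3000048100) (nat_lit 51))
 (.p (nat_lit 0xea60ea40ea00e9e0e9c10ed06) (nat_lit 0x4000002415) (nat_lit 52)))
 (.n (.p (nat_lit 0x3eec3ee83ee63ee43ee20ceb06) (nat_lit 0x80000cc204) (nat_lit 52))
 (.p (nat_lit 0x58925890588e588c588a0223003607) (nat_lit 0x10101) (nat_lit 25))))
 (.n (.n (.p (nat_lit 0x257b22bf02) (nat_lit 0x242b00) (nat_lit 16))
 (.p (nat_lit 0xe9a0e980e960e940e9050b306) (nat_lit 0x10000c0822) (nat_lit 52)))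
 (.n (.p (nat_lit 0x3476347434723470346e1d3f06) (nat_lit 0x10000048807) (nat_lit 51))
 (.p (nat_lit 0x5ce35e9902) (nat_lit 0xa0020000a00) (nat_lit 36)))))
 (.n (.n (.n (.p (nat_lit 0x179716b502) (nat_lit 0x240600) (nat_lit 15))
 (.p (nat_lit 0x1c501c4e1c4c1c481c46073906) (nat_lit 0x20000d001c) (nat_lit 51)))
 (.n (.p (nat_lit 0x4a811c2d02) (nat_lit 0x502805) (nat_lit 16))
 (.p (nat_lit 0x5dee0f7d02) (nat_lit 0x80040200) (nat_lit 48))))
 (.n (.n (.p (nat_lit 0xbbc0bba0bb80bb60bb421b506) (nat_lit 0x800084a02) (nat_lit 51))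
 (.p (nat_lit 0x50684ef302) (nat_lit 0x829) (nat_lit 4)))
 (.n (.p (nat_lit 0x140013fe13fc13fa13f8123506) (nat_lit 0x8000ca40e) (nat_lit 51))
 (.p (nat_lit 0x1da6605d02) (nat_lit 0x506272b31000300000600) (nat_lit 49))))))

def c1024_769 : Tr :=
 .n (.n (.n (.n (.n (.n (.p (nat_lit 0x51405120510050c050a04df06) (nat_lit 0x2000086000) (nat_lit 51))
 (.p (nat_lit 0x8fc61db02) (nat_lit 0x542266c0c800100040000) (nat_lit 50)))
 (.p (nat_lit 0x264437702) (nat_lit 0x440b12) (nat_lit 1)))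
 (.n (.p (nat_lit 0x1db61db41db01dae1dac246f06) (nat_lit 0x4000012b03) (nat_lit 51))
 (.p (nat_lit 0x3b1e3a4902) (nat_lit 0x200a2d) (nat_lit 4))))
 (.n (.n (.p (nat_lit 0xe61ff702) (nat_lit 0x240a00) (nat_lit 1))
 (.p (nat_lit 0x3ed43ed23ed03ece3eca3de906) (nat_lit 0x10000ca120) (nat_lit 52)))
 (.n (.p (nat_lit 0x1ade1ada1ad81ad61ad40f7106) (nat_lit 0x8000050307) (nat_lit 52))
 (.p (nat_lit 0x5d391c4d02) (nat_lit 0x140060000800) (nat_lit 41)))))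
 (.n (.n (.n (.p (nat_lit 0x13f713eb02) (nat_lit 0x40500) (nat_lit 34))
 (.p (nat_lit 0x449a449844964492449002f7449507) (nat_lit 0x24001a) (nat_lit 7)))
 (.n (.p (nat_lit 0x48f448f248f048ee48ea151f06) (nat_lit 0x10000c2505) (nat_lit 51))
 (.p (nat_lit 0x5d655dc102) (nat_lit 0x180080000000) (nat_lit 36))))
 (.n (.n (.p (nat_lit 0x2fa70ccd02) (nat_lit 0x14a202) (nat_lit 16))
 (.p (nat_lit 0xff60ff20ff00fee0fec3ba306) (nat_lit 0x8000000b26) (nat_lit 52)))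
 (.n (.p (nat_lit 0x4cf64ab302) (nat_lit 0x30020d) (nat_lit 4))
 (.p (nat_lit 0x233a5fdd02) (nat_lit 0x3842a1c35000500000600) (nat_lit 49))))))
 (.n (.n (.n (.n (.p (nat_lit 0xd140d080b3103) (nat_lit 0x100300) (nat_lit 6))
 (.p (nat_lit 0x1a820c2b02) (nat_lit 0x140715) (nat_lit 4)))
 (.n (.p (nat_lit 0x7aa07a607a407a207a017fb06) (nat_lit 0x8000042604) (nat_lit 51))
 (.p (nat_lit 0x11559e902) (nat_lit 0x100906) (nat_lit 28))))
 (.n (.n (.p (nat_lit 0x13ac2a1f02) (nat_lit 0x500501) (nat_lit 29))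
 (.p (nat_lit 0xec80ec60ec40ec00b510b4906) (nat_lit 0x1100008a223) (nat_lit 51)))
 (.n (.p (nat_lit 0x2f902d2502) (nat_lit 0x240209) (nat_lit 5))
 (.p (nat_lit 0xbae5ed502) (nat_lit 0x4a1a22344000200040000) (nat_lit 49)))))
 (.n (.n (.n (.p (nat_lit 0x1b0c1b0a1b081b04190318fb06) (nat_lit 0x11000002800) (nat_lit 51))
 (.p (nat_lit 0x1937192b02) (nat_lit 0x10a71c) (nat_lit 16)))
 (.n (.p (nat_lit 0x13e8251502) (nat_lit 0x500506) (nat_lit 4))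
 (.p (nat_lit 0x5e222bc502) (nat_lit 0xc500) (nat_lit 48))))
 (.n (.n (.p (nat_lit 0x34f634f434f234f034ee34ec06) (nat_lit 0xc6003) (nat_lit 52))
 (.p (nat_lit 0x3f2d0cbb02) (nat_lit 0x45222a) (nat_lit 16)))
 (.n (.p (nat_lit 0x32a31eab02) (nat_lit 0x30e90e) (nat_lit 16))
 (.p (nat_lit 0x153460dd02) (nat_lit 0x3505623a4000000000600) (nat_lit 49))))))

def c512_257 : Tr := .n c1024_257 c1024_769

def c256_1 : Tr := .n c512_1 c512_257

def c1024_129 : Tr :=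
 .n (.n (.n (.n (.n (.n (.p (nat_lit 0x8500830071006804) (nat_lit 0x95800002) (nat_lit 20))
 (.p (nat_lit 0xbb2613f02) (nat_lit 0x352a21d84000200040000) (nat_lit 50)))
 (.p (nat_lit 0x30fa2dc902) (nat_lit 0x410) (nat_lit 4)))
 (.n (.p (nat_lit 0x38d038ce38cc38ca38c838c606) (nat_lit 0x96403) (nat_lit 52))
 (.p (nat_lit 0x43f581f02) (nat_lit 0x50092a) (nat_lit 30))))
 (.n (.n (.p (nat_lit 0x1d911a6502) (nat_lit 0x454800) (nat_lit 16))
 (.p (nat_lit 0x30b55a902) (nat_lit 0x240b1c) (nat_lit 30)))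
 (.n (.p (nat_lit 0x1ade1adc1ada1ad81ad41d9706) (nat_lit 0x1000050806) (nat_lit 52))
 (.p (nat_lit 0x5d3b5e4702) (nat_lit 0x120060000600) (nat_lit 36)))))
 (.n (.n (.n (.p (nat_lit 0xf8b0c9902) (nat_lit 0x54a300) (nat_lit 16))
 (.p (nat_lit 0x2eee2eea2ee82ee62ee42b1d06) (nat_lit 0x800000a816) (nat_lit 52)))
 (.n (.p (nat_lit 0x22a0229c229a22982296247d06) (nat_lit 0x800008eb04) (nat_lit 52))
 (.p (nat_lit 0x28a02880286028002e9000306) (nat_lit 0x1112515) (nat_lit 26))))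
 (.n (.n (.p (nat_lit 0x181e181c181a181818161eeb06) (nat_lit 0x1000000e901) (nat_lit 51))
 (.p (nat_lit 0x1ed51ec902) (nat_lit 0x923) (nat_lit 16)))
 (.n (.p (nat_lit 0x1d021d001cfe1cfc1cf8385d06) (nat_lit 0x100005430a) (nat_lit 51))
 (.p (nat_lit 0x8ec5f3902) (nat_lit 0x3a2560c44000100040000) (nat_lit 49))))))
 (.n (.n (.n (.n (.p (nat_lit 0x7f207f007ee07ec05bf05bd06) (nat_lit 0x180008a100) (nat_lit 51))
 (.p (nat_lit 0x72c0bcf02) (nat_lit 0x240015) (nat_lit 4)))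
 (.n (.p (nat_lit 0x3df70a2502) (nat_lit 0x248104) (nat_lit 16))
 (.p (nat_lit 0x43c4a0b02) (nat_lit 0x40072f) (nat_lit 1))))
 (.n (.n (.p (nat_lit 0x11a22c302) (nat_lit 0x440b00) (nat_lit 1))
 (.p (nat_lit 0x4c064dfd02) (nat_lit 0x300122) (nat_lit 4)))
 (.n (.p (nat_lit 0x1881a6d02) (nat_lit 0x240707) (nat_lit 1))
 (.p (nat_lit 0x5d6d1f1902) (nat_lit 0x100080000900) (nat_lit 41)))))
 (.n (.n (.n (.p (nat_lit 0x16ba16b816b616b4000c0003000116b316b109) (nat_lit 0x840600) (nat_lit 10))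
 (.p (nat_lit 0x1f1a1f181f141f121f1005db06) (nat_lit 0x400009201c) (nat_lit 51)))
 (.n (.p (nat_lit 0x1c4e1c4c1c4a1c481c461ac706) (nat_lit 0x100000d0705) (nat_lit 51))
 (.p (nat_lit 0x5de249e302) (nat_lit 0x20014200) (nat_lit 48))))
 (.n (.n (.p (nat_lit 0x20581a2702) (nat_lit 0x340902) (nat_lit 5))
 (.p (nat_lit 0xff60ff40ff00fee0fec4a4f06) (nat_lit 0x4000040728) (nat_lit 52)))
 (.n (.p (nat_lit 0x129e129c12981296129410e106) (nat_lit 0x400000a40e) (nat_lit 52))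
 (.p (nat_lit 0x2495248b21dd21cd1f131f0b1c511c431983197516a5169b603c0d) (nat_lit 0x4a8176340800000040600) (nat_lit 33))))))

def c1024_641 : Tr :=
 .n (.n (.n (.n (.n (.n (.p (nat_lit 0x43e043a0436044104) (nat_lit 0x1500040002a) (nat_lit 17))
 (.p (nat_lit 0x13ec61bb02) (nat_lit 0x322266c15000500040000) (nat_lit 49)))
 (.p (nat_lit 0x1ff01fec1fea1fe81fe6410906) (nat_lit 0x80000d6412) (nat_lit 51)))
 (.n (.p (nat_lit 0x1e661e621e601e5c232f232906) (nat_lit 0x900004ea03) (nat_lit 51))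
 (.p (nat_lit 0x340a326902) (nat_lit 0x400b2c) (nat_lit 5))))
 (.n (.n (.p (nat_lit 0x21222120211c211a1e931e8d06) (nat_lit 0x480008ca00) (nat_lit 52))
 (.p (nat_lit 0x3be655e502) (nat_lit 0x240b1f) (nat_lit 29)))
 (.n (.p (nat_lit 0x1aea1ae81ae61ae41ae20e0106) (nat_lit 0x800010307) (nat_lit 51))
 (.p (nat_lit 0x5e66194d02) (nat_lit 0x14800) (nat_lit 48)))))
 (.n (.n (.n (.p (nat_lit 0x12ce12c812c612c410cb10c906) (nat_lit 0xc000004500) (nat_lit 52))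
 (.p (nat_lit 0x422e3e3b02) (nat_lit 0x100619) (nat_lit 5)))
 (.n (.p (nat_lit 0x410112b02) (nat_lit 0x400405) (nat_lit 1))
 (.p (nat_lit 0x5db009f102) (nat_lit 0x48000) (nat_lit 48))))
 (.n (.n (.p (nat_lit 0x8b908ad02) (nat_lit 0x12102) (nat_lit 16))
 (.p (nat_lit 0x3642391f02) (nat_lit 0x240126) (nat_lit 4)))
 (.n (.p (nat_lit 0x475643d502) (nat_lit 0x44030c) (nat_lit 5))
 (.p (nat_lit 0x154a5fc502) (nat_lit 0x8982e915800000000600) (nat_lit 50))))))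
 (.n (.n (.n (.n (.p (nat_lit 0xbec0bea0be80be60be409cd06) (nat_lit 0x8000c8200) (nat_lit 51))
 (.p (nat_lit 0x164a0c0d02) (nat_lit 0x300615) (nat_lit 4)))
 (.n (.p (nat_lit 0xd100d0c0d0a0d080d06168906) (nat_lit 0x8000006604) (nat_lit 52))
 (.p (nat_lit 0xe559a302) (nat_lit 0x100505) (nat_lit 28))))
 (.n (.n (.p (nat_lit 0xf9428ef02) (nat_lit 0x440301) (nat_lit 29))
 (.p (nat_lit 0x13f413f213ee13ec13ea09eb06) (nat_lit 0x40000ca123) (nat_lit 52)))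
 (.n (.p (nat_lit 0x2b0d2b0102) (nat_lit 0x204808) (nat_lit 16))
 (.p (nat_lit 0x5d5b249502) (nat_lit 0x220080000b00) (nat_lit 41)))))
 (.n (.n (.n (.p (nat_lit 0x1a4e1a4c1a4a1a481a44179506) (nat_lit 0x1000056700) (nat_lit 52))
 (.p (nat_lit 0x119811961194119214e314e106) (nat_lit 0x18000c451c) (nat_lit 52)))
 (.n (.p (nat_lit 0x4e0c4e0a4e064e044e020fcf06) (nat_lit 0x4000050306) (nat_lit 52))
 (.p (nat_lit 0x5e1614e702) (nat_lit 0x60044400) (nat_lit 48))))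
 (.n (.n (.p (nat_lit 0x25ba18f502) (nat_lit 0x440b02) (nat_lit 5))
 (.p (nat_lit 0x2f3f0b5702) (nat_lit 0x20e22a) (nat_lit 16)))
 (.n (.p (nat_lit 0x2421be502) (nat_lit 0x50080e) (nat_lit 1))
 (.p (nat_lit 0x12a712990fe90fd50d1d0d090a510a4d07a7079f04d104c360b40d) (nat_lit 0x3505223a4000000000000) (nat_lit 33))))))

def c512_129 : Tr := .n c1024_129 c1024_641

def c1024_385 : Tr :=
 .n (.n (.n (.n (.n (.n (.p (nat_lit 0x1ec01ea01e601f304) (nat_lit 0x680040000e) (nat_lit 17))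
 (.p (nat_lit 0xbb0617b02) (nat_lit 0x521a86b11000200040000) (nat_lit 49)))
 (.p (nat_lit 0x1cae1cac1ca81ca61ca438e506) (nat_lit 0x4000086411) (nat_lit 51)))
 (.n (.p (nat_lit 0x3aaf167502) (nat_lit 0x6603) (nat_lit 16))
 (.p (nat_lit 0x4822b3b02) (nat_lit 0x40082b) (nat_lit 1))))
 (.n (.n (.p (nat_lit 0x1d301d2c1d2a1d280026000b00071d331d2f09) (nat_lit 0x2b40900) (nat_lit 10))
 (.p (nat_lit 0x33a2307b02) (nat_lit 0x440a1e) (nat_lit 5)))
 (.n (.p (nat_lit 0xb42066102) (nat_lit 0x400207) (nat_lit 5))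
 (.p (nat_lit 0x5d09198102) (nat_lit 0x140040000700) (nat_lit 41)))))
 (.n (.n (.n (.p (nat_lit 0x11310df702) (nat_lit 0x116400) (nat_lit 16))
 (.p (nat_lit 0x37943792378e378c378a38f106) (nat_lit 0x4000082418) (nat_lit 51)))
 (.n (.p (nat_lit 0x44e844e644e444e244e044de06) (nat_lit 0xe105) (nat_lit 52))
 (.p (nat_lit 0x3a803a603a403a203f7000106) (nat_lit 0x2810123) (nat_lit 26))))
 (.n (.n (.p (nat_lit 0x253825362534253021ad21a906) (nat_lit 0x280008ea01) (nat_lit 51))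
 (.p (nat_lit 0x175417521750174e174a27ad06) (nat_lit 0x1000050124) (nat_lit 51)))
 (.n (.p (nat_lit 0x3f923c1502) (nat_lit 0x10030b) (nat_lit 4))
 (.p (nat_lit 0x7a65f7902) (nat_lit 0x560bb0344000100000000) (nat_lit 50))))))
 (.n (.n (.n (.n (.p (nat_lit 0x280087102) (nat_lit 0x200) (nat_lit 1))
 (.p (nat_lit 0x138c0bf102) (nat_lit 0x100515) (nat_lit 5)))
 (.n (.p (nat_lit 0x111e1f8502) (nat_lit 0x400404) (nat_lit 5))
 (.p (nat_lit 0x58f458f258f058ee58ec043f006407) (nat_lit 0x514502) (nat_lit 25))))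
 (.n (.n (.p (nat_lit 0x26cf075302) (nat_lit 0x348001) (nat_lit 16))
 (.p (nat_lit 0x3ae03c303c711630ffd05) (nat_lit 0xa6240023) (nat_lit 9)))
 (.n (.p (nat_lit 0x22ca51c502) (nat_lit 0x240a07) (nat_lit 29))
 (.p (nat_lit 0x5d6d21d502) (nat_lit 0x100080000a00) (nat_lit 39)))))
 (.n (.n (.n (.p (nat_lit 0x18b818b618b418b2162b162106) (nat_lit 0x10800012700) (nat_lit 52))
 (.p (nat_lit 0xafe0afc0af80af60af4088306) (nat_lit 0x400009211c) (nat_lit 52)))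
 (.n (.p (nat_lit 0x63224a302) (nat_lit 0x500006) (nat_lit 5))
 (.p (nat_lit 0x5dfc3be702) (nat_lit 0x40050300) (nat_lit 48))))
 (.n (.n (.p (nat_lit 0x4d804d604d404d204ce231d06) (nat_lit 0x1000040a02) (nat_lit 51))
 (.p (nat_lit 0x4f004ec04ea04e804e6089d06) (nat_lit 0x800000412a) (nat_lit 52)))
 (.n (.p (nat_lit 0x51405120510050c050a138306) (nat_lit 0x200008650e) (nat_lit 51))
 (.p (nat_lit 0xbb0607b02) (nat_lit 0x511a22b85000200040000) (nat_lit 49))))))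

def c1024_897 : Tr :=
 .n (.n (.n (.n (.n (.p (nat_lit 0x652063b02) (nat_lit 0x340000) (nat_lit 4))
 (.p (nat_lit 0x4a7644f702) (nat_lit 0x813) (nat_lit 4)))
 (.n (.p (nat_lit 0x1820181e181c181a181825bf06) (nat_lit 0x80004eb03) (nat_lit 51))
 (.p (nat_lit 0x1fbe1fba1fb81fb63f2f3f2b06) (nat_lit 0x140000cc22e) (nat_lit 52))))
 (.n (.n (.p (nat_lit 0x22b822b622b422b01ff71ff306) (nat_lit 0x28000d0a00) (nat_lit 52))
 (.p (nat_lit 0x434a562302) (nat_lit 0x300b20) (nat_lit 29)))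
 (.n (.p (nat_lit 0x12e612e412e012de12dc10d506) (nat_lit 0x4000006407) (nat_lit 51))
 (.p (nat_lit 0x5da55e7d02) (nat_lit 0x800a0000800) (nat_lit 37)))))
 (.n (.n (.n (.p (nat_lit 0x14cd122102) (nat_lit 0x242500) (nat_lit 16))
 (.p (nat_lit 0x28a49eb02) (nat_lit 0x50071a) (nat_lit 1)))
 (.n (.p (nat_lit 0xe949ab02) (nat_lit 0x340605) (nat_lit 30))
 (.p (nat_lit 0x5d1d5dcd02) (nat_lit 0x40000100) (nat_lit 37))))
 (.n (.n (.p (nat_lit 0x110419eb02) (nat_lit 0x300402) (nat_lit 5))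
 (.p (nat_lit 0x3fb83fb63fb43fb23fb03e7d06) (nat_lit 0x10000000227) (nat_lit 51)))
 (.n (.p (nat_lit 0x50805040502050004fe504106) (nat_lit 0x800000680d) (nat_lit 52))
 (.p (nat_lit 0xbb85ffb02) (nat_lit 0x16a88cd50000200040000) (nat_lit 50))))))
 (.n (.n (.n (.n (.p (nat_lit 0xdb60db40db20db00dae0b2f06) (nat_lit 0x800012300) (nat_lit 52))
 (.p (nat_lit 0x3ed23ed03ece3ecc3eca1ebb06) (nat_lit 0x1000008a915) (nat_lit 52)))
 (.n (.p (nat_lit 0x19501e6102) (nat_lit 0x200704) (nat_lit 5))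
 (.p (nat_lit 0x48e5a4702) (nat_lit 0x40a) (nat_lit 27))))
 (.n (.n (.p (nat_lit 0x182a1826182418221c211c1d06) (nat_lit 0x14000000801) (nat_lit 51))
 (.p (nat_lit 0x166616641660165e165c03a7166307) (nat_lit 0x300623) (nat_lit 7)))
 (.n (.p (nat_lit 0x316a520d02) (nat_lit 0x240409) (nat_lit 29))
 (.p (nat_lit 0x20705ef102) (nat_lit 0x4a1d22344000400000600) (nat_lit 49)))))
 (.n (.n (.n (.p (nat_lit 0x1bfd190302) (nat_lit 0x506800) (nat_lit 16))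
 (.p (nat_lit 0x311556702) (nat_lit 0x54081c) (nat_lit 30)))
 (.n (.p (nat_lit 0x11d4ffd02) (nat_lit 0x540706) (nat_lit 30))
 (.p (nat_lit 0x5d79129d02) (nat_lit 0x40080000500) (nat_lit 38))))
 (.n (.n (.p (nat_lit 0x35ec35ea35e835e40a190a1506) (nat_lit 0x2800048103) (nat_lit 51))
 (.p (nat_lit 0x1180117e117a117811760f8706) (nat_lit 0x40000c232a) (nat_lit 52)))
 (.n (.p (nat_lit 0x4c7c4c7a4c784c764c74242b06) (nat_lit 0x10000012b0e) (nat_lit 51))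
 (.p (nat_lit 0x181460fd02) (nat_lit 0x340a623b0000100000600) (nat_lit 49))))))

def c512_385 : Tr := .n c1024_385 c1024_897

def c256_129 : Tr := .n c512_129 c512_385

def c128_1 : Tr := .n c256_1 c256_129

def c1024_65 : Tr :=
 .n (.n (.n (.n (.n (.n (.p (nat_lit 0x4f0047003f003a04) (nat_lit 0x50800001) (nat_lit 20))
 (.p (nat_lit 0x1814613102) (nat_lit 0x35486a1b0000100000600) (nat_lit 49)))
 (.p (nat_lit 0x2b9a2b982b962b940220021502132b9f2b9d09) (nat_lit 0x2c0090f) (nat_lit 10)))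
 (.n (.p (nat_lit 0x38083806380238000fab0fa506) (nat_lit 0x48000c0303) (nat_lit 52))
 (.p (nat_lit 0x1c14132d02) (nat_lit 0x50082a) (nat_lit 5))))
 (.n (.n (.p (nat_lit 0x1d261d241d221d201d1e1a5d06) (nat_lit 0x8000d6800) (nat_lit 52))
 (.p (nat_lit 0x474c474a47484744474222ef06) (nat_lit 0x20000cea1c) (nat_lit 52)))
 (.n (.p (nat_lit 0x4cc04ca04c804c604c41d9506) (nat_lit 0x800040806) (nat_lit 52))
 (.p (nat_lit 0x5cbf154302) (nat_lit 0x2e0020000600) (nat_lit 40)))))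
 (.n (.n (.n (.p (nat_lit 0xef80ef60ef40ef20c990c8f06) (nat_lit 0x108000ce300) (nat_lit 52))
 (.p (nat_lit 0x4ce44ce04cde4cdc4cda258b06) (nat_lit 0x80000d0b15) (nat_lit 52)))
 (.n (.p (nat_lit 0xe4247702) (nat_lit 0x100b04) (nat_lit 1))
 (.p (nat_lit 0x2275ae102) (nat_lit 0x200b10) (nat_lit 28))))
 (.n (.n (.p (nat_lit 0x1eea2b8702) (nat_lit 0x500901) (nat_lit 29))
 (.p (nat_lit 0x3ab56ff02) (nat_lit 0x540823) (nat_lit 30)))
 (.n (.p (nat_lit 0x3630362e362a36283626374906) (nat_lit 0x40000d620a) (nat_lit 52))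
 (.p (nat_lit 0x2493248b21d921d51f1b1f0b1c471c3d1983197516a716995f240d) (nat_lit 0x3a2560b44000000040600) (nat_lit 33))))))
 (.n (.n (.n (.n (.p (nat_lit 0x7a7079b02) (nat_lit 0x300100) (nat_lit 34))
 (.p (nat_lit 0x1ec05cf02) (nat_lit 0x300015) (nat_lit 1)))
 (.n (.p (nat_lit 0x3d2c3d2a3d283d263d2408cf06) (nat_lit 0x10000088104) (nat_lit 51))
 (.p (nat_lit 0x211421122110210e210c469706) (nat_lit 0x1000004c22f) (nat_lit 52))))
 (.n (.n (.p (nat_lit 0x2429215d02) (nat_lit 0x402b00) (nat_lit 16))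
 (.p (nat_lit 0xeb20eb00eae0eac0ea84a3f06) (nat_lit 0x10000c2721) (nat_lit 52)))
 (.n (.p (nat_lit 0x1904054502) (nat_lit 0x707) (nat_lit 4))
 (.p (nat_lit 0x5e86232b02) (nat_lit 0x4004e900) (nat_lit 48)))))
 (.n (.n (.n (.p (nat_lit 0x1661155102) (nat_lit 0x208600) (nat_lit 16))
 (.p (nat_lit 0x4d404d204d004ce05df05dd06) (nat_lit 0x1800000001c) (nat_lit 51)))
 (.n (.p (nat_lit 0x63e063c063a063806361abd06) (nat_lit 0x8000c0705) (nat_lit 52))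
 (.p (nat_lit 0x5c910a4502) (nat_lit 0x2c0000000200) (nat_lit 38))))
 (.n (.n (.p (nat_lit 0x1c5c1c581c541c521ef51ef106) (nat_lit 0xa000000902) (nat_lit 52))
 (.p (nat_lit 0x468b459102) (nat_lit 0x540128) (nat_lit 15)))
 (.n (.p (nat_lit 0xc300c2e0c2c0c2a0c280f7f06) (nat_lit 0x100000ce30e) (nat_lit 52))
 (.p (nat_lit 0x2332602d02) (nat_lit 0x406a62335000500000600) (nat_lit 49))))))

def c1024_577 : Tr :=
 .n (.n (.n (.n (.n (.n (.p (nat_lit 0x39a03960392039f04) (nat_lit 0xa800400022) (nat_lit 17))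
 (.p (nat_lit 0x248461a902) (nat_lit 0x340b8ac64000500040600) (nat_lit 49)))
 (.p (nat_lit 0x40863d9502) (nat_lit 0x200412) (nat_lit 5)))
 (.n (.p (nat_lit 0x247121c902) (nat_lit 0x400a03) (nat_lit 15))
 (.p (nat_lit 0x5866586458625860585e585c048607) (nat_lit 0xa2c) (nat_lit 8))))
 (.n (.n (.p (nat_lit 0x1e94207302) (nat_lit 0x400a00) (nat_lit 4))
 (.p (nat_lit 0x3b40383d02) (nat_lit 0x340a1f) (nat_lit 5)))
 (.n (.p (nat_lit 0xe0a0e060e040e020e0001490e0907) (nat_lit 0x400307) (nat_lit 7))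
 (.p (nat_lit 0x5d8d197b02) (nat_lit 0x2000a0000700) (nat_lit 39)))))
 (.n (.n (.n (.p (nat_lit 0x10c4129702) (nat_lit 0x100500) (nat_lit 4))
 (.p (nat_lit 0xb8419702) (nat_lit 0x200519) (nat_lit 1)))
 (.n (.p (nat_lit 0xfbe20d702) (nat_lit 0x140305) (nat_lit 5))
 (.p (nat_lit 0x4ab5c8502) (nat_lit 0x32f) (nat_lit 28))))
 (.n (.n (.p (nat_lit 0x2d322d302d2e2d2c2d2a076306) (nat_lit 0x10000046002) (nat_lit 51))
 (.p (nat_lit 0x33b030e302) (nat_lit 0x540a25) (nat_lit 4)))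
 (.n (.p (nat_lit 0x45f843b902) (nat_lit 0x10020c) (nat_lit 4))
 (.p (nat_lit 0xfd65fa502) (nat_lit 0x588bb0344000400000000) (nat_lit 49))))))
 (.n (.n (.n (.n (.p (nat_lit 0x28209cf02) (nat_lit 0x140200) (nat_lit 1))
 (.p (nat_lit 0x1820181e181c181a181814d506) (nat_lit 0x80004e515) (nat_lit 51)))
 (.n (.p (nat_lit 0x771151102) (nat_lit 0x40504) (nat_lit 15))
 (.p (nat_lit 0xbf597b02) (nat_lit 0x500704) (nat_lit 28))))
 (.n (.n (.p (nat_lit 0xd030cc702) (nat_lit 0x454201) (nat_lit 16))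
 (.p (nat_lit 0x4521089302) (nat_lit 0x514123) (nat_lit 16)))
 (.n (.p (nat_lit 0x2a292302) (nat_lit 0x40308) (nat_lit 1))
 (.p (nat_lit 0x5d2d249302) (nat_lit 0x200060000b00) (nat_lit 41)))))
 (.n (.n (.n (.p (nat_lit 0x19ec19e819e619e4179d179906) (nat_lit 0x14000048700) (nat_lit 51))
 (.p (nat_lit 0x48cb139902) (nat_lit 0x11451c) (nat_lit 16)))
 (.n (.p (nat_lit 0xfc90cfb02) (nat_lit 0x40206) (nat_lit 15))
 (.p (nat_lit 0x5e10139902) (nat_lit 0x20004400) (nat_lit 47))))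
 (.n (.n (.p (nat_lit 0x15e215dc15da15d82465246306) (nat_lit 0xc000010b02) (nat_lit 52))
 (.p (nat_lit 0xfde0fdc0fd80fd60fd40b5906) (nat_lit 0x400000822a) (nat_lit 52)))
 (.n (.p (nat_lit 0x1bdb191102) (nat_lit 0x70e) (nat_lit 15))
 (.p (nat_lit 0x115060a702) (nat_lit 0x356068ca4000400040000) (nat_lit 50))))))

def c512_65 : Tr := .n c1024_65 c1024_577

def c1024_321 : Tr :=
 .n (.n (.n (.n (.n (.n (.p (nat_lit 0x14801460142014d04) (nat_lit 0xd000400007) (nat_lit 17))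
 (.p (nat_lit 0x8f0616d02) (nat_lit 0x421aa4394000100040000) (nat_lit 49)))
 (.p (nat_lit 0x33e02e1b02) (nat_lit 0x500b10) (nat_lit 5)))
 (.n (.p (nat_lit 0x167a3a8502) (nat_lit 0x300603) (nat_lit 29))
 (.p (nat_lit 0x281e2a2f02) (nat_lit 0x30022b) (nat_lit 4))))
 (.n (.n (.p (nat_lit 0x1ecf1bc902) (nat_lit 0x308900) (nat_lit 16))
 (.p (nat_lit 0x2eb2305502) (nat_lit 0x24011e) (nat_lit 4)))
 (.n (.p (nat_lit 0x20ae20ac20aa20a820a6206306) (nat_lit 0x20000c2906) (nat_lit 52))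
 (.p (nat_lit 0x5ce15e5502) (nat_lit 0xc0020000700) (nat_lit 37)))))
 (.n (.n (.n (.p (nat_lit 0x10a610a410a2109e0dff0df706) (nat_lit 0x11000094400) (nat_lit 52))
 (.p (nat_lit 0xa7e0a7c0a7a0a780a76338f06) (nat_lit 0x800048a17) (nat_lit 52)))
 (.n (.p (nat_lit 0x780441f02) (nat_lit 0x240005) (nat_lit 29))
 (.p (nat_lit 0x36c036a03680366034f03fd06) (nat_lit 0x10e520) (nat_lit 26))))
 (.n (.n (.p (nat_lit 0x2c21204f02) (nat_lit 0x44a901) (nat_lit 16))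
 (.p (nat_lit 0x17d725a302) (nat_lit 0x440b23) (nat_lit 15)))
 (.n (.p (nat_lit 0x14a3bc902) (nat_lit 0x540b0a) (nat_lit 1))
 (.p (nat_lit 0x23445f6d02) (nat_lit 0x3aa074b44000500000600) (nat_lit 50))))))
 (.n (.n (.n (.n (.p (nat_lit 0x9be09bc09b809b40723071f06) (nat_lit 0x5000056100) (nat_lit 52))
 (.p (nat_lit 0x28e02a302ad0beb0a8905) (nat_lit 0x6ac40415) (nat_lit 9)))
 (.n (.p (nat_lit 0x3640fb302) (nat_lit 0x140304) (nat_lit 1))
 (.p (nat_lit 0x3400320030002e0001005b06) (nat_lit 0x112801) (nat_lit 26))))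
 (.n (.n (.p (nat_lit 0x3325df02) (nat_lit 0x400001) (nat_lit 30))
 (.p (nat_lit 0x5ea05e405e205e003ca03a903a705e905e709) (nat_lit 0x2300023) (nat_lit 10)))
 (.n (.p (nat_lit 0x51b251b051ae51ac51aa51a8014e200320011fff0a) (nat_lit 0x8840907) (nat_lit 31))
 (.p (nat_lit 0x5d0f21d102) (nat_lit 0xe0040000a00) (nat_lit 39)))))
 (.n (.n (.n (.p (nat_lit 0x1628181302) (nat_lit 0x400700) (nat_lit 4))
 (.p (nat_lit 0x87e0d3902) (nat_lit 0x10011c) (nat_lit 5)))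
 (.n (.p (nat_lit 0x1f9c1f9a1f981f961d931d8906) (nat_lit 0x1080004a805) (nat_lit 51))
 (.p (nat_lit 0x5cdf0e7b02) (nat_lit 0xe0020000300) (nat_lit 41))))
 (.n (.n (.p (nat_lit 0x21d621d421d221d021cc21b706) (nat_lit 0x1000094a02) (nat_lit 52))
 (.p (nat_lit 0x1180117e117c117a117650bf06) (nat_lit 0x10000c2829) (nat_lit 52)))
 (.n (.p (nat_lit 0x3977123902) (nat_lit 0x25040e) (nat_lit 16))
 (.p (nat_lit 0x1536606f02) (nat_lit 0x588172b40800000000600) (nat_lit 49))))))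

def c1024_833 : Tr :=
 .n (.n (.n (.n (.n (.n (.p (nat_lit 0x5c104df02) (nat_lit 0x200000) (nat_lit 15))
 (.p (nat_lit 0x1f1461e702) (nat_lit 0x3422b0d64000300040600) (nat_lit 50)))
 (.p (nat_lit 0x22b822b622b422b022ae484f06) (nat_lit 0x20000d0413) (nat_lit 52)))
 (.n (.p (nat_lit 0x25c43bb902) (nat_lit 0x340b03) (nat_lit 29))
 (.p (nat_lit 0x3c043a6502) (nat_lit 0x540b2d) (nat_lit 5))))
 (.n (.n (.p (nat_lit 0x225822522250224e1ffb1ff906) (nat_lit 0xc0000c8a00) (nat_lit 52))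
 (.p (nat_lit 0x42883f6f02) (nat_lit 0x440620) (nat_lit 5)))
 (.n (.p (nat_lit 0x40190f7302) (nat_lit 0x552307) (nat_lit 16))
 (.p (nat_lit 0x5d6b5e7902) (nat_lit 0x120080000800) (nat_lit 37)))))
 (.n (.n (.n (.p (nat_lit 0x142e142a142814261227122306) (nat_lit 0x140000c4500) (nat_lit 52))
 (.p (nat_lit 0x21522150214e214c214a48bd06) (nat_lit 0x80009051a) (nat_lit 51)))
 (.n (.p (nat_lit 0x24f024ee24ea24e61693168f06) (nat_lit 0x5000086605) (nat_lit 52))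
 (.p (nat_lit 0x5c935dc502) (nat_lit 0x2a0000000100) (nat_lit 37))))
 (.n (.n (.p (nat_lit 0x30150e3b02) (nat_lit 0x500302) (nat_lit 16))
 (.p (nat_lit 0x3d7a40af02) (nat_lit 0x500127) (nat_lit 5)))
 (.n (.p (nat_lit 0x1db52a702) (nat_lit 0x14040d) (nat_lit 30))
 (.p (nat_lit 0x18205fed02) (nat_lit 0x306a81d31000100000600) (nat_lit 50))))))
 (.n (.n (.n (.n (.p (nat_lit 0xd400d3c0d3a0d380d360b3706) (nat_lit 0x8000002300) (nat_lit 51))
 (.p (nat_lit 0x5476547454725470546e546c028c07) (nat_lit 0x40815) (nat_lit 8)))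
 (.n (.p (nat_lit 0x1aea1ae81ae61ae41ae017f506) (nat_lit 0x1000050604) (nat_lit 51))
 (.p (nat_lit 0x20c5a1f02) (nat_lit 0x100208) (nat_lit 27))))
 (.n (.n (.p (nat_lit 0x75314f302) (nat_lit 0x340501) (nat_lit 15))
 (.p (nat_lit 0xe9a0e980e960e920e900cab06) (nat_lit 0x20000c0223) (nat_lit 52)))
 (.n (.p (nat_lit 0x37d9301102) (nat_lit 0x312309) (nat_lit 16))
 (.p (nat_lit 0xd1c5ee102) (nat_lit 0x4a8d84344000300000000) (nat_lit 50)))))
 (.n (.n (.n (.p (nat_lit 0x1b9c1b981b961b94190118f906) (nat_lit 0x8800014800) (nat_lit 52))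
 (.p (nat_lit 0x30d555702) (nat_lit 0x30081c) (nat_lit 30)))
 (.n (.p (nat_lit 0x1582157e157c157a196f196b06) (nat_lit 0x14000004706) (nat_lit 52))
 (.p (nat_lit 0x5cf513fb02) (nat_lit 0x280040000500) (nat_lit 41))))
 (.n (.n (.p (nat_lit 0x357c357a3578357608c308b906) (nat_lit 0x10800008103) (nat_lit 52))
 (.p (nat_lit 0x10a810a610a410a2109e0e1b06) (nat_lit 0x100009432a) (nat_lit 52)))
 (.n (.p (nat_lit 0x22d409ab02) (nat_lit 0x140a0e) (nat_lit 4))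
 (.p (nat_lit 0x8f260f102) (nat_lit 0x440d623a4000100040000) (nat_lit 49))))))

def c512_321 : Tr := .n c1024_321 c1024_833

def c256_65 : Tr := .n c512_65 c512_321

def c1024_193 : Tr :=
 .n (.n (.n (.n (.n (.n (.p (nat_lit 0xb800b600c303) (nat_lit 0x3000500004) (nat_lit 17))
 (.p (nat_lit 0x1f0e614f02) (nat_lit 0x3503a0d84000300040600) (nat_lit 49)))
 (.p (nat_lit 0x397d317d02) (nat_lit 0x552410) (nat_lit 16)))
 (.n (.p (nat_lit 0x1509126902) (nat_lit 0x240403) (nat_lit 15))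
 (.p (nat_lit 0x439583102) (nat_lit 0x200a2a) (nat_lit 30))))
 (.n (.n (.p (nat_lit 0x1dfc1df81df61df41bcd1bc906) (nat_lit 0x14000084900) (nat_lit 51))
 (.p (nat_lit 0x2b2055b102) (nat_lit 0x81d) (nat_lit 29)))
 (.n (.p (nat_lit 0x1efa255502) (nat_lit 0x100906) (nat_lit 4))
 (.p (nat_lit 0x5d615e4b02) (nat_lit 0x1c0080000600) (nat_lit 36)))))
 (.n (.n (.n (.p (nat_lit 0xdfe0feb02) (nat_lit 0x500400) (nat_lit 5))
 (.p (nat_lit 0x2cf82ee102) (nat_lit 0x300017) (nat_lit 5)))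
 (.n (.p (nat_lit 0x25d225d025ce25cc00cc00bf00b525d525cb09) (nat_lit 0x2840b04) (nat_lit 10))
 (.p (nat_lit 0x5b585b565b545b525b5000ed02f007) (nat_lit 0x50ab19) (nat_lit 25))))
 (.n (.n (.p (nat_lit 0x204a177302) (nat_lit 0x240901) (nat_lit 4))
 (.p (nat_lit 0x244f219b02) (nat_lit 0x500a23) (nat_lit 15)))
 (.n (.p (nat_lit 0x3a383a343a323a303a2e396f06) (nat_lit 0x80000c440a) (nat_lit 52))
 (.p (nat_lit 0x248f248b21dd21d51f1b1f071c471c431983197516ad16995f4a0d) (nat_lit 0x1aa522350000000040600) (nat_lit 33))))))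
 (.n (.n (.n (.n (.p (nat_lit 0x8c105c502) (nat_lit 0x410100) (nat_lit 16))
 (.p (nat_lit 0x3545073102) (nat_lit 0x450015) (nat_lit 16)))
 (.n (.p (nat_lit 0x3e810b8502) (nat_lit 0x10a204) (nat_lit 16))
 (.p (nat_lit 0x256825662564256225604cfd06) (nat_lit 0x800092230) (nat_lit 52))))
 (.n (.n (.p (nat_lit 0x253625342530252e22c522bf06) (nat_lit 0x120000ceb00) (nat_lit 51))
 (.p (nat_lit 0x502a4d9b02) (nat_lit 0x540722) (nat_lit 5)))
 (.n (.p (nat_lit 0x14b519b02) (nat_lit 0x500807) (nat_lit 30))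
 (.p (nat_lit 0x5e9221cb02) (nat_lit 0xa000e900) (nat_lit 47)))))
 (.n (.n (.n (.p (nat_lit 0x1760175c1758175616b916b506) (nat_lit 0xa0000d0600) (nat_lit 51))
 (.p (nat_lit 0x73e073a07360734032c030f030b073d073909) (nat_lit 0x224001c) (nat_lit 10)))
 (.n (.p (nat_lit 0x1c28214302) (nat_lit 0x300805) (nat_lit 5))
 (.p (nat_lit 0x5d7d0a5902) (nat_lit 0x80000200) (nat_lit 40))))
 (.n (.n (.p (nat_lit 0x1bc01bbc1bba1bb81bb6205b06) (nat_lit 0x80000d6902) (nat_lit 51))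
 (.p (nat_lit 0x4c884ed502) (nat_lit 0x140129) (nat_lit 4)))
 (.n (.p (nat_lit 0x10f110e502) (nat_lit 0x50640e) (nat_lit 16))
 (.p (nat_lit 0x1adc604d02) (nat_lit 0x406a6254c800200000600) (nat_lit 49))))))

def c1024_705 : Tr :=
 .n (.n (.n (.n (.n (.n (.p (nat_lit 0x4d304c702) (nat_lit 0x200000) (nat_lit 34))
 (.p (nat_lit 0x12a712990feb0fdd0d150d0d0a550a4507a9079f04cf04c561ca0d) (nat_lit 0x3561684a0800000000000) (nat_lit 33)))
 (.p (nat_lit 0x7c207c007bc07ba07b8422706) (nat_lit 0x4000086612) (nat_lit 52)))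
 (.n (.p (nat_lit 0xa4e0a4c0a4a0a480a46246906) (nat_lit 0x800004b03) (nat_lit 52))
 (.p (nat_lit 0x36d836d436d236d036ce049736d707) (nat_lit 0x40022d) (nat_lit 7))))
 (.n (.n (.p (nat_lit 0x21651e9102) (nat_lit 0x200a00) (nat_lit 16))
 (.p (nat_lit 0x3d083f4d02) (nat_lit 0x440020) (nat_lit 5)))
 (.n (.p (nat_lit 0xf6e068302) (nat_lit 0x340307) (nat_lit 4))
 (.p (nat_lit 0x5e6c39ed02) (nat_lit 0x20004800) (nat_lit 47)))))
 (.n (.n (.n (.p (nat_lit 0x136e136a1368136610cd10c906) (nat_lit 0x14000016500) (nat_lit 52))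
 (.p (nat_lit 0x2e554cd02) (nat_lit 0x719) (nat_lit 30)))
 (.n (.p (nat_lit 0xe3486302) (nat_lit 0x505) (nat_lit 30))
 (.p (nat_lit 0x5cf95db702) (nat_lit 0x240040000000) (nat_lit 37))))
 (.n (.n (.p (nat_lit 0xb6e2ed302) (nat_lit 0x200202) (nat_lit 29))
 (.p (nat_lit 0x3756393502) (nat_lit 0x440226) (nat_lit 4)))
 (.n (.p (nat_lit 0x49c8447102) (nat_lit 0x70c) (nat_lit 5))
 (.p (nat_lit 0x1ae65fcf02) (nat_lit 0x9582ec05000200000600) (nat_lit 50))))))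
 (.n (.n (.n (.n (.p (nat_lit 0xc9309d102) (nat_lit 0x240200) (nat_lit 15))
 (.p (nat_lit 0x191c0abd02) (nat_lit 0x715) (nat_lit 5)))
 (.n (.p (nat_lit 0x1957168b02) (nat_lit 0x500604) (nat_lit 15))
 (.p (nat_lit 0x27059cb02) (nat_lit 0x400106) (nat_lit 27))))
 (.n (.n (.p (nat_lit 0x124e172902) (nat_lit 0x140401) (nat_lit 4))
 (.p (nat_lit 0x3df909eb02) (nat_lit 0x352123) (nat_lit 16)))
 (.n (.p (nat_lit 0x2bdc263702) (nat_lit 0x40908) (nat_lit 5))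
 (.p (nat_lit 0x7a65ec502) (nat_lit 0x260b84344000100000000) (nat_lit 50)))))
 (.n (.n (.n (.p (nat_lit 0x1aa7179502) (nat_lit 0x14a700) (nat_lit 16))
 (.p (nat_lit 0x30b553102) (nat_lit 0x24061c) (nat_lit 30)))
 (.n (.p (nat_lit 0x128c23b902) (nat_lit 0x240406) (nat_lit 5))
 (.p (nat_lit 0x5da75e1f02) (nat_lit 0x600a0000400) (nat_lit 36))))
 (.n (.n (.p (nat_lit 0x6081c5702) (nat_lit 0x200003) (nat_lit 4))
 (.p (nat_lit 0x12aa12a612a412a212a00cbb06) (nat_lit 0x800004a22a) (nat_lit 51)))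
 (.n (.p (nat_lit 0x35ec35ea35e835e635e41d4106) (nat_lit 0x80004880e) (nat_lit 51))
 (.p (nat_lit 0xe8260d102) (nat_lit 0x35052a3a4000300040000) (nat_lit 50))))))

def c512_193 : Tr := .n c1024_193 c1024_705

def c1024_449 : Tr :=
 .n (.n (.n (.n (.n (.n (.p (nat_lit 0x28a02880282028d04) (nat_lit 0x19000400015) (nat_lit 17))
 (.p (nat_lit 0x1f0c618902) (nat_lit 0x340b86c64000300040600) (nat_lit 49)))
 (.p (nat_lit 0x4103397502) (nat_lit 0x154411) (nat_lit 16)))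
 (.n (.p (nat_lit 0x189418921890188e188c17f106) (nat_lit 0x100000c8603) (nat_lit 52))
 (.p (nat_lit 0x46e047104752a692ad305) (nat_lit 0xa234092b) (nat_lit 9))))
 (.n (.n (.p (nat_lit 0x1fc01fbe1fba1fb81fb61d2f06) (nat_lit 0x40000cc900) (nat_lit 52))
 (.p (nat_lit 0x354c380302) (nat_lit 0x24001f) (nat_lit 4)))
 (.n (.p (nat_lit 0xb5b0b4302) (nat_lit 0x408207) (nat_lit 16))
 (.p (nat_lit 0x5d27181102) (nat_lit 0x260060000700) (nat_lit 38)))))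
 (.n (.n (.n (.p (nat_lit 0x1170116e116c116a0f670f6506) (nat_lit 0x18000042400) (nat_lit 51))
 (.p (nat_lit 0x3aa4371702) (nat_lit 0x100618) (nat_lit 4)))
 (.n (.p (nat_lit 0xb98221f02) (nat_lit 0x500205) (nat_lit 4))
 (.p (nat_lit 0x3f75c1502) (nat_lit 0x500226) (nat_lit 28))))
 (.n (.n (.p (nat_lit 0x231823162312230e00480031002d2315231109) (nat_lit 0x1940a01) (nat_lit 10))
 (.p (nat_lit 0x101a10181016101410102bbb06) (nat_lit 0x1000082924) (nat_lit 51)))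
 (.n (.p (nat_lit 0x40f43cb302) (nat_lit 0x4040b) (nat_lit 4))
 (.p (nat_lit 0x180e5f8d02) (nat_lit 0x581a30344000100000600) (nat_lit 49))))))
 (.n (.n (.n (.n (.p (nat_lit 0xa7e0a7c0a7a0a760875087106) (nat_lit 0x2800008200) (nat_lit 52))
 (.p (nat_lit 0x153e153c153a15381536138b06) (nat_lit 0x80000c515) (nat_lit 52)))
 (.n (.p (nat_lit 0x40a240a0409e409c409a409800c2127b127512710a) (nat_lit 0x15040404) (nat_lit 31))
 (.p (nat_lit 0x87591b02) (nat_lit 0x103) (nat_lit 28))))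
 (.n (.n (.p (nat_lit 0xa02274f02) (nat_lit 0x340101) (nat_lit 29))
 (.p (nat_lit 0x4b99074902) (nat_lit 0x456023) (nat_lit 16)))
 (.n (.p (nat_lit 0x4ada4ad84ad64ad02419241706) (nat_lit 0x3000088b07) (nat_lit 51))
 (.p (nat_lit 0x5cbd233f02) (nat_lit 0xb00) (nat_lit 40)))))
 (.n (.n (.n (.p (nat_lit 0x18ff162702) (nat_lit 0x300700) (nat_lit 15))
 (.p (nat_lit 0x9e209e009dc09da031c030d030709df09d909) (nat_lit 0x184011c) (nat_lit 10)))
 (.n (.p (nat_lit 0x8e04ba102) (nat_lit 0x200106) (nat_lit 29))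
 (.p (nat_lit 0x5d650d1b02) (nat_lit 0x180080000300) (nat_lit 40))))
 (.n (.n (.p (nat_lit 0x197a1976197419721970232306) (nat_lit 0x80000cea02) (nat_lit 52))
 (.p (nat_lit 0x43957ad02) (nat_lit 0x24012a) (nat_lit 30)))
 (.n (.p (nat_lit 0x4fc04fa04f804f604f214cb06) (nat_lit 0x10000c450e) (nat_lit 52))
 (.p (nat_lit 0xbac608d02) (nat_lit 0x342221ca4000200040000) (nat_lit 49))))))

def c1024_961 : Tr :=
 .n (.n (.n (.n (.n (.p (nat_lit 0x68e068c068a06880657065506) (nat_lit 0x18000048000) (nat_lit 52))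
 (.p (nat_lit 0x4f204bbf02) (nat_lit 0x40414) (nat_lit 5)))
 (.n (.p (nat_lit 0xb73c0902) (nat_lit 0x100004) (nat_lit 30))
 (.p (nat_lit 0x42a0416502) (nat_lit 0x44062e) (nat_lit 4))))
 (.n (.n (.p (nat_lit 0x2156233502) (nat_lit 0x100b00) (nat_lit 4))
 (.p (nat_lit 0x44a2471d02) (nat_lit 0x340021) (nat_lit 4)))
 (.n (.p (nat_lit 0x1232122e122c122a12280149123107) (nat_lit 0x440407) (nat_lit 7))
 (.p (nat_lit 0x5cb11f0502) (nat_lit 0xc0000000900) (nat_lit 39)))))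
 (.n (.n (.n (.p (nat_lit 0x1547153b02) (nat_lit 0x300600) (nat_lit 34))
 (.p (nat_lit 0x4f364f344f304f2e4f2c03014f3307) (nat_lit 0x34041b) (nat_lit 7)))
 (.n (.p (nat_lit 0x64a0646064406420640196106) (nat_lit 0x8000080705) (nat_lit 51))
 (.p (nat_lit 0x5d2b08ef02) (nat_lit 0x220060000100) (nat_lit 39))))
 (.n (.n (.p (nat_lit 0x13b019ff02) (nat_lit 0x100502) (nat_lit 4))
 (.p (nat_lit 0x42e2406d02) (nat_lit 0x100727) (nat_lit 5)))
 (.n (.p (nat_lit 0xe160e140e120e100e0c01e90e0f07) (nat_lit 0x10030e) (nat_lit 7))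
 (.p (nat_lit 0x1daa600f02) (nat_lit 0x405aa0b94800300000600) (nat_lit 49))))))
 (.n (.n (.n (.n (.p (nat_lit 0xe490b2f02) (nat_lit 0x12300) (nat_lit 16))
 (.p (nat_lit 0x21800c6902) (nat_lit 0x400a15) (nat_lit 5)))
 (.n (.p (nat_lit 0x1d0c1d0a1d081d041957194f06) (nat_lit 0x11000094704) (nat_lit 51))
 (.p (nat_lit 0x1f001ee01ea01e80007028106) (nat_lit 0x180830e) (nat_lit 26))))
 (.n (.n (.p (nat_lit 0x581d7d02) (nat_lit 0x40801) (nat_lit 1))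
 (.p (nat_lit 0x193c11b502) (nat_lit 0x400723) (nat_lit 4)))
 (.n (.p (nat_lit 0x66c066a066806660664332d06) (nat_lit 0x10000084a09) (nat_lit 51))
 (.p (nat_lit 0x180e5f0f02) (nat_lit 0x3a2570344000100000600) (nat_lit 49)))))
 (.n (.n (.n (.p (nat_lit 0x1c511c4502) (nat_lit 0x540800) (nat_lit 34))
 (.p (nat_lit 0x510b1ec502) (nat_lit 0x41691c) (nat_lit 16)))
 (.n (.p (nat_lit 0x1c381c341c321c301c2e011b1c3707) (nat_lit 0x400806) (nat_lit 7))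
 (.p (nat_lit 0x5d915e3702) (nat_lit 0x1c00a0000500) (nat_lit 37))))
 (.n (.n (.p (nat_lit 0x36c70b7b02) (nat_lit 0x208203) (nat_lit 16))
 (.p (nat_lit 0x4255166d02) (nat_lit 0x21262a) (nat_lit 16)))
 (.n (.p (nat_lit 0x299626e502) (nat_lit 0x20040f) (nat_lit 4))
 (.p (nat_lit 0xe82611302) (nat_lit 0x34252a1b0000300040000) (nat_lit 50))))))

def c512_449 : Tr := .n c1024_449 c1024_961

def c256_193 : Tr := .n c512_193 c512_449

def c128_65 : Tr := .n c256_65 c256_193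

def c64_1 : Tr := .n c128_1 c128_65

def c1024_33 : Tr :=
 .n (.n (.n (.n (.n (.n (.p (nat_lit 0x320030002e003704) (nat_lit 0xe000400001) (nat_lit 17))
 (.p (nat_lit 0xe72612b02) (nat_lit 0x35486a3b0000300040000) (nat_lit 49)))
 (.p (nat_lit 0x2b12539302) (nat_lit 0x50080f) (nat_lit 29)))
 (.n (.p (nat_lit 0xfa637eb02) (nat_lit 0x140303) (nat_lit 29))
 (.p (nat_lit 0x1aaa580302) (nat_lit 0x34072a) (nat_lit 29))))
 (.n (.n (.p (nat_lit 0x1d021d001cfe1cfc1cf81a5f06) (nat_lit 0x1000054800) (nat_lit 51))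
 (.p (nat_lit 0x22ea0f3902) (nat_lit 0x40a1c) (nat_lit 5)))
 (.n (.p (nat_lit 0x506d1c3302) (nat_lit 0x208806) (nat_lit 16))
 (.p (nat_lit 0x5cdb5e3f02) (nat_lit 0x120020000600) (nat_lit 36)))))
 (.n (.n (.n (.p (nat_lit 0xebe0ebc0eb80eb60eb40c9506) (nat_lit 0x400004a300) (nat_lit 51))
 (.p (nat_lit 0x164b243302) (nat_lit 0x300b15) (nat_lit 15)))
 (.n (.p (nat_lit 0x1d021cfe1cfc1cfa1ab91ab106) (nat_lit 0x8800054704) (nat_lit 51))
 (.p (nat_lit 0x20d5ab702) (nat_lit 0x10030f) (nat_lit 28))))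
 (.n (.n (.p (nat_lit 0x2b711d7d02) (nat_lit 0x4a801) (nat_lit 16))
 (.p (nat_lit 0x1c151c0902) (nat_lit 0x500823) (nat_lit 16)))
 (.n (.p (nat_lit 0x36c0344902) (nat_lit 0x50020a) (nat_lit 4))
 (.p (nat_lit 0x1ad65f1f02) (nat_lit 0x1a2260b50000200000600) (nat_lit 49))))))
 (.n (.n (.n (.n (.p (nat_lit 0x785065502) (nat_lit 0x454000) (nat_lit 16))
 (.p (nat_lit 0x9220920091c091a0918509f06) (nat_lit 0x4000048814) (nat_lit 51)))
 (.n (.p (nat_lit 0xa2b077b02) (nat_lit 0x540004) (nat_lit 15))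
 (.p (nat_lit 0x460c490102) (nat_lit 0x50022f) (nat_lit 5))))
 (.n (.n (.p (nat_lit 0x240624042402240023fc215706) (nat_lit 0x1000012b00) (nat_lit 51))
 (.p (nat_lit 0xf3e0f3c0f3a0f3849f749f506) (nat_lit 0x18000094721) (nat_lit 51)))
 (.n (.p (nat_lit 0x3a91163302) (nat_lit 0x310607) (nat_lit 16))
 (.p (nat_lit 0x5d091db102) (nat_lit 0x140040000900) (nat_lit 40)))))
 (.n (.n (.n (.p (nat_lit 0x161e161a161816161555154d06) (nat_lit 0x8800094600) (nat_lit 51))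
 (.p (nat_lit 0x5de05dc05da05d605d4030b05d907) (nat_lit 0x20001c) (nat_lit 7)))
 (.n (.p (nat_lit 0x1abe229902) (nat_lit 0x140705) (nat_lit 4))
 (.p (nat_lit 0x5dd8338d02) (nat_lit 0xa004e100) (nat_lit 47))))
 (.n (.n (.p (nat_lit 0x59328502) (nat_lit 0x902) (nat_lit 30))
 (.p (nat_lit 0x22a0229c229a22982296451f06) (nat_lit 0x800008e128) (nat_lit 52)))
 (.n (.p (nat_lit 0xf7e07c302) (nat_lit 0x54030e) (nat_lit 4))
 (.p (nat_lit 0x1adc602502) (nat_lit 0x406a6252d000200000600) (nat_lit 49))))))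

def c1024_545 : Tr :=
 .n (.n (.n (.n (.n (.n (.p (nat_lit 0x33503330329031604) (nat_lit 0xb190001c) (nat_lit 20))
 (.p (nat_lit 0x8e861a502) (nat_lit 0x3222a5c15000100040000) (nat_lit 49)))
 (.p (nat_lit 0x3bd43bd03bce3bcc3bca02413bd307) (nat_lit 0x440b11) (nat_lit 7)))
 (.n (.p (nat_lit 0x1e4e1e4c1e4a1e4421c521c306) (nat_lit 0x300000ca03) (nat_lit 52))
 (.p (nat_lit 0x30aa31b302) (nat_lit 0x44032c) (nat_lit 5))))
 (.n (.n (.p (nat_lit 0x204b1d2d02) (nat_lit 0x24c900) (nat_lit 16))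
 (.p (nat_lit 0x3a76382b02) (nat_lit 0x24051f) (nat_lit 5)))
 (.n (.p (nat_lit 0x2f8f0c9d02) (nat_lit 0x14e207) (nat_lit 16))
 (.p (nat_lit 0x5da55e6302) (nat_lit 0x800a0000700) (nat_lit 37)))))
 (.n (.n (.n (.p (nat_lit 0x12610f6502) (nat_lit 0x44e400) (nat_lit 16))
 (.p (nat_lit 0x3cf83ea302) (nat_lit 0x240019) (nat_lit 4)))
 (.n (.p (nat_lit 0xe5c20d102) (nat_lit 0x400305) (nat_lit 5))
 (.p (nat_lit 0x5c6e5c6c5c6a5c685c660409044007) (nat_lit 0x6a2a) (nat_lit 25))))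
 (.n (.n (.p (nat_lit 0x188075d02) (nat_lit 0x240002) (nat_lit 1))
 (.p (nat_lit 0x3300314d02) (nat_lit 0x140925) (nat_lit 4)))
 (.n (.p (nat_lit 0x43043cd902) (nat_lit 0x14070b) (nat_lit 5))
 (.p (nat_lit 0x6425f9f02) (nat_lit 0x589832b44000000040000) (nat_lit 50))))))
 (.n (.n (.n (.n (.p (nat_lit 0xb63087502) (nat_lit 0x20c200) (nat_lit 16))
 (.p (nat_lit 0xa5a0a580a560a540a5014d706) (nat_lit 0x1000044515) (nat_lit 51)))
 (.n (.p (nat_lit 0x151a151815161514151000b7151307) (nat_lit 0x140504) (nat_lit 7))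
 (.p (nat_lit 0x400596302) (nat_lit 0x300404) (nat_lit 27))))
 (.n (.n (.p (nat_lit 0xcc0282702) (nat_lit 0x140201) (nat_lit 29))
 (.p (nat_lit 0x2080207c207a20782076089106) (nat_lit 0x8000014123) (nat_lit 51)))
 (.n (.p (nat_lit 0x212286f02) (nat_lit 0x440208) (nat_lit 1))
 (.p (nat_lit 0x5eb64e9b02) (nat_lit 0x40002b00) (nat_lit 48)))))
 (.n (.n (.n (.p (nat_lit 0x179a1796179417920026000b0007179d179909) (nat_lit 0x2b40700) (nat_lit 10))
 (.p (nat_lit 0x1180117e117a11781176139d06) (nat_lit 0x400008251c) (nat_lit 52)))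
 (.n (.p (nat_lit 0xba024cd02) (nat_lit 0x300206) (nat_lit 5))
 (.p (nat_lit 0x5ce35e0f02) (nat_lit 0xa0020000400) (nat_lit 36))))
 (.n (.n (.p (nat_lit 0x246618eb02) (nat_lit 0x500b02) (nat_lit 5))
 (.p (nat_lit 0xb5a0b580b560b540b52043f0b5d07) (nat_lit 0x50022a) (nat_lit 7)))
 (.n (.p (nat_lit 0x17b0095b02) (nat_lit 0x34060e) (nat_lit 4))
 (.p (nat_lit 0x1984609f02) (nat_lit 0x344588ca4000100040600) (nat_lit 50))))))

def c512_33 : Tr := .n c1024_33 c1024_545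

def c1024_289 : Tr :=
 .n (.n (.n (.n (.n (.n (.p (nat_lit 0x11c011a0116011f04) (nat_lit 0x1a000400006) (nat_lit 17))
 (.p (nat_lit 0x1ad4616302) (nat_lit 0x421aa4395000200000600) (nat_lit 49)))
 (.p (nat_lit 0x7b607b407b207b007ae338306) (nat_lit 0x800046a10) (nat_lit 52)))
 (.n (.p (nat_lit 0x3a623a603a5e3a5c3a5a150f06) (nat_lit 0x100000d6503) (nat_lit 51))
 (.p (nat_lit 0x25aa14c102) (nat_lit 0x240b2a) (nat_lit 5))))
 (.n (.n (.p (nat_lit 0x1e881e841e821e801bcd1bc906) (nat_lit 0x14000096900) (nat_lit 52))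
 (.p (nat_lit 0x2da42fd102) (nat_lit 0x44001e) (nat_lit 5)))
 (.n (.p (nat_lit 0x2062256302) (nat_lit 0x240906) (nat_lit 4))
 (.p (nat_lit 0x5c93180b02) (nat_lit 0x2a0000000700) (nat_lit 38)))))
 (.n (.n (.n (.p (nat_lit 0x1062105e105c10580dfd0df706) (nat_lit 0x900008e400) (nat_lit 51))
 (.p (nat_lit 0xbd40bd20bce0bcc0bca334106) (nat_lit 0x4000080a17) (nat_lit 52)))
 (.n (.p (nat_lit 0x43ca43c843c643c443c243c006) (nat_lit 0x6005) (nat_lit 52))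
 (.p (nat_lit 0x340033e033c03380307034906) (nat_lit 0x21281d) (nat_lit 26))))
 (.n (.n (.p (nat_lit 0x1f1a1f181f141f12204d204706) (nat_lit 0x48000d2901) (nat_lit 51))
 (.p (nat_lit 0x259a121102) (nat_lit 0x40b23) (nat_lit 5)))
 (.n (.p (nat_lit 0x4fc04fa04f804f43b6f3b6b06) (nat_lit 0x2800084b0a) (nat_lit 52))
 (.p (nat_lit 0xd1c5f6102) (nat_lit 0x3aa570344000300000000) (nat_lit 50))))))
 (.n (.n (.n (.n (.p (nat_lit 0x94609420940093e0725071d06) (nat_lit 0x88000ca100) (nat_lit 52))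
 (.p (nat_lit 0x47e710eb02) (nat_lit 0x214415) (nat_lit 16)))
 (.n (.p (nat_lit 0xe520e500e4e0e4a0e4800b90e4d07) (nat_lit 0x200304) (nat_lit 7))
 (.p (nat_lit 0x320030002c002a000503db06) (nat_lit 0x1512401) (nat_lit 26))))
 (.n (.n (.p (nat_lit 0x25bd22c502) (nat_lit 0x54eb00) (nat_lit 16))
 (.p (nat_lit 0x5e2115502) (nat_lit 0x100023) (nat_lit 5)))
 (.n (.p (nat_lit 0x3cde3cdc3cda3cd83cd61ea306) (nat_lit 0x1000008e907) (nat_lit 51))
 (.p (nat_lit 0x5cc1206d02) (nat_lit 0x2c0020000a00) (nat_lit 38)))))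
 (.n (.n (.n (.p (nat_lit 0x17ed16b702) (nat_lit 0x350600) (nat_lit 16))
 (.p (nat_lit 0x743073702) (nat_lit 0x14a01c) (nat_lit 16)))
 (.n (.p (nat_lit 0x1d9022b702) (nat_lit 0x440805) (nat_lit 4))
 (.p (nat_lit 0x5cbb5df502) (nat_lit 0x20000000300) (nat_lit 36))))
 (.n (.n (.p (nat_lit 0x16a216a0169e169c169821b706) (nat_lit 0x100008ca02) (nat_lit 52))
 (.p (nat_lit 0x101a1018101610141010506b06) (nat_lit 0x1000082829) (nat_lit 51)))
 (.n (.p (nat_lit 0x1f0e1f0c1f0a1f081f06123506) (nat_lit 0x8000d240e) (nat_lit 52))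
 (.p (nat_lit 0x1ad4606502) (nat_lit 0x85ab0335000200000600) (nat_lit 49))))))

def c1024_801 : Tr :=
 .n (.n (.n (.n (.n (.n (.p (nat_lit 0x53805360534053204dd04db06) (nat_lit 0x180000c000) (nat_lit 52))
 (.p (nat_lit 0x12a712970fe90fd50d170d110a530a4b07a1079d04d904c761e00d) (nat_lit 0x3302a5895000000000000) (nat_lit 33)))
 (.p (nat_lit 0x47e244c902) (nat_lit 0x500413) (nat_lit 4)))
 (.n (.p (nat_lit 0x3b85246b02) (nat_lit 0x104b03) (nat_lit 16))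
 (.p (nat_lit 0x3bac3a5502) (nat_lit 0x300b2d) (nat_lit 5))))
 (.n (.n (.p (nat_lit 0x21ec21e821e621e41ffd1ff906) (nat_lit 0x14000040a00) (nat_lit 51))
 (.p (nat_lit 0x42403fe702) (nat_lit 0x400620) (nat_lit 4)))
 (.n (.p (nat_lit 0x12290f6902) (nat_lit 0x40307) (nat_lit 15))
 (.p (nat_lit 0x5e741ef302) (nat_lit 0x6000c800) (nat_lit 47)))))
 (.n (.n (.n (.p (nat_lit 0x140a1408140614021227121f06) (nat_lit 0x11000042500) (nat_lit 51))
 (.p (nat_lit 0x4860463902) (nat_lit 0x54041a) (nat_lit 5)))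
 (.n (.p (nat_lit 0x1690227702) (nat_lit 0x200605) (nat_lit 5))
 (.p (nat_lit 0x5d9704cd02) (nat_lit 0x1600a0000000) (nat_lit 38))))
 (.n (.n (.p (nat_lit 0x612fb902) (nat_lit 0x400302) (nat_lit 30))
 (.p (nat_lit 0x115a11581156115411523bf906) (nat_lit 0x10000040b26) (nat_lit 51)))
 (.n (.p (nat_lit 0x23fa23f823f623f423f04dc306) (nat_lit 0x100009030d) (nat_lit 51))
 (.p (nat_lit 0x20725fe502) (nat_lit 0x3062a1c35000400000600) (nat_lit 49))))))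
 (.n (.n (.n (.n (.p (nat_lit 0xd280d260d240d220d1e0b3106) (nat_lit 0x1000000300) (nat_lit 52))
 (.p (nat_lit 0x43111a8302) (nat_lit 0x152715) (nat_lit 16)))
 (.n (.p (nat_lit 0x11441140113e113c113a17fb06) (nat_lit 0x80000c8604) (nat_lit 52))
 (.p (nat_lit 0x14a01460144014201ad000906) (nat_lit 0x412307) (nat_lit 26))))
 (.n (.n (.p (nat_lit 0x46614f102) (nat_lit 0x240501) (nat_lit 1))
 (.p (nat_lit 0x3a356bb02) (nat_lit 0x140223) (nat_lit 30)))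
 (.n (.p (nat_lit 0x300c2ca702) (nat_lit 0x100309) (nat_lit 4))
 (.p (nat_lit 0x6345edb02) (nat_lit 0x4a9d22344000000040000) (nat_lit 49)))))
 (.n (.n (.n (.p (nat_lit 0x1b6a1b681b661b64190318f906) (nat_lit 0x1080000a800) (nat_lit 52))
 (.p (nat_lit 0x2ffe2ffc2ffa2ff82ff41a8f06) (nat_lit 0x10000d471c) (nat_lit 52)))
 (.n (.p (nat_lit 0x196623cf02) (nat_lit 0x100706) (nat_lit 4))
 (.p (nat_lit 0x5ccb5e2902) (nat_lit 0x220020000500) (nat_lit 37))))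
 (.n (.n (.p (nat_lit 0x87356102) (nat_lit 0x103) (nat_lit 30))
 (.p (nat_lit 0xe2212e702) (nat_lit 0x50032a) (nat_lit 5)))
 (.n (.p (nat_lit 0x2017200b02) (nat_lit 0x4690e) (nat_lit 16))
 (.p (nat_lit 0x8fa60eb02) (nat_lit 0x340d623a4000100040000) (nat_lit 50))))))

def c512_289 : Tr := .n c1024_289 c1024_801

def c256_33 : Tr := .n c512_33 c512_289

def c1024_161 : Tr :=
 .n (.n (.n (.n (.n (.n (.p (nat_lit 0x9d0099009403) (nat_lit 0x1900003) (nat_lit 19))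
 (.p (nat_lit 0x13ee614902) (nat_lit 0x350221d84000500040000) (nat_lit 49)))
 (.p (nat_lit 0x38e130fd02) (nat_lit 0x112410) (nat_lit 16)))
 (.n (.p (nat_lit 0x126e126c126812661264008d126b07) (nat_lit 0x340403) (nat_lit 7))
 (.p (nat_lit 0x43d582902) (nat_lit 0x44092a) (nat_lit 30))))
 (.n (.n (.p (nat_lit 0x1bcc1bca1bc61bc40010000700011bc91bc309) (nat_lit 0x1800900) (nat_lit 10))
 (.p (nat_lit 0x26c0289902) (nat_lit 0x24001d) (nat_lit 5)))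
 (.n (.p (nat_lit 0x248a2488248624801d991d9706) (nat_lit 0x30000d6806) (nat_lit 52))
 (.p (nat_lit 0x5d23154702) (nat_lit 0x2a0060000600) (nat_lit 40)))))
 (.n (.n (.n (.p (nat_lit 0xfcf0c9502) (nat_lit 0x356300) (nat_lit 16))
 (.p (nat_lit 0x2c432ba902) (nat_lit 0x400916) (nat_lit 15)))
 (.n (.p (nat_lit 0xc200d100cd1fe71e8105) (nat_lit 0x66840b04) (nat_lit 9))
 (.p (nat_lit 0x2835b3302) (nat_lit 0x100a15) (nat_lit 28))))
 (.n (.n (.p (nat_lit 0x2b991ee502) (nat_lit 0x202901) (nat_lit 16))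
 (.p (nat_lit 0x22f9203102) (nat_lit 0x140923) (nat_lit 15)))
 (.n (.p (nat_lit 0x38dc38da38d438d201a8019f019d38d938d709) (nat_lit 0x1a0040a) (nat_lit 10))
 (.p (nat_lit 0x15345f3f02) (nat_lit 0x3a2560c64000000000600) (nat_lit 49))))))
 (.n (.n (.n (.n (.p (nat_lit 0x87905c502) (nat_lit 0x400100) (nat_lit 15))
 (.p (nat_lit 0x7c207c007bc07ba07b8072f06) (nat_lit 0x40000c6015) (nat_lit 52)))
 (.n (.p (nat_lit 0xb8c0b880b860b840b8200bd0b8b07) (nat_lit 0x400204) (nat_lit 7))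
 (.p (nat_lit 0x4a5e48bb02) (nat_lit 0x54072f) (nat_lit 4))))
 (.n (.n (.p (nat_lit 0x24f024ee24ec24ea22bd22bb06) (nat_lit 0x18000c6b00) (nat_lit 52))
 (.p (nat_lit 0x4fba566702) (nat_lit 0x140522) (nat_lit 29)))
 (.n (.p (nat_lit 0x1bce06bf02) (nat_lit 0x807) (nat_lit 5))
 (.p (nat_lit 0x5da95e9102) (nat_lit 0x400a0000900) (nat_lit 36)))))
 (.n (.n (.n (.p (nat_lit 0x1730172e172c172a172616b306) (nat_lit 0x10000c8600) (nat_lit 52))
 (.p (nat_lit 0x3c6505db02) (nat_lit 0x31201c) (nat_lit 16)))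
 (.n (.p (nat_lit 0x4a271abf02) (nat_lit 0x142705) (nat_lit 16))
 (.p (nat_lit 0x5de650a902) (nat_lit 0x40056200) (nat_lit 48))))
 (.n (.n (.p (nat_lit 0x1cd21cd01cce1ccc1cc8205506) (nat_lit 0x100004a902) (nat_lit 51))
 (.p (nat_lit 0x4c0e4e5502) (nat_lit 0x100129) (nat_lit 4)))
 (.n (.p (nat_lit 0x1c501c4c1c4a1c481c4610e306) (nat_lit 0x800009040e) (nat_lit 51))
 (.p (nat_lit 0x13ea604302) (nat_lit 0x40a96254c800500040000) (nat_lit 49))))))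

def c1024_673 : Tr :=
 .n (.n (.n (.n (.n (.n (.p (nat_lit 0x4640462046f03) (nat_lit 0x180050002b) (nat_lit 17))
 (.p (nat_lit 0xbb661c302) (nat_lit 0x3221a9c15000200040000) (nat_lit 50)))
 (.p (nat_lit 0x1b241fd02) (nat_lit 0x340512) (nat_lit 1)))
 (.n (.p (nat_lit 0x246c1d1502) (nat_lit 0x200b03) (nat_lit 5))
 (.p (nat_lit 0x365439a502) (nat_lit 0x54012d) (nat_lit 4))))
 (.n (.n (.p (nat_lit 0x214621442140213e1e931e8d06) (nat_lit 0x4800010a00) (nat_lit 51))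
 (.p (nat_lit 0x3c603f3d02) (nat_lit 0x100020) (nat_lit 4)))
 (.n (.p (nat_lit 0xe110e0502) (nat_lit 0x204307) (nat_lit 16))
 (.p (nat_lit 0x5cd91ae302) (nat_lit 0x140020000800) (nat_lit 40)))))
 (.n (.n (.n (.p (nat_lit 0x12f212f012ec12e810c910c506) (nat_lit 0x5000086500) (nat_lit 51))
 (.p (nat_lit 0x42743e4502) (nat_lit 0x40619) (nat_lit 5)))
 (.n (.p (nat_lit 0x128047f102) (nat_lit 0x240405) (nat_lit 29))
 (.p (nat_lit 0x5ccf5db502) (nat_lit 0x1e0020000000) (nat_lit 36))))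
 (.n (.n (.p (nat_lit 0x2e762e742e702e6e2e6c0a0f06) (nat_lit 0x40000ca102) (nat_lit 52))
 (.p (nat_lit 0x3757364702) (nat_lit 0x440126) (nat_lit 15)))
 (.n (.p (nat_lit 0x488c488a48884886488447cd06) (nat_lit 0x80008440c) (nat_lit 51))
 (.p (nat_lit 0x20805fc902) (nat_lit 0x9582ec15800400000600) (nat_lit 50))))))
 (.n (.n (.n (.n (.p (nat_lit 0xc260c240c200c1e09d309cd06) (nat_lit 0x480004e200) (nat_lit 52))
 (.p (nat_lit 0x17b60c1302) (nat_lit 0x40615) (nat_lit 4)))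
 (.n (.p (nat_lit 0x1ade1adc1ada1ad81ad6168106) (nat_lit 0x800010604) (nat_lit 52))
 (.p (nat_lit 0xec00ea00e800e200b7000506) (nat_lit 0xa10705) (nat_lit 26))))
 (.n (.n (.p (nat_lit 0x10fa172302) (nat_lit 0x400401) (nat_lit 4))
 (.p (nat_lit 0x1f181f161f141f121f1009ef06) (nat_lit 0x100000d2123) (nat_lit 51)))
 (.n (.p (nat_lit 0x508d2b4b02) (nat_lit 0x54808) (nat_lit 16))
 (.p (nat_lit 0x5d9d5ec302) (nat_lit 0x1000a0000b00) (nat_lit 36)))))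
 (.n (.n (.n (.p (nat_lit 0x1a5f179502) (nat_lit 0x140700) (nat_lit 15))
 (.p (nat_lit 0x4fbf14e702) (nat_lit 0x35651c) (nat_lit 16)))
 (.n (.p (nat_lit 0x426113902) (nat_lit 0x500406) (nat_lit 1))
 (.p (nat_lit 0x5d5f5e1d02) (nat_lit 0x1e0080000400) (nat_lit 37))))
 (.n (.n (.p (nat_lit 0x15ee15ea15e815e425bb25b506) (nat_lit 0x90000d0b02) (nat_lit 52))
 (.p (nat_lit 0xcb80cb60cb40cb20460043f043d0cbd0cbb09) (nat_lit 0x2c4022a) (nat_lit 10)))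
 (.n (.p (nat_lit 0x504b1be102) (nat_lit 0x31680e) (nat_lit 16))
 (.p (nat_lit 0x13ee60cb02) (nat_lit 0x3505623a4000500040000) (nat_lit 49))))))

def c512_161 : Tr := .n c1024_161 c1024_673

def c1024_417 : Tr :=
 .n (.n (.n (.n (.n (.n (.p (nat_lit 0x22a02280224022f04) (nat_lit 0xd000400010) (nat_lit 17))
 (.p (nat_lit 0x13ec618302) (nat_lit 0x421a86b15000500040000) (nat_lit 49)))
 (.p (nat_lit 0x8a397702) (nat_lit 0x240411) (nat_lit 1)))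
 (.n (.p (nat_lit 0x17ee1b8f02) (nat_lit 0x440603) (nat_lit 5))
 (.p (nat_lit 0x2bc62a5902) (nat_lit 0x10092b) (nat_lit 5))))
 (.n (.n (.p (nat_lit 0x1f781f761f741f701d331d2b06) (nat_lit 0x110000c6900) (nat_lit 52))
 (.p (nat_lit 0x8634bf02) (nat_lit 0x1f) (nat_lit 1)))
 (.n (.p (nat_lit 0x92e092c092a09260b3f0b3b06) (nat_lit 0x2800088207) (nat_lit 52))
 (.p (nat_lit 0x5d3d181d02) (nat_lit 0x100060000700) (nat_lit 40)))))
 (.n (.n (.n (.p (nat_lit 0xf640f620f600f5e0014000b00010f670f5d09) (nat_lit 0x2840400) (nat_lit 10))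
 (.p (nat_lit 0x1bb21bb01bae1bac1baa39f506) (nat_lit 0x10000016518) (nat_lit 52)))
 (.n (.p (nat_lit 0xcf90a3702) (nat_lit 0x540105) (nat_lit 15))
 (.p (nat_lit 0x3da03d803d403d0041f003106) (nat_lit 0xb14124) (nat_lit 26))))
 (.n (.n (.p (nat_lit 0x2310178902) (nat_lit 0x140a01) (nat_lit 4))
 (.p (nat_lit 0x5746574457425740573e573c03dc07) (nat_lit 0x824) (nat_lit 8)))
 (.n (.p (nat_lit 0x4018401640144012401001ad400f07) (nat_lit 0x4030b) (nat_lit 7))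
 (.p (nat_lit 0x20765f8102) (nat_lit 0x581a22b44000400000600) (nat_lit 50))))))
 (.n (.n (.n (.n (.p (nat_lit 0x87a0a5b02) (nat_lit 0x500200) (nat_lit 5))
 (.p (nat_lit 0x8f208f008ee08ea08e8138f06) (nat_lit 0x2000082515) (nat_lit 52)))
 (.n (.p (nat_lit 0xb5409902) (nat_lit 0x40404) (nat_lit 30))
 (.p (nat_lit 0x60005e005a0058002f000b06) (nat_lit 0x1516a02) (nat_lit 26))))
 (.n (.n (.p (nat_lit 0x3526df02) (nat_lit 0x500101) (nat_lit 30))
 (.p (nat_lit 0x14221420141e141c141a074b06) (nat_lit 0x10000044023) (nat_lit 51)))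
 (.n (.p (nat_lit 0x51d651d451d251d051ce51cc014c07) (nat_lit 0xb07) (nat_lit 8))
 (.p (nat_lit 0x5ea6475702) (nat_lit 0x80040a00) (nat_lit 47)))))
 (.n (.n (.n (.p (nat_lit 0x18dc18da18d818d4162b162306) (nat_lit 0x11000094700) (nat_lit 51))
 (.p (nat_lit 0x9d80d4302) (nat_lit 0x4011c) (nat_lit 5)))
 (.n (.p (nat_lit 0x790235f02) (nat_lit 0x440006) (nat_lit 4))
 (.p (nat_lit 0x5d270d0d02) (nat_lit 0x260060000300) (nat_lit 38))))
 (.n (.n (.p (nat_lit 0xfde0fdc0fd80fd60fd4232106) (nat_lit 0x4000048a02) (nat_lit 52))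
 (.p (nat_lit 0x6ea06e806e406e2089b089706) (nat_lit 0x500009212a) (nat_lit 52)))
 (.n (.p (nat_lit 0x14cc52f102) (nat_lit 0x24050e) (nat_lit 29))
 (.p (nat_lit 0x2344608102) (nat_lit 0x354221ca4000500000600) (nat_lit 50))))))

def c1024_929 : Tr :=
 .n (.n (.n (.n (.n (.p (nat_lit 0x67a0678067606740672064d06) (nat_lit 0x800046000) (nat_lit 51))
 (.p (nat_lit 0x4e2e4c3f02) (nat_lit 0x440314) (nat_lit 5)))
 (.n (.p (nat_lit 0x17ef25c702) (nat_lit 0x440b03) (nat_lit 15))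
 (.p (nat_lit 0x425a425842564252425004a7425507) (nat_lit 0x20062e) (nat_lit 7))))
 (.n (.n (.p (nat_lit 0x22f71ff302) (nat_lit 0x48a00) (nat_lit 16))
 (.p (nat_lit 0x4412470f02) (nat_lit 0x200021) (nat_lit 5)))
 (.n (.p (nat_lit 0x47d510d702) (nat_lit 0x414407) (nat_lit 16))
 (.p (nat_lit 0x5d851adf02) (nat_lit 0x2800a0000800) (nat_lit 38)))))
 (.n (.n (.n (.p (nat_lit 0x150d122502) (nat_lit 0x450500) (nat_lit 16))
 (.p (nat_lit 0x4a9c45f302) (nat_lit 0x44081a) (nat_lit 4)))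
 (.n (.p (nat_lit 0x2568256625642562256017ff06) (nat_lit 0x8000d2605) (nat_lit 52))
 (.p (nat_lit 0x5d4907a702) (nat_lit 0x40060000100) (nat_lit 40))))
 (.n (.n (.p (nat_lit 0x125e189302) (nat_lit 0x340402) (nat_lit 4))
 (.p (nat_lit 0x1180117e117a11781176424b06) (nat_lit 0x4000082627) (nat_lit 52)))
 (.n (.p (nat_lit 0x50e44b7502) (nat_lit 0x20090d) (nat_lit 4))
 (.p (nat_lit 0x2495248121db21d31f151f0f1c471c431983197516af169b60020d) (nat_lit 0x405aa2354800000040600) (nat_lit 33))))))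
 (.n (.n (.n (.n (.p (nat_lit 0xe070b3502) (nat_lit 0x300300) (nat_lit 16))
 (.p (nat_lit 0x28b548f02) (nat_lit 0x540915) (nat_lit 30)))
 (.n (.p (nat_lit 0x1b0e1b0c1b081b041953194f06) (nat_lit 0x5000002704) (nat_lit 51))
 (.p (nat_lit 0x1ad5a5b02) (nat_lit 0x70b) (nat_lit 28))))
 (.n (.n (.p (nat_lit 0x1a4e1a4c1a4a1a481a461c1706) (nat_lit 0x800016801) (nat_lit 52))
 (.p (nat_lit 0x17d011a902) (nat_lit 0x140623) (nat_lit 5)))
 (.n (.p (nat_lit 0x19e32d902) (nat_lit 0x340909) (nat_lit 1))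
 (.p (nat_lit 0xba65ef702) (nat_lit 0x3a2530344000200040000) (nat_lit 49)))))
 (.n (.n (.n (.p (nat_lit 0x1a5c1c3b02) (nat_lit 0x40800) (nat_lit 4))
 (.p (nat_lit 0x1ec61ec41ec21ec01ebc03091ebf07) (nat_lit 0x10091c) (nat_lit 7)))
 (.n (.p (nat_lit 0x178e178c178817861ad31acd06) (nat_lit 0x120000d4706) (nat_lit 52))
 (.p (nat_lit 0x5e3205e902) (nat_lit 0x80006500) (nat_lit 47))))
 (.n (.n (.p (nat_lit 0x3660365e365c365a36583656009207) (nat_lit 0x203) (nat_lit 8))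
 (.p (nat_lit 0x43957dd02) (nat_lit 0x20062a) (nat_lit 30)))
 (.n (.p (nat_lit 0x258009cb02) (nat_lit 0x540b0e) (nat_lit 4))
 (.p (nat_lit 0xbb2610d02) (nat_lit 0x3425219b0000200040000) (nat_lit 50))))))

def c512_417 : Tr := .n c1024_417 c1024_929

def c256_161 : Tr := .n c512_161 c512_417

def c128_33 : Tr := .n c256_33 c256_161

def c1024_97 : Tr :=
 .n (.n (.n (.n (.n (.n (.p (nat_lit 0x620058006703) (nat_lit 0x10800500002) (nat_lit 17))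
 (.p (nat_lit 0x2336613502) (nat_lit 0x342a21d84000500000600) (nat_lit 49)))
 (.p (nat_lit 0x7b607b407b207b007ae2be906) (nat_lit 0x80004690f) (nat_lit 52)))
 (.n (.p (nat_lit 0x111411121110110c110a008b110f07) (nat_lit 0x200403) (nat_lit 7))
 (.p (nat_lit 0x43f581302) (nat_lit 0x54082a) (nat_lit 30))))
 (.n (.n (.p (nat_lit 0x1d4f1a5f02) (nat_lit 0x144800) (nat_lit 16))
 (.p (nat_lit 0x24400f4d02) (nat_lit 0x400b1c) (nat_lit 5)))
 (.n (.p (nat_lit 0xfe80fe60fe40fe20fe01d9f06) (nat_lit 0x10000048806) (nat_lit 51))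
 (.p (nat_lit 0x5d05153902) (nat_lit 0x180040000600) (nat_lit 38)))))
 (.n (.n (.n (.p (nat_lit 0xf400f3c0f3a0f380c990c9506) (nat_lit 0x140000d4300) (nat_lit 51))
 (.p (nat_lit 0x2ae427cf02) (nat_lit 0x40516) (nat_lit 5)))
 (.n (.p (nat_lit 0x247e247c247a247800c600b700b52477247509) (nat_lit 0x800b04) (nat_lit 10))
 (.p (nat_lit 0x2815afb02) (nat_lit 0x15) (nat_lit 28))))
 (.n (.n (.p (nat_lit 0xe820e800e7e0e7c0e781ee306) (nat_lit 0x1000086901) (nat_lit 51))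
 (.p (nat_lit 0x1eca107f02) (nat_lit 0x100923) (nat_lit 5)))
 (.n (.p (nat_lit 0x1b901b8c1b8a1b881b8637db06) (nat_lit 0x800008c30a) (nat_lit 51))
 (.p (nat_lit 0x1ad65f3302) (nat_lit 0x3aa560c44000200000600) (nat_lit 49))))))
 (.n (.n (.n (.n (.p (nat_lit 0x7c207bc07ba07b805c505c306) (nat_lit 0xc000086100) (nat_lit 52))
 (.p (nat_lit 0x7f207f007ee07ec07e805cb06) (nat_lit 0x100008a015) (nat_lit 51)))
 (.n (.p (nat_lit 0xbb3d8302) (nat_lit 0x340104) (nat_lit 30))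
 (.p (nat_lit 0x4766491702) (nat_lit 0x14032f) (nat_lit 4))))
 (.n (.n (.p (nat_lit 0x2473215f02) (nat_lit 0x510b00) (nat_lit 16))
 (.p (nat_lit 0x4b8e4b8c4b8a4b864b8403974b8907) (nat_lit 0x240022) (nat_lit 7)))
 (.n (.p (nat_lit 0x51825180517e517c517a5178014e190f190d19090a) (nat_lit 0x16200707) (nat_lit 31))
 (.p (nat_lit 0x5d251f0b02) (nat_lit 0x280060000900) (nat_lit 39)))))
 (.n (.n (.n (.p (nat_lit 0x16a4169816b103) (nat_lit 0x40600) (nat_lit 6))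
 (.p (nat_lit 0x153e153c153a1536153405d906) (nat_lit 0x200000c01c) (nat_lit 52)))
 (.n (.p (nat_lit 0x129e129c1298129612941ac306) (nat_lit 0x400004a705) (nat_lit 52))
 (.p (nat_lit 0x5cdb5de102) (nat_lit 0x120020000200) (nat_lit 37))))
 (.n (.n (.p (nat_lit 0x1d261d221d201d1e1ef51eed06) (nat_lit 0x8800096902) (nat_lit 52))
 (.p (nat_lit 0x499247b102) (nat_lit 0x300628) (nat_lit 4)))
 (.n (.p (nat_lit 0x63e063c063a0638063410dd06) (nat_lit 0x100008040e) (nat_lit 52))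
 (.p (nat_lit 0x1ae0603502) (nat_lit 0x4099a2335000200000600) (nat_lit 50))))))

def c1024_609 : Tr :=
 .n (.n (.n (.n (.n (.n (.p (nat_lit 0x3c103bf03ae03) (nat_lit 0x22300023) (nat_lit 19))
 (.p (nat_lit 0xbb061b302) (nat_lit 0x522266c0d000200040000) (nat_lit 49)))
 (.p (nat_lit 0x41023d2702) (nat_lit 0x140412) (nat_lit 5)))
 (.n (.p (nat_lit 0x2330232e232a23282326008d232d07) (nat_lit 0x340a03) (nat_lit 7))
 (.p (nat_lit 0x12da12d812d412d212d0336506) (nat_lit 0x4000084a2c) (nat_lit 51))))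
 (.n (.n (.p (nat_lit 0x20d220d020ca20c81e931e9106) (nat_lit 0x6000006a00) (nat_lit 51))
 (.p (nat_lit 0x3b9837c502) (nat_lit 0x500b1f) (nat_lit 4)))
 (.n (.p (nat_lit 0xe760e740e720e700e6c0e0306) (nat_lit 0x1000086307) (nat_lit 52))
 (.p (nat_lit 0x5cb71c4702) (nat_lit 0x60000000800) (nat_lit 41)))))
 (.n (.n (.n (.p (nat_lit 0x10ca10c610c410c20026000b000710cd10c909) (nat_lit 0x2b00500) (nat_lit 10))
 (.p (nat_lit 0x42063ecf02) (nat_lit 0x240519) (nat_lit 4)))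
 (.n (.p (nat_lit 0x473e473c473a473847360fc706) (nat_lit 0x1000004e305) (nat_lit 52))
 (.p (nat_lit 0x5caf04c302) (nat_lit 0xe0000000000) (nat_lit 38))))
 (.n (.n (.p (nat_lit 0x769075d02) (nat_lit 0x252002) (nat_lit 16))
 (.p (nat_lit 0x35c4391302) (nat_lit 0x200126) (nat_lit 5)))
 (.n (.p (nat_lit 0x46e6443d02) (nat_lit 0x30c) (nat_lit 5))
 (.p (nat_lit 0x1ae85fbf02) (nat_lit 0x89832955800200000600) (nat_lit 50))))))
 (.n (.n (.n (.n (.p (nat_lit 0xbc80bc40bc00bbe09d509d106) (nat_lit 0xa000040200) (nat_lit 52))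
 (.p (nat_lit 0x72d14d902) (nat_lit 0x240515) (nat_lit 15)))
 (.n (.p (nat_lit 0x168a16861682168000d800bd00b91689168509) (nat_lit 0x2200604) (nat_lit 10))
 (.p (nat_lit 0xec00ea00e400e20005026306) (nat_lit 0x130e105) (nat_lit 26))))
 (.n (.n (.p (nat_lit 0x28be28bc28ba28b828b628b406) (nat_lit 0x92301) (nat_lit 52))
 (.p (nat_lit 0x4cc04ca04c604c404c209eb06) (nat_lit 0x4000040123) (nat_lit 52)))
 (.n (.p (nat_lit 0x2a02267f02) (nat_lit 0x340408) (nat_lit 4))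
 (.p (nat_lit 0x5d7d5ebd02) (nat_lit 0x80000b00) (nat_lit 37)))))
 (.n (.n (.n (.p (nat_lit 0x1a2a1a261a241a221a20179b06) (nat_lit 0x80000d2700) (nat_lit 51))
 (.p (nat_lit 0x314031903350ec90d6305) (nat_lit 0x22c4051c) (nat_lit 9)))
 (.n (.p (nat_lit 0xfc824e702) (nat_lit 0x40306) (nat_lit 4))
 (.p (nat_lit 0x5e1214e502) (nat_lit 0x40044400) (nat_lit 48))))
 (.n (.n (.p (nat_lit 0x33f5246502) (nat_lit 0x406b02) (nat_lit 16))
 (.p (nat_lit 0x1ade1adc1ad81ad61ad40b5906) (nat_lit 0x400001022a) (nat_lit 52)))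
 (.n (.p (nat_lit 0x1d431a7702) (nat_lit 0x14070e) (nat_lit 15))
 (.p (nat_lit 0x1c4060af02) (nat_lit 0x344589ca4000200040600) (nat_lit 49))))))

def c512_97 : Tr := .n c1024_97 c1024_609

def c1024_353 : Tr :=
 .n (.n (.n (.n (.n (.n (.p (nat_lit 0x16b0163014e03) (nat_lit 0x62a00007) (nat_lit 19))
 (.p (nat_lit 0x1146617302) (nat_lit 0x421aa6315000400040000) (nat_lit 50)))
 (.p (nat_lit 0x38de35e302) (nat_lit 0x411) (nat_lit 5)))
 (.n (.p (nat_lit 0x1a2a1a281a261a241a22167506) (nat_lit 0x800092603) (nat_lit 51))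
 (.p (nat_lit 0x28882a3f02) (nat_lit 0x54022b) (nat_lit 5))))
 (.n (.n (.p (nat_lit 0xb61d2b02) (nat_lit 0x140900) (nat_lit 1))
 (.p (nat_lit 0x334c306d02) (nat_lit 0x300a1e) (nat_lit 5)))
 (.n (.p (nat_lit 0x5125205f02) (nat_lit 0x40906) (nat_lit 16))
 (.p (nat_lit 0x5e541c1902) (nat_lit 0x20016700) (nat_lit 47)))))
 (.n (.n (.n (.p (nat_lit 0x10ef0dfd02) (nat_lit 0x404400) (nat_lit 16))
 (.p (nat_lit 0x2cf54b502) (nat_lit 0x40018) (nat_lit 30)))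
 (.n (.p (nat_lit 0x44ab077f02) (nat_lit 0x148005) (nat_lit 16))
 (.p (nat_lit 0x39a039603940392030d042706) (nat_lit 0x1d10522) (nat_lit 26))))
 (.n (.n (.p (nat_lit 0x312c2b02) (nat_lit 0x300a01) (nat_lit 30))
 (.p (nat_lit 0x273c29bb02) (nat_lit 0x400124) (nat_lit 5)))
 (.n (.p (nat_lit 0x24e3e6902) (nat_lit 0x20b) (nat_lit 1))
 (.p (nat_lit 0x1dac5f7302) (nat_lit 0x1aa074b50000300000600) (nat_lit 50))))))
 (.n (.n (.n (.n (.p (nat_lit 0xa09071d02) (nat_lit 0x4e100) (nat_lit 16))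
 (.p (nat_lit 0xd3e0d3a0d380d36124b124706) (nat_lit 0x14000042415) (nat_lit 51)))
 (.n (.p (nat_lit 0x3ffe3ffc3ffa3ff83ff60fbb06) (nat_lit 0x1000004e304) (nat_lit 52))
 (.p (nat_lit 0x58e058de58dc58da58d80141006407) (nat_lit 0x14002) (nat_lit 25))))
 (.n (.n (.p (nat_lit 0x2d264b02) (nat_lit 0x140001) (nat_lit 30))
 (.p (nat_lit 0x12fe12fc12f612f405e705e506) (nat_lit 0x600000c023) (nat_lit 52)))
 (.n (.p (nat_lit 0x216a06f702) (nat_lit 0x500a07) (nat_lit 4))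
 (.p (nat_lit 0x5d2b5ea302) (nat_lit 0x220060000a00) (nat_lit 37)))))
 (.n (.n (.n (.p (nat_lit 0x18641862185e185c162b162506) (nat_lit 0x12000084700) (nat_lit 52))
 (.p (nat_lit 0xa660a640a600a5e0a5c088306) (nat_lit 0x400000011c) (nat_lit 51)))
 (.n (.p (nat_lit 0x1e8a1e861e841e821e801d9106) (nat_lit 0x80000d6805) (nat_lit 52))
 (.p (nat_lit 0x5d195dfd02) (nat_lit 0x40040000300) (nat_lit 36))))
 (.n (.n (.p (nat_lit 0x21cb21bf02) (nat_lit 0x512a02) (nat_lit 16))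
 (.p (nat_lit 0x898140702) (nat_lit 0x20012a) (nat_lit 5)))
 (.n (.p (nat_lit 0x1384093702) (nat_lit 0x30050e) (nat_lit 4))
 (.p (nat_lit 0xfe8607302) (nat_lit 0x570aa2344000400000000) (nat_lit 50))))))

def c1024_865 : Tr :=
 .n (.n (.n (.n (.n (.n (.p (nat_lit 0x60704dd02) (nat_lit 0x110000) (nat_lit 16))
 (.p (nat_lit 0x64261f102) (nat_lit 0x382a31d05000000040000) (nat_lit 50)))
 (.p (nat_lit 0x49d844e302) (nat_lit 0x200713) (nat_lit 4)))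
 (.n (.p (nat_lit 0xbbc0bba0bb60bb40bb225c506) (nat_lit 0x40000c4b03) (nat_lit 51))
 (.p (nat_lit 0x3e86413502) (nat_lit 0x40022e) (nat_lit 4))))
 (.n (.n (.p (nat_lit 0x22942290228c228a1ffb1ff706) (nat_lit 0xa00004ea00) (nat_lit 51))
 (.p (nat_lit 0x42da3f7902) (nat_lit 0x300720) (nat_lit 5)))
 (.n (.p (nat_lit 0x10d6069102) (nat_lit 0x400407) (nat_lit 4))
 (.p (nat_lit 0x5d551add02) (nat_lit 0x280080000800) (nat_lit 38)))))
 (.n (.n (.n (.p (nat_lit 0x14761474146e146c1223122106) (nat_lit 0x6000050500) (nat_lit 52))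
 (.p (nat_lit 0x4982465302) (nat_lit 0x10061a) (nat_lit 4)))
 (.n (.p (nat_lit 0x1963169702) (nat_lit 0x500605) (nat_lit 15))
 (.p (nat_lit 0x5cd75dcb02) (nat_lit 0x160020000100) (nat_lit 36))))
 (.n (.n (.p (nat_lit 0x30423040303e303a0f9d0f9906) (nat_lit 0x28000c0302) (nat_lit 52))
 (.p (nat_lit 0x3dfa40b902) (nat_lit 0x440127) (nat_lit 4)))
 (.n (.p (nat_lit 0x4ffe52b102) (nat_lit 0x4070d) (nat_lit 29))
 (.p (nat_lit 0x20785ff502) (nat_lit 0x306a81c35000400000600) (nat_lit 50))))))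
 (.n (.n (.n (.n (.p (nat_lit 0xd640d620d600d5e0d5a0b3106) (nat_lit 0x100008a300) (nat_lit 52))
 (.p (nat_lit 0x20171d4d02) (nat_lit 0x40815) (nat_lit 15)))
 (.n (.p (nat_lit 0x427b17f902) (nat_lit 0x344604) (nat_lit 16))
 (.p (nat_lit 0x18a018801860184014b022b06) (nat_lit 0x2c14209) (nat_lit 26))))
 (.n (.n (.p (nat_lit 0x1c1a2af502) (nat_lit 0x200801) (nat_lit 29))
 (.p (nat_lit 0xdf00dee0dea0de80cb10cab06) (nat_lit 0x120000d6223) (nat_lit 52)))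
 (.n (.p (nat_lit 0x18dc18da18d818d618d4309506) (nat_lit 0x100000d4309) (nat_lit 51))
 (.p (nat_lit 0x15425eeb02) (nat_lit 0x4a8876344000000000600) (nat_lit 50)))))
 (.n (.n (.n (.p (nat_lit 0x1bbe1bbc1bba1bb81bb6190306) (nat_lit 0x10000096800) (nat_lit 51))
 (.p (nat_lit 0x50631bf902) (nat_lit 0x31681c) (nat_lit 16)))
 (.n (.p (nat_lit 0x2a1ac902) (nat_lit 0x40706) (nat_lit 1))
 (.p (nat_lit 0x5d39129b02) (nat_lit 0x140060000500) (nat_lit 38))))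
 (.n (.n (.p (nat_lit 0xa181c7b02) (nat_lit 0x240103) (nat_lit 4))
 (.p (nat_lit 0xf86144502) (nat_lit 0x34032a) (nat_lit 4)))
 (.n (.p (nat_lit 0x53625360535e535c535a535801f207) (nat_lit 0xb0e) (nat_lit 8))
 (.p (nat_lit 0x234660f502) (nat_lit 0x440d623a4000500000600) (nat_lit 50))))))

def c512_353 : Tr := .n c1024_353 c1024_865

def c256_97 : Tr := .n c512_97 c512_353

def c1024_225 : Tr :=
 .n (.n (.n (.n (.n (.n (.p (nat_lit 0xe100d900c203) (nat_lit 0x82a00004) (nat_lit 19))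
 (.p (nat_lit 0x64a615702) (nat_lit 0x1503a8895800000040000) (nat_lit 50)))
 (.p (nat_lit 0x329c539502) (nat_lit 0x910) (nat_lit 29)))
 (.n (.p (nat_lit 0x49613c302) (nat_lit 0x400503) (nat_lit 1))
 (.p (nat_lit 0x336321a102) (nat_lit 0x20ea2a) (nat_lit 16))))
 (.n (.n (.p (nat_lit 0x1e4e1e4a1e461e441bcb1bc706) (nat_lit 0xa00000c900) (nat_lit 52))
 (.p (nat_lit 0xd640d600d5e0d5c0d5a2bb506) (nat_lit 0x800008a91d) (nat_lit 52)))
 (.n (.p (nat_lit 0x1efe1efc1efa1ef8013e011d011b1f031f0109) (nat_lit 0x2c00906) (nat_lit 10))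
 (.p (nat_lit 0x5d9916a302) (nat_lit 0x1400a0000600) (nat_lit 39)))))
 (.n (.n (.n (.p (nat_lit 0x10020ffc0ffa0ff80dfd0dfb06) (nat_lit 0xc000080400) (nat_lit 52))
 (.p (nat_lit 0x327c2ef502) (nat_lit 0x240517) (nat_lit 5)))
 (.n (.p (nat_lit 0x213a213621342132213025d306) (nat_lit 0x80000ceb04) (nat_lit 51))
 (.p (nat_lit 0x5b785b765b745b725b70000102fe07) (nat_lit 0xa71a) (nat_lit 25))))
 (.n (.n (.p (nat_lit 0x79e079c079a07960794204b06) (nat_lit 0x2000042901) (nat_lit 52))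
 (.p (nat_lit 0x572e572c572a57285726572403ac07) (nat_lit 0xb23) (nat_lit 8)))
 (.n (.p (nat_lit 0x2cda2cd82cd62cd42cd23a9506) (nat_lit 0x1000009460a) (nat_lit 51))
 (.p (nat_lit 0x15345f5702) (nat_lit 0x1aa522350000000000600) (nat_lit 49))))))
 (.n (.n (.n (.n (.p (nat_lit 0x72208fb02) (nat_lit 0x340100) (nat_lit 5))
 (.p (nat_lit 0x10ee0bdf02) (nat_lit 0x400415) (nat_lit 5)))
 (.n (.p (nat_lit 0xcea1dfd02) (nat_lit 0x440204) (nat_lit 5))
 (.p (nat_lit 0x50c84f9502) (nat_lit 0x40830) (nat_lit 4))))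
 (.n (.n (.p (nat_lit 0x255c25582556255422c322bb06) (nat_lit 0x8800052b00) (nat_lit 52))
 (.p (nat_lit 0xd340d320d2e0d2c0d2a506306) (nat_lit 0x4000080822) (nat_lit 51)))
 (.n (.p (nat_lit 0x1c111bd502) (nat_lit 0x308807) (nat_lit 16))
 (.p (nat_lit 0x5c95207702) (nat_lit 0x280000000a00) (nat_lit 40)))))
 (.n (.n (.n (.p (nat_lit 0x177617721770176e16bb16b706) (nat_lit 0x140000d2600) (nat_lit 52))
 (.p (nat_lit 0x13f413f213ee13ec13ea073b06) (nat_lit 0x40000ca01c) (nat_lit 52)))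
 (.n (.p (nat_lit 0x1dfe1dfa1df81df41c2b1c2506) (nat_lit 0x9000084805) (nat_lit 51))
 (.p (nat_lit 0x5d5f0baf02) (nat_lit 0x1e0080000200) (nat_lit 39))))
 (.n (.n (.p (nat_lit 0x21b81a3102) (nat_lit 0x200a02) (nat_lit 5))
 (.p (nat_lit 0x4d444e6b02) (nat_lit 0x40229) (nat_lit 5)))
 (.n (.p (nat_lit 0x4d804d604d404d204ce123706) (nat_lit 0x100004040e) (nat_lit 51))
 (.p (nat_lit 0x4c2605502) (nat_lit 0x5858b0b44000000000000) (nat_lit 49))))))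

def c1024_737 : Tr :=
 .n (.n (.n (.n (.n (.n (.p (nat_lit 0x4fc04fa04f804f604f404f206) (nat_lit 0x84000) (nat_lit 52))
 (.p (nat_lit 0x207261d102) (nat_lit 0x54216ac0c800400000600) (nat_lit 49)))
 (.p (nat_lit 0x42bc3dd302) (nat_lit 0x712) (nat_lit 5)))
 (.n (.p (nat_lit 0x140013fe13fa13f6246f246b06) (nat_lit 0x500008ab03) (nat_lit 51))
 (.p (nat_lit 0x1ce81ce61ce41ce21ce0376506) (nat_lit 0x1000004c22d) (nat_lit 52))))
 (.n (.n (.p (nat_lit 0x21a71e9702) (nat_lit 0x50aa00) (nat_lit 16))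
 (.p (nat_lit 0x3d773d6b02) (nat_lit 0x30a120) (nat_lit 16)))
 (.n (.p (nat_lit 0xd100d0e0d0c0d0a0d060f6b06) (nat_lit 0x1000046307) (nat_lit 52))
 (.p (nat_lit 0x5d011c4b02) (nat_lit 0x1c0040000800) (nat_lit 41)))))
 (.n (.n (.n (.p (nat_lit 0x13ad10cd02) (nat_lit 0x50c500) (nat_lit 16))
 (.p (nat_lit 0x43143f0102) (nat_lit 0x340719) (nat_lit 4)))
 (.n (.p (nat_lit 0x48de48dc48da48d848d648d400ee07) (nat_lit 0x40505) (nat_lit 8))
 (.p (nat_lit 0x5d3904c902) (nat_lit 0x140060000000) (nat_lit 38))))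
 (.n (.n (.p (nat_lit 0xcce2f4b02) (nat_lit 0x240202) (nat_lit 29))
 (.p (nat_lit 0x3f1576502) (nat_lit 0x240a26) (nat_lit 30)))
 (.n (.p (nat_lit 0x4a1c43fb02) (nat_lit 0x24070c) (nat_lit 4))
 (.p (nat_lit 0x4d05fd502) (nat_lit 0x382c60b44000000000000) (nat_lit 50))))))
 (.n (.n (.n (.n (.p (nat_lit 0xcd709cd02) (nat_lit 0x50200) (nat_lit 16))
 (.p (nat_lit 0x2f5a2f582f562f542f52192706) (nat_lit 0x1000000a715) (nat_lit 51)))
 (.n (.p (nat_lit 0x17fc17fa17f817f617f200b717f507) (nat_lit 0x140604) (nat_lit 7))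
 (.p (nat_lit 0x11c011a011401120005042306) (nat_lit 0x1310406) (nat_lit 26))))
 (.n (.n (.p (nat_lit 0x125b124f02) (nat_lit 0x150401) (nat_lit 16))
 (.p (nat_lit 0xb500b4c0b4a0b480b4603a90b4f07) (nat_lit 0x400223) (nat_lit 7)))
 (.n (.p (nat_lit 0x2c6226b902) (nat_lit 0x440a08) (nat_lit 4))
 (.p (nat_lit 0x20705ecf02) (nat_lit 0x4a1a34344000400000600) (nat_lit 49)))))
 (.n (.n (.n (.p (nat_lit 0x18fc1ae502) (nat_lit 0x200800) (nat_lit 5))
 (.p (nat_lit 0x348192d02) (nat_lit 0x20071c) (nat_lit 1)))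
 (.n (.p (nat_lit 0x4f084f064f044f024efe128b06) (nat_lit 0x10000d0406) (nat_lit 52))
 (.p (nat_lit 0x5e1e14eb02) (nat_lit 0xa0044400) (nat_lit 48))))
 (.n (.n (.p (nat_lit 0x613060702) (nat_lit 0x114003) (nat_lit 16))
 (.p (nat_lit 0x1db41db21db01dae1dac0cbd06) (nat_lit 0x1000005222a) (nat_lit 51)))
 (.n (.p (nat_lit 0x1ea8098902) (nat_lit 0x20090e) (nat_lit 5))
 (.p (nat_lit 0x8fa60d702) (nat_lit 0x354a623b0000100040000) (nat_lit 50))))))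

def c512_225 : Tr := .n c1024_225 c1024_737

def c1024_481 : Tr :=
 .n (.n (.n (.n (.n (.n (.p (nat_lit 0x2d602d202d002d904) (nat_lit 0x13000400018) (nat_lit 17))
 (.p (nat_lit 0x12a712990fe10fd70d170d110a530a4b07a9079504d904c561920d) (nat_lit 0x340aa5c14800000000000) (nat_lit 33)))
 (.p (nat_lit 0x2e0e2e0c2e0a2e063a9b3a9706) (nat_lit 0x2800094611) (nat_lit 51)))
 (.n (.p (nat_lit 0x1a5a1a561a541a5017ef17e906) (nat_lit 0x90000d6603) (nat_lit 52))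
 (.p (nat_lit 0x2f442f422f3e2f3c2f3a04812f4107) (nat_lit 0x30022c) (nat_lit 7))))
 (.n (.n (.p (nat_lit 0x1fd61fd21fd01fce1d331d2f06) (nat_lit 0x140000ce900) (nat_lit 52))
 (.p (nat_lit 0x3d05354d02) (nat_lit 0x25401f) (nat_lit 16)))
 (.n (.p (nat_lit 0xca40ca20ca00c9c0c9a01450c9f07) (nat_lit 0x240207) (nat_lit 7))
 (.p (nat_lit 0x5d715e5f02) (nat_lit 0xc0080000700) (nat_lit 37)))))
 (.n (.n (.n (.p (nat_lit 0x119811941192118e0f650f5f06) (nat_lit 0x90000c4400) (nat_lit 52))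
 (.p (nat_lit 0x3b04372b02) (nat_lit 0x500a18) (nat_lit 5)))
 (.n (.p (nat_lit 0xcf2222502) (nat_lit 0x240205) (nat_lit 4))
 (.p (nat_lit 0x43e043c0436043403a5000706) (nat_lit 0x130622a) (nat_lit 26))))
 (.n (.n (.p (nat_lit 0x2c73231302) (nat_lit 0x246a01) (nat_lit 16))
 (.p (nat_lit 0x2dae311902) (nat_lit 0x440025) (nat_lit 5)))
 (.n (.p (nat_lit 0x52c052a052805260522421706) (nat_lit 0x100008860b) (nat_lit 51))
 (.p (nat_lit 0x233a5f9102) (nat_lit 0x581a303a5000500000600) (nat_lit 49))))))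
 (.n (.n (.n (.n (.p (nat_lit 0xaa20aa00a9e0a9a0a98087506) (nat_lit 0x200008a200) (nat_lit 51))
 (.p (nat_lit 0x2080207c207a20782076139306) (nat_lit 0x8000014515) (nat_lit 51)))
 (.n (.p (nat_lit 0x13c81e2f02) (nat_lit 0x100504) (nat_lit 4))
 (.p (nat_lit 0x3ec593302) (nat_lit 0x403) (nat_lit 27))))
 (.n (.n (.p (nat_lit 0xa3b09ff02) (nat_lit 0x154101) (nat_lit 16))
 (.p (nat_lit 0x8f208f008ee08ec08e8088b06) (nat_lit 0x1000082123) (nat_lit 52)))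
 (.n (.p (nat_lit 0x257005b702) (nat_lit 0x340b07) (nat_lit 5))
 (.p (nat_lit 0x5eae17ff02) (nat_lit 0x52b00) (nat_lit 48)))))
 (.n (.n (.n (.p (nat_lit 0x1941162102) (nat_lit 0xa700) (nat_lit 16))
 (.p (nat_lit 0xb160b140b120b100b0c09db06) (nat_lit 0x10000d411c) (nat_lit 52)))
 (.n (.p (nat_lit 0x4c1708e702) (nat_lit 0x508106) (nat_lit 16))
 (.p (nat_lit 0x5da10d1d02) (nat_lit 0xc00a0000300) (nat_lit 40))))
 (.n (.n (.p (nat_lit 0x2348234423422340233e232306) (nat_lit 0x8000056a02) (nat_lit 51))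
 (.p (nat_lit 0x66e066c06680666066409f706) (nat_lit 0x40000c412a) (nat_lit 51)))
 (.n (.p (nat_lit 0x14df14d302) (nat_lit 0x54650e) (nat_lit 16))
 (.p (nat_lit 0x1534609302) (nat_lit 0x356221ca4000000000600) (nat_lit 49))))))

def c1024_993 : Tr :=
 .n (.n (.n (.n (.n (.p (nat_lit 0x6f406f206ee06ec0657065106) (nat_lit 0x12000054000) (nat_lit 52))
 (.p (nat_lit 0x4fa84bd302) (nat_lit 0x440514) (nat_lit 5)))
 (.n (.p (nat_lit 0x3c323c2e3c2c3c2a3c28061906) (nat_lit 0x800000c004) (nat_lit 52))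
 (.p (nat_lit 0x4ae435302) (nat_lit 0x200b2e) (nat_lit 1))))
 (.n (.n (.p (nat_lit 0x236a2368236623642362215f06) (nat_lit 0x10000002b00) (nat_lit 52))
 (.p (nat_lit 0x4c03450d02) (nat_lit 0x10c121) (nat_lit 16)))
 (.n (.p (nat_lit 0x12c012be12bc12ba12b8123306) (nat_lit 0x100000c2407) (nat_lit 52))
 (.p (nat_lit 0x5cdf1daf02) (nat_lit 0xe0020000900) (nat_lit 40)))))
 (.n (.n (.n (.p (nat_lit 0x15b215b015ac15aa1553155106) (nat_lit 0x6000008600) (nat_lit 51))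
 (.p (nat_lit 0x254e254c254a254825464fb706) (nat_lit 0x100000d051b) (nat_lit 52)))
 (.n (.p (nat_lit 0x140013fc13fa13f813f6196106) (nat_lit 0x800008a705) (nat_lit 51))
 (.p (nat_lit 0x5d69079d02) (nat_lit 0x140080000100) (nat_lit 38))))
 (.n (.n (.p (nat_lit 0x5fd13b302) (nat_lit 0x200502) (nat_lit 15))
 (.p (nat_lit 0x401577302) (nat_lit 0x340b27) (nat_lit 30)))
 (.n (.p (nat_lit 0x52d252d052ce52cc52ca52c801f40e130e0f0e0d0a) (nat_lit 0xc80030e) (nat_lit 31))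
 (.p (nat_lit 0x180c601702) (nat_lit 0x405aa2335000100000600) (nat_lit 49))))))
 (.n (.n (.n (.n (.p (nat_lit 0xc940e7f02) (nat_lit 0x340300) (nat_lit 5))
 (.p (nat_lit 0x218b217f02) (nat_lit 0x308a15) (nat_lit 16)))
 (.n (.p (nat_lit 0x42ef194f02) (nat_lit 0x10a704) (nat_lit 16))
 (.p (nat_lit 0x1ec01ea01e801e60265000b06) (nat_lit 0x251440e) (nat_lit 26))))
 (.n (.n (.p (nat_lit 0x1d8615ef02) (nat_lit 0x540801) (nat_lit 4))
 (.p (nat_lit 0x1aa01a9e1a9c1a9a1a9803ab1aa307) (nat_lit 0x540723) (nat_lit 7)))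
 (.n (.p (nat_lit 0x4fc04fa04f804f604f4337706) (nat_lit 0x8000c4a09) (nat_lit 52))
 (.p (nat_lit 0x233c5f1302) (nat_lit 0x3aa570344000500000600) (nat_lit 49)))))
 (.n (.n (.n (.p (nat_lit 0x1c981c961c941c921a5f1a5d06) (nat_lit 0x18000c4800) (nat_lit 52))
 (.p (nat_lit 0x202f202302) (nat_lit 0x4a91c) (nat_lit 16)))
 (.n (.p (nat_lit 0xe760e740e720e700e6c1c3106) (nat_lit 0x1000086806) (nat_lit 52))
 (.p (nat_lit 0x5cab153502) (nat_lit 0x120000000600) (nat_lit 38))))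
 (.n (.n (.p (nat_lit 0xfab0cdd02) (nat_lit 0x340203) (nat_lit 15))
 (.p (nat_lit 0x57fa57f857f657f457f257f0044007) (nat_lit 0x72a) (nat_lit 8)))
 (.n (.p (nat_lit 0x1778177417721770176e2a1106) (nat_lit 0x80000d240f) (nat_lit 52))
 (.p (nat_lit 0x1da2611902) (nat_lit 0x342521ca4000300000600) (nat_lit 49))))))

def c512_481 : Tr := .n c1024_481 c1024_993

def c256_225 : Tr := .n c512_225 c512_481

def c128_97 : Tr := .n c256_97 c256_225

def c64_33 : Tr := .n c128_33 c128_97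

def c32_1 : Tr := .n c64_1 c64_33

def c1024_17 : Tr :=
 .n (.n (.n (.n (.n (.n (.p (nat_lit 0x2900250021001b04) (nat_lit 0x58d100000) (nat_lit 21))
 (.p (nat_lit 0x8f2612902) (nat_lit 0x35486a3a4000100040000) (nat_lit 49)))
 (.p (nat_lit 0x2b0a277902) (nat_lit 0x10080f) (nat_lit 5)))
 (.n (.p (nat_lit 0x11110e4302) (nat_lit 0x300303) (nat_lit 15))
 (.p (nat_lit 0x4a09194702) (nat_lit 0x31472a) (nat_lit 16))))
 (.n (.n (.p (nat_lit 0x1ce81ce61ce41ce21a671a5d06) (nat_lit 0x1080004c800) (nat_lit 52))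
 (.p (nat_lit 0x2439218502) (nat_lit 0xa1c) (nat_lit 15)))
 (.n (.p (nat_lit 0x249624942492248e1c331c2f06) (nat_lit 0x2800096806) (nat_lit 51))
 (.p (nat_lit 0x5ce916a702) (nat_lit 0x40020000600) (nat_lit 41)))))
 (.n (.n (.n (.p (nat_lit 0xea40ea20e9e0e9c0c990c9306) (nat_lit 0x12000042300) (nat_lit 52))
 (.p (nat_lit 0x22f322e702) (nat_lit 0x448a15) (nat_lit 16)))
 (.n (.p (nat_lit 0x1b241b221b201b1e1b1c1ab706) (nat_lit 0x4000044704) (nat_lit 51))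
 (.p (nat_lit 0x5aa65aa45aa25a9e5a9c008b01f207) (nat_lit 0x20880e) (nat_lit 25))))
 (.n (.n (.p (nat_lit 0x1a5a1a581a541a521a501d8306) (nat_lit 0x40000d6801) (nat_lit 52))
 (.p (nat_lit 0x3896389438923890388e1c0906) (nat_lit 0x10000082823) (nat_lit 51)))
 (.n (.p (nat_lit 0x268c268a26882684341f341b06) (nat_lit 0x2800050b09) (nat_lit 51))
 (.p (nat_lit 0x233c5f1b02) (nat_lit 0x3a2274b50000500000600) (nat_lit 49))))))
 (.n (.n (.n (.n (.p (nat_lit 0x765064d02) (nat_lit 0x50000) (nat_lit 16))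
 (.p (nat_lit 0x504e504c50485044027e026f026b504b504709) (nat_lit 0x1900814) (nat_lit 10)))
 (.n (.p (nat_lit 0x3c8c3c883c863c843c82077906) (nat_lit 0x80000c4004) (nat_lit 51))
 (.p (nat_lit 0x4691459702) (nat_lit 0x24012f) (nat_lit 15))))
 (.n (.n (.p (nat_lit 0x23ee23ec23e623e4215b215906) (nat_lit 0x6000010b00) (nat_lit 52))
 (.p (nat_lit 0x49f6474102) (nat_lit 0x500721) (nat_lit 4)))
 (.n (.p (nat_lit 0x25ec25e825e625e425e2163506) (nat_lit 0x8000004607) (nat_lit 52))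
 (.p (nat_lit 0x5d1d5e8702) (nat_lit 0x40000900) (nat_lit 36)))))
 (.n (.n (.n (.p (nat_lit 0x1606160415fe15fc1553155106) (nat_lit 0x6000092600) (nat_lit 51))
 (.p (nat_lit 0x50fe4ced02) (nat_lit 0x30091b) (nat_lit 4)))
 (.n (.p (nat_lit 0x49d9195d02) (nat_lit 0x202705) (nat_lit 16))
 (.p (nat_lit 0x5d8308ff02) (nat_lit 0x2a00a0000100) (nat_lit 41))))
 (.n (.n (.p (nat_lit 0x763150302) (nat_lit 0x540502) (nat_lit 15))
 (.p (nat_lit 0xe8451d02) (nat_lit 0x300128) (nat_lit 1)))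
 (.n (.p (nat_lit 0xf78091102) (nat_lit 0x24030e) (nat_lit 5))
 (.p (nat_lit 0x646602102) (nat_lit 0x406a6252d000000040000) (nat_lit 50))))))

def c1024_529 : Tr :=
 .n (.n (.n (.n (.n (.n (.p (nat_lit 0x32903270319031604) (nat_lit 0x3600001c) (nat_lit 20))
 (.p (nat_lit 0x13fc619f02) (nat_lit 0x380aa5c15000500040000) (nat_lit 50)))
 (.p (nat_lit 0x81e081c081a081808163b7706) (nat_lit 0x800010b11) (nat_lit 52)))
 (.n (.p (nat_lit 0x1f3e1f3c1f3a1f361f3421c506) (nat_lit 0x2000002a03) (nat_lit 52))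
 (.p (nat_lit 0x301a585702) (nat_lit 0x30032c) (nat_lit 29))))
 (.n (.n (.p (nat_lit 0x202b1d3102) (nat_lit 0x446900) (nat_lit 16))
 (.p (nat_lit 0x39f8379902) (nat_lit 0x10051f) (nat_lit 4)))
 (.n (.p (nat_lit 0x9820980097e09780c9f0c9d06) (nat_lit 0x30000d0207) (nat_lit 51))
 (.p (nat_lit 0x5e60197902) (nat_lit 0x80040700) (nat_lit 45)))))
 (.n (.n (.n (.p (nat_lit 0x12410f5d02) (nat_lit 0x44400) (nat_lit 16))
 (.p (nat_lit 0xa880a860a840a820a803be106) (nat_lit 0x100000c8b18) (nat_lit 52)))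
 (.n (.p (nat_lit 0xe3469902) (nat_lit 0x305) (nat_lit 30))
 (.p (nat_lit 0x4355c5902) (nat_lit 0x92a) (nat_lit 28))))
 (.n (.n (.p (nat_lit 0x2d05060102) (nat_lit 0x406002) (nat_lit 16))
 (.p (nat_lit 0x2fa0313b02) (nat_lit 0x440225) (nat_lit 4)))
 (.n (.p (nat_lit 0x1b1527902) (nat_lit 0x20070b) (nat_lit 30))
 (.p (nat_lit 0x207a5f9b02) (nat_lit 0x88bb0155800400000600) (nat_lit 50))))))
 (.n (.n (.n (.n (.p (nat_lit 0xb43087902) (nat_lit 0x400200) (nat_lit 16))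
 (.p (nat_lit 0x14de0c0502) (nat_lit 0x540515) (nat_lit 4)))
 (.n (.p (nat_lit 0x61913cf02) (nat_lit 0x400504) (nat_lit 15))
 (.p (nat_lit 0xbe00bc00ba00b8000101af06) (nat_lit 0x10c004) (nat_lit 26))))
 (.n (.n (.p (nat_lit 0xb730b6702) (nat_lit 0x410201) (nat_lit 16))
 (.p (nat_lit 0x1ade1adc1ada1ad81ad4088b06) (nat_lit 0x1000010123) (nat_lit 52)))
 (.n (.p (nat_lit 0x281628122810280e01800177016f2815280d09) (nat_lit 0x2000208) (nat_lit 10))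
 (.p (nat_lit 0x5d0f233702) (nat_lit 0xe0040000b00) (nat_lit 38)))))
 (.n (.n (.n (.p (nat_lit 0x1983197702) (nat_lit 0x340700) (nat_lit 34))
 (.p (nat_lit 0x13a0139e139c139a0318030903071399139709) (nat_lit 0x80051c) (nat_lit 10)))
 (.n (.p (nat_lit 0xd030a4102) (nat_lit 0x440106) (nat_lit 15))
 (.p (nat_lit 0x5e0a0fd502) (nat_lit 0x400) (nat_lit 45))))
 (.n (.n (.p (nat_lit 0x30246302) (nat_lit 0x300b02) (nat_lit 1))
 (.p (nat_lit 0xb5212c502) (nat_lit 0x22a) (nat_lit 4)))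
 (.n (.p (nat_lit 0x27182716271427122710164306) (nat_lit 0x1000001260e) (nat_lit 52))
 (.p (nat_lit 0x13fc609b02) (nat_lit 0x342529ca4000500040000) (nat_lit 50))))))

def c512_17 : Tr := .n c1024_17 c1024_529

def c1024_273 : Tr :=
 .n (.n (.n (.n (.n (.n (.p (nat_lit 0x109010300f003) (nat_lit 0x81100005) (nat_lit 19))
 (.p (nat_lit 0x1698616102) (nat_lit 0x3503a8d84000000040600) (nat_lit 49)))
 (.p (nat_lit 0x33822e0502) (nat_lit 0x40a10) (nat_lit 5)))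
 (.n (.p (nat_lit 0x150c3a0b02) (nat_lit 0x440503) (nat_lit 29))
 (.p (nat_lit 0x4f544f524f504f4e2455245106) (nat_lit 0x2800006b2a) (nat_lit 51))))
 (.n (.n (.p (nat_lit 0x1e7e1e7a1e781e761bcb1bc306) (nat_lit 0x8800016900) (nat_lit 52))
 (.p (nat_lit 0x18f618f418f218f018ec2cff06) (nat_lit 0x100009601e) (nat_lit 51)))
 (.n (.p (nat_lit 0x51225120511e511c511a5118011e07) (nat_lit 0x40906) (nat_lit 8))
 (.p (nat_lit 0x5c9f180b02) (nat_lit 0x1e0000000700) (nat_lit 38)))))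
 (.n (.n (.n (.p (nat_lit 0x1032102e102c102a0dfd0df506) (nat_lit 0x8800084400) (nat_lit 51))
 (.p (nat_lit 0x333e2f1102) (nat_lit 0x200a17) (nat_lit 4)))
 (.n (.p (nat_lit 0x622208902) (nat_lit 0x300005) (nat_lit 4))
 (.p (nat_lit 0x34e5b9b02) (nat_lit 0x81c) (nat_lit 27))))
 (.n (.n (.p (nat_lit 0x18141810180e180c180a204f06) (nat_lit 0x800004e901) (nat_lit 52))
 (.p (nat_lit 0x1665244d02) (nat_lit 0x400b23) (nat_lit 15)))
 (.n (.p (nat_lit 0x1443b6f02) (nat_lit 0x200b0a) (nat_lit 1))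
 (.p (nat_lit 0x8ec5f5f02) (nat_lit 0x4a1d22344000100040000) (nat_lit 49))))))
 (.n (.n (.n (.n (.p (nat_lit 0x92c092a092809260924072706) (nat_lit 0x100000c8100) (nat_lit 52))
 (.p (nat_lit 0xd640d600d5e0d5c0d5a10ef06) (nat_lit 0x800008a415) (nat_lit 52)))
 (.n (.p (nat_lit 0xcf10ce502) (nat_lit 0x156204) (nat_lit 16))
 (.p (nat_lit 0x2d58a102) (nat_lit 0x100301) (nat_lit 28))))
 (.n (.n (.p (nat_lit 0x259d22bd02) (nat_lit 0x148b00) (nat_lit 16))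
 (.p (nat_lit 0x51024db502) (nat_lit 0x922) (nat_lit 4)))
 (.n (.p (nat_lit 0x1e98057502) (nat_lit 0x907) (nat_lit 5))
 (.p (nat_lit 0x5cd721db02) (nat_lit 0x160020000a00) (nat_lit 41)))))
 (.n (.n (.n (.p (nat_lit 0x17c316b102) (nat_lit 0x46600) (nat_lit 16))
 (.p (nat_lit 0x21d621d421d221ce21cc073906) (nat_lit 0x20000d401c) (nat_lit 52)))
 (.n (.p (nat_lit 0x1d8a4a8502) (nat_lit 0x140805) (nat_lit 29))
 (.p (nat_lit 0x5d950a4f02) (nat_lit 0x1800a0000200) (nat_lit 38))))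
 (.n (.n (.p (nat_lit 0x1150114e114c114a114821b506) (nat_lit 0x800088a02) (nat_lit 51))
 (.p (nat_lit 0x423579702) (nat_lit 0x300829) (nat_lit 30)))
 (.n (.p (nat_lit 0x197a1978197619741972123506) (nat_lit 0x8000ce40e) (nat_lit 52))
 (.p (nat_lit 0x2332605f02) (nat_lit 0x506272831000500000600) (nat_lit 49))))))

def c1024_785 : Tr :=
 .n (.n (.n (.n (.n (.n (.p (nat_lit 0x520051c0518051604e304df06) (nat_lit 0xa000008000) (nat_lit 51))
 (.p (nat_lit 0x206a61dd02) (nat_lit 0x3302a5895000400000600) (nat_lit 49)))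
 (.p (nat_lit 0x4638463646344630462e475f06) (nat_lit 0x20000c8313) (nat_lit 51)))
 (.n (.p (nat_lit 0x248a2488248624822480246d06) (nat_lit 0x2000096b03) (nat_lit 52))
 (.p (nat_lit 0x3b5c3b583b563b52049e049704913b5b3b5509) (nat_lit 0x2140a2d) (nat_lit 10))))
 (.n (.n (.p (nat_lit 0x21e121d502) (nat_lit 0x440a00) (nat_lit 34))
 (.p (nat_lit 0x560e560c560a560856065604036e07) (nat_lit 0x620) (nat_lit 8)))
 (.n (.p (nat_lit 0x2080207e207c207a20780f6906) (nat_lit 0x800054307) (nat_lit 51))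
 (.p (nat_lit 0x5d2b1c4102) (nat_lit 0x220060000800) (nat_lit 39)))))
 (.n (.n (.n (.p (nat_lit 0x13ff13f302) (nat_lit 0x440500) (nat_lit 34))
 (.p (nat_lit 0x4856462f02) (nat_lit 0x4041a) (nat_lit 5)))
 (.n (.p (nat_lit 0x152f152302) (nat_lit 0x34c505) (nat_lit 16))
 (.p (nat_lit 0x5d51064902) (nat_lit 0x2c0080000000) (nat_lit 41))))
 (.n (.n (.p (nat_lit 0x5b2fb302) (nat_lit 0x100302) (nat_lit 30))
 (.p (nat_lit 0x3bee38c702) (nat_lit 0x40b26) (nat_lit 4)))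
 (.n (.p (nat_lit 0x4dc2529b02) (nat_lit 0x10030d) (nat_lit 29))
 (.p (nat_lit 0xbb25fe102) (nat_lit 0x3062a1c35000200040000) (nat_lit 50))))))
 (.n (.n (.n (.n (.p (nat_lit 0xb360d0f02) (nat_lit 0x400300) (nat_lit 4))
 (.p (nat_lit 0x289545d02) (nat_lit 0x440715) (nat_lit 30)))
 (.n (.p (nat_lit 0xd1c0d1a0d160d140d1217f906) (nat_lit 0x4000046604) (nat_lit 51))
 (.p (nat_lit 0x14a014801460144000101e906) (nat_lit 0x106207) (nat_lit 26))))
 (.n (.n (.p (nat_lit 0x13df13a302) (nat_lit 0x14501) (nat_lit 16))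
 (.p (nat_lit 0xb5d0b5102) (nat_lit 0x500223) (nat_lit 16)))
 (.n (.p (nat_lit 0x2e0e2e0c2e0a2e082e042f8f06) (nat_lit 0x10000d4209) (nat_lit 51))
 (.p (nat_lit 0x11405ed702) (nat_lit 0x4a1a36344000400040000) (nat_lit 49)))))
 (.n (.n (.n (.p (nat_lit 0x1b481b441b421b40190118f906) (nat_lit 0x8800086800) (nat_lit 52))
 (.p (nat_lit 0x314032103250d8d0ef305) (nat_lit 0xa194071c) (nat_lit 9)))
 (.n (.p (nat_lit 0x4f9e4f9c4f9a4f984f964f9406) (nat_lit 0xd0506) (nat_lit 52))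
 (.p (nat_lit 0x5ce15e2702) (nat_lit 0xc0020000500) (nat_lit 36))))
 (.n (.n (.p (nat_lit 0x3543076b02) (nat_lit 0x344003) (nat_lit 16))
 (.p (nat_lit 0xe1c143702) (nat_lit 0x20032a) (nat_lit 4)))
 (.n (.p (nat_lit 0x1ed534702) (nat_lit 0x34090e) (nat_lit 30))
 (.p (nat_lit 0x1adc60df02) (nat_lit 0x340d623a4000200000600) (nat_lit 49))))))

def c512_273 : Tr := .n c1024_273 c1024_785

def c256_17 : Tr := .n c512_17 c512_273

def c1024_145 : Tr :=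
 .n (.n (.n (.n (.n (.n (.p (nat_lit 0x90008e0086009304) (nat_lit 0x18800400003) (nat_lit 17))
 (.p (nat_lit 0x207e614102) (nat_lit 0x352a21d84000400000600) (nat_lit 50)))
 (.p (nat_lit 0x1a121a101a0e1a0c1a0a30fb06) (nat_lit 0x80008a410) (nat_lit 52)))
 (.n (.p (nat_lit 0x1121111502) (nat_lit 0x514403) (nat_lit 16))
 (.p (nat_lit 0x203a582102) (nat_lit 0x4092a) (nat_lit 29))))
 (.n (.n (.p (nat_lit 0xb81bc702) (nat_lit 0x200900) (nat_lit 1))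
 (.p (nat_lit 0x4d7a4d784d764d744d72258f06) (nat_lit 0x8000c0b1c) (nat_lit 51)))
 (.n (.p (nat_lit 0x1f1a1f181f161f121f101d9906) (nat_lit 0x20000d2806) (nat_lit 51))
 (.p (nat_lit 0x5d31153b02) (nat_lit 0x1c0060000600) (nat_lit 38)))))
 (.n (.n (.n (.p (nat_lit 0xfaf0c9902) (nat_lit 0x550300) (nat_lit 16))
 (.p (nat_lit 0x2ba427f502) (nat_lit 0x200916) (nat_lit 4)))
 (.n (.p (nat_lit 0x1689247d02) (nat_lit 0x400b04) (nat_lit 15))
 (.p (nat_lit 0x2c65b2502) (nat_lit 0x500715) (nat_lit 27))))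
 (.n (.n (.p (nat_lit 0x21d621d421d221cc1ee51ee306) (nat_lit 0x3000094901) (nat_lit 52))
 (.p (nat_lit 0x2032108d02) (nat_lit 0x240923) (nat_lit 5)))
 (.n (.p (nat_lit 0x49238d702) (nat_lit 0x20040a) (nat_lit 1))
 (.p (nat_lit 0xe825f3b02) (nat_lit 0x3a6560c44000300040000) (nat_lit 50))))))
 (.n (.n (.n (.n (.p (nat_lit 0x83608340832083005bf05bd06) (nat_lit 0x1800012100) (nat_lit 52))
 (.p (nat_lit 0x7320bd502) (nat_lit 0x540015) (nat_lit 4)))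
 (.n (.p (nat_lit 0x2e60b8502) (nat_lit 0x100204) (nat_lit 1))
 (.p (nat_lit 0x1446144414421440143e4a0d06) (nat_lit 0x1000008672f) (nat_lit 52))))
 (.n (.n (.p (nat_lit 0x24a0249e249c249a22c522bb06) (nat_lit 0x10800040b00) (nat_lit 51))
 (.p (nat_lit 0x4c154c0902) (nat_lit 0x40a122) (nat_lit 16)))
 (.n (.p (nat_lit 0x14b518f02) (nat_lit 0x540707) (nat_lit 30))
 (.p (nat_lit 0x5d551da902) (nat_lit 0x280080000900) (nat_lit 38)))))
 (.n (.n (.n (.p (nat_lit 0x16e816e616e016de16b716b506) (nat_lit 0x60000c2600) (nat_lit 51))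
 (.p (nat_lit 0x249624942490248e248c05db06) (nat_lit 0x400009601c) (nat_lit 51)))
 (.n (.p (nat_lit 0x21d621d221d021ce21cc1ac506) (nat_lit 0x80000d4705) (nat_lit 52))
 (.p (nat_lit 0x5cff0bab02) (nat_lit 0x1e0040000200) (nat_lit 39))))
 (.n (.n (.p (nat_lit 0x205c20582056205200780061005b205b205509) (nat_lit 0x2140902) (nat_lit 10))
 (.p (nat_lit 0x4b904ebb02) (nat_lit 0x40029) (nat_lit 5)))
 (.n (.p (nat_lit 0x1820181e181c181a181810db06) (nat_lit 0x80000e40e) (nat_lit 51))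
 (.p (nat_lit 0x1aea604102) (nat_lit 0x4a8176340800200000600) (nat_lit 50))))))

def c1024_657 : Tr :=
 .n (.n (.n (.n (.n (.n (.p (nat_lit 0x43e044502) (nat_lit 0x1000060002a) (nat_lit 17))
 (.p (nat_lit 0x180a61bf02) (nat_lit 0x3221a9c15000100000600) (nat_lit 49)))
 (.p (nat_lit 0x3c983c963c943c923c8e418906) (nat_lit 0x1000006512) (nat_lit 51)))
 (.n (.p (nat_lit 0x3b3d232902) (nat_lit 0x146a03) (nat_lit 16))
 (.p (nat_lit 0x3460345e345a3458345635d106) (nat_lit 0x400000612d) (nat_lit 52))))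
 (.n (.n (.p (nat_lit 0x212c212a212821261e971e8d06) (nat_lit 0x1080000ea00) (nat_lit 52))
 (.p (nat_lit 0xd340d300d2e0d2c0d2a3beb06) (nat_lit 0x80000c0b1f) (nat_lit 51)))
 (.n (.p (nat_lit 0x21d621d421d221d021cc0e0306) (nat_lit 0x1000094307) (nat_lit 52))
 (.p (nat_lit 0x5ce35e6d02) (nat_lit 0xa0020000800) (nat_lit 37)))))
 (.n (.n (.n (.p (nat_lit 0x12e612e412e212e012de10c306) (nat_lit 0x800006500) (nat_lit 51))
 (.p (nat_lit 0xa660a640a620a600a5e422d06) (nat_lit 0x800000619) (nat_lit 51)))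
 (.n (.p (nat_lit 0x1131112502) (nat_lit 0x10c405) (nat_lit 16))
 (.p (nat_lit 0x5cdd063702) (nat_lit 0x100020000000) (nat_lit 39))))
 (.n (.n (.p (nat_lit 0xa0c184902) (nat_lit 0x240102) (nat_lit 5))
 (.p (nat_lit 0x1cf61cf21cf01cee1cec364706) (nat_lit 0x80000cc126) (nat_lit 52)))
 (.n (.p (nat_lit 0x229e229c229a22982296475906) (nat_lit 0x100000ce30c) (nat_lit 52))
 (.p (nat_lit 0x1ae85fc702) (nat_lit 0x89832b05000200000600) (nat_lit 50))))))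
 (.n (.n (.n (.n (.p (nat_lit 0xbf80bf60bf20bf00bee09d306) (nat_lit 0x400004a200) (nat_lit 51))
 (.p (nat_lit 0x28382836283428322830164b06) (nat_lit 0x400000a615) (nat_lit 51)))
 (.n (.p (nat_lit 0x12aa12a612a212a01689168506) (nat_lit 0xa00000a604) (nat_lit 51))
 (.p (nat_lit 0xec00ea00e600e40007011306) (nat_lit 0x180e605) (nat_lit 26))))
 (.n (.n (.p (nat_lit 0xfd30f9702) (nat_lit 0x554301) (nat_lit 16))
 (.p (nat_lit 0x198619841982197e197c09e906) (nat_lit 0x20000ce123) (nat_lit 51)))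
 (.n (.p (nat_lit 0x2b52269702) (nat_lit 0x440808) (nat_lit 5))
 (.p (nat_lit 0x5ebe4f6702) (nat_lit 0x80004b00) (nat_lit 48)))))
 (.n (.n (.n (.p (nat_lit 0x1a5a1a581a561a541a521a5006) (nat_lit 0xd6700) (nat_lit 52))
 (.p (nat_lit 0x120c120a1208120614eb14e106) (nat_lit 0x1080005651c) (nat_lit 51)))
 (.n (.p (nat_lit 0x113023ab02) (nat_lit 0x100406) (nat_lit 5))
 (.p (nat_lit 0x5d730fdd02) (nat_lit 0xa0080000400) (nat_lit 38))))
 (.n (.n (.p (nat_lit 0x34183416341434123410340e006625b925b725b50a) (nat_lit 0xd140b02) (nat_lit 31))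
 (.p (nat_lit 0xcb6142b02) (nat_lit 0x24022a) (nat_lit 4)))
 (.n (.p (nat_lit 0x362436223620361e361a1bdd06) (nat_lit 0x100001680e) (nat_lit 52))
 (.p (nat_lit 0xe6e60c902) (nat_lit 0x3505223a4000300040000) (nat_lit 49))))))

def c512_145 : Tr := .n c1024_145 c1024_657

def c1024_401 : Tr :=
 .n (.n (.n (.n (.n (.n (.p (nat_lit 0x1f001ee01f503) (nat_lit 0x1800050000e) (nat_lit 17))
 (.p (nat_lit 0x2070617d02) (nat_lit 0x421a86b15000400000600) (nat_lit 49)))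
 (.p (nat_lit 0x1d241d221d201d1e1d1c38e906) (nat_lit 0x10000096411) (nat_lit 52)))
 (.n (.p (nat_lit 0x17f017ee17ec17ea17e6008917e907) (nat_lit 0x140603) (nat_lit 7))
 (.p (nat_lit 0x2b7a2b782b742b722b7004692b7707) (nat_lit 0x34082b) (nat_lit 7))))
 (.n (.n (.p (nat_lit 0x1f521f501f4e1f4c1d331d3106) (nat_lit 0x18000044900) (nat_lit 52))
 (.p (nat_lit 0x33ec300102) (nat_lit 0xb1e) (nat_lit 4)))
 (.n (.p (nat_lit 0xb440b400b3e0b3a015e014901430b430b3d09) (nat_lit 0x2100207) (nat_lit 10))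
 (.p (nat_lit 0x5e5817eb02) (nat_lit 0x40052700) (nat_lit 47)))))
 (.n (.n (.n (.p (nat_lit 0x114b113f02) (nat_lit 0x240400) (nat_lit 34))
 (.p (nat_lit 0x39f439f239f039ec39ea02d339ef07) (nat_lit 0x200518) (nat_lit 7)))
 (.n (.p (nat_lit 0x2620a3302) (nat_lit 0x340105) (nat_lit 1))
 (.p (nat_lit 0x3a15be302) (nat_lit 0xb23) (nat_lit 28))))
 (.n (.n (.p (nat_lit 0x2c4121ad02) (nat_lit 0x204a01) (nat_lit 16))
 (.p (nat_lit 0x4c8727ab02) (nat_lit 0x54124) (nat_lit 16)))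
 (.n (.p (nat_lit 0x1fb41fb21fb01fae1fac3f9106) (nat_lit 0x80000c30b) (nat_lit 51))
 (.p (nat_lit 0xe7c5f7b02) (nat_lit 0x581a22b44000300040000) (nat_lit 50))))))
 (.n (.n (.n (.n (.p (nat_lit 0x87a08780876087208700005087507) (nat_lit 0x200200) (nat_lit 7))
 (.p (nat_lit 0x13940bf902) (nat_lit 0x500515) (nat_lit 5)))
 (.n (.p (nat_lit 0x405c405a405840564054405206) (nat_lit 0xc404) (nat_lit 52))
 (.p (nat_lit 0x63590102) (nat_lit 0x500902) (nat_lit 28))))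
 (.n (.n (.p (nat_lit 0x8a226d702) (nat_lit 0x100101) (nat_lit 29))
 (.p (nat_lit 0x748074607440742074003ab074b07) (nat_lit 0x540023) (nat_lit 7)))
 (.n (.p (nat_lit 0x4450444e444c4448444622cb06) (nat_lit 0x20000c6a07) (nat_lit 52))
 (.p (nat_lit 0x5d5d5ea702) (nat_lit 0x200080000a00) (nat_lit 37)))))
 (.n (.n (.n (.p (nat_lit 0x18d218d018ce18cc18c8162306) (nat_lit 0x1000014700) (nat_lit 52))
 (.p (nat_lit 0x2e27087d02) (nat_lit 0xe11c) (nat_lit 16)))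
 (.n (.p (nat_lit 0x788235702) (nat_lit 0x40006) (nat_lit 4))
 (.p (nat_lit 0x5d370d1902) (nat_lit 0x160060000300) (nat_lit 40))))
 (.n (.n (.p (nat_lit 0xa4e0a4c0a4a0a460a44231f06) (nat_lit 0x2000044a02) (nat_lit 52))
 (.p (nat_lit 0x6920690068a0688089b089906) (nat_lit 0x600000812a) (nat_lit 52)))
 (.n (.p (nat_lit 0x4187137f02) (nat_lit 0x1250e) (nat_lit 16))
 (.p (nat_lit 0x1db0607f02) (nat_lit 0x511a22b85000300000600) (nat_lit 50))))))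

def c1024_913 : Tr :=
 .n (.n (.n (.n (.n (.p (nat_lit 0x6620660065e065c0658064f06) (nat_lit 0x1000044000) (nat_lit 51))
 (.p (nat_lit 0x4dcc4c2d02) (nat_lit 0x314) (nat_lit 5)))
 (.n (.p (nat_lit 0x1daa1da61da41da21da025c706) (nat_lit 0x8000052b03) (nat_lit 52))
 (.p (nat_lit 0x3fa8414902) (nat_lit 0x20032e) (nat_lit 5))))
 (.n (.n (.p (nat_lit 0x22d31ff302) (nat_lit 0x42a00) (nat_lit 16))
 (.p (nat_lit 0x438a3f8b02) (nat_lit 0x240b20) (nat_lit 4)))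
 (.n (.p (nat_lit 0x1370136c136a136810d710cf06) (nat_lit 0x8800016407) (nat_lit 52))
 (.p (nat_lit 0x5d911adf02) (nat_lit 0x1c00a0000800) (nat_lit 38)))))
 (.n (.n (.n (.p (nat_lit 0x14ed121d02) (nat_lit 0x4c500) (nat_lit 16))
 (.p (nat_lit 0x4a30466902) (nat_lit 0x4071a) (nat_lit 4)))
 (.n (.p (nat_lit 0x252c252a252825262522180106) (nat_lit 0x100004e605) (nat_lit 51))
 (.p (nat_lit 0x5cf9079902) (nat_lit 0x240040000100) (nat_lit 38))))
 (.n (.n (.p (nat_lit 0x110d110102) (nat_lit 0x112402) (nat_lit 16))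
 (.p (nat_lit 0x424640bf02) (nat_lit 0x100627) (nat_lit 5)))
 (.n (.p (nat_lit 0x50944b0302) (nat_lit 0x44080d) (nat_lit 4))
 (.p (nat_lit 0x20745fff02) (nat_lit 0x16a88cd50000400000600) (nat_lit 49))))))
 (.n (.n (.n (.n (.p (nat_lit 0xdda0dd40dd20dd00b370b3506) (nat_lit 0xc000094300) (nat_lit 52))
 (.p (nat_lit 0x283548702) (nat_lit 0x140915) (nat_lit 30)))
 (.n (.p (nat_lit 0x19561fcd02) (nat_lit 0x500704) (nat_lit 4))
 (.p (nat_lit 0x1995a5102) (nat_lit 0xa0a) (nat_lit 28))))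
 (.n (.n (.p (nat_lit 0x1a121a0e1a0c1a081c1f1c1906) (nat_lit 0x900008a801) (nat_lit 52))
 (.p (nat_lit 0x193f166702) (nat_lit 0x500623) (nat_lit 15)))
 (.n (.p (nat_lit 0x19a329302) (nat_lit 0x100909) (nat_lit 1))
 (.p (nat_lit 0x4c25ef502) (nat_lit 0x281d30344000000000000) (nat_lit 49)))))
 (.n (.n (.n (.p (nat_lit 0x1c21190302) (nat_lit 0x50c800) (nat_lit 16))
 (.p (nat_lit 0x202b1d6102) (nat_lit 0x44081c) (nat_lit 15)))
 (.n (.p (nat_lit 0x176a17681766176417621ad306) (nat_lit 0x10000052706) (nat_lit 51))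
 (.p (nat_lit 0x5d615e3302) (nat_lit 0x1c0080000500) (nat_lit 37))))
 (.n (.n (.p (nat_lit 0xcdf0a1d02) (nat_lit 0x440103) (nat_lit 15))
 (.p (nat_lit 0x386f0f8102) (nat_lit 0x5032a) (nat_lit 16)))
 (.n (.p (nat_lit 0x257809c302) (nat_lit 0x140b0e) (nat_lit 4))
 (.p (nat_lit 0x1da260ff02) (nat_lit 0x3425219b0000300000600) (nat_lit 49))))))

def c512_401 : Tr := .n c1024_401 c1024_913

def c256_145 : Tr := .n c512_145 c512_401

def c128_17 : Tr := .n c256_17 c256_145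

def c1024_81 : Tr :=
 .n (.n (.n (.n (.n (.n (.p (nat_lit 0x60005c005a006504) (nat_lit 0xb000400002) (nat_lit 17))
 (.p (nat_lit 0x1da6613302) (nat_lit 0x35486a3b0000300000600) (nat_lit 49)))
 (.p (nat_lit 0x2be8271d02) (nat_lit 0x4090f) (nat_lit 4)))
 (.n (.p (nat_lit 0xfb70fab02) (nat_lit 0x354303) (nat_lit 16))
 (.p (nat_lit 0x1d72147b02) (nat_lit 0x14082a) (nat_lit 4))))
 (.n (.n (.p (nat_lit 0x1d2d1a6102) (nat_lit 0x240800) (nat_lit 15))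
 (.p (nat_lit 0x55a255a0559e559c559a5598031207) (nat_lit 0xb1c) (nat_lit 8)))
 (.n (.p (nat_lit 0xa4c0a4a0a480a460a441d9f06) (nat_lit 0x10000044806) (nat_lit 52))
 (.p (nat_lit 0x5d1b5e4102) (nat_lit 0x20040000600) (nat_lit 37)))))
 (.n (.n (.n (.p (nat_lit 0xf1c0f180f160f140c990c9506) (nat_lit 0x14000052300) (nat_lit 51))
 (.p (nat_lit 0x2a70283302) (nat_lit 0x100516) (nat_lit 5)))
 (.n (.p (nat_lit 0x247a1e7b02) (nat_lit 0x300b04) (nat_lit 4))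
 (.p (nat_lit 0x25802560252024e00b702eb06) (nat_lit 0xb08312) (nat_lit 26))))
 (.n (.n (.p (nat_lit 0x8fe08fc08f808f608f41ee706) (nat_lit 0x4000082901) (nat_lit 51))
 (.p (nat_lit 0x202f1d6502) (nat_lit 0x40823) (nat_lit 15)))
 (.n (.p (nat_lit 0x37d6522502) (nat_lit 0x20030a) (nat_lit 29))
 (.p (nat_lit 0x23445f2f02) (nat_lit 0x3a2560b44000500000600) (nat_lit 50))))))
 (.n (.n (.n (.n (.p (nat_lit 0x5c605c205be05bc00200009000505c505c109) (nat_lit 0x2200100) (nat_lit 10))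
 (.p (nat_lit 0x7b607b407b207b007ae05c906) (nat_lit 0x800006015) (nat_lit 52)))
 (.n (.p (nat_lit 0x3d863d843d823d803d7e3d7c00c007) (nat_lit 0x40104) (nat_lit 8))
 (.p (nat_lit 0x46f6491102) (nat_lit 0x20032f) (nat_lit 4))))
 (.n (.n (.p (nat_lit 0x244d215d02) (nat_lit 0x408b00) (nat_lit 16))
 (.p (nat_lit 0x236c23682366236423624b2306) (nat_lit 0x8000002022) (nat_lit 52)))
 (.n (.p (nat_lit 0x190c054d02) (nat_lit 0x400707) (nat_lit 4))
 (.p (nat_lit 0x5d391f1702) (nat_lit 0x140060000900) (nat_lit 41)))))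
 (.n (.n (.n (.p (nat_lit 0x1683154f02) (nat_lit 0x112600) (nat_lit 16))
 (.p (nat_lit 0xd0c0d0a0d080d0605df05dd06) (nat_lit 0x1800000601c) (nat_lit 52)))
 (.n (.p (nat_lit 0xd1c0d1a0d180d160d121abf06) (nat_lit 0x1000046705) (nat_lit 51))
 (.p (nat_lit 0x5dde0f7502) (nat_lit 0x40200) (nat_lit 48))))
 (.n (.n (.p (nat_lit 0x1b901b8e1b8a1b881b861ef306) (nat_lit 0x400008c902) (nat_lit 51))
 (.p (nat_lit 0x4688482502) (nat_lit 0x440228) (nat_lit 4)))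
 (.n (.p (nat_lit 0x10dc091b02) (nat_lit 0x10040e) (nat_lit 5))
 (.p (nat_lit 0x8ea603102) (nat_lit 0x4099a2335000100040000) (nat_lit 49))))))

def c1024_593 : Tr :=
 .n (.n (.n (.n (.n (.n (.p (nat_lit 0x3aa03a803a403ad04) (nat_lit 0x1a000400023) (nat_lit 17))
 (.p (nat_lit 0x154661af02) (nat_lit 0x522266c0d000000000600) (nat_lit 50)))
 (.p (nat_lit 0x1fc01fbc1fba1fb81fb6408b06) (nat_lit 0x800008c412) (nat_lit 52)))
 (.n (.p (nat_lit 0x23261d0502) (nat_lit 0x40a03) (nat_lit 5))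
 (.p (nat_lit 0x3364586302) (nat_lit 0x300a2c) (nat_lit 29))))
 (.n (.n (.p (nat_lit 0x209820962090208e1e931e9106) (nat_lit 0x6000080a00) (nat_lit 52))
 (.p (nat_lit 0x3b4f3b4302) (nat_lit 0x44aa1f) (nat_lit 16)))
 (.n (.p (nat_lit 0x64806460644064206400e0b06) (nat_lit 0x10000080307) (nat_lit 51))
 (.p (nat_lit 0x5e64167f02) (nat_lit 0xa0012700) (nat_lit 48)))))
 (.n (.n (.n (.p (nat_lit 0x12a7129b02) (nat_lit 0x300500) (nat_lit 34))
 (.p (nat_lit 0x1fcc1fca1fc61fc41fc2419906) (nat_lit 0x400000e519) (nat_lit 52)))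
 (.n (.p (nat_lit 0xeb470702) (nat_lit 0x440305) (nat_lit 30))
 (.p (nat_lit 0x5d7c5d7a5d785d765d745d725d705d6e5d6c5d6a5d685d665d645d625d605d5e5d5c5d5a5d585d565d545d525d505d4e18) (nat_lit 0x80000000) (nat_lit 35))))
 (.n (.n (.p (nat_lit 0x2d862d842d822d802d7e2d7c06) (nat_lit 0xd4002) (nat_lit 52))
 (.p (nat_lit 0x3400575102) (nat_lit 0x400b25) (nat_lit 29)))
 (.n (.p (nat_lit 0x4600442f02) (nat_lit 0x50020c) (nat_lit 5))
 (.p (nat_lit 0x248d248921dd21d31f111f071c4f1c45197f197516af169f5fa80d) (nat_lit 0x89832955800000040600) (nat_lit 33))))))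
 (.n (.n (.n (.n (.p (nat_lit 0x28a09d702) (nat_lit 0x540200) (nat_lit 1))
 (.p (nat_lit 0x1da81da61da41da21da014df06) (nat_lit 0x10000052515) (nat_lit 52)))
 (.n (.p (nat_lit 0xc200df00cf1faf1e4905) (nat_lit 0xaca00604) (nat_lit 9))
 (.p (nat_lit 0xe5598b02) (nat_lit 0x100005) (nat_lit 28))))
 (.n (.n (.p (nat_lit 0xe2a159902) (nat_lit 0x300301) (nat_lit 4))
 (.p (nat_lit 0x9e856a502) (nat_lit 0x240123) (nat_lit 29)))
 (.n (.p (nat_lit 0x176a1768176617641762292d06) (nat_lit 0x10000052308) (nat_lit 51))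
 (.p (nat_lit 0x5eb8234502) (nat_lit 0x60000b00) (nat_lit 46)))))
 (.n (.n (.n (.p (nat_lit 0x1a1e1a1c1a1a1a181795179306) (nat_lit 0x1800052700) (nat_lit 51))
 (.p (nat_lit 0x14e40ec502) (nat_lit 0x24051c) (nat_lit 5)))
 (.n (.p (nat_lit 0x1194d6102) (nat_lit 0x300306) (nat_lit 30))
 (.p (nat_lit 0x5d190fd902) (nat_lit 0x40040000400) (nat_lit 38))))
 (.n (.n (.p (nat_lit 0x16061602160015fe15fc246506) (nat_lit 0x8000092b02) (nat_lit 51))
 (.p (nat_lit 0x154a15481544154215400b5906) (nat_lit 0x400000c22a) (nat_lit 51)))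
 (.n (.p (nat_lit 0x1a78080d02) (nat_lit 0x24070e) (nat_lit 4))
 (.p (nat_lit 0x63460ad02) (nat_lit 0x342521ca4000000040000) (nat_lit 49))))))

def c512_81 : Tr := .n c1024_81 c1024_593

def c1024_337 : Tr :=
 .n (.n (.n (.n (.n (.n (.p (nat_lit 0x14a0144014f03) (nat_lit 0x12000500007) (nat_lit 17))
 (.p (nat_lit 0x1daa616f02) (nat_lit 0x421aa6315000300000600) (nat_lit 49)))
 (.p (nat_lit 0x342e2e2302) (nat_lit 0x440b10) (nat_lit 5)))
 (.n (.p (nat_lit 0x167c167a1678167600a000910087167f167509) (nat_lit 0x2800603) (nat_lit 10))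
 (.p (nat_lit 0x2f3d281b02) (nat_lit 0x11022b) (nat_lit 16))))
 (.n (.n (.p (nat_lit 0x1ef31bc902) (nat_lit 0x30e900) (nat_lit 16))
 (.p (nat_lit 0x32fc2fe702) (nat_lit 0x54091e) (nat_lit 4)))
 (.n (.p (nat_lit 0x21222120211e211c211a205f06) (nat_lit 0x8000cc906) (nat_lit 52))
 (.p (nat_lit 0x5cd3197302) (nat_lit 0x1a0020000700) (nat_lit 39)))))
 (.n (.n (.n (.p (nat_lit 0x10cf0df502) (nat_lit 0x400) (nat_lit 16))
 (.p (nat_lit 0x285a285828562854285233e906) (nat_lit 0x8000092b17) (nat_lit 51)))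
 (.n (.p (nat_lit 0x442e442c442a44284426077d06) (nat_lit 0x800044005) (nat_lit 51))
 (.p (nat_lit 0x38e038803860384030d041106) (nat_lit 0x1c0e521) (nat_lit 26))))
 (.n (.n (.p (nat_lit 0x2b2c2502) (nat_lit 0xa01) (nat_lit 30))
 (.p (nat_lit 0x26d0294f02) (nat_lit 0x440024) (nat_lit 4)))
 (.n (.p (nat_lit 0x69e069c069a069806963bbf06) (nat_lit 0x8000c8b0a) (nat_lit 52))
 (.p (nat_lit 0x181e5f7102) (nat_lit 0x3aa074c44000100000600) (nat_lit 50))))))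
 (.n (.n (.n (.n (.p (nat_lit 0x9e9072102) (nat_lit 0x248100) (nat_lit 16))
 (.p (nat_lit 0xe8e0e8c0e8a0e860e84124506) (nat_lit 0x2000040415) (nat_lit 51)))
 (.n (.p (nat_lit 0xfb80fb60fb40fb000d400bf00b70fbb0fb309) (nat_lit 0x2940304) (nat_lit 10))
 (.p (nat_lit 0x11858d102) (nat_lit 0x300a01) (nat_lit 27))))
 (.n (.n (.p (nat_lit 0x5fd05f102) (nat_lit 0x210001) (nat_lit 16))
 (.p (nat_lit 0x1430142e142a1428142605e706) (nat_lit 0x4000084023) (nat_lit 52)))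
 (.n (.p (nat_lit 0x216051b502) (nat_lit 0xa07) (nat_lit 29))
 (.p (nat_lit 0x5e9c44a102) (nat_lit 0x40046a00) (nat_lit 48)))))
 (.n (.n (.n (.p (nat_lit 0x182c1826182418221629162706) (nat_lit 0xc000000700) (nat_lit 51))
 (.p (nat_lit 0x884550502) (nat_lit 0x40011c) (nat_lit 29)))
 (.n (.p (nat_lit 0x1fcc1fc81fc61fc41fc21d9106) (nat_lit 0x800004e805) (nat_lit 52))
 (.p (nat_lit 0x5cc90d0902) (nat_lit 0x240020000300) (nat_lit 38))))
 (.n (.n (.p (nat_lit 0x333921bf02) (nat_lit 0x502a02) (nat_lit 16))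
 (.p (nat_lit 0x480e480c480a48084806510f06) (nat_lit 0x800002929) (nat_lit 51)))
 (.n (.p (nat_lit 0x137e093102) (nat_lit 0x50e) (nat_lit 4))
 (.p (nat_lit 0x1ae0607102) (nat_lit 0x588162b40800200000600) (nat_lit 50))))))

def c1024_849 : Tr :=
 .n (.n (.n (.n (.n (.n (.p (nat_lit 0x5e104db02) (nat_lit 0x8000) (nat_lit 16))
 (.p (nat_lit 0x13ee61eb02) (nat_lit 0x14e0a8c74000500040000) (nat_lit 49)))
 (.p (nat_lit 0x4450444e444c444a4448493f06) (nat_lit 0x8000c6513) (nat_lit 52)))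
 (.n (.p (nat_lit 0x64a064806460644064025c106) (nat_lit 0x10000c0b03) (nat_lit 51))
 (.p (nat_lit 0x3e04412902) (nat_lit 0x34012e) (nat_lit 4))))
 (.n (.n (.p (nat_lit 0x227a2278227422721ffd1ff706) (nat_lit 0x1200004ca00) (nat_lit 51))
 (.p (nat_lit 0x42d43ff702) (nat_lit 0x720) (nat_lit 4)))
 (.n (.p (nat_lit 0x10d0068b02) (nat_lit 0x100407) (nat_lit 4))
 (.p (nat_lit 0x5d5f5e7702) (nat_lit 0x1e0080000800) (nat_lit 36)))))
 (.n (.n (.n (.p (nat_lit 0x144814461440143e1223122106) (nat_lit 0x60000c6500) (nat_lit 52))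
 (.p (nat_lit 0x495445d502) (nat_lit 0x54051a) (nat_lit 5)))
 (.n (.p (nat_lit 0x255c255a255625542552169306) (nat_lit 0x4000012605) (nat_lit 52))
 (.p (nat_lit 0x5dc43bcb02) (nat_lit 0x50100) (nat_lit 47))))
 (.n (.n (.p (nat_lit 0xf9c187902) (nat_lit 0x240302) (nat_lit 4))
 (.p (nat_lit 0x1ff01fee1fec1fea1fe63d7306) (nat_lit 0x1000096127) (nat_lit 51)))
 (.n (.p (nat_lit 0x4f1e52af02) (nat_lit 0x54040d) (nat_lit 29))
 (.p (nat_lit 0xe7c5fef02) (nat_lit 0x306a81c35000300040000) (nat_lit 50))))))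
 (.n (.n (.n (.n (.p (nat_lit 0xd4c0d460d440d420b370b3506) (nat_lit 0xc000082300) (nat_lit 51))
 (.p (nat_lit 0x1d540ae902) (nat_lit 0x440815) (nat_lit 4)))
 (.n (.p (nat_lit 0x21d621d421d221d021cc17f506) (nat_lit 0x10000d4604) (nat_lit 52))
 (.p (nat_lit 0x17801760170016e018b046706) (nat_lit 0x1a10408) (nat_lit 26))))
 (.n (.n (.p (nat_lit 0x1c201c1e1c1c1c1a1c18002b1c1707) (nat_lit 0x801) (nat_lit 7))
 (.p (nat_lit 0xd640d620d600d5e0d5c0ca706) (nat_lit 0x8000ca223) (nat_lit 52)))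
 (.n (.p (nat_lit 0x30922d3f02) (nat_lit 0x440309) (nat_lit 4))
 (.p (nat_lit 0x13fe5ee302) (nat_lit 0x4a8866344000500040000) (nat_lit 50)))))
 (.n (.n (.n (.p (nat_lit 0x1bb41bb21bb01bae1baa18fb06) (nat_lit 0x1000016800) (nat_lit 52))
 (.p (nat_lit 0x37a437a237a0379e1bf71bf506) (nat_lit 0x300008a81c) (nat_lit 52)))
 (.n (.p (nat_lit 0x17841782177e177c177a196b06) (nat_lit 0x4000014706) (nat_lit 52))
 (.p (nat_lit 0x5e2a2c1d02) (nat_lit 0x4004c500) (nat_lit 47))))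
 (.n (.n (.p (nat_lit 0x8c708bb02) (nat_lit 0x114103) (nat_lit 16))
 (.p (nat_lit 0x57d657d457d257d057ce57cc044007) (nat_lit 0x4032a) (nat_lit 8)))
 (.n (.p (nat_lit 0x22dc09b302) (nat_lit 0x540a0e) (nat_lit 4))
 (.p (nat_lit 0xe8260f302) (nat_lit 0x440d663a4000300040000) (nat_lit 50))))))

def c512_337 : Tr := .n c1024_337 c1024_849

def c256_81 : Tr := .n c512_81 c512_337

def c1024_209 : Tr :=
 .n (.n (.n (.n (.n (.n (.p (nat_lit 0xcd00cb00c900c704) (nat_lit 0x511100004) (nat_lit 21))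
 (.p (nat_lit 0x13f4615102) (nat_lit 0x2b0221d84000500040000) (nat_lit 49)))
 (.p (nat_lit 0x327632743272326e326c0227327107) (nat_lit 0x240510) (nat_lit 7)))
 (.n (.p (nat_lit 0x13ba1b6302) (nat_lit 0x503) (nat_lit 4))
 (.p (nat_lit 0x490048fe48fc48fa48f6219f06) (nat_lit 0x1000004a2a) (nat_lit 51))))
 (.n (.n (.p (nat_lit 0x1e361e341e321e2c1bc71bc506) (nat_lit 0x300000a900) (nat_lit 52))
 (.p (nat_lit 0x2bae290d02) (nat_lit 0x10091d) (nat_lit 5)))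
 (.n (.p (nat_lit 0xea1f0102) (nat_lit 0x400906) (nat_lit 1))
 (.p (nat_lit 0x5e4a1ad102) (nat_lit 0x80054600) (nat_lit 48)))))
 (.n (.n (.n (.p (nat_lit 0xff60ff20ff00fee0fec0dfd06) (nat_lit 0x8000000400) (nat_lit 52))
 (.p (nat_lit 0x31f62eef02) (nat_lit 0x500517) (nat_lit 4)))
 (.n (.p (nat_lit 0x225822542252224e25d325cd06) (nat_lit 0x90000c8b04) (nat_lit 52))
 (.p (nat_lit 0x2fc02fa02f602f40281038b06) (nat_lit 0x30e41a) (nat_lit 26))))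
 (.n (.n (.p (nat_lit 0x2050177902) (nat_lit 0x540901) (nat_lit 4))
 (.p (nat_lit 0x230022fe22fa22f822f603a722fd07) (nat_lit 0x340a23) (nat_lit 7)))
 (.n (.p (nat_lit 0x3a8c524702) (nat_lit 0x10060a) (nat_lit 29))
 (.p (nat_lit 0x1adc5f5302) (nat_lit 0x1a9d22350000200000600) (nat_lit 49))))))
 (.n (.n (.n (.n (.p (nat_lit 0x8e105c102) (nat_lit 0x216100) (nat_lit 16))
 (.p (nat_lit 0x283540f02) (nat_lit 0x100415) (nat_lit 30)))
 (.n (.p (nat_lit 0xce41df702) (nat_lit 0x140204) (nat_lit 5))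
 (.p (nat_lit 0x50764f5902) (nat_lit 0x100830) (nat_lit 5))))
 (.n (.n (.p (nat_lit 0x2550254e2548254622c122bf06) (nat_lit 0x60000d0b00) (nat_lit 52))
 (.p (nat_lit 0x50624e0902) (nat_lit 0x300822) (nat_lit 4)))
 (.n (.p (nat_lit 0x34b034ae34ac34aa34a61bd106) (nat_lit 0x1000096807) (nat_lit 51))
 (.p (nat_lit 0x5cb721cd02) (nat_lit 0x60000000a00) (nat_lit 39)))))
 (.n (.n (.n (.p (nat_lit 0x176a17681766176216bb16b306) (nat_lit 0x11000052600) (nat_lit 51))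
 (.p (nat_lit 0xd1c0d1a0d180d160d14073506) (nat_lit 0x80004601c) (nat_lit 51)))
 (.n (.p (nat_lit 0x1c2c4a6b02) (nat_lit 0x500805) (nat_lit 29))
 (.p (nat_lit 0x5d6b5ded02) (nat_lit 0x120080000200) (nat_lit 37))))
 (.n (.n (.p (nat_lit 0x32fd205d02) (nat_lit 0x546902) (nat_lit 16))
 (.p (nat_lit 0x4c904c8e4c8a4c88042c0423041d4c8d4c8709) (nat_lit 0x1840129) (nat_lit 10)))
 (.n (.p (nat_lit 0x1234092502) (nat_lit 0x4040e) (nat_lit 4))
 (.p (nat_lit 0x1144604f02) (nat_lit 0x40a962335000400040000) (nat_lit 49))))))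

def c1024_721 : Tr :=
 .n (.n (.n (.n (.n (.n (.p (nat_lit 0x4d904cd02) (nat_lit 0x500000) (nat_lit 34))
 (.p (nat_lit 0xba661cf02) (nat_lit 0x3561684a0800200040000) (nat_lit 49)))
 (.p (nat_lit 0x426c3dcb02) (nat_lit 0x240612) (nat_lit 4)))
 (.n (.p (nat_lit 0xe820e800e7e0e7a0e78246d06) (nat_lit 0x2000086b03) (nat_lit 51))
 (.p (nat_lit 0x1d181d161d141d121d1036d906) (nat_lit 0x1000001622d) (nat_lit 51))))
 (.n (.n (.p (nat_lit 0x21871e8f02) (nat_lit 0x106a00) (nat_lit 16))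
 (.p (nat_lit 0x1e8a1e881e841e821e803d0706) (nat_lit 0x40000d6020) (nat_lit 52)))
 (.n (.p (nat_lit 0x4d604d404d204d004ce0f7306) (nat_lit 0x10000040307) (nat_lit 51))
 (.p (nat_lit 0x5d171ae502) (nat_lit 0x60040000800) (nat_lit 40)))))
 (.n (.n (.n (.p (nat_lit 0x138510c902) (nat_lit 0x302500) (nat_lit 16))
 (.p (nat_lit 0x2ef54d702) (nat_lit 0x500719) (nat_lit 30)))
 (.n (.p (nat_lit 0x13dc20ff02) (nat_lit 0x500505) (nat_lit 4))
 (.p (nat_lit 0x5db63bc302) (nat_lit 0x40050000) (nat_lit 47))))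
 (.n (.n (.p (nat_lit 0xe350b6f02) (nat_lit 0x200202) (nat_lit 15))
 (.p (nat_lit 0x3ad2394102) (nat_lit 0x440626) (nat_lit 5)))
 (.n (.p (nat_lit 0x4f004ee04ea04e804e649cf06) (nat_lit 0x400000470c) (nat_lit 52))
 (.p (nat_lit 0x20805fd102) (nat_lit 0x95a2ec05000400000600) (nat_lit 50))))))
 (.n (.n (.n (.n (.p (nat_lit 0xcb309cd02) (nat_lit 0x4a200) (nat_lit 16))
 (.p (nat_lit 0x287544f02) (nat_lit 0x300715) (nat_lit 30)))
 (.n (.p (nat_lit 0x424b168702) (nat_lit 0x308604) (nat_lit 16))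
 (.p (nat_lit 0x118011601140112000b039b06) (nat_lit 0x2c10306) (nat_lit 26))))
 (.n (.n (.p (nat_lit 0x125429a702) (nat_lit 0x440401) (nat_lit 29))
 (.p (nat_lit 0xb48101f02) (nat_lit 0x100223) (nat_lit 5)))
 (.n (.p (nat_lit 0x50805040502050004fe2be506) (nat_lit 0x8000046908) (nat_lit 52))
 (.p (nat_lit 0xe7c5ec702) (nat_lit 0x4a1a34344000300040000) (nat_lit 50)))))
 (.n (.n (.n (.p (nat_lit 0x1ac9179302) (nat_lit 0x56700) (nat_lit 16))
 (.p (nat_lit 0x1a9517cb02) (nat_lit 0x44061c) (nat_lit 15)))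
 (.n (.p (nat_lit 0x1290128e128c128a1288011d129307) (nat_lit 0x540406) (nat_lit 7))
 (.p (nat_lit 0x5d910feb02) (nat_lit 0x1c00a0000400) (nat_lit 40))))
 (.n (.n (.p (nat_lit 0x345434523450344e344c344a06) (nat_lit 0x84003) (nat_lit 52))
 (.p (nat_lit 0x18141810180e180c180a0cbb06) (nat_lit 0x800004e22a) (nat_lit 52)))
 (.n (.p (nat_lit 0x1d511d4502) (nat_lit 0x24680e) (nat_lit 16))
 (.p (nat_lit 0x13fc60d302) (nat_lit 0x340a623b0000500040000) (nat_lit 50))))))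

def c512_209 : Tr := .n c1024_209 c1024_721

def c1024_465 : Tr :=
 .n (.n (.n (.n (.n (.n (.p (nat_lit 0x2a30293028e03) (nat_lit 0x41800015) (nat_lit 19))
 (.p (nat_lit 0x114c618d02) (nat_lit 0x54c88a970000400040000) (nat_lit 50)))
 (.p (nat_lit 0x3a96360502) (nat_lit 0x611) (nat_lit 4)))
 (.n (.p (nat_lit 0x18c218c018be18bc17f117ef06) (nat_lit 0x180000d2603) (nat_lit 52))
 (.p (nat_lit 0x488048d048b3205318b05) (nat_lit 0x4604012c) (nat_lit 9))))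
 (.n (.n (.p (nat_lit 0x1fcc1fc61fc41fc21d311d2f06) (nat_lit 0xc00004e900) (nat_lit 52))
 (.p (nat_lit 0x1b601b5e1b5c1b5a1b58354906) (nat_lit 0x8000c801f) (nat_lit 52)))
 (.n (.p (nat_lit 0x4cf30b3d02) (nat_lit 0x116207) (nat_lit 16))
 (.p (nat_lit 0x5e5a327f02) (nat_lit 0x60044700) (nat_lit 47)))))
 (.n (.n (.n (.p (nat_lit 0x118c11881186118411820f6506) (nat_lit 0x8000044400) (nat_lit 52))
 (.p (nat_lit 0x2f022f002efe2efc3aad3aa306) (nat_lit 0x10800012618) (nat_lit 52)))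
 (.n (.p (nat_lit 0xb9d0b9102) (nat_lit 0x10c205) (nat_lit 16))
 (.p (nat_lit 0x1425c2302) (nat_lit 0x10012a) (nat_lit 27))))
 (.n (.n (.p (nat_lit 0x23e223de23dc23d82317231106) (nat_lit 0x90000cea01) (nat_lit 52))
 (.p (nat_lit 0x11cc11ca11c811c611c42c0d06) (nat_lit 0x800050924) (nat_lit 52)))
 (.n (.p (nat_lit 0x421a3cc502) (nat_lit 0x30060b) (nat_lit 5))
 (.p (nat_lit 0x1da25f8f02) (nat_lit 0x581a303a4000300000600) (nat_lit 49))))))
 (.n (.n (.n (.n (.p (nat_lit 0xa960a940a920a900a8e0a8c06) (nat_lit 0xa200) (nat_lit 52))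
 (.p (nat_lit 0x19781976197419721970139506) (nat_lit 0x1000008e515) (nat_lit 52)))
 (.n (.p (nat_lit 0x4103127302) (nat_lit 0x142404) (nat_lit 16))
 (.p (nat_lit 0x8c008a00880086000b024106) (nat_lit 0x2c16103) (nat_lit 26))))
 (.n (.n (.p (nat_lit 0x27682766276427622760275e06) (nat_lit 0xc8101) (nat_lit 52))
 (.p (nat_lit 0x88e569b02) (nat_lit 0x300123) (nat_lit 29)))
 (.n (.p (nat_lit 0x433b241702) (nat_lit 0x112b07) (nat_lit 16))
 (.p (nat_lit 0x5c915ead02) (nat_lit 0x2c0000000b00) (nat_lit 37)))))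
 (.n (.n (.n (.p (nat_lit 0x191f162302) (nat_lit 0x104700) (nat_lit 16))
 (.p (nat_lit 0xa880a860a840a820a8009e306) (nat_lit 0x100000c811c) (nat_lit 52)))
 (.n (.p (nat_lit 0x11d4ba702) (nat_lit 0x500106) (nat_lit 30))
 (.p (nat_lit 0x5d530d0f02) (nat_lit 0x2a0080000300) (nat_lit 38))))
 (.n (.n (.p (nat_lit 0x1da81da61da41da21da0232506) (nat_lit 0x10000052a02) (nat_lit 52))
 (.p (nat_lit 0x9fa141902) (nat_lit 0x54012a) (nat_lit 5)))
 (.n (.p (nat_lit 0x68606820680067e067c14d106) (nat_lit 0x80000c650e) (nat_lit 52))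
 (.p (nat_lit 0x1142608f02) (nat_lit 0x356221ca4000400040000) (nat_lit 49))))))

def c1024_977 : Tr :=
 .n (.n (.n (.n (.n (.p (nat_lit 0x6b406b206b006ae064f064d06) (nat_lit 0x180004e000) (nat_lit 51))
 (.p (nat_lit 0x23d623d423d223d023cc4f2306) (nat_lit 0x100004e414) (nat_lit 52)))
 (.n (.p (nat_lit 0x61a1dc302) (nat_lit 0x500004) (nat_lit 4))
 (.p (nat_lit 0x42f241e902) (nat_lit 0x30072e) (nat_lit 5))))
 (.n (.n (.p (nat_lit 0x215e233d02) (nat_lit 0x500b00) (nat_lit 4))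
 (.p (nat_lit 0x2138213621342132213044a706) (nat_lit 0x100000ce021) (nat_lit 51)))
 (.n (.p (nat_lit 0x1230122c122a1228016a014b01471233122f09) (nat_lit 0x2b40407) (nat_lit 10))
 (.p (nat_lit 0x5e7e3e7f02) (nat_lit 0xa900) (nat_lit 48)))))
 (.n (.n (.n (.p (nat_lit 0x1578157615741570156e155106) (nat_lit 0x2000082600) (nat_lit 52))
 (.p (nat_lit 0x24062404240023fe23fc4f6506) (nat_lit 0x400001251b) (nat_lit 51)))
 (.n (.p (nat_lit 0xbae0bac0baa0ba80ba6196306) (nat_lit 0x10000084705) (nat_lit 52))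
 (.p (nat_lit 0x5dd049db02) (nat_lit 0x60014100) (nat_lit 47))))
 (.n (.n (.p (nat_lit 0x13b618a102) (nat_lit 0x400502) (nat_lit 5))
 (.p (nat_lit 0x3ec431902) (nat_lit 0x40727) (nat_lit 1)))
 (.n (.p (nat_lit 0xe1407b502) (nat_lit 0x40030e) (nat_lit 4))
 (.p (nat_lit 0x2346601102) (nat_lit 0x405aa0b95000500000600) (nat_lit 50))))))
 (.n (.n (.n (.n (.p (nat_lit 0xe690b3702) (nat_lit 0x416300) (nat_lit 16))
 (.p (nat_lit 0x462c4628462646244622218106) (nat_lit 0x8000080a15) (nat_lit 52)))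
 (.n (.p (nat_lit 0x42bf194f02) (nat_lit 0x102704) (nat_lit 16))
 (.p (nat_lit 0x1f001ee01e801e60229000506) (nat_lit 0x1a0e40e) (nat_lit 26))))
 (.n (.n (.p (nat_lit 0x1d802b4302) (nat_lit 0x240801) (nat_lit 29))
 (.p (nat_lit 0x1a9856dd02) (nat_lit 0x40723) (nat_lit 29)))
 (.n (.p (nat_lit 0x33762cd302) (nat_lit 0x40a09) (nat_lit 5))
 (.p (nat_lit 0x1da65f1102) (nat_lit 0x3a2270350000300000600) (nat_lit 49)))))
 (.n (.n (.n (.p (nat_lit 0x1c741c721c701c6e1a5f1a5d06) (nat_lit 0x1800042800) (nat_lit 52))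
 (.p (nat_lit 0x20280f2702) (nat_lit 0x34091c) (nat_lit 5)))
 (.n (.p (nat_lit 0x8fe08fc08fa08f808f41c3106) (nat_lit 0x1000082806) (nat_lit 51))
 (.p (nat_lit 0x5e344a5f02) (nat_lit 0xa0054500) (nat_lit 48))))
 (.n (.n (.p (nat_lit 0xcde1b2f02) (nat_lit 0x440203) (nat_lit 5))
 (.p (nat_lit 0x17e057eb02) (nat_lit 0x34062a) (nat_lit 29)))
 (.n (.p (nat_lit 0x2a0a26ef02) (nat_lit 0x14040f) (nat_lit 5))
 (.p (nat_lit 0x648611702) (nat_lit 0x3562621b0000000040000) (nat_lit 50))))))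

def c512_465 : Tr := .n c1024_465 c1024_977

def c256_209 : Tr := .n c512_209 c512_465

def c128_81 : Tr := .n c256_81 c256_209

def c64_17 : Tr := .n c128_17 c128_81

def c1024_49 : Tr :=
 .n (.n (.n (.n (.n (.n (.p (nat_lit 0x34002c003903) (nat_lit 0x11000500001) (nat_lit 17))
 (.p (nat_lit 0x13ee612d02) (nat_lit 0x45486a3a4000500040000) (nat_lit 49)))
 (.p (nat_lit 0x2b96271302) (nat_lit 0x10090f) (nat_lit 4)))
 (.n (.p (nat_lit 0x8f37f102) (nat_lit 0x440303) (nat_lit 30))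
 (.p (nat_lit 0x43251aa702) (nat_lit 0x15272a) (nat_lit 16))))
 (.n (.n (.p (nat_lit 0x1d0e1d081d061d041a651a6306) (nat_lit 0xc0000d4800) (nat_lit 51))
 (.p (nat_lit 0x22f20dd902) (nat_lit 0x440a1c) (nat_lit 4)))
 (.n (.p (nat_lit 0x1d98508502) (nat_lit 0x240806) (nat_lit 29))
 (.p (nat_lit 0x5cd1153702) (nat_lit 0x1c0020000600) (nat_lit 38)))))
 (.n (.n (.n (.p (nat_lit 0xec80ec60ec40ec20c990c8f06) (nat_lit 0x108000ca300) (nat_lit 51))
 (.p (nat_lit 0x25880c8902) (nat_lit 0x340b15) (nat_lit 4)))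
 (.n (.p (nat_lit 0x43171ab902) (nat_lit 0x444704) (nat_lit 16))
 (.p (nat_lit 0x1845ac902) (nat_lit 0x510) (nat_lit 27))))
 (.n (.n (.p (nat_lit 0x1ee415f502) (nat_lit 0x200901) (nat_lit 4))
 (.p (nat_lit 0x1d6811d302) (nat_lit 0x240823) (nat_lit 4)))
 (.n (.p (nat_lit 0x374634db02) (nat_lit 0x24020a) (nat_lit 5))
 (.p (nat_lit 0x11425f2102) (nat_lit 0x3a2570344000400040000) (nat_lit 49))))))
 (.n (.n (.n (.n (.p (nat_lit 0x1e805bf02) (nat_lit 0x100100) (nat_lit 1))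
 (.p (nat_lit 0x53fe53fc53fa53f853f653f4028c07) (nat_lit 0x15) (nat_lit 8)))
 (.n (.p (nat_lit 0x8c81f3902) (nat_lit 0x200104) (nat_lit 4))
 (.p (nat_lit 0x468e490502) (nat_lit 0x14022f) (nat_lit 4))))
 (.n (.n (.p (nat_lit 0x2410240e240a2408215f215906) (nat_lit 0x12000092b00) (nat_lit 51))
 (.p (nat_lit 0x30e4a4502) (nat_lit 0x440721) (nat_lit 1)))
 (.n (.p (nat_lit 0x17a606a902) (nat_lit 0x440607) (nat_lit 5))
 (.p (nat_lit 0x5cf55e8702) (nat_lit 0x280040000900) (nat_lit 36)))))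
 (.n (.n (.n (.p (nat_lit 0x163d155102) (nat_lit 0x202600) (nat_lit 16))
 (.p (nat_lit 0x314031f03330e8f0d2905) (nat_lit 0x81d0001c) (nat_lit 9)))
 (.n (.p (nat_lit 0x1ac44a1702) (nat_lit 0x440705) (nat_lit 29))
 (.p (nat_lit 0x5c9d0a4502) (nat_lit 0x200000000200) (nat_lit 38))))
 (.n (.n (.p (nat_lit 0x5f328b02) (nat_lit 0x300902) (nat_lit 30))
 (.p (nat_lit 0xec459102) (nat_lit 0x540128) (nat_lit 1)))
 (.n (.p (nat_lit 0xbd40bd20bce0bcc0bca0f7b06) (nat_lit 0x40000c030e) (nat_lit 52))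
 (.p (nat_lit 0x1144602702) (nat_lit 0x406a62335000400040000) (nat_lit 49))))))

def c1024_561 : Tr :=
 .n (.n (.n (.n (.n (.n (.p (nat_lit 0x36c0362037103) (nat_lit 0x10800500020) (nat_lit 17))
 (.p (nat_lit 0x1daa61a702) (nat_lit 0x3421a9c14800300000600) (nat_lit 49)))
 (.p (nat_lit 0x9be09ba09b809b609b43bd306) (nat_lit 0x8000056b11) (nat_lit 52)))
 (.n (.p (nat_lit 0x1fca1fc81fc41fc221cb21c506) (nat_lit 0x1200000ea03) (nat_lit 52))
 (.p (nat_lit 0x3a203a1e3a1c3a1a3a1832c306) (nat_lit 0x400008292c) (nat_lit 51))))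
 (.n (.n (.p (nat_lit 0xe21e8d02) (nat_lit 0xa00) (nat_lit 1))
 (.p (nat_lit 0x3b08383102) (nat_lit 0x100a1f) (nat_lit 5)))
 (.n (.p (nat_lit 0xe02050102) (nat_lit 0x100307) (nat_lit 4))
 (.p (nat_lit 0x5d99198702) (nat_lit 0x1400a0000700) (nat_lit 41)))))
 (.n (.n (.n (.p (nat_lit 0x12810f6102) (nat_lit 0x254400) (nat_lit 16))
 (.p (nat_lit 0x40963eb302) (nat_lit 0x500419) (nat_lit 5)))
 (.n (.p (nat_lit 0x11230e5502) (nat_lit 0x305) (nat_lit 15))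
 (.p (nat_lit 0x1a05c7702) (nat_lit 0x40012d) (nat_lit 27))))
 (.n (.n (.p (nat_lit 0x612d1102) (nat_lit 0x440002) (nat_lit 30))
 (.p (nat_lit 0x3358315b02) (nat_lit 0x300a25) (nat_lit 5)))
 (.n (.p (nat_lit 0x43403ce902) (nat_lit 0x400b0b) (nat_lit 4))
 (.p (nat_lit 0x1ade5fa302) (nat_lit 0x589832b44000200000600) (nat_lit 49))))))
 (.n (.n (.n (.n (.p (nat_lit 0xb87087502) (nat_lit 0x212200) (nat_lit 16))
 (.p (nat_lit 0xfde0fdc0fd80fd60fd414db06) (nat_lit 0x4000048515) (nat_lit 52)))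
 (.n (.p (nat_lit 0xbd41a702) (nat_lit 0x440504) (nat_lit 30))
 (.p (nat_lit 0xbe00bc00b800b4000304a906) (nat_lit 0xb0c504) (nat_lit 26))))
 (.n (.n (.p (nat_lit 0xcc8170102) (nat_lit 0x540201) (nat_lit 5))
 (.p (nat_lit 0x89d089102) (nat_lit 0x400123) (nat_lit 16)))
 (.n (.p (nat_lit 0x28d0266702) (nat_lit 0x300308) (nat_lit 5))
 (.p (nat_lit 0x5d39248702) (nat_lit 0x140060000b00) (nat_lit 39)))))
 (.n (.n (.n (.p (nat_lit 0x19cc19ca19c819c619c2179506) (nat_lit 0x10000c4700) (nat_lit 51))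
 (.p (nat_lit 0x106e106c10681066139d139706) (nat_lit 0x480001051c) (nat_lit 51)))
 (.n (.p (nat_lit 0xe650b9f02) (nat_lit 0x200206) (nat_lit 15))
 (.p (nat_lit 0x5cd55e1102) (nat_lit 0x180020000400) (nat_lit 37))))
 (.n (.n (.p (nat_lit 0x15821580157e157c2467245d06) (nat_lit 0x10800004b02) (nat_lit 52))
 (.p (nat_lit 0xa5a0a580a560a520b570b5306) (nat_lit 0x280000422a) (nat_lit 51)))
 (.n (.p (nat_lit 0x1eb530902) (nat_lit 0x20070e) (nat_lit 30))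
 (.p (nat_lit 0xbb660a502) (nat_lit 0x346068ca4000200040000) (nat_lit 50))))))

def c512_49 : Tr := .n c1024_49 c1024_561

def c1024_305 : Tr :=
 .n (.n (.n (.n (.n (.n (.p (nat_lit 0x12f012d0125012204) (nat_lit 0x2d000006) (nat_lit 20))
 (.p (nat_lit 0x21ce616502) (nat_lit 0x340c62b84000400040600) (nat_lit 49)))
 (.p (nat_lit 0x33d62e1102) (nat_lit 0xb10) (nat_lit 5)))
 (.n (.p (nat_lit 0x873a7f02) (nat_lit 0x603) (nat_lit 30))
 (.p (nat_lit 0x16e274102) (nat_lit 0x12b) (nat_lit 1))))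
 (.n (.n (.p (nat_lit 0x1ead1bcb02) (nat_lit 0x402900) (nat_lit 16))
 (.p (nat_lit 0x2e28304702) (nat_lit 0x10011e) (nat_lit 4)))
 (.n (.p (nat_lit 0xec206902) (nat_lit 0x540906) (nat_lit 1))
 (.p (nat_lit 0x5e50197d02) (nat_lit 0x40700) (nat_lit 46)))))
 (.n (.n (.n (.p (nat_lit 0x10761074107210700dff0dfd06) (nat_lit 0x18000090400) (nat_lit 51))
 (.p (nat_lit 0x3398339633943392338e02bf339107) (nat_lit 0x140a17) (nat_lit 7)))
 (.n (.p (nat_lit 0x4413062102) (nat_lit 0x206005) (nat_lit 16))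
 (.p (nat_lit 0x36a036803660362040500b706) (nat_lit 0x290a020) (nat_lit 26))))
 (.n (.n (.p (nat_lit 0x2315204d02) (nat_lit 0x340901) (nat_lit 15))
 (.p (nat_lit 0x25a2121902) (nat_lit 0x440b23) (nat_lit 5)))
 (.n (.p (nat_lit 0x3b793b6d02) (nat_lit 0x104b0a) (nat_lit 16))
 (.p (nat_lit 0x13fc5f6302) (nat_lit 0x3aa074b44000500040000) (nat_lit 50))))))
 (.n (.n (.n (.n (.p (nat_lit 0x95e0958095609540725072306) (nat_lit 0xc0000cc100) (nat_lit 52))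
 (.p (nat_lit 0x1244541d02) (nat_lit 0x240415) (nat_lit 29)))
 (.n (.p (nat_lit 0x3f703f6e3f6c3f6a3f680e4906) (nat_lit 0x80008c304) (nat_lit 51))
 (.p (nat_lit 0x3400320030002e0003046306) (nat_lit 0x812501) (nat_lit 26))))
 (.n (.n (.p (nat_lit 0x2b25d702) (nat_lit 0x1) (nat_lit 30))
 (.p (nat_lit 0x5e80ff502) (nat_lit 0x400023) (nat_lit 4)))
 (.n (.p (nat_lit 0x14351ab02) (nat_lit 0x140907) (nat_lit 30))
 (.p (nat_lit 0x5e98494d02) (nat_lit 0x20044a00) (nat_lit 48)))))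
 (.n (.n (.n (.p (nat_lit 0x1620180b02) (nat_lit 0x700) (nat_lit 4))
 (.p (nat_lit 0x3d09073d02) (nat_lit 0x45201c) (nat_lit 16)))
 (.n (.p (nat_lit 0x1d901d8e1d8a1d88010a00ed00e71d931d8d09) (nat_lit 0x2a40805) (nat_lit 10))
 (.p (nat_lit 0x5df610e702) (nat_lit 0x2300) (nat_lit 47))))
 (.n (.n (.p (nat_lit 0x19841980197e197c21bf21bb06) (nat_lit 0x1400008ea02) (nat_lit 51))
 (.p (nat_lit 0x50c24e9102) (nat_lit 0x340829) (nat_lit 5)))
 (.n (.p (nat_lit 0x2496249424922490248e123506) (nat_lit 0x8000d640e) (nat_lit 51))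
 (.p (nat_lit 0x129c606702) (nat_lit 0x5898b0b44000500000000) (nat_lit 49))))))

def c1024_817 : Tr :=
 .n (.n (.n (.n (.n (.n (.p (nat_lit 0x572056e056a056804e304df06) (nat_lit 0xa000090000) (nat_lit 52))
 (.p (nat_lit 0x181e61e502) (nat_lit 0x14e0a8c74000100000600) (nat_lit 50)))
 (.p (nat_lit 0xe8485102) (nat_lit 0x340413) (nat_lit 1)))
 (.n (.p (nat_lit 0x247f247302) (nat_lit 0x514b03) (nat_lit 16))
 (.p (nat_lit 0x3bfa39d302) (nat_lit 0x40b2d) (nat_lit 4))))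
 (.n (.n (.p (nat_lit 0x222a2226222222201ffb1ff706) (nat_lit 0xa0000c4a00) (nat_lit 52))
 (.p (nat_lit 0xeca0ec60ec40ec20ec0424106) (nat_lit 0x800008a620) (nat_lit 51)))
 (.n (.p (nat_lit 0x29230f6902) (nat_lit 0x4c307) (nat_lit 16))
 (.p (nat_lit 0x5d771ae902) (nat_lit 0x60080000800) (nat_lit 40)))))
 (.n (.n (.n (.p (nat_lit 0x142414221420141c141a122106) (nat_lit 0x2000044500) (nat_lit 51))
 (.p (nat_lit 0xec48c702) (nat_lit 0x50051a) (nat_lit 1)))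
 (.n (.p (nat_lit 0x1696211702) (nat_lit 0x500605) (nat_lit 4))
 (.p (nat_lit 0x5d7f064b02) (nat_lit 0x2e00a0000000) (nat_lit 41))))
 (.n (.n (.p (nat_lit 0x2fd22fd02fcc2fc80e370e3306) (nat_lit 0x5000080302) (nat_lit 51))
 (.p (nat_lit 0x3c033bf702) (nat_lit 0x440b26) (nat_lit 16)))
 (.n (.p (nat_lit 0x4e224b4d02) (nat_lit 0x44030d) (nat_lit 4))
 (.p (nat_lit 0x6385fe902) (nat_lit 0x306a81d31000000040000) (nat_lit 49))))))
 (.n (.n (.n (.n (.p (nat_lit 0xd340d320d2e0d2c0d2a0b3506) (nat_lit 0x4000080300) (nat_lit 51))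
 (.p (nat_lit 0x1bee0add02) (nat_lit 0x400815) (nat_lit 4)))
 (.n (.p (nat_lit 0x16ae16ac16a816a616a417f906) (nat_lit 0x40000cc604) (nat_lit 51))
 (.p (nat_lit 0x1885a0b02) (nat_lit 0x200707) (nat_lit 27))))
 (.n (.n (.p (nat_lit 0x14f615d702) (nat_lit 0x540501) (nat_lit 5))
 (.p (nat_lit 0xcb0103302) (nat_lit 0x540223) (nat_lit 5)))
 (.n (.p (nat_lit 0x18ba18b818b418b218b0301106) (nat_lit 0x4000012309) (nat_lit 52))
 (.p (nat_lit 0x181c5edf02) (nat_lit 0x4a9d22344000100000600) (nat_lit 50)))))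
 (.n (.n (.n (.p (nat_lit 0x1b801b7e1b7c1b7a1903190106) (nat_lit 0x1800000c800) (nat_lit 51))
 (.p (nat_lit 0x1bfc1bfa1bf81bf61bf403071bf307) (nat_lit 0x81c) (nat_lit 7)))
 (.n (.p (nat_lit 0x196e196a196819661964011b196d07) (nat_lit 0x400706) (nat_lit 7))
 (.p (nat_lit 0x5d1b13ef02) (nat_lit 0x20040000500) (nat_lit 39))))
 (.n (.n (.p (nat_lit 0x8c01c7302) (nat_lit 0x400103) (nat_lit 4))
 (.p (nat_lit 0x116811621160115e0e210e1f06) (nat_lit 0xc00008032a) (nat_lit 51)))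
 (.n (.p (nat_lit 0x454445424540453e453c216d06) (nat_lit 0x800008a0e) (nat_lit 51))
 (.p (nat_lit 0x114660ed02) (nat_lit 0x340d6a3a4000400040000) (nat_lit 50))))))

def c512_305 : Tr := .n c1024_305 c1024_817

def c256_49 : Tr := .n c512_49 c512_305

def c1024_177 : Tr :=
 .n (.n (.n (.n (.n (.n (.p (nat_lit 0xb100a900a1009604) (nat_lit 0xac800003) (nat_lit 20))
 (.p (nat_lit 0x8f0614d02) (nat_lit 0x3b0221d85000100040000) (nat_lit 49)))
 (.p (nat_lit 0x317c2ddf02) (nat_lit 0x540410) (nat_lit 5)))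
 (.n (.p (nat_lit 0x3918391639143912390e126706) (nat_lit 0x1000042403) (nat_lit 51))
 (.p (nat_lit 0x5836583458325830582e582c044007) (nat_lit 0xa2a) (nat_lit 8))))
 (.n (.n (.p (nat_lit 0x1de61de41de21ddc1bc71bc506) (nat_lit 0x3000082900) (nat_lit 51))
 (.p (nat_lit 0x4b8726bf02) (nat_lit 0x15401d) (nat_lit 16)))
 (.n (.p (nat_lit 0x50ad1d9d02) (nat_lit 0x444806) (nat_lit 16))
 (.p (nat_lit 0x5d7b5e4902) (nat_lit 0x20080000600) (nat_lit 37)))))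
 (.n (.n (.n (.p (nat_lit 0xdf80fd902) (nat_lit 0x200400) (nat_lit 4))
 (.p (nat_lit 0x2c3c285d02) (nat_lit 0xa16) (nat_lit 5)))
 (.n (.p (nat_lit 0xc200d900d11fed1e8705) (nat_lit 0x88b40b04) (nat_lit 9))
 (.p (nat_lit 0x2e55b4702) (nat_lit 0x19) (nat_lit 28))))
 (.n (.n (.p (nat_lit 0x1ef51ee902) (nat_lit 0x410901) (nat_lit 16))
 (.p (nat_lit 0x219a219821942192219003a7219707) (nat_lit 0x300a23) (nat_lit 7)))
 (.n (.p (nat_lit 0x396a350902) (nat_lit 0x24040a) (nat_lit 4))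
 (.p (nat_lit 0x13f45f4102) (nat_lit 0x3a2260b50000500040000) (nat_lit 49))))))
 (.n (.n (.n (.n (.p (nat_lit 0x89b05c302) (nat_lit 0x30a100) (nat_lit 16))
 (.p (nat_lit 0x93a0936093409300731072b06) (nat_lit 0x900004a015) (nat_lit 52)))
 (.n (.p (nat_lit 0x3e2a3e283e263e243e220b8306) (nat_lit 0x80000a204) (nat_lit 52))
 (.p (nat_lit 0x4cfc4f7302) (nat_lit 0x230) (nat_lit 5))))
 (.n (.n (.p (nat_lit 0x2520251e2518251622c122bf06) (nat_lit 0x60000cab00) (nat_lit 52))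
 (.p (nat_lit 0x4e664e644e624e604e5e4fc306) (nat_lit 0x100000c2522) (nat_lit 51)))
 (.n (.p (nat_lit 0x14e0157015b06c3056105) (nat_lit 0x80a00807) (nat_lit 9))
 (.p (nat_lit 0x5d955e9302) (nat_lit 0x1800a0000900) (nat_lit 37)))))
 (.n (.n (.n (.p (nat_lit 0x17541752174c174a16b716b506) (nat_lit 0x6000050600) (nat_lit 51))
 (.p (nat_lit 0x7380d2f02) (nat_lit 0x24001c) (nat_lit 5)))
 (.n (.p (nat_lit 0x1c22213d02) (nat_lit 0x805) (nat_lit 5))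
 (.p (nat_lit 0x5d390a5702) (nat_lit 0x140060000200) (nat_lit 40))))
 (.n (.n (.p (nat_lit 0x1cf61cf21cf01cec205b205506) (nat_lit 0x90000cc902) (nat_lit 52))
 (.p (nat_lit 0x4c164c124c104c0c042e0425041f4c154c0f09) (nat_lit 0x2100129) (nat_lit 10)))
 (.n (.p (nat_lit 0x21d621d221d021ce21cc10e306) (nat_lit 0x800009440e) (nat_lit 52))
 (.p (nat_lit 0x646604902) (nat_lit 0x406a6254c800000040000) (nat_lit 50))))))

def c1024_689 : Tr :=
 .n (.n (.n (.n (.n (.n (.p (nat_lit 0x14004db02) (nat_lit 0x0) (nat_lit 1))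
 (.p (nat_lit 0x207661c502) (nat_lit 0x3421684a0800400000600) (nat_lit 50)))
 (.p (nat_lit 0x42223dbd02) (nat_lit 0x100612) (nat_lit 4)))
 (.n (.p (nat_lit 0x24723b6902) (nat_lit 0x500b03) (nat_lit 29))
 (.p (nat_lit 0x36ce3a2302) (nat_lit 0x22d) (nat_lit 5))))
 (.n (.n (.p (nat_lit 0x21522150214c214a1e931e8d06) (nat_lit 0x4800090a00) (nat_lit 51))
 (.p (nat_lit 0x1fd81fd41fd21fd01fce3c6706) (nat_lit 0x800008e020) (nat_lit 52)))
 (.n (.p (nat_lit 0x3f990e0902) (nat_lit 0x412307) (nat_lit 16))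
 (.p (nat_lit 0x5ccd5e6b02) (nat_lit 0x200020000800) (nat_lit 36)))))
 (.n (.n (.n (.p (nat_lit 0x13121310130e130c10cd10cb06) (nat_lit 0x1800000e500) (nat_lit 52))
 (.p (nat_lit 0xa7e0a7c0a7a0a760a74427906) (nat_lit 0x2000048619) (nat_lit 52)))
 (.n (.p (nat_lit 0x4830482e482c482a4828127d06) (nat_lit 0x80004c405) (nat_lit 51))
 (.p (nat_lit 0x5db2089702) (nat_lit 0x20008000) (nat_lit 47))))
 (.n (.n (.p (nat_lit 0xa150a0902) (nat_lit 0x52102) (nat_lit 16))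
 (.p (nat_lit 0x36c8575b02) (nat_lit 0x300226) (nat_lit 29)))
 (.n (.p (nat_lit 0x496e446902) (nat_lit 0x60c) (nat_lit 5))
 (.p (nat_lit 0x15425fcd02) (nat_lit 0x95832b05000000000600) (nat_lit 50))))))
 (.n (.n (.n (.n (.p (nat_lit 0xc5e0c580c560c5409d509d306) (nat_lit 0xc0000d2200) (nat_lit 51))
 (.p (nat_lit 0x17be0ab902) (nat_lit 0x440615) (nat_lit 5)))
 (.n (.p (nat_lit 0x1f161f141f121f10168b168906) (nat_lit 0x18000092604) (nat_lit 51))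
 (.p (nat_lit 0xeb59bf02) (nat_lit 0x400805) (nat_lit 28))))
 (.n (.n (.p (nat_lit 0x13a310f302) (nat_lit 0x401) (nat_lit 15))
 (.p (nat_lit 0xcb109ef02) (nat_lit 0x540123) (nat_lit 15)))
 (.n (.p (nat_lit 0x2b9226a302) (nat_lit 0x500908) (nat_lit 4))
 (.p (nat_lit 0x5ec24ea102) (nat_lit 0xa0002b00) (nat_lit 48)))))
 (.n (.n (.n (.p (nat_lit 0x1a81179302) (nat_lit 0x44700) (nat_lit 16))
 (.p (nat_lit 0x28b028ae28aa28a8165b165506) (nat_lit 0x1200001261c) (nat_lit 52)))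
 (.n (.p (nat_lit 0x13e1113102) (nat_lit 0x100406) (nat_lit 15))
 (.p (nat_lit 0x5d4f114302) (nat_lit 0x2e0080000400) (nat_lit 39))))
 (.n (.n (.p (nat_lit 0x1790178e178a1788178625b906) (nat_lit 0x40000d4b02) (nat_lit 52))
 (.p (nat_lit 0xa4c0a4a0a480a460a440cbd06) (nat_lit 0x1000004422a) (nat_lit 52)))
 (.n (.p (nat_lit 0x1eb532d02) (nat_lit 0x24080e) (nat_lit 30))
 (.p (nat_lit 0x8fa60cf02) (nat_lit 0x35056a3a4000100040000) (nat_lit 50))))))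

def c512_177 : Tr := .n c1024_177 c1024_689

def c1024_433 : Tr :=
 .n (.n (.n (.n (.n (.n (.p (nat_lit 0x26c027702) (nat_lit 0x2000600014) (nat_lit 17))
 (.p (nat_lit 0x1810618702) (nat_lit 0x54c88a970000100000600) (nat_lit 49)))
 (.p (nat_lit 0x1b021afe1afc1afa1af8397b06) (nat_lit 0x80000c0411) (nat_lit 51)))
 (.n (.p (nat_lit 0x17f017ec17ea17e8009e008f008717ef17e709) (nat_lit 0x2040603) (nat_lit 10))
 (.p (nat_lit 0x1418141614121410140e2bcb06) (nat_lit 0x400008292b) (nat_lit 51))))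
 (.n (.n (.p (nat_lit 0x1fb41fb21fae1fac1d2f1d2906) (nat_lit 0x480004c900) (nat_lit 51))
 (.p (nat_lit 0x1cea1ce81ce61ce41ce034c106) (nat_lit 0x100000c01f) (nat_lit 52)))
 (.n (.p (nat_lit 0x81e081c081a081808140b3d06) (nat_lit 0x1000010207) (nat_lit 52))
 (.p (nat_lit 0x5d315e5d02) (nat_lit 0x1c0060000700) (nat_lit 36)))))
 (.n (.n (.n (.p (nat_lit 0x1168116611641162115e0f5f06) (nat_lit 0x10000c0400) (nat_lit 51))
 (.p (nat_lit 0x3a6c368702) (nat_lit 0x340518) (nat_lit 5)))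
 (.n (.p (nat_lit 0xb9045a102) (nat_lit 0x100205) (nat_lit 29))
 (.p (nat_lit 0x3e85c0102) (nat_lit 0x500824) (nat_lit 27))))
 (.n (.n (.p (nat_lit 0x312c5502) (nat_lit 0x340a01) (nat_lit 30))
 (.p (nat_lit 0x2bb8297502) (nat_lit 0x924) (nat_lit 5)))
 (.n (.p (nat_lit 0x1fcc1fca1fc61fc41fc2401506) (nat_lit 0x400004e30b) (nat_lit 52))
 (.p (nat_lit 0x6425f8502) (nat_lit 0x581a32b44000000040000) (nat_lit 50))))))
 (.n (.n (.n (.n (.p (nat_lit 0xa720a700a6e0a6c0a6a087106) (nat_lit 0x800080200) (nat_lit 51))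
 (.p (nat_lit 0xe820e800e7e0e7c0e7a138b06) (nat_lit 0x800086515) (nat_lit 51)))
 (.n (.p (nat_lit 0xbb409f02) (nat_lit 0x340404) (nat_lit 30))
 (.p (nat_lit 0x89591102) (nat_lit 0x100003) (nat_lit 28))))
 (.n (.n (.p (nat_lit 0x27522750274e274c274a2748003607) (nat_lit 0x40101) (nat_lit 8))
 (.p (nat_lit 0x132a1328132613241322074b06) (nat_lit 0x10000050023) (nat_lit 51)))
 (.n (.p (nat_lit 0x241a05ab02) (nat_lit 0x300b07) (nat_lit 5))
 (.p (nat_lit 0x5d8f5eab02) (nat_lit 0x1e00a0000a00) (nat_lit 37)))))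
 (.n (.n (.n (.p (nat_lit 0x18e818e618e218e0162b162506) (nat_lit 0x12000016700) (nat_lit 51))
 (.p (nat_lit 0x28609df02) (nat_lit 0x34011c) (nat_lit 1)))
 (.n (.p (nat_lit 0x4b8b078f02) (nat_lit 0x346006) (nat_lit 16))
 (.p (nat_lit 0x5d7b0d0f02) (nat_lit 0x20080000300) (nat_lit 38))))
 (.n (.n (.p (nat_lit 0x154a1546154415421540232306) (nat_lit 0x800004ca02) (nat_lit 51))
 (.p (nat_lit 0x9f0140f02) (nat_lit 0x4012a) (nat_lit 5)))
 (.n (.p (nat_lit 0x14d2094702) (nat_lit 0x54050e) (nat_lit 4))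
 (.p (nat_lit 0x634608b02) (nat_lit 0x354221ca4000000040000) (nat_lit 49))))))

def c1024_945 : Tr :=
 .n (.n (.n (.n (.n (.p (nat_lit 0x68606840680067c0653064f06) (nat_lit 0x50000c6000) (nat_lit 52))
 (.p (nat_lit 0x4e9c4c4902) (nat_lit 0x300414) (nat_lit 5)))
 (.n (.p (nat_lit 0x3bf925c902) (nat_lit 0x548b03) (nat_lit 16))
 (.p (nat_lit 0x1430142c142a14281426425906) (nat_lit 0x800008462e) (nat_lit 52))))
 (.n (.n (.p (nat_lit 0x23191ffd02) (nat_lit 0x54ca00) (nat_lit 16))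
 (.p (nat_lit 0x212e212c212a21282126440f06) (nat_lit 0x80000e021) (nat_lit 52)))
 (.n (.p (nat_lit 0x438122d02) (nat_lit 0x240407) (nat_lit 1))
 (.p (nat_lit 0x5e7a1c4502) (nat_lit 0xa0040800) (nat_lit 45)))))
 (.n (.n (.n (.p (nat_lit 0x1531122502) (nat_lit 0x456500) (nat_lit 16))
 (.p (nat_lit 0x4eaa4d0f02) (nat_lit 0x40041b) (nat_lit 5)))
 (.n (.p (nat_lit 0x19621960195e195a195800e7195d07) (nat_lit 0x200705) (nat_lit 7))
 (.p (nat_lit 0x5d39079b02) (nat_lit 0x140060000100) (nat_lit 38))))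
 (.n (.n (.p (nat_lit 0x313c313a313831363132125b06) (nat_lit 0x10000c4402) (nat_lit 52))
 (.p (nat_lit 0x429240cf02) (nat_lit 0x340627) (nat_lit 5)))
 (.n (.p (nat_lit 0x512a4b8102) (nat_lit 0x34090d) (nat_lit 4))
 (.p (nat_lit 0x1536600d02) (nat_lit 0x405aa0b54800000000600) (nat_lit 49))))))
 (.n (.n (.n (.n (.p (nat_lit 0xe290b3302) (nat_lit 0x20c300) (nat_lit 16))
 (.p (nat_lit 0x2f4217b02) (nat_lit 0x100a15) (nat_lit 1)))
 (.n (.p (nat_lit 0x1cd01ccc1cca1cc81957195306) (nat_lit 0x1400000a704) (nat_lit 51))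
 (.p (nat_lit 0x4be5a6b02) (nat_lit 0x40040d) (nat_lit 27))))
 (.n (.n (.p (nat_lit 0x1eeb1c2102) (nat_lit 0x500801) (nat_lit 15))
 (.p (nat_lit 0x1a9f17d502) (nat_lit 0x340623) (nat_lit 15)))
 (.n (.p (nat_lit 0x33262ccb02) (nat_lit 0x200a09) (nat_lit 5))
 (.p (nat_lit 0x2493248b21d921d51f151f0b1c511c3b1983197516ad16995f080d) (nat_lit 0x3a2274350000000040600) (nat_lit 33)))))
 (.n (.n (.n (.p (nat_lit 0x8c1a6302) (nat_lit 0x340800) (nat_lit 1))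
 (.p (nat_lit 0x1ec6557302) (nat_lit 0x50091c) (nat_lit 29)))
 (.n (.p (nat_lit 0x1c2e253b02) (nat_lit 0x806) (nat_lit 5))
 (.p (nat_lit 0x5da9129f02) (nat_lit 0x400a0000500) (nat_lit 38))))
 (.n (.n (.p (nat_lit 0xb7e365f02) (nat_lit 0x400203) (nat_lit 29))
 (.p (nat_lit 0x167257e302) (nat_lit 0x50062a) (nat_lit 29)))
 (.n (.p (nat_lit 0x258b257f02) (nat_lit 0x446b0e) (nat_lit 16))
 (.p (nat_lit 0x13fc610f02) (nat_lit 0x3425299b0000500040000) (nat_lit 50))))))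

def c512_433 : Tr := .n c1024_433 c1024_945

def c256_177 : Tr := .n c512_177 c512_433

def c128_49 : Tr := .n c256_49 c256_177

def c1024_113 : Tr :=
 .n (.n (.n (.n (.n (.n (.p (nat_lit 0x730071006d006804) (nat_lit 0x16200002) (nat_lit 20))
 (.p (nat_lit 0x642613d02) (nat_lit 0x342a21d84000000040000) (nat_lit 50)))
 (.p (nat_lit 0x4bc84bc64bc24bc04bbe2c3706) (nat_lit 0x4000088a0f) (nat_lit 51)))
 (.n (.p (nat_lit 0x91388102) (nat_lit 0x500403) (nat_lit 30))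
 (.p (nat_lit 0x1ed6581702) (nat_lit 0x10092a) (nat_lit 29))))
 (.n (.n (.p (nat_lit 0x1d6f1a6702) (nat_lit 0x548800) (nat_lit 16))
 (.p (nat_lit 0x244d244102) (nat_lit 0x40ab1c) (nat_lit 16)))
 (.n (.p (nat_lit 0x153e153c153a153815341d9706) (nat_lit 0x100004c806) (nat_lit 52))
 (.p (nat_lit 0x5e42246102) (nat_lit 0x40010600) (nat_lit 48)))))
 (.n (.n (.n (.p (nat_lit 0xf6b0c9102) (nat_lit 0x140300) (nat_lit 16))
 (.p (nat_lit 0x16e816e616e216de2aeb2ae706) (nat_lit 0x50000c2516) (nat_lit 51)))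
 (.n (.p (nat_lit 0x20d020ce20cc20c8247f247706) (nat_lit 0x11000006b04) (nat_lit 51))
 (.p (nat_lit 0x2875b0b02) (nat_lit 0x300415) (nat_lit 28))))
 (.n (.n (.p (nat_lit 0x13f413f013ee13ec13ea1ee906) (nat_lit 0x800008a901) (nat_lit 52))
 (.p (nat_lit 0x1ed0570902) (nat_lit 0x400923) (nat_lit 29)))
 (.n (.p (nat_lit 0x385e346702) (nat_lit 0x24030a) (nat_lit 5))
 (.p (nat_lit 0x20765f3502) (nat_lit 0x3a2560c44000400000600) (nat_lit 50))))))
 (.n (.n (.n (.n (.p (nat_lit 0x7da07d807d607d407d205bd06) (nat_lit 0x800088100) (nat_lit 51))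
 (.p (nat_lit 0x34b305c902) (nat_lit 0x10015) (nat_lit 16)))
 (.n (.p (nat_lit 0x3da43da23da03d9c0a2b0a2306) (nat_lit 0x110000c8104) (nat_lit 52))
 (.p (nat_lit 0x49a248a302) (nat_lit 0x50062f) (nat_lit 4))))
 (.n (.n (.p (nat_lit 0x22bc248302) (nat_lit 0x140b00) (nat_lit 4))
 (.p (nat_lit 0x23fa23f823f423f223f04b8b06) (nat_lit 0x40000d0022) (nat_lit 51)))
 (.n (.p (nat_lit 0x1945190902) (nat_lit 0x208707) (nat_lit 16))
 (.p (nat_lit 0x5e8c3f2b02) (nat_lit 0x6004a900) (nat_lit 47)))))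
 (.n (.n (.n (.p (nat_lit 0x16b6169f02) (nat_lit 0x340600) (nat_lit 4))
 (.p (nat_lit 0x1ade1adc1ad81ad61ad405db06) (nat_lit 0x400001001c) (nat_lit 52)))
 (.n (.p (nat_lit 0x16a0169e169c16981ac71abf06) (nat_lit 0x110000cc705) (nat_lit 52))
 (.p (nat_lit 0x5ccf5de302) (nat_lit 0x1e0020000200) (nat_lit 36))))
 (.n (.n (.p (nat_lit 0x20521a2102) (nat_lit 0x40902) (nat_lit 5))
 (.p (nat_lit 0x118c118a11881186118249fb06) (nat_lit 0x1000004728) (nat_lit 52)))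
 (.n (.p (nat_lit 0xd1c0d1a0d180d160d1410db06) (nat_lit 0x80000640e) (nat_lit 51))
 (.p (nat_lit 0xfe4603702) (nat_lit 0x4a9d80b44000400000000) (nat_lit 50))))))

def c1024_625 : Tr :=
 .n (.n (.n (.n (.n (.n (.p (nat_lit 0x412040c041703) (nat_lit 0x12000500028) (nat_lit 17))
 (.p (nat_lit 0x207261b502) (nat_lit 0x322266c15000400000600) (nat_lit 49)))
 (.p (nat_lit 0x1fb41fb21fb01fac1faa410506) (nat_lit 0x200004c412) (nat_lit 51)))
 (.n (.p (nat_lit 0x1de41de21de01ddc2331232906) (nat_lit 0x110000c2a03) (nat_lit 51))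
 (.p (nat_lit 0x33b8325f02) (nat_lit 0x340a2c) (nat_lit 4))))
 (.n (.n (.p (nat_lit 0x2116211421122110210c1e8f06) (nat_lit 0x100000ca00) (nat_lit 52))
 (.p (nat_lit 0xec80ec60ec40ec20ec03b9906) (nat_lit 0x1000008ab1f) (nat_lit 51)))
 (.n (.p (nat_lit 0x154a15461544154215400e0906) (nat_lit 0x800000c307) (nat_lit 51))
 (.p (nat_lit 0x5c955e6702) (nat_lit 0x280000000800) (nat_lit 36)))))
 (.n (.n (.n (.p (nat_lit 0x12c212c012be12ba10c710c306) (nat_lit 0x2800082500) (nat_lit 52))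
 (.p (nat_lit 0x1e5a1e581e541e521e50420906) (nat_lit 0x40000cc519) (nat_lit 51)))
 (.n (.p (nat_lit 0xfd10fc502) (nat_lit 0x44c305) (nat_lit 16))
 (.p (nat_lit 0x5c9504cf02) (nat_lit 0x280000000000) (nat_lit 40))))
 (.n (.n (.p (nat_lit 0x8b419a902) (nat_lit 0x400102) (nat_lit 4))
 (.p (nat_lit 0x1d1a1d181d161d141d1035c306) (nat_lit 0x1000016126) (nat_lit 51)))
 (.n (.p (nat_lit 0x213a213821362134213046e906) (nat_lit 0x100008e30c) (nat_lit 51))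
 (.p (nat_lit 0x207a5fc102) (nat_lit 0x8982e955800400000600) (nat_lit 50))))))
 (.n (.n (.n (.n (.p (nat_lit 0xbd20bd00bce0bca09d709cf06) (nat_lit 0x110000c0200) (nat_lit 52))
 (.p (nat_lit 0x494f14d902) (nat_lit 0x254515) (nat_lit 16)))
 (.n (.p (nat_lit 0x8f208f008ee08ea08e8168506) (nat_lit 0x2000082604) (nat_lit 52))
 (.p (nat_lit 0x599e599c599859965994040f00ee07) (nat_lit 0x30a305) (nat_lit 25))))
 (.n (.n (.p (nat_lit 0xe6b0e2f02) (nat_lit 0x514301) (nat_lit 16))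
 (.p (nat_lit 0xd1c0d1a0d160d140d1209eb06) (nat_lit 0x4000046123) (nat_lit 51)))
 (.n (.p (nat_lit 0x2b00261902) (nat_lit 0x200808) (nat_lit 4))
 (.p (nat_lit 0x5d69248902) (nat_lit 0x140080000b00) (nat_lit 39)))))
 (.n (.n (.n (.p (nat_lit 0x1a321a301a2e1a2c179d179b06) (nat_lit 0x18000054700) (nat_lit 51))
 (.p (nat_lit 0x11721170116e116c116a14eb06) (nat_lit 0x1000004251c) (nat_lit 51)))
 (.n (.p (nat_lit 0xfd023a502) (nat_lit 0x440306) (nat_lit 5))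
 (.p (nat_lit 0x5d355e1902) (nat_lit 0x180060000400) (nat_lit 37))))
 (.n (.n (.p (nat_lit 0x25bc25ba25b825b625b2005b25b507) (nat_lit 0x140b02) (nat_lit 7))
 (.p (nat_lit 0x21d621d421d221d021cc0b5506) (nat_lit 0x100009422a) (nat_lit 52)))
 (.n (.p (nat_lit 0x1bdc096f02) (nat_lit 0x10080e) (nat_lit 5))
 (.p (nat_lit 0x206a60b102) (nat_lit 0x3505223a4000400000600) (nat_lit 49))))))

def c512_113 : Tr := .n c1024_113 c1024_625

def c1024_369 : Tr :=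
 .n (.n (.n (.n (.n (.n (.p (nat_lit 0x1a0019e019801a504) (nat_lit 0xc80040000a) (nat_lit 17))
 (.p (nat_lit 0x16a6617702) (nat_lit 0x340c6ab84000000040600) (nat_lit 50)))
 (.p (nat_lit 0x38e635eb02) (nat_lit 0x400411) (nat_lit 5)))
 (.n (.p (nat_lit 0x18de18dc18da18d618d4167906) (nat_lit 0x2000094603) (nat_lit 51))
 (.p (nat_lit 0x292e2aa702) (nat_lit 0x4032b) (nat_lit 4))))
 (.n (.n (.p (nat_lit 0x1d321d301d2c1d2a1d2800071d2f07) (nat_lit 0x340900) (nat_lit 7))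
 (.p (nat_lit 0xd580d540d520d500d4e334f06) (nat_lit 0x800000aa1e) (nat_lit 52)))
 (.n (.p (nat_lit 0xb440b420b400b3e0b3a01430b3d07) (nat_lit 0x100207) (nat_lit 7))
 (.p (nat_lit 0x5d19181b02) (nat_lit 0x40040000700) (nat_lit 40)))))
 (.n (.n (.n (.p (nat_lit 0x11110dfb02) (nat_lit 0x310400) (nat_lit 16))
 (.p (nat_lit 0x354435423540353e02de02d702cf3547353d09) (nat_lit 0x2840018) (nat_lit 10)))
 (.n (.p (nat_lit 0x8d4220102) (nat_lit 0x200105) (nat_lit 5))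
 (.p (nat_lit 0x3aa03a603a403a00009043706) (nat_lit 0x2102023) (nat_lit 26))))
 (.n (.n (.p (nat_lit 0x21b221ae21aa21a8004e0033002f21b121ad09) (nat_lit 0x2200a01) (nat_lit 10))
 (.p (nat_lit 0x2e35273702) (nat_lit 0x110124) (nat_lit 16)))
 (.n (.p (nat_lit 0x3f0e3c8302) (nat_lit 0x4020b) (nat_lit 5))
 (.p (nat_lit 0x13f85f7502) (nat_lit 0x1aa074b50000500040000) (nat_lit 50))))))
 (.n (.n (.n (.n (.p (nat_lit 0xa29072502) (nat_lit 0x452100) (nat_lit 16))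
 (.p (nat_lit 0xf420f400f3c0f381247124306) (nat_lit 0x50000d4415) (nat_lit 51)))
 (.n (.p (nat_lit 0x3fc111902) (nat_lit 0x100404) (nat_lit 1))
 (.p (nat_lit 0x62005e005c005a0001022b06) (nat_lit 0x414102) (nat_lit 26))))
 (.n (.n (.p (nat_lit 0x265e265c265a26582656074d06) (nat_lit 0x800044001) (nat_lit 51))
 (.p (nat_lit 0x7400ff902) (nat_lit 0x40023) (nat_lit 4)))
 (.n (.p (nat_lit 0x21a3216702) (nat_lit 0x308a07) (nat_lit 16))
 (.p (nat_lit 0x5d7b5ea502) (nat_lit 0x20080000a00) (nat_lit 36)))))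
 (.n (.n (.n (.p (nat_lit 0x18ae18ac18a818a61627162106) (nat_lit 0x480008a700) (nat_lit 51))
 (.p (nat_lit 0xbf80bf60bf40bf20bee087f06) (nat_lit 0x100000a11c) (nat_lit 51)))
 (.n (.p (nat_lit 0x62a249b02) (nat_lit 0x100006) (nat_lit 5))
 (.p (nat_lit 0x5cfd0e7d02) (nat_lit 0x200040000300) (nat_lit 41))))
 (.n (.n (.p (nat_lit 0x23201a3f02) (nat_lit 0x340a02) (nat_lit 4))
 (.p (nat_lit 0x14a089f02) (nat_lit 0x50012a) (nat_lit 1)))
 (.n (.p (nat_lit 0x4f004ee04ec04ea1381137f06) (nat_lit 0x180000450e) (nat_lit 52))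
 (.p (nat_lit 0x1534607902) (nat_lit 0x4688ae154000000000600) (nat_lit 49))))))

def c1024_881 : Tr :=
 .n (.n (.n (.n (.n (.p (nat_lit 0x62b04dd02) (nat_lit 0x116000) (nat_lit 16))
 (.p (nat_lit 0x4a2644ed02) (nat_lit 0x140713) (nat_lit 4)))
 (.n (.p (nat_lit 0x11441140113e113c113a25c706) (nat_lit 0x80000c8b03) (nat_lit 52))
 (.p (nat_lit 0x3f2e3f2c3f2a3f263f2404a73f2907) (nat_lit 0x24022e) (nat_lit 7))))
 (.n (.n (.p (nat_lit 0x22ac22aa22a822a622a422a206) (nat_lit 0x50a00) (nat_lit 52))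
 (.p (nat_lit 0x42e742db02) (nat_lit 0x30a720) (nat_lit 16)))
 (.n (.p (nat_lit 0x12b612b212b012ae12ac10d706) (nat_lit 0x8000002407) (nat_lit 52))
 (.p (nat_lit 0x5e781ef502) (nat_lit 0x8000c800) (nat_lit 47)))))
 (.n (.n (.n (.p (nat_lit 0x14a2149e149c149a1227122306) (nat_lit 0x14000054500) (nat_lit 52))
 (.p (nat_lit 0x4cd84cd64cd44cd24cd0498106) (nat_lit 0x80001061a) (nat_lit 52)))
 (.n (.p (nat_lit 0x17fe49a502) (nat_lit 0x40605) (nat_lit 29))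
 (.p (nat_lit 0x5cc9079702) (nat_lit 0x240020000100) (nat_lit 38))))
 (.n (.n (.p (nat_lit 0xfa90f9d02) (nat_lit 0x252302) (nat_lit 16))
 (.p (nat_lit 0x1e641e621e601e5e1e5c3dfd06) (nat_lit 0x1000004e127) (nat_lit 51)))
 (.n (.p (nat_lit 0x503a4b5f02) (nat_lit 0x10080d) (nat_lit 5))
 (.p (nat_lit 0x4d05ff902) (nat_lit 0x466b80b44000000000000) (nat_lit 50))))))
 (.n (.n (.n (.n (.p (nat_lit 0xd880d860d820d7e0b350b3106) (nat_lit 0x500000e300) (nat_lit 51))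
 (.p (nat_lit 0x1eb40c4d02) (nat_lit 0x200915) (nat_lit 5)))
 (.n (.p (nat_lit 0x86194d02) (nat_lit 0x704) (nat_lit 1))
 (.p (nat_lit 0x18a0188018601840179014906) (nat_lit 0x2c16a09) (nat_lit 26))))
 (.n (.n (.p (nat_lit 0x621c2102) (nat_lit 0x500801) (nat_lit 1))
 (.p (nat_lit 0x46810ca702) (nat_lit 0x54223) (nat_lit 16)))
 (.n (.p (nat_lit 0x31a831a631a431a2319e30f106) (nat_lit 0x1000084409) (nat_lit 51))
 (.p (nat_lit 0xa525eed02) (nat_lit 0x4a1d84344000200000000) (nat_lit 50)))))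
 (.n (.n (.n (.p (nat_lit 0x1bdd18fb02) (nat_lit 0x102800) (nat_lit 16))
 (.p (nat_lit 0x30b556102) (nat_lit 0x24081c) (nat_lit 30)))
 (.n (.p (nat_lit 0x12001330127253323dd05) (nat_lit 0xa4240706) (nat_lit 9))
 (.p (nat_lit 0x5d275e2f02) (nat_lit 0x260060000500) (nat_lit 37))))
 (.n (.n (.p (nat_lit 0xa1e1b1b02) (nat_lit 0x540103) (nat_lit 5))
 (.p (nat_lit 0x115c115a1156115411520f8706) (nat_lit 0x400004032a) (nat_lit 51)))
 (.n (.p (nat_lit 0x242809bd02) (nat_lit 0x400b0e) (nat_lit 4))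
 (.p (nat_lit 0x181c60f902) (nat_lit 0x460d623a4000100000600) (nat_lit 50))))))

def c512_369 : Tr := .n c1024_369 c1024_881

def c256_113 : Tr := .n c512_113 c512_369

def c1024_241 : Tr :=
 .n (.n (.n (.n (.n (.n (.p (nat_lit 0xec00e800e200ef04) (nat_lit 0x14800400005) (nat_lit 17))
 (.p (nat_lit 0x1ae4615902) (nat_lit 0x352829d84000200000600) (nat_lit 50)))
 (.p (nat_lit 0x32e22e8502) (nat_lit 0x340910) (nat_lit 5)))
 (.n (.p (nat_lit 0x39da39d839d639d439d213c506) (nat_lit 0x10000096503) (nat_lit 52))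
 (.p (nat_lit 0x43b583f02) (nat_lit 0x340a2a) (nat_lit 30))))
 (.n (.n (.p (nat_lit 0x1e661e641e621e601e5c1bc506) (nat_lit 0x100000e900) (nat_lit 51))
 (.p (nat_lit 0xd340d320d300d2c0d2a2c0506) (nat_lit 0x20000c091d) (nat_lit 51)))
 (.n (.p (nat_lit 0x22882286228222801eff1ef906) (nat_lit 0x480008c906) (nat_lit 51))
 (.p (nat_lit 0x5e4c28d502) (nat_lit 0xa0000600) (nat_lit 47)))))
 (.n (.n (.n (.p (nat_lit 0x100c100a1008100610040dff06) (nat_lit 0x10000002400) (nat_lit 52))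
 (.p (nat_lit 0x18d218ce18cc18ca18c8328106) (nat_lit 0x8000054517) (nat_lit 52)))
 (.n (.p (nat_lit 0x17fd25d502) (nat_lit 0x540b04) (nat_lit 15))
 (.p (nat_lit 0x30e030c030a0308036d000106) (nat_lit 0x281201c) (nat_lit 26))))
 (.n (.n (.p (nat_lit 0xd100d0e0d0c0d06204b204906) (nat_lit 0x3000046901) (nat_lit 52))
 (.p (nat_lit 0x2448572902) (nat_lit 0x200b23) (nat_lit 29)))
 (.n (.p (nat_lit 0x3ae4351d02) (nat_lit 0x100a0a) (nat_lit 4))
 (.p (nat_lit 0x1da65f5902) (nat_lit 0x1a2262350000300000600) (nat_lit 49))))))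
 (.n (.n (.n (.n (.p (nat_lit 0x90a0906090409020900072506) (nat_lit 0x8000046100) (nat_lit 51))
 (.p (nat_lit 0x10ee10ec10e810e602a6028b028510f110eb09) (nat_lit 0x2a00415) (nat_lit 10)))
 (.n (.p (nat_lit 0x3ea83ea63ea43ea23ea00ce306) (nat_lit 0x8000c0204) (nat_lit 52))
 (.p (nat_lit 0x174588702) (nat_lit 0x300001) (nat_lit 27))))
 (.n (.n (.p (nat_lit 0x256625642560255e22c522bf06) (nat_lit 0x120000d2b00) (nat_lit 52))
 (.p (nat_lit 0x50ba50b850b650b450b2039350b107) (nat_lit 0x40822) (nat_lit 7)))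
 (.n (.p (nat_lit 0x1d3806cf02) (nat_lit 0x240807) (nat_lit 5))
 (.p (nat_lit 0x5e9421cd02) (nat_lit 0x40a00) (nat_lit 45)))))
 (.n (.n (.n (.p (nat_lit 0x17821780177e177a16bb16b306) (nat_lit 0x11000054600) (nat_lit 52))
 (.p (nat_lit 0x1820181e181a18181816073b06) (nat_lit 0x400004e01c) (nat_lit 51)))
 (.n (.p (nat_lit 0x1e581e561e541e501c2d1c2506) (nat_lit 0x1100008c805) (nat_lit 51))
 (.p (nat_lit 0x5d535def02) (nat_lit 0x2a0080000200) (nat_lit 36))))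
 (.n (.n (.p (nat_lit 0x4cc04ca04c804c604c421b506) (nat_lit 0x800000a02) (nat_lit 52))
 (.p (nat_lit 0x4d4a4d484d464d440432042704254d4f4d4d09) (nat_lit 0x2c40229) (nat_lit 10)))
 (.n (.p (nat_lit 0xbb00bae0baa0ba80ba6123b06) (nat_lit 0x40000c440e) (nat_lit 52))
 (.p (nat_lit 0xbb0605702) (nat_lit 0x506272b31000200040000) (nat_lit 49))))))

def c1024_753 : Tr :=
 .n (.n (.n (.n (.n (.n (.p (nat_lit 0x508050605040502050004db06) (nat_lit 0x800006000) (nat_lit 52))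
 (.p (nat_lit 0x153661d702) (nat_lit 0x542266c0c800000000600) (nat_lit 49)))
 (.p (nat_lit 0x42d342c702) (nat_lit 0x506712) (nat_lit 16)))
 (.n (.p (nat_lit 0x197a1978197419721970246f06) (nat_lit 0x400008eb03) (nat_lit 52))
 (.p (nat_lit 0x37e23a3f02) (nat_lit 0x30032d) (nat_lit 4))))
 (.n (.n (.p (nat_lit 0x21c71e9302) (nat_lit 0x310a00) (nat_lit 16))
 (.p (nat_lit 0x3dee3f5902) (nat_lit 0x440120) (nat_lit 5)))
 (.n (.p (nat_lit 0x153e153c153a153615340f6d06) (nat_lit 0x200004c307) (nat_lit 52))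
 (.p (nat_lit 0x5e6e1c3f02) (nat_lit 0x40040800) (nat_lit 45)))))
 (.n (.n (.n (.p (nat_lit 0x13cd10c902) (nat_lit 0x312500) (nat_lit 16))
 (.p (nat_lit 0x45c845c645c445c245be437d06) (nat_lit 0x100004ab19) (nat_lit 52)))
 (.n (.p (nat_lit 0x152248db02) (nat_lit 0x340505) (nat_lit 29))
 (.p (nat_lit 0x5dbc3b7102) (nat_lit 0x60010000) (nat_lit 48))))
 (.n (.n (.p (nat_lit 0xcd40cd20cce0ccc006e005f00590cd10ccb09) (nat_lit 0x1840202) (nat_lit 10))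
 (.p (nat_lit 0x3b9c38bd02) (nat_lit 0x100b26) (nat_lit 4)))
 (.n (.p (nat_lit 0x52a05280526052405224a2306) (nat_lit 0x100000c870c) (nat_lit 51))
 (.p (nat_lit 0xbb25fd702) (nat_lit 0x3842a1c35000200040000) (nat_lit 50))))))
 (.n (.n (.n (.n (.p (nat_lit 0xcf709d502) (nat_lit 0x454200) (nat_lit 16))
 (.p (nat_lit 0x192d192102) (nat_lit 0x208715) (nat_lit 16)))
 (.n (.p (nat_lit 0xc200d300df1e5b1fc105) (nat_lit 0x85d40604) (nat_lit 9))
 (.p (nat_lit 0x11c011a011401120007002f06) (nat_lit 0x1a10706) (nat_lit 26))))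
 (.n (.n (.p (nat_lit 0x2d2a1702) (nat_lit 0x100501) (nat_lit 30))
 (.p (nat_lit 0xe8c0e8a0e880e860e840b5106) (nat_lit 0x10000000223) (nat_lit 51)))
 (.n (.p (nat_lit 0x2f382d1f02) (nat_lit 0x500209) (nat_lit 5))
 (.p (nat_lit 0x15345ed302) (nat_lit 0x4a1a36344000000000600) (nat_lit 49)))))
 (.n (.n (.n (.p (nat_lit 0x190018fe18fc18fa0014000b0001190318f909) (nat_lit 0x2800800) (nat_lit 10))
 (.p (nat_lit 0x1932554302) (nat_lit 0x50071c) (nat_lit 29)))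
 (.n (.p (nat_lit 0x4ba13e102) (nat_lit 0x100506) (nat_lit 1))
 (.p (nat_lit 0x5cb35e2302) (nat_lit 0xa0000000500) (nat_lit 36))))
 (.n (.n (.p (nat_lit 0x8b34cf02) (nat_lit 0x240003) (nat_lit 30))
 (.p (nat_lit 0x248a24882486248224800cb706) (nat_lit 0x20000d622a) (nat_lit 52)))
 (.n (.p (nat_lit 0x1f1533f02) (nat_lit 0x50090e) (nat_lit 30))
 (.p (nat_lit 0x113a60d902) (nat_lit 0x3542623b0000400040000) (nat_lit 49))))))

def c512_241 : Tr := .n c1024_241 c1024_753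

def c1024_497 : Tr :=
 .n (.n (.n (.n (.n (.n (.p (nat_lit 0x30e030c030a031304) (nat_lit 0xe00040001c) (nat_lit 17))
 (.p (nat_lit 0x64a619b02) (nat_lit 0x340aa5c14800000040000) (nat_lit 50)))
 (.p (nat_lit 0x3b78361d02) (nat_lit 0x100b11) (nat_lit 4)))
 (.n (.p (nat_lit 0x21ca21c821c621c421c0008921c307) (nat_lit 0x100a03) (nat_lit 7))
 (.p (nat_lit 0x2fa8321d02) (nat_lit 0x24022c) (nat_lit 4))))
 (.n (.n (.p (nat_lit 0x1ff01fee1fea1fe81fe61d2f06) (nat_lit 0x40000d6900) (nat_lit 51))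
 (.p (nat_lit 0x3632378b02) (nat_lit 0x4011f) (nat_lit 5)))
 (.n (.p (nat_lit 0xca20ca00c9e0c9c0c9a014b0ca507) (nat_lit 0x540207) (nat_lit 7))
 (.p (nat_lit 0x5d65181302) (nat_lit 0x180080000700) (nat_lit 38)))))
 (.n (.n (.n (.p (nat_lit 0x11e411e011de11dc0f650f5d06) (nat_lit 0x8800052400) (nat_lit 52))
 (.p (nat_lit 0x3b8a373502) (nat_lit 0x400b18) (nat_lit 4)))
 (.n (.p (nat_lit 0xed461902) (nat_lit 0x540205) (nat_lit 30))
 (.p (nat_lit 0x3aa5c3702) (nat_lit 0x50032a) (nat_lit 27))))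
 (.n (.n (.p (nat_lit 0x5fa2c8502) (nat_lit 0x100002) (nat_lit 29))
 (.p (nat_lit 0x18c418c218c018be18bc2e3d06) (nat_lit 0x10000092125) (nat_lit 52)))
 (.n (.p (nat_lit 0x42623c3b02) (nat_lit 0x34060b) (nat_lit 4))
 (.p (nat_lit 0x18145f9502) (nat_lit 0x581a302a4000100000600) (nat_lit 49))))))
 (.n (.n (.n (.n (.p (nat_lit 0xad20ad00ace0acc0873087106) (nat_lit 0x180008e200) (nat_lit 51))
 (.p (nat_lit 0x5cf139102) (nat_lit 0x300515) (nat_lit 15)))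
 (.n (.p (nat_lit 0x13d01e3702) (nat_lit 0x500504) (nat_lit 4))
 (.p (nat_lit 0x5a594102) (nat_lit 0x100603) (nat_lit 27))))
 (.n (.n (.p (nat_lit 0xb6227bb02) (nat_lit 0x200201) (nat_lit 29))
 (.p (nat_lit 0xe760e720e700e6e0e6c089106) (nat_lit 0x8000086123) (nat_lit 52)))
 (.n (.p (nat_lit 0x257f257302) (nat_lit 0x444b07) (nat_lit 16))
 (.p (nat_lit 0x5cdb248302) (nat_lit 0x120020000b00) (nat_lit 39)))))
 (.n (.n (.n (.p (nat_lit 0x1961162902) (nat_lit 0x414700) (nat_lit 16))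
 (.p (nat_lit 0x3a0139702) (nat_lit 0x51c) (nat_lit 1)))
 (.n (.p (nat_lit 0xa3e24c302) (nat_lit 0x340106) (nat_lit 5))
 (.p (nat_lit 0x5d870d1102) (nat_lit 0x2600a0000300) (nat_lit 38))))
 (.n (.n (.p (nat_lit 0x3397232302) (nat_lit 0x444a02) (nat_lit 16))
 (.p (nat_lit 0x520051c0518051609f909f506) (nat_lit 0xa00004812a) (nat_lit 51)))
 (.n (.p (nat_lit 0x1638094902) (nat_lit 0x60e) (nat_lit 4))
 (.p (nat_lit 0x1ada609502) (nat_lit 0x342529ca4000200000600) (nat_lit 49))))))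

def c1024_1009 : Tr :=
 .n (.n (.n (.n (.n (.p (nat_lit 0x723065302) (nat_lit 0x340000) (nat_lit 15))
 (.p (nat_lit 0x270e270c2708270627044fe106) (nat_lit 0x4000010714) (nat_lit 52)))
 (.n (.p (nat_lit 0x627061b02) (nat_lit 0x516004) (nat_lit 16))
 (.p (nat_lit 0x43a2417f02) (nat_lit 0x240b2e) (nat_lit 4))))
 (.n (.n (.p (nat_lit 0x23b023ae23ac23aa215f215506) (nat_lit 0x10800008b00) (nat_lit 51))
 (.p (nat_lit 0x47a847a647a247a0479e48cf06) (nat_lit 0x4000084521) (nat_lit 51)))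
 (.n (.p (nat_lit 0x13141312130e130c1233122d06) (nat_lit 0x1200004e407) (nat_lit 52))
 (.p (nat_lit 0x5cd35e8502) (nat_lit 0x1a0020000900) (nat_lit 37)))))
 (.n (.n (.n (.p (nat_lit 0x15e215de15da15d81555155106) (nat_lit 0xa000010600) (nat_lit 52))
 (.p (nat_lit 0x280a280828062804501b501906) (nat_lit 0x60000d471b) (nat_lit 52)))
 (.n (.p (nat_lit 0x1ade1adc1ad81ad61ad4195f06) (nat_lit 0x4000010705) (nat_lit 52))
 (.p (nat_lit 0x5d4f08fd02) (nat_lit 0x2e0080000100) (nat_lit 41))))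
 (.n (.n (.p (nat_lit 0x14fc18a902) (nat_lit 0x240502) (nat_lit 5))
 (.p (nat_lit 0x44ac47fd02) (nat_lit 0x240028) (nat_lit 5)))
 (.n (.p (nat_lit 0xa960a940a900a8e0a8c0e1306) (nat_lit 0x400000a30e) (nat_lit 52))
 (.p (nat_lit 0xd0e601902) (nat_lit 0x46ab80b44000300000000) (nat_lit 49))))))
 (.n (.n (.n (.n (.p (nat_lit 0xe8e0e8c0e880e840c950c9106) (nat_lit 0x5000040300) (nat_lit 51))
 (.p (nat_lit 0x22e00c6f02) (nat_lit 0x140a15) (nat_lit 5)))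
 (.n (.p (nat_lit 0x1ab21fd102) (nat_lit 0x140704) (nat_lit 4))
 (.p (nat_lit 0x20e5a8902) (nat_lit 0x20060e) (nat_lit 27))))
 (.n (.n (.p (nat_lit 0x19d819d619d219d01d831d7d06) (nat_lit 0x4800046801) (nat_lit 51))
 (.p (nat_lit 0x56f256f056ee56ec56ea56e803ac07) (nat_lit 0x823) (nat_lit 8)))
 (.n (.p (nat_lit 0x33cc2d8b02) (nat_lit 0x100b09) (nat_lit 4))
 (.p (nat_lit 0x180e5f1702) (nat_lit 0x3a2260b50000100000600) (nat_lit 49)))))
 (.n (.n (.n (.p (nat_lit 0x1cb81cb61cb41cb01a671a5f06) (nat_lit 0x11000048800) (nat_lit 51))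
 (.p (nat_lit 0x309558302) (nat_lit 0x100a1c) (nat_lit 30)))
 (.n (.p (nat_lit 0x13f413f013ee13ec13ea1c3706) (nat_lit 0x800008a806) (nat_lit 52))
 (.p (nat_lit 0x5c9d169902) (nat_lit 0x200000000600) (nat_lit 39))))
 (.n (.n (.p (nat_lit 0x34e0e3d02) (nat_lit 0x303) (nat_lit 1))
 (.p (nat_lit 0x1946131302) (nat_lit 0x30072a) (nat_lit 4)))
 (.n (.p (nat_lit 0x2adc538102) (nat_lit 0x24050f) (nat_lit 29))
 (.p (nat_lit 0x2484611b02) (nat_lit 0x350522264000500040600) (nat_lit 49))))))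

def c512_497 : Tr := .n c1024_497 c1024_1009

def c256_241 : Tr := .n c512_241 c512_497

def c128_113 : Tr := .n c256_113 c256_241

def c64_49 : Tr := .n c128_49 c128_113

def c32_17 : Tr := .n c64_17 c64_49

def c16_1 : Tr := .n c32_1 c32_17

def b1 : Tr := c16_1

theorem hb4_1 : allp (tst G49 true (getA DT)) b1 = true := by decide +kernel

end Vale.Agent.P032.H437.Ev2
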