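import Vale.Agent.P032.H437.Ev2.T

namespace Vale.Agent.P032.H437.Ev2
open Vale.Agent.P032.H859.Rup Vale.Agent.P032.H437

def c1024_10 : Tr :=
 .n (.n (.n (.n (.n (.n (.p (nat_lit 0x230021001f001704) (nat_lit 0x551900000) (nat_lit 21))
 (.p (nat_lit 0x2492611f02) (nat_lit 0x35056a3a4000500040600) (nat_lit 50)))
 (.p (nat_lit 0x32752ae102) (nat_lit 0x45050f) (nat_lit 16)))
 (.n (.p (nat_lit 0x37c437c237c037be37bc0e3d06) (nat_lit 0x800016303) (nat_lit 52))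
 (.p (nat_lit 0x32563252324e324c1949194506) (nat_lit 0xa00001472a) (nat_lit 52))))
 (.n (.n (.p (nat_lit 0x1cea1ce81ce61ce41a5f1a5d06) (nat_lit 0x180004c800) (nat_lit 52))
 (.p (nat_lit 0x218e218a21862184032c030f030b218d218909) (nat_lit 0x2200a1c) (nat_lit 10)))
 (.n (.p (nat_lit 0x21d621d421d221d021cc1c3106) (nat_lit 0x1000094806) (nat_lit 52))
 (.p (nat_lit 0x5e3825b302) (nat_lit 0x50600) (nat_lit 47)))))
 (.n (.n (.n (.p (nat_lit 0xea60ea40ea00e9e0e9c0c9506) (nat_lit 0x4000042300) (nat_lit 52))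
 (.p (nat_lit 0x258722e302) (nat_lit 0x240a15) (nat_lit 15)))
 (.n (.p (nat_lit 0x1aba1ab81ab61ab200c800b900b51ab51ab109) (nat_lit 0x1040704) (nat_lit 10))
 (.p (nat_lit 0x1eb5aa102) (nat_lit 0x20080e) (nat_lit 28))))
 (.n (.n (.p (nat_lit 0x18ea18e818e618e418e21d7d06) (nat_lit 0x800056801) (nat_lit 51))
 (.p (nat_lit 0x1c081c021c001bfe03ca03a903a71c071c0509) (nat_lit 0x2300823) (nat_lit 10)))
 (.n (.p (nat_lit 0x341e2ceb02) (nat_lit 0x240b09) (nat_lit 5))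
 (.p (nat_lit 0x181c5f1b02) (nat_lit 0x3a2274b50000100000600) (nat_lit 50))))))
 (.n (.n (.n (.n (.p (nat_lit 0x757065702) (nat_lit 0x54c000) (nat_lit 16))
 (.p (nat_lit 0x504e504c504850465044026f504b07) (nat_lit 0x300814) (nat_lit 7)))
 (.n (.p (nat_lit 0x77a1f3302) (nat_lit 0x540004) (nat_lit 5))
 (.p (nat_lit 0x459a48f302) (nat_lit 0x44012f) (nat_lit 5))))
 (.n (.n (.p (nat_lit 0x23e023de23dc23d8215f215706) (nat_lit 0x1100008eb00) (nat_lit 52))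
 (.p (nat_lit 0x49f246d502) (nat_lit 0x300721) (nat_lit 5)))
 (.n (.p (nat_lit 0x162c052f02) (nat_lit 0x607) (nat_lit 4))
 (.p (nat_lit 0x5e82410302) (nat_lit 0x20042900) (nat_lit 48)))))
 (.n (.n (.n (.p (nat_lit 0x15f815f615f415f01557154f06) (nat_lit 0x11000012600) (nat_lit 52))
 (.p (nat_lit 0xaa00a9e0a9c0a9a0a9850af06) (nat_lit 0x100000ca81b) (nat_lit 51)))
 (.n (.p (nat_lit 0x249424922490248e248c196306) (nat_lit 0x10000096705) (nat_lit 51))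
 (.p (nat_lit 0x5d8f079f02) (nat_lit 0x1e00a0000100) (nat_lit 38))))
 (.n (.n (.p (nat_lit 0x32223220321c321a321814ff06) (nat_lit 0x40000c4502) (nat_lit 52))
 (.p (nat_lit 0x4516478702) (nat_lit 0x128) (nat_lit 4)))
 (.n (.p (nat_lit 0x1e752d502) (nat_lit 0x4030e) (nat_lit 30))
 (.p (nat_lit 0x1daa601f02) (nat_lit 0x4099a2354800300000600) (nat_lit 49))))))

def c1024_522 : Tr :=
 .n (.n (.n (.n (.n (.n (.p (nat_lit 0x321031d031403) (nat_lit 0x2b0001c) (nat_lit 19))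
 (.p (nat_lit 0xbac619f02) (nat_lit 0x380aa5c15000200040000) (nat_lit 49)))
 (.p (nat_lit 0x920091e091c091a09183b8106) (nat_lit 0x10000008b11) (nat_lit 51)))
 (.n (.p (nat_lit 0x21ca21c821c621c2009a008b008721c521c109) (nat_lit 0x1000a03) (nat_lit 10))
 (.p (nat_lit 0x47b585102) (nat_lit 0x32c) (nat_lit 30))))
 (.n (.n (.p (nat_lit 0x201d1d2f02) (nat_lit 0x344900) (nat_lit 16))
 (.p (nat_lit 0x3647363b02) (nat_lit 0x44a11f) (nat_lit 16)))
 (.n (.p (nat_lit 0x9460944094209400c9d0c9b06) (nat_lit 0x18000ca207) (nat_lit 52))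
 (.p (nat_lit 0x5d51181f02) (nat_lit 0x2c0080000700) (nat_lit 40)))))
 (.n (.n (.n (.p (nat_lit 0x12330f6702) (nat_lit 0x540400) (nat_lit 16))
 (.p (nat_lit 0x3bde36b302) (nat_lit 0x440b18) (nat_lit 5)))
 (.n (.p (nat_lit 0xcff0cf302) (nat_lit 0x24c205) (nat_lit 16))
 (.p (nat_lit 0x4355c4f02) (nat_lit 0x82a) (nat_lit 28))))
 (.n (.n (.p (nat_lit 0x2cc42cc22cc02cbe2cbc05fd06) (nat_lit 0x2000088002) (nat_lit 51))
 (.p (nat_lit 0x2f9d2ebf02) (nat_lit 0x240125) (nat_lit 15)))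
 (.n (.p (nat_lit 0x527e527c527a52785276527401b807) (nat_lit 0x70b) (nat_lit 8))
 (.p (nat_lit 0x180e5f9b02) (nat_lit 0x88bb0155800100000600) (nat_lit 49))))))
 (.n (.n (.n (.n (.p (nat_lit 0xb35087702) (nat_lit 0x300200) (nat_lit 15))
 (.p (nat_lit 0x14d80a9d02) (nat_lit 0x240515) (nat_lit 5)))
 (.n (.p (nat_lit 0x415841544152415013d113cd06) (nat_lit 0x1400000c504) (nat_lit 52))
 (.p (nat_lit 0xb5594b02) (nat_lit 0x4) (nat_lit 28))))
 (.n (.n (.p (nat_lit 0xe2b0b6502) (nat_lit 0x300201) (nat_lit 15))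
 (.p (nat_lit 0x18141812180e180c180a088f06) (nat_lit 0x400000e123) (nat_lit 52)))
 (.n (.p (nat_lit 0x281451ed02) (nat_lit 0x400208) (nat_lit 29))
 (.p (nat_lit 0x5d17248502) (nat_lit 0x60040000b00) (nat_lit 39)))))
 (.n (.n (.n (.p (nat_lit 0x179c179a1798179417920005179707) (nat_lit 0x240700) (nat_lit 7))
 (.p (nat_lit 0x13a0139c139a13981396030f139f07) (nat_lit 0x40051c) (nat_lit 7)))
 (.n (.p (nat_lit 0x4c5e4c5c4c5a4c580a430a3906) (nat_lit 0x1080004e106) (nat_lit 51))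
 (.p (nat_lit 0x5c930fd502) (nat_lit 0x2a0000000400) (nat_lit 38))))
 (.n (.n (.p (nat_lit 0x2e246102) (nat_lit 0x200b02) (nat_lit 1))
 (.p (nat_lit 0x364f09f502) (nat_lit 0x25012a) (nat_lit 16)))
 (.n (.p (nat_lit 0x275c275a275827562754163906) (nat_lit 0x80000860e) (nat_lit 51))
 (.p (nat_lit 0xbac609b02) (nat_lit 0x342529ca4000200040000) (nat_lit 49))))))

def c512_10 : Tr := .n c1024_10 c1024_522

def c1024_266 : Tr :=
 .n (.n (.n (.n (.n (.n (.p (nat_lit 0x10700f700f003) (nat_lit 0x41800005) (nat_lit 19))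
 (.p (nat_lit 0xbb6615f02) (nat_lit 0x352829d84000200040000) (nat_lit 50)))
 (.p (nat_lit 0x91609140910090e090c333506) (nat_lit 0x4000086a10) (nat_lit 51)))
 (.n (.p (nat_lit 0x494150b02) (nat_lit 0x340503) (nat_lit 1))
 (.p (nat_lit 0x245614b702) (nat_lit 0x300b2a) (nat_lit 5))))
 (.n (.n (.p (nat_lit 0x1e7e1e7c1e7a1e781e741bc506) (nat_lit 0x1000016900) (nat_lit 52))
 (.p (nat_lit 0x2d04303502) (nat_lit 0x40001e) (nat_lit 5)))
 (.n (.p (nat_lit 0x50f51f0102) (nat_lit 0x402906) (nat_lit 16))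
 (.p (nat_lit 0x5cad181702) (nat_lit 0x100000000700) (nat_lit 40)))))
 (.n (.n (.n (.p (nat_lit 0x10321030102e102c102a0df506) (nat_lit 0x800084400) (nat_lit 51))
 (.p (nat_lit 0x372a372637243722372032ef06) (nat_lit 0x8000054917) (nat_lit 51)))
 (.n (.p (nat_lit 0x61e43ad02) (nat_lit 0x100005) (nat_lit 29))
 (.p (nat_lit 0x5b8e5b8c5b8a5b885b860007031207) (nat_lit 0x30251c) (nat_lit 25))))
 (.n (.n (.p (nat_lit 0x16a216a0169e169a1698204b06) (nat_lit 0x20000cc901) (nat_lit 52))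
 (.p (nat_lit 0x4efa4ef64ef44ef2244f244b06) (nat_lit 0x14000010b23) (nat_lit 52)))
 (.n (.p (nat_lit 0x3cd43cd23cce3ccc3cca3b3506) (nat_lit 0x40000cca0a) (nat_lit 51))
 (.p (nat_lit 0xd1c5f5d02) (nat_lit 0x262530344000300000000) (nat_lit 50))))))
 (.n (.n (.n (.n (.p (nat_lit 0x92e092c092a09280924071f06) (nat_lit 0x10000c8100) (nat_lit 52))
 (.p (nat_lit 0xd4c0d480d440d4210ef10eb06) (nat_lit 0xa000082415) (nat_lit 51)))
 (.n (.p (nat_lit 0xfbb0ced02) (nat_lit 0x540204) (nat_lit 15))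
 (.p (nat_lit 0x589c589a589858965894028b003607) (nat_lit 0x512201) (nat_lit 25))))
 (.n (.n (.p (nat_lit 0x258f22bb02) (nat_lit 0x46b00) (nat_lit 16))
 (.p (nat_lit 0xebe0ebc0eba0eb60eb450b506) (nat_lit 0x200004a822) (nat_lit 51)))
 (.n (.p (nat_lit 0x1d731d3702) (nat_lit 0x148807) (nat_lit 16))
 (.p (nat_lit 0x5cdb5e9902) (nat_lit 0x120020000a00) (nat_lit 36)))))
 (.n (.n (.n (.p (nat_lit 0x17ad16b302) (nat_lit 0x142600) (nat_lit 16))
 (.p (nat_lit 0x1f0e1f0a1f081f061f04073d06) (nat_lit 0x80000d201c) (nat_lit 52)))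
 (.n (.p (nat_lit 0x1d921d901d8e1d8c1d8a00e31d8907) (nat_lit 0x40805) (nat_lit 7))
 (.p (nat_lit 0x5da15df102) (nat_lit 0xc00a0000200) (nat_lit 37))))
 (.n (.n (.p (nat_lit 0xe820e800e7e0e7a0e7821b906) (nat_lit 0x2000086a02) (nat_lit 51))
 (.p (nat_lit 0x506c4ef702) (nat_lit 0x200829) (nat_lit 4)))
 (.n (.p (nat_lit 0x16ae16ac16aa16a816a4123706) (nat_lit 0x10000cc40e) (nat_lit 51))
 (.p (nat_lit 0x1816605f02) (nat_lit 0x506272831000100000600) (nat_lit 50))))))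

def c1024_778 : Tr :=
 .n (.n (.n (.n (.n (.n (.p (nat_lit 0x520051e051c051a051604dd06) (nat_lit 0x1000008000) (nat_lit 51))
 (.p (nat_lit 0x154a61dd02) (nat_lit 0x3302a5895000000000600) (nat_lit 50)))
 (.p (nat_lit 0x2f2475b02) (nat_lit 0x40313) (nat_lit 1)))
 (.n (.p (nat_lit 0x21e221e021de21dc21d8246b06) (nat_lit 0x1000094b03) (nat_lit 51))
 (.p (nat_lit 0x3b5c3b5a3b583b563b5204913b5507) (nat_lit 0x140a2d) (nat_lit 7))))
 (.n (.n (.p (nat_lit 0x1ffc1ffa1ff61ff41ff200071ff907) (nat_lit 0x340a00) (nat_lit 7))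
 (.p (nat_lit 0x36355f902) (nat_lit 0x40520) (nat_lit 30)))
 (.n (.p (nat_lit 0x1db61db41db01dae1dac0f6f06) (nat_lit 0x4000052307) (nat_lit 51))
 (.p (nat_lit 0x5d2f5e7302) (nat_lit 0x1e0060000800) (nat_lit 36)))))
 (.n (.n (.n (.p (nat_lit 0x43a122302) (nat_lit 0x340500) (nat_lit 1))
 (.p (nat_lit 0x47e645ad02) (nat_lit 0x20041a) (nat_lit 4)))
 (.n (.p (nat_lit 0x4941151f02) (nat_lit 0x142505) (nat_lit 16))
 (.p (nat_lit 0x5d5904d702) (nat_lit 0x240080000000) (nat_lit 40))))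
 (.n (.n (.p (nat_lit 0xe3a0e380e360e340e3200590e3107) (nat_lit 0x302) (nat_lit 7))
 (.p (nat_lit 0x1180117c117a117811763ba306) (nat_lit 0x8000082b26) (nat_lit 52)))
 (.n (.p (nat_lit 0x4dc14cf102) (nat_lit 0x20d) (nat_lit 15))
 (.p (nat_lit 0x233a5fdf02) (nat_lit 0x3842a1c34000500000600) (nat_lit 49))))))
 (.n (.n (.n (.n (.p (nat_lit 0x30c0b3502) (nat_lit 0x300300) (nat_lit 1))
 (.p (nat_lit 0x1a860c2f02) (nat_lit 0x340715) (nat_lit 4)))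
 (.n (.p (nat_lit 0xa5a0a580a540a520a5017f906) (nat_lit 0x4000044604) (nat_lit 51))
 (.p (nat_lit 0x14359f502) (nat_lit 0x100207) (nat_lit 28))))
 (.n (.n (.p (nat_lit 0x5f313a902) (nat_lit 0x300501) (nat_lit 15))
 (.p (nat_lit 0xdb60db20db00dae0dac0b4f06) (nat_lit 0x8000012223) (nat_lit 52)))
 (.n (.p (nat_lit 0x18f520702) (nat_lit 0x540209) (nat_lit 30))
 (.p (nat_lit 0x6425ed702) (nat_lit 0x4a1a36344000000040000) (nat_lit 50)))))
 (.n (.n (.n (.p (nat_lit 0x1b301b2e1b2c1b2a1b281b2606) (nat_lit 0x84800) (nat_lit 51))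
 (.p (nat_lit 0x1a8c554502) (nat_lit 0x4071c) (nat_lit 29)))
 (.n (.p (nat_lit 0x152c251b02) (nat_lit 0x240506) (nat_lit 4))
 (.p (nat_lit 0x5e242c1902) (nat_lit 0x4c500) (nat_lit 47))))
 (.n (.n (.p (nat_lit 0x352e352c352a35283526076506) (nat_lit 0x800056003) (nat_lit 52))
 (.p (nat_lit 0xe1857c102) (nat_lit 0x32a) (nat_lit 29)))
 (.n (.p (nat_lit 0x200c534302) (nat_lit 0x14090e) (nat_lit 29))
 (.p (nat_lit 0x207e60dd02) (nat_lit 0x3505623a4000400000600) (nat_lit 50))))))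

def c512_266 : Tr := .n c1024_266 c1024_778

def c256_10 : Tr := .n c512_10 c512_266

def c1024_138 : Tr :=
 .n (.n (.n (.n (.n (.n (.p (nat_lit 0x8e008c0086009304) (nat_lit 0xc800400003) (nat_lit 17))
 (.p (nat_lit 0x1812614102) (nat_lit 0x352a21d84000100000600) (nat_lit 49)))
 (.p (nat_lit 0x3104310230fe30fc30fa0229310107) (nat_lit 0x300410) (nat_lit 7)))
 (.n (.p (nat_lit 0x38e1110d02) (nat_lit 0x102403) (nat_lit 16))
 (.p (nat_lit 0x219f1ed702) (nat_lit 0x10092a) (nat_lit 15))))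
 (.n (.n (.p (nat_lit 0x1bc21da102) (nat_lit 0x900) (nat_lit 4))
 (.p (nat_lit 0x259655ad02) (nat_lit 0x440b1c) (nat_lit 29)))
 (.n (.p (nat_lit 0x1c4e1c4c1c4a1c481c461d9f06) (nat_lit 0x100000d0806) (nat_lit 51))
 (.p (nat_lit 0x5d355e4702) (nat_lit 0x180060000600) (nat_lit 36)))))
 (.n (.n (.n (.p (nat_lit 0xf9f0c9502) (nat_lit 0x34e300) (nat_lit 16))
 (.p (nat_lit 0x2b6627ef02) (nat_lit 0x540816) (nat_lit 4)))
 (.n (.p (nat_lit 0x21522150214e214c2148247706) (nat_lit 0x1000090b04) (nat_lit 51))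
 (.p (nat_lit 0x5b185b165b145b125b10033d028c07) (nat_lit 0x308615) (nat_lit 25))))
 (.n (.n (.p (nat_lit 0x1f0e1f0c1f0a1f061f041ee506) (nat_lit 0x2000092901) (nat_lit 52))
 (.p (nat_lit 0x202e108902) (nat_lit 0x40923) (nat_lit 5)))
 (.n (.p (nat_lit 0x38d2346f02) (nat_lit 0x40a) (nat_lit 5))
 (.p (nat_lit 0x6345f3b02) (nat_lit 0x3a6560c44000000040000) (nat_lit 49))))))
 (.n (.n (.n (.n (.p (nat_lit 0x806080407fe07fc05c305c106) (nat_lit 0x600000e100) (nat_lit 52))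
 (.p (nat_lit 0x1ee073102) (nat_lit 0x440015) (nat_lit 1)))
 (.n (.p (nat_lit 0x3e143e123e103e0e3e0c3e0a00c007) (nat_lit 0x204) (nat_lit 8))
 (.p (nat_lit 0x12cc12ca12c812c612c44a0d06) (nat_lit 0x1000000472f) (nat_lit 52))))
 (.n (.n (.p (nat_lit 0x2496248a22c503) (nat_lit 0x540b00) (nat_lit 6))
 (.p (nat_lit 0x4c0a4d8502) (nat_lit 0x500122) (nat_lit 5)))
 (.n (.p (nat_lit 0x18c1a7102) (nat_lit 0x440707) (nat_lit 1))
 (.p (nat_lit 0x5d615e8f02) (nat_lit 0x1c0080000900) (nat_lit 37)))))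
 (.n (.n (.n (.p (nat_lit 0x16d216d016ca16c816b716b506) (nat_lit 0x60000c0600) (nat_lit 52))
 (.p (nat_lit 0x21e221e021dc21da21d805db06) (nat_lit 0x400009401c) (nat_lit 51)))
 (.n (.p (nat_lit 0x2080207e207c207a20781abd06) (nat_lit 0x800054705) (nat_lit 51))
 (.p (nat_lit 0x5d1d0a5502) (nat_lit 0x40000200) (nat_lit 40))))
 (.n (.n (.p (nat_lit 0x205c18c702) (nat_lit 0x540902) (nat_lit 4))
 (.p (nat_lit 0x4b264e3f02) (nat_lit 0x100029) (nat_lit 4)))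
 (.n (.p (nat_lit 0x153e153c153a1536153410df06) (nat_lit 0x200000c40e) (nat_lit 52))
 (.p (nat_lit 0x207a603f02) (nat_lit 0x4a8162340800400000600) (nat_lit 50))))))

def c1024_650 : Tr :=
 .n (.n (.n (.n (.n (.n (.p (nat_lit 0x43c043a044303) (nat_lit 0xc00050002a) (nat_lit 17))
 (.p (nat_lit 0xe7c61bd02) (nat_lit 0x322266c75000300040000) (nat_lit 50)))
 (.p (nat_lit 0x418c53d702) (nat_lit 0x300512) (nat_lit 29)))
 (.n (.p (nat_lit 0x1ff01fee1fec1fea1fe6232906) (nat_lit 0x10000d6a03) (nat_lit 51))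
 (.p (nat_lit 0x35ce3a1102) (nat_lit 0x10012d) (nat_lit 5))))
 (.n (.n (.p (nat_lit 0x212e212c212a212621241e9106) (nat_lit 0x200000ea00) (nat_lit 52))
 (.p (nat_lit 0x3bec37d102) (nat_lit 0x540b1f) (nat_lit 4)))
 (.n (.p (nat_lit 0x1f0e1f0c1f0a1f081f040e0306) (nat_lit 0x1000092307) (nat_lit 52))
 (.p (nat_lit 0x5ced1ad702) (nat_lit 0x20000800) (nat_lit 38)))))
 (.n (.n (.n (.p (nat_lit 0x12da12d612d412d212d010cb06) (nat_lit 0x8000084500) (nat_lit 51))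
 (.p (nat_lit 0x288423502) (nat_lit 0x400619) (nat_lit 1)))
 (.n (.p (nat_lit 0x479c479a479647944792112906) (nat_lit 0x4000082405) (nat_lit 51))
 (.p (nat_lit 0x5ce3063702) (nat_lit 0xa0020000000) (nat_lit 39))))
 (.n (.n (.p (nat_lit 0x592e3f02) (nat_lit 0x40102) (nat_lit 30))
 (.p (nat_lit 0x1c681c661c641c621c60363f06) (nat_lit 0x8000c0126) (nat_lit 52)))
 (.n (.p (nat_lit 0x211621142110210e210c475506) (nat_lit 0x400004c30c) (nat_lit 52))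
 (.p (nat_lit 0x233a5fc502) (nat_lit 0x8982e915800500000600) (nat_lit 49))))))
 (.n (.n (.n (.n (.p (nat_lit 0xbec0be80be40be209d509d106) (nat_lit 0xa0000c8200) (nat_lit 51))
 (.p (nat_lit 0x289543902) (nat_lit 0x400615) (nat_lit 30)))
 (.n (.p (nat_lit 0xfea0fe80fe60fe20fe0168506) (nat_lit 0x2000008604) (nat_lit 51))
 (.p (nat_lit 0x11459ad02) (nat_lit 0x100605) (nat_lit 27))))
 (.n (.n (.p (nat_lit 0x12550f9502) (nat_lit 0x440301) (nat_lit 15))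
 (.p (nat_lit 0x1820181e181c181a181809e506) (nat_lit 0x80004e123) (nat_lit 51)))
 (.n (.p (nat_lit 0x2b4e262302) (nat_lit 0x240808) (nat_lit 4))
 (.p (nat_lit 0x5d515ebd02) (nat_lit 0x2c0080000b00) (nat_lit 37)))))
 (.n (.n (.n (.p (nat_lit 0x1a4e1a4a1a481a461a44179b06) (nat_lit 0x8000056700) (nat_lit 52))
 (.p (nat_lit 0x11d611d211d011ce14eb14e706) (nat_lit 0x140000d051c) (nat_lit 52)))
 (.n (.p (nat_lit 0x4e3c4e3a4e384e364e344e32011e07) (nat_lit 0x406) (nat_lit 8))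
 (.p (nat_lit 0x5d795e1b02) (nat_lit 0x40080000400) (nat_lit 36))))
 (.n (.n (.p (nat_lit 0x63341902) (nat_lit 0x540b02) (nat_lit 30))
 (.p (nat_lit 0xcb2142702) (nat_lit 0x4022a) (nat_lit 4)))
 (.n (.p (nat_lit 0x35f835f635f435f235ee1bdd06) (nat_lit 0x100008880e) (nat_lit 52))
 (.p (nat_lit 0x12a712990fe10fd70d170d0d0a510a4d07a3079f04d704c360c60d) (nat_lit 0x340a621b0000000000000) (nat_lit 33))))))

def c512_138 : Tr := .n c1024_138 c1024_650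

def c1024_394 : Tr :=
 .n (.n (.n (.n (.n (.n (.p (nat_lit 0x1f001ee01e801f304) (nat_lit 0x1900040000e) (nat_lit 17))
 (.p (nat_lit 0x154a617d02) (nat_lit 0x421a86b15000000000600) (nat_lit 50)))
 (.p (nat_lit 0x1bb41bb21bb01bae1baa38e106) (nat_lit 0x1000016411) (nat_lit 52)))
 (.n (.p (nat_lit 0x17e61b8702) (nat_lit 0x40603) (nat_lit 5))
 (.p (nat_lit 0x2b702ab902) (nat_lit 0x4082b) (nat_lit 4))))
 (.n (.n (.p (nat_lit 0x1f2e1f2c1f2a1f281d331d3106) (nat_lit 0x180000c0900) (nat_lit 51))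
 (.p (nat_lit 0xd340d300d2e0d2c0d2a33a306) (nat_lit 0x80000c0a1e) (nat_lit 51)))
 (.n (.p (nat_lit 0xb44513b02) (nat_lit 0x500207) (nat_lit 29))
 (.p (nat_lit 0x5e58181b02) (nat_lit 0x40000700) (nat_lit 46)))))
 (.n (.n (.n (.p (nat_lit 0x3a20f5f02) (nat_lit 0x140400) (nat_lit 1))
 (.p (nat_lit 0x39ea367502) (nat_lit 0x518) (nat_lit 4)))
 (.n (.p (nat_lit 0x8e508d902) (nat_lit 0x40c105) (nat_lit 16))
 (.p (nat_lit 0x3a803a603a403a2041d000b06) (nat_lit 0x516123) (nat_lit 26))))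
 (.n (.n (.p (nat_lit 0x23fa23f623f423f223f021b106) (nat_lit 0x8000090a01) (nat_lit 51))
 (.p (nat_lit 0x16061604160015fe15fc27b106) (nat_lit 0x40000d2124) (nat_lit 51)))
 (.n (.p (nat_lit 0x3f983c9702) (nat_lit 0x40030b) (nat_lit 5))
 (.p (nat_lit 0x6345f7b02) (nat_lit 0x581a22b44000000040000) (nat_lit 49))))))
 (.n (.n (.n (.n (.p (nat_lit 0xa520a46087303) (nat_lit 0x100200) (nat_lit 6))
 (.p (nat_lit 0x1390542b02) (nat_lit 0x300515) (nat_lit 29)))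
 (.n (.p (nat_lit 0x4030402e402c402a4028402606) (nat_lit 0x2404) (nat_lit 52))
 (.p (nat_lit 0x8858f902) (nat_lit 0x100902) (nat_lit 27))))
 (.n (.n (.p (nat_lit 0x26de26dc26da26d826d626d4003607) (nat_lit 0x101) (nat_lit 8))
 (.p (nat_lit 0x748116702) (nat_lit 0x440023) (nat_lit 5)))
 (.n (.p (nat_lit 0x22d0070302) (nat_lit 0x540a07) (nat_lit 4))
 (.p (nat_lit 0x5d6521e102) (nat_lit 0x180080000a00) (nat_lit 41)))))
 (.n (.n (.n (.p (nat_lit 0x18c618c418c018be18bc162706) (nat_lit 0x4000092700) (nat_lit 52))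
 (.p (nat_lit 0x88d088102) (nat_lit 0x20a11c) (nat_lit 16)))
 (.n (.p (nat_lit 0x4b044b024b004afe4afc4afa06) (nat_lit 0x90006) (nat_lit 52))
 (.p (nat_lit 0x5d3d5e0302) (nat_lit 0x100060000300) (nat_lit 37))))
 (.n (.n (.p (nat_lit 0x7a807a607a207a02325231f06) (nat_lit 0x12000042a02) (nat_lit 51))
 (.p (nat_lit 0x50605040502050004fe089f06) (nat_lit 0x1000000612a) (nat_lit 52)))
 (.n (.p (nat_lit 0x57e057c057a05780576137f06) (nat_lit 0x80001250e) (nat_lit 51))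
 (.p (nat_lit 0x1538607f02) (nat_lit 0x511a22b85000000000600) (nat_lit 49))))))

def c1024_906 : Tr :=
 .n (.n (.n (.n (.n (.p (nat_lit 0x656064b02) (nat_lit 0x540000) (nat_lit 5))
 (.p (nat_lit 0x4a8e450302) (nat_lit 0x40813) (nat_lit 4)))
 (.n (.p (nat_lit 0x1aea1ae81ae61ae21ae025c306) (nat_lit 0x2000050b03) (nat_lit 51))
 (.p (nat_lit 0x1e8a1e881e841e821e803f2b06) (nat_lit 0x40000d622e) (nat_lit 52))))
 (.n (.n (.p (nat_lit 0x22c31ffb02) (nat_lit 0x440a00) (nat_lit 15))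
 (.p (nat_lit 0x423f434b02) (nat_lit 0x300b20) (nat_lit 15)))
 (.n (.p (nat_lit 0x132a132813261324132210d906) (nat_lit 0x10000010407) (nat_lit 51))
 (.p (nat_lit 0x5d9d1c5102) (nat_lit 0x1000a0000800) (nat_lit 41)))))
 (.n (.n (.n (.p (nat_lit 0x14df122702) (nat_lit 0x544500) (nat_lit 16))
 (.p (nat_lit 0xbf60bf40bf20bf00bee49eb06) (nat_lit 0x1000000a71a) (nat_lit 51)))
 (.n (.p (nat_lit 0x180849af02) (nat_lit 0x540605) (nat_lit 29))
 (.p (nat_lit 0x5d05079902) (nat_lit 0x180040000100) (nat_lit 38))))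
 (.n (.n (.p (nat_lit 0x6330b902) (nat_lit 0x500402) (nat_lit 30))
 (.p (nat_lit 0x3fc43fc23fc03fbe3fbc3f2306) (nat_lit 0x100000c0227) (nat_lit 52)))
 (.n (.p (nat_lit 0x5096509450925090508e01d9508d07) (nat_lit 0x4080d) (nat_lit 7))
 (.p (nat_lit 0x15485fff02) (nat_lit 0x16a88cd50000000000600) (nat_lit 50))))))
 (.n (.n (.n (.n (.p (nat_lit 0xdc20dbe0dbc0db80b370b3106) (nat_lit 0x9000092300) (nat_lit 52))
 (.p (nat_lit 0x20160c5502) (nat_lit 0x40915) (nat_lit 5)))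
 (.n (.p (nat_lit 0xc200d900df1e631fc905) (nat_lit 0x8ab00704) (nat_lit 9))
 (.p (nat_lit 0x1a201a0019e01980143049306) (nat_lit 0xa1640a) (nat_lit 26))))
 (.n (.n (.p (nat_lit 0x18721870186e18681c1b1c1906) (nat_lit 0x3000006801) (nat_lit 52))
 (.p (nat_lit 0x295c295a295629542952166306) (nat_lit 0x4000002623) (nat_lit 52)))
 (.n (.p (nat_lit 0x31702d5902) (nat_lit 0x540409) (nat_lit 4))
 (.p (nat_lit 0xa525ef302) (nat_lit 0x4a9d84344000200000000) (nat_lit 50)))))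
 (.n (.n (.n (.p (nat_lit 0x1c13190102) (nat_lit 0x40a800) (nat_lit 16))
 (.p (nat_lit 0x384c384a3848384438421d5d06) (nat_lit 0x200005681c) (nat_lit 51)))
 (.n (.p (nat_lit 0x17541750174e174c174a1ad106) (nat_lit 0x8000050706) (nat_lit 51))
 (.p (nat_lit 0x5d695e3102) (nat_lit 0x140080000500) (nat_lit 36))))
 (.n (.n (.p (nat_lit 0x360e360c360a36040a190a1706) (nat_lit 0x300004c103) (nat_lit 52))
 (.p (nat_lit 0x1086108410821080107e0f8106) (nat_lit 0x80005232a) (nat_lit 51)))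
 (.n (.p (nat_lit 0x536e536c536a53685366536401f207) (nat_lit 0x40b0e) (nat_lit 8))
 (.p (nat_lit 0x234460fd02) (nat_lit 0x340a623b0000500000600) (nat_lit 50))))))

def c512_394 : Tr := .n c1024_394 c1024_906

def c256_138 : Tr := .n c512_138 c512_394

def c128_10 : Tr := .n c256_10 c256_138

def c1024_74 : Tr :=
 .n (.n (.n (.n (.n (.n (.p (nat_lit 0x51004b0045003a04) (nat_lit 0xa8800001) (nat_lit 20))
 (.p (nat_lit 0x2344613102) (nat_lit 0x35486a1b0000500000600) (nat_lit 50)))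
 (.p (nat_lit 0x946094409420940093c2b9706) (nat_lit 0x100008a90f) (nat_lit 52)))
 (.n (.p (nat_lit 0x385d0fa702) (nat_lit 0x140303) (nat_lit 16))
 (.p (nat_lit 0x2b351c0d02) (nat_lit 0x10c82a) (nat_lit 16))))
 (.n (.n (.p (nat_lit 0x1d261d221d201d1c1a651a5f06) (nat_lit 0x90000d6800) (nat_lit 52))
 (.p (nat_lit 0x230122f502) (nat_lit 0x54aa1c) (nat_lit 16)))
 (.n (.p (nat_lit 0x8f208f008ee08ec08e81d9706) (nat_lit 0x10000c2806) (nat_lit 52))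
 (.p (nat_lit 0x5e3c2ae702) (nat_lit 0x20044600) (nat_lit 47)))))
 (.n (.n (.n (.p (nat_lit 0xf040f000efe0efc0c990c9506) (nat_lit 0x14000050300) (nat_lit 52))
 (.p (nat_lit 0x2599258d02) (nat_lit 0x548b15) (nat_lit 16)))
 (.n (.p (nat_lit 0x24781e7902) (nat_lit 0x200b04) (nat_lit 4))
 (.p (nat_lit 0x240023e023c023801e901a306) (nat_lit 0xd16511) (nat_lit 26))))
 (.n (.n (.p (nat_lit 0x4ca04c804c604c404c21eeb06) (nat_lit 0x10000000901) (nat_lit 52))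
 (.p (nat_lit 0x39243922391e391c391a1d6b06) (nat_lit 0x40000c2823) (nat_lit 52)))
 (.n (.p (nat_lit 0x37d2522102) (nat_lit 0x30a) (nat_lit 29))
 (.p (nat_lit 0x1ad65f2f02) (nat_lit 0x3a2560b44000200000600) (nat_lit 49))))))
 (.n (.n (.n (.n (.p (nat_lit 0x7aa079e05c703) (nat_lit 0x500100) (nat_lit 6))
 (.p (nat_lit 0x5d053fd02) (nat_lit 0x400015) (nat_lit 29)))
 (.n (.p (nat_lit 0xb8d08cf02) (nat_lit 0x500104) (nat_lit 15))
 (.p (nat_lit 0x229e229c229a22982296469706) (nat_lit 0x100000ce22f) (nat_lit 52))))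
 (.n (.n (.p (nat_lit 0x243f215b02) (nat_lit 0x306b00) (nat_lit 16))
 (.p (nat_lit 0x4b1c4d6902) (nat_lit 0x100022) (nat_lit 4)))
 (.n (.p (nat_lit 0x190806af02) (nat_lit 0x200707) (nat_lit 5))
 (.p (nat_lit 0x5d3f5e8d02) (nat_lit 0xe0060000900) (nat_lit 37)))))
 (.n (.n (.n (.p (nat_lit 0x1675154d02) (nat_lit 0x10600) (nat_lit 16))
 (.p (nat_lit 0xbae0bac0baa0ba80ba605df06) (nat_lit 0x1000008401c) (nat_lit 52)))
 (.n (.p (nat_lit 0xa5a0a580a560a540a501abf06) (nat_lit 0x1000044705) (nat_lit 51))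
 (.p (nat_lit 0x5ddc2ba102) (nat_lit 0xc200) (nat_lit 47))))
 (.n (.n (.p (nat_lit 0x1b541b521b4e1b4c1ef31eed06) (nat_lit 0x4800008902) (nat_lit 52))
 (.p (nat_lit 0x468a4688468646844680040b468307) (nat_lit 0x140228) (nat_lit 7)))
 (.n (.p (nat_lit 0x47610f7b02) (nat_lit 0x35430e) (nat_lit 16))
 (.p (nat_lit 0x1db0602f02) (nat_lit 0x466a62335000300000600) (nat_lit 50))))))

def c1024_586 : Tr :=
 .n (.n (.n (.n (.n (.n (.p (nat_lit 0x3a803a603a403ad04) (nat_lit 0xe000400023) (nat_lit 17))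
 (.p (nat_lit 0xe7661ad02) (nat_lit 0x3421a9c14800300040000) (nat_lit 49)))
 (.p (nat_lit 0x1dfc1dfa1df81df61df4408d06) (nat_lit 0x10000084412) (nat_lit 51)))
 (.n (.p (nat_lit 0x3b1321c502) (nat_lit 0x208a03) (nat_lit 16))
 (.p (nat_lit 0x336231cf02) (nat_lit 0x200a2c) (nat_lit 5))))
 (.n (.n (.p (nat_lit 0x1e961e921e901e8c001a000900031e951e8f09) (nat_lit 0x2100a00) (nat_lit 10))
 (.p (nat_lit 0x3b4455df02) (nat_lit 0x540a1f) (nat_lit 29)))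
 (.n (.p (nat_lit 0xe0a0e040e020e000168014901470e090e0709) (nat_lit 0x2300307) (nat_lit 10))
 (.p (nat_lit 0x5d83181502) (nat_lit 0x2a00a0000700) (nat_lit 38)))))
 (.n (.n (.n (.p (nat_lit 0x10cc10ca10c810c410c2000510c707) (nat_lit 0x200500) (nat_lit 7))
 (.p (nat_lit 0x419c3ec902) (nat_lit 0x500519) (nat_lit 5)))
 (.n (.p (nat_lit 0xfc2470502) (nat_lit 0x340305) (nat_lit 29))
 (.p (nat_lit 0x4b204b004ae04aa04a5043f06) (nat_lit 0xd1072f) (nat_lit 26))))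
 (.n (.n (.p (nat_lit 0x2d642d622d602d5c2d5a075d06) (nat_lit 0x2000052002) (nat_lit 52))
 (.p (nat_lit 0x33fa30e702) (nat_lit 0x100b25) (nat_lit 4)))
 (.n (.p (nat_lit 0x45fc442b02) (nat_lit 0x30020c) (nat_lit 5))
 (.p (nat_lit 0xbba5fa702) (nat_lit 0x89832955800200040000) (nat_lit 50))))))
 (.n (.n (.n (.n (.p (nat_lit 0x9d20bad02) (nat_lit 0x340200) (nat_lit 4))
 (.p (nat_lit 0x1ade1adc1ad81ad61ad414db06) (nat_lit 0x4000050515) (nat_lit 52)))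
 (.n (.p (nat_lit 0x16821e4702) (nat_lit 0x100604) (nat_lit 4))
 (.p (nat_lit 0xec598702) (nat_lit 0x500b04) (nat_lit 27))))
 (.n (.n (.p (nat_lit 0xe2e0e2c0e2a0e280e24002d0e2707) (nat_lit 0x100301) (nat_lit 7))
 (.p (nat_lit 0x9e6117902) (nat_lit 0x140123) (nat_lit 4)))
 (.n (.p (nat_lit 0x292a267502) (nat_lit 0x440308) (nat_lit 4))
 (.p (nat_lit 0x5d27249302) (nat_lit 0x260060000b00) (nat_lit 41)))))
 (.n (.n (.n (.p (nat_lit 0x1a121a101a0c1a081799179506) (nat_lit 0x50000ca700) (nat_lit 52))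
 (.p (nat_lit 0x14e20d5d02) (nat_lit 0x14051c) (nat_lit 4)))
 (.n (.p (nat_lit 0xe624d5d02) (nat_lit 0x100306) (nat_lit 29))
 (.p (nat_lit 0x5e104a4b02) (nat_lit 0x20054400) (nat_lit 47))))
 (.n (.n (.p (nat_lit 0x176c176a176817661762245f06) (nat_lit 0x1000012b02) (nat_lit 51))
 (.p (nat_lit 0x129c129a1298129612940b5d06) (nat_lit 0x1000000a22a) (nat_lit 52)))
 (.n (.p (nat_lit 0x531a5318531653145312531001f207) (nat_lit 0x4070e) (nat_lit 8))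
 (.p (nat_lit 0x1f0c60a902) (nat_lit 0x344581ca4000300040600) (nat_lit 49))))))

def c512_74 : Tr := .n c1024_74 c1024_586

def c1024_330 : Tr :=
 .n (.n (.n (.n (.n (.n (.p (nat_lit 0x1460142014f03) (nat_lit 0x5000500007) (nat_lit 17))
 (.p (nat_lit 0x13fe616d02) (nat_lit 0x421aa4394000500040000) (nat_lit 50)))
 (.p (nat_lit 0x33eb33e102) (nat_lit 0x506b10) (nat_lit 16)))
 (.n (.p (nat_lit 0x167e1ceb02) (nat_lit 0x500603) (nat_lit 4))
 (.p (nat_lit 0x15e215de15dc15da15d8282106) (nat_lit 0x800001022b) (nat_lit 52))))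
 (.n (.n (.p (nat_lit 0x1ee51bc702) (nat_lit 0x20c900) (nat_lit 16))
 (.p (nat_lit 0x32f42fdf02) (nat_lit 0x14091e) (nat_lit 4)))
 (.n (.p (nat_lit 0x227c227a227622722065206106) (nat_lit 0x500004c906) (nat_lit 51))
 (.p (nat_lit 0x5cdb197f02) (nat_lit 0x120020000700) (nat_lit 41)))))
 (.n (.n (.n (.p (nat_lit 0x10be10bc10b810b60dff0df906) (nat_lit 0x12000096400) (nat_lit 52))
 (.p (nat_lit 0x33a5339902) (nat_lit 0x548a17) (nat_lit 16)))
 (.n (.p (nat_lit 0x784442302) (nat_lit 0x440005) (nat_lit 29))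
 (.p (nat_lit 0x40c5bbd02) (nat_lit 0x200521) (nat_lit 27))))
 (.n (.n (.p (nat_lit 0x2067204f02) (nat_lit 0x454901) (nat_lit 16))
 (.p (nat_lit 0x264429af02) (nat_lit 0x200024) (nat_lit 5)))
 (.n (.p (nat_lit 0x50805060504050004fe3bc306) (nat_lit 0x2000046b0a) (nat_lit 52))
 (.p (nat_lit 0x20725f6f02) (nat_lit 0x3aa074b50000400000600) (nat_lit 49))))))
 (.n (.n (.n (.n (.p (nat_lit 0x9d9071d02) (nat_lit 0x46100) (nat_lit 16))
 (.p (nat_lit 0x124a124612441240029e028902831249124309) (nat_lit 0x2140415) (nat_lit 10)))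
 (.n (.p (nat_lit 0x36a0fb902) (nat_lit 0x440304) (nat_lit 1))
 (.p (nat_lit 0x32002e002c002a011d000706) (nat_lit 0x2b14901) (nat_lit 26))))
 (.n (.n (.p (nat_lit 0x260225fe25fc25fa25f805f506) (nat_lit 0x8000006001) (nat_lit 52))
 (.p (nat_lit 0x12b412b212b012ae12ac05eb06) (nat_lit 0x10000002023) (nat_lit 52)))
 (.n (.p (nat_lit 0x203f200302) (nat_lit 0x248907) (nat_lit 16))
 (.p (nat_lit 0x5e9c206f02) (nat_lit 0x40000a00) (nat_lit 45)))))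
 (.n (.n (.n (.p (nat_lit 0x16281626162416220014000b0001162b162109) (nat_lit 0x2800700) (nat_lit 10))
 (.p (nat_lit 0x8820d3d02) (nat_lit 0x30011c) (nat_lit 5)))
 (.n (.p (nat_lit 0x1fc01fbe1fbc1fb81fb61d8d06) (nat_lit 0x20000cc805) (nat_lit 52))
 (.p (nat_lit 0x5cd15dfb02) (nat_lit 0x1c0020000300) (nat_lit 37))))
 (.n (.n (.p (nat_lit 0x248a24882482248021bb21b906) (nat_lit 0x6000096a02) (nat_lit 52))
 (.p (nat_lit 0x10c010be10bc10b650c150bf06) (nat_lit 0x30000d6829) (nat_lit 52)))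
 (.n (.p (nat_lit 0x4853123d02) (nat_lit 0x45440e) (nat_lit 16))
 (.p (nat_lit 0x207a606f02) (nat_lit 0x588172b40800400000600) (nat_lit 50))))))

def c1024_842 : Tr :=
 .n (.n (.n (.n (.n (.n (.p (nat_lit 0x5d304e502) (nat_lit 0x504000) (nat_lit 16))
 (.p (nat_lit 0x8fc61eb02) (nat_lit 0x14e0a8c74000100040000) (nat_lit 50)))
 (.p (nat_lit 0x1ca494502) (nat_lit 0x340513) (nat_lit 1)))
 (.n (.p (nat_lit 0x25c83bbd02) (nat_lit 0x540b03) (nat_lit 29))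
 (.p (nat_lit 0x439f3bfb02) (nat_lit 0x54b2d) (nat_lit 16))))
 (.n (.n (.p (nat_lit 0x227c227a227622741ff91ff306) (nat_lit 0x480004ca00) (nat_lit 51))
 (.p (nat_lit 0xd4c0d4a0d480d440d42428506) (nat_lit 0x20000c2620) (nat_lit 51)))
 (.n (.p (nat_lit 0x10ce068902) (nat_lit 0x407) (nat_lit 4))
 (.p (nat_lit 0x5d655e7902) (nat_lit 0x180080000800) (nat_lit 37)))))
 (.n (.n (.n (.p (nat_lit 0x143a1438143614321227121f06) (nat_lit 0x11000046500) (nat_lit 52))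
 (.p (nat_lit 0x494e45cf02) (nat_lit 0x24051a) (nat_lit 5)))
 (.n (.p (nat_lit 0x23ee23ea23e823e623e4169506) (nat_lit 0x8000010605) (nat_lit 52))
 (.p (nat_lit 0x5dc40b3b02) (nat_lit 0xa100) (nat_lit 47))))
 (.n (.n (.p (nat_lit 0xfa20fa00f9e0f9c0f9a00590f9907) (nat_lit 0x40302) (nat_lit 7))
 (.p (nat_lit 0x1fcc1fca1fc81fc61fc23d7306) (nat_lit 0x100000e127) (nat_lit 52)))
 (.n (.p (nat_lit 0x4be4f1d02) (nat_lit 0x44040d) (nat_lit 1))
 (.p (nat_lit 0x6385fef02) (nat_lit 0x306a81c35000000040000) (nat_lit 49))))))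
 (.n (.n (.n (.n (.p (nat_lit 0xd4c0d4a0d480d440b330b2f06) (nat_lit 0x2800082300) (nat_lit 51))
 (.p (nat_lit 0x1d500c4102) (nat_lit 0x240815) (nat_lit 5)))
 (.n (.p (nat_lit 0x1f0e1f0c1f0a1f0417f717f506) (nat_lit 0x30000d2604) (nat_lit 52))
 (.p (nat_lit 0x1760174017201700141003506) (nat_lit 0x512308) (nat_lit 26))))
 (.n (.n (.p (nat_lit 0x152914ed02) (nat_lit 0x54501) (nat_lit 16))
 (.p (nat_lit 0xebe0ebc0eba0eb80eb60ca706) (nat_lit 0x80004a223) (nat_lit 51)))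
 (.n (.p (nat_lit 0x309430923090308e308a0187308d07) (nat_lit 0x140309) (nat_lit 7))
 (.p (nat_lit 0xbae5ee302) (nat_lit 0x4a8866344000200040000) (nat_lit 49)))))
 (.n (.n (.n (.p (nat_lit 0x1ba81ba41ba21b9e190118fb06) (nat_lit 0x9000094800) (nat_lit 52))
 (.p (nat_lit 0x1bfa1bf81bf61bf20328031103091bfd1bf509) (nat_lit 0x290081c) (nat_lit 10)))
 (.n (.p (nat_lit 0x1778177617721770176e196b06) (nat_lit 0x4000092706) (nat_lit 52))
 (.p (nat_lit 0x5cef13fb02) (nat_lit 0x2e0040000500) (nat_lit 41))))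
 (.n (.n (.p (nat_lit 0xb7908bb02) (nat_lit 0x100103) (nat_lit 15))
 (.p (nat_lit 0x3fad0e2102) (nat_lit 0x41232a) (nat_lit 16)))
 (.n (.p (nat_lit 0x22d809af02) (nat_lit 0x340a0e) (nat_lit 4))
 (.p (nat_lit 0x63460f302) (nat_lit 0x440d663a4000000040000) (nat_lit 49))))))

def c512_330 : Tr := .n c1024_330 c1024_842

def c256_74 : Tr := .n c512_74 c512_330

def c1024_202 : Tr :=
 .n (.n (.n (.n (.n (.n (.p (nat_lit 0xb400c502) (nat_lit 0x800600004) (nat_lit 17))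
 (.p (nat_lit 0x8fe615102) (nat_lit 0x2b0221d84000100040000) (nat_lit 50)))
 (.p (nat_lit 0x39e531e702) (nat_lit 0x312510) (nat_lit 16)))
 (.n (.p (nat_lit 0x397f126502) (nat_lit 0x44403) (nat_lit 16))
 (.p (nat_lit 0x21a614a502) (nat_lit 0x500a2a) (nat_lit 4))))
 (.n (.n (.p (nat_lit 0x1e2a1e281e221e201bc91bc706) (nat_lit 0x6000088900) (nat_lit 52))
 (.p (nat_lit 0x2b2855bb02) (nat_lit 0x50081d) (nat_lit 29)))
 (.n (.p (nat_lit 0x1efe240302) (nat_lit 0x300906) (nat_lit 5))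
 (.p (nat_lit 0x5d51154902) (nat_lit 0x2c0080000600) (nat_lit 40)))))
 (.n (.n (.n (.p (nat_lit 0xdfe0dfa0df60df40020000900050dfd0df909) (nat_lit 0x2200400) (nat_lit 10))
 (.p (nat_lit 0x31f02ee902) (nat_lit 0x200517) (nat_lit 4)))
 (.n (.p (nat_lit 0x20c620c420c020bc25d125cd06) (nat_lit 0x50000c4b04) (nat_lit 51))
 (.p (nat_lit 0x2fb5b6302) (nat_lit 0x40041a) (nat_lit 28))))
 (.n (.n (.p (nat_lit 0x312bd702) (nat_lit 0x340901) (nat_lit 30))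
 (.p (nat_lit 0x22f611fb02) (nat_lit 0x40a23) (nat_lit 5)))
 (.n (.p (nat_lit 0x40ff397102) (nat_lit 0x55440a) (nat_lit 16))
 (.p (nat_lit 0x20705f5102) (nat_lit 0x1a1d22350000400000600) (nat_lit 49))))))
 (.n (.n (.n (.n (.p (nat_lit 0x8d305bf02) (nat_lit 0x114100) (nat_lit 16))
 (.p (nat_lit 0x10e6540d02) (nat_lit 0x415) (nat_lit 29)))
 (.n (.p (nat_lit 0x2e40ce302) (nat_lit 0x40204) (nat_lit 1))
 (.p (nat_lit 0x4dd84f5102) (nat_lit 0x300330) (nat_lit 5))))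
 (.n (.n (.p (nat_lit 0x25422540253e253c253a22c506) (nat_lit 0x10000050b00) (nat_lit 51))
 (.p (nat_lit 0x505c4e0302) (nat_lit 0x822) (nat_lit 4)))
 (.n (.p (nat_lit 0x3502350034fa34f81bd51bd306) (nat_lit 0x6000008807) (nat_lit 52))
 (.p (nat_lit 0x5cbd21cd02) (nat_lit 0xa00) (nat_lit 39)))))
 (.n (.n (.n (.p (nat_lit 0x176c176a1766176216b716b306) (nat_lit 0x5000052600) (nat_lit 51))
 (.p (nat_lit 0x8fc08fa08f808f608f4073f06) (nat_lit 0x100000c201c) (nat_lit 51)))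
 (.n (.p (nat_lit 0x1c2a4a6902) (nat_lit 0x400805) (nat_lit 29))
 (.p (nat_lit 0x5d730a5902) (nat_lit 0xa0080000200) (nat_lit 40))))
 (.n (.n (.p (nat_lit 0x32e5205b02) (nat_lit 0x442902) (nat_lit 16))
 (.p (nat_lit 0x11a4c8f02) (nat_lit 0x440129) (nat_lit 1)))
 (.n (.p (nat_lit 0x408510dd02) (nat_lit 0x11240e) (nat_lit 16))
 (.p (nat_lit 0x64a604f02) (nat_lit 0x40a962335000000040000) (nat_lit 50))))))

def c1024_714 : Tr :=
 .n (.n (.n (.n (.n (.n (.p (nat_lit 0x4e404e004de04dc04da000904e307) (nat_lit 0x400000) (nat_lit 7))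
 (.p (nat_lit 0x114661cd02) (nat_lit 0x3421684a0800400040000) (nat_lit 50)))
 (.p (nat_lit 0x82a0828082608240822422106) (nat_lit 0x800090612) (nat_lit 52)))
 (.n (.p (nat_lit 0xd1c0d1a0d180d160d14246906) (nat_lit 0x800006b03) (nat_lit 51))
 (.p (nat_lit 0x1b901b8e1b8a1b881b8636d506) (nat_lit 0x400008c22d) (nat_lit 51))))
 (.n (.n (.p (nat_lit 0x21791e8d02) (nat_lit 0x4a00) (nat_lit 16))
 (.p (nat_lit 0x1fb41fb01fae1fac1faa3d0906) (nat_lit 0x800004c020) (nat_lit 51)))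
 (.n (.p (nat_lit 0xf720f700f6e0f68015a014501430f6d0f6b09) (nat_lit 0x1140307) (nat_lit 10))
 (.p (nat_lit 0x5e6c375d02) (nat_lit 0x2004a800) (nat_lit 47)))))
 (.n (.n (.n (.p (nat_lit 0x4df10c702) (nat_lit 0x200500) (nat_lit 15))
 (.p (nat_lit 0x42ce3e5502) (nat_lit 0x300719) (nat_lit 5)))
 (.n (.p (nat_lit 0x13d820fb02) (nat_lit 0x300505) (nat_lit 4))
 (.p (nat_lit 0x5db649cd02) (nat_lit 0x40014000) (nat_lit 47))))
 (.n (.n (.p (nat_lit 0xb7419c102) (nat_lit 0x500202) (nat_lit 5))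
 (.p (nat_lit 0x375b374f02) (nat_lit 0x40226) (nat_lit 16)))
 (.n (.p (nat_lit 0x49d043f502) (nat_lit 0x40070c) (nat_lit 4))
 (.p (nat_lit 0x180a5fd102) (nat_lit 0x95a2ec05000100000600) (nat_lit 49))))))
 (.n (.n (.n (.n (.p (nat_lit 0xca509d702) (nat_lit 0x540200) (nat_lit 16))
 (.p (nat_lit 0x19200ac102) (nat_lit 0x200715) (nat_lit 5)))
 (.n (.p (nat_lit 0x4231168502) (nat_lit 0x204604) (nat_lit 16))
 (.p (nat_lit 0x11a0118011601140001027306) (nat_lit 0x510106) (nat_lit 26))))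
 (.n (.n (.p (nat_lit 0x1252172d02) (nat_lit 0x340401) (nat_lit 4))
 (.p (nat_lit 0x56b656b456b256b056ae56ac03ac07) (nat_lit 0x223) (nat_lit 8)))
 (.n (.p (nat_lit 0x14a2be702) (nat_lit 0x540908) (nat_lit 1))
 (.p (nat_lit 0x6345ec702) (nat_lit 0x4a1a34344000000040000) (nat_lit 49)))))
 (.n (.n (.n (.p (nat_lit 0x1ab9179b02) (nat_lit 0x452700) (nat_lit 16))
 (.p (nat_lit 0x311553702) (nat_lit 0x54061c) (nat_lit 30)))
 (.n (.p (nat_lit 0x1290250702) (nat_lit 0x440406) (nat_lit 4))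
 (.p (nat_lit 0x5d975e2102) (nat_lit 0x1600a0000400) (nat_lit 37))))
 (.n (.n (.p (nat_lit 0x60e1c5d02) (nat_lit 0x500003) (nat_lit 4))
 (.p (nat_lit 0x153e153c153a153815340cb506) (nat_lit 0x100004c22a) (nat_lit 52)))
 (.n (.p (nat_lit 0x35aa35a835a635a235a01d4506) (nat_lit 0x200005680e) (nat_lit 51))
 (.p (nat_lit 0xbae60d302) (nat_lit 0x340a623b0000200040000) (nat_lit 49))))))

def c512_202 : Tr := .n c1024_202 c1024_714

def c1024_458 : Tr :=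
 .n (.n (.n (.n (.n (.n (.p (nat_lit 0x28a0288028f03) (nat_lit 0x18000500015) (nat_lit 17))
 (.p (nat_lit 0x8ee618d02) (nat_lit 0x54c88a970000100040000) (nat_lit 49)))
 (.p (nat_lit 0x39e839e639e239e039de023f39e507) (nat_lit 0x300511) (nat_lit 7)))
 (.n (.p (nat_lit 0x1a1c1a1a1a181a161a1417f106) (nat_lit 0x10000052603) (nat_lit 51))
 (.p (nat_lit 0x12c212c012bc12ba12b82c1f06) (nat_lit 0x40000c292b) (nat_lit 52))))
 (.n (.n (.p (nat_lit 0x1fbc1fba1fb81fb61d331d3106) (nat_lit 0x180000cc900) (nat_lit 52))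
 (.p (nat_lit 0x3552378902) (nat_lit 0x54001f) (nat_lit 5)))
 (.n (.p (nat_lit 0x36c10b4502) (nat_lit 0x510207) (nat_lit 16))
 (.p (nat_lit 0x5e5a301102) (nat_lit 0x60000700) (nat_lit 47)))))
 (.n (.n (.n (.p (nat_lit 0x1180117c117a11760f650f5f06) (nat_lit 0x90000c2400) (nat_lit 52))
 (.p (nat_lit 0x3aaa371d02) (nat_lit 0x400618) (nat_lit 4)))
 (.n (.p (nat_lit 0x45ea45e845e445e245e00b9506) (nat_lit 0x400000e205) (nat_lit 51))
 (.p (nat_lit 0x3a25c1702) (nat_lit 0x100829) (nat_lit 27))))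
 (.n (.n (.p (nat_lit 0x252c252a252625222315231106) (nat_lit 0x500004ea01) (nat_lit 51))
 (.p (nat_lit 0x2c1229ef02) (nat_lit 0x340924) (nat_lit 4)))
 (.n (.p (nat_lit 0x42143cbf02) (nat_lit 0x60b) (nat_lit 5))
 (.p (nat_lit 0x23485f8d02) (nat_lit 0x581a30344000500000600) (nat_lit 50))))))
 (.n (.n (.n (.n (.p (nat_lit 0xa8a0a880a840a820a80087706) (nat_lit 0x4000088200) (nat_lit 52))
 (.p (nat_lit 0x18141812180e180c180a139106) (nat_lit 0x400000e515) (nat_lit 52)))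
 (.n (.p (nat_lit 0x40d240d040ce40cc40c8127306) (nat_lit 0x10000cc404) (nat_lit 51))
 (.p (nat_lit 0x242592502) (nat_lit 0x500103) (nat_lit 27))))
 (.n (.n (.p (nat_lit 0xa06157902) (nat_lit 0x540101) (nat_lit 4))
 (.p (nat_lit 0x88c100902) (nat_lit 0x200123) (nat_lit 4)))
 (.n (.p (nat_lit 0x1637241f02) (nat_lit 0x500b07) (nat_lit 15))
 (.p (nat_lit 0x5c9d248d02) (nat_lit 0x200000000b00) (nat_lit 41)))))
 (.n (.n (.n (.p (nat_lit 0x1911162102) (nat_lit 0x2700) (nat_lit 16))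
 (.p (nat_lit 0xbe00bde0bdc0bd809dd09d906) (nat_lit 0x280004811c) (nat_lit 51)))
 (.n (.p (nat_lit 0x8e608e208e008de08dc011b08e507) (nat_lit 0x400106) (nat_lit 7))
 (.p (nat_lit 0x5d595e0502) (nat_lit 0x240080000300) (nat_lit 36))))
 (.n (.n (.p (nat_lit 0x1c441c421c3e1c3c1c3a232106) (nat_lit 0x40000d0a02) (nat_lit 52))
 (.p (nat_lit 0x14809f902) (nat_lit 0x44012a) (nat_lit 1)))
 (.n (.p (nat_lit 0x50805060502050004fe14cf06) (nat_lit 0x400004650e) (nat_lit 52))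
 (.p (nat_lit 0x642608f02) (nat_lit 0x356221ca4000000040000) (nat_lit 50))))))

def c1024_970 : Tr :=
 .n (.n (.n (.n (.n (.p (nat_lit 0x69e069a069806960655064d06) (nat_lit 0x88000c8000) (nat_lit 52))
 (.p (nat_lit 0x4f264c5302) (nat_lit 0x340414) (nat_lit 4)))
 (.n (.p (nat_lit 0x6163c0d02) (nat_lit 0x300004) (nat_lit 29))
 (.p (nat_lit 0x12da12d812d612d412d0429b06) (nat_lit 0x10000c462e) (nat_lit 51))))
 (.n (.n (.p (nat_lit 0x215a234502) (nat_lit 0x300b00) (nat_lit 5))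
 (.p (nat_lit 0x227c227a22762274227244a306) (nat_lit 0x400004c021) (nat_lit 51)))
 (.n (.p (nat_lit 0x14e015d0159052d069f05) (nat_lit 0x64540407) (nat_lit 9))
 (.p (nat_lit 0x5c931f0502) (nat_lit 0x2a0000000900) (nat_lit 39)))))
 (.n (.n (.n (.p (nat_lit 0x1556155415521550000c00030001154f154d09) (nat_lit 0x800600) (nat_lit 10))
 (.p (nat_lit 0x4f624d1f02) (nat_lit 0x20051b) (nat_lit 5)))
 (.n (.p (nat_lit 0xa4e0a4c0a4a0a480a44195b06) (nat_lit 0x1000004705) (nat_lit 52))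
 (.p (nat_lit 0x5dd2079b02) (nat_lit 0x60000100) (nat_lit 45))))
 (.n (.n (.p (nat_lit 0x5d318302) (nat_lit 0x200502) (nat_lit 30))
 (.p (nat_lit 0x42ea407502) (nat_lit 0x500727) (nat_lit 5)))
 (.n (.p (nat_lit 0xe1052cd02) (nat_lit 0x20030e) (nat_lit 29))
 (.p (nat_lit 0x181c601102) (nat_lit 0x405aa0b95000100000600) (nat_lit 50))))))
 (.n (.n (.n (.n (.p (nat_lit 0xe5b0b3502) (nat_lit 0x314300) (nat_lit 16))
 (.p (nat_lit 0x21822180217e2178029a02850283217d217b09) (nat_lit 0x1100a15) (nat_lit 10)))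
 (.n (.p (nat_lit 0x1bc01bbe1bbc1bba1bb6194f06) (nat_lit 0x1000096704) (nat_lit 51))
 (.p (nat_lit 0x1f001ec01ea01e80149000106) (nat_lit 0x200a40e) (nat_lit 26))))
 (.n (.n (.p (nat_lit 0x1d861d841d821d801d7c002d1d7f07) (nat_lit 0x140801) (nat_lit 7))
 (.p (nat_lit 0x1c03193902) (nat_lit 0x200723) (nat_lit 15)))
 (.n (.p (nat_lit 0x536053405320530052e332d06) (nat_lit 0x1000000ca09) (nat_lit 52))
 (.p (nat_lit 0x23445f0f02) (nat_lit 0x3a2570344000500000600) (nat_lit 50)))))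
 (.n (.n (.n (.p (nat_lit 0x1c5a1c581c561c521a671a5f06) (nat_lit 0x11000040800) (nat_lit 52))
 (.p (nat_lit 0x309557702) (nat_lit 0x14091c) (nat_lit 30)))
 (.n (.p (nat_lit 0x4d804d404d204d004ce1c3706) (nat_lit 0x8000000806) (nat_lit 51))
 (.p (nat_lit 0x5e34336902) (nat_lit 0xa000e500) (nat_lit 48))))
 (.n (.n (.p (nat_lit 0xcda1c9302) (nat_lit 0x240203) (nat_lit 4))
 (.p (nat_lit 0x17dc130302) (nat_lit 0x14062a) (nat_lit 4)))
 (.n (.p (nat_lit 0x17541750174e174c174a299b06) (nat_lit 0x800001040f) (nat_lit 51))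
 (.p (nat_lit 0xbb2611502) (nat_lit 0x3422621b0000200040000) (nat_lit 50))))))

def c512_458 : Tr := .n c1024_458 c1024_970

def c256_202 : Tr := .n c512_202 c512_458

def c128_74 : Tr := .n c256_74 c256_202

def c64_10 : Tr := .n c128_10 c128_74

def c1024_42 : Tr :=
 .n (.n (.n (.n (.n (.n (.p (nat_lit 0x2c002a003903) (nat_lit 0x1800500001) (nat_lit 17))
 (.p (nat_lit 0x8fa612d02) (nat_lit 0x45486a3a4000100040000) (nat_lit 50)))
 (.p (nat_lit 0x2b58278502) (nat_lit 0x24080f) (nat_lit 5)))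
 (.n (.p (nat_lit 0xfaa1cab02) (nat_lit 0x340303) (nat_lit 5))
 (.p (nat_lit 0x43f580702) (nat_lit 0x54072a) (nat_lit 30))))
 (.n (.n (.p (nat_lit 0x1d001cfe1cfc1cfa1a671a5d06) (nat_lit 0x10800054800) (nat_lit 51))
 (.p (nat_lit 0x22ee0f3d02) (nat_lit 0x240a1c) (nat_lit 5)))
 (.n (.p (nat_lit 0x1d9623f302) (nat_lit 0x140806) (nat_lit 5))
 (.p (nat_lit 0x5cd55e3f02) (nat_lit 0x180020000600) (nat_lit 36)))))
 (.n (.n (.n (.p (nat_lit 0xeca0ec80ec60ec00c930c9106) (nat_lit 0x30000ca300) (nat_lit 51))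
 (.p (nat_lit 0x25840c8502) (nat_lit 0x140b15) (nat_lit 4)))
 (.n (.p (nat_lit 0x1bb21bb01bae1bac1baa1abb06) (nat_lit 0x10000056704) (nat_lit 52))
 (.p (nat_lit 0x214020e020c020a01ed017706) (nat_lit 0x1c1250f) (nat_lit 26))))
 (.n (.n (.p (nat_lit 0x1ee0176302) (nat_lit 0x901) (nat_lit 5))
 (.p (nat_lit 0x1d64107102) (nat_lit 0x40823) (nat_lit 5)))
 (.n (.p (nat_lit 0x3742344b02) (nat_lit 0x4020a) (nat_lit 4))
 (.p (nat_lit 0x6425f2102) (nat_lit 0x3a2570344000000040000) (nat_lit 50))))))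
 (.n (.n (.n (.n (.p (nat_lit 0x7aa07a807a607a407a207a006) (nat_lit 0x100) (nat_lit 3))
 (.p (nat_lit 0x26450f502) (nat_lit 0x400914) (nat_lit 1)))
 (.n (.p (nat_lit 0x8c41dd102) (nat_lit 0x104) (nat_lit 5))
 (.p (nat_lit 0x22ac22aa22a822a622a2460506) (nat_lit 0x100001022f) (nat_lit 52))))
 (.n (.n (.p (nat_lit 0x2402240023fe23fc215f215d06) (nat_lit 0x18000012b00) (nat_lit 51))
 (.p (nat_lit 0x4a4046df02) (nat_lit 0x240721) (nat_lit 5)))
 (.n (.p (nat_lit 0x17a206a502) (nat_lit 0x240607) (nat_lit 5))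
 (.p (nat_lit 0x5cfd5e8902) (nat_lit 0x200040000900) (nat_lit 37)))))
 (.n (.n (.n (.p (nat_lit 0x162f154f02) (nat_lit 0x100600) (nat_lit 16))
 (.p (nat_lit 0x5dc0e8d02) (nat_lit 0x40001c) (nat_lit 5)))
 (.n (.p (nat_lit 0x1ac2229d02) (nat_lit 0x340705) (nat_lit 4))
 (.p (nat_lit 0x5cb75ddd02) (nat_lit 0x60000000200) (nat_lit 37))))
 (.n (.n (.p (nat_lit 0x1ef018b502) (nat_lit 0x200902) (nat_lit 4))
 (.p (nat_lit 0x458a479702) (nat_lit 0x240128) (nat_lit 5)))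
 (.n (.p (nat_lit 0xa660a640a600a5e0a5c0f7b06) (nat_lit 0x400004030e) (nat_lit 51))
 (.p (nat_lit 0x64a602702) (nat_lit 0x406a62335000000040000) (nat_lit 50))))))

def c1024_554 : Tr :=
 .n (.n (.n (.n (.n (.n (.p (nat_lit 0x36a03680362036f04) (nat_lit 0xc800400020) (nat_lit 17))
 (.p (nat_lit 0x13fc61a502) (nat_lit 0x3222a5c15000500040000) (nat_lit 50)))
 (.p (nat_lit 0x7cc07ca07c807c607c43bd506) (nat_lit 0x10000048b11) (nat_lit 52)))
 (.n (.p (nat_lit 0x1fbe1fbc1fb81fb621cb21c506) (nat_lit 0x1200008ca03) (nat_lit 52))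
 (.p (nat_lit 0x32c0323d02) (nat_lit 0x20092c) (nat_lit 4))))
 (.n (.n (.p (nat_lit 0x205d1d3302) (nat_lit 0x54e900) (nat_lit 16))
 (.p (nat_lit 0x3ab037a902) (nat_lit 0x10061f) (nat_lit 5)))
 (.n (.p (nat_lit 0x46770c9d02) (nat_lit 0x154207) (nat_lit 16))
 (.p (nat_lit 0x5d9f182102) (nat_lit 0xe00a0000700) (nat_lit 40)))))
 (.n (.n (.n (.p (nat_lit 0x12730f5f02) (nat_lit 0x152400) (nat_lit 16))
 (.p (nat_lit 0x3ddc3dda3dd83dd63dd43cf506) (nat_lit 0x80004e019) (nat_lit 51)))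
 (.n (.p (nat_lit 0x46ac46aa46a846a40e5f0e5706) (nat_lit 0x11000000305) (nat_lit 52))
 (.p (nat_lit 0x4820480047e047a043f049106) (nat_lit 0x291492c) (nat_lit 26))))
 (.n (.n (.p (nat_lit 0x75e2d0f02) (nat_lit 0x340002) (nat_lit 29))
 (.p (nat_lit 0x396439623960395e395a330106) (nat_lit 0x10000d6925) (nat_lit 51)))
 (.n (.p (nat_lit 0x353a3538353635343530430506) (nat_lit 0x10000d670b) (nat_lit 52))
 (.p (nat_lit 0x13f25f9f02) (nat_lit 0x589832b44000500040000) (nat_lit 49))))))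
 (.n (.n (.n (.n (.p (nat_lit 0xb77087102) (nat_lit 0x10200) (nat_lit 16))
 (.p (nat_lit 0xd100d0e0d0a0d080d0614db06) (nat_lit 0x4000046515) (nat_lit 52)))
 (.n (.p (nat_lit 0x15161fa502) (nat_lit 0x340504) (nat_lit 5))
 (.p (nat_lit 0x4a4596b02) (nat_lit 0x100504) (nat_lit 27))))
 (.n (.n (.p (nat_lit 0xcc4282b02) (nat_lit 0x340201) (nat_lit 29))
 (.p (nat_lit 0x2496249424922490248e088906) (nat_lit 0x800096123) (nat_lit 51)))
 (.n (.p (nat_lit 0x28cc266302) (nat_lit 0x100308) (nat_lit 5))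
 (.p (nat_lit 0x5d435ebb02) (nat_lit 0xa0060000b00) (nat_lit 36)))))
 (.n (.n (.n (.p (nat_lit 0x19a819a419a219a0179d179906) (nat_lit 0x14000042700) (nat_lit 52))
 (.p (nat_lit 0x10321030102c102a139d139706) (nat_lit 0x480008451c) (nat_lit 51)))
 (.n (.p (nat_lit 0xba40ba20b9e0b9a012e011901150ba10b9d09) (nat_lit 0x1900206) (nat_lit 10))
 (.p (nat_lit 0x5cdb5e1102) (nat_lit 0x120020000400) (nat_lit 37))))
 (.n (.n (.p (nat_lit 0x246424622460245c007a0063005b2467245f09) (nat_lit 0x2900b02) (nat_lit 10))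
 (.p (nat_lit 0x7aa07a607a407a207a00b5b06) (nat_lit 0x800000222a) (nat_lit 51)))
 (.n (.p (nat_lit 0x222191102) (nat_lit 0x70e) (nat_lit 1))
 (.p (nat_lit 0x12a712990fe30fdd0d130d0d0a550a4707a9079f04d104c360a00d) (nat_lit 0x346068ca4000000000000) (nat_lit 33))))))

def c512_42 : Tr := .n c1024_42 c1024_554

def c1024_298 : Tr :=
 .n (.n (.n (.n (.n (.n (.p (nat_lit 0x11a012302) (nat_lit 0x8000600006) (nat_lit 17))
 (.p (nat_lit 0x16a6616502) (nat_lit 0x340c62b84000000040600) (nat_lit 50)))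
 (.p (nat_lit 0x7f207ee07ec07ea07e8338b06) (nat_lit 0x80000caa10) (nat_lit 51)))
 (.n (.p (nat_lit 0x1515150902) (nat_lit 0x254503) (nat_lit 16))
 (.p (nat_lit 0x25b0137d02) (nat_lit 0x540b2a) (nat_lit 4))))
 (.n (.n (.p (nat_lit 0x1e9d1bc702) (nat_lit 0x200900) (nat_lit 16))
 (.p (nat_lit 0x1a4e1a4c1a4a1a461a442da106) (nat_lit 0x200005601e) (nat_lit 52)))
 (.n (.p (nat_lit 0x119511f02) (nat_lit 0x340906) (nat_lit 30))
 (.p (nat_lit 0x5e5030fb02) (nat_lit 0x2700) (nat_lit 47)))))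
 (.n (.n (.n (.p (nat_lit 0x107a1078107410720dfb0df506) (nat_lit 0x4800090400) (nat_lit 51))
 (.p (nat_lit 0x334d334102) (nat_lit 0x308a17) (nat_lit 16)))
 (.n (.p (nat_lit 0x8d3061f02) (nat_lit 0x100005) (nat_lit 15))
 (.p (nat_lit 0x3645bb102) (nat_lit 0x100a1f) (nat_lit 27))))
 (.n (.n (.p (nat_lit 0x2348234423422340233e204f06) (nat_lit 0x8000056901) (nat_lit 51))
 (.p (nat_lit 0x259e573502) (nat_lit 0x240b23) (nat_lit 29)))
 (.n (.p (nat_lit 0x52c052a0528052605223b6d06) (nat_lit 0x1000088b0a) (nat_lit 51))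
 (.p (nat_lit 0xba85f6302) (nat_lit 0x3aa074b44000200040000) (nat_lit 49))))))
 (.n (.n (.n (.n (.p (nat_lit 0x9520950094e094c0948071f06) (nat_lit 0x100004c100) (nat_lit 52))
 (.p (nat_lit 0x12420be502) (nat_lit 0x140415) (nat_lit 5)))
 (.n (.p (nat_lit 0xe521f6f02) (nat_lit 0x500304) (nat_lit 4))
 (.p (nat_lit 0x3358bb02) (nat_lit 0x400501) (nat_lit 28))))
 (.n (.n (.p (nat_lit 0x25d122c102) (nat_lit 0x352b00) (nat_lit 16))
 (.p (nat_lit 0x5e6115902) (nat_lit 0x300023) (nat_lit 5)))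
 (.n (.p (nat_lit 0x1ed91e9d02) (nat_lit 0x208907) (nat_lit 16))
 (.p (nat_lit 0x5e98460502) (nat_lit 0x2000aa00) (nat_lit 48)))))
 (.n (.n (.n (.p (nat_lit 0x17ff16b102) (nat_lit 0x54600) (nat_lit 16))
 (.p (nat_lit 0x2da5073d02) (nat_lit 0x44e01c) (nat_lit 16)))
 (.n (.p (nat_lit 0x1d924a8d02) (nat_lit 0x540805) (nat_lit 29))
 (.p (nat_lit 0x5c975df502) (nat_lit 0x260000000300) (nat_lit 36))))
 (.n (.n (.p (nat_lit 0x198619841982197e197c21b906) (nat_lit 0x200008ea02) (nat_lit 51))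
 (.p (nat_lit 0x50be4f0102) (nat_lit 0x140829) (nat_lit 4)))
 (.n (.p (nat_lit 0x21e221e021de21dc21da123506) (nat_lit 0x8000d440e) (nat_lit 51))
 (.p (nat_lit 0x7a6606702) (nat_lit 0x5898b0b44000100000000) (nat_lit 50))))))

def c1024_810 : Tr :=
 .n (.n (.n (.n (.n (.n (.p (nat_lit 0x55a055805560554055004dd06) (nat_lit 0x100008e000) (nat_lit 52))
 (.p (nat_lit 0x113a61e302) (nat_lit 0x3302a5895000400040000) (nat_lit 49)))
 (.p (nat_lit 0x484a454702) (nat_lit 0x40413) (nat_lit 4)))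
 (.n (.p (nat_lit 0x3ba3247102) (nat_lit 0x408b03) (nat_lit 16))
 (.p (nat_lit 0x12ce12cc12ca12c612c43bab06) (nat_lit 0x2000004b2d) (nat_lit 52))))
 (.n (.n (.p (nat_lit 0x2212220e220c220a22081ffb06) (nat_lit 0x80000c2a00) (nat_lit 51))
 (.p (nat_lit 0xd340d320d300d2c0d2a423d06) (nat_lit 0x2000080620) (nat_lit 51)))
 (.n (.p (nat_lit 0xf7d0f7102) (nat_lit 0x444307) (nat_lit 16))
 (.p (nat_lit 0x5e741ab702) (nat_lit 0x60054800) (nat_lit 47)))))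
 (.n (.n (.n (.p (nat_lit 0x14161414141214101227121d06) (nat_lit 0x108000c2500) (nat_lit 51))
 (.p (nat_lit 0x48c045c302) (nat_lit 0x20051a) (nat_lit 4)))
 (.n (.p (nat_lit 0x1694211502) (nat_lit 0x400605) (nat_lit 4))
 (.p (nat_lit 0x5d89064b02) (nat_lit 0x2400a0000000) (nat_lit 41))))
 (.n (.n (.p (nat_lit 0xe380e360e340e320072006300590e3b0e3109) (nat_lit 0x2800302) (nat_lit 10))
 (.p (nat_lit 0x101810161014101210103bf906) (nat_lit 0x100000c2b26) (nat_lit 51)))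
 (.n (.p (nat_lit 0x4e1a4ac502) (nat_lit 0x4030d) (nat_lit 5))
 (.p (nat_lit 0xa505fe702) (nat_lit 0x38ac60b44000200000000) (nat_lit 50))))))
 (.n (.n (.n (.n (.p (nat_lit 0xd260d240d220d1e0b390b3106) (nat_lit 0x11000000300) (nat_lit 52))
 (.p (nat_lit 0x1be80ad702) (nat_lit 0x100815) (nat_lit 4)))
 (.n (.p (nat_lit 0x13f213f013ee13ec13ea17fd06) (nat_lit 0x100000ca604) (nat_lit 52))
 (.p (nat_lit 0x43c5a0302) (nat_lit 0x400407) (nat_lit 27))))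
 (.n (.n (.p (nat_lit 0x46a14f502) (nat_lit 0x440501) (nat_lit 1))
 (.p (nat_lit 0xcac102f02) (nat_lit 0x340223) (nat_lit 5)))
 (.n (.p (nat_lit 0x192019501972d312cab05) (nat_lit 0xa2300309) (nat_lit 9))
 (.p (nat_lit 0x114a5edb02) (nat_lit 0x4a9d22344000400040000) (nat_lit 50)))))
 (.n (.n (.n (.p (nat_lit 0x1b841b801b7e1b7c1b7a190106) (nat_lit 0x800000c800) (nat_lit 51))
 (.p (nat_lit 0x1aa31a9702) (nat_lit 0x54a71c) (nat_lit 16)))
 (.n (.p (nat_lit 0x196a252902) (nat_lit 0x300706) (nat_lit 5))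
 (.p (nat_lit 0x5e28122b02) (nat_lit 0x20042500) (nat_lit 47))))
 (.n (.n (.p (nat_lit 0x8bc356502) (nat_lit 0x200103) (nat_lit 29))
 (.p (nat_lit 0x57ca57c857c657c457c257c004420e230e210e190a) (nat_lit 0x1600032a) (nat_lit 31)))
 (.n (.p (nat_lit 0x217009a102) (nat_lit 0x200a0e) (nat_lit 4))
 (.p (nat_lit 0x8f260ed02) (nat_lit 0x340d6a3a4000100040000) (nat_lit 49))))))

def c512_298 : Tr := .n c1024_298 c1024_810

def c256_42 : Tr := .n c512_42 c512_298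

def c1024_170 : Tr :=
 .n (.n (.n (.n (.n (.n (.p (nat_lit 0xaf00a5009d009604) (nat_lit 0x70800003) (nat_lit 20))
 (.p (nat_lit 0xe7c614b02) (nat_lit 0x3b0221d84000300040000) (nat_lit 50)))
 (.p (nat_lit 0x31762e6502) (nat_lit 0x240410) (nat_lit 4)))
 (.n (.p (nat_lit 0x126e1b6102) (nat_lit 0x540403) (nat_lit 4))
 (.p (nat_lit 0x416641644162415e415c203f06) (nat_lit 0x20000cc92a) (nat_lit 52))))
 (.n (.n (.p (nat_lit 0x1dda1dd81dd61dd21dd01bc706) (nat_lit 0x2000002900) (nat_lit 51))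
 (.p (nat_lit 0x15fa15f615f415f215f026c506) (nat_lit 0x800005201d) (nat_lit 52)))
 (.n (.p (nat_lit 0x20671d9d02) (nat_lit 0x440806) (nat_lit 15))
 (.p (nat_lit 0x5e46292902) (nat_lit 0x60040600) (nat_lit 48)))))
 (.n (.n (.n (.p (nat_lit 0x3a20df702) (nat_lit 0x100400) (nat_lit 1))
 (.p (nat_lit 0x2bfa285902) (nat_lit 0x340916) (nat_lit 5)))
 (.n (.p (nat_lit 0x25ce435f02) (nat_lit 0x240b04) (nat_lit 29))
 (.p (nat_lit 0x2b15b3f02) (nat_lit 0x100416) (nat_lit 28))))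
 (.n (.n (.p (nat_lit 0x2bbf1ee702) (nat_lit 0x308901) (nat_lit 16))
 (.p (nat_lit 0x219211f302) (nat_lit 0x100a23) (nat_lit 5)))
 (.n (.p (nat_lit 0x52425240523e523c523a523801a407) (nat_lit 0x4040a) (nat_lit 8))
 (.p (nat_lit 0x8fa5f4102) (nat_lit 0x3a2260b50000100040000) (nat_lit 50))))))
 (.n (.n (.n (.n (.p (nat_lit 0x88d05c102) (nat_lit 0x208100) (nat_lit 16))
 (.p (nat_lit 0x7cc07c807c607c40733072f06) (nat_lit 0x14000048015) (nat_lit 52)))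
 (.n (.p (nat_lit 0xbf3e1502) (nat_lit 0x500204) (nat_lit 30))
 (.p (nat_lit 0x4c1e4f7102) (nat_lit 0x500130) (nat_lit 5))))
 (.n (.n (.p (nat_lit 0x250825042502250024fe22c306) (nat_lit 0x80000c8b00) (nat_lit 52))
 (.p (nat_lit 0x4fc0566d02) (nat_lit 0x440522) (nat_lit 29)))
 (.n (.p (nat_lit 0x14e0157015b06c1055f05) (nat_lit 0x81100807) (nat_lit 9))
 (.p (nat_lit 0x5d9d1db702) (nat_lit 0x1000a0000900) (nat_lit 40)))))
 (.n (.n (.n (.p (nat_lit 0x175417521750174e174c16b106) (nat_lit 0x800050600) (nat_lit 51))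
 (.p (nat_lit 0x7340d2b02) (nat_lit 0x4001c) (nat_lit 5)))
 (.n (.p (nat_lit 0x4a5d1ac502) (nat_lit 0x44a705) (nat_lit 16))
 (.p (nat_lit 0x5d3f5de902) (nat_lit 0xe0060000200) (nat_lit 37))))
 (.n (.n (.p (nat_lit 0x1b821b801b7e1b7a205d205506) (nat_lit 0x1100004c902) (nat_lit 51))
 (.p (nat_lit 0x4c144e5b02) (nat_lit 0x400129) (nat_lit 4)))
 (.n (.p (nat_lit 0x1f1a1f161f141f121f1010e306) (nat_lit 0x800009240e) (nat_lit 51))
 (.p (nat_lit 0x1da6604702) (nat_lit 0x40a96254c800300000600) (nat_lit 49))))))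

def c1024_682 : Tr :=
 .n (.n (.n (.n (.n (.n (.p (nat_lit 0x49604940492049b04) (nat_lit 0xe00040002d) (nat_lit 17))
 (.p (nat_lit 0x181461c502) (nat_lit 0x3421684a0800100000600) (nat_lit 49)))
 (.p (nat_lit 0x420b41ff02) (nat_lit 0x446512) (nat_lit 16)))
 (.n (.p (nat_lit 0x2472246e246c246a2468008f247107) (nat_lit 0x400b03) (nat_lit 7))
 (.p (nat_lit 0x353a3534353235303653365106) (nat_lit 0xc0000d612d) (nat_lit 52))))
 (.n (.n (.p (nat_lit 0x214421422140213c1e971e8f06) (nat_lit 0x11000010a00) (nat_lit 51))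
 (.p (nat_lit 0x3c663fb902) (nat_lit 0x400020) (nat_lit 5)))
 (.n (.p (nat_lit 0x28cf0e0502) (nat_lit 0x20c307) (nat_lit 16))
 (.p (nat_lit 0x5cd31ae302) (nat_lit 0x1a0020000800) (nat_lit 40)))))
 (.n (.n (.n (.p (nat_lit 0x12fe12fa12f612f410cb10c706) (nat_lit 0xa00000c500) (nat_lit 52))
 (.p (nat_lit 0x427c3eeb02) (nat_lit 0x440619) (nat_lit 4)))
 (.n (.p (nat_lit 0x128620f302) (nat_lit 0x540405) (nat_lit 5))
 (.p (nat_lit 0x5cc704d102) (nat_lit 0x260020000000) (nat_lit 40))))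
 (.n (.n (.p (nat_lit 0xccd0a0b02) (nat_lit 0x140102) (nat_lit 15))
 (.p (nat_lit 0x36c4392902) (nat_lit 0x100226) (nat_lit 4)))
 (.n (.p (nat_lit 0x484443df02) (nat_lit 0x34040c) (nat_lit 5))
 (.p (nat_lit 0x1da25fcb02) (nat_lit 0x9582ec05800300000600) (nat_lit 49))))))
 (.n (.n (.n (.n (.p (nat_lit 0xc320c2e0c2c0c2a09d509cd06) (nat_lit 0x88000ce200) (nat_lit 52))
 (.p (nat_lit 0x17ba544102) (nat_lit 0x240615) (nat_lit 29)))
 (.n (.p (nat_lit 0x1f1a1f181f161f141f12168106) (nat_lit 0x800092604) (nat_lit 51))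
 (.p (nat_lit 0xb659b902) (nat_lit 0x100805) (nat_lit 27))))
 (.n (.n (.p (nat_lit 0x35294502) (nat_lit 0x500401) (nat_lit 30))
 (.p (nat_lit 0x233c233a23382334233209e906) (nat_lit 0x2000056123) (nat_lit 52)))
 (.n (.p (nat_lit 0x1462b8f02) (nat_lit 0x300908) (nat_lit 1))
 (.p (nat_lit 0x5d835ec102) (nat_lit 0x2a00a0000b00) (nat_lit 37)))))
 (.n (.n (.n (.p (nat_lit 0x1a73179d02) (nat_lit 0x540700) (nat_lit 16))
 (.p (nat_lit 0x16560d6d02) (nat_lit 0x30061c) (nat_lit 5)))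
 (.n (.p (nat_lit 0x4e884e864e844e824e80112f06) (nat_lit 0x800010406) (nat_lit 51))
 (.p (nat_lit 0x5d550fdd02) (nat_lit 0x280080000400) (nat_lit 38))))
 (.n (.n (.p (nat_lit 0x1778177617721770176e25b906) (nat_lit 0x40000d2b02) (nat_lit 52))
 (.p (nat_lit 0x8f208f008ee08ec08e80cb506) (nat_lit 0x10000c222a) (nat_lit 52)))
 (.n (.p (nat_lit 0x1d42082302) (nat_lit 0x14080e) (nat_lit 4))
 (.p (nat_lit 0x113a60cd02) (nat_lit 0x3502623b0000400040000) (nat_lit 49))))))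

def c512_170 : Tr := .n c1024_170 c1024_682

def c1024_426 : Tr :=
 .n (.n (.n (.n (.n (.n (.p (nat_lit 0x240023e024703) (nat_lit 0xc000500011) (nat_lit 17))
 (.p (nat_lit 0xe7c618502) (nat_lit 0x421a86b95000300040000) (nat_lit 50)))
 (.p (nat_lit 0x397a358902) (nat_lit 0x440411) (nat_lit 5)))
 (.n (.p (nat_lit 0x17ee17ec17ea17e817e6009117f107) (nat_lit 0x540603) (nat_lit 7))
 (.p (nat_lit 0x2bce2bca2bc82bc62bc4046b2bcd07) (nat_lit 0x40092b) (nat_lit 7))))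
 (.n (.n (.p (nat_lit 0x1f9a1f981f961f941d331d3106) (nat_lit 0x1800004a900) (nat_lit 51))
 (.p (nat_lit 0x34c437f902) (nat_lit 0x30001f) (nat_lit 5)))
 (.n (.p (nat_lit 0x7f207f007ee07ec07e80b3d06) (nat_lit 0x100008a207) (nat_lit 51))
 (.p (nat_lit 0x5d37197702) (nat_lit 0x160060000700) (nat_lit 39)))))
 (.n (.n (.n (.p (nat_lit 0x115c115a115611520f630f5f06) (nat_lit 0x5000040400) (nat_lit 51))
 (.p (nat_lit 0x3a68370b02) (nat_lit 0x140518) (nat_lit 4)))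
 (.n (.p (nat_lit 0xb8e221502) (nat_lit 0x205) (nat_lit 4))
 (.p (nat_lit 0x5bf65bf45bf25bf05bee039503dc07) (nat_lit 0x114224) (nat_lit 25))))
 (.n (.n (.p (nat_lit 0x23122c5302) (nat_lit 0x240a01) (nat_lit 29))
 (.p (nat_lit 0x2b6a29d702) (nat_lit 0x340824) (nat_lit 4)))
 (.n (.p (nat_lit 0x40183ca502) (nat_lit 0x54030b) (nat_lit 4))
 (.p (nat_lit 0x1da25f8302) (nat_lit 0x581a32b44000300000600) (nat_lit 49))))))
 (.n (.n (.n (.n (.p (nat_lit 0x8760874087208700028000b0009087b087909) (nat_lit 0x2c00200) (nat_lit 10))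
 (.p (nat_lit 0xa4c0a480a460a441395139106) (nat_lit 0x14000004515) (nat_lit 52)))
 (.n (.p (nat_lit 0x127a127812761272127000b9127507) (nat_lit 0x240404) (nat_lit 7))
 (.p (nat_lit 0x34590d02) (nat_lit 0x500b02) (nat_lit 27))))
 (.n (.n (.p (nat_lit 0x273708a302) (nat_lit 0x108101) (nat_lit 16))
 (.p (nat_lit 0x12e412e212de12dc074b074506) (nat_lit 0x12000046023) (nat_lit 51)))
 (.n (.p (nat_lit 0x14351cf02) (nat_lit 0x100b07) (nat_lit 30))
 (.p (nat_lit 0x5d9b5ea902) (nat_lit 0x1200a0000a00) (nat_lit 36)))))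
 (.n (.n (.n (.p (nat_lit 0x18ea18e818e218e01627162506) (nat_lit 0x6000016700) (nat_lit 51))
 (.p (nat_lit 0x309550b02) (nat_lit 0x14011c) (nat_lit 30)))
 (.n (.p (nat_lit 0x792078e078a07880136011b01170791078d09) (nat_lit 0x2240006) (nat_lit 10))
 (.p (nat_lit 0x5e00124702) (nat_lit 0x60042300) (nat_lit 48))))
 (.n (.n (.p (nat_lit 0x12aa12a812a412a212a0232106) (nat_lit 0x400004aa02) (nat_lit 51))
 (.p (nat_lit 0x35d5089f02) (nat_lit 0x51012a) (nat_lit 16)))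
 (.n (.p (nat_lit 0x14d0094502) (nat_lit 0x44050e) (nat_lit 4))
 (.p (nat_lit 0x21cc608302) (nat_lit 0x344380a64000400040600) (nat_lit 49))))))

def c1024_938 : Tr :=
 .n (.n (.n (.n (.n (.p (nat_lit 0x6780676067206700657065106) (nat_lit 0x12000046000) (nat_lit 51))
 (.p (nat_lit 0x1144e9902) (nat_lit 0x100414) (nat_lit 1)))
 (.n (.p (nat_lit 0x3be125c902) (nat_lit 0x544b03) (nat_lit 16))
 (.p (nat_lit 0x12b612b412b212b012ac425306) (nat_lit 0x100000262e) (nat_lit 52))))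
 (.n (.n (.p (nat_lit 0x23091ff902) (nat_lit 0x34aa00) (nat_lit 16))
 (.p (nat_lit 0x2098209420922090208e441706) (nat_lit 0x8000080021) (nat_lit 52)))
 (.n (.p (nat_lit 0x436122b02) (nat_lit 0x140407) (nat_lit 1))
 (.p (nat_lit 0x5e7c37dd02) (nat_lit 0xa0000800) (nat_lit 47)))))
 (.n (.n (.n (.p (nat_lit 0x1521122102) (nat_lit 0x254500) (nat_lit 16))
 (.p (nat_lit 0x4ea24ca902) (nat_lit 0x41b) (nat_lit 4)))
 (.n (.p (nat_lit 0x19621960195e195c195a00e3195907) (nat_lit 0x705) (nat_lit 7))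
 (.p (nat_lit 0x5d3f5dd102) (nat_lit 0xe0060000100) (nat_lit 37))))
 (.n (.n (.p (nat_lit 0x1262311102) (nat_lit 0x540402) (nat_lit 29))
 (.p (nat_lit 0x428c40c902) (nat_lit 0x40627) (nat_lit 5)))
 (.n (.p (nat_lit 0x50ed50e102) (nat_lit 0x490d) (nat_lit 16))
 (.p (nat_lit 0x1ae0600b02) (nat_lit 0x405aa2354800200000600) (nat_lit 50))))))
 (.n (.n (.n (.n (.p (nat_lit 0xe190b2f02) (nat_lit 0xa300) (nat_lit 16))
 (.p (nat_lit 0x202d202102) (nat_lit 0x548915) (nat_lit 16)))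
 (.n (.p (nat_lit 0x1b541b521b4e1b4a1953194f06) (nat_lit 0x5000008704) (nat_lit 52))
 (.p (nat_lit 0x1ce01ca01c801c601b5014106) (nat_lit 0x201070c) (nat_lit 26))))
 (.n (.n (.p (nat_lit 0x18f618f018ee18ec1c1f1c1d06) (nat_lit 0xc000096801) (nat_lit 51))
 (.p (nat_lit 0x3a956d902) (nat_lit 0x440623) (nat_lit 30)))
 (.n (.p (nat_lit 0x33222cc702) (nat_lit 0xa09) (nat_lit 5))
 (.p (nat_lit 0x2493248b21d921d51f1b1f0b1c4f1c3b1983197516a716995efa0d) (nat_lit 0x3a2570344000000040600) (nat_lit 33)))))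
 (.n (.n (.n (.p (nat_lit 0x1a661a641a621a601a5c00031a5f07) (nat_lit 0x140800) (nat_lit 7))
 (.p (nat_lit 0x1ec2556f02) (nat_lit 0x30091c) (nat_lit 29)))
 (.n (.p (nat_lit 0x50111ad102) (nat_lit 0x442706) (nat_lit 16))
 (.p (nat_lit 0x5e3233bb02) (nat_lit 0x8004e500) (nat_lit 47))))
 (.n (.n (.p (nat_lit 0xb7a1c8702) (nat_lit 0x200203) (nat_lit 4))
 (.p (nat_lit 0x1670145302) (nat_lit 0x40062a) (nat_lit 5)))
 (.n (.p (nat_lit 0x4c564c544c524c504c4c257906) (nat_lit 0x10000c8b0e) (nat_lit 52))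
 (.p (nat_lit 0xbac610f02) (nat_lit 0x3425299b0000200040000) (nat_lit 49))))))

def c512_426 : Tr := .n c1024_426 c1024_938

def c256_170 : Tr := .n c512_170 c512_426

def c128_42 : Tr := .n c256_42 c256_170

def c1024_106 : Tr :=
 .n (.n (.n (.n (.n (.n (.p (nat_lit 0x6d006b006603) (nat_lit 0x1100002) (nat_lit 19))
 (.p (nat_lit 0x1f16613702) (nat_lit 0x3503a0d64000300040600) (nat_lit 50)))
 (.p (nat_lit 0x32e12beb02) (nat_lit 0x15090f) (nat_lit 16)))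
 (.n (.p (nat_lit 0x11121cb902) (nat_lit 0x400403) (nat_lit 5))
 (.p (nat_lit 0x1ed4148502) (nat_lit 0x92a) (nat_lit 4))))
 (.n (.n (.p (nat_lit 0x1d611a6502) (nat_lit 0x446800) (nat_lit 16))
 (.p (nat_lit 0x4dfe4dfa4df84df62443243f06) (nat_lit 0x14000002b1c) (nat_lit 52)))
 (.n (.p (nat_lit 0x12a812a612a412a212a01d9f06) (nat_lit 0x1000004a806) (nat_lit 51))
 (.p (nat_lit 0x5cf316a902) (nat_lit 0x2a0040000600) (nat_lit 41)))))
 (.n (.n (.n (.p (nat_lit 0xf5d0c8f02) (nat_lit 0x40300) (nat_lit 15))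
 (.p (nat_lit 0x2aec284302) (nat_lit 0x440516) (nat_lit 4)))
 (.n (.p (nat_lit 0x20a420a2209e209c209a247b06) (nat_lit 0x4000002b04) (nat_lit 52))
 (.p (nat_lit 0x28a028602840282000901e706) (nat_lit 0x200a015) (nat_lit 26))))
 (.n (.n (.p (nat_lit 0x11441142113e113c113a1ee706) (nat_lit 0x4000088901) (nat_lit 52))
 (.p (nat_lit 0x1ece11e102) (nat_lit 0x300923) (nat_lit 4)))
 (.n (.p (nat_lit 0x86385b02) (nat_lit 0x4030a) (nat_lit 1))
 (.p (nat_lit 0x15425f3502) (nat_lit 0x3a2560c44000000000600) (nat_lit 50))))))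
 (.n (.n (.n (.n (.p (nat_lit 0x7ce07cc07c607c405c305c106) (nat_lit 0x6000008100) (nat_lit 52))
 (.p (nat_lit 0x99a09960994099205d105c906) (nat_lit 0x8800092015) (nat_lit 51)))
 (.n (.p (nat_lit 0xa2a3d8702) (nat_lit 0x540104) (nat_lit 29))
 (.p (nat_lit 0x49a249a0499e499c499804ad499b07) (nat_lit 0x10062f) (nat_lit 7))))
 (.n (.n (.p (nat_lit 0x11222bb02) (nat_lit 0x40b00) (nat_lit 1))
 (.p (nat_lit 0x4b8e4d7b02) (nat_lit 0x540022) (nat_lit 5)))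
 (.n (.p (nat_lit 0x1bd5190b02) (nat_lit 0x300707) (nat_lit 15))
 (.p (nat_lit 0x5e8c3c6502) (nat_lit 0x60006900) (nat_lit 47)))))
 (.n (.n (.n (.p (nat_lit 0x2e16b502) (nat_lit 0x240600) (nat_lit 1))
 (.p (nat_lit 0x18141810180e180c180a05dd06) (nat_lit 0x800000e01c) (nat_lit 52)))
 (.n (.p (nat_lit 0x153e153c153a153815341abf06) (nat_lit 0x100004c705) (nat_lit 52))
 (.p (nat_lit 0x5cd50bb502) (nat_lit 0x180020000200) (nat_lit 41))))
 (.n (.n (.p (nat_lit 0x32ab1ef102) (nat_lit 0x204902) (nat_lit 16))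
 (.p (nat_lit 0x49a3499702) (nat_lit 0x500628) (nat_lit 16)))
 (.n (.p (nat_lit 0x8fe08f808f608f410e310e106) (nat_lit 0xc00008240e) (nat_lit 51))
 (.p (nat_lit 0x798603702) (nat_lit 0x4a9d80b44000100000000) (nat_lit 49))))))

def c1024_618 : Tr :=
 .n (.n (.n (.n (.n (.n (.p (nat_lit 0x3d603d403d203dd04) (nat_lit 0x7000400024) (nat_lit 17))
 (.p (nat_lit 0x154a61b502) (nat_lit 0x322266c15000000000600) (nat_lit 50)))
 (.p (nat_lit 0x410a41064104410241000257410907) (nat_lit 0x440412) (nat_lit 7)))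
 (.n (.p (nat_lit 0x23301ba902) (nat_lit 0x540a03) (nat_lit 4))
 (.p (nat_lit 0x33b2325902) (nat_lit 0x40a2c) (nat_lit 4))))
 (.n (.n (.p (nat_lit 0x20fe20fa20f820f41e951e8f06) (nat_lit 0x900000aa00) (nat_lit 52))
 (.p (nat_lit 0xea40ea20ea00e9e0e9c3b9906) (nat_lit 0x10000002b1f) (nat_lit 52)))
 (.n (.p (nat_lit 0x11421140113e113c113a0e0b06) (nat_lit 0x10000088307) (nat_lit 52))
 (.p (nat_lit 0x5c9d1ad502) (nat_lit 0x200000000800) (nat_lit 38)))))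
 (.n (.n (.n (.p (nat_lit 0x12b412b212b012ae12ac10cd06) (nat_lit 0x10000002500) (nat_lit 52))
 (.p (nat_lit 0x420c3e3702) (nat_lit 0x540519) (nat_lit 5)))
 (.n (.p (nat_lit 0x47550fc302) (nat_lit 0x340305) (nat_lit 16))
 (.p (nat_lit 0x5c9d063502) (nat_lit 0x200000000000) (nat_lit 39))))
 (.n (.n (.p (nat_lit 0x5b2db502) (nat_lit 0x100102) (nat_lit 30))
 (.p (nat_lit 0x1b841b821b801b7e1b7a35c306) (nat_lit 0x100000c126) (nat_lit 51)))
 (.n (.p (nat_lit 0x46f046ec46ea46e846e601cd46ef07) (nat_lit 0x40030c) (nat_lit 7))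
 (.p (nat_lit 0x180e5fc102) (nat_lit 0x8982e955800100000600) (nat_lit 49))))))
 (.n (.n (.n (.n (.p (nat_lit 0xbd40bd20bcc0bca09d309d106) (nat_lit 0x60000c0200) (nat_lit 52))
 (.p (nat_lit 0x327914d502) (nat_lit 0x4e515) (nat_lit 16)))
 (.n (.p (nat_lit 0x6480646064406420640168b06) (nat_lit 0x10000080604) (nat_lit 51))
 (.p (nat_lit 0x388599902) (nat_lit 0x200305) (nat_lit 27))))
 (.n (.n (.p (nat_lit 0xe330e2702) (nat_lit 0x110301) (nat_lit 16))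
 (.p (nat_lit 0xa5a0a580a540a520a5009eb06) (nat_lit 0x4000044123) (nat_lit 51)))
 (.n (.p (nat_lit 0x4f1729ff02) (nat_lit 0x154408) (nat_lit 16))
 (.p (nat_lit 0x5d755ebf02) (nat_lit 0x80080000b00) (nat_lit 36)))))
 (.n (.n (.n (.p (nat_lit 0x1a361a341a301a2c1799179506) (nat_lit 0x5000054700) (nat_lit 51))
 (.p (nat_lit 0x14ea14e814e614e403180309030714e314e109) (nat_lit 0x84051c) (nat_lit 10)))
 (.n (.p (nat_lit 0xfcc4de302) (nat_lit 0x240306) (nat_lit 29))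
 (.p (nat_lit 0x5d3f5e1702) (nat_lit 0xe0060000400) (nat_lit 36))))
 (.n (.n (.p (nat_lit 0x25b21a5102) (nat_lit 0x40b02) (nat_lit 4))
 (.p (nat_lit 0x1da81da61da41da21da00b5d06) (nat_lit 0x1000001222a) (nat_lit 52)))
 (.n (.p (nat_lit 0x1bda081502) (nat_lit 0x80e) (nat_lit 4))
 (.p (nat_lit 0x154260b102) (nat_lit 0x3505223a4000000000600) (nat_lit 50))))))

def c512_106 : Tr := .n c1024_106 c1024_618

def c1024_362 : Tr :=
 .n (.n (.n (.n (.n (.n (.p (nat_lit 0x183017f017c03) (nat_lit 0x42000008) (nat_lit 19))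
 (.p (nat_lit 0x1da8617502) (nat_lit 0x521a86b11000300000600) (nat_lit 49)))
 (.p (nat_lit 0x38e838e638e438e038de023d38e307) (nat_lit 0x200411) (nat_lit 7)))
 (.n (.p (nat_lit 0x1a261a241a221a20167f167d06) (nat_lit 0x18000092603) (nat_lit 51))
 (.p (nat_lit 0x2fad288702) (nat_lit 0x45022b) (nat_lit 16))))
 (.n (.n (.p (nat_lit 0x1f141f081d2d03) (nat_lit 0x240900) (nat_lit 6))
 (.p (nat_lit 0xe9a0e980e960e920e90334b06) (nat_lit 0x2000080a1e) (nat_lit 52)))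
 (.n (.p (nat_lit 0xb3a513102) (nat_lit 0x207) (nat_lit 29))
 (.p (nat_lit 0x5d1d5e5902) (nat_lit 0x40000700) (nat_lit 37)))))
 (.n (.n (.n (.p (nat_lit 0x11010df702) (nat_lit 0x10e400) (nat_lit 16))
 (.p (nat_lit 0x354254bb02) (nat_lit 0x340018) (nat_lit 29)))
 (.n (.p (nat_lit 0x8d021fd02) (nat_lit 0x105) (nat_lit 5))
 (.p (nat_lit 0x4385bd102) (nat_lit 0x200023) (nat_lit 27))))
 (.n (.n (.p (nat_lit 0x21b021ae21ac21aa21a8003521b307) (nat_lit 0x500a01) (nat_lit 7))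
 (.p (nat_lit 0x15fa15f815f615f215f0273906) (nat_lit 0x2000012124) (nat_lit 52)))
 (.n (.p (nat_lit 0x3e703c7f02) (nat_lit 0x40020b) (nat_lit 5))
 (.p (nat_lit 0xba85f7502) (nat_lit 0x1aa074b50000200040000) (nat_lit 49))))))
 (.n (.n (.n (.n (.p (nat_lit 0xa1b072302) (nat_lit 0x350100) (nat_lit 16))
 (.p (nat_lit 0xeee0eea0ee80ee41249124306) (nat_lit 0x900004e415) (nat_lit 52)))
 (.n (.p (nat_lit 0xfc30fb702) (nat_lit 0x356304) (nat_lit 16))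
 (.p (nat_lit 0x620060005a00580005018b06) (nat_lit 0x1314002) (nat_lit 26))))
 (.n (.n (.p (nat_lit 0x75607520750074e074c0033075507) (nat_lit 0x440001) (nat_lit 7))
 (.p (nat_lit 0x88d05e502) (nat_lit 0x200023) (nat_lit 15)))
 (.n (.p (nat_lit 0x2171216502) (nat_lit 0x204a07) (nat_lit 16))
 (.p (nat_lit 0x5ea221df02) (nat_lit 0x60040a00) (nat_lit 46)))))
 (.n (.n (.n (.p (nat_lit 0x188a1884188218801629162706) (nat_lit 0xc000008700) (nat_lit 52))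
 (.p (nat_lit 0xa7c0a7a0a780a760a74088706) (nat_lit 0x1000000811c) (nat_lit 52)))
 (.n (.p (nat_lit 0x1d9d1d9102) (nat_lit 0x44c805) (nat_lit 16))
 (.p (nat_lit 0x5d0f5dff02) (nat_lit 0xe0040000300) (nat_lit 37))))
 (.n (.n (.p (nat_lit 0x231c336d02) (nat_lit 0x140a02) (nat_lit 29))
 (.p (nat_lit 0x442045d0453140912b305) (nat_lit 0xa8b0012a) (nat_lit 9)))
 (.n (.p (nat_lit 0x14a138902) (nat_lit 0x50050e) (nat_lit 1))
 (.p (nat_lit 0xe76607502) (nat_lit 0x4688ae154000300040000) (nat_lit 49))))))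

def c1024_874 : Tr :=
 .n (.n (.n (.n (.n (.n (.p (nat_lit 0x61904e302) (nat_lit 0x412000) (nat_lit 16))
 (.p (nat_lit 0x13f261f102) (nat_lit 0x382a31d05000500040000) (nat_lit 49)))
 (.p (nat_lit 0x7ce07ca07c807c607c449dd06) (nat_lit 0x8000008713) (nat_lit 52)))
 (.n (.p (nat_lit 0xe760e740e700e6e0e6c25c506) (nat_lit 0x40000c6b03) (nat_lit 52))
 (.p (nat_lit 0x3f2441bf02) (nat_lit 0x4022e) (nat_lit 4))))
 (.n (.n (.p (nat_lit 0x22a0229c229a22981ffb1ff306) (nat_lit 0x88000cea00) (nat_lit 52))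
 (.p (nat_lit 0x42de561b02) (nat_lit 0x500720) (nat_lit 29)))
 (.n (.p (nat_lit 0x10d810d610d410d001520145014110d310cf09) (nat_lit 0x1000407) (nat_lit 10))
 (.p (nat_lit 0x5e761add02) (nat_lit 0x80000800) (nat_lit 45)))))
 (.n (.n (.n (.p (nat_lit 0x14a414a214a0149e149a121f06) (nat_lit 0x1000054500) (nat_lit 52))
 (.p (nat_lit 0x498845dd02) (nat_lit 0x40061a) (nat_lit 5)))
 (.n (.p (nat_lit 0x499b168f02) (nat_lit 0x10a605) (nat_lit 16))
 (.p (nat_lit 0x5ccf5dcb02) (nat_lit 0x1e0020000100) (nat_lit 36))))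
 (.n (.n (.p (nat_lit 0x12610fa102) (nat_lit 0x440302) (nat_lit 15))
 (.p (nat_lit 0x1fc01fbe1fbc1fba1fb63df506) (nat_lit 0x10000cc127) (nat_lit 52)))
 (.n (.p (nat_lit 0x500652bb02) (nat_lit 0x54070d) (nat_lit 29))
 (.p (nat_lit 0x1da85ff702) (nat_lit 0x386a81c35000300000600) (nat_lit 49))))))
 (.n (.n (.n (.n (.p (nat_lit 0xd600d5e0d5c0d5a0b390b3706) (nat_lit 0x1800008a300) (nat_lit 52))
 (.p (nat_lit 0x1eb00c4902) (nat_lit 0x915) (nat_lit 5)))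
 (.n (.p (nat_lit 0x42a117fb02) (nat_lit 0x44a604) (nat_lit 16))
 (.p (nat_lit 0x18e018c018801840143048106) (nat_lit 0xb14409) (nat_lit 26))))
 (.n (.n (.p (nat_lit 0x3800470055175115df05) (nat_lit 0x46b00801) (nat_lit 9))
 (.p (nat_lit 0x2fa30cb102) (nat_lit 0x54e223) (nat_lit 16)))
 (.n (.p (nat_lit 0x30f02d4502) (nat_lit 0x100409) (nat_lit 4))
 (.p (nat_lit 0x233c5eeb02) (nat_lit 0x4a8876344000500000600) (nat_lit 49)))))
 (.n (.n (.n (.p (nat_lit 0x1bcf18f902) (nat_lit 0x800) (nat_lit 16))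
 (.p (nat_lit 0x1d5a0da302) (nat_lit 0x14081c) (nat_lit 5)))
 (.n (.p (nat_lit 0x1aca4ff502) (nat_lit 0x140706) (nat_lit 29))
 (.p (nat_lit 0x5d3113fd02) (nat_lit 0x1c0060000500) (nat_lit 41))))
 (.n (.n (.p (nat_lit 0xa1a35dd02) (nat_lit 0x340103) (nat_lit 29))
 (.p (nat_lit 0xf8a12f302) (nat_lit 0x54032a) (nat_lit 5)))
 (.n (.p (nat_lit 0x242409b902) (nat_lit 0x200b0e) (nat_lit 4))
 (.p (nat_lit 0x206c60f702) (nat_lit 0x440d663a4000400000600) (nat_lit 49))))))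

def c512_362 : Tr := .n c1024_362 c1024_874

def c256_106 : Tr := .n c512_106 c512_362

def c1024_234 : Tr :=
 .n (.n (.n (.n (.n (.n (.p (nat_lit 0xea00e600e200ef04) (nat_lit 0xa800400005) (nat_lit 17))
 (.p (nat_lit 0x13ee615702) (nat_lit 0x1503a8895800500040000) (nat_lit 49)))
 (.p (nat_lit 0x32a62e8102) (nat_lit 0x500910) (nat_lit 5)))
 (.n (.p (nat_lit 0x39a439a0399e399c399a13c306) (nat_lit 0x8000082503) (nat_lit 52))
 (.p (nat_lit 0x2304583b02) (nat_lit 0x140a2a) (nat_lit 29))))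
 (.n (.n (.p (nat_lit 0x1e5a1e581e541e521bc91bc306) (nat_lit 0x480008c900) (nat_lit 51))
 (.p (nat_lit 0x2c06291d02) (nat_lit 0x34091d) (nat_lit 5)))
 (.n (.p (nat_lit 0x211621142110210e210c1eff06) (nat_lit 0x400000c906) (nat_lit 52))
 (.p (nat_lit 0x5d89154b02) (nat_lit 0x2400a0000600) (nat_lit 40)))))
 (.n (.n (.n (.p (nat_lit 0x100e100c100a10080df70df506) (nat_lit 0x1800002400) (nat_lit 52))
 (.p (nat_lit 0x2c802cd02cb2efb2f6905) (nat_lit 0x64540517) (nat_lit 9)))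
 (.n (.p (nat_lit 0x22b822b622b422b222b025cb06) (nat_lit 0x8000d0b04) (nat_lit 52))
 (.p (nat_lit 0x310030e03080306033d000506) (nat_lit 0x1a0c01c) (nat_lit 26))))
 (.n (.n (.p (nat_lit 0xbb00bae0bac0baa0ba8204706) (nat_lit 0x8000c4901) (nat_lit 52))
 (.p (nat_lit 0x244e244c244a2448244403a3244707) (nat_lit 0x100b23) (nat_lit 7)))
 (.n (.p (nat_lit 0x3ac8525b02) (nat_lit 0x54060a) (nat_lit 29))
 (.p (nat_lit 0x23405f5702) (nat_lit 0x1aa522350000500000600) (nat_lit 50))))))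
 (.n (.n (.n (.n (.p (nat_lit 0x8ff08f302) (nat_lit 0x540100) (nat_lit 34))
 (.p (nat_lit 0x28b541702) (nat_lit 0x500415) (nat_lit 30)))
 (.n (.p (nat_lit 0xbf3e9502) (nat_lit 0x540204) (nat_lit 30))
 (.p (nat_lit 0x12c212c012bc12ba12b850cf06) (nat_lit 0x40000c2830) (nat_lit 52))))
 (.n (.n (.p (nat_lit 0x256825662564256222bd22bb06) (nat_lit 0x18000d2b00) (nat_lit 52))
 (.p (nat_lit 0xd620d5e0d5c0d5a5067506306) (nat_lit 0x1400008a822) (nat_lit 52)))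
 (.n (.p (nat_lit 0x141519d02) (nat_lit 0x40807) (nat_lit 30))
 (.p (nat_lit 0x5e94206b02) (nat_lit 0xa00) (nat_lit 45)))))
 (.n (.n (.n (.p (nat_lit 0x17841782177e177c16b716b106) (nat_lit 0x4800054600) (nat_lit 52))
 (.p (nat_lit 0x16ae16ac16aa16a616a4073906) (nat_lit 0x20000cc01c) (nat_lit 51)))
 (.n (.p (nat_lit 0x1e5a1e581e561e541e501c2506) (nat_lit 0x100008c805) (nat_lit 51))
 (.p (nat_lit 0x5d590baf02) (nat_lit 0x240080000200) (nat_lit 39))))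
 (.n (.n (.p (nat_lit 0x21bc331f02) (nat_lit 0x400a02) (nat_lit 29))
 (.p (nat_lit 0x4d4a4e7102) (nat_lit 0x340229) (nat_lit 5)))
 (.n (.p (nat_lit 0x7a807a407a207a0123f123b06) (nat_lit 0x1400004240e) (nat_lit 51))
 (.p (nat_lit 0xfe2605502) (nat_lit 0x5858b0b44000400000000) (nat_lit 50))))))

def c1024_746 : Tr :=
 .n (.n (.n (.n (.n (.n (.p (nat_lit 0x4fc04f804f604f404e304db06) (nat_lit 0x8800084000) (nat_lit 52))
 (.p (nat_lit 0xbb061d502) (nat_lit 0x54216ac0c800200040000) (nat_lit 49)))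
 (.p (nat_lit 0x42c63d5902) (nat_lit 0x500712) (nat_lit 4)))
 (.n (.p (nat_lit 0x16a2169e169c169a1698247106) (nat_lit 0x800008cb03) (nat_lit 52))
 (.p (nat_lit 0x1d261d221d201d1e1d1c376306) (nat_lit 0x80000d622d) (nat_lit 52))))
 (.n (.n (.p (nat_lit 0x21b91e9102) (nat_lit 0x20ea00) (nat_lit 16))
 (.p (nat_lit 0x3dea3f5502) (nat_lit 0x240120) (nat_lit 5)))
 (.n (.p (nat_lit 0x12aa12a812a612a212a00f6d06) (nat_lit 0x200004a307) (nat_lit 51))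
 (.p (nat_lit 0x5cf11c3f02) (nat_lit 0x2c0040000800) (nat_lit 39)))))
 (.n (.n (.n (.p (nat_lit 0x13bf10c702) (nat_lit 0x210500) (nat_lit 16))
 (.p (nat_lit 0x437e3e6502) (nat_lit 0x240b19) (nat_lit 5)))
 (.n (.p (nat_lit 0x1520210502) (nat_lit 0x240505) (nat_lit 4))
 (.p (nat_lit 0x5d295dbb02) (nat_lit 0x240060000000) (nat_lit 37))))
 (.n (.n (.p (nat_lit 0xcd22f4f02) (nat_lit 0x440202) (nat_lit 29))
 (.p (nat_lit 0x40c640c240c040be40bc3b4f06) (nat_lit 0x800004ca26) (nat_lit 51)))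
 (.n (.p (nat_lit 0x6620660065e065c06584a1b06) (nat_lit 0x100004470c) (nat_lit 51))
 (.p (nat_lit 0x129c5fd502) (nat_lit 0x382c60b44000500000000) (nat_lit 49))))))
 (.n (.n (.n (.n (.p (nat_lit 0xce909d302) (nat_lit 0x352200) (nat_lit 16))
 (.p (nat_lit 0x2f882f862f842f822f80192706) (nat_lit 0x10000094715) (nat_lit 51)))
 (.n (.p (nat_lit 0x17fa1fbf02) (nat_lit 0x440604) (nat_lit 4))
 (.p (nat_lit 0x2c59dd02) (nat_lit 0x100706) (nat_lit 27))))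
 (.n (.n (.p (nat_lit 0x13a2173302) (nat_lit 0x501) (nat_lit 4))
 (.p (nat_lit 0xb500b4a0b480b4603ca03a903a70b4f0b4d09) (nat_lit 0x2300223) (nat_lit 10)))
 (.n (.p (nat_lit 0x2f302d1702) (nat_lit 0x100209) (nat_lit 5))
 (.p (nat_lit 0x1ae05ed102) (nat_lit 0x4a1a22344000200000600) (nat_lit 50)))))
 (.n (.n (.n (.p (nat_lit 0x1ae91add02) (nat_lit 0x400800) (nat_lit 34))
 (.p (nat_lit 0x19300eed02) (nat_lit 0x40071c) (nat_lit 4)))
 (.n (.p (nat_lit 0x4f21128902) (nat_lit 0x42406) (nat_lit 16))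
 (.p (nat_lit 0x5cb95e2302) (nat_lit 0x40000000500) (nat_lit 36))))
 (.n (.n (.p (nat_lit 0x7661afb02) (nat_lit 0x140003) (nat_lit 5))
 (.p (nat_lit 0x21e221e021de21dc21d80cb506) (nat_lit 0x10000d422a) (nat_lit 51)))
 (.n (.p (nat_lit 0x1eac083502) (nat_lit 0x40090e) (nat_lit 4))
 (.p (nat_lit 0x63460d902) (nat_lit 0x3542623b0000000040000) (nat_lit 49))))))

def c512_234 : Tr := .n c1024_234 c1024_746

def c1024_490 : Tr :=
 .n (.n (.n (.n (.n (.n (.p (nat_lit 0x2fa02f602f402ff04) (nat_lit 0xb00040001a) (nat_lit 17))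
 (.p (nat_lit 0xe76619902) (nat_lit 0x3422a5c14800300040000) (nat_lit 49)))
 (.p (nat_lit 0x3af83af43af23af03aee02413af707) (nat_lit 0x400a11) (nat_lit 7)))
 (.n (.p (nat_lit 0x21c01b9302) (nat_lit 0xa03) (nat_lit 4))
 (.p (nat_lit 0x1a421a3e1a3c1a3a1a382f4306) (nat_lit 0x800009422c) (nat_lit 52))))
 (.n (.n (.p (nat_lit 0x1fe41fde1fdc1fda1d311d2f06) (nat_lit 0xc000056900) (nat_lit 51))
 (.p (nat_lit 0x35bc55c502) (nat_lit 0x40011f) (nat_lit 29)))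
 (.n (.p (nat_lit 0xca204fb02) (nat_lit 0x440207) (nat_lit 4))
 (.p (nat_lit 0x5d6b198502) (nat_lit 0x120080000700) (nat_lit 41)))))
 (.n (.n (.n (.p (nat_lit 0x11cc11c811c611c20f650f5f06) (nat_lit 0x9000050400) (nat_lit 52))
 (.p (nat_lit 0x3b8236a302) (nat_lit 0xb18) (nat_lit 5)))
 (.n (.p (nat_lit 0xcf620c502) (nat_lit 0x440205) (nat_lit 5))
 (.p (nat_lit 0x4355c2d02) (nat_lit 0x32a) (nat_lit 28))))
 (.n (.n (.p (nat_lit 0x2c8c2c8a2c882c862c842c82006407) (nat_lit 0x2) (nat_lit 8))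
 (.p (nat_lit 0x2e3630bf02) (nat_lit 0x200125) (nat_lit 4)))
 (.n (.p (nat_lit 0x425c3c3502) (nat_lit 0x4060b) (nat_lit 4))
 (.p (nat_lit 0xd185f9302) (nat_lit 0x580bb0344000300000000) (nat_lit 50))))))
 (.n (.n (.n (.n (.p (nat_lit 0xaae0aac0aaa0aa80873087106) (nat_lit 0x180000c200) (nat_lit 51))
 (.p (nat_lit 0x233c233a233823342332138f06) (nat_lit 0x2000016515) (nat_lit 52)))
 (.n (.p (nat_lit 0x13cc1e3302) (nat_lit 0x300504) (nat_lit 4))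
 (.p (nat_lit 0x593c593a59385934593203e3009207) (nat_lit 0x20c403) (nat_lit 25))))
 (.n (.n (.p (nat_lit 0x2b27b702) (nat_lit 0x201) (nat_lit 30))
 (.p (nat_lit 0xbae0bac0baa0ba80ba6089306) (nat_lit 0x10000084123) (nat_lit 52)))
 (.n (.p (nat_lit 0x4b5a4b584b564b524b50256f06) (nat_lit 0x20000c8b07) (nat_lit 52))
 (.p (nat_lit 0x5ce15eb302) (nat_lit 0xc0020000b00) (nat_lit 36)))))
 (.n (.n (.n (.p (nat_lit 0x1953162702) (nat_lit 0x312700) (nat_lit 16))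
 (.p (nat_lit 0x363d09e302) (nat_lit 0x55011c) (nat_lit 16)))
 (.n (.p (nat_lit 0xa3a4c2302) (nat_lit 0x140106) (nat_lit 29))
 (.p (nat_lit 0x5d930d1d02) (nat_lit 0x1a00a0000300) (nat_lit 40))))
 (.n (.n (.p (nat_lit 0x25bb232302) (nat_lit 0x440a02) (nat_lit 15))
 (.p (nat_lit 0x51405120510050c09f509f106) (nat_lit 0x28000c612a) (nat_lit 51)))
 (.n (.p (nat_lit 0x494514cf02) (nat_lit 0x35450e) (nat_lit 16))
 (.p (nat_lit 0x2080609302) (nat_lit 0x356221ca4000400000600) (nat_lit 50))))))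

def c1024_1002 : Tr :=
 .n (.n (.n (.n (.n (.p (nat_lit 0x71a0718071607100651064f06) (nat_lit 0x30000d6000) (nat_lit 52))
 (.p (nat_lit 0x4fde4c5b02) (nat_lit 0x200714) (nat_lit 5)))
 (.n (.p (nat_lit 0x3c5d061902) (nat_lit 0x404004) (nat_lit 16))
 (.p (nat_lit 0x48ae48ac48a848a648a4435506) (nat_lit 0x400000eb2e) (nat_lit 52))))
 (.n (.n (.p (nat_lit 0x23842382237e237c237a215b06) (nat_lit 0x4000004b00) (nat_lit 52))
 (.p (nat_lit 0x48c8472f02) (nat_lit 0x521) (nat_lit 5)))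
 (.n (.p (nat_lit 0x1430142e142a1426122f122b06) (nat_lit 0x50000c4407) (nat_lit 52))
 (.p (nat_lit 0x5cd91f1302) (nat_lit 0x140020000900) (nat_lit 41)))))
 (.n (.n (.n (.p (nat_lit 0x15e215e015de15dc154f154d06) (nat_lit 0x1800010600) (nat_lit 52))
 (.p (nat_lit 0x50184d3702) (nat_lit 0x24071b) (nat_lit 4)))
 (.n (.p (nat_lit 0x16ae16aa16a816a616a4196106) (nat_lit 0x800008c705) (nat_lit 51))
 (.p (nat_lit 0x5d575dd702) (nat_lit 0x260080000100) (nat_lit 36))))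
 (.n (.n (.p (nat_lit 0x14f831f902) (nat_lit 0x40502) (nat_lit 29))
 (.p (nat_lit 0x44a847f902) (nat_lit 0x40028) (nat_lit 5)))
 (.n (.p (nat_lit 0xa720a6c0a6a0a680e150e1306) (nat_lit 0xc00008030e) (nat_lit 51))
 (.p (nat_lit 0x2346601702) (nat_lit 0x405aa2335000500000600) (nat_lit 50))))))
 (.n (.n (.n (.n (.p (nat_lit 0xe830e7702) (nat_lit 0x540300) (nat_lit 34))
 (.p (nat_lit 0x3afd217b02) (nat_lit 0x110a15) (nat_lit 16)))
 (.n (.p (nat_lit 0x1ab01fcf02) (nat_lit 0x40704) (nat_lit 4))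
 (.p (nat_lit 0x1f15a8302) (nat_lit 0x50050e) (nat_lit 28))))
 (.n (.n (.p (nat_lit 0x2b482b462b442b422b402b3e00381d851d811d7f0a) (nat_lit 0x11140801) (nat_lit 31))
 (.p (nat_lit 0x30e230e030de30dc30da1a9906) (nat_lit 0x8000d4723) (nat_lit 52)))
 (.n (.p (nat_lit 0x5a0059e059c059a0598338106) (nat_lit 0x100000d4a09) (nat_lit 51))
 (.p (nat_lit 0x1db65f1502) (nat_lit 0x3aa530344000300000600) (nat_lit 50)))))
 (.n (.n (.n (.p (nat_lit 0x1cae1cac1caa1ca81a5f1a5d06) (nat_lit 0x18000c6800) (nat_lit 51))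
 (.p (nat_lit 0x21840dc502) (nat_lit 0xa1c) (nat_lit 4)))
 (.n (.p (nat_lit 0x11421140113e113c113a1c3906) (nat_lit 0x10000088806) (nat_lit 52))
 (.p (nat_lit 0x5ca3169902) (nat_lit 0x1a0000000600) (nat_lit 39))))
 (.n (.n (.p (nat_lit 0x37610cdd02) (nat_lit 0x34a203) (nat_lit 16))
 (.p (nat_lit 0x194257f302) (nat_lit 0x10072a) (nat_lit 29)))
 (.n (.p (nat_lit 0x218021f021b26f9276b05) (nat_lit 0xae04050f) (nat_lit 9))
 (.p (nat_lit 0x1980611b02) (nat_lit 0x350522264000100040600) (nat_lit 50))))))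

def c512_490 : Tr := .n c1024_490 c1024_1002

def c256_234 : Tr := .n c512_234 c512_490

def c128_106 : Tr := .n c256_106 c256_234

def c64_42 : Tr := .n c128_42 c128_106

def c32_10 : Tr := .n c64_10 c64_42

def c1024_26 : Tr :=
 .n (.n (.n (.n (.n (.n (.p (nat_lit 0x27001d00150025001b001306) (nat_lit 0x58c800000) (nat_lit 22))
 (.p (nat_lit 0x13fc612902) (nat_lit 0x35486a3a4000500040000) (nat_lit 50)))
 (.p (nat_lit 0x211538f02) (nat_lit 0x30080f) (nat_lit 30)))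
 (.n (.p (nat_lit 0xfa41ca502) (nat_lit 0x40303) (nat_lit 5))
 (.p (nat_lit 0x1aa657ff02) (nat_lit 0x14072a) (nat_lit 29))))
 (.n (.n (.p (nat_lit 0x1cf61cf01cee1cec1a651a6306) (nat_lit 0xc0000cc800) (nat_lit 52))
 (.p (nat_lit 0x334b218902) (nat_lit 0x20ea1c) (nat_lit 16)))
 (.n (.p (nat_lit 0x50491c3302) (nat_lit 0x202806) (nat_lit 16))
 (.p (nat_lit 0x5ce1153702) (nat_lit 0xc0020000600) (nat_lit 38)))))
 (.n (.n (.n (.p (nat_lit 0xeb20eb00eaa0ea80c950c9306) (nat_lit 0x60000c2300) (nat_lit 52))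
 (.p (nat_lit 0x24320c7d02) (nat_lit 0x300b15) (nat_lit 4)))
 (.n (.p (nat_lit 0x1cea1ce81ce61ce21ce01ab506) (nat_lit 0x200004c704) (nat_lit 52))
 (.p (nat_lit 0x2705ab102) (nat_lit 0x400b0e) (nat_lit 27))))
 (.n (.n (.p (nat_lit 0x2b4f1d8102) (nat_lit 0x240801) (nat_lit 16))
 (.p (nat_lit 0x3962395e395c395a1c091c0506) (nat_lit 0x14000096823) (nat_lit 51)))
 (.n (.p (nat_lit 0x19b521702) (nat_lit 0x10020a) (nat_lit 30))
 (.p (nat_lit 0x1db05f1d02) (nat_lit 0x3a2274350000300000600) (nat_lit 50))))))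
 (.n (.n (.n (.n (.p (nat_lit 0x777065302) (nat_lit 0x352000) (nat_lit 16))
 (.p (nat_lit 0x50984bf502) (nat_lit 0x40814) (nat_lit 4)))
 (.n (.p (nat_lit 0x3cd43cd03cce3ccc3cca077906) (nat_lit 0x80000cc004) (nat_lit 51))
 (.p (nat_lit 0x460848fd02) (nat_lit 0x30022f) (nat_lit 5))))
 (.n (.n (.p (nat_lit 0x23fa23f823f423f223f0215b06) (nat_lit 0x4000090b00) (nat_lit 51))
 (.p (nat_lit 0xd3e0d3c0d3a0d380d3649f706) (nat_lit 0x10000002721) (nat_lit 51)))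
 (.n (.p (nat_lit 0x163f163302) (nat_lit 0x304607) (nat_lit 16))
 (.p (nat_lit 0x5d151f0902) (nat_lit 0x80040000900) (nat_lit 39)))))
 (.n (.n (.n (.p (nat_lit 0x16121610160a16081553155106) (nat_lit 0x6000014600) (nat_lit 51))
 (.p (nat_lit 0x5d454f102) (nat_lit 0x1c) (nat_lit 29)))
 (.n (.p (nat_lit 0x1969195d02) (nat_lit 0x20c705) (nat_lit 16))
 (.p (nat_lit 0x5dda333902) (nat_lit 0xa000e100) (nat_lit 48))))
 (.n (.n (.p (nat_lit 0x150d150102) (nat_lit 0x452502) (nat_lit 16))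
 (.p (nat_lit 0x227c227a227822762272451906) (nat_lit 0x100000c128) (nat_lit 51)))
 (.n (.p (nat_lit 0xf7c07c102) (nat_lit 0x44030e) (nat_lit 4))
 (.p (nat_lit 0x13ea602102) (nat_lit 0x406a6252d000500040000) (nat_lit 49))))))

def c1024_538 : Tr :=
 .n (.n (.n (.n (.n (.n (.p (nat_lit 0x331031d031403) (nat_lit 0x6200001c) (nat_lit 19))
 (.p (nat_lit 0x207261a102) (nat_lit 0x3222a5c15000400000600) (nat_lit 49)))
 (.p (nat_lit 0x3bce35b102) (nat_lit 0x240b11) (nat_lit 5)))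
 (.n (.p (nat_lit 0x1e341e321e301e2e1e2c21cb06) (nat_lit 0x1000000aa03) (nat_lit 52))
 (.p (nat_lit 0x30a231ab02) (nat_lit 0x4032c) (nat_lit 5))))
 (.n (.n (.p (nat_lit 0x203d1d2b02) (nat_lit 0x14a900) (nat_lit 16))
 (.p (nat_lit 0x38d038cc38ca38c838c639ff06) (nat_lit 0x800009651f) (nat_lit 52)))
 (.n (.p (nat_lit 0xcb50c9d02) (nat_lit 0x148207) (nat_lit 16))
 (.p (nat_lit 0x5dad182102) (nat_lit 0xa0000700) (nat_lit 40)))))
 (.n (.n (.n (.p (nat_lit 0x12530f6302) (nat_lit 0x34c400) (nat_lit 16))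
 (.p (nat_lit 0x3c5c3e9d02) (nat_lit 0x400019) (nat_lit 4)))
 (.n (.p (nat_lit 0xe7469d02) (nat_lit 0x200305) (nat_lit 30))
 (.p (nat_lit 0x4ac5c6702) (nat_lit 0x100a2a) (nat_lit 27))))
 (.n (.n (.p (nat_lit 0x592d0902) (nat_lit 0x40002) (nat_lit 30))
 (.p (nat_lit 0x32b6314502) (nat_lit 0x300925) (nat_lit 4)))
 (.n (.p (nat_lit 0x3460345e345a3458345642b706) (nat_lit 0x400000670b) (nat_lit 52))
 (.p (nat_lit 0xd105f9d02) (nat_lit 0x568bb0344000300000000) (nat_lit 49))))))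
 (.n (.n (.n (.n (.p (nat_lit 0xb55087302) (nat_lit 0x10a200) (nat_lit 16))
 (.p (nat_lit 0x648064606440642064014df06) (nat_lit 0x100000c0515) (nat_lit 51)))
 (.n (.p (nat_lit 0x15101e3902) (nat_lit 0x40504) (nat_lit 4))
 (.p (nat_lit 0xbe00bc00b600b4000702e906) (nat_lit 0x1a0c204) (nat_lit 26))))
 (.n (.n (.p (nat_lit 0xcbe16f702) (nat_lit 0x40201) (nat_lit 5))
 (.p (nat_lit 0x1da81da61da41da21da0089306) (nat_lit 0x10000012123) (nat_lit 52)))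
 (.n (.p (nat_lit 0x4cf9281502) (nat_lit 0x414208) (nat_lit 16))
 (.p (nat_lit 0x5d03248502) (nat_lit 0x1a0040000b00) (nat_lit 39)))))
 (.n (.n (.n (.p (nat_lit 0x179c198702) (nat_lit 0x540700) (nat_lit 5))
 (.p (nat_lit 0x10020ffe0ffc0ffa0ff8139f06) (nat_lit 0x800008051c) (nat_lit 52)))
 (.n (.p (nat_lit 0xba40ba20ba00b9e0b9a01150b9d07) (nat_lit 0x100206) (nat_lit 7))
 (.p (nat_lit 0x5e0c2c0d02) (nat_lit 0x4c400) (nat_lit 47))))
 (.n (.n (.p (nat_lit 0x32246502) (nat_lit 0x400b02) (nat_lit 1))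
 (.p (nat_lit 0xb5812cb02) (nat_lit 0x30022a) (nat_lit 4)))
 (.n (.p (nat_lit 0x164d164102) (nat_lit 0x40660e) (nat_lit 16))
 (.p (nat_lit 0x2072609d02) (nat_lit 0x346068ca4000400000600) (nat_lit 49))))))

def c512_26 : Tr := .n c1024_26 c1024_538

def c1024_282 : Tr :=
 .n (.n (.n (.n (.n (.n (.p (nat_lit 0x11a01180116011f04) (nat_lit 0xe000400006) (nat_lit 17))
 (.p (nat_lit 0x21e0616102) (nat_lit 0x3503a8d84000400040600) (nat_lit 50)))
 (.p (nat_lit 0x1ee338b02) (nat_lit 0x440a10) (nat_lit 1)))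
 (.n (.p (nat_lit 0x3a383a363a343a323a2e150706) (nat_lit 0x10000c4503) (nat_lit 52))
 (.p (nat_lit 0x25a614bd02) (nat_lit 0x40b2a) (nat_lit 5))))
 (.n (.n (.p (nat_lit 0x1e8a1e881e841e821e801bc906) (nat_lit 0x4000096900) (nat_lit 52))
 (.p (nat_lit 0x2da0303d02) (nat_lit 0x24001e) (nat_lit 4)))
 (.n (.p (nat_lit 0x2060240b02) (nat_lit 0x140906) (nat_lit 5))
 (.p (nat_lit 0x5c975e5302) (nat_lit 0x260000000700) (nat_lit 36)))))
 (.n (.n (.n (.p (nat_lit 0x10481046104210400dff0df906) (nat_lit 0x1200008c400) (nat_lit 52))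
 (.p (nat_lit 0x28a334502) (nat_lit 0x500a17) (nat_lit 1)))
 (.n (.p (nat_lit 0x626208d02) (nat_lit 0x500005) (nat_lit 4))
 (.p (nat_lit 0x3d45ba902) (nat_lit 0x20051d) (nat_lit 27))))
 (.n (.n (.p (nat_lit 0x1c441c421c3e1c3c1c3a204d06) (nat_lit 0x40000d0901) (nat_lit 52))
 (.p (nat_lit 0x3b9f244902) (nat_lit 0x210b23) (nat_lit 16)))
 (.n (.p (nat_lit 0x14a3b7502) (nat_lit 0x500b0a) (nat_lit 1))
 (.p (nat_lit 0x4c25f6102) (nat_lit 0x3aa570344000000000000) (nat_lit 49))))))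
 (.n (.n (.n (.n (.p (nat_lit 0x9380936093409300727071f06) (nat_lit 0x1100004a100) (nat_lit 52))
 (.p (nat_lit 0x138d10e902) (nat_lit 0x100415) (nat_lit 15)))
 (.n (.p (nat_lit 0xe4a1f6702) (nat_lit 0x100304) (nat_lit 4))
 (.p (nat_lit 0x2f58ad02) (nat_lit 0x200401) (nat_lit 28))))
 (.n (.n (.p (nat_lit 0x25af22c302) (nat_lit 0x44ab00) (nat_lit 16))
 (.p (nat_lit 0x5686568456825680567e567c03ac07) (nat_lit 0x23) (nat_lit 8)))
 (.n (.p (nat_lit 0x1ea0057d02) (nat_lit 0x400907) (nat_lit 5))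
 (.p (nat_lit 0x5ccf5e9b02) (nat_lit 0x1e0020000a00) (nat_lit 37)))))
 (.n (.n (.n (.p (nat_lit 0x17dd16b302) (nat_lit 0x14a600) (nat_lit 16))
 (.p (nat_lit 0x2488248624822480073f073906) (nat_lit 0x120000d601c) (nat_lit 52)))
 (.n (.p (nat_lit 0x1d8e214f02) (nat_lit 0x340805) (nat_lit 5))
 (.p (nat_lit 0x5df00a5b02) (nat_lit 0xa0000200) (nat_lit 46))))
 (.n (.n (.p (nat_lit 0x13f413f213ee13ec13ea21bb06) (nat_lit 0x400008aa02) (nat_lit 52))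
 (.p (nat_lit 0x115c115a115611541152506f06) (nat_lit 0x4000000829) (nat_lit 51)))
 (.n (.p (nat_lit 0x1c441c421c3e1c3c1c3a123b06) (nat_lit 0x40000d040e) (nat_lit 52))
 (.p (nat_lit 0x1140606102) (nat_lit 0x85ab0335000400040000) (nat_lit 49))))))

def c1024_794 : Tr :=
 .n (.n (.n (.n (.n (.n (.p (nat_lit 0x52c052a0524052204e104df06) (nat_lit 0x6000088000) (nat_lit 51))
 (.p (nat_lit 0x1c4861df02) (nat_lit 0x3508a5d84000200040600) (nat_lit 50)))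
 (.p (nat_lit 0x47da453d02) (nat_lit 0x100413) (nat_lit 5)))
 (.n (.p (nat_lit 0x3b6d246b02) (nat_lit 0x100b03) (nat_lit 16))
 (.p (nat_lit 0x3ba839c902) (nat_lit 0x100b2d) (nat_lit 4))))
 (.n (.n (.p (nat_lit 0x1ffc1ffa1ff61ff20018000700031ff91ff509) (nat_lit 0x1940a00) (nat_lit 10))
 (.p (nat_lit 0x423c3fe302) (nat_lit 0x200620) (nat_lit 4)))
 (.n (.p (nat_lit 0x2348234623442342233e0f6b06) (nat_lit 0x1000056307) (nat_lit 51))
 (.p (nat_lit 0x5d1f1adb02) (nat_lit 0x2e0060000800) (nat_lit 38)))))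
 (.n (.n (.n (.p (nat_lit 0x140c140a140614041402122306) (nat_lit 0x4000042500) (nat_lit 51))
 (.p (nat_lit 0x485c45b902) (nat_lit 0x34041a) (nat_lit 4)))
 (.n (.p (nat_lit 0x168e210f02) (nat_lit 0x100605) (nat_lit 4))
 (.p (nat_lit 0x5da704d902) (nat_lit 0x600a0000000) (nat_lit 40))))
 (.n (.n (.p (nat_lit 0xe3a0e380e340e320e30005f0e3707) (nat_lit 0x300302) (nat_lit 7))
 (.p (nat_lit 0x3bf438cd02) (nat_lit 0x340b26) (nat_lit 4)))
 (.n (.p (nat_lit 0x4dca4dc64dc44dc24dc001e14dc907) (nat_lit 0x40030d) (nat_lit 7))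
 (.p (nat_lit 0x154a5fe502) (nat_lit 0x3062a1c35000000000600) (nat_lit 50))))))
 (.n (.n (.n (.n (.p (nat_lit 0xb360b340b320b300014000b00010b390b2f09) (nat_lit 0x2800300) (nat_lit 10))
 (.p (nat_lit 0x1d4d1a8102) (nat_lit 0x40715) (nat_lit 15)))
 (.n (.p (nat_lit 0xe800e7e0e7c0e7a0e7817fd06) (nat_lit 0x100000c6604) (nat_lit 51))
 (.p (nat_lit 0x1480146014201400189000b06) (nat_lit 0x150e307) (nat_lit 26))))
 (.n (.n (.p (nat_lit 0x2b2a7b02) (nat_lit 0x40501) (nat_lit 30))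
 (.p (nat_lit 0x3ae03cb03b31029118f05) (nat_lit 0x8c840223) (nat_lit 9)))
 (.n (.p (nat_lit 0x37492f9302) (nat_lit 0x352209) (nat_lit 16))
 (.p (nat_lit 0xa525ed902) (nat_lit 0x4a0d84344000200000000) (nat_lit 50)))))
 (.n (.n (.n (.p (nat_lit 0x1b601b5e1b5c1b5618fd18fb06) (nat_lit 0x3000088800) (nat_lit 52))
 (.p (nat_lit 0x1a94554d02) (nat_lit 0x44071c) (nat_lit 29)))
 (.n (.p (nat_lit 0x4fa5152d02) (nat_lit 0x242506) (nat_lit 16))
 (.p (nat_lit 0x5cd512a302) (nat_lit 0x180020000500) (nat_lit 40))))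
 (.n (.n (.p (nat_lit 0x775076902) (nat_lit 0x254003) (nat_lit 16))
 (.p (nat_lit 0x3a80e2102) (nat_lit 0x40032a) (nat_lit 1)))
 (.n (.p (nat_lit 0x3d2e3d2c3d2a3d283d24200d06) (nat_lit 0x10000c890e) (nat_lit 51))
 (.p (nat_lit 0x12a712990fe10fd70d1d0d0d0a550a4d07a7079f04d104c360e20d) (nat_lit 0x340d6a3a4000000000000) (nat_lit 33))))))

def c512_282 : Tr := .n c1024_282 c1024_794

def c256_26 : Tr := .n c512_26 c512_282

def c1024_154 : Tr :=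
 .n (.n (.n (.n (.n (.n (.p (nat_lit 0x8e008a009503) (nat_lit 0xa000500003) (nat_lit 17))
 (.p (nat_lit 0x8fe614902) (nat_lit 0x350221d84000100040000) (nat_lit 50)))
 (.p (nat_lit 0x1a421a3e1a3c1a3a1a38310306) (nat_lit 0x8000094410) (nat_lit 52)))
 (.n (.p (nat_lit 0x8938f902) (nat_lit 0x140403) (nat_lit 30))
 (.p (nat_lit 0x2040149502) (nat_lit 0x34092a) (nat_lit 4))))
 (.n (.n (.p (nat_lit 0x1bca1da902) (nat_lit 0x400900) (nat_lit 4))
 (.p (nat_lit 0x25a5259902) (nat_lit 0x54ab1c) (nat_lit 16)))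
 (.n (.p (nat_lit 0x21e221de21dc21da21d81d9d06) (nat_lit 0x80000d4806) (nat_lit 51))
 (.p (nat_lit 0x5d2b169f02) (nat_lit 0x220060000600) (nat_lit 39)))))
 (.n (.n (.n (.p (nat_lit 0xfc10c9302) (nat_lit 0x254300) (nat_lit 16))
 (.p (nat_lit 0x2baa285102) (nat_lit 0x500916) (nat_lit 5)))
 (.n (.p (nat_lit 0xe225cb02) (nat_lit 0x40b04) (nat_lit 1))
 (.p (nat_lit 0x2895b2f02) (nat_lit 0x400915) (nat_lit 28))))
 (.n (.n (.p (nat_lit 0x24882486248224801eeb1ee506) (nat_lit 0x12000096901) (nat_lit 52))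
 (.p (nat_lit 0x2038571702) (nat_lit 0x540923) (nat_lit 29)))
 (.n (.p (nat_lit 0x38da347702) (nat_lit 0x40040a) (nat_lit 5))
 (.p (nat_lit 0xba85f3d02) (nat_lit 0x3a2560c64000200040000) (nat_lit 49))))))
 (.n (.n (.n (.n (.p (nat_lit 0x8620860085e085c05bf05bd06) (nat_lit 0x1800016100) (nat_lit 51))
 (.p (nat_lit 0x90a090809040902072f072906) (nat_lit 0x4800046015) (nat_lit 51)))
 (.n (.p (nat_lit 0xb93e0f02) (nat_lit 0x200204) (nat_lit 30))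
 (.p (nat_lit 0x4a58493702) (nat_lit 0x24072f) (nat_lit 5))))
 (.n (.n (.p (nat_lit 0x24c624c224c024be22c322bb06) (nat_lit 0x88000c2b00) (nat_lit 51))
 (.p (nat_lit 0x4c8d4c8302) (nat_lit 0x34a122) (nat_lit 16)))
 (.n (.p (nat_lit 0x1aa91a6d02) (nat_lit 0x248707) (nat_lit 16))
 (.p (nat_lit 0x5e8e1f1902) (nat_lit 0x80040900) (nat_lit 46)))))
 (.n (.n (.n (.p (nat_lit 0x170c170a1708170616b316b106) (nat_lit 0x1800046600) (nat_lit 51))
 (.p (nat_lit 0x5e905dd02) (nat_lit 0x40a01c) (nat_lit 16)))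
 (.n (.p (nat_lit 0x248824862484248224801ac706) (nat_lit 0x100000d6705) (nat_lit 52))
 (.p (nat_lit 0x5de60a4902) (nat_lit 0x40000200) (nat_lit 45))))
 (.n (.n (.p (nat_lit 0x1c741c721c701c6e1c6a205506) (nat_lit 0x1000042902) (nat_lit 52))
 (.p (nat_lit 0x4b9a4e5102) (nat_lit 0x540029) (nat_lit 4)))
 (.n (.p (nat_lit 0x198619821980197e197c10e306) (nat_lit 0x800008e40e) (nat_lit 51))
 (.p (nat_lit 0x8fe604302) (nat_lit 0x40a96254c800100040000) (nat_lit 50))))))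

def c1024_666 : Tr :=
 .n (.n (.n (.n (.n (.n (.p (nat_lit 0x45d0449044203) (nat_lit 0x4280002a) (nat_lit 19))
 (.p (nat_lit 0x234461bf02) (nat_lit 0x3221a9c15000500000600) (nat_lit 50)))
 (.p (nat_lit 0x24f53dd02) (nat_lit 0x40512) (nat_lit 30)))
 (.n (.p (nat_lit 0x24683b5f02) (nat_lit 0xb03) (nat_lit 29))
 (.p (nat_lit 0x364c3a1b02) (nat_lit 0x14012d) (nat_lit 5))))
 (.n (.n (.p (nat_lit 0x21382134213221301e971e9306) (nat_lit 0x1400008ea00) (nat_lit 51))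
 (.p (nat_lit 0xd640d620d600d5e0d5a3be506) (nat_lit 0x10000cab1f) (nat_lit 52)))
 (.n (.p (nat_lit 0x10cf0e0102) (nat_lit 0x307) (nat_lit 15))
 (.p (nat_lit 0x5cdd5e6d02) (nat_lit 0x100020000800) (nat_lit 37)))))
 (.n (.n (.n (.p (nat_lit 0x12e412e012de12dc10cd10c906) (nat_lit 0x14000006500) (nat_lit 51))
 (.p (nat_lit 0xaa20aa00a9e0a9c0a9a422d06) (nat_lit 0x80008a619) (nat_lit 51)))
 (.n (.p (nat_lit 0xe347ed02) (nat_lit 0x40405) (nat_lit 30))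
 (.p (nat_lit 0x5cd7063702) (nat_lit 0x160020000000) (nat_lit 39))))
 (.n (.n (.p (nat_lit 0x612e4702) (nat_lit 0x440102) (nat_lit 30))
 (.p (nat_lit 0x1bb21bb01bae1bac1baa364906) (nat_lit 0x10000056126) (nat_lit 52)))
 (.n (.p (nat_lit 0x47cc445302) (nat_lit 0x40c) (nat_lit 4))
 (.p (nat_lit 0x180a5fc902) (nat_lit 0x9582ec15800100000600) (nat_lit 49))))))
 (.n (.n (.n (.n (.p (nat_lit 0xc040c020c000bfa09d109cf06) (nat_lit 0x30000ca200) (nat_lit 52))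
 (.p (nat_lit 0x3aa5164702) (nat_lit 0x110615) (nat_lit 16)))
 (.n (.p (nat_lit 0x181418121810180e180c168106) (nat_lit 0x80000e604) (nat_lit 52))
 (.p (nat_lit 0x59b459b259b059ae59ac000100ee07) (nat_lit 0x10605) (nat_lit 25))))
 (.n (.n (.p (nat_lit 0x10f6171f02) (nat_lit 0x200401) (nat_lit 4))
 (.p (nat_lit 0x1c501c4e1c4a1c481c4609eb06) (nat_lit 0x40000d0123) (nat_lit 51)))
 (.n (.p (nat_lit 0x2cd02cce2cca2cc82cc62b5106) (nat_lit 0x4000054808) (nat_lit 51))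
 (.p (nat_lit 0x5ebe4c8f02) (nat_lit 0x80048b00) (nat_lit 48)))))
 (.n (.n (.n (.p (nat_lit 0x1a5a1a561a521a50179b179706) (nat_lit 0xa0000d6700) (nat_lit 52))
 (.p (nat_lit 0x3a7914e702) (nat_lit 0x35051c) (nat_lit 16)))
 (.n (.p (nat_lit 0x113423af02) (nat_lit 0x300406) (nat_lit 5))
 (.p (nat_lit 0x5d670fe902) (nat_lit 0x160080000400) (nat_lit 40))))
 (.n (.n (.p (nat_lit 0x17541750174e174a25bb25b506) (nat_lit 0x9000050b02) (nat_lit 51))
 (.p (nat_lit 0xcbc0cb80cb60cb40cb2043d0cbb07) (nat_lit 0x44022a) (nat_lit 7)))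
 (.n (.p (nat_lit 0x1beb1bdf02) (nat_lit 0x20680e) (nat_lit 16))
 (.p (nat_lit 0x8fa60cb02) (nat_lit 0x3505623a4000100040000) (nat_lit 50))))))

def c512_154 : Tr := .n c1024_154 c1024_666

def c1024_410 : Tr :=
 .n (.n (.n (.n (.n (.n (.p (nat_lit 0x2120210020e021704) (nat_lit 0xe00040000f) (nat_lit 17))
 (.p (nat_lit 0x8fa618302) (nat_lit 0x421a86b15000100040000) (nat_lit 50)))
 (.p (nat_lit 0x397235ef02) (nat_lit 0x40411) (nat_lit 4)))
 (.n (.p (nat_lit 0x17ec1b8d02) (nat_lit 0x340603) (nat_lit 5))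
 (.p (nat_lit 0x31d431d031ce31cc31ca2b7906) (nat_lit 0x800005482b) (nat_lit 51))))
 (.n (.n (.p (nat_lit 0x1f7a1f781f761f741f721d2906) (nat_lit 0x8000c6900) (nat_lit 52))
 (.p (nat_lit 0x33f6300902) (nat_lit 0x500b1e) (nat_lit 4)))
 (.n (.p (nat_lit 0x7c007be07bc07ba07b80b4506) (nat_lit 0x10000086207) (nat_lit 52))
 (.p (nat_lit 0x5d43181d02) (nat_lit 0xa0060000700) (nat_lit 40)))))
 (.n (.n (.n (.p (nat_lit 0x3aa0f6702) (nat_lit 0x540400) (nat_lit 1))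
 (.p (nat_lit 0x1cc61cc41cc21cc01cbe39eb06) (nat_lit 0x800088518) (nat_lit 51)))
 (.n (.p (nat_lit 0x454e454c454a454845460a3706) (nat_lit 0x100000c8105) (nat_lit 52))
 (.p (nat_lit 0x4265bed02) (nat_lit 0x500b23) (nat_lit 27))))
 (.n (.n (.p (nat_lit 0x23182316231423122310002b230f07) (nat_lit 0x40a01) (nat_lit 7))
 (.p (nat_lit 0x287c287a28762874287203d7287907) (nat_lit 0x340224) (nat_lit 7)))
 (.n (.p (nat_lit 0x1e8a1e881e861e841e803f9306) (nat_lit 0x100009630b) (nat_lit 52))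
 (.p (nat_lit 0x180e5f8102) (nat_lit 0x581a22b44000100000600) (nat_lit 49))))))
 (.n (.n (.n (.n (.p (nat_lit 0x8780a4d02) (nat_lit 0x400200) (nat_lit 4))
 (.p (nat_lit 0x4ca04c804c604c21395138d06) (nat_lit 0x11000000515) (nat_lit 52)))
 (.n (.p (nat_lit 0x1127111b02) (nat_lit 0x216404) (nat_lit 16))
 (.p (nat_lit 0x620060005e0058002f000306) (nat_lit 0x1116a02) (nat_lit 26))))
 (.n (.n (.p (nat_lit 0x8a8156b02) (nat_lit 0x400101) (nat_lit 4))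
 (.p (nat_lit 0x56925690568e568c568a568803ae0747074307410a) (nat_lit 0xc840023) (nat_lit 31)))
 (.n (.p (nat_lit 0x22db22cf02) (nat_lit 0x444a07) (nat_lit 16))
 (.p (nat_lit 0x5ea648c502) (nat_lit 0x80004a00) (nat_lit 47)))))
 (.n (.n (.n (.p (nat_lit 0x18ce18cc18ca18c8162b162906) (nat_lit 0x18000014700) (nat_lit 52))
 (.p (nat_lit 0x4c01087d02) (nat_lit 0x1611c) (nat_lit 16)))
 (.n (.p (nat_lit 0x7920790078e078a07880117078d07) (nat_lit 0x240006) (nat_lit 7))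
 (.p (nat_lit 0x5d2d0d0d02) (nat_lit 0x200060000300) (nat_lit 38))))
 (.n (.n (.p (nat_lit 0xd100d0c0d0a0d080d06232306) (nat_lit 0x8000046a02) (nat_lit 52))
 (.p (nat_lit 0x52a052805260522089f089706) (nat_lit 0x1100008812a) (nat_lit 51)))
 (.n (.p (nat_lit 0x14ca07eb02) (nat_lit 0x14050e) (nat_lit 5))
 (.p (nat_lit 0x1ada608102) (nat_lit 0x354221ca4000200000600) (nat_lit 49))))))

def c1024_922 : Tr :=
 .n (.n (.n (.n (.n (.p (nat_lit 0x66e066c066a06660664065106) (nat_lit 0x20000c4000) (nat_lit 51))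
 (.p (nat_lit 0x4e284bab02) (nat_lit 0x140314) (nat_lit 4)))
 (.n (.p (nat_lit 0x233c233a23382336233225c106) (nat_lit 0x1000056b03) (nat_lit 52))
 (.p (nat_lit 0x425041cb02) (nat_lit 0x62e) (nat_lit 5))))
 (.n (.n (.p (nat_lit 0x22e71ffb02) (nat_lit 0x444a00) (nat_lit 16))
 (.p (nat_lit 0x4397438b02) (nat_lit 0x24ab20) (nat_lit 16)))
 (.n (.p (nat_lit 0x38d310cf02) (nat_lit 0x10407) (nat_lit 16))
 (.p (nat_lit 0x5d895e7b02) (nat_lit 0x2400a0000800) (nat_lit 36)))))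
 (.n (.n (.n (.p (nat_lit 0x14ff122302) (nat_lit 0x34e500) (nat_lit 16))
 (.p (nat_lit 0x501f4a3b02) (nat_lit 0x54c71a) (nat_lit 16)))
 (.n (.p (nat_lit 0x23f823f623f423f223f0180906) (nat_lit 0x100000d0605) (nat_lit 51))
 (.p (nat_lit 0x5dcc2b9902) (nat_lit 0x4000c100) (nat_lit 47))))
 (.n (.n (.p (nat_lit 0x125a188f02) (nat_lit 0x140402) (nat_lit 4))
 (.p (nat_lit 0x424e405d02) (nat_lit 0x500627) (nat_lit 4)))
 (.n (.p (nat_lit 0x52a0528052605240522509706) (nat_lit 0x100000c880d) (nat_lit 51))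
 (.p (nat_lit 0xbb2600102) (nat_lit 0x405aa2354800200040000) (nat_lit 50))))))
 (.n (.n (.n (.n (.p (nat_lit 0xdf90b3302) (nat_lit 0x200300) (nat_lit 15))
 (.p (nat_lit 0x201e0afd02) (nat_lit 0x440915) (nat_lit 4)))
 (.n (.p (nat_lit 0x195619541950194c00d000bb00b71953194f09) (nat_lit 0x1900704) (nat_lit 10))
 (.p (nat_lit 0x1b601b401b201b004a3025106) (nat_lit 0x10820b) (nat_lit 26))))
 (.n (.n (.p (nat_lit 0x18d218d018cc18c81c1d1c1906) (nat_lit 0x5000014801) (nat_lit 52))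
 (.p (nat_lit 0x4993166302) (nat_lit 0x314623) (nat_lit 16)))
 (.n (.p (nat_lit 0x346a3468346634643462329b06) (nat_lit 0x10000086909) (nat_lit 51))
 (.p (nat_lit 0xfe05ef502) (nat_lit 0x281d30344000400000000) (nat_lit 50)))))
 (.n (.n (.n (.p (nat_lit 0x1c3318fd02) (nat_lit 0x216800) (nat_lit 16))
 (.p (nat_lit 0x1ebc0dad02) (nat_lit 0x91c) (nat_lit 4)))
 (.n (.p (nat_lit 0x16041602160015fe15fc1ad306) (nat_lit 0x100000d2706) (nat_lit 51))
 (.p (nat_lit 0x5d535e3302) (nat_lit 0x2a0080000500) (nat_lit 37))))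
 (.n (.n (.p (nat_lit 0x36550a1f02) (nat_lit 0x54a103) (nat_lit 16))
 (.p (nat_lit 0x166a144d02) (nat_lit 0x10062a) (nat_lit 5)))
 (.n (.p (nat_lit 0x257c086b02) (nat_lit 0x340b0e) (nat_lit 5))
 (.p (nat_lit 0x12a712990fe10fdd0d1d0d090a550a4d07a3079f04d704c361060d) (nat_lit 0x34252a1b0000000000000) (nat_lit 33))))))

def c512_410 : Tr := .n c1024_410 c1024_922

def c256_154 : Tr := .n c512_154 c512_410

def c128_26 : Tr := .n c256_26 c256_154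

def c1024_90 : Tr :=
 .n (.n (.n (.n (.n (.n (.p (nat_lit 0x620060005c006504) (nat_lit 0x1a000400002) (nat_lit 17))
 (.p (nat_lit 0x1820613502) (nat_lit 0x342a21d84000100000600) (nat_lit 50)))
 (.p (nat_lit 0x1ee2bf102) (nat_lit 0x44090f) (nat_lit 1)))
 (.n (.p (nat_lit 0x3ee110d02) (nat_lit 0x100403) (nat_lit 1))
 (.p (nat_lit 0x1d7a1d781d741d721d70043b1d7707) (nat_lit 0x34082a) (nat_lit 7))))
 (.n (.n (.p (nat_lit 0x1d411a5d02) (nat_lit 0x42800) (nat_lit 16))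
 (.p (nat_lit 0x243c0f4902) (nat_lit 0x200b1c) (nat_lit 5)))
 (.n (.p (nat_lit 0xd1c0d180d160d140d121d9d06) (nat_lit 0x8000046806) (nat_lit 51))
 (.p (nat_lit 0x5d11153902) (nat_lit 0xc0040000600) (nat_lit 38)))))
 (.n (.n (.n (.p (nat_lit 0xf340f300f2e0f2c0c990c9506) (nat_lit 0x14000054300) (nat_lit 51))
 (.p (nat_lit 0x2a78283902) (nat_lit 0x500516) (nat_lit 5)))
 (.n (.p (nat_lit 0xbd433502) (nat_lit 0x400b04) (nat_lit 30))
 (.p (nat_lit 0x25c5af102) (nat_lit 0xb12) (nat_lit 27))))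
 (.n (.n (.p (nat_lit 0xbbc0bb80bb60bb40bb21ee906) (nat_lit 0x8000084901) (nat_lit 51))
 (.p (nat_lit 0x50c71d6f02) (nat_lit 0x556823) (nat_lit 16)))
 (.n (.p (nat_lit 0x37dc34eb02) (nat_lit 0x50030a) (nat_lit 5))
 (.p (nat_lit 0x20725f3102) (nat_lit 0x3aa560b44000400000600) (nat_lit 49))))))
 (.n (.n (.n (.n (.p (nat_lit 0x7c207c007be07bc07ba07b806) (nat_lit 0x86100) (nat_lit 52))
 (.p (nat_lit 0x9220920091e091c091805cb06) (nat_lit 0x1000008015) (nat_lit 51)))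
 (.n (.p (nat_lit 0xa241f4502) (nat_lit 0x240104) (nat_lit 4))
 (.p (nat_lit 0x480047fe47fa47f846fd46f706) (nat_lit 0x1200008032f) (nat_lit 51))))
 (.n (.n (.p (nat_lit 0x2463215b02) (nat_lit 0x30eb00) (nat_lit 16))
 (.p (nat_lit 0x1124b8502) (nat_lit 0x40022) (nat_lit 1)))
 (.n (.p (nat_lit 0x190c190a190819061904014b190f07) (nat_lit 0x500707) (nat_lit 7))
 (.p (nat_lit 0x5d2d5e8d02) (nat_lit 0x200060000900) (nat_lit 37)))))
 (.n (.n (.n (.p (nat_lit 0x1695155502) (nat_lit 0x414600) (nat_lit 16))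
 (.p (nat_lit 0x12a612a412a212a005df05dd06) (nat_lit 0x1800000a01c) (nat_lit 51)))
 (.n (.p (nat_lit 0xfea0fe80fe60fe40fe01abf06) (nat_lit 0x1000048705) (nat_lit 51))
 (.p (nat_lit 0x5ce30a5302) (nat_lit 0xa0020000200) (nat_lit 40))))
 (.n (.n (.p (nat_lit 0x1ba81ba61ba21ba01b9e1ef306) (nat_lit 0x4000094902) (nat_lit 52))
 (.p (nat_lit 0x46cc46ca46c846c64687468306) (nat_lit 0x50000ca228) (nat_lit 52)))
 (.n (.p (nat_lit 0x10e410e010de10dc10da01ef10e307) (nat_lit 0x40040e) (nat_lit 7))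
 (.p (nat_lit 0x13fe603102) (nat_lit 0x4099a2335000500040000) (nat_lit 50))))))

def c1024_602 : Tr :=
 .n (.n (.n (.n (.n (.n (.p (nat_lit 0x3a403b102) (nat_lit 0x2000600023) (nat_lit 17))
 (.p (nat_lit 0x233461af02) (nat_lit 0x522266c0d000500000600) (nat_lit 49)))
 (.p (nat_lit 0x1e8a1e861e841e821e80408b06) (nat_lit 0x8000096412) (nat_lit 52)))
 (.n (.p (nat_lit 0xb8232b02) (nat_lit 0x240a03) (nat_lit 1))
 (.p (nat_lit 0x12c212c012be12bc12ba335f06) (nat_lit 0x800082a2c) (nat_lit 52))))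
 (.n (.n (.p (nat_lit 0x20b620b420b220b01e971e9506) (nat_lit 0x18000004a00) (nat_lit 51))
 (.p (nat_lit 0x3b9237bf02) (nat_lit 0x200b1f) (nat_lit 4)))
 (.n (.p (nat_lit 0xa5a0a560a540a520a500e0906) (nat_lit 0x8000004307) (nat_lit 51))
 (.p (nat_lit 0x5cbb5e6702) (nat_lit 0x20000000800) (nat_lit 36)))))
 (.n (.n (.n (.p (nat_lit 0x10cc12ab02) (nat_lit 0x500500) (nat_lit 5))
 (.p (nat_lit 0x48bd419302) (nat_lit 0x16519) (nat_lit 16)))
 (.n (.p (nat_lit 0x4708470647044702470046fe00f00fc70fc30fc10a) (nat_lit 0x15a40305) (nat_lit 31))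
 (.p (nat_lit 0x5cb7064102) (nat_lit 0x60000000000) (nat_lit 41))))
 (.n (.n (.p (nat_lit 0xa0b075b02) (nat_lit 0x140002) (nat_lit 15))
 (.p (nat_lit 0x355e390d02) (nat_lit 0x540026) (nat_lit 5)))
 (.n (.p (nat_lit 0x4678443502) (nat_lit 0x24020c) (nat_lit 5))
 (.p (nat_lit 0x248d248921e321d31f151f071c4d1c451985197116a7169d5fba0d) (nat_lit 0x95a2ec05000000040600) (nat_lit 33))))))
 (.n (.n (.n (.n (.p (nat_lit 0xbc80bc60bc40bc209cf09cd06) (nat_lit 0x1800040200) (nat_lit 52))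
 (.p (nat_lit 0x2348234623442342233e14d706) (nat_lit 0x1000056515) (nat_lit 51)))
 (.n (.p (nat_lit 0xc200df00d31fb31e4d05) (nat_lit 0xacc00604) (nat_lit 9))
 (.p (nat_lit 0xec00ea00e400e2000701c906) (nat_lit 0x1a0e005) (nat_lit 26))))
 (.n (.n (.p (nat_lit 0xe2e159d02) (nat_lit 0x500301) (nat_lit 4))
 (.p (nat_lit 0x3ae03bb03c11019117f05) (nat_lit 0xa0c40123) (nat_lit 9)))
 (.n (.p (nat_lit 0x46c299102) (nat_lit 0x500408) (nat_lit 1))
 (.p (nat_lit 0x5eb84f2702) (nat_lit 0x60042b00) (nat_lit 47)))))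
 (.n (.n (.n (.p (nat_lit 0x1a1e1a181a161a14179b179906) (nat_lit 0xc000052700) (nat_lit 51))
 (.p (nat_lit 0x314032103250ec70d6105) (nat_lit 0xa0b4051c) (nat_lit 9)))
 (.n (.p (nat_lit 0x4d9a4d984d964d944d920e6906) (nat_lit 0x800008e306) (nat_lit 51))
 (.p (nat_lit 0x5cf15e1302) (nat_lit 0x2c0040000400) (nat_lit 36))))
 (.n (.n (.p (nat_lit 0x33db246102) (nat_lit 0x202b02) (nat_lit 16))
 (.p (nat_lit 0x1820181c181a181818160b5b06) (nat_lit 0x800000e22a) (nat_lit 51)))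
 (.n (.p (nat_lit 0x1a7c531902) (nat_lit 0x44070e) (nat_lit 29))
 (.p (nat_lit 0x114660ad02) (nat_lit 0x342521ca4000400040000) (nat_lit 50))))))

def c512_90 : Tr := .n c1024_90 c1024_602

def c1024_346 : Tr :=
 .n (.n (.n (.n (.n (.n (.p (nat_lit 0x161015b014e03) (nat_lit 0x22a00007) (nat_lit 19))
 (.p (nat_lit 0x8e8617302) (nat_lit 0x421aa6315000100040000) (nat_lit 49)))
 (.p (nat_lit 0x386a357102) (nat_lit 0x340311) (nat_lit 4)))
 (.n (.p (nat_lit 0x18a218a0189e189c1677167506) (nat_lit 0x180000a603) (nat_lit 51))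
 (.p (nat_lit 0x28822a3902) (nat_lit 0x24022b) (nat_lit 5))))
 (.n (.n (.p (nat_lit 0x1f1a1f181f161f141f121f1006) (nat_lit 0x40900) (nat_lit 3))
 (.p (nat_lit 0x3350334e334c334a33480345334707) (nat_lit 0xa1e) (nat_lit 7)))
 (.n (.p (nat_lit 0x229e229c229a22982296206906) (nat_lit 0x100000ce906) (nat_lit 52))
 (.p (nat_lit 0x5e54181902) (nat_lit 0x20000700) (nat_lit 46)))))
 (.n (.n (.n (.p (nat_lit 0x10e10dfb02) (nat_lit 0x302400) (nat_lit 16))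
 (.p (nat_lit 0x34bc34b834b434b202e002d502d334bb34b709) (nat_lit 0x2200018) (nat_lit 10)))
 (.n (.p (nat_lit 0x448444824480447e447c077d06) (nat_lit 0x8000ce005) (nat_lit 51))
 (.p (nat_lit 0x5bca5bc85bc65bc45bc204c1039e07) (nat_lit 0x500522) (nat_lit 25))))
 (.n (.n (.p (nat_lit 0x21b221b021ae21aa21a8002f21ad07) (nat_lit 0x200a01) (nat_lit 7))
 (.p (nat_lit 0x273e273c273a2738273403d3273707) (nat_lit 0x100124) (nat_lit 7)))
 (.n (.p (nat_lit 0x3bd13bc502) (nat_lit 0x344b0a) (nat_lit 16))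
 (.p (nat_lit 0x15345f7302) (nat_lit 0x1aa074b50000000000600) (nat_lit 49))))))
 (.n (.n (.n (.n (.p (nat_lit 0x9fb072702) (nat_lit 0x54a100) (nat_lit 16))
 (.p (nat_lit 0xd400d3e0d3a0d380d36124706) (nat_lit 0x4000042415) (nat_lit 51)))
 (.n (.p (nat_lit 0x3fda3fd83fd63fd43fd20fbb06) (nat_lit 0x100000c2304) (nat_lit 52))
 (.p (nat_lit 0x5b58d902) (nat_lit 0x100002) (nat_lit 28))))
 (.n (.n (.p (nat_lit 0x16e074d02) (nat_lit 0x40001) (nat_lit 1))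
 (.p (nat_lit 0x12f212f012ec12ea05e705e106) (nat_lit 0x4800086023) (nat_lit 51)))
 (.n (.p (nat_lit 0x216606f302) (nat_lit 0x300a07) (nat_lit 4))
 (.p (nat_lit 0x5d375ea302) (nat_lit 0x160060000a00) (nat_lit 37)))))
 (.n (.n (.n (.p (nat_lit 0x1858185418521850162b162706) (nat_lit 0x14000004700) (nat_lit 52))
 (.p (nat_lit 0x88408820880087e0320031103070887087d09) (nat_lit 0x280011c) (nat_lit 10)))
 (.n (.p (nat_lit 0x1fe41fe21fe01fdc1fda1d8d06) (nat_lit 0x2000056805) (nat_lit 51))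
 (.p (nat_lit 0x5df83be502) (nat_lit 0x20050300) (nat_lit 48))))
 (.n (.n (.p (nat_lit 0x336121b702) (nat_lit 0x10aa02) (nat_lit 16))
 (.p (nat_lit 0x89e089c089a089808940437089707) (nat_lit 0x10012a) (nat_lit 7)))
 (.n (.p (nat_lit 0x1e952e302) (nat_lit 0x10050e) (nat_lit 30))
 (.p (nat_lit 0x798607302) (nat_lit 0x570aa2344000100000000) (nat_lit 49))))))

def c1024_858 : Tr :=
 .n (.n (.n (.n (.n (.n (.p (nat_lit 0x5f904db02) (nat_lit 0xe000) (nat_lit 16))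
 (.p (nat_lit 0x1db061ed02) (nat_lit 0x382a31d05000300000600) (nat_lit 50)))
 (.p (nat_lit 0x4983497702) (nat_lit 0x106613) (nat_lit 16)))
 (.n (.p (nat_lit 0x8fe08fa08f808f608f425c706) (nat_lit 0x80000c2b03) (nat_lit 51))
 (.p (nat_lit 0xb63e8102) (nat_lit 0x10022e) (nat_lit 1))))
 (.n (.n (.p (nat_lit 0x229422922290228e228a1ff506) (nat_lit 0x100004ea00) (nat_lit 51))
 (.p (nat_lit 0x35242d902) (nat_lit 0x200720) (nat_lit 1)))
 (.n (.p (nat_lit 0x145515902) (nat_lit 0x200407) (nat_lit 30))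
 (.p (nat_lit 0x5d595e7702) (nat_lit 0x240080000800) (nat_lit 36)))))
 (.n (.n (.n (.p (nat_lit 0x1454144e144c144a1225122306) (nat_lit 0xc00004c500) (nat_lit 51))
 (.p (nat_lit 0x22ac22aa22a822a622a2494d06) (nat_lit 0x100005051a) (nat_lit 52)))
 (.n (.p (nat_lit 0x2412240c240a24081695169306) (nat_lit 0xc000092605) (nat_lit 51))
 (.p (nat_lit 0x5cdd08f702) (nat_lit 0x100020000100) (nat_lit 41))))
 (.n (.n (.p (nat_lit 0x61302902) (nat_lit 0x440302) (nat_lit 30))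
 (.p (nat_lit 0x3df4403502) (nat_lit 0x140127) (nat_lit 5)))
 (.n (.p (nat_lit 0x4fd84ae502) (nat_lit 0x50070d) (nat_lit 4))
 (.p (nat_lit 0x180c5ff502) (nat_lit 0x306a81c35000100000600) (nat_lit 49))))))
 (.n (.n (.n (.n (.p (nat_lit 0xd580d560d500d4e0b350b3306) (nat_lit 0x600000a300) (nat_lit 52))
 (.p (nat_lit 0x1d561d521d4e1d4c02a4028902851d551d5109) (nat_lit 0x2240815) (nat_lit 10)))
 (.n (.p (nat_lit 0x1ab917fb02) (nat_lit 0x440604) (nat_lit 15))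
 (.p (nat_lit 0x22c5a3b02) (nat_lit 0x500209) (nat_lit 27))))
 (.n (.n (.p (nat_lit 0x1c182af302) (nat_lit 0x100801) (nat_lit 29))
 (.p (nat_lit 0xef80ef60ef40ef20cb10ca706) (nat_lit 0x108000ce223) (nat_lit 52)))
 (.n (.p (nat_lit 0x1a2a1a281a241a221a20309106) (nat_lit 0x40000d2309) (nat_lit 51))
 (.p (nat_lit 0x1da65ee902) (nat_lit 0x4a8866344000300000600) (nat_lit 49)))))
 (.n (.n (.n (.p (nat_lit 0x1bb01bae1bac1baa1903190106) (nat_lit 0x18000016800) (nat_lit 52))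
 (.p (nat_lit 0x1ec31bf902) (nat_lit 0x30081c) (nat_lit 15)))
 (.n (.p (nat_lit 0x161a161816161614196f196d06) (nat_lit 0x18000094706) (nat_lit 51))
 (.p (nat_lit 0x5d3f5e2d02) (nat_lit 0xe0060000500) (nat_lit 36))))
 (.n (.n (.p (nat_lit 0x8735d702) (nat_lit 0x40103) (nat_lit 30))
 (.p (nat_lit 0xf8a0f880f860f840f8004370f8307) (nat_lit 0x14032a) (nat_lit 7)))
 (.n (.p (nat_lit 0x44f244f044ec44ea22dd22d706) (nat_lit 0x120000cea0e) (nat_lit 52))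
 (.p (nat_lit 0x1adc60f502) (nat_lit 0x440d623a4000200000600) (nat_lit 49))))))

def c512_346 : Tr := .n c1024_346 c1024_858

def c256_90 : Tr := .n c512_90 c512_346

def c1024_218 : Tr :=
 .n (.n (.n (.n (.n (.n (.p (nat_lit 0xdb00c900c203) (nat_lit 0x42800004) (nat_lit 19))
 (.p (nat_lit 0x1db2615302) (nat_lit 0x1503a8895800300000600) (nat_lit 50)))
 (.p (nat_lit 0x2d402d3c2d3a2d382d36327506) (nat_lit 0x80000c6510) (nat_lit 52)))
 (.n (.p (nat_lit 0x13be1ccd02) (nat_lit 0x200503) (nat_lit 5))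
 (.p (nat_lit 0x48ae48aa48a848a648a421a506) (nat_lit 0x800000ea2a) (nat_lit 52))))
 (.n (.n (.p (nat_lit 0x1e4e1e4c1e4a1e481e461e4406) (nat_lit 0xc900) (nat_lit 52))
 (.p (nat_lit 0xd280d260d220d200d1e2bb306) (nat_lit 0x400000091d) (nat_lit 52)))
 (.n (.p (nat_lit 0x1f02240702) (nat_lit 0x500906) (nat_lit 5))
 (.p (nat_lit 0x5da3154b02) (nat_lit 0xa00a0000600) (nat_lit 40)))))
 (.n (.n (.n (.p (nat_lit 0x100210000ffe0ffc0ff80df706) (nat_lit 0x1000080400) (nat_lit 52))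
 (.p (nat_lit 0x2cf931f302) (nat_lit 0x300517) (nat_lit 15)))
 (.n (.p (nat_lit 0x2288228422822280227e25d306) (nat_lit 0x80000ccb04) (nat_lit 51))
 (.p (nat_lit 0x2fa02f602f402f2028b030106) (nat_lit 0x2b0e61a) (nat_lit 26))))
 (.n (.n (.p (nat_lit 0x4d804d604d404d004ce204b06) (nat_lit 0x2000040901) (nat_lit 51))
 (.p (nat_lit 0x259f22fb02) (nat_lit 0x240a23) (nat_lit 15)))
 (.n (.p (nat_lit 0x3a94348502) (nat_lit 0x50060a) (nat_lit 4))
 (.p (nat_lit 0x15485f5502) (nat_lit 0x1a2522350000000000600) (nat_lit 50))))))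
 (.n (.n (.n (.n (.p (nat_lit 0x71e08f702) (nat_lit 0x140100) (nat_lit 5))
 (.p (nat_lit 0x10ec0a7b02) (nat_lit 0x300415) (nat_lit 4)))
 (.n (.p (nat_lit 0xce81f5f02) (nat_lit 0x340204) (nat_lit 4))
 (.p (nat_lit 0x507e4f5f02) (nat_lit 0x500830) (nat_lit 5))))
 (.n (.n (.p (nat_lit 0x255c255a25582556255422bb06) (nat_lit 0x800052b00) (nat_lit 52))
 (.p (nat_lit 0xe8e0e8c0e8a0e880e84505f06) (nat_lit 0x1000000822) (nat_lit 51)))
 (.n (.p (nat_lit 0x1bdf1bd302) (nat_lit 0x204807) (nat_lit 16))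
 (.p (nat_lit 0x5c9b5e9702) (nat_lit 0x220000000a00) (nat_lit 37)))))
 (.n (.n (.n (.p (nat_lit 0x177817761772177016b716b106) (nat_lit 0x48000d2600) (nat_lit 52))
 (.p (nat_lit 0xfde0fda0fd80fd60fd4073d06) (nat_lit 0x800004801c) (nat_lit 52)))
 (.n (.p (nat_lit 0x4a6a4a684a664a644a624a6000f01c2b1c291c250a) (nat_lit 0x11900805) (nat_lit 31))
 (.p (nat_lit 0x5d630a4d02) (nat_lit 0x1a0080000200) (nat_lit 38))))
 (.n (.n (.p (nat_lit 0x21b4331702) (nat_lit 0xa02) (nat_lit 29))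
 (.p (nat_lit 0x23fa23f623f423f223f04c8f06) (nat_lit 0x80000d0129) (nat_lit 51)))
 (.n (.p (nat_lit 0x123a07d702) (nat_lit 0x34040e) (nat_lit 5))
 (.p (nat_lit 0x1adc605302) (nat_lit 0x40a962335000200000600) (nat_lit 49))))))

def c1024_730 : Tr :=
 .n (.n (.n (.n (.n (.n (.p (nat_lit 0x4f004ee04ea04e804e104db06) (nat_lit 0x4800004000) (nat_lit 52))
 (.p (nat_lit 0x154661d102) (nat_lit 0x54216ac0c800000000600) (nat_lit 50)))
 (.p (nat_lit 0x916091409120910090c426b06) (nat_lit 0x10000c6612) (nat_lit 51)))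
 (.n (.p (nat_lit 0x12aa12a812a412a212a0246f06) (nat_lit 0x400000ab03) (nat_lit 51))
 (.p (nat_lit 0x37603a3502) (nat_lit 0x34022d) (nat_lit 4))))
 (.n (.n (.p (nat_lit 0x21991e9502) (nat_lit 0x408a00) (nat_lit 16))
 (.p (nat_lit 0x3d643fc902) (nat_lit 0x120) (nat_lit 4)))
 (.n (.p (nat_lit 0xa4e0a4c0a4a0a480a440f6b06) (nat_lit 0x1000044307) (nat_lit 52))
 (.p (nat_lit 0x5d0f1ae502) (nat_lit 0xe0040000800) (nat_lit 40)))))
 (.n (.n (.n (.p (nat_lit 0x139b10c702) (nat_lit 0x206500) (nat_lit 16))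
 (.p (nat_lit 0x42dd42d102) (nat_lit 0x408719) (nat_lit 16)))
 (.n (.p (nat_lit 0x62113d702) (nat_lit 0x200505) (nat_lit 15))
 (.p (nat_lit 0x5d3f5dbd02) (nat_lit 0xe0060000000) (nat_lit 36))))
 (.n (.n (.p (nat_lit 0xccc185f02) (nat_lit 0x140202) (nat_lit 4))
 (.p (nat_lit 0x4068406440624060405e3b1706) (nat_lit 0x800008ca26) (nat_lit 52)))
 (.n (.p (nat_lit 0x6920690068e068c068849cb06) (nat_lit 0x100000870c) (nat_lit 52))
 (.p (nat_lit 0x1da25fd302) (nat_lit 0x95a32b05000300000600) (nat_lit 49))))))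
 (.n (.n (.n (.n (.p (nat_lit 0xcc909d702) (nat_lit 0x54c200) (nat_lit 16))
 (.p (nat_lit 0x192419221920191e191c028b192707) (nat_lit 0x500715) (nat_lit 7)))
 (.n (.p (nat_lit 0x1693168702) (nat_lit 0x316604) (nat_lit 16))
 (.p (nat_lit 0x11b59d702) (nat_lit 0x400406) (nat_lit 28))))
 (.n (.n (.p (nat_lit 0x29d229d029ce29cc29ca125506) (nat_lit 0x80000c4401) (nat_lit 52))
 (.p (nat_lit 0xb4c118902) (nat_lit 0x300223) (nat_lit 4)))
 (.n (.p (nat_lit 0x2c192bdd02) (nat_lit 0x48908) (nat_lit 16))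
 (.p (nat_lit 0x15425ecf02) (nat_lit 0x4a1a34344000000000600) (nat_lit 50)))))
 (.n (.n (.n (.p (nat_lit 0x1ae11ad502) (nat_lit 0x800) (nat_lit 34))
 (.p (nat_lit 0x1928553902) (nat_lit 0x71c) (nat_lit 29)))
 (.n (.p (nat_lit 0x4edc4eda4ed84ed64ed44ed206) (nat_lit 0xc2406) (nat_lit 52))
 (.p (nat_lit 0x5d810fdf02) (nat_lit 0x2c00a0000400) (nat_lit 38))))
 (.n (.n (.p (nat_lit 0x8bd060902) (nat_lit 0x200003) (nat_lit 15))
 (.p (nat_lit 0x1c501c4e1c4c1c4a1c480cb306) (nat_lit 0x8000d022a) (nat_lit 51)))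
 (.n (.p (nat_lit 0x1e7533502) (nat_lit 0x90e) (nat_lit 30))
 (.p (nat_lit 0x113c60d502) (nat_lit 0x354a621b0000400040000) (nat_lit 49))))))

def c512_218 : Tr := .n c1024_218 c1024_730

def c1024_474 : Tr :=
 .n (.n (.n (.n (.n (.n (.p (nat_lit 0x2ad0299028e03) (nat_lit 0xa2000015) (nat_lit 19))
 (.p (nat_lit 0x1daa618f02) (nat_lit 0x3422a5c14800300000600) (nat_lit 49)))
 (.p (nat_lit 0x3aa0360f02) (nat_lit 0x500611) (nat_lit 4)))
 (.n (.p (nat_lit 0x1a421a401a3e1a3a17eb17e706) (nat_lit 0x28000d4603) (nat_lit 52))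
 (.p (nat_lit 0x2f3a319302) (nat_lit 0x22c) (nat_lit 4))))
 (.n (.n (.p (nat_lit 0x1fd81fd61fd41fd21fce1d2b06) (nat_lit 0x10000ce900) (nat_lit 52))
 (.p (nat_lit 0x1bb41bb01bae1bac1baa355106) (nat_lit 0x800005601f) (nat_lit 52)))
 (.n (.p (nat_lit 0xc9c04f502) (nat_lit 0x140207) (nat_lit 4))
 (.p (nat_lit 0x5d79181f02) (nat_lit 0x40080000700) (nat_lit 40)))))
 (.n (.n (.n (.p (nat_lit 0x1198119611941190118e0f6106) (nat_lit 0x20000c4400) (nat_lit 52))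
 (.p (nat_lit 0x3afe369b02) (nat_lit 0x200a18) (nat_lit 4)))
 (.n (.p (nat_lit 0xe3460f02) (nat_lit 0x40205) (nat_lit 30))
 (.p (nat_lit 0x43c043a04360434000b014506) (nat_lit 0x2a0412a) (nat_lit 26))))
 (.n (.n (.p (nat_lit 0x2550254c254a25482546231706) (nat_lit 0x80000d0a01) (nat_lit 52))
 (.p (nat_lit 0x2c7c298502) (nat_lit 0x340a24) (nat_lit 4)))
 (.n (.p (nat_lit 0x4ee04ec04ea04e804e6421f06) (nat_lit 0x1000000460b) (nat_lit 52))
 (.p (nat_lit 0x181c5f9102) (nat_lit 0x581a303a5000100000600) (nat_lit 50))))))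
 (.n (.n (.n (.n (.p (nat_lit 0xa960a900a8e0a8c0879087706) (nat_lit 0xc00000a200) (nat_lit 52))
 (.p (nat_lit 0x1db61db41db01dae1dac139106) (nat_lit 0x4000012515) (nat_lit 51)))
 (.n (.p (nat_lit 0x4120411e411c411a4118411600c007) (nat_lit 0x504) (nat_lit 8))
 (.p (nat_lit 0x91593102) (nat_lit 0x500303) (nat_lit 28))))
 (.n (.n (.p (nat_lit 0xcc50a0302) (nat_lit 0x340101) (nat_lit 15))
 (.p (nat_lit 0x8920890088e088a03b403a503a1088d088909) (nat_lit 0x1000123) (nat_lit 10)))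
 (.n (.p (nat_lit 0x14351db02) (nat_lit 0x140b07) (nat_lit 30))
 (.p (nat_lit 0x5eac248d02) (nat_lit 0x40b00) (nat_lit 46)))))
 (.n (.n (.n (.p (nat_lit 0x1931162902) (nat_lit 0x406700) (nat_lit 16))
 (.p (nat_lit 0xac60ac40ac20abe09dd09d906) (nat_lit 0x280004e11c) (nat_lit 51)))
 (.n (.p (nat_lit 0x4bdc4bda4bd84bd608e308e106) (nat_lit 0x600000e106) (nat_lit 52))
 (.p (nat_lit 0x5dad0d1102) (nat_lit 0xa0000300) (nat_lit 38))))
 (.n (.n (.p (nat_lit 0x2070206e206c206a2325232306) (nat_lit 0x18000054a02) (nat_lit 52))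
 (.p (nat_lit 0x9fa09f809f209f00458043b043909f709f509) (nat_lit 0x1a4012a) (nat_lit 10)))
 (.n (.p (nat_lit 0x56e056c056a056814d314d106) (nat_lit 0x180000d050e) (nat_lit 52))
 (.p (nat_lit 0x1ae0609102) (nat_lit 0x342221ca4000200000600) (nat_lit 50))))))

def c1024_986 : Tr :=
 .n (.n (.n (.n (.n (.p (nat_lit 0x6d206d006ce06cc06ca065706) (nat_lit 0x100000d0000) (nat_lit 51))
 (.p (nat_lit 0x2568256625642560255e4f2506) (nat_lit 0x20000d2414) (nat_lit 52)))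
 (.n (.p (nat_lit 0x3c1c3c1a3c183c163c143c1206) (nat_lit 0x6004) (nat_lit 52))
 (.p (nat_lit 0x4326416d02) (nat_lit 0x24072e) (nat_lit 4))))
 (.n (.n (.p (nat_lit 0x2354234e234c234a215d215b06) (nat_lit 0xc000000b00) (nat_lit 52))
 (.p (nat_lit 0x2f6450f02) (nat_lit 0x200121) (nat_lit 1)))
 (.n (.p (nat_lit 0x140a1408140614021233122b06) (nat_lit 0x11000042407) (nat_lit 51))
 (.p (nat_lit 0x5ce55e8302) (nat_lit 0x80020000900) (nat_lit 36)))))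
 (.n (.n (.n (.p (nat_lit 0x1590158e158a15861553154f06) (nat_lit 0x5000084600) (nat_lit 52))
 (.p (nat_lit 0x4fb44d2f02) (nat_lit 0x44051b) (nat_lit 4)))
 (.n (.p (nat_lit 0xfde0fda0fd80fd60fd4196106) (nat_lit 0x8000008705) (nat_lit 52))
 (.p (nat_lit 0x5dd24a2b02) (nat_lit 0x60054100) (nat_lit 48))))
 (.n (.n (.p (nat_lit 0x13b813b413b213ae00780061005b13b713b109) (nat_lit 0x2100502) (nat_lit 10))
 (.p (nat_lit 0x439240eb02) (nat_lit 0x40b27) (nat_lit 5)))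
 (.n (.p (nat_lit 0xe140e120e100e0e0e0c01f10e1707) (nat_lit 0x50030e) (nat_lit 7))
 (.p (nat_lit 0x1140601302) (nat_lit 0x405aa2335000400040000) (nat_lit 49))))))
 (.n (.n (.n (.n (.p (nat_lit 0xe7b0e6f02) (nat_lit 0x140300) (nat_lit 34))
 (.p (nat_lit 0x466646624660465c2181217b06) (nat_lit 0x900000ea15) (nat_lit 52)))
 (.n (.p (nat_lit 0x42db195302) (nat_lit 0x306704) (nat_lit 16))
 (.p (nat_lit 0x1f001ea01e801e60255000906) (nat_lit 0x1c1240e) (nat_lit 26))))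
 (.n (.n (.p (nat_lit 0x1d8415ed02) (nat_lit 0x440801) (nat_lit 4))
 (.p (nat_lit 0x1aa21aa01a9c1a9a1a9803a71a9f07) (nat_lit 0x340723) (nat_lit 7)))
 (.n (.p (nat_lit 0x337c2cd902) (nat_lit 0x340a09) (nat_lit 5))
 (.p (nat_lit 0x181c5f1302) (nat_lit 0x3aa570344000100000600) (nat_lit 50)))))
 (.n (.n (.n (.p (nat_lit 0x1c7e1c7c1c7a1c761a671a5f06) (nat_lit 0x110000c2800) (nat_lit 52))
 (.p (nat_lit 0x202c202a202820220322030b03092027202509) (nat_lit 0x114091c) (nat_lit 10)))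
 (.n (.p (nat_lit 0xbbc0bb80bb60bb40bb21c3706) (nat_lit 0x8000084806) (nat_lit 51))
 (.p (nat_lit 0x5cb5154102) (nat_lit 0x80000000600) (nat_lit 40))))
 (.n (.n (.p (nat_lit 0x371e371a3718371637140cdf06) (nat_lit 0x800004c203) (nat_lit 52))
 (.p (nat_lit 0x2a902a8e2a8a2a882a8617e106) (nat_lit 0x400004462a) (nat_lit 51)))
 (.n (.p (nat_lit 0x2a12276902) (nat_lit 0x54040f) (nat_lit 4))
 (.p (nat_lit 0x13fc611702) (nat_lit 0x3562621b0000500040000) (nat_lit 50))))))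

def c512_474 : Tr := .n c1024_474 c1024_986

def c256_218 : Tr := .n c512_218 c512_474

def c128_90 : Tr := .n c256_90 c256_218

def c64_26 : Tr := .n c128_26 c128_90

def c1024_58 : Tr :=
 .n (.n (.n (.n (.n (.n (.p (nat_lit 0x450043003f003d04) (nat_lit 0x511100001) (nat_lit 21))
 (.p (nat_lit 0xe78612f02) (nat_lit 0x35486a1b0000300040000) (nat_lit 50)))
 (.p (nat_lit 0x2b9c271902) (nat_lit 0x40090f) (nat_lit 4)))
 (.n (.p (nat_lit 0x37f237f037ee37ec37ea37e800940fad0fa70fa50a) (nat_lit 0x10840303) (nat_lit 31))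
 (.p (nat_lit 0x442045f045d1327147105) (nat_lit 0x8ea0082a) (nat_lit 9))))
 (.n (.n (.p (nat_lit 0x1d1a1d181d141d101a631a5f06) (nat_lit 0x5000056800) (nat_lit 51))
 (.p (nat_lit 0x311559702) (nat_lit 0x540a1c) (nat_lit 30)))
 (.n (.p (nat_lit 0x1d9c508902) (nat_lit 0x440806) (nat_lit 29))
 (.p (nat_lit 0x5cc716a702) (nat_lit 0x260020000600) (nat_lit 41)))))
 (.n (.n (.n (.p (nat_lit 0xee00ede0eda0ed80c990c9306) (nat_lit 0x120000cc300) (nat_lit 52))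
 (.p (nat_lit 0x258c0c8d02) (nat_lit 0x540b15) (nat_lit 4)))
 (.n (.p (nat_lit 0x4336433443324330432e432c00c007) (nat_lit 0xb04) (nat_lit 8))
 (.p (nat_lit 0x2275ad502) (nat_lit 0x200910) (nat_lit 28))))
 (.n (.n (.p (nat_lit 0x1ee815f902) (nat_lit 0x400901) (nat_lit 4))
 (.p (nat_lit 0x1d6c107902) (nat_lit 0x440823) (nat_lit 5)))
 (.n (.p (nat_lit 0x35ec35ea35e835e635e4374306) (nat_lit 0x80004820a) (nat_lit 51))
 (.p (nat_lit 0xbb25f2302) (nat_lit 0x3a2560b44000200040000) (nat_lit 50))))))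
 (.n (.n (.n (.n (.p (nat_lit 0x5c605c405c205be05bc000505c107) (nat_lit 0x200100) (nat_lit 7))
 (.p (nat_lit 0x5ca0a5f02) (nat_lit 0x100015) (nat_lit 5)))
 (.n (.p (nat_lit 0x8cc3d1502) (nat_lit 0x400104) (nat_lit 29))
 (.p (nat_lit 0x4694490b02) (nat_lit 0x44022f) (nat_lit 4))))
 (.n (.n (.p (nat_lit 0x2419215902) (nat_lit 0x200b00) (nat_lit 16))
 (.p (nat_lit 0xd280d260d220d200d1e4a4306) (nat_lit 0x4000040721) (nat_lit 52)))
 (.n (.p (nat_lit 0x1a6f17a502) (nat_lit 0x340607) (nat_lit 15))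
 (.p (nat_lit 0x5e863d7502) (nat_lit 0x40008900) (nat_lit 48)))))
 (.n (.n (.n (.p (nat_lit 0x1651154d02) (nat_lit 0x6600) (nat_lit 16))
 (.p (nat_lit 0x4d804d604d404d204ce05d706) (nat_lit 0x100000001c) (nat_lit 51)))
 (.n (.p (nat_lit 0x1ac61ac21ac01abc010200eb00e51ac51abf09) (nat_lit 0x2140705) (nat_lit 10))
 (.p (nat_lit 0x5c955ddf02) (nat_lit 0x280000000200) (nat_lit 36))))
 (.n (.n (.p (nat_lit 0x1ef61a1f02) (nat_lit 0x500902) (nat_lit 5))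
 (.p (nat_lit 0x229422922290228c228a458b06) (nat_lit 0x200004e128) (nat_lit 51)))
 (.n (.p (nat_lit 0xbf40bf20bf00bee0f7f0f7d06) (nat_lit 0x1800004a30e) (nat_lit 51))
 (.p (nat_lit 0x181c602d02) (nat_lit 0x406a62335000100000600) (nat_lit 50))))))

def c1024_570 : Tr :=
 .n (.n (.n (.n (.n (.n (.p (nat_lit 0x3830381037003) (nat_lit 0x82b00020) (nat_lit 19))
 (.p (nat_lit 0x198461a902) (nat_lit 0x340b8ac64000100040600) (nat_lit 50)))
 (.p (nat_lit 0x40823d1902) (nat_lit 0x412) (nat_lit 4)))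
 (.n (.p (nat_lit 0x1e721e6e1e6a1e6821c921c506) (nat_lit 0xa00008ea03) (nat_lit 51))
 (.p (nat_lit 0x3310324902) (nat_lit 0x34092c) (nat_lit 4))))
 (.n (.n (.p (nat_lit 0x1e90206f02) (nat_lit 0x200a00) (nat_lit 4))
 (.p (nat_lit 0x3b3a55d502) (nat_lit 0x40a1f) (nat_lit 29)))
 (.n (.p (nat_lit 0xe06050502) (nat_lit 0x300307) (nat_lit 4))
 (.p (nat_lit 0x5d93197b02) (nat_lit 0x1a00a0000700) (nat_lit 39)))))
 (.n (.n (.n (.p (nat_lit 0x12930f6702) (nat_lit 0x556400) (nat_lit 16))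
 (.p (nat_lit 0x3fba3fb83fb63fb23fb0410f06) (nat_lit 0x2000040419) (nat_lit 51)))
 (.n (.p (nat_lit 0xfbc223702) (nat_lit 0x40305) (nat_lit 4))
 (.p (nat_lit 0x4915c7d02) (nat_lit 0x10062d) (nat_lit 28))))
 (.n (.n (.p (nat_lit 0x762075e075c075800780061005b0761075b09) (nat_lit 0x2140002) (nat_lit 10))
 (.p (nat_lit 0x33aa30dd02) (nat_lit 0x240a25) (nat_lit 4)))
 (.n (.p (nat_lit 0x436a3cf102) (nat_lit 0x240b0b) (nat_lit 4))
 (.p (nat_lit 0x4d05fa502) (nat_lit 0x588bb0344000000000000) (nat_lit 50))))))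
 (.n (.n (.n (.n (.p (nat_lit 0xb9b087102) (nat_lit 0x16200) (nat_lit 16))
 (.p (nat_lit 0x154a154815461544154214d506) (nat_lit 0x80004c515) (nat_lit 51)))
 (.n (.p (nat_lit 0x41bc41b841b641b41519151706) (nat_lit 0xc000044504) (nat_lit 51))
 (.p (nat_lit 0xbe00bc00b600b400e7000706) (nat_lit 0x1316604) (nat_lit 26))))
 (.n (.n (.p (nat_lit 0x287d0cc902) (nat_lit 0x548201) (nat_lit 16))
 (.p (nat_lit 0x35c5088d02) (nat_lit 0x210123) (nat_lit 16)))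
 (.n (.p (nat_lit 0x17541752174e174c174a28d106) (nat_lit 0x4000010308) (nat_lit 51))
 (.p (nat_lit 0x5d31248702) (nat_lit 0x1c0060000b00) (nat_lit 39)))))
 (.n (.n (.n (.p (nat_lit 0x19d819d419d019ce179b179706) (nat_lit 0xa000046700) (nat_lit 51))
 (.p (nat_lit 0x5db139d02) (nat_lit 0x30051c) (nat_lit 15)))
 (.n (.p (nat_lit 0xd0024d702) (nat_lit 0x340206) (nat_lit 5))
 (.p (nat_lit 0x5ccd0fe302) (nat_lit 0x200020000400) (nat_lit 40))))
 (.n (.n (.p (nat_lit 0x15c815c615c415c22467245d06) (nat_lit 0x1080000ab02) (nat_lit 51))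
 (.p (nat_lit 0xd100d0c0d0a0d080d060b5b06) (nat_lit 0x800000622a) (nat_lit 52)))
 (.n (.p (nat_lit 0x2dd22dce2dcc2dca2dc8191906) (nat_lit 0x800000870e) (nat_lit 52))
 (.p (nat_lit 0x8f260a702) (nat_lit 0x356068ca4000100040000) (nat_lit 49))))))

def c512_58 : Tr := .n c1024_58 c1024_570

def c1024_314 : Tr :=
 .n (.n (.n (.n (.n (.n (.p (nat_lit 0x13f013b0137012204) (nat_lit 0x95a00006) (nat_lit 20))
 (.p (nat_lit 0xbb4616b02) (nat_lit 0x421aa4395000200040000) (nat_lit 50)))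
 (.p (nat_lit 0x33dc2e1702) (nat_lit 0x300b10) (nat_lit 5)))
 (.n (.p (nat_lit 0x16781b7f02) (nat_lit 0x200603) (nat_lit 5))
 (.p (nat_lit 0x281a2a2b02) (nat_lit 0x10022b) (nat_lit 4))))
 (.n (.n (.p (nat_lit 0x1ebf1bc502) (nat_lit 0x106900) (nat_lit 16))
 (.p (nat_lit 0x2f5c2f5a2f582f542f522e2b06) (nat_lit 0x200000a11e) (nat_lit 51)))
 (.n (.p (nat_lit 0x206820642062205e0130011b01152067206109) (nat_lit 0x2140906) (nat_lit 10))
 (.p (nat_lit 0x5ce9181902) (nat_lit 0x40020000700) (nat_lit 40)))))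
 (.n (.n (.n (.p (nat_lit 0x109c1098109610920dfd0df706) (nat_lit 0x9000014400) (nat_lit 52))
 (.p (nat_lit 0x33962f8902) (nat_lit 0x440a17) (nat_lit 5)))
 (.n (.p (nat_lit 0xe3441b02) (nat_lit 0x40005) (nat_lit 30))
 (.p (nat_lit 0x36a036803660362038700bf06) (nat_lit 0xd16020) (nat_lit 26))))
 (.n (.n (.p (nat_lit 0x2bf1204f02) (nat_lit 0x442901) (nat_lit 16))
 (.p (nat_lit 0x4e684e664e644e624e60259b06) (nat_lit 0x8000c2b23) (nat_lit 51)))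
 (.n (.p (nat_lit 0x3bc2353502) (nat_lit 0x240b0a) (nat_lit 4))
 (.p (nat_lit 0x1ad65f6d02) (nat_lit 0x3aa074b44000200000600) (nat_lit 49))))))
 (.n (.n (.n (.n (.p (nat_lit 0x98e098a098809860725071d06) (nat_lit 0x8800052100) (nat_lit 51))
 (.p (nat_lit 0x28e02a7029d0be90a8705) (nat_lit 0xa8b40415) (nat_lit 9)))
 (.n (.p (nat_lit 0x3fa90e4d02) (nat_lit 0x20a304) (nat_lit 16))
 (.p (nat_lit 0x2f58c302) (nat_lit 0x200801) (nat_lit 28))))
 (.n (.n (.p (nat_lit 0x5f216c302) (nat_lit 0x300001) (nat_lit 4))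
 (.p (nat_lit 0x5ea568702) (nat_lit 0x500023) (nat_lit 29)))
 (.n (.p (nat_lit 0x200606e902) (nat_lit 0x440907) (nat_lit 4))
 (.p (nat_lit 0x5d175e9d02) (nat_lit 0x60040000a00) (nat_lit 36)))))
 (.n (.n (.n (.p (nat_lit 0x1624181b02) (nat_lit 0x200700) (nat_lit 5))
 (.p (nat_lit 0x87c0e9d02) (nat_lit 0x11c) (nat_lit 4)))
 (.n (.p (nat_lit 0x1f601f5e1f5c1f5a1d931d8906) (nat_lit 0x108000c4805) (nat_lit 52))
 (.p (nat_lit 0x5df4339b02) (nat_lit 0x4e300) (nat_lit 48))))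
 (.n (.n (.p (nat_lit 0x1db41db21db01dae1dac21bf06) (nat_lit 0x10000012a02) (nat_lit 51))
 (.p (nat_lit 0xff40ff20ff00fee0fec50c706) (nat_lit 0x10000040829) (nat_lit 52)))
 (.n (.p (nat_lit 0x124b123f02) (nat_lit 0x54640e) (nat_lit 16))
 (.p (nat_lit 0xe7a606902) (nat_lit 0x588172b40800300040000) (nat_lit 50))))))

def c1024_826 : Tr :=
 .n (.n (.n (.n (.n (.n (.p (nat_lit 0x5a205a0059e059804df04dd06) (nat_lit 0x3000094000) (nat_lit 51))
 (.p (nat_lit 0x169861e702) (nat_lit 0x3422b0d64000000040600) (nat_lit 49)))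
 (.p (nat_lit 0x227c227a227622742272485106) (nat_lit 0x400004c413) (nat_lit 51)))
 (.n (.p (nat_lit 0x25c21d2102) (nat_lit 0x240b03) (nat_lit 4))
 (.p (nat_lit 0x3c0039d902) (nat_lit 0x340b2d) (nat_lit 4))))
 (.n (.n (.p (nat_lit 0x224a2246224422421ffd1ff906) (nat_lit 0x14000048a00) (nat_lit 52))
 (.p (nat_lit 0x42823f6902) (nat_lit 0x140620) (nat_lit 5)))
 (.n (.p (nat_lit 0x38630f7102) (nat_lit 0x450307) (nat_lit 16))
 (.p (nat_lit 0x5d711c4f02) (nat_lit 0xc0080000800) (nat_lit 41)))))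
 (.n (.n (.n (.p (nat_lit 0x1430142e142c14261221121f06) (nat_lit 0x30000c4500) (nat_lit 52))
 (.p (nat_lit 0x212e212c212a2126212448c106) (nat_lit 0x200000e51a) (nat_lit 52)))
 (.n (.p (nat_lit 0x16961690168e168c010c00eb00e91695169309) (nat_lit 0x2300605) (nat_lit 10))
 (.p (nat_lit 0x5cb35dc502) (nat_lit 0xa0000000100) (nat_lit 37))))
 (.n (.n (.p (nat_lit 0x10ff0e3102) (nat_lit 0x302) (nat_lit 15))
 (.p (nat_lit 0x3d7640ab02) (nat_lit 0x300127) (nat_lit 5)))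
 (.n (.p (nat_lit 0x4f144b5102) (nat_lit 0x4040d) (nat_lit 4))
 (.p (nat_lit 0x11485fe902) (nat_lit 0x306a81d31000400040000) (nat_lit 50))))))
 (.n (.n (.n (.n (.p (nat_lit 0xd300d2e0d2c0d2a0b390b3706) (nat_lit 0x18000080300) (nat_lit 51))
 (.p (nat_lit 0x369636943692368e368c1beb06) (nat_lit 0x200000c815) (nat_lit 51)))
 (.n (.p (nat_lit 0x181e181c181a1818181617fd06) (nat_lit 0x1000004e604) (nat_lit 51))
 (.p (nat_lit 0x1415a1302) (nat_lit 0xa07) (nat_lit 28))))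
 (.n (.n (.p (nat_lit 0x2aca2ac82ac62ac42ac22ac006) (nat_lit 0x52501) (nat_lit 52))
 (.p (nat_lit 0xcae0cac0ca80ca603c803ab03a50cb10cab09) (nat_lit 0x2a40223) (nat_lit 10)))
 (.n (.p (nat_lit 0x1a421a401a3e1a3a1a38300f06) (nat_lit 0x2000094309) (nat_lit 52))
 (.p (nat_lit 0x4c25ee102) (nat_lit 0x4a8d84344000000000000) (nat_lit 49)))))
 (.n (.n (.n (.p (nat_lit 0x1b8c1b8a1b881b861903190106) (nat_lit 0x1800008c800) (nat_lit 51))
 (.p (nat_lit 0x1bf60d9b02) (nat_lit 0x20081c) (nat_lit 5)))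
 (.n (.p (nat_lit 0x196e196c19681964012e01190115196b196709) (nat_lit 0x1900706) (nat_lit 10))
 (.p (nat_lit 0x5cf912a502) (nat_lit 0x240040000500) (nat_lit 40))))
 (.n (.n (.p (nat_lit 0x9400a700a11b0f1c7505) (nat_lit 0x84500103) (nat_lit 9))
 (.p (nat_lit 0x102610241020101e101c0e1f06) (nat_lit 0x400000432a) (nat_lit 51)))
 (.n (.p (nat_lit 0x2181217502) (nat_lit 0x406a0e) (nat_lit 16))
 (.p (nat_lit 0xe7260ef02) (nat_lit 0x440d6a3a4000300040000) (nat_lit 49))))))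

def c512_314 : Tr := .n c1024_314 c1024_826

def c256_58 : Tr := .n c512_58 c512_314

def c1024_186 : Tr :=
 .n (.n (.n (.n (.n (.n (.p (nat_lit 0xbe00ba00b400c104) (nat_lit 0x14800400004) (nat_lit 17))
 (.p (nat_lit 0x13fc614d02) (nat_lit 0x3b0221d85000500040000) (nat_lit 50)))
 (.p (nat_lit 0x18ea18e818e618e218e0317706) (nat_lit 0x2000056410) (nat_lit 51)))
 (.n (.p (nat_lit 0x392e392c392a39283926126b06) (nat_lit 0x4000044403) (nat_lit 52))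
 (.p (nat_lit 0x219e582f02) (nat_lit 0x100a2a) (nat_lit 29))))
 (.n (.n (.p (nat_lit 0x1df01dee1dec1de81bcd1bc506) (nat_lit 0x11000004900) (nat_lit 51))
 (.p (nat_lit 0x2732290902) (nat_lit 0x50011d) (nat_lit 4)))
 (.n (.p (nat_lit 0x50de50dc50da50d850d650d4011e07) (nat_lit 0x906) (nat_lit 8))
 (.p (nat_lit 0x5d735e4902) (nat_lit 0xa0080000600) (nat_lit 37)))))
 (.n (.n (.n (.p (nat_lit 0xdfc0fdd02) (nat_lit 0x400400) (nat_lit 4))
 (.p (nat_lit 0x2c6a280902) (nat_lit 0x440a16) (nat_lit 4)))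
 (.n (.p (nat_lit 0xec25d502) (nat_lit 0x540b04) (nat_lit 1))
 (.p (nat_lit 0x2ee02ea02e802e602d500b506) (nat_lit 0x200e519) (nat_lit 26))))
 (.n (.n (.p (nat_lit 0x204615fd02) (nat_lit 0x40901) (nat_lit 5))
 (.p (nat_lit 0x47844780477e477c477a219906) (nat_lit 0x8000080a23) (nat_lit 52)))
 (.n (.p (nat_lit 0x1a1524102) (nat_lit 0x44040a) (nat_lit 30))
 (.p (nat_lit 0xe825f4302) (nat_lit 0x1a1d22350000300040000) (nat_lit 50))))))
 (.n (.n (.n (.n (.p (nat_lit 0x8b305c302) (nat_lit 0x30e100) (nat_lit 16))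
 (.p (nat_lit 0x735072902) (nat_lit 0x48015) (nat_lit 16)))
 (.n (.p (nat_lit 0x3e663e643e623e600b8d0b8906) (nat_lit 0x14000096204) (nat_lit 51))
 (.p (nat_lit 0x4d064f7d02) (nat_lit 0x500230) (nat_lit 5))))
 (.n (.n (.p (nat_lit 0x2538253625342532253022bb06) (nat_lit 0x8000ceb00) (nat_lit 51))
 (.p (nat_lit 0x5024567502) (nat_lit 0x240722) (nat_lit 29)))
 (.n (.p (nat_lit 0x1bd6519902) (nat_lit 0x400807) (nat_lit 29))
 (.p (nat_lit 0x5d851f0f02) (nat_lit 0x2800a0000900) (nat_lit 39)))))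
 (.n (.n (.n (.p (nat_lit 0x1760175e175c175a175616b306) (nat_lit 0x10000d0600) (nat_lit 51))
 (.p (nat_lit 0x73e073a073807360734030f073d07) (nat_lit 0x44001c) (nat_lit 7)))
 (.n (.p (nat_lit 0xb81c2702) (nat_lit 0x200805) (nat_lit 1))
 (.p (nat_lit 0x5de80e1302) (nat_lit 0x60000200) (nat_lit 47))))
 (.n (.n (.p (nat_lit 0x1d1a1d181d141d121d10205906) (nat_lit 0x4000056902) (nat_lit 51))
 (.p (nat_lit 0x2568256625642562255e4c0f06) (nat_lit 0x1000092129) (nat_lit 52)))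
 (.n (.p (nat_lit 0x138510e102) (nat_lit 0x30040e) (nat_lit 15))
 (.p (nat_lit 0x13ea604902) (nat_lit 0x406a6254c800500040000) (nat_lit 49))))))

def c1024_698 : Tr :=
 .n (.n (.n (.n (.n (.n (.p (nat_lit 0x4d004c404dd03) (nat_lit 0x100000) (nat_lit 6))
 (.p (nat_lit 0x1f0c61c702) (nat_lit 0x340d89ca4000300040600) (nat_lit 49)))
 (.p (nat_lit 0x42283dc302) (nat_lit 0x400612) (nat_lit 4)))
 (.n (.p (nat_lit 0x79e079c079a07980794246b06) (nat_lit 0x1000002b03) (nat_lit 52))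
 (.p (nat_lit 0x36d2587902) (nat_lit 0x20022d) (nat_lit 29))))
 (.n (.n (.p (nat_lit 0x21571e8f02) (nat_lit 0x100a00) (nat_lit 15))
 (.p (nat_lit 0x3d0a3d083d063d043d0003653d0307) (nat_lit 0x140020) (nat_lit 7)))
 (.n (.p (nat_lit 0x14e015b0157050b067d05) (nat_lit 0x46040307) (nat_lit 9))
 (.p (nat_lit 0x5cc51ad702) (nat_lit 0x280020000800) (nat_lit 38)))))
 (.n (.n (.n (.p (nat_lit 0x134c134a1346134410c910c306) (nat_lit 0x4800092500) (nat_lit 51))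
 (.p (nat_lit 0xc040c020c000bfc0bfa427906) (nat_lit 0x20000ca619) (nat_lit 52)))
 (.n (.p (nat_lit 0x4861128702) (nat_lit 0x544405) (nat_lit 16))
 (.p (nat_lit 0x5d195db702) (nat_lit 0x40040000000) (nat_lit 37))))
 (.n (.n (.p (nat_lit 0x592ecf02) (nat_lit 0x202) (nat_lit 30))
 (.p (nat_lit 0x36cf36c302) (nat_lit 0x226) (nat_lit 16)))
 (.n (.p (nat_lit 0x49ba49b849b649b249b001c949b507) (nat_lit 0x24060c) (nat_lit 7))
 (.p (nat_lit 0x233a5fcd02) (nat_lit 0x95832b05000500000600) (nat_lit 49))))))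
 (.n (.n (.n (.n (.p (nat_lit 0xc8c0c8a0c880c860c8409cd06) (nat_lit 0x8000d6200) (nat_lit 52))
 (.p (nat_lit 0x1a8517bb02) (nat_lit 0x240615) (nat_lit 15)))
 (.n (.p (nat_lit 0x2348234423422340233e168906) (nat_lit 0x8000016604) (nat_lit 51))
 (.p (nat_lit 0x11359c302) (nat_lit 0x106) (nat_lit 28))))
 (.n (.n (.p (nat_lit 0x113510f902) (nat_lit 0x314401) (nat_lit 16))
 (.p (nat_lit 0x2ec309ed02) (nat_lit 0x44e123) (nat_lit 16)))
 (.n (.p (nat_lit 0x69e069c069a069806962b8906) (nat_lit 0x800088908) (nat_lit 52))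
 (.p (nat_lit 0x5ec24b8f02) (nat_lit 0xa0046b00) (nat_lit 48)))))
 (.n (.n (.n (.p (nat_lit 0x1a93179902) (nat_lit 0x346700) (nat_lit 16))
 (.p (nat_lit 0x17c20d7302) (nat_lit 0x4061c) (nat_lit 5)))
 (.n (.p (nat_lit 0x41e128b02) (nat_lit 0x140406) (nat_lit 1))
 (.p (nat_lit 0x5e1a14e902) (nat_lit 0x80044400) (nat_lit 48))))
 (.n (.n (.p (nat_lit 0x6041c5302) (nat_lit 0x3) (nat_lit 4))
 (.p (nat_lit 0xe820e800e7c0e7a0e780cb906) (nat_lit 0x40000c622a) (nat_lit 51)))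
 (.n (.p (nat_lit 0x1d48533102) (nat_lit 0x44080e) (nat_lit 29))
 (.p (nat_lit 0x63460d102) (nat_lit 0x35052a3a4000000040000) (nat_lit 49))))))

def c512_186 : Tr := .n c1024_186 c1024_698

def c1024_442 : Tr :=
 .n (.n (.n (.n (.n (.n (.p (nat_lit 0x28a02820280028d04) (nat_lit 0x11800400015) (nat_lit 17))
 (.p (nat_lit 0x2348618702) (nat_lit 0x54c88a970000500000600) (nat_lit 50)))
 (.p (nat_lit 0x1d1a1d181d161d141d10397506) (nat_lit 0x1000056411) (nat_lit 51)))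
 (.n (.p (nat_lit 0x199e199c199a1998199417e906) (nat_lit 0x10000c0603) (nat_lit 52))
 (.p (nat_lit 0x2c1a2acf02) (nat_lit 0x14092b) (nat_lit 4))))
 (.n (.n (.p (nat_lit 0x1fb21fb01fac1faa1d331d2d06) (nat_lit 0x1200004c900) (nat_lit 51))
 (.p (nat_lit 0x86354902) (nat_lit 0x4001f) (nat_lit 1)))
 (.n (.p (nat_lit 0xe010b3b02) (nat_lit 0x207) (nat_lit 15))
 (.p (nat_lit 0x5d2b5e5d02) (nat_lit 0x220060000700) (nat_lit 36)))))
 (.n (.n (.n (.p (nat_lit 0x117411721170116e116c0f5d06) (nat_lit 0x800042400) (nat_lit 51))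
 (.p (nat_lit 0x1d181d161d141d121d103a7106) (nat_lit 0x10000056518) (nat_lit 51)))
 (.n (.p (nat_lit 0xb9445a502) (nat_lit 0x300205) (nat_lit 29))
 (.p (nat_lit 0x3d85c0902) (nat_lit 0x400b25) (nat_lit 27))))
 (.n (.n (.p (nat_lit 0x2318161f02) (nat_lit 0x540a01) (nat_lit 5))
 (.p (nat_lit 0x3aa2bc302) (nat_lit 0x500924) (nat_lit 1)))
 (.n (.p (nat_lit 0x40783ca902) (nat_lit 0x10040b) (nat_lit 4))
 (.p (nat_lit 0x13f25f8502) (nat_lit 0x581a32b44000500040000) (nat_lit 49))))))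
 (.n (.n (.n (.n (.p (nat_lit 0xa700a6c0a6a0a68087b087706) (nat_lit 0x14000080200) (nat_lit 51))
 (.p (nat_lit 0x12aa12a812a412a212a0139106) (nat_lit 0x400000a515) (nat_lit 51)))
 (.n (.p (nat_lit 0xbf40a302) (nat_lit 0x540404) (nat_lit 30))
 (.p (nat_lit 0x591859165914591259100141009207) (nat_lit 0x16003) (nat_lit 25))))
 (.n (.n (.p (nat_lit 0x2d274b02) (nat_lit 0x140101) (nat_lit 30))
 (.p (nat_lit 0x2daf074902) (nat_lit 0x44e023) (nat_lit 16)))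
 (.n (.p (nat_lit 0x241c241a241824162414014b241f07) (nat_lit 0x500b07) (nat_lit 7))
 (.p (nat_lit 0x5ea81f0302) (nat_lit 0xa000ca00) (nat_lit 48)))))
 (.n (.n (.n (.p (nat_lit 0x18f418f218f018ee18ec162b06) (nat_lit 0x10000096700) (nat_lit 51))
 (.p (nat_lit 0x9e0551102) (nat_lit 0x44011c) (nat_lit 29)))
 (.n (.p (nat_lit 0x26a08df02) (nat_lit 0x100106) (nat_lit 1))
 (.p (nat_lit 0x5d6d0d1b02) (nat_lit 0x100080000300) (nat_lit 40))))
 (.n (.n (.p (nat_lit 0x1820181c181a18181816232306) (nat_lit 0x800004ea02) (nat_lit 51))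
 (.p (nat_lit 0x9f257ab02) (nat_lit 0x14012a) (nat_lit 29)))
 (.n (.p (nat_lit 0x6620660065e065c065814cb06) (nat_lit 0x100004450e) (nat_lit 51))
 (.p (nat_lit 0x1150608b02) (nat_lit 0x354221ca4000400040000) (nat_lit 50))))))

def c1024_954 : Tr :=
 .n (.n (.n (.n (.n (.p (nat_lit 0x6920690068e06880651064f06) (nat_lit 0x3000048000) (nat_lit 52))
 (.p (nat_lit 0x23fa23f823f623f423f04e9906) (nat_lit 0x1000090414) (nat_lit 51)))
 (.n (.p (nat_lit 0x6101db902) (nat_lit 0x4) (nat_lit 4))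
 (.p (nat_lit 0x429a415f02) (nat_lit 0x14062e) (nat_lit 4))))
 (.n (.n (.p (nat_lit 0x232d1ff902) (nat_lit 0x350a00) (nat_lit 16))
 (.p (nat_lit 0x449c471702) (nat_lit 0x40021) (nat_lit 4)))
 (.n (.p (nat_lit 0x122e516702) (nat_lit 0x340407) (nat_lit 29))
 (.p (nat_lit 0x5cbd1f0502) (nat_lit 0x900) (nat_lit 39)))))
 (.n (.n (.n (.p (nat_lit 0x2e155102) (nat_lit 0x200600) (nat_lit 1))
 (.p (nat_lit 0x4f2c4d1302) (nat_lit 0x4041b) (nat_lit 5)))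
 (.n (.p (nat_lit 0x1962212f02) (nat_lit 0x500705) (nat_lit 4))
 (.p (nat_lit 0x5d31079b02) (nat_lit 0x1c0060000100) (nat_lit 38))))
 (.n (.n (.p (nat_lit 0x1269125d02) (nat_lit 0x252402) (nat_lit 16))
 (.p (nat_lit 0x117411721170116c116a429106) (nat_lit 0x2000042627) (nat_lit 51)))
 (.n (.p (nat_lit 0xe0c090102) (nat_lit 0x30e) (nat_lit 5))
 (.p (nat_lit 0x2332600d02) (nat_lit 0x405aa0b54800500000600) (nat_lit 49))))))
 (.n (.n (.n (.n (.p (nat_lit 0xe3b0b3902) (nat_lit 0x50e300) (nat_lit 16))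
 (.p (nat_lit 0x285549502) (nat_lit 0x200a15) (nat_lit 30)))
 (.n (.p (nat_lit 0x1b9a1b981b961b941b92195706) (nat_lit 0x10000014704) (nat_lit 52))
 (.p (nat_lit 0x1e201e001dc01d801c7014706) (nat_lit 0xb1280d) (nat_lit 26))))
 (.n (.n (.p (nat_lit 0x2b2d1c1902) (nat_lit 0x108801) (nat_lit 16))
 (.p (nat_lit 0x1936104f02) (nat_lit 0x100723) (nat_lit 5)))
 (.n (.p (nat_lit 0x332a3328332633240194018f0185332d332309) (nat_lit 0x2800a09) (nat_lit 10))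
 (.p (nat_lit 0x1db65f0d02) (nat_lit 0x3a2530344000300000600) (nat_lit 50)))))
 (.n (.n (.n (.p (nat_lit 0x1a661a621a601a5e1a5c00091a6507) (nat_lit 0x440800) (nat_lit 7))
 (.p (nat_lit 0x21891ec102) (nat_lit 0x20091c) (nat_lit 15)))
 (.n (.p (nat_lit 0x117503102) (nat_lit 0x200806) (nat_lit 30))
 (.p (nat_lit 0x5d9d5e3502) (nat_lit 0x1000a0000500) (nat_lit 36))))
 (.n (.n (.p (nat_lit 0x367e367c367a367836760b7706) (nat_lit 0x80000a203) (nat_lit 52))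
 (.p (nat_lit 0x2aac2aaa2aa82aa61671166f06) (nat_lit 0xc00008662a) (nat_lit 52)))
 (.n (.p (nat_lit 0x215537b02) (nat_lit 0x50030f) (nat_lit 30))
 (.p (nat_lit 0x13fc611102) (nat_lit 0x3425221b0000500040000) (nat_lit 50))))))

def c512_442 : Tr := .n c1024_442 c1024_954

def c256_186 : Tr := .n c512_186 c512_442

def c128_58 : Tr := .n c256_58 c256_186

def c1024_122 : Tr :=
 .n (.n (.n (.n (.n (.n (.p (nat_lit 0x81007d006d006804) (nat_lit 0x55800002) (nat_lit 20))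
 (.p (nat_lit 0x13ee613d02) (nat_lit 0x342a21d84000500040000) (nat_lit 49)))
 (.p (nat_lit 0x309e2dc502) (nat_lit 0x440310) (nat_lit 4)))
 (.n (.p (nat_lit 0x38ae38ac38aa38a838a4110d06) (nat_lit 0x1000084403) (nat_lit 51))
 (.p (nat_lit 0x43b581b02) (nat_lit 0x30092a) (nat_lit 30))))
 (.n (.n (.p (nat_lit 0x1d831a6302) (nat_lit 0x34c800) (nat_lit 16))
 (.p (nat_lit 0x258e55a502) (nat_lit 0x40b1c) (nat_lit 29)))
 (.n (.p (nat_lit 0x18141810180e180c180a1d9d06) (nat_lit 0x800004e806) (nat_lit 52))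
 (.p (nat_lit 0x5d475e4502) (nat_lit 0x60060000600) (nat_lit 37)))))
 (.n (.n (.n (.p (nat_lit 0xf7d0c9702) (nat_lit 0x442300) (nat_lit 16))
 (.p (nat_lit 0x17821780177e177c177a2aef06) (nat_lit 0x10000054516) (nat_lit 52)))
 (.n (.p (nat_lit 0x212e212c212a21282126247506) (nat_lit 0x80000eb04) (nat_lit 52))
 (.p (nat_lit 0x28a0288028202800007030b06) (nat_lit 0x1a0a415) (nat_lit 26))))
 (.n (.n (.p (nat_lit 0x16ac16aa16a816a616a41eeb06) (nat_lit 0x1000008c901) (nat_lit 51))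
 (.p (nat_lit 0x403c403a4038403440321ecd06) (nat_lit 0x2000082923) (nat_lit 51)))
 (.n (.p (nat_lit 0x38623860385e385c385a01a3386507) (nat_lit 0x54030a) (nat_lit 7))
 (.p (nat_lit 0x1db65f3702) (nat_lit 0x3a6560c44000300000600) (nat_lit 50))))))
 (.n (.n (.n (.n (.p (nat_lit 0x7e607e407e207e005bf05bd06) (nat_lit 0x180000a100) (nat_lit 51))
 (.p (nat_lit 0x1e8072b02) (nat_lit 0x140015) (nat_lit 1)))
 (.n (.p (nat_lit 0xce50a2302) (nat_lit 0x140104) (nat_lit 15))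
 (.p (nat_lit 0x4384a0702) (nat_lit 0x20072f) (nat_lit 1))))
 (.n (.n (.p (nat_lit 0x2491248502) (nat_lit 0x240b00) (nat_lit 34))
 (.p (nat_lit 0x4c024df902) (nat_lit 0x100122) (nat_lit 4)))
 (.n (.p (nat_lit 0x518e518c518a518851865184014c07) (nat_lit 0x40707) (nat_lit 8))
 (.p (nat_lit 0x5d771f0d02) (nat_lit 0x60080000900) (nat_lit 39)))))
 (.n (.n (.n (.p (nat_lit 0x16ba16b616b416b216b0000916b907) (nat_lit 0x440600) (nat_lit 7))
 (.p (nat_lit 0x1db61db41db21db01dae05d506) (nat_lit 0x80001201c) (nat_lit 51)))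
 (.n (.p (nat_lit 0x198419821980197e197c1ac706) (nat_lit 0x100000ce705) (nat_lit 51))
 (.p (nat_lit 0x5de00a5302) (nat_lit 0x20000200) (nat_lit 46))))
 (.n (.n (.p (nat_lit 0x8a205702) (nat_lit 0x240902) (nat_lit 1))
 (.p (nat_lit 0x4a4e483902) (nat_lit 0x340728) (nat_lit 4)))
 (.n (.p (nat_lit 0xfea0fe80fe60fe40fe010dd06) (nat_lit 0x100000840e) (nat_lit 51))
 (.p (nat_lit 0xe72603902) (nat_lit 0x4a8162340800300040000) (nat_lit 49))))))

def c1024_634 : Tr :=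
 .n (.n (.n (.n (.n (.n (.p (nat_lit 0x43a04380436044104) (nat_lit 0x700040002a) (nat_lit 17))
 (.p (nat_lit 0x8fc61bb02) (nat_lit 0x322266c15000100040000) (nat_lit 50)))
 (.p (nat_lit 0x1fcc1fc81fc61fc41fc2410906) (nat_lit 0x800004e412) (nat_lit 52)))
 (.n (.p (nat_lit 0x1e5a1e581e561e541e50232906) (nat_lit 0x10000cca03) (nat_lit 51))
 (.p (nat_lit 0x3b5d33bd02) (nat_lit 0x552a2c) (nat_lit 16))))
 (.n (.n (.p (nat_lit 0x21162110210e210c1e951e9306) (nat_lit 0xc00000ca00) (nat_lit 52))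
 (.p (nat_lit 0x3083be502) (nat_lit 0x140b1f) (nat_lit 1)))
 (.n (.p (nat_lit 0x1820181e181a181818160e0706) (nat_lit 0x400000e307) (nat_lit 51))
 (.p (nat_lit 0x5e661ad502) (nat_lit 0x800) (nat_lit 45)))))
 (.n (.n (.n (.p (nat_lit 0x12ce12cc12ca12c812c612c406) (nat_lit 0x4500) (nat_lit 52))
 (.p (nat_lit 0x1ff01fee1fea1fe81fe6420906) (nat_lit 0x40000d6519) (nat_lit 51)))
 (.n (.p (nat_lit 0x112620e302) (nat_lit 0x200405) (nat_lit 5))
 (.p (nat_lit 0x5dae04cf02) (nat_lit 0x0) (nat_lit 46))))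
 (.n (.n (.p (nat_lit 0x8b208b008ae08ac00840063006108b708b509) (nat_lit 0x2c00102) (nat_lit 10))
 (.p (nat_lit 0x86363f02) (nat_lit 0x40126) (nat_lit 1)))
 (.n (.p (nat_lit 0x475043cf02) (nat_lit 0x14030c) (nat_lit 5))
 (.p (nat_lit 0x1da25fc302) (nat_lit 0x89832915800300000600) (nat_lit 49))))))
 (.n (.n (.n (.n (.p (nat_lit 0xbe00bde0bd80bd609d309d106) (nat_lit 0x6000048200) (nat_lit 51))
 (.p (nat_lit 0x1646543302) (nat_lit 0x100615) (nat_lit 29)))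
 (.n (.p (nat_lit 0xbb00bae0bac0baa0ba8168106) (nat_lit 0x800084604) (nat_lit 52))
 (.p (nat_lit 0xec00ea00e800e20005040b06) (nat_lit 0x110e405) (nat_lit 26))))
 (.n (.n (.p (nat_lit 0xf90171302) (nat_lit 0x240301) (nat_lit 5))
 (.p (nat_lit 0xfea0fe60fe40fe009ed09e706) (nat_lit 0x9000048123) (nat_lit 51)))
 (.n (.p (nat_lit 0x2b062b042b022afe017e0173016f2b012afd09) (nat_lit 0x1000808) (nat_lit 10))
 (.p (nat_lit 0x5d5f234702) (nat_lit 0x1e0080000b00) (nat_lit 40)))))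
 (.n (.n (.n (.p (nat_lit 0x1a421a3c1a3a1a38179b179906) (nat_lit 0xc0000d4700) (nat_lit 52))
 (.p (nat_lit 0x102610241020101c14e714e306) (nat_lit 0x500004451c) (nat_lit 51)))
 (.n (.p (nat_lit 0x4df44df24df04dee4dec4dea06) (nat_lit 0xc0306) (nat_lit 52))
 (.p (nat_lit 0x5e18139d02) (nat_lit 0x60004400) (nat_lit 47))))
 (.n (.n (.p (nat_lit 0x25b81a5702) (nat_lit 0x340b02) (nat_lit 4))
 (.p (nat_lit 0xe190b5302) (nat_lit 0x22a) (nat_lit 15)))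
 (.n (.p (nat_lit 0x1be0532302) (nat_lit 0x30080e) (nat_lit 29))
 (.p (nat_lit 0x1c4660b302) (nat_lit 0x350521a84000200040600) (nat_lit 50))))))

def c512_122 : Tr := .n c1024_122 c1024_634

def c1024_378 : Tr :=
 .n (.n (.n (.n (.n (.n (.p (nat_lit 0x1b001ae01bb03) (nat_lit 0x300050000b) (nat_lit 17))
 (.p (nat_lit 0x2484617702) (nat_lit 0x340c6ab84000500040600) (nat_lit 49)))
 (.p (nat_lit 0x38e838e438e238e002480241023938e738df09) (nat_lit 0x2000411) (nat_lit 10)))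
 (.n (.p (nat_lit 0x3a97167502) (nat_lit 0x2603) (nat_lit 16))
 (.p (nat_lit 0x2b322aaf02) (nat_lit 0x82b) (nat_lit 4))))
 (.n (.n (.p (nat_lit 0x1d321f1b02) (nat_lit 0x540900) (nat_lit 5))
 (.p (nat_lit 0x339c2ff702) (nat_lit 0x140a1e) (nat_lit 4)))
 (.n (.p (nat_lit 0xb4004ed02) (nat_lit 0x300207) (nat_lit 4))
 (.p (nat_lit 0x5d13198102) (nat_lit 0xa0040000700) (nat_lit 41)))))
 (.n (.n (.n (.p (nat_lit 0x11230df502) (nat_lit 0x14400) (nat_lit 16))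
 (.p (nat_lit 0x38ee36f502) (nat_lit 0x200418) (nat_lit 5)))
 (.n (.p (nat_lit 0xeb44bd02) (nat_lit 0x400105) (nat_lit 30))
 (.p (nat_lit 0x3aa03a603a403a20307000906) (nat_lit 0x404123) (nat_lit 26))))
 (.n (.n (.p (nat_lit 0x23b223b023ac23aa21af21a906) (nat_lit 0x4800008a01) (nat_lit 51))
 (.p (nat_lit 0x27b0296502) (nat_lit 0x340124) (nat_lit 5)))
 (.n (.p (nat_lit 0x3f2f3f1902) (nat_lit 0x54820b) (nat_lit 16))
 (.p (nat_lit 0x11425f7702) (nat_lit 0x3aa074b50000400040000) (nat_lit 49))))))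
 (.n (.n (.n (.n (.p (nat_lit 0xa3b071f02) (nat_lit 0x156100) (nat_lit 16))
 (.p (nat_lit 0x4f2f124302) (nat_lit 0x156415) (nat_lit 16)))
 (.n (.p (nat_lit 0xb9401f02) (nat_lit 0x200404) (nat_lit 30))
 (.p (nat_lit 0x620060005c00580007034706) (nat_lit 0x1914302) (nat_lit 26))))
 (.n (.n (.p (nat_lit 0x26ae26ac26aa26a826a6074d06) (nat_lit 0x8000d2001) (nat_lit 52))
 (.p (nat_lit 0x3ae03cb03b311610ffb05) (nat_lit 0x8c140023) (nat_lit 9)))
 (.n (.p (nat_lit 0x1c622c902) (nat_lit 0x140a07) (nat_lit 1))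
 (.p (nat_lit 0x5d71207302) (nat_lit 0xc0080000a00) (nat_lit 38)))))
 (.n (.n (.n (.p (nat_lit 0x18ba18b818b418b01627162306) (nat_lit 0x5000012700) (nat_lit 52))
 (.p (nat_lit 0xaae0aaa0aa80aa40885087f06) (nat_lit 0x900000c11c) (nat_lit 51)))
 (.n (.p (nat_lit 0x6320630062c062a06280119062f07) (nat_lit 0x300006) (nat_lit 7))
 (.p (nat_lit 0x5dfc0d0b02) (nat_lit 0x40000300) (nat_lit 45))))
 (.n (.n (.p (nat_lit 0x232418df02) (nat_lit 0x540a02) (nat_lit 5))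
 (.p (nat_lit 0x89e089a089808940454043d0437089d089709) (nat_lit 0x210012a) (nat_lit 10)))
 (.n (.p (nat_lit 0x66c066a066806661389137f06) (nat_lit 0x1080008450e) (nat_lit 51))
 (.p (nat_lit 0x207a607902) (nat_lit 0x4688ae154000400000600) (nat_lit 50))))))

def c1024_890 : Tr :=
 .n (.n (.n (.n (.n (.p (nat_lit 0x64e064302) (nat_lit 0x140000) (nat_lit 5))
 (.p (nat_lit 0x90a09080906090409024a2506) (nat_lit 0x800046713) (nat_lit 51)))
 (.n (.p (nat_lit 0x13f213f013ee13ec13ea25c906) (nat_lit 0x100000cab03) (nat_lit 52))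
 (.p (nat_lit 0x1f4a1f481f461f441f423f2506) (nat_lit 0x8000c222e) (nat_lit 52))))
 (.n (.n (.p (nat_lit 0x22aa22a622a422a21ffd1ff906) (nat_lit 0x14000050a00) (nat_lit 52))
 (.p (nat_lit 0x388434902) (nat_lit 0x200b20) (nat_lit 1)))
 (.n (.p (nat_lit 0x142414221420141c141a10d306) (nat_lit 0x2000004407) (nat_lit 51))
 (.p (nat_lit 0x5e76205b02) (nat_lit 0x8004c800) (nat_lit 48)))))
 (.n (.n (.n (.p (nat_lit 0x64f121f02) (nat_lit 0x140500) (nat_lit 15))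
 (.p (nat_lit 0x49e445e502) (nat_lit 0x20071a) (nat_lit 5)))
 (.n (.p (nat_lit 0x1802228302) (nat_lit 0x240605) (nat_lit 5))
 (.p (nat_lit 0x5dc8504702) (nat_lit 0x20016100) (nat_lit 47))))
 (.n (.n (.p (nat_lit 0x110019e702) (nat_lit 0x100402) (nat_lit 5))
 (.p (nat_lit 0x458b3df702) (nat_lit 0x256127) (nat_lit 16)))
 (.n (.p (nat_lit 0x50424af902) (nat_lit 0x50080d) (nat_lit 4))
 (.p (nat_lit 0x129a5ff902) (nat_lit 0x466b80b44000500000000) (nat_lit 49))))))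
 (.n (.n (.n (.n (.p (nat_lit 0xd920d900d8c0d8a0b390b3306) (nat_lit 0x1200008e300) (nat_lit 51))
 (.p (nat_lit 0x1eb80c5102) (nat_lit 0x400915) (nat_lit 5)))
 (.n (.p (nat_lit 0x194e1e5f02) (nat_lit 0x100704) (nat_lit 5))
 (.p (nat_lit 0x1a201a0019c01980143023f06) (nat_lit 0xb1620a) (nat_lit 26))))
 (.n (.n (.p (nat_lit 0x1c201c1e1c1a1c1600480031002d1c1d1c1909) (nat_lit 0x1900801) (nat_lit 10))
 (.p (nat_lit 0x3a356c702) (nat_lit 0x100623) (nat_lit 30)))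
 (.n (.p (nat_lit 0x31662d4f02) (nat_lit 0x40409) (nat_lit 4))
 (.p (nat_lit 0x15425ef102) (nat_lit 0x4a1d22344000000000600) (nat_lit 50)))))
 (.n (.n (.n (.p (nat_lit 0x1bef190102) (nat_lit 0x404800) (nat_lit 16))
 (.p (nat_lit 0x3561d6102) (nat_lit 0x44081c) (nat_lit 1)))
 (.n (.p (nat_lit 0x1ad21ace1acc1aca1ac8011b1ad107) (nat_lit 0x440706) (nat_lit 7))
 (.p (nat_lit 0x5e2c074702) (nat_lit 0x60046500) (nat_lit 48))))
 (.n (.n (.p (nat_lit 0xa1e0a180a160a1400ae008f008d0a1d0a1b09) (nat_lit 0x2340103) (nat_lit 10))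
 (.p (nat_lit 0x100210000ffe0ffc0ffa0f8106) (nat_lit 0x8000c032a) (nat_lit 52)))
 (.n (.p (nat_lit 0x4c404c3e4c3c4c384c36242506) (nat_lit 0x2000086b0e) (nat_lit 51))
 (.p (nat_lit 0x63460fb02) (nat_lit 0x460d623a4000000040000) (nat_lit 49))))))

def c512_378 : Tr := .n c1024_378 c1024_890

def c256_122 : Tr := .n c512_122 c512_378

def c1024_250 : Tr :=
 .n (.n (.n (.n (.n (.n (.p (nat_lit 0xe600e400f103) (nat_lit 0x3000500005) (nat_lit 17))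
 (.p (nat_lit 0x1976615b02) (nat_lit 0x3503a8d64000100040600) (nat_lit 49)))
 (.p (nat_lit 0x338d32e702) (nat_lit 0x540910) (nat_lit 15)))
 (.n (.p (nat_lit 0x13cb13bf02) (nat_lit 0x214503) (nat_lit 16))
 (.p (nat_lit 0x4880487e487c487a4876230506) (nat_lit 0x1000044a2a) (nat_lit 52))))
 (.n (.n (.p (nat_lit 0x1e641e621e601e5e1bcd1bc306) (nat_lit 0x1080000e900) (nat_lit 51))
 (.p (nat_lit 0x2c6e28c102) (nat_lit 0x40a1d) (nat_lit 4)))
 (.n (.p (nat_lit 0x229422922290228c1efd1ef906) (nat_lit 0x280000e906) (nat_lit 51))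
 (.p (nat_lit 0x5cbb5e5102) (nat_lit 0x20000000700) (nat_lit 37)))))
 (.n (.n (.n (.p (nat_lit 0x101810161014101210100dff06) (nat_lit 0x10000082400) (nat_lit 51))
 (.p (nat_lit 0x32a82efd02) (nat_lit 0x100917) (nat_lit 4)))
 (.n (.p (nat_lit 0x438725cb02) (nat_lit 0x46b04) (nat_lit 16))
 (.p (nat_lit 0x310030e030803060389000706) (nat_lit 0x131401c) (nat_lit 26))))
 (.n (.n (.p (nat_lit 0xfea0fe60fe40fe20fe0204f06) (nat_lit 0x8000048901) (nat_lit 51))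
 (.p (nat_lit 0x244c572d02) (nat_lit 0x400b23) (nat_lit 29)))
 (.n (.p (nat_lit 0x3aea348f02) (nat_lit 0x400a0a) (nat_lit 5))
 (.p (nat_lit 0x181c5f5b02) (nat_lit 0x1a2276350000100000600) (nat_lit 50))))))
 (.n (.n (.n (.n (.p (nat_lit 0x91609120910090c0725071f06) (nat_lit 0x90000c6100) (nat_lit 51))
 (.p (nat_lit 0xe9a0e980e960e940e9010e906) (nat_lit 0x1000080415) (nat_lit 52)))
 (.n (.p (nat_lit 0x3ee03ede3edc3eda3ed83ed606) (nat_lit 0x4c204) (nat_lit 52))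
 (.p (nat_lit 0x2f588d02) (nat_lit 0x200101) (nat_lit 28))))
 (.n (.n (.p (nat_lit 0x256d22bd02) (nat_lit 0x140b00) (nat_lit 16))
 (.p (nat_lit 0x50b84e1702) (nat_lit 0x440822) (nat_lit 4)))
 (.n (.p (nat_lit 0x1d3e057302) (nat_lit 0x540807) (nat_lit 4))
 (.p (nat_lit 0x5ced206d02) (nat_lit 0x20000a00) (nat_lit 38)))))
 (.n (.n (.n (.p (nat_lit 0x1790178e1788178616b716b506) (nat_lit 0x60000d4600) (nat_lit 52))
 (.p (nat_lit 0x19861982197e197c073d073906) (nat_lit 0xa0000ce01c) (nat_lit 51)))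
 (.n (.p (nat_lit 0x1ff01fee1fea1fe61c291c2506) (nat_lit 0x5000096805) (nat_lit 51))
 (.p (nat_lit 0x5dec0a5902) (nat_lit 0x80000200) (nat_lit 46))))
 (.n (.n (.p (nat_lit 0x8f208f008ee08ea08e821b906) (nat_lit 0x2000082a02) (nat_lit 52))
 (.p (nat_lit 0x4fee4e7b02) (nat_lit 0x400729) (nat_lit 5)))
 (.n (.p (nat_lit 0xe760e720e700e6e0e6c123d06) (nat_lit 0x80000c640e) (nat_lit 52))
 (.p (nat_lit 0x2497248121db21d51f151f0b1c4f1c45197d197316ad169d605a0d) (nat_lit 0x506272831000000040600) (nat_lit 33))))))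

def c1024_762 : Tr :=
 .n (.n (.n (.n (.n (.n (.p (nat_lit 0x5080502050004fe04e304e106) (nat_lit 0xc000006000) (nat_lit 52))
 (.p (nat_lit 0x207661d702) (nat_lit 0x542266c0c800400000600) (nat_lit 50)))
 (.p (nat_lit 0x43723de302) (nat_lit 0x240b12) (nat_lit 4)))
 (.n (.p (nat_lit 0x1c501c4e1c4a1c481c46246f06) (nat_lit 0x4000090b03) (nat_lit 51))
 (.p (nat_lit 0x386e39b302) (nat_lit 0x4032d) (nat_lit 5))))
 (.n (.n (.p (nat_lit 0x21d921cd02) (nat_lit 0x40a00) (nat_lit 34))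
 (.p (nat_lit 0x3dee3dec3dea3de6037a036d03653df13de909) (nat_lit 0x2940120) (nat_lit 10)))
 (.n (.p (nat_lit 0x18121810180e180c180a0f7306) (nat_lit 0x1000004e307) (nat_lit 52))
 (.p (nat_lit 0x5d455e7502) (nat_lit 0x80060000800) (nat_lit 37)))))
 (.n (.n (.n (.p (nat_lit 0x13df10c302) (nat_lit 0x16500) (nat_lit 16))
 (.p (nat_lit 0x440c462102) (nat_lit 0x50001a) (nat_lit 4)))
 (.n (.p (nat_lit 0x152648df02) (nat_lit 0x540505) (nat_lit 29))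
 (.p (nat_lit 0x5d7704d702) (nat_lit 0x60080000000) (nat_lit 40))))
 (.n (.n (.p (nat_lit 0x2f8a2f882f862f842f820ccb06) (nat_lit 0x8000d4202) (nat_lit 51))
 (.p (nat_lit 0x3ba238c302) (nat_lit 0x400b26) (nat_lit 4)))
 (.n (.p (nat_lit 0x5296529452925290528e528c01e407) (nat_lit 0x20d) (nat_lit 8))
 (.p (nat_lit 0x180c5fdd02) (nat_lit 0x3842a1c35000100000600) (nat_lit 49))))))
 (.n (.n (.n (.n (.p (nat_lit 0xb2e0d0702) (nat_lit 0x300) (nat_lit 4))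
 (.p (nat_lit 0x49eb192702) (nat_lit 0x514715) (nat_lit 16)))
 (.n (.p (nat_lit 0x4ca04c804c604c404c217fd06) (nat_lit 0x10000040604) (nat_lit 52))
 (.p (nat_lit 0x11c011a0114011200e7000706) (nat_lit 0x1312806) (nat_lit 26))))
 (.n (.n (.p (nat_lit 0x312a1b02) (nat_lit 0x300501) (nat_lit 30))
 (.p (nat_lit 0xd4c0d4a0d480d440d420b4b06) (nat_lit 0x2000082223) (nat_lit 51)))
 (.n (.p (nat_lit 0x2f962f942f922f902f8e01852f8d07) (nat_lit 0x40209) (nat_lit 7))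
 (.p (nat_lit 0x20765ed302) (nat_lit 0x4a1a36344000400000600) (nat_lit 50)))))
 (.n (.n (.n (.p (nat_lit 0x1b021afe1afc1afa190118f906) (nat_lit 0x8800080800) (nat_lit 51))
 (.p (nat_lit 0x2ff22ff02fec2fea192f192906) (nat_lit 0x480001471c) (nat_lit 52)))
 (.n (.p (nat_lit 0x13e423c702) (nat_lit 0x300506) (nat_lit 5))
 (.p (nat_lit 0x5c915e2502) (nat_lit 0x2c0000000500) (nat_lit 37))))
 (.n (.n (.p (nat_lit 0x76e076a076807660764008f076d07) (nat_lit 0x440003) (nat_lit 7))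
 (.p (nat_lit 0x2fa70cb502) (nat_lit 0x14e22a) (nat_lit 16)))
 (.n (.p (nat_lit 0x216f1ea702) (nat_lit 0x10090e) (nat_lit 15))
 (.p (nat_lit 0xbb260db02) (nat_lit 0x340a621b0000200040000) (nat_lit 50))))))

def c512_250 : Tr := .n c1024_250 c1024_762

def c1024_506 : Tr :=
 .n (.n (.n (.n (.n (.n (.p (nat_lit 0x310030e030c031304) (nat_lit 0x1c00040001c) (nat_lit 17))
 (.p (nat_lit 0x13fc619b02) (nat_lit 0x340aa5c14800500040000) (nat_lit 50)))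
 (.p (nat_lit 0x3b7c362102) (nat_lit 0x300b11) (nat_lit 4)))
 (.n (.p (nat_lit 0x21c61b9902) (nat_lit 0x300a03) (nat_lit 4))
 (.p (nat_lit 0x2fac2faa2fa82fa62fa404852faf07) (nat_lit 0x54022c) (nat_lit 7))))
 (.n (.n (.p (nat_lit 0x1ff71d2d02) (nat_lit 0x240900) (nat_lit 15))
 (.p (nat_lit 0x35555cf02) (nat_lit 0x34011f) (nat_lit 30)))
 (.n (.p (nat_lit 0x5146514451425140513e513c014e0ca50c9d0c9b0a) (nat_lit 0x14840207) (nat_lit 31))
 (.p (nat_lit 0x5d5d197902) (nat_lit 0x200080000700) (nat_lit 39)))))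
 (.n (.n (.n (.p (nat_lit 0x120e120a120812040f650f5f06) (nat_lit 0x9000056400) (nat_lit 51))
 (.p (nat_lit 0xbea0be80be60be40be23b8d06) (nat_lit 0x10000088b18) (nat_lit 51)))
 (.n (.p (nat_lit 0x464a4648464646440cf90cf706) (nat_lit 0x180000ca205) (nat_lit 52))
 (.p (nat_lit 0x43d5c4102) (nat_lit 0x40062a) (nat_lit 28))))
 (.n (.n (.p (nat_lit 0x5f2c8902) (nat_lit 0x300002) (nat_lit 30))
 (.p (nat_lit 0x2ebc30c702) (nat_lit 0x140125) (nat_lit 5)))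
 (.n (.p (nat_lit 0x6620660065c065a0658426306) (nat_lit 0x400004460b) (nat_lit 51))
 (.p (nat_lit 0x23485f9502) (nat_lit 0x581a302a4000500000600) (nat_lit 50))))))
 (.n (.n (.n (.n (.p (nat_lit 0xae80ae60ae40ae20ae0087b06) (nat_lit 0x10000090200) (nat_lit 52))
 (.p (nat_lit 0x31f3139102) (nat_lit 0x30e515) (nat_lit 16)))
 (.n (.p (nat_lit 0x13d013ca13c813c600dc00bd00bb13cf13cd09) (nat_lit 0x2300504) (nat_lit 10))
 (.p (nat_lit 0x90008e008a00880007005906) (nat_lit 0x1816603) (nat_lit 26))))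
 (.n (.n (.p (nat_lit 0xb6627bf02) (nat_lit 0x400201) (nat_lit 29))
 (.p (nat_lit 0x12aa12a612a412a212a0089106) (nat_lit 0x800000a123) (nat_lit 51)))
 (.n (.p (nat_lit 0x280c25e302) (nat_lit 0x208) (nat_lit 4))
 (.p (nat_lit 0x5cd1248302) (nat_lit 0x1c0020000b00) (nat_lit 39)))))
 (.n (.n (.n (.p (nat_lit 0x58179302) (nat_lit 0x40700) (nat_lit 1))
 (.p (nat_lit 0x1398551702) (nat_lit 0x10051c) (nat_lit 29)))
 (.n (.p (nat_lit 0xa42237902) (nat_lit 0x540106) (nat_lit 4))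
 (.p (nat_lit 0x5cb95e0b02) (nat_lit 0x40000000400) (nat_lit 36))))
 (.n (.n (.p (nat_lit 0x232f232302) (nat_lit 0x452a02) (nat_lit 16))
 (.p (nat_lit 0x6bc06ba06b806b609fb09f106) (nat_lit 0x108000ce12a) (nat_lit 51)))
 (.n (.p (nat_lit 0x163c52fd02) (nat_lit 0x20060e) (nat_lit 29))
 (.p (nat_lit 0x16a6609702) (nat_lit 0x344580ca4000000040600) (nat_lit 50))))))

def c1024_1018 : Tr :=
 .n (.n (.n (.n (.n (.p (nat_lit 0x735064d02) (nat_lit 0x46000) (nat_lit 16))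
 (.p (nat_lit 0x50125010500c500a5008026f500f07) (nat_lit 0x340714) (nat_lit 7)))
 (.n (.p (nat_lit 0xb73c6d02) (nat_lit 0x140004) (nat_lit 30))
 (.p (nat_lit 0x4522486f02) (nat_lit 0x12f) (nat_lit 4))))
 (.n (.n (.p (nat_lit 0x23d623d423d023cc215b215706) (nat_lit 0x500000eb00) (nat_lit 52))
 (.p (nat_lit 0x38b563b02) (nat_lit 0x340521) (nat_lit 30)))
 (.n (.p (nat_lit 0x29fd122902) (nat_lit 0x4c407) (nat_lit 16))
 (.p (nat_lit 0x5ccd1f1302) (nat_lit 0x200020000900) (nat_lit 41)))))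
 (.n (.n (.n (.p (nat_lit 0x15ee15ec15ea15e8154f154d06) (nat_lit 0x1800090600) (nat_lit 52))
 (.p (nat_lit 0xa720a700a6e0a6c0a6a505106) (nat_lit 0x80008081b) (nat_lit 51)))
 (.n (.p (nat_lit 0x1f0e1f0c1f0a1f081f04195b06) (nat_lit 0x1000092705) (nat_lit 52))
 (.p (nat_lit 0x5dab5dd902) (nat_lit 0x200a0000100) (nat_lit 37))))
 (.n (.n (.p (nat_lit 0x15001a1102) (nat_lit 0x440502) (nat_lit 4))
 (.p (nat_lit 0x44b2478502) (nat_lit 0x540028) (nat_lit 4)))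
 (.n (.p (nat_lit 0xc460c440c420c400e0f0e0d06) (nat_lit 0x180009030e) (nat_lit 51))
 (.p (nat_lit 0x8fa601b02) (nat_lit 0x4099a2354800100040000) (nat_lit 50))))))
 (.n (.n (.n (.n (.p (nat_lit 0xe9a0e980e960e940e900c9106) (nat_lit 0x10000c0300) (nat_lit 52))
 (.p (nat_lit 0x22e454a302) (nat_lit 0x340a15) (nat_lit 29)))
 (.n (.p (nat_lit 0x8c1ab702) (nat_lit 0x340704) (nat_lit 1))
 (.p (nat_lit 0x5a8c5a8a5a885a865a84017901f207) (nat_lit 0x50a60e) (nat_lit 25))))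
 (.n (.n (.p (nat_lit 0x1a2a1a281a261a221a201d8106) (nat_lit 0x20000d2801) (nat_lit 51))
 (.p (nat_lit 0x1c0211c702) (nat_lit 0x200823) (nat_lit 4)))
 (.n (.p (nat_lit 0x17833d502) (nat_lit 0x500b09) (nat_lit 1))
 (.p (nat_lit 0x23445f1702) (nat_lit 0x3a2260b50000500000600) (nat_lit 50)))))
 (.n (.n (.n (.p (nat_lit 0x1cc41cc01cbe1cbc1a671a6306) (nat_lit 0x140000c8800) (nat_lit 51))
 (.p (nat_lit 0x218e218c218821862184030d218b07) (nat_lit 0x300a1c) (nat_lit 7)))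
 (.n (.p (nat_lit 0x1820181e181a181818161c3506) (nat_lit 0x400000e806) (nat_lit 51))
 (.p (nat_lit 0x5c9516a502) (nat_lit 0x280000000600) (nat_lit 41))))
 (.n (.n (.p (nat_lit 0xe401c9f02) (nat_lit 0x200303) (nat_lit 5))
 (.p (nat_lit 0x194a131702) (nat_lit 0x50072a) (nat_lit 4)))
 (.n (.p (nat_lit 0x213538502) (nat_lit 0x44050f) (nat_lit 30))
 (.p (nat_lit 0x1dac611d02) (nat_lit 0x35486a3a4000300000600) (nat_lit 50))))))

def c512_506 : Tr := .n c1024_506 c1024_1018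

def c256_250 : Tr := .n c512_250 c512_506

def c128_122 : Tr := .n c256_122 c256_250

def c64_58 : Tr := .n c128_58 c128_122

def c32_26 : Tr := .n c64_26 c64_58

def c16_10 : Tr := .n c32_10 c32_26

def b10 : Tr := c16_10

theorem hb4_10 : allp (tst G49 true (getA DT)) b10 = true := by decide +kernel

end Vale.Agent.P032.H437.Ev2
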