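import Vale.Agent.P032.H437.Ev2.T

namespace Vale.Agent.P032.H437.Ev2
open Vale.Agent.P032.H859.Rup Vale.Agent.P032.H437

def c1024_11 : Tr :=
 .n (.n (.n (.n (.n (.n (.p (nat_lit 0x27001f0019001104) (nat_lit 0x568800000) (nat_lit 21))
 (.p (nat_lit 0x12a712990feb0fd70d130d0d0a550a4d07a7079f04d104c361200d) (nat_lit 0x35486a3a4000000000000) (nat_lit 33)))
 (.p (nat_lit 0x32772ae302) (nat_lit 0x55050f) (nat_lit 16)))
 (.n (.p (nat_lit 0x37c437c237c037bc37ba0e4106) (nat_lit 0x2000016303) (nat_lit 52))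
 (.p (nat_lit 0x325432523250324e194b194106) (nat_lit 0x1080001472a) (nat_lit 52))))
 (.n (.n (.p (nat_lit 0x1cea1ce81ce61ce21ce01a6106) (nat_lit 0x200004c800) (nat_lit 52))
 (.p (nat_lit 0x218e2188218621840330030f030d218d218b09) (nat_lit 0x2300a1c) (nat_lit 10)))
 (.n (.p (nat_lit 0x21d621d421d221ce21cc1c3306) (nat_lit 0x2000094806) (nat_lit 52))
 (.p (nat_lit 0x5e3a1ac902) (nat_lit 0x54600) (nat_lit 48)))))
 (.n (.n (.n (.p (nat_lit 0xea60ea40ea00e9e0c950c8f06) (nat_lit 0x4800042300) (nat_lit 52))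
 (.p (nat_lit 0x258922e502) (nat_lit 0x340a15) (nat_lit 15)))
 (.n (.p (nat_lit 0x1aba1ab81ab61ab000ce00b900b71ab51ab309) (nat_lit 0x1140704) (nat_lit 10))
 (.p (nat_lit 0x23e5aa302) (nat_lit 0x30080e) (nat_lit 27))))
 (.n (.n (.p (nat_lit 0x18ea18e818e618e218e01d8106) (nat_lit 0x2000056801) (nat_lit 51))
 (.p (nat_lit 0x1c061c021c001bfe03cc03ab03a71c091c0509) (nat_lit 0x2b00823) (nat_lit 10)))
 (.n (.p (nat_lit 0x34202d9902) (nat_lit 0x340b09) (nat_lit 4))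
 (.p (nat_lit 0x1ad65f1b02) (nat_lit 0x3a2274b50000200000600) (nat_lit 49))))))
 (.n (.n (.n (.n (.p (nat_lit 0x759064d02) (nat_lit 0x4e000) (nat_lit 16))
 (.p (nat_lit 0x1ee504d02) (nat_lit 0x400814) (nat_lit 1)))
 (.n (.p (nat_lit 0x77a3c7502) (nat_lit 0x540004) (nat_lit 29))
 (.p (nat_lit 0x1ce459d02) (nat_lit 0x54012f) (nat_lit 1))))
 (.n (.n (.p (nat_lit 0x23de23dc23da23d8215f215d06) (nat_lit 0x1800008eb00) (nat_lit 52))
 (.p (nat_lit 0x49f649f449f049ee49ec038b49f307) (nat_lit 0x300721) (nat_lit 7)))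
 (.n (.p (nat_lit 0x162e053102) (nat_lit 0x100607) (nat_lit 4))
 (.p (nat_lit 0x5e82420502) (nat_lit 0x20044900) (nat_lit 48)))))
 (.n (.n (.n (.p (nat_lit 0x15f815f615f215f01557155106) (nat_lit 0x12000012600) (nat_lit 52))
 (.p (nat_lit 0x50b150a502) (nat_lit 0x4881b) (nat_lit 16)))
 (.n (.p (nat_lit 0x1c23195902) (nat_lit 0x705) (nat_lit 15))
 (.p (nat_lit 0x5d8d5ddb02) (nat_lit 0x2000a0000100) (nat_lit 36))))
 (.n (.n (.p (nat_lit 0x3222321e321a3218150114fd06) (nat_lit 0xa0000c4502) (nat_lit 52))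
 (.p (nat_lit 0x4516480502) (nat_lit 0x128) (nat_lit 5)))
 (.n (.p (nat_lit 0xf7607bb02) (nat_lit 0x14030e) (nat_lit 4))
 (.p (nat_lit 0x1dae601f02) (nat_lit 0x4099a2354800300000600) (nat_lit 50))))))

def c1024_523 : Tr :=
 .n (.n (.n (.n (.n (.n (.p (nat_lit 0x3250319031403) (nat_lit 0x2180001c) (nat_lit 19))
 (.p (nat_lit 0xbb4619f02) (nat_lit 0x380aa5c15000200040000) (nat_lit 50)))
 (.p (nat_lit 0x7da07d807d607d407d23b7706) (nat_lit 0x800088b11) (nat_lit 51)))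
 (.n (.p (nat_lit 0x21ca21c821c421c2009c008d008721c721c109) (nat_lit 0x1800a03) (nat_lit 10))
 (.p (nat_lit 0x3016322502) (nat_lit 0x10032c) (nat_lit 4))))
 (.n (.n (.p (nat_lit 0x201f1d3102) (nat_lit 0x444900) (nat_lit 16))
 (.p (nat_lit 0x3ded363902) (nat_lit 0x35411f) (nat_lit 16)))
 (.n (.p (nat_lit 0x94609440940093e0ca10c9b06) (nat_lit 0x48000ca207) (nat_lit 52))
 (.p (nat_lit 0x5d4f181f02) (nat_lit 0x2e0080000700) (nat_lit 40)))))
 (.n (.n (.n (.p (nat_lit 0x12350f5d02) (nat_lit 0x42400) (nat_lit 16))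
 (.p (nat_lit 0x3be0374102) (nat_lit 0x540b18) (nat_lit 4)))
 (.n (.p (nat_lit 0xd050cf902) (nat_lit 0x54c205) (nat_lit 16))
 (.p (nat_lit 0x4905c5102) (nat_lit 0x10082a) (nat_lit 27))))
 (.n (.n (.p (nat_lit 0x2cd02cce2ccc2cc82cc605fd06) (nat_lit 0x2000014002) (nat_lit 51))
 (.p (nat_lit 0x2ecb2ec102) (nat_lit 0x340125) (nat_lit 16)))
 (.n (.p (nat_lit 0x42b03c4102) (nat_lit 0x70b) (nat_lit 4))
 (.p (nat_lit 0x18185f9b02) (nat_lit 0x88bb0155800100000600) (nat_lit 50))))))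
 (.n (.n (.n (.n (.p (nat_lit 0xb37087902) (nat_lit 0x400200) (nat_lit 15))
 (.p (nat_lit 0x14de14dc14da14d614d4028514d907) (nat_lit 0x240515) (nat_lit 7)))
 (.n (.p (nat_lit 0x4166416441624160415e415c06) (nat_lit 0x8c504) (nat_lit 52))
 (.p (nat_lit 0xb7594d02) (nat_lit 0x100004) (nat_lit 28))))
 (.n (.n (.p (nat_lit 0xe2f0b6902) (nat_lit 0x500201) (nat_lit 15))
 (.p (nat_lit 0x18141810180e180c180a089106) (nat_lit 0x800000e123) (nat_lit 52)))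
 (.n (.p (nat_lit 0x17751ed02) (nat_lit 0x400208) (nat_lit 30))
 (.p (nat_lit 0x5d15233702) (nat_lit 0x80040000b00) (nat_lit 38)))))
 (.n (.n (.n (.p (nat_lit 0x1981197502) (nat_lit 0x240700) (nat_lit 34))
 (.p (nat_lit 0x139e551d02) (nat_lit 0x40051c) (nat_lit 29)))
 (.n (.p (nat_lit 0x4c724c704c6e4c6c4c6a0a3f06) (nat_lit 0x4000050106) (nat_lit 51))
 (.p (nat_lit 0x5c93113b02) (nat_lit 0x2a0000000400) (nat_lit 39))))
 (.n (.n (.p (nat_lit 0x24601a4902) (nat_lit 0x200b02) (nat_lit 4))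
 (.p (nat_lit 0x3dff09f102) (nat_lit 0x5212a) (nat_lit 16)))
 (.n (.p (nat_lit 0x26f626f426f026ee26ec163f06) (nat_lit 0x400008860e) (nat_lit 51))
 (.p (nat_lit 0xbb6609b02) (nat_lit 0x342529ca4000200040000) (nat_lit 50))))))

def c512_11 : Tr := .n c1024_11 c1024_523

def c1024_267 : Tr :=
 .n (.n (.n (.n (.n (.n (.p (nat_lit 0x10b010900f003) (nat_lit 0x42c00005) (nat_lit 19))
 (.p (nat_lit 0xe6e615f02) (nat_lit 0x352829d84000300040000) (nat_lit 49)))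
 (.p (nat_lit 0x922091e091c091a0918333706) (nat_lit 0x8000008a10) (nat_lit 51)))
 (.n (.p (nat_lit 0x150a1b7502) (nat_lit 0x340503) (nat_lit 4))
 (.p (nat_lit 0x2458136f02) (nat_lit 0x400b2a) (nat_lit 4))))
 (.n (.n (.p (nat_lit 0x1e7e1e7c1e7a1e781bc51bc306) (nat_lit 0x1800016900) (nat_lit 52))
 (.p (nat_lit 0x2d062d022d002cfe2cfc034b2d0507) (nat_lit 0x40001e) (nat_lit 7)))
 (.n (.p (nat_lit 0x50fb1efb02) (nat_lit 0x104906) (nat_lit 16))
 (.p (nat_lit 0x5cab181702) (nat_lit 0x120000000700) (nat_lit 40)))))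
 (.n (.n (.n (.p (nat_lit 0x10321030102e102c10280df706) (nat_lit 0x1000084400) (nat_lit 51))
 (.p (nat_lit 0x36b436b236b036ac36aa32eb06) (nat_lit 0x20000d6917) (nat_lit 51)))
 (.n (.p (nat_lit 0xe543ad02) (nat_lit 0x100005) (nat_lit 30))
 (.p (nat_lit 0x3445b9102) (nat_lit 0x71c) (nat_lit 27))))
 (.n (.n (.p (nat_lit 0x16a216a0169c169a1698204d06) (nat_lit 0x40000cc901) (nat_lit 52))
 (.p (nat_lit 0x4e944e924e904e8e4e8a244706) (nat_lit 0x1000090b23) (nat_lit 51)))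
 (.n (.p (nat_lit 0x3bc93b3902) (nat_lit 0x540a0a) (nat_lit 15))
 (.p (nat_lit 0xfdc5f5d02) (nat_lit 0x262530344000400000000) (nat_lit 49))))))
 (.n (.n (.n (.n (.p (nat_lit 0x92e092c092a09260924072106) (nat_lit 0x20000c8100) (nat_lit 52))
 (.p (nat_lit 0xd580d560d540d520d5010e706) (nat_lit 0x80000a415) (nat_lit 52)))
 (.n (.p (nat_lit 0x3f1d0ce502) (nat_lit 0x148204) (nat_lit 16))
 (.p (nat_lit 0x3400320030002e000302af06) (nat_lit 0x812201) (nat_lit 26))))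
 (.n (.n (.p (nat_lit 0x259122bd02) (nat_lit 0x146b00) (nat_lit 16))
 (.p (nat_lit 0xeca0ec80ec60ec40ec250b106) (nat_lit 0x8000ca822) (nat_lit 51)))
 (.n (.p (nat_lit 0x1d751d3902) (nat_lit 0x248807) (nat_lit 16))
 (.p (nat_lit 0x5cdb206d02) (nat_lit 0x120020000a00) (nat_lit 38)))))
 (.n (.n (.n (.p (nat_lit 0x17af16b502) (nat_lit 0x242600) (nat_lit 16))
 (.p (nat_lit 0x1f0c1f0a1f061f04073f073906) (nat_lit 0x120000d201c) (nat_lit 52)))
 (.n (.p (nat_lit 0x1d884a8302) (nat_lit 0x40805) (nat_lit 29))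
 (.p (nat_lit 0x5d9f5df102) (nat_lit 0xe00a0000200) (nat_lit 37))))
 (.n (.n (.p (nat_lit 0xe820e800e7c0e7a0e7821bb06) (nat_lit 0x4000086a02) (nat_lit 51))
 (.p (nat_lit 0x506c4e8302) (nat_lit 0x200829) (nat_lit 5)))
 (.n (.p (nat_lit 0x16ae16ac16aa16a616a4123906) (nat_lit 0x20000cc40e) (nat_lit 51))
 (.p (nat_lit 0x1ade605f02) (nat_lit 0x506272831000200000600) (nat_lit 49))))))

def c1024_779 : Tr :=
 .n (.n (.n (.n (.n (.n (.p (nat_lit 0x520051e051c051a04dd04db06) (nat_lit 0x1800008000) (nat_lit 51))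
 (.p (nat_lit 0x181261dd02) (nat_lit 0x3302a5895000100000600) (nat_lit 49)))
 (.p (nat_lit 0x475a452f02) (nat_lit 0x40313) (nat_lit 5)))
 (.n (.p (nat_lit 0x21e221e021dc21da21d8246f06) (nat_lit 0x4000094b03) (nat_lit 51))
 (.p (nat_lit 0x4a63b5702) (nat_lit 0x240a2d) (nat_lit 1))))
 (.n (.n (.p (nat_lit 0x21df21d302) (nat_lit 0x340a00) (nat_lit 34))
 (.p (nat_lit 0x36555fb02) (nat_lit 0x140520) (nat_lit 30)))
 (.n (.p (nat_lit 0x1db41db21db01dae1dac0f7306) (nat_lit 0x10000052307) (nat_lit 51))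
 (.p (nat_lit 0x5d2f1adb02) (nat_lit 0x1e0060000800) (nat_lit 38)))))
 (.n (.n (.n (.p (nat_lit 0x122213f102) (nat_lit 0x340500) (nat_lit 4))
 (.p (nat_lit 0x47e845af02) (nat_lit 0x30041a) (nat_lit 4)))
 (.n (.p (nat_lit 0x4951152302) (nat_lit 0x344505) (nat_lit 16))
 (.p (nat_lit 0x5d59064902) (nat_lit 0x240080000000) (nat_lit 41))))
 (.n (.n (.p (nat_lit 0xe302fb102) (nat_lit 0x302) (nat_lit 29))
 (.p (nat_lit 0x117e117c117a117811763ba506) (nat_lit 0x10000082b26) (nat_lit 52)))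
 (.n (.p (nat_lit 0x52a252a0529e529c529a529801e407) (nat_lit 0x30d) (nat_lit 8))
 (.p (nat_lit 0x23445fdf02) (nat_lit 0x3842a1c34000500000600) (nat_lit 50))))))
 (.n (.n (.n (.n (.p (nat_lit 0xb340d0d02) (nat_lit 0x300300) (nat_lit 4))
 (.p (nat_lit 0x1a860acf02) (nat_lit 0x340715) (nat_lit 5)))
 (.n (.p (nat_lit 0xa5a0a560a540a520a5017fb06) (nat_lit 0x8000044604) (nat_lit 51))
 (.p (nat_lit 0x1ea59f702) (nat_lit 0x200207) (nat_lit 27))))
 (.n (.n (.p (nat_lit 0x5f513ab02) (nat_lit 0x400501) (nat_lit 15))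
 (.p (nat_lit 0xdc00dbe0dbc0dba0db80b5106) (nat_lit 0x10000092223) (nat_lit 52)))
 (.n (.p (nat_lit 0x2e5e2e5c2e582e562e542f9306) (nat_lit 0x4000048209) (nat_lit 51))
 (.p (nat_lit 0x8ec5ed702) (nat_lit 0x4a1a36344000100040000) (nat_lit 49)))))
 (.n (.n (.n (.p (nat_lit 0x1b3c1b3a1b381b361b3418f906) (nat_lit 0x800006800) (nat_lit 52))
 (.p (nat_lit 0x307554502) (nat_lit 0x4071c) (nat_lit 30)))
 (.n (.p (nat_lit 0x152e251d02) (nat_lit 0x340506) (nat_lit 4))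
 (.p (nat_lit 0x5e2433b302) (nat_lit 0x4e500) (nat_lit 47))))
 (.n (.n (.p (nat_lit 0x353a3538353635343532353006) (nat_lit 0xd6003) (nat_lit 52))
 (.p (nat_lit 0x43557c102) (nat_lit 0x32a) (nat_lit 30)))
 (.n (.p (nat_lit 0x200e083d02) (nat_lit 0x24090e) (nat_lit 4))
 (.p (nat_lit 0x233660dd02) (nat_lit 0x3505623a4000500000600) (nat_lit 49))))))

def c512_267 : Tr := .n c1024_267 c1024_779

def c256_11 : Tr := .n c512_11 c512_267

def c1024_139 : Tr :=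
 .n (.n (.n (.n (.n (.n (.p (nat_lit 0x8e008c008a009304) (nat_lit 0xe000400003) (nat_lit 17))
 (.p (nat_lit 0x1820614102) (nat_lit 0x352a21d84000100000600) (nat_lit 50)))
 (.p (nat_lit 0x60310302) (nat_lit 0x400410) (nat_lit 1)))
 (.n (.p (nat_lit 0x38e3110f02) (nat_lit 0x202403) (nat_lit 16))
 (.p (nat_lit 0x21a31edb02) (nat_lit 0x30092a) (nat_lit 15))))
 (.n (.n (.p (nat_lit 0x1bc21dad02) (nat_lit 0x900) (nat_lit 5))
 (.p (nat_lit 0x39c259902) (nat_lit 0x540b1c) (nat_lit 1)))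
 (.n (.p (nat_lit 0x1c4c1c4a1c481c461d9f1d9d06) (nat_lit 0x180000d0806) (nat_lit 51))
 (.p (nat_lit 0x5d35153b02) (nat_lit 0x180060000600) (nat_lit 38)))))
 (.n (.n (.n (.p (nat_lit 0xfa30c9902) (nat_lit 0x54e300) (nat_lit 16))
 (.p (nat_lit 0x2f7e2f7c2f7a2f782f762b5f06) (nat_lit 0x800054816) (nat_lit 51)))
 (.n (.p (nat_lit 0x21522150214e214a2479247506) (nat_lit 0x2800090b04) (nat_lit 51))
 (.p (nat_lit 0x5b185b165b145b125b100301028c07) (nat_lit 0x314615) (nat_lit 25))))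
 (.n (.n (.p (nat_lit 0x1f0e1f0c1f0a1f041ee51ee306) (nat_lit 0x3000092901) (nat_lit 52))
 (.p (nat_lit 0x202e570d02) (nat_lit 0x40923) (nat_lit 29)))
 (.n (.p (nat_lit 0x38d2522d02) (nat_lit 0x40a) (nat_lit 29))
 (.p (nat_lit 0x6425f3b02) (nat_lit 0x3a6560c44000000040000) (nat_lit 50))))))
 (.n (.n (.n (.n (.p (nat_lit 0x8060802080007fe05c505bd06) (nat_lit 0x880000e100) (nat_lit 52))
 (.p (nat_lit 0x7300bd302) (nat_lit 0x440015) (nat_lit 4)))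
 (.n (.p (nat_lit 0x2e40b8302) (nat_lit 0x204) (nat_lit 1))
 (.p (nat_lit 0x1430142e142c142a14264a0506) (nat_lit 0x100008472f) (nat_lit 52))))
 (.n (.n (.p (nat_lit 0x22c222c022be22bc22ba000b22c507) (nat_lit 0x540b00) (nat_lit 7))
 (.p (nat_lit 0x4c0a565702) (nat_lit 0x500122) (nat_lit 29)))
 (.n (.p (nat_lit 0x1a70055902) (nat_lit 0x440707) (nat_lit 4))
 (.p (nat_lit 0x5d5f5e8f02) (nat_lit 0x1e0080000900) (nat_lit 37)))))
 (.n (.n (.n (.p (nat_lit 0x16d016ce16cc16ca16c816bb06) (nat_lit 0x100000c0600) (nat_lit 52))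
 (.p (nat_lit 0x21e221de21dc21da21d805dd06) (nat_lit 0x800009401c) (nat_lit 51)))
 (.n (.p (nat_lit 0x2080207c207a207820761ac506) (nat_lit 0x8000054705) (nat_lit 51))
 (.p (nat_lit 0x5d1b5de502) (nat_lit 0x20040000200) (nat_lit 37))))
 (.n (.n (.p (nat_lit 0x205c1a2b02) (nat_lit 0x540902) (nat_lit 5))
 (.p (nat_lit 0x4b284e4102) (nat_lit 0x200029) (nat_lit 4)))
 (.n (.p (nat_lit 0x153e153c15381536153410e106) (nat_lit 0x400000c40e) (nat_lit 52))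
 (.p (nat_lit 0x2346603f02) (nat_lit 0x4a8162340800500000600) (nat_lit 50))))))

def c1024_651 : Tr :=
 .n (.n (.n (.n (.n (.n (.p (nat_lit 0x43e0434044303) (nat_lit 0x1080050002a) (nat_lit 17))
 (.p (nat_lit 0x114261bd02) (nat_lit 0x322266c75000400040000) (nat_lit 49)))
 (.p (nat_lit 0x1b4418f02) (nat_lit 0x400512) (nat_lit 1)))
 (.n (.p (nat_lit 0x1ff01fee1fea1fe81fe6232d06) (nat_lit 0x40000d6a03) (nat_lit 51))
 (.p (nat_lit 0x35d03a1302) (nat_lit 0x30012d) (nat_lit 5))))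
 (.n (.n (.p (nat_lit 0x212e212c212a21261e911e8d06) (nat_lit 0x280000ea00) (nat_lit 52))
 (.p (nat_lit 0x3bec385902) (nat_lit 0x540b1f) (nat_lit 5)))
 (.n (.p (nat_lit 0x1f0e1f0c1f0a1f061f040e0506) (nat_lit 0x2000092307) (nat_lit 52))
 (.p (nat_lit 0x5ceb1ad702) (nat_lit 0x20020000800) (nat_lit 38)))))
 (.n (.n (.n (.p (nat_lit 0x12da12d612d212d010cb10c706) (nat_lit 0xa000084500) (nat_lit 51))
 (.p (nat_lit 0x42343edf02) (nat_lit 0x400619) (nat_lit 4)))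
 (.n (.p (nat_lit 0x479c479a479447921129112706) (nat_lit 0x6000082405) (nat_lit 51))
 (.p (nat_lit 0x5ce1063702) (nat_lit 0xc0020000000) (nat_lit 39))))
 (.n (.n (.p (nat_lit 0x2240a0b02) (nat_lit 0x140102) (nat_lit 1))
 (.p (nat_lit 0x1c741c721c701c6e1c6c363f06) (nat_lit 0x800042126) (nat_lit 52)))
 (.n (.p (nat_lit 0x21222120211e211c211a474f06) (nat_lit 0x8000cc30c) (nat_lit 52))
 (.p (nat_lit 0x233e5fc502) (nat_lit 0x8982e915800500000600) (nat_lit 50))))))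
 (.n (.n (.n (.n (.p (nat_lit 0xbec0be60be40be209d509d306) (nat_lit 0xc0000c8200) (nat_lit 51))
 (.p (nat_lit 0x164e0c1102) (nat_lit 0x500615) (nat_lit 4)))
 (.n (.p (nat_lit 0xfea0fe60fe40fe20fe0168906) (nat_lit 0x8000008604) (nat_lit 51))
 (.p (nat_lit 0xe559ad02) (nat_lit 0x100605) (nat_lit 28))))
 (.n (.n (.p (nat_lit 0x12570f9702) (nat_lit 0x540301) (nat_lit 15))
 (.p (nat_lit 0x1820181e181c181a181609e706) (nat_lit 0x100004e123) (nat_lit 51)))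
 (.n (.p (nat_lit 0x2b4e269302) (nat_lit 0x240808) (nat_lit 5))
 (.p (nat_lit 0x5d51234702) (nat_lit 0x2c0080000b00) (nat_lit 40)))))
 (.n (.n (.n (.p (nat_lit 0x1a4e1a4a1a481a46179b179306) (nat_lit 0x8800056700) (nat_lit 52))
 (.p (nat_lit 0x11d411d211d011ce14eb14e906) (nat_lit 0x180000d051c) (nat_lit 52)))
 (.n (.p (nat_lit 0x41c112f02) (nat_lit 0x406) (nat_lit 1))
 (.p (nat_lit 0x5d790fdd02) (nat_lit 0x40080000400) (nat_lit 38))))
 (.n (.n (.p (nat_lit 0x25bc25ba25b825b20074005d005b25b725b509) (nat_lit 0x1140b02) (nat_lit 10))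
 (.p (nat_lit 0xcb212d102) (nat_lit 0x4022a) (nat_lit 5)))
 (.n (.p (nat_lit 0x35f835f435f235f035ee1be306) (nat_lit 0x800008880e) (nat_lit 52))
 (.p (nat_lit 0x63460c902) (nat_lit 0x3505223a4000000040000) (nat_lit 49))))))

def c512_139 : Tr := .n c1024_139 c1024_651

def c1024_395 : Tr :=
 .n (.n (.n (.n (.n (.n (.p (nat_lit 0x1f001ee01ea01f304) (nat_lit 0x1a00040000e) (nat_lit 17))
 (.p (nat_lit 0x180a617d02) (nat_lit 0x421a86b15000100000600) (nat_lit 49)))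
 (.p (nat_lit 0x1bb41bb21bae1bac1baa38e506) (nat_lit 0x4000016411) (nat_lit 52)))
 (.n (.p (nat_lit 0x17f017ee17ec17ea17e8008717e707) (nat_lit 0x40603) (nat_lit 7))
 (.p (nat_lit 0x2b702a4b02) (nat_lit 0x4082b) (nat_lit 5))))
 (.n (.n (.p (nat_lit 0x1f3e1f3c1f3a1f381f361d2906) (nat_lit 0x800042900) (nat_lit 52))
 (.p (nat_lit 0xd400d3e0d3c0d3a0d38339b06) (nat_lit 0x800042a1e) (nat_lit 51)))
 (.n (.p (nat_lit 0x14b513b02) (nat_lit 0x500207) (nat_lit 30))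
 (.p (nat_lit 0x5e58300f02) (nat_lit 0x40000700) (nat_lit 47)))))
 (.n (.n (.n (.p (nat_lit 0xf5e113d02) (nat_lit 0x140400) (nat_lit 4))
 (.p (nat_lit 0x39ea36fd02) (nat_lit 0x518) (nat_lit 5)))
 (.n (.p (nat_lit 0x8e708db02) (nat_lit 0x50c105) (nat_lit 16))
 (.p (nat_lit 0x4085bd902) (nat_lit 0xa23) (nat_lit 27))))
 (.n (.n (.p (nat_lit 0x23fa23f623f423f021b121ab06) (nat_lit 0x9000090a01) (nat_lit 51))
 (.p (nat_lit 0x178417821780177c177a27af06) (nat_lit 0x2000054124) (nat_lit 52)))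
 (.n (.p (nat_lit 0x3f9a3f963f943f923f9001b53f9907) (nat_lit 0x40030b) (nat_lit 7))
 (.p (nat_lit 0x6425f7b02) (nat_lit 0x581a22b44000000040000) (nat_lit 50))))))
 (.n (.n (.n (.n (.p (nat_lit 0x87a08780876087408700003087307) (nat_lit 0x100200) (nat_lit 7))
 (.p (nat_lit 0x28e029f02ab0bf50a9305) (nat_lit 0x86b00515) (nat_lit 9)))
 (.n (.p (nat_lit 0x4030402e402c402a4026111906) (nat_lit 0x1000002404) (nat_lit 52))
 (.p (nat_lit 0x5b58f902) (nat_lit 0x100902) (nat_lit 28))))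
 (.n (.n (.p (nat_lit 0x8a0156302) (nat_lit 0x101) (nat_lit 4))
 (.p (nat_lit 0x74a074607440742074003a9074907) (nat_lit 0x440023) (nat_lit 7)))
 (.n (.p (nat_lit 0x22d005a302) (nat_lit 0x540a07) (nat_lit 5))
 (.p (nat_lit 0x5d635ea702) (nat_lit 0x1a0080000a00) (nat_lit 37)))))
 (.n (.n (.n (.p (nat_lit 0x18c618c418c018bc1627162306) (nat_lit 0x5000092700) (nat_lit 52))
 (.p (nat_lit 0x891088502) (nat_lit 0x40a11c) (nat_lit 16)))
 (.n (.p (nat_lit 0x8e7063302) (nat_lit 0x500006) (nat_lit 15))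
 (.p (nat_lit 0x5d3d0d1902) (nat_lit 0x100060000300) (nat_lit 40))))
 (.n (.n (.p (nat_lit 0x8fe08fc08fa08f808f4231d06) (nat_lit 0x10000c2a02) (nat_lit 51))
 (.p (nat_lit 0x686068406820680067c089706) (nat_lit 0x100008612a) (nat_lit 52)))
 (.n (.p (nat_lit 0x138d138102) (nat_lit 0x10650e) (nat_lit 16))
 (.p (nat_lit 0x1542607f02) (nat_lit 0x511a22b85000000000600) (nat_lit 50))))))

def c1024_907 : Tr :=
 .n (.n (.n (.n (.n (.p (nat_lit 0x64b063f02) (nat_lit 0x540000) (nat_lit 34))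
 (.p (nat_lit 0x4a90450502) (nat_lit 0x140813) (nat_lit 4)))
 (.n (.p (nat_lit 0x1c441c421c401c3e1c3c25bf06) (nat_lit 0x8000d0b03) (nat_lit 52))
 (.p (nat_lit 0x1e8a1e861e841e821e803f2d06) (nat_lit 0x80000d622e) (nat_lit 52))))
 (.n (.n (.p (nat_lit 0x22c51ffd02) (nat_lit 0x540a00) (nat_lit 15))
 (.p (nat_lit 0x4241434d02) (nat_lit 0x400b20) (nat_lit 15)))
 (.n (.p (nat_lit 0x1336133413321330132e10d706) (nat_lit 0x8000090407) (nat_lit 51))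
 (.p (nat_lit 0x5d9b5e7d02) (nat_lit 0x1200a0000800) (nat_lit 37)))))
 (.n (.n (.n (.p (nat_lit 0x14e1121d02) (nat_lit 0x46500) (nat_lit 16))
 (.p (nat_lit 0xaa20aa00a9e0a9c0a9a49e106) (nat_lit 0x80008a71a) (nat_lit 51)))
 (.n (.p (nat_lit 0x180818061802180000f800e900e3180517ff09) (nat_lit 0x1840605) (nat_lit 10))
 (.p (nat_lit 0x5d03079902) (nat_lit 0x1a0040000100) (nat_lit 38))))
 (.n (.n (.p (nat_lit 0x30e230e030de30dc30da30d806) (nat_lit 0x94402) (nat_lit 52))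
 (.p (nat_lit 0x46813f1b02) (nat_lit 0x56227) (nat_lit 16)))
 (.n (.p (nat_lit 0x508e4afd02) (nat_lit 0x14080d) (nat_lit 4))
 (.p (nat_lit 0x180e5fff02) (nat_lit 0x16a88cd50000100000600) (nat_lit 49))))))
 (.n (.n (.n (.n (.p (nat_lit 0xdc20dbc0dba0db80b370b3506) (nat_lit 0xc000092300) (nat_lit 52))
 (.p (nat_lit 0x2020201e201c201a20180281201707) (nat_lit 0x40915) (nat_lit 7)))
 (.n (.p (nat_lit 0x8e195502) (nat_lit 0x400704) (nat_lit 1))
 (.p (nat_lit 0x1a201a0019c01980143049506) (nat_lit 0xb1640a) (nat_lit 26))))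
 (.n (.n (.p (nat_lit 0x18721870186c18681c1d1c1906) (nat_lit 0x5000006801) (nat_lit 52))
 (.p (nat_lit 0x29c829c629c429c229c0165d06) (nat_lit 0x800082623) (nat_lit 52)))
 (.n (.p (nat_lit 0x31702cc502) (nat_lit 0x540409) (nat_lit 5))
 (.p (nat_lit 0xd0e5ef302) (nat_lit 0x4a9d84344000300000000) (nat_lit 49)))))
 (.n (.n (.n (.p (nat_lit 0x1c15190302) (nat_lit 0x50a800) (nat_lit 16))
 (.p (nat_lit 0x384a38483846384438421d6306) (nat_lit 0x1000005681c) (nat_lit 51)))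
 (.n (.p (nat_lit 0x1760175e175c175a17581ac906) (nat_lit 0x8000d0706) (nat_lit 51))
 (.p (nat_lit 0x5d69129d02) (nat_lit 0x140080000500) (nat_lit 38))))
 (.n (.n (.p (nat_lit 0x362436223620361e361c361a06) (nat_lit 0x56103) (nat_lit 52))
 (.p (nat_lit 0x108610841082107e0f850f8106) (nat_lit 0x280005232a) (nat_lit 51)))
 (.n (.p (nat_lit 0x268257702) (nat_lit 0x40b0e) (nat_lit 1))
 (.p (nat_lit 0x153460ff02) (nat_lit 0x3425219b0000000000600) (nat_lit 49))))))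

def c512_395 : Tr := .n c1024_395 c1024_907

def c256_139 : Tr := .n c512_139 c512_395

def c128_11 : Tr := .n c256_11 c256_139

def c1024_75 : Tr :=
 .n (.n (.n (.n (.n (.n (.p (nat_lit 0x5700510045003a04) (nat_lit 0xb1000001) (nat_lit 20))
 (.p (nat_lit 0x1534613302) (nat_lit 0x35486a3b0000000000600) (nat_lit 49)))
 (.p (nat_lit 0x94609420940093e093c2b9d06) (nat_lit 0x800008a90f) (nat_lit 52)))
 (.n (.p (nat_lit 0x38630fad02) (nat_lit 0x440303) (nat_lit 16))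
 (.p (nat_lit 0x58125810580e580c580a5808044007) (nat_lit 0x4082a) (nat_lit 8))))
 (.n (.n (.p (nat_lit 0x1d261d221d1e1d1c1a651a6106) (nat_lit 0xa0000d6800) (nat_lit 52))
 (.p (nat_lit 0x2c6f22eb02) (nat_lit 0x4ca1c) (nat_lit 16)))
 (.n (.p (nat_lit 0x8f208f008ee08ea08e81d9906) (nat_lit 0x20000c2806) (nat_lit 52))
 (.p (nat_lit 0x5e3e27ad02) (nat_lit 0x20048600) (nat_lit 48)))))
 (.n (.n (.n (.p (nat_lit 0xf120f100f0e0f080c930c9106) (nat_lit 0x30000d0300) (nat_lit 52))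
 (.p (nat_lit 0x437d258502) (nat_lit 0x152b15) (nat_lit 16)))
 (.n (.p (nat_lit 0x24781fdf02) (nat_lit 0x200b04) (nat_lit 5))
 (.p (nat_lit 0x2395ae702) (nat_lit 0x611) (nat_lit 28))))
 (.n (.n (.p (nat_lit 0x4ca04c804c604c41eeb1ee106) (nat_lit 0x10800000901) (nat_lit 52))
 (.p (nat_lit 0x39243920391e391c391a1d6d06) (nat_lit 0x80000c2823) (nat_lit 52)))
 (.n (.p (nat_lit 0x37d4345902) (nat_lit 0x10030a) (nat_lit 4))
 (.p (nat_lit 0x1ae05f2f02) (nat_lit 0x3a2560b44000200000600) (nat_lit 50))))))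
 (.n (.n (.n (.n (.p (nat_lit 0x5c405c205c005be05bc000b05c707) (nat_lit 0x500100) (nat_lit 7))
 (.p (nat_lit 0x1f005d302) (nat_lit 0x500015) (nat_lit 1)))
 (.n (.p (nat_lit 0x3d6d08cd02) (nat_lit 0x406104) (nat_lit 16))
 (.p (nat_lit 0x21522150214e214c214a468d06) (nat_lit 0x8000d022f) (nat_lit 51))))
 (.n (.n (.p (nat_lit 0x2441215d02) (nat_lit 0x406b00) (nat_lit 16))
 (.p (nat_lit 0x1164b1f02) (nat_lit 0x200022) (nat_lit 1)))
 (.n (.p (nat_lit 0x1908517d02) (nat_lit 0x200707) (nat_lit 29))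
 (.p (nat_lit 0x5d3f1f1702) (nat_lit 0xe0060000900) (nat_lit 41)))))
 (.n (.n (.n (.p (nat_lit 0x1677154f02) (nat_lit 0x110600) (nat_lit 16))
 (.p (nat_lit 0xd100d0e0d0c0d0a0d0605d706) (nat_lit 0x100000601c) (nat_lit 52)))
 (.n (.p (nat_lit 0xa5a0a580a540a520a501ac306) (nat_lit 0x4000044705) (nat_lit 51))
 (.p (nat_lit 0x5dde3b8302) (nat_lit 0x10200) (nat_lit 48))))
 (.n (.n (.p (nat_lit 0x1b781b761b741b701b6e1ef106) (nat_lit 0x200008a902) (nat_lit 52))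
 (.p (nat_lit 0x4160419041b47a1481f05) (nat_lit 0x81940228) (nat_lit 9)))
 (.n (.p (nat_lit 0x4e290f7702) (nat_lit 0x15630e) (nat_lit 16))
 (.p (nat_lit 0x2074602f02) (nat_lit 0x466a62335000400000600) (nat_lit 49))))))

def c1024_587 : Tr :=
 .n (.n (.n (.n (.n (.n (.p (nat_lit 0x3aa03a203a003ad04) (nat_lit 0x11800400023) (nat_lit 17))
 (.p (nat_lit 0xe7a61ad02) (nat_lit 0x3421a9c14800300040000) (nat_lit 50)))
 (.p (nat_lit 0x1e4e1e4c1e4a1e481e46408306) (nat_lit 0x80000c412) (nat_lit 52)))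
 (.n (.p (nat_lit 0x3b1921cb02) (nat_lit 0x508a03) (nat_lit 16))
 (.p (nat_lit 0x3368336633643360335e047f336307) (nat_lit 0x200a2c) (nat_lit 7))))
 (.n (.n (.p (nat_lit 0x208c208a208620821e931e8f06) (nat_lit 0x5000000a00) (nat_lit 52))
 (.p (nat_lit 0x3fb83fb63fb43fb23fb03b4506) (nat_lit 0x10000040a1f) (nat_lit 51)))
 (.n (.p (nat_lit 0x4cc04ca04c804c604c40e0106) (nat_lit 0x800000307) (nat_lit 52))
 (.p (nat_lit 0x5d81197b02) (nat_lit 0x2c00a0000700) (nat_lit 39)))))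
 (.n (.n (.n (.p (nat_lit 0x12a5129902) (nat_lit 0x200500) (nat_lit 34))
 (.p (nat_lit 0x419a419841964194419202ef419d07) (nat_lit 0x500519) (nat_lit 7)))
 (.n (.p (nat_lit 0xe9470502) (nat_lit 0x340305) (nat_lit 30))
 (.p (nat_lit 0x4c004be04bc04b804ad01dd06) (nat_lit 0xa12130) (nat_lit 26))))
 (.n (.n (.p (nat_lit 0x2d642d622d602d5a075d075b06) (nat_lit 0x3000052002) (nat_lit 52))
 (.p (nat_lit 0x3e1574b02) (nat_lit 0x100b25) (nat_lit 30)))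
 (.n (.p (nat_lit 0x45fc528702) (nat_lit 0x30020c) (nat_lit 29))
 (.p (nat_lit 0xe6e5fa702) (nat_lit 0x89832955800300040000) (nat_lit 49))))))
 (.n (.n (.n (.n (.p (nat_lit 0x9d20bb902) (nat_lit 0x340200) (nat_lit 5))
 (.p (nat_lit 0x1ade1ada1ad81ad61ad414dd06) (nat_lit 0x8000050515) (nat_lit 52)))
 (.n (.p (nat_lit 0x16821fad02) (nat_lit 0x100604) (nat_lit 5))
 (.p (nat_lit 0x598659845982597e597c000500c007) (nat_lit 0x20eb04) (nat_lit 25))))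
 (.n (.n (.p (nat_lit 0xe26288d02) (nat_lit 0x100301) (nat_lit 29))
 (.p (nat_lit 0x9e6101302) (nat_lit 0x140123) (nat_lit 5)))
 (.n (.p (nat_lit 0x292a260b02) (nat_lit 0x440308) (nat_lit 5))
 (.p (nat_lit 0x5d25234502) (nat_lit 0x280060000b00) (nat_lit 40)))))
 (.n (.n (.n (.p (nat_lit 0x1a121a0e1a0c1a08179b179506) (nat_lit 0x90000ca700) (nat_lit 52))
 (.p (nat_lit 0x14e20ec302) (nat_lit 0x14051c) (nat_lit 5)))
 (.n (.p (nat_lit 0xe6424df02) (nat_lit 0x200306) (nat_lit 4))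
 (.p (nat_lit 0x5e1050bf02) (nat_lit 0x20056400) (nat_lit 47))))
 (.n (.n (.p (nat_lit 0x176c176a176817641762246106) (nat_lit 0x2000012b02) (nat_lit 51))
 (.p (nat_lit 0x129c129a129612940b5d0b5706) (nat_lit 0x1200000a22a) (nat_lit 52)))
 (.n (.p (nat_lit 0x1a74080902) (nat_lit 0x4070e) (nat_lit 4))
 (.p (nat_lit 0x1f1a60a902) (nat_lit 0x344581ca4000300040600) (nat_lit 50))))))

def c512_75 : Tr := .n c1024_75 c1024_587

def c1024_331 : Tr :=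
 .n (.n (.n (.n (.n (.n (.p (nat_lit 0x1460144014f03) (nat_lit 0x6000500007) (nat_lit 17))
 (.p (nat_lit 0x1538616f02) (nat_lit 0x421aa6315000000000600) (nat_lit 49)))
 (.p (nat_lit 0x3b7933d902) (nat_lit 0x112b10) (nat_lit 16)))
 (.n (.p (nat_lit 0x167e1b8502) (nat_lit 0x500603) (nat_lit 5))
 (.p (nat_lit 0x15e015de15dc15da15d8282306) (nat_lit 0x1000001022b) (nat_lit 52))))
 (.n (.n (.p (nat_lit 0x1ee71bc902) (nat_lit 0x30c900) (nat_lit 16))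
 (.p (nat_lit 0x32f62fe102) (nat_lit 0x24091e) (nat_lit 4)))
 (.n (.p (nat_lit 0x227c2278227622742272206706) (nat_lit 0x800004c906) (nat_lit 51))
 (.p (nat_lit 0x5cd9197f02) (nat_lit 0x140020000700) (nat_lit 41)))))
 (.n (.n (.n (.p (nat_lit 0x10c30df502) (nat_lit 0x400) (nat_lit 15))
 (.p (nat_lit 0x33e22f2502) (nat_lit 0xb17) (nat_lit 5)))
 (.n (.p (nat_lit 0xeb442302) (nat_lit 0x440005) (nat_lit 30))
 (.p (nat_lit 0x40e5bbf02) (nat_lit 0x300521) (nat_lit 27))))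
 (.n (.n (.p (nat_lit 0x2069205102) (nat_lit 0x554901) (nat_lit 16))
 (.p (nat_lit 0x264629b102) (nat_lit 0x300024) (nat_lit 5)))
 (.n (.p (nat_lit 0x50805060502050004fe3bc506) (nat_lit 0x4000046b0a) (nat_lit 52))
 (.p (nat_lit 0x207a5f6f02) (nat_lit 0x3aa074b50000400000600) (nat_lit 50))))))
 (.n (.n (.n (.n (.p (nat_lit 0x9db071f02) (nat_lit 0x146100) (nat_lit 16))
 (.p (nat_lit 0x124812461244124002a0028b0283124b124309) (nat_lit 0x2940415) (nat_lit 10)))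
 (.n (.p (nat_lit 0xfb81f7902) (nat_lit 0x440304) (nat_lit 4))
 (.p (nat_lit 0x340030002e002c0113000906) (nat_lit 0x414901) (nat_lit 26))))
 (.n (.n (.p (nat_lit 0x260025fe25fc25fa25f805f706) (nat_lit 0x10000006001) (nat_lit 52))
 (.p (nat_lit 0x12ce12cc12ca12c812c605e106) (nat_lit 0x800004023) (nat_lit 52)))
 (.n (.p (nat_lit 0x2041200502) (nat_lit 0x348907) (nat_lit 16))
 (.p (nat_lit 0x5e9c46eb02) (nat_lit 0x40000a00) (nat_lit 48)))))
 (.n (.n (.n (.p (nat_lit 0x162a1624162216200024000900071629162709) (nat_lit 0x2300700) (nat_lit 10))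
 (.p (nat_lit 0x88608840880087e087c030d088307) (nat_lit 0x30011c) (nat_lit 7)))
 (.n (.p (nat_lit 0x1fc01fbe1fba1fb81fb61d8f06) (nat_lit 0x40000cc805) (nat_lit 52))
 (.p (nat_lit 0x5cd10d1502) (nat_lit 0x1c0020000300) (nat_lit 40))))
 (.n (.n (.p (nat_lit 0x245f21b702) (nat_lit 0x100a02) (nat_lit 15))
 (.p (nat_lit 0x50d150c502) (nat_lit 0x440829) (nat_lit 16)))
 (.n (.p (nat_lit 0x4855123f02) (nat_lit 0x55440e) (nat_lit 16))
 (.p (nat_lit 0x233a606f02) (nat_lit 0x588172b40800500000600) (nat_lit 49))))))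

def c1024_843 : Tr :=
 .n (.n (.n (.n (.n (.n (.p (nat_lit 0x5d504db02) (nat_lit 0x6000) (nat_lit 16))
 (.p (nat_lit 0xba861eb02) (nat_lit 0x14e0a8c74000200040000) (nat_lit 49)))
 (.p (nat_lit 0x4944455902) (nat_lit 0x340513) (nat_lit 4)))
 (.n (.p (nat_lit 0x25c825c625c425c0009a008b008725c325bf09) (nat_lit 0x1040b03) (nat_lit 10))
 (.p (nat_lit 0x3dfe412302) (nat_lit 0x4012e) (nat_lit 4))))
 (.n (.n (.p (nat_lit 0x227c227a227422721ff91ff706) (nat_lit 0x600004ca00) (nat_lit 51))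
 (.p (nat_lit 0xd640d620d600d5e0d5a428306) (nat_lit 0x10000ca620) (nat_lit 52)))
 (.n (.p (nat_lit 0x10ce051702) (nat_lit 0x407) (nat_lit 5))
 (.p (nat_lit 0x5d651ae902) (nat_lit 0x180080000800) (nat_lit 40)))))
 (.n (.n (.n (.p (nat_lit 0x143a1438143414321227122106) (nat_lit 0x12000046500) (nat_lit 52))
 (.p (nat_lit 0x4950464b02) (nat_lit 0x34051a) (nat_lit 4)))
 (.n (.p (nat_lit 0x23ec23ea23e823e623e4169706) (nat_lit 0x10000010605) (nat_lit 52))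
 (.p (nat_lit 0x5dc42b9502) (nat_lit 0xc100) (nat_lit 47))))
 (.n (.n (.p (nat_lit 0xf98302102) (nat_lit 0x40302) (nat_lit 29))
 (.p (nat_lit 0x1fcc1fca1fc61fc41fc23d7706) (nat_lit 0x400000e127) (nat_lit 52)))
 (.n (.p (nat_lit 0x4f1c4b5902) (nat_lit 0x44040d) (nat_lit 4))
 (.p (nat_lit 0x64a5fef02) (nat_lit 0x306a81c35000000040000) (nat_lit 50))))))
 (.n (.n (.n (.n (.p (nat_lit 0xd4c0d4a0d480d420b330b3106) (nat_lit 0x3000082300) (nat_lit 51))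
 (.p (nat_lit 0x1d561d541d521d4e1d4c02851d5107) (nat_lit 0x240815) (nat_lit 7)))
 (.n (.p (nat_lit 0x1f0e1f0a1f081f061f0417fb06) (nat_lit 0x80000d2604) (nat_lit 52))
 (.p (nat_lit 0x16f5a2702) (nat_lit 0x408) (nat_lit 28))))
 (.n (.n (.p (nat_lit 0x152d14f102) (nat_lit 0x254501) (nat_lit 16))
 (.p (nat_lit 0xebe0ebc0eba0eb80ca90ca706) (nat_lit 0x180004a223) (nat_lit 51)))
 (.n (.p (nat_lit 0x5c308f02) (nat_lit 0x240309) (nat_lit 1))
 (.p (nat_lit 0xbb45ee302) (nat_lit 0x4a8866344000200040000) (nat_lit 50)))))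
 (.n (.n (.n (.p (nat_lit 0x1ba81ba21ba01b9e190118ff06) (nat_lit 0xc000094800) (nat_lit 52))
 (.p (nat_lit 0x1bfa1bf81bf41bf2032e0311030b1bfd1bf709) (nat_lit 0x2a0081c) (nat_lit 10)))
 (.n (.p (nat_lit 0x1778177417721770176e196d06) (nat_lit 0x8000092706) (nat_lit 52))
 (.p (nat_lit 0x5e2a12a502) (nat_lit 0x40000500) (nat_lit 46))))
 (.n (.n (.p (nat_lit 0xb7b08bd02) (nat_lit 0x200103) (nat_lit 15))
 (.p (nat_lit 0x46f50e1b02) (nat_lit 0x11432a) (nat_lit 16)))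
 (.n (.p (nat_lit 0x22d8085302) (nat_lit 0x340a0e) (nat_lit 5))
 (.p (nat_lit 0x64260f302) (nat_lit 0x440d663a4000000040000) (nat_lit 50))))))

def c512_331 : Tr := .n c1024_331 c1024_843

def c256_75 : Tr := .n c512_75 c512_331

def c1024_203 : Tr :=
 .n (.n (.n (.n (.n (.n (.p (nat_lit 0xb600c502) (nat_lit 0x1000600004) (nat_lit 17))
 (.p (nat_lit 0xbac615102) (nat_lit 0x2b0221d84000200040000) (nat_lit 49)))
 (.p (nat_lit 0x184326d02) (nat_lit 0x40510) (nat_lit 1)))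
 (.n (.p (nat_lit 0x1271126502) (nat_lit 0x54403) (nat_lit 16))
 (.p (nat_lit 0x21a6135902) (nat_lit 0x500a2a) (nat_lit 5))))
 (.n (.n (.p (nat_lit 0x1e2a1e261e241e221e201bcb06) (nat_lit 0x8000088900) (nat_lit 52))
 (.p (nat_lit 0x303630323030302e302c2b2706) (nat_lit 0x800000081d) (nat_lit 51)))
 (.n (.p (nat_lit 0x1f021f001efc1efa1ef801191eff07) (nat_lit 0x300906) (nat_lit 7))
 (.p (nat_lit 0x5d4f154902) (nat_lit 0x2e0080000600) (nat_lit 40)))))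
 (.n (.n (.n (.p (nat_lit 0xff60ff40ff20ff00fee0fec06) (nat_lit 0x400) (nat_lit 52))
 (.p (nat_lit 0x31f02f5702) (nat_lit 0x200517) (nat_lit 5)))
 (.n (.p (nat_lit 0x20c620c220c020be25d325cb06) (nat_lit 0x88000c4b04) (nat_lit 51))
 (.p (nat_lit 0x38e5b6502) (nat_lit 0x50041a) (nat_lit 27))))
 (.n (.n (.p (nat_lit 0x204e177702) (nat_lit 0x440901) (nat_lit 4))
 (.p (nat_lit 0x40a22f902) (nat_lit 0x140a23) (nat_lit 1)))
 (.n (.p (nat_lit 0x524e524c524a52485246524401a407) (nat_lit 0x60a) (nat_lit 8))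
 (.p (nat_lit 0x20765f5102) (nat_lit 0x1a1d22350000400000600) (nat_lit 50))))))
 (.n (.n (.n (.n (.p (nat_lit 0x8d505c102) (nat_lit 0x214100) (nat_lit 16))
 (.p (nat_lit 0x281540d02) (nat_lit 0x415) (nat_lit 30)))
 (.n (.p (nat_lit 0xce21f5902) (nat_lit 0x40204) (nat_lit 4))
 (.p (nat_lit 0x4dda4f5302) (nat_lit 0x400330) (nat_lit 5))))
 (.n (.n (.p (nat_lit 0x25422540253c253a22c522bf06) (nat_lit 0x12000050b00) (nat_lit 51))
 (.p (nat_lit 0x505c4d9d02) (nat_lit 0x822) (nat_lit 5)))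
 (.n (.p (nat_lit 0x350e350a3508350635041bd706) (nat_lit 0x8000088807) (nat_lit 52))
 (.p (nat_lit 0x5cbb5e9502) (nat_lit 0x20000000a00) (nat_lit 36)))))
 (.n (.n (.n (.p (nat_lit 0x176c176817661764176216b906) (nat_lit 0x8000052600) (nat_lit 51))
 (.p (nat_lit 0xa5a0a580a560a540a52073506) (nat_lit 0x80004401c) (nat_lit 51)))
 (.n (.p (nat_lit 0xeb4a6902) (nat_lit 0x400805) (nat_lit 30))
 (.p (nat_lit 0x5d715ded02) (nat_lit 0xc0080000200) (nat_lit 37))))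
 (.n (.n (.p (nat_lit 0x32e7205d02) (nat_lit 0x542902) (nat_lit 16))
 (.p (nat_lit 0x4c8e4edb02) (nat_lit 0x440129) (nat_lit 4)))
 (.n (.p (nat_lit 0x408910e102) (nat_lit 0x31240e) (nat_lit 16))
 (.p (nat_lit 0x8ea604f02) (nat_lit 0x40a962335000100040000) (nat_lit 49))))))

def c1024_715 : Tr :=
 .n (.n (.n (.n (.n (.n (.p (nat_lit 0x4d704cb02) (nat_lit 0x400000) (nat_lit 34))
 (.p (nat_lit 0x13ee61cd02) (nat_lit 0x3421684a0800500040000) (nat_lit 49)))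
 (.p (nat_lit 0x83608340830082e4227422106) (nat_lit 0x4800012612) (nat_lit 52)))
 (.n (.p (nat_lit 0xd1c0d1a0d180d160d12246b06) (nat_lit 0x1000006b03) (nat_lit 51))
 (.p (nat_lit 0x1b9c1b9a1b981b961b9436cf06) (nat_lit 0x80001422d) (nat_lit 52))))
 (.n (.n (.p (nat_lit 0x217b1e8f02) (nat_lit 0x104a00) (nat_lit 16))
 (.p (nat_lit 0x1e5a1e581e541e521e503d0706) (nat_lit 0x40000cc020) (nat_lit 51)))
 (.n (.p (nat_lit 0xf720f6e0f6a0f680164014901450f710f6d09) (nat_lit 0x2240307) (nat_lit 10))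
 (.p (nat_lit 0x5e6a205502) (nat_lit 0x2004c800) (nat_lit 48)))))
 (.n (.n (.n (.p (nat_lit 0x4e110c902) (nat_lit 0x300500) (nat_lit 15))
 (.p (nat_lit 0x42ce54d302) (nat_lit 0x300719) (nat_lit 29)))
 (.n (.p (nat_lit 0x13d8226102) (nat_lit 0x300505) (nat_lit 5))
 (.p (nat_lit 0x5db6503d02) (nat_lit 0x40016000) (nat_lit 47))))
 (.n (.n (.p (nat_lit 0xb742ed902) (nat_lit 0x500202) (nat_lit 29))
 (.p (nat_lit 0x3de3acb02) (nat_lit 0x40626) (nat_lit 1)))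
 (.n (.p (nat_lit 0x49d0447902) (nat_lit 0x40070c) (nat_lit 5))
 (.p (nat_lit 0x181e5fd102) (nat_lit 0x95a2ec05000100000600) (nat_lit 50))))))
 (.n (.n (.n (.n (.p (nat_lit 0xca709cd02) (nat_lit 0x48200) (nat_lit 16))
 (.p (nat_lit 0x1920544d02) (nat_lit 0x200715) (nat_lit 29)))
 (.n (.p (nat_lit 0x4235168902) (nat_lit 0x404604) (nat_lit 16))
 (.p (nat_lit 0x11c0116011401120007030306) (nat_lit 0x1c10206) (nat_lit 26))))
 (.n (.n (.p (nat_lit 0x125215bb02) (nat_lit 0x340401) (nat_lit 5))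
 (.p (nat_lit 0xb46118302) (nat_lit 0x223) (nat_lit 4)))
 (.n (.p (nat_lit 0x2be626af02) (nat_lit 0x540908) (nat_lit 4))
 (.p (nat_lit 0x6425ec702) (nat_lit 0x4a1a34344000000040000) (nat_lit 50)))))
 (.n (.n (.n (.p (nat_lit 0x1abb179d02) (nat_lit 0x552700) (nat_lit 16))
 (.p (nat_lit 0x17cc17c817c417c2032c030f030b17cb17c709) (nat_lit 0x224061c) (nat_lit 10)))
 (.n (.p (nat_lit 0x129023bd02) (nat_lit 0x440406) (nat_lit 5))
 (.p (nat_lit 0x5d970feb02) (nat_lit 0x1600a0000400) (nat_lit 40))))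
 (.n (.n (.p (nat_lit 0x60e1af702) (nat_lit 0x500003) (nat_lit 5))
 (.p (nat_lit 0x153e153c153a153615340cb706) (nat_lit 0x200004c22a) (nat_lit 52)))
 (.n (.p (nat_lit 0x3630362e362a362836261d4706) (nat_lit 0x40000d680e) (nat_lit 52))
 (.p (nat_lit 0xbb260d302) (nat_lit 0x340a623b0000200040000) (nat_lit 50))))))

def c512_203 : Tr := .n c1024_203 c1024_715

def c1024_459 : Tr :=
 .n (.n (.n (.n (.n (.n (.p (nat_lit 0x280029102) (nat_lit 0x800600015) (nat_lit 17))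
 (.p (nat_lit 0x8f6618d02) (nat_lit 0x54c88a970000100040000) (nat_lit 50)))
 (.p (nat_lit 0x39e6359302) (nat_lit 0x400511) (nat_lit 5)))
 (.n (.p (nat_lit 0x1a1c1a1a1a181a1617f117e706) (nat_lit 0x10800052603) (nat_lit 51))
 (.p (nat_lit 0x12ce12cc12ca12c612c42c1d06) (nat_lit 0x200004492b) (nat_lit 52))))
 (.n (.n (.p (nat_lit 0x1fcc1fca1fc81fc61fc41fc206) (nat_lit 0x4e900) (nat_lit 52))
 (.p (nat_lit 0x3552354e354a3548035e035703533551354d09) (nat_lit 0x224001f) (nat_lit 10)))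
 (.n (.p (nat_lit 0x3e6b0b3d02) (nat_lit 0x112207) (nat_lit 16))
 (.p (nat_lit 0x5e5a310102) (nat_lit 0x60002700) (nat_lit 47)))))
 (.n (.n (.n (.p (nat_lit 0x1180117c117811760f650f6106) (nat_lit 0xa0000c2400) (nat_lit 52))
 (.p (nat_lit 0x3aaa369502) (nat_lit 0x400618) (nat_lit 5)))
 (.n (.p (nat_lit 0x45f445f245f045ee45ec0b9506) (nat_lit 0x4000090205) (nat_lit 52))
 (.p (nat_lit 0x4215c1902) (nat_lit 0x200829) (nat_lit 28))))
 (.n (.n (.p (nat_lit 0x252c2528252625222317231106) (nat_lit 0x900004ea01) (nat_lit 51))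
 (.p (nat_lit 0x2c1429f102) (nat_lit 0x440924) (nat_lit 4)))
 (.n (.p (nat_lit 0x42163c2b02) (nat_lit 0x10060b) (nat_lit 4))
 (.p (nat_lit 0x15345f8f02) (nat_lit 0x581a303a4000000000600) (nat_lit 49))))))
 (.n (.n (.n (.n (.p (nat_lit 0xa8a0a880a840a800877087306) (nat_lit 0x5000088200) (nat_lit 52))
 (.p (nat_lit 0x18141810180e180c180a139306) (nat_lit 0x800000e515) (nat_lit 52)))
 (.n (.p (nat_lit 0x40d240d040ce40ca40c8127506) (nat_lit 0x20000cc404) (nat_lit 51))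
 (.p (nat_lit 0x91592502) (nat_lit 0x500103) (nat_lit 28))))
 (.n (.n (.p (nat_lit 0xa0616e902) (nat_lit 0x540101) (nat_lit 5))
 (.p (nat_lit 0x88c116f02) (nat_lit 0x200123) (nat_lit 5)))
 (.n (.p (nat_lit 0x2421241502) (nat_lit 0x4b07) (nat_lit 16))
 (.p (nat_lit 0x5c9b5ead02) (nat_lit 0x220000000b00) (nat_lit 37)))))
 (.n (.n (.n (.p (nat_lit 0x1913162302) (nat_lit 0x102700) (nat_lit 16))
 (.p (nat_lit 0xbe00bde0bdc0bd609dd09db06) (nat_lit 0x300004811c) (nat_lit 51)))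
 (.n (.p (nat_lit 0x8e44ba502) (nat_lit 0x400106) (nat_lit 29))
 (.p (nat_lit 0x5d590d0f02) (nat_lit 0x240080000300) (nat_lit 38))))
 (.n (.n (.p (nat_lit 0x1c441c401c3c1c3a2323231f06) (nat_lit 0xa0000d0a02) (nat_lit 52))
 (.p (nat_lit 0x9f812c102) (nat_lit 0x44012a) (nat_lit 4)))
 (.n (.p (nat_lit 0x50805040502050004fe14d106) (nat_lit 0x800004650e) (nat_lit 52))
 (.p (nat_lit 0x8f2608f02) (nat_lit 0x356221ca4000100040000) (nat_lit 49))))))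

def c1024_971 : Tr :=
 .n (.n (.n (.n (.n (.p (nat_lit 0x69e069a069606940655065106) (nat_lit 0xa0000c8000) (nat_lit 52))
 (.p (nat_lit 0x4f264bc502) (nat_lit 0x340414) (nat_lit 5)))
 (.n (.p (nat_lit 0x1b4061902) (nat_lit 0x400004) (nat_lit 1))
 (.p (nat_lit 0x12da12d612d412d212d042a106) (nat_lit 0x80000c462e) (nat_lit 51))))
 (.n (.n (.p (nat_lit 0x2345233902) (nat_lit 0x300b00) (nat_lit 34))
 (.p (nat_lit 0x227c227822762274227244a506) (nat_lit 0x800004c021) (nat_lit 51)))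
 (.n (.p (nat_lit 0x14e015b016b052d069f05) (nat_lit 0x45d40407) (nat_lit 9))
 (.p (nat_lit 0x5c915e7f02) (nat_lit 0x2c0000000900) (nat_lit 36)))))
 (.n (.n (.n (.p (nat_lit 0x155615521550154e0012000900011555154d09) (nat_lit 0x2000600) (nat_lit 10))
 (.p (nat_lit 0x4f644d2102) (nat_lit 0x30051b) (nat_lit 5)))
 (.n (.p (nat_lit 0xa4e0a4c0a4a0a460a44195d06) (nat_lit 0x2000004705) (nat_lit 52))
 (.p (nat_lit 0x5dd205cf02) (nat_lit 0x60006100) (nat_lit 48))))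
 (.n (.n (.p (nat_lit 0x13b41a0302) (nat_lit 0x300502) (nat_lit 4))
 (.p (nat_lit 0x3898389638943892389042e106) (nat_lit 0x800082727) (nat_lit 51)))
 (.n (.p (nat_lit 0x2860e1302) (nat_lit 0x30030e) (nat_lit 1))
 (.p (nat_lit 0x1ad6601102) (nat_lit 0x405aa0b95000200000600) (nat_lit 49))))))
 (.n (.n (.n (.n (.p (nat_lit 0xe5d0b3702) (nat_lit 0x414300) (nat_lit 16))
 (.p (nat_lit 0x2180217e217c217802a0028b02832183217b09) (nat_lit 0x2900a15) (nat_lit 10)))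
 (.n (.p (nat_lit 0x1bc01bbe1bbc1bb81bb6195106) (nat_lit 0x2000096704) (nat_lit 51))
 (.p (nat_lit 0x1f001ee01ea01e80141000706) (nat_lit 0x30a40e) (nat_lit 26))))
 (.n (.n (.p (nat_lit 0x1d7e2b4102) (nat_lit 0x140801) (nat_lit 29))
 (.p (nat_lit 0x1941193502) (nat_lit 0x723) (nat_lit 16)))
 (.n (.p (nat_lit 0x57e057a057805760574332b06) (nat_lit 0x8000012a09) (nat_lit 51))
 (.p (nat_lit 0x15345f1102) (nat_lit 0x3a2270350000000000600) (nat_lit 49)))))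
 (.n (.n (.n (.p (nat_lit 0x1c5a1c581c541c521a671a6106) (nat_lit 0x12000040800) (nat_lit 52))
 (.p (nat_lit 0x20260dbd02) (nat_lit 0x24091c) (nat_lit 4)))
 (.n (.p (nat_lit 0x4d604d404d204d004ce1c3906) (nat_lit 0x10000000806) (nat_lit 51))
 (.p (nat_lit 0x5e34507f02) (nat_lit 0xa0016500) (nat_lit 48))))
 (.n (.n (.p (nat_lit 0xcda1b2b02) (nat_lit 0x240203) (nat_lit 5))
 (.p (nat_lit 0x17dc57e702) (nat_lit 0x14062a) (nat_lit 29)))
 (.n (.p (nat_lit 0x1760175e175c175a1756299506) (nat_lit 0x100009040f) (nat_lit 51))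
 (.p (nat_lit 0xe72611502) (nat_lit 0x3422621b0000300040000) (nat_lit 49))))))

def c512_459 : Tr := .n c1024_459 c1024_971

def c256_203 : Tr := .n c512_203 c512_459

def c128_75 : Tr := .n c256_75 c256_203

def c64_11 : Tr := .n c128_11 c128_75

def c1024_43 : Tr :=
 .n (.n (.n (.n (.n (.n (.p (nat_lit 0x2e002c003903) (nat_lit 0x3000500001) (nat_lit 17))
 (.p (nat_lit 0xbae612d02) (nat_lit 0x45486a3a4000200040000) (nat_lit 49)))
 (.p (nat_lit 0x2b5a278702) (nat_lit 0x34080f) (nat_lit 5)))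
 (.n (.p (nat_lit 0xfaa37ef02) (nat_lit 0x340303) (nat_lit 29))
 (.p (nat_lit 0x31a831a631a431a2319e1aa706) (nat_lit 0x10000c472a) (nat_lit 51))))
 (.n (.n (.p (nat_lit 0x1d001cfe1cfa1cf81a671a6106) (nat_lit 0x12000054800) (nat_lit 51))
 (.p (nat_lit 0x22ee559102) (nat_lit 0x240a1c) (nat_lit 29)))
 (.n (.p (nat_lit 0x1d9e1d9c1d9a1d981d9401151d9707) (nat_lit 0x140806) (nat_lit 7))
 (.p (nat_lit 0x5cd5153702) (nat_lit 0x180020000600) (nat_lit 38)))))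
 (.n (.n (.n (.p (nat_lit 0xeca0ec80ec40ec20ec00c9506) (nat_lit 0x40000ca300) (nat_lit 51))
 (.p (nat_lit 0x25840b2502) (nat_lit 0x140b15) (nat_lit 5)))
 (.n (.p (nat_lit 0x1d261d241d221d201d1e1ab106) (nat_lit 0x8000d6704) (nat_lit 52))
 (.p (nat_lit 0x20b5abf02) (nat_lit 0x80f) (nat_lit 28))))
 (.n (.n (.p (nat_lit 0x1ee02b7d02) (nat_lit 0x901) (nat_lit 29))
 (.p (nat_lit 0x1d6456f502) (nat_lit 0x40823) (nat_lit 29)))
 (.n (.p (nat_lit 0x374234d702) (nat_lit 0x4020a) (nat_lit 5))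
 (.p (nat_lit 0x8ec5f2102) (nat_lit 0x3a2570344000100040000) (nat_lit 49))))))
 (.n (.n (.n (.n (.p (nat_lit 0x1e605bd02) (nat_lit 0x100) (nat_lit 1))
 (.p (nat_lit 0x50f44c7d02) (nat_lit 0x400914) (nat_lit 5)))
 (.n (.p (nat_lit 0x8c43d0d02) (nat_lit 0x104) (nat_lit 29))
 (.p (nat_lit 0x22ac22aa22a622a24609460506) (nat_lit 0x500001022f) (nat_lit 52))))
 (.n (.n (.p (nat_lit 0x24122410240e240c2408215706) (nat_lit 0x1000092b00) (nat_lit 51))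
 (.p (nat_lit 0x4a464a444a424a3e4a3c03894a4107) (nat_lit 0x240721) (nat_lit 7)))
 (.n (.p (nat_lit 0x145517102) (nat_lit 0x240607) (nat_lit 30))
 (.p (nat_lit 0x5cfd1db102) (nat_lit 0x200040000900) (nat_lit 40)))))
 (.n (.n (.n (.p (nat_lit 0x1631155102) (nat_lit 0x200600) (nat_lit 16))
 (.p (nat_lit 0x5de05da05d805d605d4030f05dd07) (nat_lit 0x40001c) (nat_lit 7)))
 (.n (.p (nat_lit 0x1ac2213702) (nat_lit 0x340705) (nat_lit 5))
 (.p (nat_lit 0x5cb70a5102) (nat_lit 0x60000000200) (nat_lit 40))))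
 (.n (.n (.p (nat_lit 0x1ef01a1902) (nat_lit 0x200902) (nat_lit 5))
 (.p (nat_lit 0xe8458d02) (nat_lit 0x340128) (nat_lit 1)))
 (.n (.p (nat_lit 0xa660a640a600a5e0f7b0f7506) (nat_lit 0x480004030e) (nat_lit 51))
 (.p (nat_lit 0x8ea602702) (nat_lit 0x406a62335000100040000) (nat_lit 49))))))

def c1024_555 : Tr :=
 .n (.n (.n (.n (.n (.n (.p (nat_lit 0x36a03680366036f04) (nat_lit 0xe000400020) (nat_lit 17))
 (.p (nat_lit 0x153661a702) (nat_lit 0x3421a9c14800000000600) (nat_lit 49)))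
 (.p (nat_lit 0x92e092c092a092809263bcb06) (nat_lit 0x8000c8b11) (nat_lit 52)))
 (.n (.p (nat_lit 0x1fcc1fca1fc81fc61fc421c106) (nat_lit 0x80000ea03) (nat_lit 52))
 (.p (nat_lit 0x32c2323f02) (nat_lit 0x30092c) (nat_lit 4))))
 (.n (.n (.p (nat_lit 0x205f1d2902) (nat_lit 0x56900) (nat_lit 16))
 (.p (nat_lit 0x3ab237ab02) (nat_lit 0x20061f) (nat_lit 5)))
 (.n (.p (nat_lit 0x46790c9f02) (nat_lit 0x254207) (nat_lit 16))
 (.p (nat_lit 0x5d9f198702) (nat_lit 0xe00a0000700) (nat_lit 41)))))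
 (.n (.n (.n (.p (nat_lit 0x12750f6102) (nat_lit 0x252400) (nat_lit 16))
 (.p (nat_lit 0x3d073cfb02) (nat_lit 0x348019) (nat_lit 16)))
 (.n (.p (nat_lit 0x46ba46b846b446b00e5b0e5706) (nat_lit 0x5000080305) (nat_lit 51))
 (.p (nat_lit 0x48404820480047c0435049306) (nat_lit 0x21492c) (nat_lit 26))))
 (.n (.n (.p (nat_lit 0x5f2d0f02) (nat_lit 0x340002) (nat_lit 30))
 (.p (nat_lit 0x330f330302) (nat_lit 0x240925) (nat_lit 16)))
 (.n (.p (nat_lit 0x43383ce102) (nat_lit 0xb0b) (nat_lit 4))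
 (.p (nat_lit 0x14005f9f02) (nat_lit 0x589832b44000500040000) (nat_lit 50))))))
 (.n (.n (.n (.n (.p (nat_lit 0xb7b087502) (nat_lit 0x210200) (nat_lit 16))
 (.p (nat_lit 0xd100d0c0d0a0d080d0614dd06) (nat_lit 0x8000046515) (nat_lit 52)))
 (.n (.p (nat_lit 0x151641a502) (nat_lit 0x340504) (nat_lit 29))
 (.p (nat_lit 0xb9596d02) (nat_lit 0x200504) (nat_lit 28))))
 (.n (.n (.p (nat_lit 0x31282b02) (nat_lit 0x340201) (nat_lit 30))
 (.p (nat_lit 0x249624942490248e248c088f06) (nat_lit 0x4000096123) (nat_lit 51)))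
 (.n (.p (nat_lit 0x28d428d228d028ce28ca017128cd07) (nat_lit 0x100308) (nat_lit 7))
 (.p (nat_lit 0x5d415ebb02) (nat_lit 0xc0060000b00) (nat_lit 36)))))
 (.n (.n (.n (.p (nat_lit 0x19b619b419b219b019ac179506) (nat_lit 0x10000c2700) (nat_lit 52))
 (.p (nat_lit 0x1032102e102a1028139f139b06) (nat_lit 0xa00008451c) (nat_lit 51)))
 (.n (.p (nat_lit 0xba40ba20b9c0b9a0134011901170ba10b9f09) (nat_lit 0x1a00206) (nat_lit 10))
 (.p (nat_lit 0x5cdb0fe302) (nat_lit 0x120020000400) (nat_lit 40))))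
 (.n (.n (.p (nat_lit 0x24662464245e245c007c005f005d2463246109) (nat_lit 0x1a00b02) (nat_lit 10))
 (.p (nat_lit 0x8fe08fc08fa08f808f40b5506) (nat_lit 0x100008222a) (nat_lit 51)))
 (.n (.p (nat_lit 0x191007fd02) (nat_lit 0x70e) (nat_lit 4))
 (.p (nat_lit 0x12a712990feb0fdd0d130d0d0a550a4707a9079f04d104c360a20d) (nat_lit 0x356068ca4000000000000) (nat_lit 33))))))

def c512_43 : Tr := .n c1024_43 c1024_555

def c1024_299 : Tr :=
 .n (.n (.n (.n (.n (.n (.p (nat_lit 0x11c012302) (nat_lit 0x10000600006) (nat_lit 17))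
 (.p (nat_lit 0x1978616502) (nat_lit 0x340c62b84000100040600) (nat_lit 49)))
 (.p (nat_lit 0x81e081c081a08180816338306) (nat_lit 0x800050a10) (nat_lit 52)))
 (.n (.p (nat_lit 0x1519150d02) (nat_lit 0x454503) (nat_lit 16))
 (.p (nat_lit 0x25b014c702) (nat_lit 0x540b2a) (nat_lit 5))))
 (.n (.n (.p (nat_lit 0x1e9f1bc902) (nat_lit 0x300900) (nat_lit 16))
 (.p (nat_lit 0x1a4e1a4c1a481a461a442da306) (nat_lit 0x400005601e) (nat_lit 52)))
 (.n (.p (nat_lit 0xea206702) (nat_lit 0x440906) (nat_lit 1))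
 (.p (nat_lit 0x5e5231ed02) (nat_lit 0x4700) (nat_lit 48)))))
 (.n (.n (.n (.p (nat_lit 0x107a1078107210700dfb0df906) (nat_lit 0x6000090400) (nat_lit 51))
 (.p (nat_lit 0x3afd333d02) (nat_lit 0x112a17) (nat_lit 16)))
 (.n (.p (nat_lit 0x8d5062102) (nat_lit 0x200005) (nat_lit 15))
 (.p (nat_lit 0x3555bb302) (nat_lit 0x300a1f) (nat_lit 28))))
 (.n (.n (.p (nat_lit 0x2346234423422340233e205106) (nat_lit 0x10000056901) (nat_lit 51))
 (.p (nat_lit 0x3a5573502) (nat_lit 0x240b23) (nat_lit 30)))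
 (.n (.p (nat_lit 0x52c052a0526052405223b7106) (nat_lit 0x4000088b0a) (nat_lit 51))
 (.p (nat_lit 0xbbc5f6302) (nat_lit 0x3aa074b44000200040000) (nat_lit 50))))))
 (.n (.n (.n (.n (.p (nat_lit 0x9520950094c09480723071f06) (nat_lit 0x500004c100) (nat_lit 52))
 (.p (nat_lit 0x124a12481246124412400283124307) (nat_lit 0x140415) (nat_lit 7)))
 (.n (.p (nat_lit 0xe521e0702) (nat_lit 0x500304) (nat_lit 5))
 (.p (nat_lit 0x46c58bd02) (nat_lit 0x500501) (nat_lit 27))))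
 (.n (.n (.p (nat_lit 0x25d322c302) (nat_lit 0x452b00) (nat_lit 16))
 (.p (nat_lit 0x5ea05e805e405e205e003a705e707) (nat_lit 0x300023) (nat_lit 7)))
 (.n (.p (nat_lit 0x1edd1ea102) (nat_lit 0x408907) (nat_lit 16))
 (.p (nat_lit 0x5e981efb02) (nat_lit 0x2000ca00) (nat_lit 48)))))
 (.n (.n (.n (.p (nat_lit 0x180116b302) (nat_lit 0x154600) (nat_lit 16))
 (.p (nat_lit 0x2da7073f02) (nat_lit 0x54e01c) (nat_lit 16)))
 (.n (.p (nat_lit 0xed4a8d02) (nat_lit 0x540805) (nat_lit 30))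
 (.p (nat_lit 0x5c955df502) (nat_lit 0x280000000300) (nat_lit 36))))
 (.n (.n (.p (nat_lit 0x198619841980197e197c21bb06) (nat_lit 0x400008ea02) (nat_lit 51))
 (.p (nat_lit 0x50be4e8d02) (nat_lit 0x140829) (nat_lit 5)))
 (.n (.p (nat_lit 0x21e221e021de21da21d8123906) (nat_lit 0x20000d440e) (nat_lit 51))
 (.p (nat_lit 0xa46606702) (nat_lit 0x5898b0b44000200000000) (nat_lit 49))))))

def c1024_811 : Tr :=
 .n (.n (.n (.n (.n (.n (.p (nat_lit 0x55a05580556055404dd04db06) (nat_lit 0x180008e000) (nat_lit 52))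
 (.p (nat_lit 0x114e61e302) (nat_lit 0x3302a5895000400040000) (nat_lit 50)))
 (.p (nat_lit 0x484a44cb02) (nat_lit 0x40413) (nat_lit 5)))
 (.n (.p (nat_lit 0x3ba5247302) (nat_lit 0x508b03) (nat_lit 16))
 (.p (nat_lit 0x12cc12ca12c812c612c43bb106) (nat_lit 0x10000004b2d) (nat_lit 52))))
 (.n (.n (.p (nat_lit 0x2212220e220c22081ffb1ff506) (nat_lit 0x90000c2a00) (nat_lit 51))
 (.p (nat_lit 0xd340d320d2e0d2c0d2a423f06) (nat_lit 0x4000080620) (nat_lit 51)))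
 (.n (.p (nat_lit 0xf7f0f7302) (nat_lit 0x544307) (nat_lit 16))
 (.p (nat_lit 0x5d7d1add02) (nat_lit 0x80000800) (nat_lit 38)))))
 (.n (.n (.n (.p (nat_lit 0x141614141412140e1227121f06) (nat_lit 0x110000c2500) (nat_lit 51))
 (.p (nat_lit 0x48c0463d02) (nat_lit 0x20051a) (nat_lit 5)))
 (.n (.p (nat_lit 0x1694227b02) (nat_lit 0x400605) (nat_lit 5))
 (.p (nat_lit 0x5d875dc302) (nat_lit 0x2600a0000000) (nat_lit 37))))
 (.n (.n (.p (nat_lit 0xe3a0e380e360e300074005d005b0e350e3309) (nat_lit 0x1100302) (nat_lit 10))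
 (.p (nat_lit 0x102610241020101e101c3bf506) (nat_lit 0x4000044b26) (nat_lit 51)))
 (.n (.p (nat_lit 0x4e1c4b4702) (nat_lit 0x14030d) (nat_lit 4))
 (.p (nat_lit 0xd0c5fe702) (nat_lit 0x38ac60b44000300000000) (nat_lit 49))))))
 (.n (.n (.n (.n (.p (nat_lit 0xd260d220d200d1e0b390b3506) (nat_lit 0x14000000300) (nat_lit 52))
 (.p (nat_lit 0x1be8546302) (nat_lit 0x100815) (nat_lit 29)))
 (.n (.p (nat_lit 0x153e153c153a1538153617f306) (nat_lit 0x80004c604) (nat_lit 52))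
 (.p (nat_lit 0x1495a0302) (nat_lit 0x400407) (nat_lit 28))))
 (.n (.n (.p (nat_lit 0x14f4174702) (nat_lit 0x440501) (nat_lit 4))
 (.p (nat_lit 0xcac56bf02) (nat_lit 0x340223) (nat_lit 29)))
 (.n (.p (nat_lit 0x30122cad02) (nat_lit 0x400309) (nat_lit 4))
 (.p (nat_lit 0x13f45edb02) (nat_lit 0x4a9d22344000500040000) (nat_lit 49)))))
 (.n (.n (.n (.p (nat_lit 0x1b841b801b7e1b7c190118f906) (nat_lit 0x880000c800) (nat_lit 51))
 (.p (nat_lit 0x4a3d1a8d02) (nat_lit 0x5471c) (nat_lit 16)))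
 (.n (.p (nat_lit 0x196e196c1968196619640119196b07) (nat_lit 0x300706) (nat_lit 7))
 (.p (nat_lit 0x5e26074302) (nat_lit 0x20046500) (nat_lit 48))))
 (.n (.n (.p (nat_lit 0x8b356502) (nat_lit 0x200103) (nat_lit 30))
 (.p (nat_lit 0xff60ff20ff00fee0fec0e2106) (nat_lit 0x800000032a) (nat_lit 52)))
 (.n (.p (nat_lit 0x217209a302) (nat_lit 0x300a0e) (nat_lit 4))
 (.p (nat_lit 0x8fa60ed02) (nat_lit 0x340d6a3a4000100040000) (nat_lit 50))))))

def c512_299 : Tr := .n c1024_299 c1024_811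

def c256_43 : Tr := .n c512_43 c512_299

def c1024_171 : Tr :=
 .n (.n (.n (.n (.n (.n (.p (nat_lit 0xb100af009d009604) (nat_lit 0x76000003) (nat_lit 20))
 (.p (nat_lit 0x113a614b02) (nat_lit 0x3b0221d84000400040000) (nat_lit 49)))
 (.p (nat_lit 0x31762dd902) (nat_lit 0x240410) (nat_lit 5)))
 (.n (.p (nat_lit 0x126e1cc702) (nat_lit 0x540403) (nat_lit 5))
 (.p (nat_lit 0x41624160415e415c2045204306) (nat_lit 0x180000cc92a) (nat_lit 52))))
 (.n (.n (.p (nat_lit 0x1dda1dd81dd61dd01bc71bc506) (nat_lit 0x3000002900) (nat_lit 51))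
 (.p (nat_lit 0x1778177617741770176e26c106) (nat_lit 0x20000d201d) (nat_lit 52)))
 (.n (.p (nat_lit 0x20691d9f02) (nat_lit 0x540806) (nat_lit 15))
 (.p (nat_lit 0x5e4426c302) (nat_lit 0x60046600) (nat_lit 47)))))
 (.n (.n (.n (.p (nat_lit 0xdf60fd702) (nat_lit 0x100400) (nat_lit 4))
 (.p (nat_lit 0x2bfc280302) (nat_lit 0x440916) (nat_lit 4)))
 (.n (.p (nat_lit 0xe825d102) (nat_lit 0x340b04) (nat_lit 1))
 (.p (nat_lit 0x33a5b4102) (nat_lit 0x200416) (nat_lit 27))))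
 (.n (.n (.p (nat_lit 0x2bc11ee902) (nat_lit 0x408901) (nat_lit 16))
 (.p (nat_lit 0x3a3571b02) (nat_lit 0x100a23) (nat_lit 30)))
 (.n (.p (nat_lit 0x48e396702) (nat_lit 0x4040a) (nat_lit 1))
 (.p (nat_lit 0xba85f4102) (nat_lit 0x3a2260b50000200040000) (nat_lit 49))))))
 (.n (.n (.n (.n (.p (nat_lit 0x88f05c302) (nat_lit 0x308100) (nat_lit 16))
 (.p (nat_lit 0x92e092c092a09280926072906) (nat_lit 0x8000c8015) (nat_lit 52)))
 (.n (.p (nat_lit 0xb8c0b880b860b8400ca00bd00b50b8b0b8309) (nat_lit 0x2000204) (nat_lit 10))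
 (.p (nat_lit 0x4ab64ab24ab04aae4aac4c1d06) (nat_lit 0x8000004130) (nat_lit 52))))
 (.n (.n (.p (nat_lit 0x25042502250024fe22c522c306) (nat_lit 0x180000c8b00) (nat_lit 52))
 (.p (nat_lit 0x4264fc302) (nat_lit 0x540522) (nat_lit 1)))
 (.n (.p (nat_lit 0x19c1bd302) (nat_lit 0x200807) (nat_lit 1))
 (.p (nat_lit 0x5d9d1f1b02) (nat_lit 0x1000a0000900) (nat_lit 41)))))
 (.n (.n (.n (.p (nat_lit 0x175417521750174e174a16b306) (nat_lit 0x1000050600) (nat_lit 51))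
 (.p (nat_lit 0x73e073c073a073807360307073507) (nat_lit 0x4001c) (nat_lit 7)))
 (.n (.p (nat_lit 0x1acb1abf02) (nat_lit 0x14c705) (nat_lit 16))
 (.p (nat_lit 0x5d3f0a5702) (nat_lit 0xe0060000200) (nat_lit 40))))
 (.n (.n (.p (nat_lit 0x1b821b801b7c1b7a205d205706) (nat_lit 0x1200004c902) (nat_lit 51))
 (.p (nat_lit 0x4c144ecf02) (nat_lit 0x400129) (nat_lit 5)))
 (.n (.p (nat_lit 0x1f181f161f141f121f1010e506) (nat_lit 0x1000009240e) (nat_lit 51))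
 (.p (nat_lit 0x1dae604702) (nat_lit 0x40a96254c800300000600) (nat_lit 50))))))

def c1024_683 : Tr :=
 .n (.n (.n (.n (.n (.n (.p (nat_lit 0x49804940492049b04) (nat_lit 0x1600040002d) (nat_lit 17))
 (.p (nat_lit 0x181e61c502) (nat_lit 0x3421684a0800100000600) (nat_lit 50)))
 (.p (nat_lit 0x420d420102) (nat_lit 0x546512) (nat_lit 16)))
 (.n (.p (nat_lit 0x8f3b6702) (nat_lit 0x400b03) (nat_lit 30))
 (.p (nat_lit 0x35383536353435323530365506) (nat_lit 0x100000d612d) (nat_lit 52))))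
 (.n (.n (.p (nat_lit 0x21442142213e213c1e971e9106) (nat_lit 0x12000010a00) (nat_lit 51))
 (.p (nat_lit 0x3c683f4502) (nat_lit 0x500020) (nat_lit 4)))
 (.n (.p (nat_lit 0x28d30e0902) (nat_lit 0x40c307) (nat_lit 16))
 (.p (nat_lit 0x5cd31c4902) (nat_lit 0x1a0020000800) (nat_lit 41)))))
 (.n (.n (.n (.p (nat_lit 0x131613141312131010c510c306) (nat_lit 0x180000e500) (nat_lit 52))
 (.p (nat_lit 0x427c3e4d02) (nat_lit 0x440619) (nat_lit 5)))
 (.n (.p (nat_lit 0x128647f702) (nat_lit 0x540405) (nat_lit 29))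
 (.p (nat_lit 0x5cc504d102) (nat_lit 0x280020000000) (nat_lit 40))))
 (.n (.n (.p (nat_lit 0xccf0a0d02) (nat_lit 0x240102) (nat_lit 15))
 (.p (nat_lit 0x36c4389d02) (nat_lit 0x100226) (nat_lit 5)))
 (.n (.p (nat_lit 0x4846446502) (nat_lit 0x44040c) (nat_lit 4))
 (.p (nat_lit 0x1dac5fcb02) (nat_lit 0x9582ec05800300000600) (nat_lit 50))))))
 (.n (.n (.n (.n (.p (nat_lit 0xc460c440c420c3c09d109cf06) (nat_lit 0x30000d0200) (nat_lit 51))
 (.p (nat_lit 0x285544102) (nat_lit 0x240615) (nat_lit 30)))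
 (.n (.p (nat_lit 0x1f1a1f181f141f121687168106) (nat_lit 0x4800092604) (nat_lit 51))
 (.p (nat_lit 0xe559b902) (nat_lit 0x100805) (nat_lit 28))))
 (.n (.n (.p (nat_lit 0x380049005115b3172505) (nat_lit 0x65500401) (nat_lit 9))
 (.p (nat_lit 0x233c233823362334233209ed06) (nat_lit 0x8000056123) (nat_lit 52)))
 (.n (.p (nat_lit 0x2b8e269f02) (nat_lit 0x300908) (nat_lit 4))
 (.p (nat_lit 0x5d815ec102) (nat_lit 0x2c00a0000b00) (nat_lit 37)))))
 (.n (.n (.n (.p (nat_lit 0x1a75179302) (nat_lit 0x42700) (nat_lit 16))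
 (.p (nat_lit 0x16580ed502) (nat_lit 0x40061c) (nat_lit 4)))
 (.n (.p (nat_lit 0x4e884e864e824e804e7e113506) (nat_lit 0x4000010406) (nat_lit 51))
 (.p (nat_lit 0x5d530fdd02) (nat_lit 0x2a0080000400) (nat_lit 38))))
 (.n (.n (.p (nat_lit 0x177817761772177025b925b306) (nat_lit 0x48000d2b02) (nat_lit 52))
 (.p (nat_lit 0x8f208f008ee08ea08e80cb706) (nat_lit 0x20000c222a) (nat_lit 52)))
 (.n (.p (nat_lit 0x1d42097b02) (nat_lit 0x14080e) (nat_lit 5))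
 (.p (nat_lit 0x114e60cd02) (nat_lit 0x3502623b0000400040000) (nat_lit 50))))))

def c512_171 : Tr := .n c1024_171 c1024_683

def c1024_427 : Tr :=
 .n (.n (.n (.n (.n (.n (.p (nat_lit 0x242023e024703) (nat_lit 0x14000500011) (nat_lit 17))
 (.p (nat_lit 0x1140618502) (nat_lit 0x421a86b95000400040000) (nat_lit 49)))
 (.p (nat_lit 0x397c39783976397439720241397b07) (nat_lit 0x440411) (nat_lit 7)))
 (.n (.p (nat_lit 0x17f03ac302) (nat_lit 0x540603) (nat_lit 29))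
 (.p (nat_lit 0x2bce2acb02) (nat_lit 0x50092b) (nat_lit 4))))
 (.n (.n (.p (nat_lit 0x1fa81fa21fa01f9e1d311d2f06) (nat_lit 0xc0000ca900) (nat_lit 51))
 (.p (nat_lit 0x34c6377b02) (nat_lit 0x40001f) (nat_lit 4)))
 (.n (.p (nat_lit 0x7f207f007ec07e80b410b3d06) (nat_lit 0x500008a207) (nat_lit 51))
 (.p (nat_lit 0x5d355e5d02) (nat_lit 0x180060000700) (nat_lit 36)))))
 (.n (.n (.n (.p (nat_lit 0x115c11581156115411520f6506) (nat_lit 0x8000040400) (nat_lit 51))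
 (.p (nat_lit 0x3a68368302) (nat_lit 0x140518) (nat_lit 5)))
 (.n (.p (nat_lit 0xb8e20b102) (nat_lit 0x205) (nat_lit 5))
 (.p (nat_lit 0x3da03d803d403d20423033706) (nat_lit 0x1814224) (nat_lit 26))))
 (.n (.n (.p (nat_lit 0x2f2c5302) (nat_lit 0x240a01) (nat_lit 30))
 (.p (nat_lit 0x2b6c29d902) (nat_lit 0x440824) (nat_lit 4)))
 (.n (.p (nat_lit 0x40183c2702) (nat_lit 0x54030b) (nat_lit 5))
 (.p (nat_lit 0x1db05f8302) (nat_lit 0x581a32b44000300000600) (nat_lit 50))))))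
 (.n (.n (.n (.n (.p (nat_lit 0xa660a640a620a600a5e087106) (nat_lit 0x800000200) (nat_lit 51))
 (.p (nat_lit 0xbbc0bba0bb80bb60bb4138b06) (nat_lit 0x800084515) (nat_lit 51)))
 (.n (.p (nat_lit 0x1274409d02) (nat_lit 0x240404) (nat_lit 29))
 (.p (nat_lit 0x590c590a5908590659020003006407) (nat_lit 0x112b02) (nat_lit 25))))
 (.n (.n (.p (nat_lit 0x273f08ab02) (nat_lit 0x508101) (nat_lit 16))
 (.p (nat_lit 0x12e212e012de12dc074b074906) (nat_lit 0x18000046023) (nat_lit 51)))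
 (.n (.p (nat_lit 0x2418070902) (nat_lit 0x200b07) (nat_lit 4))
 (.p (nat_lit 0x5d975eab02) (nat_lit 0x1600a0000a00) (nat_lit 37)))))
 (.n (.n (.n (.p (nat_lit 0x18ea18e618e418e21629162106) (nat_lit 0x8800016700) (nat_lit 51))
 (.p (nat_lit 0x314033303230d450eab05) (nat_lit 0xad14011c) (nat_lit 9)))
 (.n (.p (nat_lit 0x4b4e4b4c4b4a4b484b464b4406) (nat_lit 0xc6006) (nat_lit 52))
 (.p (nat_lit 0x5e020cad02) (nat_lit 0x6004a300) (nat_lit 47))))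
 (.n (.n (.p (nat_lit 0x12a812a612a212a02325231f06) (nat_lit 0x1200004aa02) (nat_lit 51))
 (.p (nat_lit 0x4525089702) (nat_lit 0x11412a) (nat_lit 16)))
 (.n (.p (nat_lit 0x14d007f102) (nat_lit 0x44050e) (nat_lit 5))
 (.p (nat_lit 0x21da608302) (nat_lit 0x344380a64000400040600) (nat_lit 50))))))

def c1024_939 : Tr :=
 .n (.n (.n (.n (.n (.p (nat_lit 0x6760674067206700657065506) (nat_lit 0x18000046000) (nat_lit 51))
 (.p (nat_lit 0x4e984bb502) (nat_lit 0x100414) (nat_lit 4)))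
 (.n (.p (nat_lit 0x3be325bf02) (nat_lit 0x46b03) (nat_lit 16))
 (.p (nat_lit 0x12c212c012be12ba12b8425506) (nat_lit 0x200008262e) (nat_lit 52))))
 (.n (.n (.p (nat_lit 0x230b1ffb02) (nat_lit 0x44aa00) (nat_lit 16))
 (.p (nat_lit 0x223422322230222e222c441306) (nat_lit 0x2000006021) (nat_lit 52)))
 (.n (.p (nat_lit 0x122a069702) (nat_lit 0x140407) (nat_lit 4))
 (.p (nat_lit 0x5e7c39f502) (nat_lit 0xa0004800) (nat_lit 47)))))
 (.n (.n (.n (.p (nat_lit 0x1523122302) (nat_lit 0x354500) (nat_lit 16))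
 (.p (nat_lit 0x4ea24d0902) (nat_lit 0x41b) (nat_lit 5)))
 (.n (.p (nat_lit 0x195849bd02) (nat_lit 0x705) (nat_lit 29))
 (.p (nat_lit 0x5d3f07a702) (nat_lit 0xe0060000100) (nat_lit 40))))
 (.n (.n (.p (nat_lit 0x63311102) (nat_lit 0x540402) (nat_lit 30))
 (.p (nat_lit 0x3a2428f02) (nat_lit 0x140627) (nat_lit 1)))
 (.n (.p (nat_lit 0x52c652c452c252c052be52bc01e407) (nat_lit 0x4090d) (nat_lit 8))
 (.p (nat_lit 0x1daa600b02) (nat_lit 0x405aa2354800300000600) (nat_lit 49))))))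
 (.n (.n (.n (.n (.p (nat_lit 0xe1b0b3102) (nat_lit 0x10a300) (nat_lit 16))
 (.p (nat_lit 0x549a54985496549454925490028c07) (nat_lit 0xa15) (nat_lit 8)))
 (.n (.p (nat_lit 0x1b521b4e1b4c1b4a1957195306) (nat_lit 0x14000008704) (nat_lit 52))
 (.p (nat_lit 0x1ca01c801c601c401b5014b06) (nat_lit 0x251070c) (nat_lit 26))))
 (.n (.n (.p (nat_lit 0x18f418f218f018ec1c211c1906) (nat_lit 0x11000096801) (nat_lit 51))
 (.p (nat_lit 0x17d8104b02) (nat_lit 0x540623) (nat_lit 4)))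
 (.n (.p (nat_lit 0x332c332a3328332633240185332307) (nat_lit 0xa09) (nat_lit 7))
 (.p (nat_lit 0x2493248b21d921d51f151f0b1c4f1c3b1983197516ad16995efc0d) (nat_lit 0x3a2270350000000040600) (nat_lit 33)))))
 (.n (.n (.n (.p (nat_lit 0x1c491c3d02) (nat_lit 0x140800) (nat_lit 34))
 (.p (nat_lit 0x30d556f02) (nat_lit 0x30091c) (nat_lit 30)))
 (.n (.p (nat_lit 0x50151ac902) (nat_lit 0x44706) (nat_lit 16))
 (.p (nat_lit 0x5e304a5d02) (nat_lit 0x80054500) (nat_lit 48))))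
 (.n (.n (.p (nat_lit 0xb7a1b2102) (nat_lit 0x200203) (nat_lit 5))
 (.p (nat_lit 0x1672166e166c166a1668043d167107) (nat_lit 0x40062a) (nat_lit 7)))
 (.n (.p (nat_lit 0x4c684c664c644c624c60257706) (nat_lit 0x8000ceb0e) (nat_lit 51))
 (.p (nat_lit 0xbb6610f02) (nat_lit 0x3425299b0000200040000) (nat_lit 50))))))

def c512_427 : Tr := .n c1024_427 c1024_939

def c256_171 : Tr := .n c512_171 c512_427

def c128_43 : Tr := .n c256_43 c256_171

def c1024_107 : Tr :=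
 .n (.n (.n (.n (.n (.n (.p (nat_lit 0x6f006b006603) (nat_lit 0x1900002) (nat_lit 19))
 (.p (nat_lit 0x21cc613702) (nat_lit 0x3503a0d64000400040600) (nat_lit 49)))
 (.p (nat_lit 0x2c3027a102) (nat_lit 0xa0f) (nat_lit 4)))
 (.n (.p (nat_lit 0x1112387f02) (nat_lit 0x400403) (nat_lit 29))
 (.p (nat_lit 0x1ed4133902) (nat_lit 0x92a) (nat_lit 5))))
 (.n (.n (.p (nat_lit 0x1d631a6702) (nat_lit 0x546800) (nat_lit 16))
 (.p (nat_lit 0x4e0c4e0a4e084e064e02243b06) (nat_lit 0x1000010b1c) (nat_lit 52)))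
 (.n (.p (nat_lit 0x140013fe13fc13fa13f61d9706) (nat_lit 0x10000ca806) (nat_lit 51))
 (.p (nat_lit 0x5cf15e4102) (nat_lit 0x2c0040000600) (nat_lit 37)))))
 (.n (.n (.n (.p (nat_lit 0xf5f0c9102) (nat_lit 0x140300) (nat_lit 15))
 (.p (nat_lit 0x2aec27d702) (nat_lit 0x440516) (nat_lit 5)))
 (.n (.p (nat_lit 0x20a420a0209e209c209a247d06) (nat_lit 0x8000002b04) (nat_lit 52))
 (.p (nat_lit 0x28a028802860280000501e906) (nat_lit 0x110a015) (nat_lit 26))))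
 (.n (.n (.p (nat_lit 0x11441140113e113c113a1ee906) (nat_lit 0x8000088901) (nat_lit 52))
 (.p (nat_lit 0x1ece108302) (nat_lit 0x300923) (nat_lit 5)))
 (.n (.p (nat_lit 0x385a34ed02) (nat_lit 0x4030a) (nat_lit 4))
 (.p (nat_lit 0x181e5f3502) (nat_lit 0x3a2560c44000100000600) (nat_lit 50))))))
 (.n (.n (.n (.n (.p (nat_lit 0x7ce07ca07c807c607c405c506) (nat_lit 0x8000008100) (nat_lit 52))
 (.p (nat_lit 0x86c086a0868086605d305c906) (nat_lit 0x10800096015) (nat_lit 51)))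
 (.n (.p (nat_lit 0xbf3d8702) (nat_lit 0x540104) (nat_lit 30))
 (.p (nat_lit 0x499c489d02) (nat_lit 0x20062f) (nat_lit 4))))
 (.n (.n (.p (nat_lit 0x22ba248102) (nat_lit 0x40b00) (nat_lit 4))
 (.p (nat_lit 0x24f024ee24ea24e84b8b4b8506) (nat_lit 0x48000c6022) (nat_lit 52)))
 (.n (.p (nat_lit 0x1bd7190d02) (nat_lit 0x400707) (nat_lit 15))
 (.p (nat_lit 0x5e8c21c702) (nat_lit 0x6000e900) (nat_lit 47)))))
 (.n (.n (.n (.p (nat_lit 0x16b4169d02) (nat_lit 0x240600) (nat_lit 4))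
 (.p (nat_lit 0x18121810180e180c180a05df06) (nat_lit 0x1000000e01c) (nat_lit 52)))
 (.n (.p (nat_lit 0x153e153c153a153615341ac106) (nat_lit 0x200004c705) (nat_lit 52))
 (.p (nat_lit 0x5cd35de302) (nat_lit 0x1a0020000200) (nat_lit 36))))
 (.n (.n (.p (nat_lit 0x32b71ef302) (nat_lit 0x308902) (nat_lit 16))
 (.p (nat_lit 0x49f847b702) (nat_lit 0x728) (nat_lit 5)))
 (.n (.p (nat_lit 0xa5a0a580a560a540a5210db06) (nat_lit 0x80000440e) (nat_lit 51))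
 (.p (nat_lit 0x7a6603702) (nat_lit 0x4a9d80b44000100000000) (nat_lit 50))))))

def c1024_619 : Tr :=
 .n (.n (.n (.n (.n (.n (.p (nat_lit 0x3da03d203d003dd04) (nat_lit 0x11800400024) (nat_lit 17))
 (.p (nat_lit 0x180a61b502) (nat_lit 0x322266c15000100000600) (nat_lit 49)))
 (.p (nat_lit 0x410a3da702) (nat_lit 0x540412) (nat_lit 4)))
 (.n (.p (nat_lit 0x23301d0f02) (nat_lit 0x540a03) (nat_lit 5))
 (.p (nat_lit 0x47b586902) (nat_lit 0x40a2c) (nat_lit 30))))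
 (.n (.n (.p (nat_lit 0x210a2108210221001e931e9106) (nat_lit 0x600008aa00) (nat_lit 52))
 (.p (nat_lit 0xeb20eb00eae0eac0eaa3b8f06) (nat_lit 0x800082b1f) (nat_lit 52)))
 (.n (.p (nat_lit 0x13f413f213f013ee13ec0e0106) (nat_lit 0x80008a307) (nat_lit 52))
 (.p (nat_lit 0x5c9b5e6702) (nat_lit 0x220000000800) (nat_lit 36)))))
 (.n (.n (.n (.p (nat_lit 0x12b412b212b012ac10cd10c506) (nat_lit 0x11000002500) (nat_lit 52))
 (.p (nat_lit 0x1f221f201f1e1f1c420d420b06) (nat_lit 0x18000040519) (nat_lit 51)))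
 (.n (.p (nat_lit 0x47630fc502) (nat_lit 0x442305) (nat_lit 16))
 (.p (nat_lit 0x5c9b064102) (nat_lit 0x220000000000) (nat_lit 41))))
 (.n (.n (.p (nat_lit 0x8b019a502) (nat_lit 0x200102) (nat_lit 4))
 (.p (nat_lit 0x1b841b821b801b7c1b7a35c506) (nat_lit 0x200000c126) (nat_lit 51)))
 (.n (.p (nat_lit 0x46f043cb02) (nat_lit 0x50030c) (nat_lit 4))
 (.p (nat_lit 0x18185fc102) (nat_lit 0x8982e955800100000600) (nat_lit 50))))))
 (.n (.n (.n (.n (.p (nat_lit 0xbd40bd00bce0bcc0bca09d506) (nat_lit 0x80000c0200) (nat_lit 52))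
 (.p (nat_lit 0x327d14d902) (nat_lit 0x24e515) (nat_lit 16)))
 (.n (.p (nat_lit 0x79e079c079a07960794168506) (nat_lit 0x2000002604) (nat_lit 52))
 (.p (nat_lit 0x38a599b02) (nat_lit 0x300305) (nat_lit 27))))
 (.n (.n (.p (nat_lit 0xe350e2902) (nat_lit 0x210301) (nat_lit 16))
 (.p (nat_lit 0xa5a0a560a540a520a5009ed06) (nat_lit 0x8000044123) (nat_lit 51)))
 (.n (.p (nat_lit 0x4f192a0102) (nat_lit 0x254408) (nat_lit 16))
 (.p (nat_lit 0x5d735ebf02) (nat_lit 0xa0080000b00) (nat_lit 36)))))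
 (.n (.n (.n (.p (nat_lit 0x1a361a321a301a2e1a2c179b06) (nat_lit 0x8000054700) (nat_lit 51))
 (.p (nat_lit 0x14e814e614e414e203200311030714eb14e109) (nat_lit 0x284051c) (nat_lit 10)))
 (.n (.p (nat_lit 0xfce24ed02) (nat_lit 0x340306) (nat_lit 4))
 (.p (nat_lit 0x5d3f0fdb02) (nat_lit 0xe0060000400) (nat_lit 38))))
 (.n (.n (.p (nat_lit 0x25b218ed02) (nat_lit 0x40b02) (nat_lit 5))
 (.p (nat_lit 0x1f0e1f0c1f0a1f081f040b5506) (nat_lit 0x100009222a) (nat_lit 52)))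
 (.n (.p (nat_lit 0x1bda096d02) (nat_lit 0x80e) (nat_lit 5))
 (.p (nat_lit 0x181460b102) (nat_lit 0x3505223a4000100000600) (nat_lit 49))))))

def c512_107 : Tr := .n c1024_107 c1024_619

def c1024_363 : Tr :=
 .n (.n (.n (.n (.n (.n (.p (nat_lit 0x18a01860184019104) (nat_lit 0x5800400009) (nat_lit 17))
 (.p (nat_lit 0x1db0617502) (nat_lit 0x521a86b11000300000600) (nat_lit 50)))
 (.p (nat_lit 0x38e253b102) (nat_lit 0x200411) (nat_lit 29)))
 (.n (.p (nat_lit 0x1a361a341a321a301a2c167706) (nat_lit 0x1000014603) (nat_lit 51))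
 (.p (nat_lit 0x3d028df02) (nat_lit 0x32b) (nat_lit 1))))
 (.n (.n (.p (nat_lit 0x1d321d301d2e1d2a1d2800051d2d07) (nat_lit 0x240900) (nat_lit 7))
 (.p (nat_lit 0xe9a0e960e940e920e90334f06) (nat_lit 0x8000080a1e) (nat_lit 52)))
 (.n (.p (nat_lit 0x141513102) (nat_lit 0x207) (nat_lit 30))
 (.p (nat_lit 0x5d1d181b02) (nat_lit 0x40000700) (nat_lit 40)))))
 (.n (.n (.n (.p (nat_lit 0x11050dfb02) (nat_lit 0x30e400) (nat_lit 16))
 (.p (nat_lit 0x354436ed02) (nat_lit 0x440018) (nat_lit 4)))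
 (.n (.p (nat_lit 0xe344b502) (nat_lit 0x105) (nat_lit 30))
 (.p (nat_lit 0x3a75bd302) (nat_lit 0x300023) (nat_lit 28))))
 (.n (.n (.p (nat_lit 0x21b22c2f02) (nat_lit 0x500a01) (nat_lit 29))
 (.p (nat_lit 0x15fa15f615f415f215f0273d06) (nat_lit 0x8000012124) (nat_lit 52)))
 (.n (.p (nat_lit 0x1b5527102) (nat_lit 0x40020b) (nat_lit 30))
 (.p (nat_lit 0xbbc5f7502) (nat_lit 0x1aa074b50000200040000) (nat_lit 50))))))
 (.n (.n (.n (.n (.p (nat_lit 0xa1d072502) (nat_lit 0x450100) (nat_lit 16))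
 (.p (nat_lit 0xdc20dc00dbe0dbc0db8124306) (nat_lit 0x10000d2415) (nat_lit 52)))
 (.n (.p (nat_lit 0xfc50fb902) (nat_lit 0x456304) (nat_lit 16))
 (.p (nat_lit 0x62005e005c005a0001018d06) (nat_lit 0x414002) (nat_lit 26))))
 (.n (.n (.p (nat_lit 0x754265102) (nat_lit 0x440001) (nat_lit 29))
 (.p (nat_lit 0x89305eb02) (nat_lit 0x500023) (nat_lit 15)))
 (.n (.p (nat_lit 0x2173216702) (nat_lit 0x304a07) (nat_lit 16))
 (.p (nat_lit 0x5ea2475502) (nat_lit 0x60040a00) (nat_lit 47)))))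
 (.n (.n (.n (.p (nat_lit 0x18961894189218901623162106) (nat_lit 0x1800088700) (nat_lit 52))
 (.p (nat_lit 0xbec0bea0be60be40be2088306) (nat_lit 0x400008811c) (nat_lit 51)))
 (.n (.p (nat_lit 0x1d9f1d9302) (nat_lit 0x54c805) (nat_lit 16))
 (.p (nat_lit 0x5d0f0d1702) (nat_lit 0xe0040000300) (nat_lit 40))))
 (.n (.n (.p (nat_lit 0x231e1a3d02) (nat_lit 0x240a02) (nat_lit 4))
 (.p (nat_lit 0x148089d02) (nat_lit 0x40012a) (nat_lit 1)))
 (.n (.p (nat_lit 0x1388093b02) (nat_lit 0x50050e) (nat_lit 4))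
 (.p (nat_lit 0xe78607502) (nat_lit 0x4688ae154000300040000) (nat_lit 50))))))

def c1024_875 : Tr :=
 .n (.n (.n (.n (.n (.n (.p (nat_lit 0x61d04db02) (nat_lit 0x14000) (nat_lit 16))
 (.p (nat_lit 0x13fc61f102) (nat_lit 0x382a31d05000500040000) (nat_lit 50)))
 (.p (nat_lit 0x7cc07ca07c807c607c449df06) (nat_lit 0x10000008713) (nat_lit 52)))
 (.n (.p (nat_lit 0xe740e720e700e6e0e6c25c906) (nat_lit 0x100000c6b03) (nat_lit 52))
 (.p (nat_lit 0x3f24413902) (nat_lit 0x4022e) (nat_lit 5))))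
 (.n (.n (.p (nat_lit 0x22a0229c229a22961ffb1ff506) (nat_lit 0x90000cea00) (nat_lit 52))
 (.p (nat_lit 0x42de42d842d642d40380036b036942dd42db09) (nat_lit 0x2300720) (nat_lit 10)))
 (.n (.p (nat_lit 0x10d810d610d210d001540147014110d510cf09) (nat_lit 0x1800407) (nat_lit 10))
 (.p (nat_lit 0x5e781ae902) (nat_lit 0x80000800) (nat_lit 46)))))
 (.n (.n (.n (.p (nat_lit 0x14a414a214a0149c149a122106) (nat_lit 0x2000054500) (nat_lit 52))
 (.p (nat_lit 0x498854ed02) (nat_lit 0x40061a) (nat_lit 29)))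
 (.n (.p (nat_lit 0x49a1169502) (nat_lit 0x40a605) (nat_lit 16))
 (.p (nat_lit 0x5ccf079702) (nat_lit 0x1e0020000100) (nat_lit 38))))
 (.n (.n (.p (nat_lit 0x12630fa302) (nat_lit 0x540302) (nat_lit 15))
 (.p (nat_lit 0x1fc01fbe1fbc1fb81fb63df706) (nat_lit 0x20000cc127) (nat_lit 52)))
 (.n (.p (nat_lit 0x26342632262e262c262a500306) (nat_lit 0x400005270d) (nat_lit 51))
 (.p (nat_lit 0x1db05ff702) (nat_lit 0x386a81c35000300000600) (nat_lit 50))))))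
 (.n (.n (.n (.n (.p (nat_lit 0xd700d6e0d6c0d6a0b310b2f06) (nat_lit 0x180000c300) (nat_lit 51))
 (.p (nat_lit 0x1eb0547902) (nat_lit 0x915) (nat_lit 29)))
 (.n (.p (nat_lit 0x42a317fd02) (nat_lit 0x54a604) (nat_lit 16))
 (.p (nat_lit 0x18e018c018801860147019906) (nat_lit 0x1814909) (nat_lit 26))))
 (.n (.n (.p (nat_lit 0x601c1f02) (nat_lit 0x400801) (nat_lit 1))
 (.p (nat_lit 0x374f0ca702) (nat_lit 0x50223) (nat_lit 16)))
 (.n (.p (nat_lit 0x30f22d4702) (nat_lit 0x200409) (nat_lit 4))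
 (.p (nat_lit 0x23465eeb02) (nat_lit 0x4a8876344000500000600) (nat_lit 50)))))
 (.n (.n (.n (.p (nat_lit 0x1bd118fb02) (nat_lit 0x100800) (nat_lit 16))
 (.p (nat_lit 0x1d5a555f02) (nat_lit 0x14081c) (nat_lit 29)))
 (.n (.p (nat_lit 0x1154ff502) (nat_lit 0x140706) (nat_lit 30))
 (.p (nat_lit 0x5d2f12a702) (nat_lit 0x1e0060000500) (nat_lit 40))))
 (.n (.n (.p (nat_lit 0x8d35dd02) (nat_lit 0x340103) (nat_lit 30))
 (.p (nat_lit 0xf880f860f840f820f80043f0f8b07) (nat_lit 0x54032a) (nat_lit 7)))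
 (.n (.p (nat_lit 0x2424085d02) (nat_lit 0x200b0e) (nat_lit 5))
 (.p (nat_lit 0x207660f702) (nat_lit 0x440d663a4000400000600) (nat_lit 50))))))

def c512_363 : Tr := .n c1024_363 c1024_875

def c256_107 : Tr := .n c512_107 c512_363

def c1024_235 : Tr :=
 .n (.n (.n (.n (.n (.n (.p (nat_lit 0xea00e600e400ef04) (nat_lit 0xb000400005) (nat_lit 17))
 (.p (nat_lit 0x13f8615702) (nat_lit 0x1503a8895800500040000) (nat_lit 50)))
 (.p (nat_lit 0x32a6539f02) (nat_lit 0x500910) (nat_lit 29)))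
 (.n (.p (nat_lit 0x39b039ae39ac39aa39a839a606) (nat_lit 0x4503) (nat_lit 52))
 (.p (nat_lit 0x230614ab02) (nat_lit 0x240a2a) (nat_lit 4))))
 (.n (.n (.p (nat_lit 0x1e5a1e581e541e501bc91bc506) (nat_lit 0x500008c900) (nat_lit 51))
 (.p (nat_lit 0x2c0828bd02) (nat_lit 0x44091d) (nat_lit 4)))
 (.n (.p (nat_lit 0x211621122110210e210c1f0106) (nat_lit 0x800000c906) (nat_lit 52))
 (.p (nat_lit 0x5d87154b02) (nat_lit 0x2600a0000600) (nat_lit 40)))))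
 (.n (.n (.n (.p (nat_lit 0x100e100c100a100610040df906) (nat_lit 0x2000002400) (nat_lit 52))
 (.p (nat_lit 0x3280327e327c327a02ca02c702bd3283327909) (nat_lit 0x2840517) (nat_lit 10)))
 (.n (.p (nat_lit 0x22b822b622b422b225cd25cb06) (nat_lit 0x18000d0b04) (nat_lit 52))
 (.p (nat_lit 0x310030e03080306033b000706) (nat_lit 0x130c01c) (nat_lit 26))))
 (.n (.n (.p (nat_lit 0xbb00bae0bac0baa0ba6204906) (nat_lit 0x10000c4901) (nat_lit 52))
 (.p (nat_lit 0x2446572702) (nat_lit 0x100b23) (nat_lit 29)))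
 (.n (.p (nat_lit 0x42633ac702) (nat_lit 0x35460a) (nat_lit 16))
 (.p (nat_lit 0x15345f5902) (nat_lit 0x1a2262350000000000600) (nat_lit 49))))))
 (.n (.n (.n (.n (.p (nat_lit 0x72607240722071c0016000500030721071f09) (nat_lit 0x1140100) (nat_lit 10))
 (.p (nat_lit 0x10f010ee10ec10e802920285028110eb10e709) (nat_lit 0x1000415) (nat_lit 10)))
 (.n (.p (nat_lit 0xc200d900d51dff1f6305) (nat_lit 0x88d40204) (nat_lit 9))
 (.p (nat_lit 0x12ce12cc12ca12c612c450cd06) (nat_lit 0x2000044830) (nat_lit 52))))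
 (.n (.n (.p (nat_lit 0x2568256625642560255e22bf06) (nat_lit 0x20000d2b00) (nat_lit 52))
 (.p (nat_lit 0xdda0dd80dd60dd40dd0505f06) (nat_lit 0x1000094822) (nat_lit 52)))
 (.n (.p (nat_lit 0x1d36056b02) (nat_lit 0x140807) (nat_lit 4))
 (.p (nat_lit 0x5e9446e702) (nat_lit 0xa00) (nat_lit 48)))))
 (.n (.n (.n (.p (nat_lit 0x17841780177e177c177a16b906) (nat_lit 0x8000054600) (nat_lit 52))
 (.p (nat_lit 0x16ae16aa16a816a4073d073706) (nat_lit 0x90000cc01c) (nat_lit 51)))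
 (.n (.p (nat_lit 0x1e5a1e581e561e521e501c2706) (nat_lit 0x200008c805) (nat_lit 51))
 (.p (nat_lit 0x5d575def02) (nat_lit 0x260080000200) (nat_lit 36))))
 (.n (.n (.p (nat_lit 0x21be18d302) (nat_lit 0x500a02) (nat_lit 4))
 (.p (nat_lit 0x4d4a578b02) (nat_lit 0x340229) (nat_lit 29)))
 (.n (.p (nat_lit 0x8f208f008ee08ec08e8123706) (nat_lit 0x10000c240e) (nat_lit 52))
 (.p (nat_lit 0x129c605502) (nat_lit 0x5858b0b44000500000000) (nat_lit 49))))))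

def c1024_747 : Tr :=
 .n (.n (.n (.n (.n (.n (.p (nat_lit 0x4fc04f804f404f204e304df06) (nat_lit 0xa000084000) (nat_lit 52))
 (.p (nat_lit 0xbb661d502) (nat_lit 0x54216ac0c800200040000) (nat_lit 50)))
 (.p (nat_lit 0x42c63ddd02) (nat_lit 0x500712) (nat_lit 5)))
 (.n (.p (nat_lit 0x16a2169e169c16982471246b06) (nat_lit 0x900008cb03) (nat_lit 52))
 (.p (nat_lit 0x3875376502) (nat_lit 0x54022d) (nat_lit 15))))
 (.n (.n (.p (nat_lit 0x21bb1e9302) (nat_lit 0x30ea00) (nat_lit 16))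
 (.p (nat_lit 0x3dea55f102) (nat_lit 0x240120) (nat_lit 29)))
 (.n (.p (nat_lit 0x12aa12a612a412a212a00f7106) (nat_lit 0x800004a307) (nat_lit 51))
 (.p (nat_lit 0x5cef5e6f02) (nat_lit 0x2e0040000800) (nat_lit 36)))))
 (.n (.n (.n (.p (nat_lit 0x13c110c902) (nat_lit 0x310500) (nat_lit 16))
 (.p (nat_lit 0x43803f0902) (nat_lit 0x340b19) (nat_lit 4)))
 (.n (.p (nat_lit 0x1520226b02) (nat_lit 0x240505) (nat_lit 5))
 (.p (nat_lit 0x5d29064702) (nat_lit 0x240060000000) (nat_lit 41))))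
 (.n (.n (.p (nat_lit 0x612f4f02) (nat_lit 0x440202) (nat_lit 30))
 (.p (nat_lit 0x40e840e640e240e03b4d3b4b06) (nat_lit 0x60000cea26) (nat_lit 52)))
 (.n (.p (nat_lit 0x6620660065c065a06584a1f06) (nat_lit 0x400004470c) (nat_lit 51))
 (.p (nat_lit 0x12a65fd502) (nat_lit 0x382c60b44000500000000) (nat_lit 50))))))
 (.n (.n (.n (.n (.p (nat_lit 0xceb09d502) (nat_lit 0x452200) (nat_lit 16))
 (.p (nat_lit 0x2f2c2f2a2f282f262f24191f06) (nat_lit 0x1000016715) (nat_lit 51)))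
 (.n (.p (nat_lit 0x17fa1e5902) (nat_lit 0x440604) (nat_lit 5))
 (.p (nat_lit 0x2e59df02) (nat_lit 0x200706) (nat_lit 27))))
 (.n (.n (.p (nat_lit 0x13a215c102) (nat_lit 0x501) (nat_lit 5))
 (.p (nat_lit 0xb4c0b4a0b480b4603ce03ab03a90b510b4f09) (nat_lit 0x2c00223) (nat_lit 10)))
 (.n (.p (nat_lit 0x2f322d1902) (nat_lit 0x200209) (nat_lit 5))
 (.p (nat_lit 0x1da25ed102) (nat_lit 0x4a1a22344000300000600) (nat_lit 49)))))
 (.n (.n (.n (.p (nat_lit 0x90190302) (nat_lit 0x500800) (nat_lit 1))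
 (.p (nat_lit 0x19300d8702) (nat_lit 0x40071c) (nat_lit 5)))
 (.n (.p (nat_lit 0x4f23128b02) (nat_lit 0x142406) (nat_lit 16))
 (.p (nat_lit 0x5cb9129502) (nat_lit 0x40000000500) (nat_lit 38))))
 (.n (.n (.p (nat_lit 0x76e076c076a076807640089076707) (nat_lit 0x140003) (nat_lit 7))
 (.p (nat_lit 0x21e221e021dc21da21d80cb906) (nat_lit 0x40000d422a) (nat_lit 51)))
 (.n (.p (nat_lit 0x1eac098d02) (nat_lit 0x40090e) (nat_lit 5))
 (.p (nat_lit 0x64860d902) (nat_lit 0x3542623b0000000040000) (nat_lit 50))))))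

def c512_235 : Tr := .n c1024_235 c1024_747

def c1024_491 : Tr :=
 .n (.n (.n (.n (.n (.n (.p (nat_lit 0x2fc02f802f202ff04) (nat_lit 0x1480040001a) (nat_lit 17))
 (.p (nat_lit 0xe7c619902) (nat_lit 0x3422a5c14800300040000) (nat_lit 50)))
 (.p (nat_lit 0x3af8361902) (nat_lit 0x500a11) (nat_lit 4)))
 (.n (.p (nat_lit 0x21c01cf902) (nat_lit 0xa03) (nat_lit 5))
 (.p (nat_lit 0x36d72f4302) (nat_lit 0x41222c) (nat_lit 16))))
 (.n (.n (.p (nat_lit 0x1fe21fe01fde1fdc1fda1d3306) (nat_lit 0x10000056900) (nat_lit 51))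
 (.p (nat_lit 0x2d635bf02) (nat_lit 0x50011f) (nat_lit 1)))
 (.n (.p (nat_lit 0xca2066d02) (nat_lit 0x440207) (nat_lit 5))
 (.p (nat_lit 0x5d69181302) (nat_lit 0x140080000700) (nat_lit 38)))))
 (.n (.n (.n (.p (nat_lit 0x11ca11c811c411c20f670f6106) (nat_lit 0x12000050400) (nat_lit 52))
 (.p (nat_lit 0x2823b8502) (nat_lit 0x100b18) (nat_lit 1)))
 (.n (.p (nat_lit 0xcf6461702) (nat_lit 0x440205) (nat_lit 29))
 (.p (nat_lit 0x3a25c2f02) (nat_lit 0x10032a) (nat_lit 27))))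
 (.n (.n (.p (nat_lit 0x5f8198902) (nat_lit 0x2) (nat_lit 4))
 (.p (nat_lit 0x2e3830c102) (nat_lit 0x300125) (nat_lit 4)))
 (.n (.p (nat_lit 0x425c3ccb02) (nat_lit 0x4060b) (nat_lit 5))
 (.p (nat_lit 0xfd65f9302) (nat_lit 0x580bb0344000400000000) (nat_lit 49))))))
 (.n (.n (.n (.n (.p (nat_lit 0xaae0aac0aa60aa40877087506) (nat_lit 0x600000c200) (nat_lit 51))
 (.p (nat_lit 0x233c233a233623342332139106) (nat_lit 0x4000016515) (nat_lit 52)))
 (.n (.p (nat_lit 0x13cc1f9b02) (nat_lit 0x300504) (nat_lit 5))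
 (.p (nat_lit 0x593a593859365934593203ab009207) (nat_lit 0x516403) (nat_lit 25))))
 (.n (.n (.p (nat_lit 0xb60157d02) (nat_lit 0x100201) (nat_lit 4))
 (.p (nat_lit 0xd100d0e0d0c0d0a0d08088906) (nat_lit 0x800006123) (nat_lit 52)))
 (.n (.p (nat_lit 0x4b5a4b584b544b502571256d06) (nat_lit 0x50000c8b07) (nat_lit 52))
 (.p (nat_lit 0x5ce1248302) (nat_lit 0xc0020000b00) (nat_lit 39)))))
 (.n (.n (.n (.p (nat_lit 0x1955162902) (nat_lit 0x412700) (nat_lit 16))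
 (.p (nat_lit 0x3de709d902) (nat_lit 0x5211c) (nat_lit 16)))
 (.n (.p (nat_lit 0xa3c237302) (nat_lit 0x240106) (nat_lit 4))
 (.p (nat_lit 0x5d910d1d02) (nat_lit 0x1c00a0000300) (nat_lit 40))))
 (.n (.n (.p (nat_lit 0x25bd232502) (nat_lit 0x540a02) (nat_lit 15))
 (.p (nat_lit 0x5140512050e050c050a09f706) (nat_lit 0x40000c612a) (nat_lit 51)))
 (.n (.p (nat_lit 0x494914d302) (nat_lit 0x55450e) (nat_lit 16))
 (.p (nat_lit 0x2336609302) (nat_lit 0x356221ca4000500000600) (nat_lit 49))))))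

def c1024_1003 : Tr :=
 .n (.n (.n (.n (.n (.p (nat_lit 0x71a0718071407120710065306) (nat_lit 0x40000d6000) (nat_lit 52))
 (.p (nat_lit 0x4fe04c5d02) (nat_lit 0x300714) (nat_lit 5)))
 (.n (.p (nat_lit 0x3c63061502) (nat_lit 0x206004) (nat_lit 16))
 (.p (nat_lit 0x48ae48aa48a848a648a4435706) (nat_lit 0x800000eb2e) (nat_lit 52))))
 (.n (.n (.p (nat_lit 0x23842380237e237c237a215d06) (nat_lit 0x8000004b00) (nat_lit 52))
 (.p (nat_lit 0x48cc473102) (nat_lit 0x200521) (nat_lit 5)))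
 (.n (.p (nat_lit 0x1430142c142a14281426123106) (nat_lit 0x80000c4407) (nat_lit 52))
 (.p (nat_lit 0x5cd75e8502) (nat_lit 0x160020000900) (nat_lit 37)))))
 (.n (.n (.n (.p (nat_lit 0x15e215e015de15d81551154f06) (nat_lit 0x3000010600) (nat_lit 52))
 (.p (nat_lit 0x501a4cc902) (nat_lit 0x34071b) (nat_lit 5)))
 (.n (.p (nat_lit 0x16ae16aa16a616a41961195d06) (nat_lit 0xa00008c705) (nat_lit 51))
 (.p (nat_lit 0x5d5507a902) (nat_lit 0x280080000100) (nat_lit 40))))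
 (.n (.n (.p (nat_lit 0x5931f902) (nat_lit 0x40502) (nat_lit 30))
 (.p (nat_lit 0x44b244b044ae44ac44aa040944a907) (nat_lit 0x40028) (nat_lit 7)))
 (.n (.p (nat_lit 0xa6e0a6c0a6a0a680e170e1506) (nat_lit 0x1800008030e) (nat_lit 51))
 (.p (nat_lit 0x4c2601902) (nat_lit 0x46ab80b44000000000000) (nat_lit 49))))))
 (.n (.n (.n (.n (.p (nat_lit 0xc980c960c920c900010000700010c950c8f09) (nat_lit 0x1840300) (nat_lit 10))
 (.p (nat_lit 0x3b05218302) (nat_lit 0x510a15) (nat_lit 16)))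
 (.n (.p (nat_lit 0x1ab01e6902) (nat_lit 0x40704) (nat_lit 5))
 (.p (nat_lit 0x5a825a805a7e5a7c5a78000301f207) (nat_lit 0x10650e) (nat_lit 25))))
 (.n (.n (.p (nat_lit 0x1992198e198c198a19881d8506) (nat_lit 0x8000040801) (nat_lit 52))
 (.p (nat_lit 0x30ec30ea30e830e630e41aa306) (nat_lit 0x10000056723) (nat_lit 52)))
 (.n (.p (nat_lit 0x3385337902) (nat_lit 0x144a09) (nat_lit 16))
 (.p (nat_lit 0x20725f1502) (nat_lit 0x3aa530344000400000600) (nat_lit 49)))))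
 (.n (.n (.n (.p (nat_lit 0x1cae1cac1ca81ca61a631a5d06) (nat_lit 0x48000c6800) (nat_lit 51))
 (.p (nat_lit 0x21840f2d02) (nat_lit 0xa1c) (nat_lit 5)))
 (.n (.p (nat_lit 0x129e129c129a129812961c2f06) (nat_lit 0x80000a806) (nat_lit 52))
 (.p (nat_lit 0x5ca1153502) (nat_lit 0x1c0000000600) (nat_lit 38))))
 (.n (.n (.p (nat_lit 0xce30cd702) (nat_lit 0x54203) (nat_lit 16))
 (.p (nat_lit 0x43757f302) (nat_lit 0x10072a) (nat_lit 30)))
 (.n (.p (nat_lit 0x2ada276d02) (nat_lit 0x14050f) (nat_lit 4))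
 (.p (nat_lit 0x1c42611b02) (nat_lit 0x350522264000200040600) (nat_lit 49))))))

def c512_491 : Tr := .n c1024_491 c1024_1003

def c256_235 : Tr := .n c512_235 c512_491

def c128_107 : Tr := .n c256_107 c256_235

def c64_43 : Tr := .n c128_43 c128_107

def c32_11 : Tr := .n c64_11 c64_43

def c1024_27 : Tr :=
 .n (.n (.n (.n (.n (.n (.p (nat_lit 0x2e002c002a003704) (nat_lit 0x3800400001) (nat_lit 17))
 (.p (nat_lit 0x634612b02) (nat_lit 0x35486a3b0000000040000) (nat_lit 49)))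
 (.p (nat_lit 0x218021b021f277d270b05) (nat_lit 0x82b0080f) (nat_lit 9)))
 (.n (.p (nat_lit 0xfae0fac0faa0fa80fa600870fa507) (nat_lit 0x40303) (nat_lit 7))
 (.p (nat_lit 0x43757ff02) (nat_lit 0x14072a) (nat_lit 30))))
 (.n (.n (.p (nat_lit 0x1cf41cf21cf01cee1cec1a6706) (nat_lit 0x100000cc800) (nat_lit 52))
 (.p (nat_lit 0x334d218b02) (nat_lit 0x30ea1c) (nat_lit 16)))
 (.n (.p (nat_lit 0x504d1c3702) (nat_lit 0x402806) (nat_lit 16))
 (.p (nat_lit 0x5ce116a702) (nat_lit 0xc0020000600) (nat_lit 41)))))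
 (.n (.n (.n (.p (nat_lit 0xeb20eae0eac0eaa0c970c8f06) (nat_lit 0x88000c2300) (nat_lit 52))
 (.p (nat_lit 0x24320b1f02) (nat_lit 0x300b15) (nat_lit 5)))
 (.n (.p (nat_lit 0x1cf61cf41cf21cf01cee1ab106) (nat_lit 0x8000cc704) (nat_lit 52))
 (.p (nat_lit 0x2725ab302) (nat_lit 0x500b0e) (nat_lit 27))))
 (.n (.n (.p (nat_lit 0x2b511d8302) (nat_lit 0x340801) (nat_lit 16))
 (.p (nat_lit 0x1ecb1c0102) (nat_lit 0x100823) (nat_lit 15)))
 (.n (.p (nat_lit 0x36ba344302) (nat_lit 0x20020a) (nat_lit 4))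
 (.p (nat_lit 0x20725f1d02) (nat_lit 0x3a2274350000400000600) (nat_lit 49))))))
 (.n (.n (.n (.n (.p (nat_lit 0x779065502) (nat_lit 0x452000) (nat_lit 16))
 (.p (nat_lit 0x509a4bf702) (nat_lit 0x140814) (nat_lit 4)))
 (.n (.p (nat_lit 0x3cea3ce63ce43ce23ce0077906) (nat_lit 0x8000056004) (nat_lit 52))
 (.p (nat_lit 0x460c460a46064604460204b1460907) (nat_lit 0x30022f) (nat_lit 7))))
 (.n (.n (.p (nat_lit 0x23fa23f823f223f0215b215906) (nat_lit 0x6000090b00) (nat_lit 51))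
 (.p (nat_lit 0xd4c0d4a0d480d460d4249ef06) (nat_lit 0x1000082721) (nat_lit 51)))
 (.n (.p (nat_lit 0x1641163502) (nat_lit 0x404607) (nat_lit 16))
 (.p (nat_lit 0x5d131f0902) (nat_lit 0xa0040000900) (nat_lit 39)))))
 (.n (.n (.n (.p (nat_lit 0x1612160e160c160a1555154d06) (nat_lit 0x8800014600) (nat_lit 51))
 (.p (nat_lit 0x5d60d2102) (nat_lit 0x10001c) (nat_lit 4)))
 (.n (.p (nat_lit 0x196d196102) (nat_lit 0x40c705) (nat_lit 16))
 (.p (nat_lit 0x5dda3b8102) (nat_lit 0xa0010100) (nat_lit 48))))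
 (.n (.n (.p (nat_lit 0x328e328c328a328832863284006407) (nat_lit 0x902) (nat_lit 8))
 (.p (nat_lit 0x227c227a227622742272451d06) (nat_lit 0x400000c128) (nat_lit 51)))
 (.n (.p (nat_lit 0xf7c091502) (nat_lit 0x44030e) (nat_lit 5))
 (.p (nat_lit 0x13fe602102) (nat_lit 0x406a6252d000500040000) (nat_lit 50))))))

def c1024_539 : Tr :=
 .n (.n (.n (.n (.n (.n (.p (nat_lit 0x3330331031403) (nat_lit 0x62c0001c) (nat_lit 19))
 (.p (nat_lit 0x207661a102) (nat_lit 0x3222a5c15000400000600) (nat_lit 50)))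
 (.p (nat_lit 0x3bd0362d02) (nat_lit 0x340b11) (nat_lit 4)))
 (.n (.p (nat_lit 0x1e341e321e301e2e21cb21c106) (nat_lit 0x1080000aa03) (nat_lit 52))
 (.p (nat_lit 0x30a4323102) (nat_lit 0x14032c) (nat_lit 4))))
 (.n (.n (.p (nat_lit 0x203f1d2d02) (nat_lit 0x24a900) (nat_lit 16))
 (.p (nat_lit 0x34c93a0102) (nat_lit 0x50051f) (nat_lit 15)))
 (.n (.p (nat_lit 0xcb90ca102) (nat_lit 0x348207) (nat_lit 16))
 (.p (nat_lit 0x5dab5e6302) (nat_lit 0x200a0000700) (nat_lit 37)))))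
 (.n (.n (.n (.p (nat_lit 0x12550f6502) (nat_lit 0x44c400) (nat_lit 16))
 (.p (nat_lit 0x3d2e3d2c3d283d263d243c5b06) (nat_lit 0x4000088019) (nat_lit 51)))
 (.n (.p (nat_lit 0x38a0e5b02) (nat_lit 0x300305) (nat_lit 1))
 (.p (nat_lit 0x4ae5c6902) (nat_lit 0x200a2a) (nat_lit 27))))
 (.n (.n (.p (nat_lit 0x66007f006b182f199505) (nat_lit 0x88840002) (nat_lit 9))
 (.p (nat_lit 0x32b8314702) (nat_lit 0x400925) (nat_lit 4)))
 (.n (.p (nat_lit 0x34f434f234f034ee34ec42bb06) (nat_lit 0x1000008670b) (nat_lit 52))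
 (.p (nat_lit 0xd185f9d02) (nat_lit 0x568bb0344000300000000) (nat_lit 50))))))
 (.n (.n (.n (.n (.p (nat_lit 0xb57087502) (nat_lit 0x20a200) (nat_lit 16))
 (.p (nat_lit 0x7aa07a807a407a207a014db06) (nat_lit 0x4000042515) (nat_lit 51)))
 (.n (.p (nat_lit 0x15101f9f02) (nat_lit 0x40504) (nat_lit 5))
 (.p (nat_lit 0xbe00bc00ba00b80003036306) (nat_lit 0x80c304) (nat_lit 26))))
 (.n (.n (.p (nat_lit 0xcc80cc60cc40cc20cc0002b0cbf07) (nat_lit 0x40201) (nat_lit 7))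
 (.p (nat_lit 0x1f0e1f0c1f0a1f081f06088906) (nat_lit 0x800092123) (nat_lit 52)))
 (.n (.p (nat_lit 0x4cfb281702) (nat_lit 0x514208) (nat_lit 16))
 (.p (nat_lit 0x5d01248502) (nat_lit 0x1c0040000b00) (nat_lit 39)))))
 (.n (.n (.n (.p (nat_lit 0x1986197a179d03) (nat_lit 0x540700) (nat_lit 6))
 (.p (nat_lit 0x100e100c100a10081006139706) (nat_lit 0x80000251c) (nat_lit 52)))
 (.n (.p (nat_lit 0xb9c4c9502) (nat_lit 0x100206) (nat_lit 29))
 (.p (nat_lit 0x5e0a3bef02) (nat_lit 0x50400) (nat_lit 48))))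
 (.n (.n (.p (nat_lit 0x24641a4d02) (nat_lit 0x400b02) (nat_lit 4))
 (.p (nat_lit 0xb58142102) (nat_lit 0x30022a) (nat_lit 5)))
 (.n (.p (nat_lit 0x164f164302) (nat_lit 0x50660e) (nat_lit 16))
 (.p (nat_lit 0x2078609d02) (nat_lit 0x346068ca4000400000600) (nat_lit 50))))))

def c512_27 : Tr := .n c1024_27 c1024_539

def c1024_283 : Tr :=
 .n (.n (.n (.n (.n (.n (.p (nat_lit 0x11c01140112011f04) (nat_lit 0x11800400006) (nat_lit 17))
 (.p (nat_lit 0x2484616102) (nat_lit 0x3503a8d84000500040600) (nat_lit 49)))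
 (.p (nat_lit 0x338a2e9f02) (nat_lit 0x440a10) (nat_lit 4)))
 (.n (.p (nat_lit 0x3a383a343a323a303a2e150d06) (nat_lit 0x80000c4503) (nat_lit 52))
 (.p (nat_lit 0x25a6584502) (nat_lit 0x40b2a) (nat_lit 29))))
 (.n (.n (.p (nat_lit 0x1e8a1e881e841e821bc91bc306) (nat_lit 0x4800096900) (nat_lit 52))
 (.p (nat_lit 0x2da02fcd02) (nat_lit 0x24001e) (nat_lit 5)))
 (.n (.p (nat_lit 0x2068206620642062205e0115206107) (nat_lit 0x140906) (nat_lit 7))
 (.p (nat_lit 0x5c97180b02) (nat_lit 0x260000000700) (nat_lit 38)))))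
 (.n (.n (.n (.p (nat_lit 0x10561054105210500df70df506) (nat_lit 0x180000e400) (nat_lit 51))
 (.p (nat_lit 0x33442f1702) (nat_lit 0x500a17) (nat_lit 4)))
 (.n (.p (nat_lit 0x62621ef02) (nat_lit 0x500005) (nat_lit 5))
 (.p (nat_lit 0x33f5bab02) (nat_lit 0x40051d) (nat_lit 28))))
 (.n (.n (.p (nat_lit 0x1daa1da81da61da41da0204906) (nat_lit 0x1000052901) (nat_lit 52))
 (.p (nat_lit 0x3ba1244b02) (nat_lit 0x310b23) (nat_lit 16)))
 (.n (.p (nat_lit 0x3b74352f02) (nat_lit 0x500b0a) (nat_lit 4))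
 (.p (nat_lit 0x4d05f6102) (nat_lit 0x3aa570344000000000000) (nat_lit 50))))))
 (.n (.n (.n (.n (.p (nat_lit 0x9380934093209300727072306) (nat_lit 0x1400004a100) (nat_lit 52))
 (.p (nat_lit 0x139110ed02) (nat_lit 0x300415) (nat_lit 15)))
 (.n (.p (nat_lit 0xe4a1e0102) (nat_lit 0x100304) (nat_lit 5))
 (.p (nat_lit 0x3d658af02) (nat_lit 0x300401) (nat_lit 27))))
 (.n (.n (.p (nat_lit 0x25b122c502) (nat_lit 0x54ab00) (nat_lit 16))
 (.p (nat_lit 0x5e00fed02) (nat_lit 0x23) (nat_lit 4)))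
 (.n (.p (nat_lit 0x1b61ea302) (nat_lit 0x500907) (nat_lit 1))
 (.p (nat_lit 0x5ccf21db02) (nat_lit 0x1e0020000a00) (nat_lit 41)))))
 (.n (.n (.n (.p (nat_lit 0x17df16b502) (nat_lit 0x24a600) (nat_lit 16))
 (.p (nat_lit 0x9d9073502) (nat_lit 0x4001c) (nat_lit 15)))
 (.n (.p (nat_lit 0x1d921d901d8c1d8a1d8800e91d8f07) (nat_lit 0x340805) (nat_lit 7))
 (.p (nat_lit 0x5df00e1702) (nat_lit 0xa0000200) (nat_lit 47))))
 (.n (.n (.p (nat_lit 0x13f413f013ee13ec13ea21bd06) (nat_lit 0x800008aa02) (nat_lit 52))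
 (.p (nat_lit 0x115c1158115611541152507106) (nat_lit 0x8000000829) (nat_lit 51)))
 (.n (.p (nat_lit 0x1c441c401c3e1c3c1c3a123d06) (nat_lit 0x80000d040e) (nat_lit 52))
 (.p (nat_lit 0x1148606102) (nat_lit 0x85ab0335000400040000) (nat_lit 50))))))

def c1024_795 : Tr :=
 .n (.n (.n (.n (.n (.n (.p (nat_lit 0x52c052805260524052204e306) (nat_lit 0x8000088000) (nat_lit 51))
 (.p (nat_lit 0x1f0e61df02) (nat_lit 0x3508a5d84000300040600) (nat_lit 49)))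
 (.p (nat_lit 0x47dc44c502) (nat_lit 0x200413) (nat_lit 4)))
 (.n (.p (nat_lit 0x3b71246f02) (nat_lit 0x300b03) (nat_lit 16))
 (.p (nat_lit 0x3ba83a5102) (nat_lit 0x100b2d) (nat_lit 5))))
 (.n (.n (.p (nat_lit 0x1ffc1ff81ff61ff2001a000900031ffb1ff509) (nat_lit 0x2140a00) (nat_lit 10))
 (.p (nat_lit 0x423c3f6102) (nat_lit 0x200620) (nat_lit 5)))
 (.n (.p (nat_lit 0x2348234623422340233e0f6f06) (nat_lit 0x4000056307) (nat_lit 51))
 (.p (nat_lit 0x5e721adb02) (nat_lit 0x60000800) (nat_lit 45)))))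
 (.n (.n (.n (.p (nat_lit 0x140c140a140614021223121f06) (nat_lit 0x5000042500) (nat_lit 51))
 (.p (nat_lit 0x485c463502) (nat_lit 0x34041a) (nat_lit 5)))
 (.n (.p (nat_lit 0x168e227502) (nat_lit 0x100605) (nat_lit 5))
 (.p (nat_lit 0x5da5064b02) (nat_lit 0x800a0000000) (nat_lit 41))))
 (.n (.n (.p (nat_lit 0xe362fb702) (nat_lit 0x300302) (nat_lit 29))
 (.p (nat_lit 0x3bf4396102) (nat_lit 0x340b26) (nat_lit 5)))
 (.n (.p (nat_lit 0x1e152a102) (nat_lit 0x40030d) (nat_lit 30))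
 (.p (nat_lit 0x180c5fe502) (nat_lit 0x3062a1c35000100000600) (nat_lit 49))))))
 (.n (.n (.n (.n (.p (nat_lit 0xb360b340b320b2e001c000b00030b390b3109) (nat_lit 0x2900300) (nat_lit 10))
 (.p (nat_lit 0x1d511a8502) (nat_lit 0x240715) (nat_lit 15)))
 (.n (.p (nat_lit 0xfde0fdc0fda0fd80fd417f506) (nat_lit 0x1000048604) (nat_lit 52))
 (.p (nat_lit 0x14801460142014001a3000506) (nat_lit 0x2a10307) (nat_lit 26))))
 (.n (.n (.p (nat_lit 0x14ee174102) (nat_lit 0x140501) (nat_lit 4))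
 (.p (nat_lit 0x3ae03c103bb1029118f05) (nat_lit 0x86840223) (nat_lit 9)))
 (.n (.p (nat_lit 0x374b2f9502) (nat_lit 0x452209) (nat_lit 16))
 (.p (nat_lit 0xd0e5ed902) (nat_lit 0x4a0d84344000300000000) (nat_lit 49)))))
 (.n (.n (.n (.p (nat_lit 0x1b601b5e1b581b5618ff18fd06) (nat_lit 0x6000088800) (nat_lit 52))
 (.p (nat_lit 0x1a960efb02) (nat_lit 0x54071c) (nat_lit 4)))
 (.n (.p (nat_lit 0x4fce4fcc4fca4fc84fc64fc4011e07) (nat_lit 0x706) (nat_lit 8))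
 (.p (nat_lit 0x5cd35e2902) (nat_lit 0x1a0020000500) (nat_lit 37))))
 (.n (.n (.p (nat_lit 0x777076b02) (nat_lit 0x354003) (nat_lit 16))
 (.p (nat_lit 0xe20143b02) (nat_lit 0x40032a) (nat_lit 4)))
 (.n (.p (nat_lit 0x3d443d423d3e3d3a2011200d06) (nat_lit 0x500004c90e) (nat_lit 51))
 (.p (nat_lit 0x12a912990fe10fd70d1d0d0d0a550a4d07a7079f04d104c360e40d) (nat_lit 0x440d6a3a4000000000000) (nat_lit 33))))))

def c512_283 : Tr := .n c1024_283 c1024_795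

def c256_27 : Tr := .n c512_27 c512_283

def c1024_155 : Tr :=
 .n (.n (.n (.n (.n (.n (.p (nat_lit 0x8e008c009503) (nat_lit 0xc000500003) (nat_lit 17))
 (.p (nat_lit 0xbac614902) (nat_lit 0x350221d84000200040000) (nat_lit 49)))
 (.p (nat_lit 0x1a4e1a4c1a4a1a461a4430ff06) (nat_lit 0x2000016410) (nat_lit 52)))
 (.n (.p (nat_lit 0x12681b5b02) (nat_lit 0x240403) (nat_lit 4))
 (.p (nat_lit 0x2040134902) (nat_lit 0x34092a) (nat_lit 5))))
 (.n (.n (.p (nat_lit 0x1bca1db502) (nat_lit 0x400900) (nat_lit 5))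
 (.p (nat_lit 0x3beb259702) (nat_lit 0x450b1c) (nat_lit 16)))
 (.n (.p (nat_lit 0x2348234623442342233e1d9706) (nat_lit 0x1000056806) (nat_lit 51))
 (.p (nat_lit 0x5d29169f02) (nat_lit 0x240060000600) (nat_lit 39)))))
 (.n (.n (.n (.p (nat_lit 0xfc30c9502) (nat_lit 0x354300) (nat_lit 16))
 (.p (nat_lit 0xbc80bc60bc40bc00bbe2ba506) (nat_lit 0x2000000916) (nat_lit 52)))
 (.n (.p (nat_lit 0x25ca1e8102) (nat_lit 0x40b04) (nat_lit 4))
 (.p (nat_lit 0x5b2e5b2c5b2a5b285b260259028c07) (nat_lit 0x500915) (nat_lit 25))))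
 (.n (.n (.p (nat_lit 0x21ab1ee302) (nat_lit 0x100901) (nat_lit 15))
 (.p (nat_lit 0x4030402e402a40284026203506) (nat_lit 0x4000042923) (nat_lit 52)))
 (.n (.p (nat_lit 0x38da523502) (nat_lit 0x40040a) (nat_lit 29))
 (.p (nat_lit 0xbb25f3d02) (nat_lit 0x3a2560c64000200040000) (nat_lit 50))))))
 (.n (.n (.n (.n (.p (nat_lit 0x86e086a0868086605c505bd06) (nat_lit 0x8800096100) (nat_lit 51))
 (.p (nat_lit 0x90a090809040900072f072b06) (nat_lit 0x5000046015) (nat_lit 51)))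
 (.n (.p (nat_lit 0xb881f5302) (nat_lit 0x300204) (nat_lit 4))
 (.p (nat_lit 0x4a5a48b702) (nat_lit 0x34072f) (nat_lit 4))))
 (.n (.n (.p (nat_lit 0x24c224c024be24bc22c522c306) (nat_lit 0x180000c2b00) (nat_lit 51))
 (.p (nat_lit 0x566e566c566a566856665664039e07) (nat_lit 0x40522) (nat_lit 8)))
 (.n (.p (nat_lit 0x1aad1a7102) (nat_lit 0x448707) (nat_lit 16))
 (.p (nat_lit 0x5e8e401702) (nat_lit 0x80040900) (nat_lit 47)))))
 (.n (.n (.n (.p (nat_lit 0x170c170a1704170216b716b506) (nat_lit 0x6000046600) (nat_lit 51))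
 (.p (nat_lit 0x5eb05df02) (nat_lit 0x50a01c) (nat_lit 16)))
 (.n (.p (nat_lit 0x1d8b1abf02) (nat_lit 0x140705) (nat_lit 15))
 (.p (nat_lit 0x5de40e1102) (nat_lit 0x40000200) (nat_lit 47))))
 (.n (.n (.p (nat_lit 0x1c8c1c8a1c881c861c82205506) (nat_lit 0x1000044902) (nat_lit 52))
 (.p (nat_lit 0x4b9a4ec502) (nat_lit 0x540029) (nat_lit 5)))
 (.n (.p (nat_lit 0x198419821980197e197c10e506) (nat_lit 0x1000008e40e) (nat_lit 51))
 (.p (nat_lit 0xbae604302) (nat_lit 0x40a96254c800200040000) (nat_lit 49))))))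

def c1024_667 : Tr :=
 .n (.n (.n (.n (.n (.n (.p (nat_lit 0x45d0459044203) (nat_lit 0x42b0002a) (nat_lit 19))
 (.p (nat_lit 0x12a712970fe10fdd0d150d110a550a4b07a9079504d904c761c00d) (nat_lit 0x3221a9c15000000000000) (nat_lit 33)))
 (.p (nat_lit 0x41f83db302) (nat_lit 0x140512) (nat_lit 4)))
 (.n (.p (nat_lit 0x246a1bad02) (nat_lit 0x100b03) (nat_lit 4))
 (.p (nat_lit 0x364e399f02) (nat_lit 0x24012d) (nat_lit 4))))
 (.n (.n (.p (nat_lit 0x21362134213221301e971e9506) (nat_lit 0x1800008ea00) (nat_lit 51))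
 (.p (nat_lit 0xd640d620d5e0d5c0d5a3be906) (nat_lit 0x40000cab1f) (nat_lit 52)))
 (.n (.p (nat_lit 0x10d10e0302) (nat_lit 0x100307) (nat_lit 15))
 (.p (nat_lit 0x5cdd1ae302) (nat_lit 0x100020000800) (nat_lit 40)))))
 (.n (.n (.n (.p (nat_lit 0x12f212f012ee12ec12ea12e806) (nat_lit 0x86500) (nat_lit 51))
 (.p (nat_lit 0xaa00a9e0a9c0a9a0a98423706) (nat_lit 0x1000008a619) (nat_lit 51)))
 (.n (.p (nat_lit 0x127e225102) (nat_lit 0x140405) (nat_lit 4))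
 (.p (nat_lit 0x5cd55db502) (nat_lit 0x180020000000) (nat_lit 36))))
 (.n (.n (.p (nat_lit 0xa1219b702) (nat_lit 0x540102) (nat_lit 4))
 (.p (nat_lit 0x1d261d241d221d201d1e363f06) (nat_lit 0x8000d6126) (nat_lit 52)))
 (.n (.p (nat_lit 0x47ce445502) (nat_lit 0x10040c) (nat_lit 4))
 (.p (nat_lit 0x181e5fc902) (nat_lit 0x9582ec15800100000600) (nat_lit 50))))))
 (.n (.n (.n (.n (.p (nat_lit 0xc040c020bfe0bfc0bfa09d306) (nat_lit 0x40000ca200) (nat_lit 52))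
 (.p (nat_lit 0x3aa9164b02) (nat_lit 0x310615) (nat_lit 16)))
 (.n (.p (nat_lit 0x18141812180e180c180a168706) (nat_lit 0x400000e604) (nat_lit 52))
 (.p (nat_lit 0x59b459b059ae59ac59aa000900ee07) (nat_lit 0x410605) (nat_lit 25))))
 (.n (.n (.p (nat_lit 0x10f6293f02) (nat_lit 0x200401) (nat_lit 29))
 (.p (nat_lit 0x1db61db41db21db01dae09e506) (nat_lit 0x800052123) (nat_lit 51)))
 (.n (.p (nat_lit 0x2cdc2cda2cd82cd62cd22b4d06) (nat_lit 0x10000d4808) (nat_lit 51))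
 (.p (nat_lit 0x5ebc231702) (nat_lit 0x8004eb00) (nat_lit 47)))))
 (.n (.n (.n (.p (nat_lit 0x1a5a1a541a521a50179b179906) (nat_lit 0xc0000d6700) (nat_lit 52))
 (.p (nat_lit 0x3a7b14e902) (nat_lit 0x45051c) (nat_lit 16)))
 (.n (.p (nat_lit 0x11344e3902) (nat_lit 0x300406) (nat_lit 29))
 (.p (nat_lit 0x5d655e1d02) (nat_lit 0x180080000400) (nat_lit 37))))
 (.n (.n (.p (nat_lit 0x1754174e174c174a25bb25b906) (nat_lit 0xc000050b02) (nat_lit 51))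
 (.p (nat_lit 0xcba57bd02) (nat_lit 0x44022a) (nat_lit 29)))
 (.n (.p (nat_lit 0x1bef1be302) (nat_lit 0x40680e) (nat_lit 16))
 (.p (nat_lit 0xbae60cb02) (nat_lit 0x3505623a4000200040000) (nat_lit 49))))))

def c512_155 : Tr := .n c1024_155 c1024_667

def c1024_411 : Tr :=
 .n (.n (.n (.n (.n (.n (.p (nat_lit 0x214020c020a021704) (nat_lit 0x1180040000f) (nat_lit 17))
 (.p (nat_lit 0xbb0618302) (nat_lit 0x421a86b15000200040000) (nat_lit 49)))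
 (.p (nat_lit 0x3972358102) (nat_lit 0x40411) (nat_lit 5)))
 (.n (.p (nat_lit 0x17f017ee17ea17e817e6008d17ed07) (nat_lit 0x340603) (nat_lit 7))
 (.p (nat_lit 0x50d32b7b02) (nat_lit 0x55482b) (nat_lit 16))))
 (.n (.n (.p (nat_lit 0x1f7a1f781f761f741f701d2b06) (nat_lit 0x10000c6900) (nat_lit 52))
 (.p (nat_lit 0x33f6308902) (nat_lit 0x500b1e) (nat_lit 5)))
 (.n (.p (nat_lit 0x7ce07cc07ca07c807c40b3d06) (nat_lit 0x1000008207) (nat_lit 52))
 (.p (nat_lit 0x5d415e5b02) (nat_lit 0xc0060000700) (nat_lit 37)))))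
 (.n (.n (.n (.p (nat_lit 0xf66114502) (nat_lit 0x540400) (nat_lit 4))
 (.p (nat_lit 0x1cc61cc41cc21cbe1cbc39ef06) (nat_lit 0x2000088518) (nat_lit 51)))
 (.n (.p (nat_lit 0x455c455a4558455645540a2d06) (nat_lit 0x8000ca105) (nat_lit 52))
 (.p (nat_lit 0x3ab5bed02) (nat_lit 0x500b23) (nat_lit 28))))
 (.n (.n (.p (nat_lit 0x230e2c4f02) (nat_lit 0x40a01) (nat_lit 29))
 (.p (nat_lit 0x287a297102) (nat_lit 0x440224) (nat_lit 5)))
 (.n (.p (nat_lit 0x1e8a1e861e841e821e803f9906) (nat_lit 0x800009630b) (nat_lit 52))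
 (.p (nat_lit 0x181c5f8102) (nat_lit 0x581a22b44000100000600) (nat_lit 50))))))
 (.n (.n (.n (.n (.p (nat_lit 0x8780a5902) (nat_lit 0x400200) (nat_lit 5))
 (.p (nat_lit 0x4c804c604c404c21395139306) (nat_lit 0x18000000515) (nat_lit 52)))
 (.n (.p (nat_lit 0x1129111d02) (nat_lit 0x316404) (nat_lit 16))
 (.p (nat_lit 0x620060005c00580031000306) (nat_lit 0x1916a02) (nat_lit 26))))
 (.n (.n (.p (nat_lit 0x8a816db02) (nat_lit 0x400101) (nat_lit 5))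
 (.p (nat_lit 0x1418141614141410140e074506) (nat_lit 0x20000c2023) (nat_lit 51)))
 (.n (.p (nat_lit 0x22dd22d102) (nat_lit 0x544a07) (nat_lit 16))
 (.p (nat_lit 0x5ea6441702) (nat_lit 0x80006a00) (nat_lit 47)))))
 (.n (.n (.n (.p (nat_lit 0x18de18dc18da18d818d6162106) (nat_lit 0x800094700) (nat_lit 51))
 (.p (nat_lit 0x4c03087f02) (nat_lit 0x11611c) (nat_lit 16)))
 (.n (.p (nat_lit 0x78c4b3502) (nat_lit 0x240006) (nat_lit 29))
 (.p (nat_lit 0x5d2b0d0d02) (nat_lit 0x220060000300) (nat_lit 38))))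
 (.n (.n (.p (nat_lit 0xd0e0d0c0d0a0d080d06232506) (nat_lit 0x10000046a02) (nat_lit 52))
 (.p (nat_lit 0x52a052605240522089f089b06) (nat_lit 0x1400008812a) (nat_lit 51)))
 (.n (.p (nat_lit 0x14d214d014ce14cc14c801e914cb07) (nat_lit 0x14050e) (nat_lit 7))
 (.p (nat_lit 0x1ae0608102) (nat_lit 0x354221ca4000200000600) (nat_lit 50))))))

def c1024_923 : Tr :=
 .n (.n (.n (.n (.n (.p (nat_lit 0x66e066c066a06640651064f06) (nat_lit 0x30000c4000) (nat_lit 51))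
 (.p (nat_lit 0x4e284c3902) (nat_lit 0x140314) (nat_lit 5)))
 (.n (.p (nat_lit 0x233c233a23382334233225c306) (nat_lit 0x2000056b03) (nat_lit 52))
 (.p (nat_lit 0x425a425842564254425204a3425107) (nat_lit 0x62e) (nat_lit 7))))
 (.n (.n (.p (nat_lit 0x22e91ffd02) (nat_lit 0x544a00) (nat_lit 16))
 (.p (nat_lit 0xe2440f02) (nat_lit 0x21) (nat_lit 1)))
 (.n (.p (nat_lit 0x38d910d502) (nat_lit 0x310407) (nat_lit 16))
 (.p (nat_lit 0x5d891adf02) (nat_lit 0x2400a0000800) (nat_lit 38)))))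
 (.n (.n (.n (.p (nat_lit 0x1501122502) (nat_lit 0x44e500) (nat_lit 16))
 (.p (nat_lit 0x4a9645ed02) (nat_lit 0x4081a) (nat_lit 4)))
 (.n (.p (nat_lit 0x24062404240023fe23fc180506) (nat_lit 0x4000052605) (nat_lit 51))
 (.p (nat_lit 0x5dcc072d02) (nat_lit 0x40046100) (nat_lit 47))))
 (.n (.n (.p (nat_lit 0x125a19f302) (nat_lit 0x140402) (nat_lit 5))
 (.p (nat_lit 0x424e40c702) (nat_lit 0x500627) (nat_lit 5)))
 (.n (.p (nat_lit 0x5125508d02) (nat_lit 0x4080d) (nat_lit 15))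
 (.p (nat_lit 0xe76600102) (nat_lit 0x405aa2354800300040000) (nat_lit 49))))))
 (.n (.n (.n (.n (.p (nat_lit 0xdfb0b3502) (nat_lit 0x300300) (nat_lit 15))
 (.p (nat_lit 0x201e0c5d02) (nat_lit 0x440915) (nat_lit 5)))
 (.n (.p (nat_lit 0x19541952194e194c00da00bf00b91957195109) (nat_lit 0x2a00704) (nat_lit 10))
 (.p (nat_lit 0x1b601b201b001ae04a300bd06) (nat_lit 0x40830b) (nat_lit 26))))
 (.n (.n (.p (nat_lit 0x18d218ce18cc18ca18c81c1f06) (nat_lit 0x8000014801) (nat_lit 52))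
 (.p (nat_lit 0x56da56d856d656d456d256d003ac07) (nat_lit 0x40623) (nat_lit 8)))
 (.n (.p (nat_lit 0x352e352c352a35283526329106) (nat_lit 0x800016909) (nat_lit 52))
 (.p (nat_lit 0x129c5ef502) (nat_lit 0x281d30344000500000000) (nat_lit 49)))))
 (.n (.n (.n (.p (nat_lit 0x1c3518ff02) (nat_lit 0x316800) (nat_lit 16))
 (.p (nat_lit 0x1ebc0f1502) (nat_lit 0x91c) (nat_lit 5)))
 (.n (.p (nat_lit 0x16121610160e160c160a1ac906) (nat_lit 0x800054706) (nat_lit 51))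
 (.p (nat_lit 0x5d515e3302) (nat_lit 0x2c0080000500) (nat_lit 37))))
 (.n (.n (.p (nat_lit 0xa210a1502) (nat_lit 0x54103) (nat_lit 16))
 (.p (nat_lit 0x166a57db02) (nat_lit 0x10062a) (nat_lit 29)))
 (.n (.p (nat_lit 0x257c536b02) (nat_lit 0x340b0e) (nat_lit 29))
 (.p (nat_lit 0x12a712990fe10fdd0d170d0d0a510a4d07a3079f04d704c361080d) (nat_lit 0x3422621b0000000000000) (nat_lit 33))))))

def c512_411 : Tr := .n c1024_411 c1024_923

def c256_155 : Tr := .n c512_155 c512_411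

def c128_27 : Tr := .n c256_27 c256_155

def c1024_91 : Tr :=
 .n (.n (.n (.n (.n (.n (.p (nat_lit 0x620060005e006504) (nat_lit 0x1c000400002) (nat_lit 17))
 (.p (nat_lit 0x1ada613502) (nat_lit 0x342a21d84000200000600) (nat_lit 49)))
 (.p (nat_lit 0x2bf0272502) (nat_lit 0x44090f) (nat_lit 4)))
 (.n (.p (nat_lit 0x110c1b4d02) (nat_lit 0x100403) (nat_lit 4))
 (.p (nat_lit 0x43b580f02) (nat_lit 0x34082a) (nat_lit 30))))
 (.n (.n (.p (nat_lit 0x1d431a5f02) (nat_lit 0x142800) (nat_lit 16))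
 (.p (nat_lit 0x30b559d02) (nat_lit 0x200b1c) (nat_lit 30)))
 (.n (.p (nat_lit 0xd1a0d180d160d140d121d9f06) (nat_lit 0x10000046806) (nat_lit 51))
 (.p (nat_lit 0x5d0f5e4302) (nat_lit 0xe0040000600) (nat_lit 36)))))
 (.n (.n (.n (.p (nat_lit 0xf420f400f3e0f3c0c910c8f06) (nat_lit 0x18000d4300) (nat_lit 51))
 (.p (nat_lit 0x16d216d016ce16ca16c82a7306) (nat_lit 0x2000080516) (nat_lit 52)))
 (.n (.p (nat_lit 0xec247f02) (nat_lit 0x500b04) (nat_lit 1))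
 (.p (nat_lit 0x2515af302) (nat_lit 0x100b12) (nat_lit 28))))
 (.n (.n (.p (nat_lit 0xd1c0d1a0d180d140d121ee506) (nat_lit 0x2000006901) (nat_lit 51))
 (.p (nat_lit 0x570a5708570657045702570003ac07) (nat_lit 0x923) (nat_lit 8)))
 (.n (.p (nat_lit 0x37dc522b02) (nat_lit 0x50030a) (nat_lit 29))
 (.p (nat_lit 0x207a5f3102) (nat_lit 0x3aa560b44000400000600) (nat_lit 50))))))
 (.n (.n (.n (.n (.p (nat_lit 0x7c207c007be07bc07ba05bd06) (nat_lit 0x800086100) (nat_lit 52))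
 (.p (nat_lit 0x9220920091c091a091805cf06) (nat_lit 0x4000008015) (nat_lit 51)))
 (.n (.p (nat_lit 0xa241de102) (nat_lit 0x240104) (nat_lit 5))
 (.p (nat_lit 0x480e480c480a4808480646f306) (nat_lit 0x80000232f) (nat_lit 51))))
 (.n (.n (.p (nat_lit 0x2465215d02) (nat_lit 0x40eb00) (nat_lit 16))
 (.p (nat_lit 0x4b844deb02) (nat_lit 0x40022) (nat_lit 4)))
 (.n (.p (nat_lit 0x190e518302) (nat_lit 0x500707) (nat_lit 29))
 (.p (nat_lit 0x5d291da702) (nat_lit 0x240060000900) (nat_lit 38)))))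
 (.n (.n (.n (.p (nat_lit 0x1697155702) (nat_lit 0x514600) (nat_lit 16))
 (.p (nat_lit 0x140013fe13fa13f813f605db06) (nat_lit 0x400008a01c) (nat_lit 51)))
 (.n (.p (nat_lit 0xfea0fe80fe40fe20fe01ac306) (nat_lit 0x4000048705) (nat_lit 51))
 (.p (nat_lit 0x5ce15de102) (nat_lit 0xc0020000200) (nat_lit 37))))
 (.n (.n (.p (nat_lit 0x1bb41bb21bb01bae1baa1eef06) (nat_lit 0x1000016902) (nat_lit 52))
 (.p (nat_lit 0x468f468302) (nat_lit 0x140228) (nat_lit 16)))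
 (.n (.p (nat_lit 0x10e407cf02) (nat_lit 0x50040e) (nat_lit 4))
 (.p (nat_lit 0x2495248121dd21d31f131f0f1c471c431983197316af169d60320d) (nat_lit 0x4099a2335000000040600) (nat_lit 33))))))

def c1024_603 : Tr :=
 .n (.n (.n (.n (.n (.n (.p (nat_lit 0x3a603b102) (nat_lit 0x4000600023) (nat_lit 17))
 (.p (nat_lit 0x234861af02) (nat_lit 0x522266c0d000500000600) (nat_lit 50)))
 (.p (nat_lit 0x1e881e861e841e821e80408d06) (nat_lit 0x10000096412) (nat_lit 52)))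
 (.n (.p (nat_lit 0x232a1ba302) (nat_lit 0x240a03) (nat_lit 4))
 (.p (nat_lit 0x12c212c012bc12ba12b8336506) (nat_lit 0x4000082a2c) (nat_lit 52))))
 (.n (.n (.p (nat_lit 0x20c620c420c020be1e931e8d06) (nat_lit 0x4800084a00) (nat_lit 51))
 (.p (nat_lit 0x3b92384702) (nat_lit 0x200b1f) (nat_lit 5)))
 (.n (.p (nat_lit 0xbbc0bba0bb80bb60bb40e0106) (nat_lit 0x800084307) (nat_lit 51))
 (.p (nat_lit 0x5cbb1ad502) (nat_lit 0x20000000800) (nat_lit 38)))))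
 (.n (.n (.n (.p (nat_lit 0x12aa129e10cd03) (nat_lit 0x500500) (nat_lit 6))
 (.p (nat_lit 0x48c7419d02) (nat_lit 0x516519) (nat_lit 16)))
 (.n (.p (nat_lit 0x47124710470e470c470a0fc706) (nat_lit 0x10000040305) (nat_lit 51))
 (.p (nat_lit 0x5cb504c302) (nat_lit 0x80000000000) (nat_lit 38))))
 (.n (.n (.p (nat_lit 0xa0f075f02) (nat_lit 0x340002) (nat_lit 15))
 (.p (nat_lit 0x3a2c3a2a3a263a243a22355b06) (nat_lit 0x4000044026) (nat_lit 51)))
 (.n (.p (nat_lit 0x467a443702) (nat_lit 0x34020c) (nat_lit 5))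
 (.p (nat_lit 0x248d248921e321d31f151f071c4f1c451983197116a7169d5fbc0d) (nat_lit 0x95a32b05000000040600) (nat_lit 33))))))
 (.n (.n (.n (.n (.p (nat_lit 0xbc80bc60bc20bc00bbe09d306) (nat_lit 0x4000040200) (nat_lit 52))
 (.p (nat_lit 0x2348234623422340233e14db06) (nat_lit 0x4000056515) (nat_lit 51)))
 (.n (.p (nat_lit 0xc200d500d91fb31e4d05) (nat_lit 0xa5400604) (nat_lit 9))
 (.p (nat_lit 0xec00e800e400e2000901c906) (nat_lit 0x220e005) (nat_lit 26))))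
 (.n (.n (.p (nat_lit 0xe2e170d02) (nat_lit 0x500301) (nat_lit 5))
 (.p (nat_lit 0x9ee118102) (nat_lit 0x540123) (nat_lit 4)))
 (.n (.p (nat_lit 0x2990261502) (nat_lit 0x500408) (nat_lit 5))
 (.p (nat_lit 0x5eb84fb302) (nat_lit 0x60044b00) (nat_lit 47)))))
 (.n (.n (.n (.p (nat_lit 0x1a1c1a1a1a181a161a14179d06) (nat_lit 0x10000052700) (nat_lit 51))
 (.p (nat_lit 0x314032703330ec70d6105) (nat_lit 0x86b4051c) (nat_lit 9)))
 (.n (.p (nat_lit 0x4da64da44da24da04d9c0e6306) (nat_lit 0x1000010306) (nat_lit 51))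
 (.p (nat_lit 0x5cf10fd902) (nat_lit 0x2c0040000400) (nat_lit 38))))
 (.n (.n (.p (nat_lit 0x33dd246302) (nat_lit 0x302b02) (nat_lit 16))
 (.p (nat_lit 0x181e181c181a181818160b5d06) (nat_lit 0x1000000e22a) (nat_lit 51)))
 (.n (.p (nat_lit 0x1a7e081302) (nat_lit 0x54070e) (nat_lit 4))
 (.p (nat_lit 0x13ee60ad02) (nat_lit 0x342521ca4000500040000) (nat_lit 49))))))

def c512_91 : Tr := .n c1024_91 c1024_603

def c1024_347 : Tr :=
 .n (.n (.n (.n (.n (.n (.p (nat_lit 0x15b0153014e03) (nat_lit 0x40800007) (nat_lit 19))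
 (.p (nat_lit 0x8fa617302) (nat_lit 0x421aa6315000100040000) (nat_lit 50)))
 (.p (nat_lit 0x386c357302) (nat_lit 0x440311) (nat_lit 4)))
 (.n (.p (nat_lit 0x18a2189e189c189a1898167d06) (nat_lit 0x800000a603) (nat_lit 51))
 (.p (nat_lit 0x2888288628842880287e0467288307) (nat_lit 0x24022b) (nat_lit 7))))
 (.n (.n (.p (nat_lit 0xb41d2902) (nat_lit 0x40900) (nat_lit 1))
 (.p (nat_lit 0x308334902) (nat_lit 0x100a1e) (nat_lit 1)))
 (.n (.p (nat_lit 0x22ac22aa22a822a622a2206106) (nat_lit 0x1000050906) (nat_lit 52))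
 (.p (nat_lit 0x5e54300d02) (nat_lit 0x20000700) (nat_lit 47)))))
 (.n (.n (.n (.p (nat_lit 0x10e30dfd02) (nat_lit 0x402400) (nat_lit 16))
 (.p (nat_lit 0x35ec35ea35e835e435e234b706) (nat_lit 0x2000008018) (nat_lit 51)))
 (.n (.p (nat_lit 0xa2d077d02) (nat_lit 0x40005) (nat_lit 15))
 (.p (nat_lit 0x5bcc5bc85bc65bc45bc2011b039e07) (nat_lit 0x402522) (nat_lit 25))))
 (.n (.n (.p (nat_lit 0x21ac2c2902) (nat_lit 0x200a01) (nat_lit 29))
 (.p (nat_lit 0x2738295702) (nat_lit 0x200124) (nat_lit 4)))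
 (.n (.p (nat_lit 0x3bd33bc702) (nat_lit 0x444b0a) (nat_lit 16))
 (.p (nat_lit 0x15485f7302) (nat_lit 0x1aa074b50000000000600) (nat_lit 50))))))
 (.n (.n (.n (.n (.p (nat_lit 0x9fd071d02) (nat_lit 0x4c100) (nat_lit 16))
 (.p (nat_lit 0xd400d3e0d3a0d381247124106) (nat_lit 0x4800042415) (nat_lit 51)))
 (.n (.p (nat_lit 0x3fe83fe63fe43fe23fe03fde06) (nat_lit 0x4c304) (nat_lit 52))
 (.p (nat_lit 0x18858db02) (nat_lit 0x200002) (nat_lit 27))))
 (.n (.n (.p (nat_lit 0x74c16c902) (nat_lit 0x40001) (nat_lit 4))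
 (.p (nat_lit 0x12f212ee12ec12ea05e905e106) (nat_lit 0x8800086023) (nat_lit 51)))
 (.n (.p (nat_lit 0x2166059302) (nat_lit 0x300a07) (nat_lit 5))
 (.p (nat_lit 0x5d3721df02) (nat_lit 0x160060000a00) (nat_lit 41)))))
 (.n (.n (.n (.p (nat_lit 0x186618641862185c1625162306) (nat_lit 0x3000084700) (nat_lit 52))
 (.p (nat_lit 0x88608840880087c0324030d03090883087f09) (nat_lit 0x190011c) (nat_lit 10)))
 (.n (.p (nat_lit 0x1fe41fe21fe01fdc1d8d1d8906) (nat_lit 0x2800056805) (nat_lit 51))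
 (.p (nat_lit 0x5dfa428302) (nat_lit 0x20052300) (nat_lit 47))))
 (.n (.n (.p (nat_lit 0x336521bb02) (nat_lit 0x30aa02) (nat_lit 16))
 (.p (nat_lit 0x896579f02) (nat_lit 0x10012a) (nat_lit 29)))
 (.n (.p (nat_lit 0x144138302) (nat_lit 0x20050e) (nat_lit 1))
 (.p (nat_lit 0x7a6607302) (nat_lit 0x570aa2344000100000000) (nat_lit 50))))))

def c1024_859 : Tr :=
 .n (.n (.n (.n (.n (.n (.p (nat_lit 0x5fb04dd02) (nat_lit 0x10e000) (nat_lit 16))
 (.p (nat_lit 0x207461ed02) (nat_lit 0x382a31d05000400000600) (nat_lit 49)))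
 (.p (nat_lit 0x4985497902) (nat_lit 0x206613) (nat_lit 16)))
 (.n (.p (nat_lit 0x8fc08fa08f808f608f425c906) (nat_lit 0x100000c2b03) (nat_lit 51))
 (.p (nat_lit 0x3e80412f02) (nat_lit 0x10022e) (nat_lit 4))))
 (.n (.n (.p (nat_lit 0x229422922290228e1ff51ff306) (nat_lit 0x180004ea00) (nat_lit 51))
 (.p (nat_lit 0x42d83ffb02) (nat_lit 0x200720) (nat_lit 4)))
 (.n (.p (nat_lit 0x43a10d502) (nat_lit 0x300407) (nat_lit 1))
 (.p (nat_lit 0x5d591add02) (nat_lit 0x240080000800) (nat_lit 38)))))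
 (.n (.n (.n (.p (nat_lit 0x14521450144e144c1227121d06) (nat_lit 0x1080004c500) (nat_lit 51))
 (.p (nat_lit 0x22ac22aa22a622a24951494d06) (nat_lit 0x500005051a) (nat_lit 52)))
 (.n (.p (nat_lit 0x2410240e240c240a1697168d06) (nat_lit 0x10800092605) (nat_lit 51))
 (.p (nat_lit 0x5cdb5dcb02) (nat_lit 0x120020000100) (nat_lit 36))))
 (.n (.n (.p (nat_lit 0xfa2187f02) (nat_lit 0x540302) (nat_lit 4))
 (.p (nat_lit 0xb83df702) (nat_lit 0x240127) (nat_lit 1)))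
 (.n (.p (nat_lit 0x25ec25ea25e825e625e44fd106) (nat_lit 0x80000470d) (nat_lit 52))
 (.p (nat_lit 0x181e5ff502) (nat_lit 0x306a81c35000100000600) (nat_lit 50))))))
 (.n (.n (.n (.n (.p (nat_lit 0xd560d540d520d500d4e0b3906) (nat_lit 0x1000000a300) (nat_lit 52))
 (.p (nat_lit 0x1d541d521d4e1d4c02a6028b02851d571d5109) (nat_lit 0x2a40815) (nat_lit 10)))
 (.n (.p (nat_lit 0x1abb17fd02) (nat_lit 0x540604) (nat_lit 15))
 (.p (nat_lit 0x18f5a3b02) (nat_lit 0x500209) (nat_lit 28))))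
 (.n (.n (.p (nat_lit 0x2d2af302) (nat_lit 0x100801) (nat_lit 30))
 (.p (nat_lit 0xd9e0d9c0d980d960cb10cab06) (nat_lit 0x12000050223) (nat_lit 51)))
 (.n (.p (nat_lit 0x1a281a261a241a221a20309506) (nat_lit 0x100000d2309) (nat_lit 51))
 (.p (nat_lit 0x1dac5ee902) (nat_lit 0x4a8866344000300000600) (nat_lit 50)))))
 (.n (.n (.n (.p (nat_lit 0x1bc01bbe1bbc1bba1bb818f906) (nat_lit 0x800096800) (nat_lit 51))
 (.p (nat_lit 0x1ec51bfb02) (nat_lit 0x40081c) (nat_lit 15)))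
 (.n (.p (nat_lit 0x1c2f196502) (nat_lit 0x706) (nat_lit 15))
 (.p (nat_lit 0x5d3f129b02) (nat_lit 0xe0060000500) (nat_lit 38))))
 (.n (.n (.p (nat_lit 0xa161c7902) (nat_lit 0x140103) (nat_lit 4))
 (.p (nat_lit 0xf8257cf02) (nat_lit 0x14032a) (nat_lit 29)))
 (.n (.p (nat_lit 0x450044fe44fa44f844f622d906) (nat_lit 0x4000050a0e) (nat_lit 52))
 (.p (nat_lit 0x1ae060f502) (nat_lit 0x440d623a4000200000600) (nat_lit 50))))))

def c512_347 : Tr := .n c1024_347 c1024_859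

def c256_91 : Tr := .n c512_91 c512_347

def c1024_219 : Tr :=
 .n (.n (.n (.n (.n (.n (.p (nat_lit 0xd900cf00c203) (nat_lit 0x42100004) (nat_lit 19))
 (.p (nat_lit 0x206a615302) (nat_lit 0x1503a8895800400000600) (nat_lit 49)))
 (.p (nat_lit 0x2d4a2d482d462d443277326d06) (nat_lit 0x10800048510) (nat_lit 52)))
 (.n (.p (nat_lit 0x13be398b02) (nat_lit 0x200503) (nat_lit 29))
 (.p (nat_lit 0x493c493a493849364934219d06) (nat_lit 0x80008ea2a) (nat_lit 51))))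
 (.n (.n (.p (nat_lit 0x1e4e1e4c1e4a1e481e461bc306) (nat_lit 0x80000c900) (nat_lit 52))
 (.p (nat_lit 0xd280d240d220d200d1e2bb506) (nat_lit 0x800000091d) (nat_lit 52)))
 (.n (.p (nat_lit 0x1f001efe1efc1efa1ef8011d1f0307) (nat_lit 0x500906) (nat_lit 7))
 (.p (nat_lit 0x5da316af02) (nat_lit 0xa00a0000600) (nat_lit 41)))))
 (.n (.n (.n (.p (nat_lit 0x100210000ffe0ffc0df70df506) (nat_lit 0x1800080400) (nat_lit 52))
 (.p (nat_lit 0x39ed31ef02) (nat_lit 0x112517) (nat_lit 16)))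
 (.n (.p (nat_lit 0x229422922290228e228c25cb06) (nat_lit 0x80004eb04) (nat_lit 51))
 (.p (nat_lit 0x5b6e5b6c5b6a5b685b66028102fe07) (nat_lit 0x1061a) (nat_lit 25))))
 (.n (.n (.p (nat_lit 0x4d804d604d404ce204b204906) (nat_lit 0x3000040901) (nat_lit 51))
 (.p (nat_lit 0x25a5230102) (nat_lit 0x540a23) (nat_lit 15)))
 (.n (.p (nat_lit 0x3a94351902) (nat_lit 0x50060a) (nat_lit 5))
 (.p (nat_lit 0x180e5f5502) (nat_lit 0x1a2522350000100000600) (nat_lit 49))))))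
 (.n (.n (.n (.n (.p (nat_lit 0x8f708eb02) (nat_lit 0x140100) (nat_lit 34))
 (.p (nat_lit 0x10ec0bdd02) (nat_lit 0x300415) (nat_lit 5)))
 (.n (.p (nat_lit 0xce81dfb02) (nat_lit 0x340204) (nat_lit 5))
 (.p (nat_lit 0x140a1408140614041402507f06) (nat_lit 0x10000002830) (nat_lit 51))))
 (.n (.n (.p (nat_lit 0x255c255a25582556255222bd06) (nat_lit 0x1000052b00) (nat_lit 52))
 (.p (nat_lit 0xe8e0e8c0e8a0e860e84506106) (nat_lit 0x2000000822) (nat_lit 51)))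
 (.n (.p (nat_lit 0x1be11bd502) (nat_lit 0x304807) (nat_lit 16))
 (.p (nat_lit 0x5c995e9702) (nat_lit 0x240000000a00) (nat_lit 37)))))
 (.n (.n (.n (.p (nat_lit 0x177817761770176e16b716b506) (nat_lit 0x60000d2600) (nat_lit 52))
 (.p (nat_lit 0xfdc0fda0fd80fd60fd4073f06) (nat_lit 0x1000004801c) (nat_lit 52)))
 (.n (.p (nat_lit 0x1f261f241f201f1e1f1c1c2906) (nat_lit 0x4000000805) (nat_lit 51))
 (.p (nat_lit 0x5d630baf02) (nat_lit 0x1a0080000200) (nat_lit 39))))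
 (.n (.n (.p (nat_lit 0x21b618cb02) (nat_lit 0x100a02) (nat_lit 4))
 (.p (nat_lit 0x23f823f623f423f223f04c9106) (nat_lit 0x100000d0129) (nat_lit 51)))
 (.n (.p (nat_lit 0x123c092d02) (nat_lit 0x44040e) (nat_lit 4))
 (.p (nat_lit 0x1ae0605302) (nat_lit 0x40a962335000200000600) (nat_lit 50))))))

def c1024_731 : Tr :=
 .n (.n (.n (.n (.n (.n (.p (nat_lit 0x4f004ee04e804e604e104df06) (nat_lit 0x6000004000) (nat_lit 52))
 (.p (nat_lit 0x180a61d102) (nat_lit 0x54216ac0c800100000600) (nat_lit 49)))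
 (.p (nat_lit 0x92e092c092a09260924426d06) (nat_lit 0x20000c8612) (nat_lit 52)))
 (.n (.p (nat_lit 0x12aa12a812a412a0246f246b06) (nat_lit 0x500000ab03) (nat_lit 51))
 (.p (nat_lit 0x37623a3702) (nat_lit 0x44022d) (nat_lit 4))))
 (.n (.n (.p (nat_lit 0x219b1e9702) (nat_lit 0x508a00) (nat_lit 16))
 (.p (nat_lit 0x3d663fcb02) (nat_lit 0x100120) (nat_lit 4)))
 (.n (.p (nat_lit 0xa4e0a4c0a4a0a440f6d0f6b06) (nat_lit 0x3000044307) (nat_lit 52))
 (.p (nat_lit 0x5d0d1ae502) (nat_lit 0x100040000800) (nat_lit 40)))))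
 (.n (.n (.n (.p (nat_lit 0x139d10c902) (nat_lit 0x306500) (nat_lit 16))
 (.p (nat_lit 0x42df42d302) (nat_lit 0x508719) (nat_lit 16)))
 (.n (.p (nat_lit 0x62513db02) (nat_lit 0x400505) (nat_lit 15))
 (.p (nat_lit 0x5d3f04c902) (nat_lit 0xe0060000000) (nat_lit 38))))
 (.n (.n (.p (nat_lit 0xccc19c502) (nat_lit 0x140202) (nat_lit 5))
 (.p (nat_lit 0x3b1b3b1102) (nat_lit 0xa26) (nat_lit 16)))
 (.n (.p (nat_lit 0x69e069a06980696069449d106) (nat_lit 0x800008870c) (nat_lit 52))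
 (.p (nat_lit 0x1db05fd302) (nat_lit 0x95a32b05000300000600) (nat_lit 50))))))
 (.n (.n (.n (.n (.p (nat_lit 0xccb09cd02) (nat_lit 0x4e200) (nat_lit 16))
 (.p (nat_lit 0x1926545302) (nat_lit 0x500715) (nat_lit 29)))
 (.n (.p (nat_lit 0x1695168902) (nat_lit 0x416604) (nat_lit 16))
 (.p (nat_lit 0x42659d902) (nat_lit 0x500406) (nat_lit 27))))
 (.n (.n (.p (nat_lit 0x29e629e429e229e029de29dc06) (nat_lit 0x52401) (nat_lit 52))
 (.p (nat_lit 0xb4c102302) (nat_lit 0x300223) (nat_lit 5)))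
 (.n (.p (nat_lit 0x32d72bdf02) (nat_lit 0x150908) (nat_lit 16))
 (.p (nat_lit 0x180e5ecf02) (nat_lit 0x4a1a34344000100000600) (nat_lit 49)))))
 (.n (.n (.n (.p (nat_lit 0x8818fb02) (nat_lit 0x100800) (nat_lit 1))
 (.p (nat_lit 0x307553902) (nat_lit 0x71c) (nat_lit 30)))
 (.n (.p (nat_lit 0x4edc4eda4ed84ed64ed4128906) (nat_lit 0x8000c2406) (nat_lit 52))
 (.p (nat_lit 0x5d7f0fdf02) (nat_lit 0x2e00a0000400) (nat_lit 38))))
 (.n (.n (.p (nat_lit 0x8c1060d02) (nat_lit 0x400003) (nat_lit 15))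
 (.p (nat_lit 0x1c501c4e1c4c1c4a1c460cb506) (nat_lit 0x10000d022a) (nat_lit 51)))
 (.n (.p (nat_lit 0x2501ea702) (nat_lit 0x10090e) (nat_lit 1))
 (.p (nat_lit 0x115060d502) (nat_lit 0x354a621b0000400040000) (nat_lit 50))))))

def c512_219 : Tr := .n c1024_219 c1024_731

def c1024_475 : Tr :=
 .n (.n (.n (.n (.n (.n (.p (nat_lit 0x2a702a1028e03) (nat_lit 0xa1100015) (nat_lit 19))
 (.p (nat_lit 0x1db0618f02) (nat_lit 0x3422a5c14800300000600) (nat_lit 50)))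
 (.p (nat_lit 0x3aa0359f02) (nat_lit 0x500611) (nat_lit 5)))
 (.n (.p (nat_lit 0x1a421a3e1a3c1a3a1a3817ef06) (nat_lit 0x80000d4603) (nat_lit 52))
 (.p (nat_lit 0x2f3a320f02) (nat_lit 0x22c) (nat_lit 5))))
 (.n (.n (.p (nat_lit 0x1fd81fd61fd41fd21d2b1d2906) (nat_lit 0x18000ce900) (nat_lit 52))
 (.p (nat_lit 0x1bb21bb01bae1bac1baa355306) (nat_lit 0x1000005601f) (nat_lit 52)))
 (.n (.p (nat_lit 0xc9c066702) (nat_lit 0x140207) (nat_lit 5))
 (.p (nat_lit 0x5d775e5f02) (nat_lit 0x60080000700) (nat_lit 37)))))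
 (.n (.n (.n (.p (nat_lit 0x119811961194118e0f610f5f06) (nat_lit 0x30000c4400) (nat_lit 52))
 (.p (nat_lit 0x3afe372502) (nat_lit 0x200a18) (nat_lit 5)))
 (.n (.p (nat_lit 0x2f40cf102) (nat_lit 0x140205) (nat_lit 1))
 (.p (nat_lit 0x43e0438043604340007014906) (nat_lit 0x1c0412a) (nat_lit 26))))
 (.n (.n (.p (nat_lit 0x254e254c254a25482546231906) (nat_lit 0x100000d0a01) (nat_lit 52))
 (.p (nat_lit 0x2c7e298702) (nat_lit 0x440a24) (nat_lit 4)))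
 (.n (.p (nat_lit 0x5080506050405020500421506) (nat_lit 0x80000660b) (nat_lit 52))
 (.p (nat_lit 0x1ad45f9102) (nat_lit 0x581a303a5000200000600) (nat_lit 49))))))
 (.n (.n (.n (.n (.p (nat_lit 0xa940a920a900a8e0a8c087b06) (nat_lit 0x1000000a200) (nat_lit 52))
 (.p (nat_lit 0x1db41db21db01dae1dac139506) (nat_lit 0x10000012515) (nat_lit 51)))
 (.n (.p (nat_lit 0x13c61e2d02) (nat_lit 0x504) (nat_lit 4))
 (.p (nat_lit 0x5930592c592a5928592603f5009207) (nat_lit 0x40a303) (nat_lit 25))))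
 (.n (.n (.p (nat_lit 0x27ab09fd02) (nat_lit 0x48101) (nat_lit 16))
 (.p (nat_lit 0x4d804d604d404d204ce088b06) (nat_lit 0x1000000123) (nat_lit 51)))
 (.n (.p (nat_lit 0x14e0159015d05b3071305) (nat_lit 0xa1940b07) (nat_lit 9))
 (.p (nat_lit 0x5eac4e1b02) (nat_lit 0x40b00) (nat_lit 47)))))
 (.n (.n (.n (.p (nat_lit 0x1933162b02) (nat_lit 0x506700) (nat_lit 16))
 (.p (nat_lit 0xac60ac40ac20abc09dd09db06) (nat_lit 0x300004e11c) (nat_lit 51)))
 (.n (.p (nat_lit 0x4bf24bf04bee4bec4be808df06) (nat_lit 0x1000010106) (nat_lit 52))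
 (.p (nat_lit 0x5dab0d1102) (nat_lit 0x200a0000300) (nat_lit 38))))
 (.n (.n (.p (nat_lit 0x21e221e021de21da21d8231f06) (nat_lit 0x20000d4a02) (nat_lit 51))
 (.p (nat_lit 0x9f809f609f209f0045c043f043909fb09f509) (nat_lit 0x2a4012a) (nat_lit 10)))
 (.n (.p (nat_lit 0x6f606f406f006ee06ec14cf06) (nat_lit 0x400005450e) (nat_lit 52))
 (.p (nat_lit 0x1da2609102) (nat_lit 0x342221ca4000300000600) (nat_lit 49))))))

def c1024_987 : Tr :=
 .n (.n (.n (.n (.n (.p (nat_lit 0x6d206ce06cc06ca0657065306) (nat_lit 0x140000d0000) (nat_lit 51))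
 (.p (nat_lit 0x25662564256225604f2b4f2106) (nat_lit 0x108000d2414) (nat_lit 52)))
 (.n (.p (nat_lit 0x3c1c3c1a3c183c163c12061306) (nat_lit 0x1000006004) (nat_lit 52))
 (.p (nat_lit 0x4328416f02) (nat_lit 0x34072e) (nat_lit 4))))
 (.n (.n (.p (nat_lit 0x2360235e235a2356215b215706) (nat_lit 0x5000080b00) (nat_lit 52))
 (.p (nat_lit 0x450e472702) (nat_lit 0x200121) (nat_lit 4)))
 (.n (.p (nat_lit 0x140a1406140414021233122f06) (nat_lit 0x14000042407) (nat_lit 51))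
 (.p (nat_lit 0x5ce51f0702) (nat_lit 0x80020000900) (nat_lit 39)))))
 (.n (.n (.n (.p (nat_lit 0x158e158c158815861557155106) (nat_lit 0x12000084600) (nat_lit 52))
 (.p (nat_lit 0x4fb44cc102) (nat_lit 0x44051b) (nat_lit 5)))
 (.n (.p (nat_lit 0x114411421140113e113c195906) (nat_lit 0x800088705) (nat_lit 52))
 (.p (nat_lit 0x5dd2509f02) (nat_lit 0x60056100) (nat_lit 48))))
 (.n (.n (.p (nat_lit 0x31883186318431823180317e006613b513b113af0a) (nat_lit 0xc800502) (nat_lit 31))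
 (.p (nat_lit 0x4392576d02) (nat_lit 0x40b27) (nat_lit 29)))
 (.n (.p (nat_lit 0xe1652d302) (nat_lit 0x50030e) (nat_lit 29))
 (.p (nat_lit 0x1148601302) (nat_lit 0x405aa2335000400040000) (nat_lit 50))))))
 (.n (.n (.n (.n (.p (nat_lit 0x30a0c9302) (nat_lit 0x240300) (nat_lit 1))
 (.p (nat_lit 0x46644660465e465c2183217f06) (nat_lit 0x1400000ea15) (nat_lit 52)))
 (.n (.p (nat_lit 0x42df195702) (nat_lit 0x506704) (nat_lit 16))
 (.p (nat_lit 0x1ec01ea01e801e60259000906) (nat_lit 0x2c1240e) (nat_lit 26))))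
 (.n (.n (.p (nat_lit 0x1d84175f02) (nat_lit 0x440801) (nat_lit 5))
 (.p (nat_lit 0x1a9e56e302) (nat_lit 0x340723) (nat_lit 29)))
 (.n (.p (nat_lit 0x337e2d8502) (nat_lit 0x440a09) (nat_lit 4))
 (.p (nat_lit 0x1ad45f1302) (nat_lit 0x3aa570344000200000600) (nat_lit 49)))))
 (.n (.n (.n (.p (nat_lit 0x1c7e1c7c1c781c761a671a6106) (nat_lit 0x120000c2800) (nat_lit 52))
 (.p (nat_lit 0x3f4e3f4c3f4a3f483f46202906) (nat_lit 0x40000c091c) (nat_lit 51)))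
 (.n (.p (nat_lit 0xd100d0e0d0c0d0a0d081c2f06) (nat_lit 0x800006806) (nat_lit 52))
 (.p (nat_lit 0x5cb3154102) (nat_lit 0xa0000000600) (nat_lit 40))))
 (.n (.n (.p (nat_lit 0x371c371a3718371637140ce106) (nat_lit 0x1000004c203) (nat_lit 52))
 (.p (nat_lit 0x2a3e2a3c2a3a2a362a3417df06) (nat_lit 0x20000c462a) (nat_lit 51)))
 (.n (.p (nat_lit 0x2a1226f702) (nat_lit 0x54040f) (nat_lit 5))
 (.p (nat_lit 0x1534611902) (nat_lit 0x342521ca4000000000600) (nat_lit 49))))))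

def c512_475 : Tr := .n c1024_475 c1024_987

def c256_219 : Tr := .n c512_219 c512_475

def c128_91 : Tr := .n c256_91 c256_219

def c64_27 : Tr := .n c128_27 c128_91

def c1024_59 : Tr :=
 .n (.n (.n (.n (.n (.n (.p (nat_lit 0x4b003d003803) (nat_lit 0x22800001) (nat_lit 19))
 (.p (nat_lit 0x113c612f02) (nat_lit 0x35486a1b0000400040000) (nat_lit 49)))
 (.p (nat_lit 0x2b9c279302) (nat_lit 0x40090f) (nat_lit 5)))
 (.n (.p (nat_lit 0x37f237f037ee37ec37ea37e800940fab0fa90fa50a) (nat_lit 0xd040303) (nat_lit 31))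
 (.p (nat_lit 0x4941c1102) (nat_lit 0x30082a) (nat_lit 1))))
 (.n (.n (.p (nat_lit 0x1d1a1d161d141d121d101a6506) (nat_lit 0x8000056800) (nat_lit 51))
 (.p (nat_lit 0x22f222ee22ec22ea03320311030d22f522f109) (nat_lit 0x2b40a1c) (nat_lit 10)))
 (.n (.p (nat_lit 0x11b508902) (nat_lit 0x440806) (nat_lit 30))
 (.p (nat_lit 0x5cc5154302) (nat_lit 0x280020000600) (nat_lit 40)))))
 (.n (.n (.n (.p (nat_lit 0xee00edc0eda0ed80c990c9506) (nat_lit 0x140000cc300) (nat_lit 52))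
 (.p (nat_lit 0x258c0b2d02) (nat_lit 0x540b15) (nat_lit 5)))
 (.n (.p (nat_lit 0xe2247502) (nat_lit 0xb04) (nat_lit 1))
 (.p (nat_lit 0x23e5ad702) (nat_lit 0x300910) (nat_lit 27))))
 (.n (.n (.p (nat_lit 0x1ee8176b02) (nat_lit 0x400901) (nat_lit 5))
 (.p (nat_lit 0x1d6c56fd02) (nat_lit 0x440823) (nat_lit 29)))
 (.n (.p (nat_lit 0x35ec35ea35e835e435e2374706) (nat_lit 0x200004820a) (nat_lit 51))
 (.p (nat_lit 0xe725f2302) (nat_lit 0x3a2560b44000300040000) (nat_lit 49))))))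
 (.n (.n (.n (.n (.p (nat_lit 0x7a5079902) (nat_lit 0x200100) (nat_lit 34))
 (.p (nat_lit 0x5ca53f702) (nat_lit 0x100015) (nat_lit 29)))
 (.n (.p (nat_lit 0x8ce1f3f02) (nat_lit 0x500104) (nat_lit 4))
 (.p (nat_lit 0x4694488b02) (nat_lit 0x44022f) (nat_lit 5))))
 (.n (.n (.p (nat_lit 0x241b215b02) (nat_lit 0x300b00) (nat_lit 16))
 (.p (nat_lit 0xd280d240d220d200d1e4a4506) (nat_lit 0x8000040721) (nat_lit 52)))
 (.n (.p (nat_lit 0x1a7317a902) (nat_lit 0x540607) (nat_lit 15))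
 (.p (nat_lit 0x5e861c2702) (nat_lit 0x40016900) (nat_lit 48)))))
 (.n (.n (.n (.p (nat_lit 0x1653154f02) (nat_lit 0x106600) (nat_lit 16))
 (.p (nat_lit 0x4d804d604d404d004ce05d906) (nat_lit 0x200000001c) (nat_lit 51)))
 (.n (.p (nat_lit 0x1ac41ac01abe1abc010e00ed00e91ac71ac309) (nat_lit 0x2b40705) (nat_lit 10))
 (.p (nat_lit 0x5c950a4502) (nat_lit 0x280000000200) (nat_lit 38))))
 (.n (.n (.p (nat_lit 0x1ef41ef21ef01eee1eec00631ef707) (nat_lit 0x500902) (nat_lit 7))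
 (.p (nat_lit 0x22922290228e228c228a459106) (nat_lit 0x1000004e128) (nat_lit 51)))
 (.n (.p (nat_lit 0xaa20aa00a9e0a9c0a9a0f7506) (nat_lit 0x8000ca30e) (nat_lit 51))
 (.p (nat_lit 0x1adc602d02) (nat_lit 0x406a62335000200000600) (nat_lit 49))))))

def c1024_571 : Tr :=
 .n (.n (.n (.n (.n (.n (.p (nat_lit 0x38103790377037204) (nat_lit 0x8c800020) (nat_lit 20))
 (.p (nat_lit 0x1c4461a902) (nat_lit 0x340b8ac64000200040600) (nat_lit 49)))
 (.p (nat_lit 0x40823d9102) (nat_lit 0x412) (nat_lit 5)))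
 (.n (.p (nat_lit 0x1e701e6e1e6c1e6a21cb21c106) (nat_lit 0x1080008ea03) (nat_lit 51))
 (.p (nat_lit 0x331031c502) (nat_lit 0x34092c) (nat_lit 5))))
 (.n (.n (.p (nat_lit 0x1e90207b02) (nat_lit 0x200a00) (nat_lit 5))
 (.p (nat_lit 0x3b3c37b302) (nat_lit 0x140a1f) (nat_lit 4)))
 (.n (.p (nat_lit 0xe06067702) (nat_lit 0x300307) (nat_lit 5))
 (.p (nat_lit 0x5d915e6502) (nat_lit 0x1c00a0000700) (nat_lit 36)))))
 (.n (.n (.n (.p (nat_lit 0x43410c302) (nat_lit 0x500) (nat_lit 1))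
 (.p (nat_lit 0x420d411502) (nat_lit 0x540419) (nat_lit 15)))
 (.n (.p (nat_lit 0xfbc20d502) (nat_lit 0x40305) (nat_lit 5))
 (.p (nat_lit 0x47e5c7f02) (nat_lit 0x20062d) (nat_lit 27))))
 (.n (.n (.p (nat_lit 0x2d122d102d0e2d0c2d0a2d080066075d075b07590a) (nat_lit 0x8840002) (nat_lit 31))
 (.p (nat_lit 0x33aa315f02) (nat_lit 0x240a25) (nat_lit 5)))
 (.n (.p (nat_lit 0x436c3cf302) (nat_lit 0x440b0b) (nat_lit 4))
 (.p (nat_lit 0x7985fa502) (nat_lit 0x588bb0344000100000000) (nat_lit 49))))))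
 (.n (.n (.n (.n (.p (nat_lit 0xb9d087302) (nat_lit 0x116200) (nat_lit 16))
 (.p (nat_lit 0x154a154815461544154014d706) (nat_lit 0x100004c515) (nat_lit 51)))
 (.n (.p (nat_lit 0x41c841c641c441c241c041be06) (nat_lit 0xc4504) (nat_lit 52))
 (.p (nat_lit 0xbc00ba00b800b400e5000b06) (nat_lit 0xd16604) (nat_lit 26))))
 (.n (.n (.p (nat_lit 0xccd0cc102) (nat_lit 0x150201) (nat_lit 16))
 (.p (nat_lit 0x35c9089102) (nat_lit 0x410123) (nat_lit 16)))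
 (.n (.p (nat_lit 0x15fa15f815f615f415f028cd06) (nat_lit 0x1000012308) (nat_lit 52))
 (.p (nat_lit 0x5d31234502) (nat_lit 0x1c0060000b00) (nat_lit 40)))))
 (.n (.n (.n (.p (nat_lit 0x19e219e019de19dc19da179b06) (nat_lit 0x80000c6700) (nat_lit 51))
 (.p (nat_lit 0x5dd139f02) (nat_lit 0x40051c) (nat_lit 15)))
 (.n (.p (nat_lit 0xd02238f02) (nat_lit 0x440206) (nat_lit 4))
 (.p (nat_lit 0x5ccb5e1102) (nat_lit 0x220020000400) (nat_lit 37))))
 (.n (.n (.p (nat_lit 0x15d615d415ce15cc2463246106) (nat_lit 0x600008ab02) (nat_lit 51))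
 (.p (nat_lit 0xd100d0c0d080d060b5b0b5706) (nat_lit 0xa00000622a) (nat_lit 52)))
 (.n (.p (nat_lit 0x2e6a2e662e642e622e60191906) (nat_lit 0x800008870e) (nat_lit 52))
 (.p (nat_lit 0x8fc60a702) (nat_lit 0x356068ca4000100040000) (nat_lit 50))))))

def c512_59 : Tr := .n c1024_59 c1024_571

def c1024_315 : Tr :=
 .n (.n (.n (.n (.n (.n (.p (nat_lit 0x139012b012003) (nat_lit 0xa1000006) (nat_lit 19))
 (.p (nat_lit 0xe76616b02) (nat_lit 0x421aa4395000300040000) (nat_lit 49)))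
 (.p (nat_lit 0x33dc53a702) (nat_lit 0x300b10) (nat_lit 29)))
 (.n (.p (nat_lit 0x167e167c167a16761674008b167907) (nat_lit 0x200603) (nat_lit 7))
 (.p (nat_lit 0x281a2a8902) (nat_lit 0x10022b) (nat_lit 5))))
 (.n (.n (.p (nat_lit 0x1ec11bc702) (nat_lit 0x206900) (nat_lit 16))
 (.p (nat_lit 0x2f5c2f582f562f542f522e2f06) (nat_lit 0x800000a11e) (nat_lit 51)))
 (.n (.p (nat_lit 0x206620642060205e0138011d01172069206309) (nat_lit 0x2a40906) (nat_lit 10))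
 (.p (nat_lit 0x5ce7181902) (nat_lit 0x60020000700) (nat_lit 40)))))
 (.n (.n (.n (.p (nat_lit 0x109a10981096109410920dff06) (nat_lit 0x10000014400) (nat_lit 52))
 (.p (nat_lit 0x33982f2302) (nat_lit 0x540a17) (nat_lit 4)))
 (.n (.p (nat_lit 0x77e209102) (nat_lit 0x140005) (nat_lit 4))
 (.p (nat_lit 0x36c036a03680366030903fb06) (nat_lit 0x80c520) (nat_lit 26))))
 (.n (.n (.p (nat_lit 0x2bf5204702) (nat_lit 0x44901) (nat_lit 16))
 (.p (nat_lit 0x4e684e664e644e624e5e259d06) (nat_lit 0x10000c2b23) (nat_lit 51)))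
 (.n (.p (nat_lit 0x3bc234ab02) (nat_lit 0x240b0a) (nat_lit 5))
 (.p (nat_lit 0x1aea5f6d02) (nat_lit 0x3aa074b44000200000600) (nat_lit 50))))))
 (.n (.n (.n (.n (.p (nat_lit 0x98e098a098809840725071f06) (nat_lit 0x9000052100) (nat_lit 51))
 (.p (nat_lit 0x30e124902) (nat_lit 0x440415) (nat_lit 1)))
 (.n (.p (nat_lit 0xe570e4b02) (nat_lit 0x116304) (nat_lit 16))
 (.p (nat_lit 0x3158c502) (nat_lit 0x300801) (nat_lit 28))))
 (.n (.n (.p (nat_lit 0x5f2155f02) (nat_lit 0x300001) (nat_lit 5))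
 (.p (nat_lit 0x3ab568702) (nat_lit 0x500023) (nat_lit 30)))
 (.n (.p (nat_lit 0x2006058902) (nat_lit 0x440907) (nat_lit 5))
 (.p (nat_lit 0x5d155e9d02) (nat_lit 0x80040000a00) (nat_lit 36)))))
 (.n (.n (.n (.p (nat_lit 0x181b180f02) (nat_lit 0x200700) (nat_lit 34))
 (.p (nat_lit 0x87c0d3702) (nat_lit 0x11c) (nat_lit 5)))
 (.n (.p (nat_lit 0x1e121e101e0e1e0c1e0a1d8906) (nat_lit 0x8000c6805) (nat_lit 51))
 (.p (nat_lit 0x5df43be302) (nat_lit 0x50300) (nat_lit 48))))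
 (.n (.n (.p (nat_lit 0x1f1a1f181f161f141f1021b706) (nat_lit 0x1000092a02) (nat_lit 51))
 (.p (nat_lit 0x100210000ffe0ffa0ff850c106) (nat_lit 0x20000c0829) (nat_lit 52)))
 (.n (.p (nat_lit 0x2a09123502) (nat_lit 0x4c40e) (nat_lit 16))
 (.p (nat_lit 0x113a606902) (nat_lit 0x588172b40800400040000) (nat_lit 49))))))

def c1024_827 : Tr :=
 .n (.n (.n (.n (.n (.n (.p (nat_lit 0x5a205a0059a059804e104df06) (nat_lit 0x6000094000) (nat_lit 51))
 (.p (nat_lit 0x16a661e702) (nat_lit 0x3422b0d64000000040600) (nat_lit 50)))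
 (.p (nat_lit 0x227c2278227622742272485306) (nat_lit 0x800004c413) (nat_lit 51)))
 (.n (.p (nat_lit 0x25c21bbb02) (nat_lit 0x240b03) (nat_lit 5))
 (.p (nat_lit 0x3c003a6102) (nat_lit 0x340b2d) (nat_lit 5))))
 (.n (.n (.p (nat_lit 0x22582256225422521ff51ff306) (nat_lit 0x18000c8a00) (nat_lit 52))
 (.p (nat_lit 0x42843fef02) (nat_lit 0x240620) (nat_lit 4)))
 (.n (.p (nat_lit 0x38650f7302) (nat_lit 0x550307) (nat_lit 16))
 (.p (nat_lit 0x5d6f5e7902) (nat_lit 0xe0080000800) (nat_lit 37)))))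
 (.n (.n (.n (.p (nat_lit 0x1430142e142a14281426122306) (nat_lit 0x40000c4500) (nat_lit 52))
 (.p (nat_lit 0x212c212a21282126212448c706) (nat_lit 0x1000000e51a) (nat_lit 52)))
 (.n (.p (nat_lit 0x16921690168e168c011000ed00eb1697169509) (nat_lit 0x2c00605) (nat_lit 10))
 (.p (nat_lit 0x5cb307a102) (nat_lit 0xa0000000100) (nat_lit 40))))
 (.n (.n (.p (nat_lit 0x11030e3502) (nat_lit 0x200302) (nat_lit 15))
 (.p (nat_lit 0x3d7a3d783d743d723d7004013d7707) (nat_lit 0x300127) (nat_lit 7)))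
 (.n (.p (nat_lit 0x4f144ad102) (nat_lit 0x4040d) (nat_lit 5))
 (.p (nat_lit 0x13ea5fe902) (nat_lit 0x306a81d31000500040000) (nat_lit 49))))))
 (.n (.n (.n (.n (.p (nat_lit 0xd400d3e0d3c0d3a0d380b2f06) (nat_lit 0x800002300) (nat_lit 51))
 (.p (nat_lit 0x1eb11be702) (nat_lit 0x815) (nat_lit 15)))
 (.n (.p (nat_lit 0x181c181a1818181617fd17fb06) (nat_lit 0x1800004e604) (nat_lit 51))
 (.p (nat_lit 0x1435a1502) (nat_lit 0x100a07) (nat_lit 28))))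
 (.n (.n (.p (nat_lit 0x2aca2ac82ac42ac22ac014f306) (nat_lit 0x4000052501) (nat_lit 52))
 (.p (nat_lit 0xd280d260d240d220ca90ca706) (nat_lit 0x1800040223) (nat_lit 52)))
 (.n (.p (nat_lit 0x1a401a3e1a3c1a3a1a38301506) (nat_lit 0x10000094309) (nat_lit 52))
 (.p (nat_lit 0x4d05ee102) (nat_lit 0x4a8d84344000000000000) (nat_lit 50)))))
 (.n (.n (.n (.p (nat_lit 0x1b9c1b9a1b981b961b941b9206) (nat_lit 0x14800) (nat_lit 52))
 (.p (nat_lit 0x1bf6555502) (nat_lit 0x20081c) (nat_lit 29)))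
 (.n (.p (nat_lit 0x196c196a196819640132011d0115196f196709) (nat_lit 0x2900706) (nat_lit 10))
 (.p (nat_lit 0x5cf913fb02) (nat_lit 0x240040000500) (nat_lit 41))))
 (.n (.n (.p (nat_lit 0x8be08bc08ba08b800b20091008f08c308c109) (nat_lit 0x2c00103) (nat_lit 10))
 (.p (nat_lit 0x102610241020101c0e1f0e1b06) (nat_lit 0x500000432a) (nat_lit 51)))
 (.n (.p (nat_lit 0x2183217702) (nat_lit 0x506a0e) (nat_lit 16))
 (.p (nat_lit 0xe8260ef02) (nat_lit 0x440d6a3a4000300040000) (nat_lit 50))))))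

def c512_315 : Tr := .n c1024_315 c1024_827

def c256_59 : Tr := .n c512_59 c512_315

def c1024_187 : Tr :=
 .n (.n (.n (.n (.n (.n (.p (nat_lit 0xbe00bc00b400c104) (nat_lit 0x18800400004) (nat_lit 17))
 (.p (nat_lit 0x1698614f02) (nat_lit 0x3503a0d84000000040600) (nat_lit 49)))
 (.p (nat_lit 0x18f618f418f218f018ec317506) (nat_lit 0x10000d6410) (nat_lit 51)))
 (.n (.p (nat_lit 0x3958395639523950394e126b06) (nat_lit 0x4000056403) (nat_lit 51))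
 (.p (nat_lit 0x437582f02) (nat_lit 0x100a2a) (nat_lit 30))))
 (.n (.n (.p (nat_lit 0x1df01dec1dea1de81bcd1bc906) (nat_lit 0x14000004900) (nat_lit 51))
 (.p (nat_lit 0x27d627d427d227d027ce273306) (nat_lit 0x1000008a11d) (nat_lit 51)))
 (.n (.p (nat_lit 0x1ef8255302) (nat_lit 0x906) (nat_lit 4))
 (.p (nat_lit 0x5d73154902) (nat_lit 0xa0080000600) (nat_lit 40)))))
 (.n (.n (.n (.p (nat_lit 0xdfc0fe902) (nat_lit 0x400400) (nat_lit 5))
 (.p (nat_lit 0x3042c6d02) (nat_lit 0x540a16) (nat_lit 1)))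
 (.n (.p (nat_lit 0x25d41e8b02) (nat_lit 0x540b04) (nat_lit 4))
 (.p (nat_lit 0x2ec02ea02e802e402f500bf06) (nat_lit 0xd16519) (nat_lit 26))))
 (.n (.n (.p (nat_lit 0x2050204e204c204a2048002b204707) (nat_lit 0x40901) (nat_lit 7))
 (.p (nat_lit 0x47824780477e477c477a219b06) (nat_lit 0x10000080a23) (nat_lit 52)))
 (.n (.p (nat_lit 0x3970350f02) (nat_lit 0x54040a) (nat_lit 4))
 (.p (nat_lit 0x11405f4302) (nat_lit 0x1a1d22350000400040000) (nat_lit 49))))))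
 (.n (.n (.n (.n (.p (nat_lit 0x8b505c502) (nat_lit 0x40e100) (nat_lit 16))
 (.p (nat_lit 0x737072b02) (nat_lit 0x148015) (nat_lit 16)))
 (.n (.p (nat_lit 0xe490b8302) (nat_lit 0x204) (nat_lit 15))
 (.p (nat_lit 0x24ba24b624b424b224b04d0506) (nat_lit 0x8000002230) (nat_lit 51))))
 (.n (.n (.p (nat_lit 0x253825362534253222bd22bb06) (nat_lit 0x18000ceb00) (nat_lit 51))
 (.p (nat_lit 0x397567502) (nat_lit 0x240722) (nat_lit 30)))
 (.n (.p (nat_lit 0x149519902) (nat_lit 0x400807) (nat_lit 30))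
 (.p (nat_lit 0x5d835e9102) (nat_lit 0x2a00a0000900) (nat_lit 36)))))
 (.n (.n (.n (.p (nat_lit 0x1760175e175c175a16b316b106) (nat_lit 0x18000d0600) (nat_lit 51))
 (.p (nat_lit 0x73e0e9b02) (nat_lit 0x54001c) (nat_lit 4)))
 (.n (.p (nat_lit 0x1c2622a702) (nat_lit 0x200805) (nat_lit 4))
 (.p (nat_lit 0x5de8334102) (nat_lit 0x6000e200) (nat_lit 47))))
 (.n (.n (.p (nat_lit 0x1d1a1d161d141d121d10205b06) (nat_lit 0x8000056902) (nat_lit 51))
 (.p (nat_lit 0x2568256625642560255e4c1106) (nat_lit 0x2000092129) (nat_lit 52)))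
 (.n (.p (nat_lit 0x138710e302) (nat_lit 0x40040e) (nat_lit 15))
 (.p (nat_lit 0x13fe604902) (nat_lit 0x406a6254c800500040000) (nat_lit 50))))))

def c1024_699 : Tr :=
 .n (.n (.n (.n (.n (.n (.p (nat_lit 0x4e404e204e004de04da000304dd07) (nat_lit 0x100000) (nat_lit 7))
 (.p (nat_lit 0x1f1a61c702) (nat_lit 0x340d89ca4000300040600) (nat_lit 50)))
 (.p (nat_lit 0x42283d4302) (nat_lit 0x400612) (nat_lit 5)))
 (.n (.p (nat_lit 0x79e079c079a07960794246d06) (nat_lit 0x2000002b03) (nat_lit 52))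
 (.p (nat_lit 0x8c36d502) (nat_lit 0x30022d) (nat_lit 1))))
 (.n (.n (.p (nat_lit 0x21591e9102) (nat_lit 0x200a00) (nat_lit 15))
 (.p (nat_lit 0xb83d0502) (nat_lit 0x240020) (nat_lit 1)))
 (.n (.p (nat_lit 0xf6a067f02) (nat_lit 0x140307) (nat_lit 4))
 (.p (nat_lit 0x5cc31ad702) (nat_lit 0x2a0020000800) (nat_lit 38)))))
 (.n (.n (.n (.p (nat_lit 0x134c13481344134210cb10c706) (nat_lit 0xa000092500) (nat_lit 51))
 (.p (nat_lit 0xc020c000bfe0bfc0bfa427f06) (nat_lit 0x100000ca619) (nat_lit 52)))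
 (.n (.p (nat_lit 0x128b127f02) (nat_lit 0x14c405) (nat_lit 16))
 (.p (nat_lit 0x5d13063902) (nat_lit 0xa0040000000) (nat_lit 39))))
 (.n (.n (.p (nat_lit 0xb6c185302) (nat_lit 0x100202) (nat_lit 4))
 (.p (nat_lit 0x374e393102) (nat_lit 0x40226) (nat_lit 4)))
 (.n (.p (nat_lit 0x49b643e902) (nat_lit 0x34060c) (nat_lit 4))
 (.p (nat_lit 0x233e5fcd02) (nat_lit 0x95832b05000500000600) (nat_lit 50))))))
 (.n (.n (.n (.n (.p (nat_lit 0xc8c0c880c860c8409d509cd06) (nat_lit 0x88000d6200) (nat_lit 52))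
 (.p (nat_lit 0x17c517b902) (nat_lit 0x148615) (nat_lit 16)))
 (.n (.p (nat_lit 0x2346234423422340233e168b06) (nat_lit 0x10000016604) (nat_lit 51))
 (.p (nat_lit 0x26a59c502) (nat_lit 0x100106) (nat_lit 27))))
 (.n (.n (.p (nat_lit 0x113710fb02) (nat_lit 0x414401) (nat_lit 16))
 (.p (nat_lit 0x2ec509ef02) (nat_lit 0x54e123) (nat_lit 16)))
 (.n (.p (nat_lit 0x6c806c606c406c206be2b8b06) (nat_lit 0x1000010908) (nat_lit 51))
 (.p (nat_lit 0x5ec24c9102) (nat_lit 0xa0048b00) (nat_lit 48)))))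
 (.n (.n (.n (.p (nat_lit 0x1a95179b02) (nat_lit 0x446700) (nat_lit 16))
 (.p (nat_lit 0x17c2552d02) (nat_lit 0x4061c) (nat_lit 29)))
 (.n (.p (nat_lit 0x128a250102) (nat_lit 0x140406) (nat_lit 4))
 (.p (nat_lit 0x5e1a3bf702) (nat_lit 0x80050400) (nat_lit 48))))
 (.n (.n (.p (nat_lit 0x6041aed02) (nat_lit 0x3) (nat_lit 5))
 (.p (nat_lit 0x1150114e114c114a11480cb306) (nat_lit 0x8000c822a) (nat_lit 51)))
 (.n (.p (nat_lit 0x1ef533102) (nat_lit 0x44080e) (nat_lit 30))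
 (.p (nat_lit 0x64260d102) (nat_lit 0x35052a3a4000000040000) (nat_lit 50))))))

def c512_187 : Tr := .n c1024_187 c1024_699

def c1024_443 : Tr :=
 .n (.n (.n (.n (.n (.n (.p (nat_lit 0x28a02840280028d04) (nat_lit 0x12800400015) (nat_lit 17))
 (.p (nat_lit 0x1698618902) (nat_lit 0x340b86c64000000040600) (nat_lit 49)))
 (.p (nat_lit 0x1d1a1d181d141d121d10397906) (nat_lit 0x4000056411) (nat_lit 51)))
 (.n (.p (nat_lit 0x199e199c1996199417ed17eb06) (nat_lit 0x60000c0603) (nat_lit 52))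
 (.p (nat_lit 0x2c1a2a6502) (nat_lit 0x14092b) (nat_lit 5))))
 (.n (.n (.p (nat_lit 0x1fb21fae1fac1faa1d331d2f06) (nat_lit 0x1400004c900) (nat_lit 51))
 (.p (nat_lit 0x354837ff02) (nat_lit 0x4001f) (nat_lit 4)))
 (.n (.p (nat_lit 0xe050b3f02) (nat_lit 0x200207) (nat_lit 15))
 (.p (nat_lit 0x5d2b181102) (nat_lit 0x220060000700) (nat_lit 38)))))
 (.n (.n (.n (.p (nat_lit 0x117411721170116c0f610f5d06) (nat_lit 0x2800042400) (nat_lit 51))
 (.p (nat_lit 0x42093a6d02) (nat_lit 0x354518) (nat_lit 16)))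
 (.n (.p (nat_lit 0xe945a502) (nat_lit 0x300205) (nat_lit 30))
 (.p (nat_lit 0x3e95c0b02) (nat_lit 0x500b25) (nat_lit 28))))
 (.n (.n (.p (nat_lit 0x2316231423122310230e0035231907) (nat_lit 0x540a01) (nat_lit 7))
 (.p (nat_lit 0x2bc229e702) (nat_lit 0x500924) (nat_lit 4)))
 (.n (.p (nat_lit 0x407a3cab02) (nat_lit 0x20040b) (nat_lit 4))
 (.p (nat_lit 0x14005f8502) (nat_lit 0x581a32b44000500040000) (nat_lit 50))))))
 (.n (.n (.n (.n (.p (nat_lit 0xa6e0a6c0a6a0a68087b087906) (nat_lit 0x18000080200) (nat_lit 51))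
 (.p (nat_lit 0x12aa12a612a412a212a0139306) (nat_lit 0x800000a515) (nat_lit 51)))
 (.n (.p (nat_lit 0x127a12781276127200c800b900b51275127109) (nat_lit 0x1040404) (nat_lit 10))
 (.p (nat_lit 0x5918591659145912590e0143009207) (nat_lit 0x116003) (nat_lit 25))))
 (.n (.n (.p (nat_lit 0xa00157302) (nat_lit 0x240101) (nat_lit 4))
 (.p (nat_lit 0x3555074102) (nat_lit 0x50023) (nat_lit 16)))
 (.n (.p (nat_lit 0x241e51d702) (nat_lit 0x500b07) (nat_lit 29))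
 (.p (nat_lit 0x5eaa247f02) (nat_lit 0xa0010a00) (nat_lit 47)))))
 (.n (.n (.n (.p (nat_lit 0x18f418f218f018ee162b162106) (nat_lit 0x10800096700) (nat_lit 51))
 (.p (nat_lit 0x30f551102) (nat_lit 0x44011c) (nat_lit 30)))
 (.n (.p (nat_lit 0x8de236502) (nat_lit 0x100106) (nat_lit 4))
 (.p (nat_lit 0x5d6b0d1b02) (nat_lit 0x120080000300) (nat_lit 40))))
 (.n (.n (.p (nat_lit 0x1820181c181818162323231f06) (nat_lit 0xa00004ea02) (nat_lit 51))
 (.p (nat_lit 0x43757ab02) (nat_lit 0x14012a) (nat_lit 30)))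
 (.n (.p (nat_lit 0x6620660065c065814cf14cb06) (nat_lit 0x500004450e) (nat_lit 51))
 (.p (nat_lit 0x13ee608b02) (nat_lit 0x354221ca4000500040000) (nat_lit 49))))))

def c1024_955 : Tr :=
 .n (.n (.n (.n (.n (.p (nat_lit 0x6920690068c068a0688065306) (nat_lit 0x4000048000) (nat_lit 52))
 (.p (nat_lit 0x23f823f623f423f223f04ea106) (nat_lit 0x10000090414) (nat_lit 51)))
 (.n (.p (nat_lit 0x6101f1d02) (nat_lit 0x4) (nat_lit 5))
 (.p (nat_lit 0x429a41d902) (nat_lit 0x14062e) (nat_lit 5))))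
 (.n (.n (.p (nat_lit 0x232f1ffb02) (nat_lit 0x450a00) (nat_lit 16))
 (.p (nat_lit 0x449c46b102) (nat_lit 0x40021) (nat_lit 5)))
 (.n (.p (nat_lit 0x147516702) (nat_lit 0x340407) (nat_lit 30))
 (.p (nat_lit 0x5cbb5e7f02) (nat_lit 0x20000000900) (nat_lit 36)))))
 (.n (.n (.n (.p (nat_lit 0x1550153902) (nat_lit 0x200600) (nat_lit 4))
 (.p (nat_lit 0x4f2e4cb302) (nat_lit 0x14041b) (nat_lit 4)))
 (.n (.p (nat_lit 0x1962229502) (nat_lit 0x500705) (nat_lit 5))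
 (.p (nat_lit 0x5d3108ef02) (nat_lit 0x1c0060000100) (nat_lit 39))))
 (.n (.n (.p (nat_lit 0x126f126302) (nat_lit 0x552402) (nat_lit 16))
 (.p (nat_lit 0x10321030102e102c102a428d06) (nat_lit 0x8000c4627) (nat_lit 51)))
 (.n (.p (nat_lit 0xe160e140e120e100e0e01e70e0d07) (nat_lit 0x30e) (nat_lit 7))
 (.p (nat_lit 0x2346600d02) (nat_lit 0x405aa0b54800500000600) (nat_lit 50))))))
 (.n (.n (.n (.n (.p (nat_lit 0xe3d0b2f02) (nat_lit 0x10300) (nat_lit 16))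
 (.p (nat_lit 0x217e0b0702) (nat_lit 0x300a15) (nat_lit 4)))
 (.n (.p (nat_lit 0x1b9a1b981b961b941957194d06) (nat_lit 0x10800014704) (nat_lit 52))
 (.p (nat_lit 0x1e201e001da01d801c9014706) (nat_lit 0x131280d) (nat_lit 26))))
 (.n (.n (.p (nat_lit 0x2b311c1d02) (nat_lit 0x308801) (nat_lit 16))
 (.p (nat_lit 0x193e193c193a1938193403a3193707) (nat_lit 0x100723) (nat_lit 7)))
 (.n (.p (nat_lit 0x6620660065e065c0658332506) (nat_lit 0x1000004a09) (nat_lit 51))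
 (.p (nat_lit 0x20725f0d02) (nat_lit 0x3a2530344000400000600) (nat_lit 49)))))
 (.n (.n (.n (.p (nat_lit 0x1c4f1c4302) (nat_lit 0x440800) (nat_lit 34))
 (.p (nat_lit 0x218b1ec302) (nat_lit 0x30091c) (nat_lit 15)))
 (.n (.p (nat_lit 0x12001310127253f23e905) (nat_lit 0x84200806) (nat_lit 9))
 (.p (nat_lit 0x5d9b5e3502) (nat_lit 0x1200a0000500) (nat_lit 36))))
 (.n (.n (.p (nat_lit 0x367e367c367a367636740b7b06) (nat_lit 0x200000a203) (nat_lit 52))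
 (.p (nat_lit 0x2ab62ab42ab22ab02aae167106) (nat_lit 0x800001062a) (nat_lit 52)))
 (.n (.p (nat_lit 0x27cc27ca27c827c427c228d906) (nat_lit 0x200000a30f) (nat_lit 52))
 (.p (nat_lit 0x634611302) (nat_lit 0x34252a1b0000000040000) (nat_lit 49))))))

def c512_443 : Tr := .n c1024_443 c1024_955

def c256_187 : Tr := .n c512_187 c512_443

def c128_59 : Tr := .n c256_59 c256_187

def c1024_123 : Tr :=
 .n (.n (.n (.n (.n (.n (.p (nat_lit 0x7d006f006603) (nat_lit 0x61000002) (nat_lit 19))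
 (.p (nat_lit 0x13fc613d02) (nat_lit 0x342a21d84000500040000) (nat_lit 50)))
 (.p (nat_lit 0x309e2e5302) (nat_lit 0x440310) (nat_lit 5)))
 (.n (.p (nat_lit 0x38ae38ac38a838a638a4111106) (nat_lit 0x4000084403) (nat_lit 51))
 (.p (nat_lit 0x1edc148d02) (nat_lit 0x40092a) (nat_lit 4))))
 (.n (.n (.p (nat_lit 0x1d851a6502) (nat_lit 0x44c800) (nat_lit 16))
 (.p (nat_lit 0x394259102) (nat_lit 0x140b1c) (nat_lit 1)))
 (.n (.p (nat_lit 0x18121810180e180c180a1d9f06) (nat_lit 0x1000004e806) (nat_lit 52))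
 (.p (nat_lit 0x5d47154702) (nat_lit 0x60060000600) (nat_lit 40)))))
 (.n (.n (.n (.p (nat_lit 0xf7f0c9902) (nat_lit 0x542300) (nat_lit 16))
 (.p (nat_lit 0x2b1427db02) (nat_lit 0x816) (nat_lit 4)))
 (.n (.p (nat_lit 0x212e212c212a21262124247906) (nat_lit 0x200000eb04) (nat_lit 52))
 (.p (nat_lit 0x288028602820280000b030b06) (nat_lit 0x2a0a415) (nat_lit 26))))
 (.n (.n (.p (nat_lit 0x16ac16aa16a616a41eeb1ee506) (nat_lit 0x1200008c901) (nat_lit 51))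
 (.p (nat_lit 0x405c4058405640541ed11ec906) (nat_lit 0x880000c923) (nat_lit 52)))
 (.n (.p (nat_lit 0x3862385e385c385a01aa01a3019f3865386109) (nat_lit 0x2b4030a) (nat_lit 10))
 (.p (nat_lit 0x20725f3702) (nat_lit 0x3a6560c44000400000600) (nat_lit 49))))))
 (.n (.n (.n (.n (.p (nat_lit 0x7e607e407e207de07dc05c106) (nat_lit 0x200000a100) (nat_lit 51))
 (.p (nat_lit 0x72a0bcd02) (nat_lit 0x140015) (nat_lit 4)))
 (.n (.p (nat_lit 0xce90a2702) (nat_lit 0x340104) (nat_lit 15))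
 (.p (nat_lit 0x4a0648a902) (nat_lit 0x20072f) (nat_lit 4))))
 (.n (.n (.p (nat_lit 0x11822c102) (nat_lit 0x340b00) (nat_lit 1))
 (.p (nat_lit 0x4c024d7f02) (nat_lit 0x100122) (nat_lit 5)))
 (.n (.p (nat_lit 0x1a68055102) (nat_lit 0x40707) (nat_lit 4))
 (.p (nat_lit 0x5d751da902) (nat_lit 0x80080000900) (nat_lit 38)))))
 (.n (.n (.n (.p (nat_lit 0x16ad16a102) (nat_lit 0x440600) (nat_lit 34))
 (.p (nat_lit 0x1db61db41db21db01dac05d706) (nat_lit 0x100001201c) (nat_lit 51)))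
 (.n (.p (nat_lit 0x19841980197e197c1ac71ac306) (nat_lit 0x140000ce705) (nat_lit 51))
 (.p (nat_lit 0x5de00e0f02) (nat_lit 0x20000200) (nat_lit 47))))
 (.n (.n (.p (nat_lit 0x205618c102) (nat_lit 0x240902) (nat_lit 4))
 (.p (nat_lit 0x4a4e47c702) (nat_lit 0x340728) (nat_lit 5)))
 (.n (.p (nat_lit 0xfea0fe80fe40fe20fe010e106) (nat_lit 0x400000840e) (nat_lit 51))
 (.p (nat_lit 0xe7a603902) (nat_lit 0x4a8162340800300040000) (nat_lit 50))))))

def c1024_635 : Tr :=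
 .n (.n (.n (.n (.n (.n (.p (nat_lit 0x43c04380434044104) (nat_lit 0xa80040002a) (nat_lit 17))
 (.p (nat_lit 0xbb061bb02) (nat_lit 0x322266c15000200040000) (nat_lit 49)))
 (.p (nat_lit 0x1fca1fc81fc61fc41fc2410b06) (nat_lit 0x1000004e412) (nat_lit 52)))
 (.n (.p (nat_lit 0x1e5a1e581e561e521e50232b06) (nat_lit 0x20000cca03) (nat_lit 51))
 (.p (nat_lit 0x340231d702) (nat_lit 0xb2c) (nat_lit 4))))
 (.n (.n (.p (nat_lit 0x211421122110210e210c1e9706) (nat_lit 0x1000000ca00) (nat_lit 52))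
 (.p (nat_lit 0x3be437c902) (nat_lit 0x140b1f) (nat_lit 4)))
 (.n (.p (nat_lit 0x1820181c181a181818160e0906) (nat_lit 0x800000e307) (nat_lit 51))
 (.p (nat_lit 0x5e6837d302) (nat_lit 0x800) (nat_lit 47)))))
 (.n (.n (.n (.p (nat_lit 0x12ce12cc12ca12c812c610c306) (nat_lit 0x800004500) (nat_lit 52))
 (.p (nat_lit 0x1fee1fec1fea1fe81fe6420d06) (nat_lit 0x100000d6519) (nat_lit 51)))
 (.n (.p (nat_lit 0x112c112a11281124112200e7112707) (nat_lit 0x200405) (nat_lit 7))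
 (.p (nat_lit 0x5db0137f02) (nat_lit 0x4000) (nat_lit 48))))
 (.n (.n (.p (nat_lit 0x2dd22dd02dce2dcc2dca2dc806) (nat_lit 0x8102) (nat_lit 52))
 (.p (nat_lit 0x363e391b02) (nat_lit 0x40126) (nat_lit 4)))
 (.n (.p (nat_lit 0x4752444b02) (nat_lit 0x24030c) (nat_lit 4))
 (.p (nat_lit 0x1dac5fc302) (nat_lit 0x89832915800300000600) (nat_lit 50))))))
 (.n (.n (.n (.n (.p (nat_lit 0xbe00bdc0bda0bd809d509cd06) (nat_lit 0x8800048200) (nat_lit 51))
 (.p (nat_lit 0x283543302) (nat_lit 0x100615) (nat_lit 30)))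
 (.n (.p (nat_lit 0xbb00bae0bac0baa0ba6168306) (nat_lit 0x1000084604) (nat_lit 52))
 (.p (nat_lit 0xea00e800e600e2000b040b06) (nat_lit 0x290e405) (nat_lit 26))))
 (.n (.n (.p (nat_lit 0x2f28eb02) (nat_lit 0x240301) (nat_lit 30))
 (.p (nat_lit 0xfe60fe40fe20fe009ef09ed06) (nat_lit 0x18000048123) (nat_lit 51)))
 (.n (.p (nat_lit 0x2cae2cac2caa2ca82ca42aff06) (nat_lit 0x1000006808) (nat_lit 52))
 (.p (nat_lit 0x5d5f249502) (nat_lit 0x1e0080000b00) (nat_lit 41)))))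
 (.n (.n (.n (.p (nat_lit 0x1a401a3e1a3c1a3a1a38179d06) (nat_lit 0x100000d4700) (nat_lit 52))
 (.p (nat_lit 0x102610221020101c14e914e306) (nat_lit 0x900004451c) (nat_lit 51)))
 (.n (.p (nat_lit 0x4df44df24dee4dec0fcf0fc906) (nat_lit 0x48000c0306) (nat_lit 52))
 (.p (nat_lit 0x5e162bbf02) (nat_lit 0x6000c400) (nat_lit 48))))
 (.n (.n (.p (nat_lit 0x25b818f302) (nat_lit 0x340b02) (nat_lit 5))
 (.p (nat_lit 0xe1d0b5702) (nat_lit 0x20022a) (nat_lit 15)))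
 (.n (.p (nat_lit 0x1ed532302) (nat_lit 0x30080e) (nat_lit 30))
 (.p (nat_lit 0x1f0660b302) (nat_lit 0x350521a84000300040600) (nat_lit 49))))))

def c512_123 : Tr := .n c1024_123 c1024_635

def c1024_379 : Tr :=
 .n (.n (.n (.n (.n (.n (.p (nat_lit 0x1c101bd01ba03) (nat_lit 0x6200000b) (nat_lit 19))
 (.p (nat_lit 0x2492617702) (nat_lit 0x340c6ab84000500040600) (nat_lit 50)))
 (.p (nat_lit 0x38e638e438e238e0024a0243023938e938df09) (nat_lit 0x2800411) (nat_lit 10)))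
 (.n (.p (nat_lit 0x3a99167702) (nat_lit 0x102603) (nat_lit 16))
 (.p (nat_lit 0x2b322a4102) (nat_lit 0x82b) (nat_lit 5))))
 (.n (.n (.p (nat_lit 0x1d301d2e1d2c1d2a1d28000b1d3307) (nat_lit 0x540900) (nat_lit 7))
 (.p (nat_lit 0x339c307502) (nat_lit 0x140a1e) (nat_lit 5)))
 (.n (.p (nat_lit 0xb40065f02) (nat_lit 0x300207) (nat_lit 5))
 (.p (nat_lit 0x5d115e5902) (nat_lit 0xc0040000700) (nat_lit 37)))))
 (.n (.n (.n (.p (nat_lit 0x11250df702) (nat_lit 0x114400) (nat_lit 16))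
 (.p (nat_lit 0x38f036f702) (nat_lit 0x300418) (nat_lit 5)))
 (.n (.p (nat_lit 0x8da20a502) (nat_lit 0x500105) (nat_lit 4))
 (.p (nat_lit 0x3a603a403a203a00311000906) (nat_lit 0x2c04123) (nat_lit 26))))
 (.n (.n (.p (nat_lit 0x23be23bc23ba23b421ad21ab06) (nat_lit 0x3000088a01) (nat_lit 51))
 (.p (nat_lit 0x27b427b227ae27ac27aa03d727b107) (nat_lit 0x340124) (nat_lit 7)))
 (.n (.p (nat_lit 0x46753f0f02) (nat_lit 0x5620b) (nat_lit 16))
 (.p (nat_lit 0x114a5f7702) (nat_lit 0x3aa074b50000400040000) (nat_lit 50))))))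
 (.n (.n (.n (.n (.p (nat_lit 0xa3d072102) (nat_lit 0x256100) (nat_lit 16))
 (.p (nat_lit 0x4f35124902) (nat_lit 0x456415) (nat_lit 16)))
 (.n (.p (nat_lit 0xc200df00cf1f811e1905) (nat_lit 0xaca00404) (nat_lit 9))
 (.p (nat_lit 0x620060005a0058000703e306) (nat_lit 0x1a14402) (nat_lit 26))))
 (.n (.n (.p (nat_lit 0x26ae26ac26aa26a826a4074f06) (nat_lit 0x10000d2001) (nat_lit 52))
 (.p (nat_lit 0x3ae03b903bf11610ffb05) (nat_lit 0x81940023) (nat_lit 9)))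
 (.n (.p (nat_lit 0x22c806fb02) (nat_lit 0x140a07) (nat_lit 4))
 (.p (nat_lit 0x5d7121d502) (nat_lit 0xc0080000a00) (nat_lit 39)))))
 (.n (.n (.n (.p (nat_lit 0x18ba18b818b218b01627162506) (nat_lit 0x6000012700) (nat_lit 52))
 (.p (nat_lit 0xaac0aaa0aa80aa60887087d06) (nat_lit 0x1080000c11c) (nat_lit 51)))
 (.n (.p (nat_lit 0x1194aa702) (nat_lit 0x300006) (nat_lit 30))
 (.p (nat_lit 0x5dfe10eb02) (nat_lit 0x40002300) (nat_lit 47))))
 (.n (.n (.p (nat_lit 0x23222320231e231c231a0063232507) (nat_lit 0x540a02) (nat_lit 7))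
 (.p (nat_lit 0x89c089a089808940456043f0437089f089709) (nat_lit 0x290012a) (nat_lit 10)))
 (.n (.p (nat_lit 0x67a0678067606740672137f06) (nat_lit 0x80000650e) (nat_lit 51))
 (.p (nat_lit 0x2338607902) (nat_lit 0x4688ae154000500000600) (nat_lit 49))))))

def c1024_891 : Tr :=
 .n (.n (.n (.n (.n (.p (nat_lit 0x643063702) (nat_lit 0x140000) (nat_lit 34))
 (.p (nat_lit 0x920091e091c091a09184a2f06) (nat_lit 0x10000048713) (nat_lit 51)))
 (.n (.p (nat_lit 0x154a154815461544154025c106) (nat_lit 0x100004cb03) (nat_lit 51))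
 (.p (nat_lit 0x1e4e1e4c1e4a1e481e463f2506) (nat_lit 0x80004c22e) (nat_lit 52))))
 (.n (.n (.p (nat_lit 0x22a822a622a422a21ffd1ffb06) (nat_lit 0x18000050a00) (nat_lit 52))
 (.p (nat_lit 0x43483f8102) (nat_lit 0x200b20) (nat_lit 4)))
 (.n (.p (nat_lit 0x14241420141e141c141a10d706) (nat_lit 0x8000004407) (nat_lit 51))
 (.p (nat_lit 0x5e781ab902) (nat_lit 0x80054800) (nat_lit 47)))))
 (.n (.n (.n (.p (nat_lit 0x651122102) (nat_lit 0x240500) (nat_lit 15))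
 (.p (nat_lit 0x28649e702) (nat_lit 0x30071a) (nat_lit 1)))
 (.n (.p (nat_lit 0x180818061804180017fe00e7180307) (nat_lit 0x240605) (nat_lit 7))
 (.p (nat_lit 0x5dc8072b02) (nat_lit 0x20046100) (nat_lit 47))))
 (.n (.n (.p (nat_lit 0x110030b102) (nat_lit 0x100402) (nat_lit 29))
 (.p (nat_lit 0x458f3dfb02) (nat_lit 0x456127) (nat_lit 16)))
 (.n (.p (nat_lit 0x50424b6702) (nat_lit 0x50080d) (nat_lit 5))
 (.p (nat_lit 0x12a85ff902) (nat_lit 0x466b80b44000500000000) (nat_lit 50))))))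
 (.n (.n (.n (.n (.p (nat_lit 0xd9e0d9c0d9a0d960b390b3106) (nat_lit 0x11000010300) (nat_lit 51))
 (.p (nat_lit 0x1eb8548102) (nat_lit 0x400915) (nat_lit 29)))
 (.n (.p (nat_lit 0x1956195419521950194c00b7194f07) (nat_lit 0x100704) (nat_lit 7))
 (.p (nat_lit 0x1a0019c019a01980499008d06) (nat_lit 0x2b0830a) (nat_lit 26))))
 (.n (.n (.p (nat_lit 0x1c201c1e1c181c16004c0031002f1c1d1c1b09) (nat_lit 0x1a00801) (nat_lit 10))
 (.p (nat_lit 0x1660103902) (nat_lit 0x200623) (nat_lit 4)))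
 (.n (.p (nat_lit 0x31662cbd02) (nat_lit 0x40409) (nat_lit 5))
 (.p (nat_lit 0x180e5ef102) (nat_lit 0x4a1d22344000100000600) (nat_lit 49)))))
 (.n (.n (.n (.p (nat_lit 0x1bf1190302) (nat_lit 0x504800) (nat_lit 16))
 (.p (nat_lit 0x1d600f1102) (nat_lit 0x44081c) (nat_lit 4)))
 (.n (.p (nat_lit 0x1ad04ffb02) (nat_lit 0x440706) (nat_lit 29))
 (.p (nat_lit 0x5e2c3c0102) (nat_lit 0x60050500) (nat_lit 48))))
 (.n (.n (.p (nat_lit 0x35e035de35dc35da35d835d600940a190a170a150a) (nat_lit 0x8840103) (nat_lit 31))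
 (.p (nat_lit 0x10020ffe0ffc0ffa0ff80f8906) (nat_lit 0x80000c032a) (nat_lit 52)))
 (.n (.p (nat_lit 0x4bc64bc44bc24bc04bbe242b06) (nat_lit 0x10000088b0e) (nat_lit 51))
 (.p (nat_lit 0x64260fb02) (nat_lit 0x460d623a4000000040000) (nat_lit 50))))))

def c512_379 : Tr := .n c1024_379 c1024_891

def c256_123 : Tr := .n c512_123 c512_379

def c1024_251 : Tr :=
 .n (.n (.n (.n (.n (.n (.p (nat_lit 0xe800e200f103) (nat_lit 0x4800500005) (nat_lit 17))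
 (.p (nat_lit 0x1986615b02) (nat_lit 0x3503a8d64000100040600) (nat_lit 50)))
 (.p (nat_lit 0x32e932e102) (nat_lit 0x146910) (nat_lit 16)))
 (.n (.p (nat_lit 0x13cd13c102) (nat_lit 0x314503) (nat_lit 16))
 (.p (nat_lit 0x490c490a490849044902230706) (nat_lit 0x20000c4a2a) (nat_lit 52))))
 (.n (.n (.p (nat_lit 0x1e641e621e601e5c1bcd1bc506) (nat_lit 0x1100000e900) (nat_lit 51))
 (.p (nat_lit 0x2c7028c302) (nat_lit 0x140a1d) (nat_lit 4)))
 (.n (.p (nat_lit 0x22942290228e228c228a1f0106) (nat_lit 0x800000e906) (nat_lit 51))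
 (.p (nat_lit 0x5cbb181702) (nat_lit 0x20000000700) (nat_lit 40)))))
 (.n (.n (.n (.p (nat_lit 0x10181016101410120dff0df506) (nat_lit 0x10800082400) (nat_lit 51))
 (.p (nat_lit 0x32aa2eff02) (nat_lit 0x200917) (nat_lit 4)))
 (.n (.p (nat_lit 0x438925cd02) (nat_lit 0x146b04) (nat_lit 16))
 (.p (nat_lit 0x3075b7b02) (nat_lit 0x11c) (nat_lit 28))))
 (.n (.n (.p (nat_lit 0x1150114e114c114a1148204706) (nat_lit 0x8000c8901) (nat_lit 51))
 (.p (nat_lit 0x3a9572d02) (nat_lit 0x400b23) (nat_lit 30)))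
 (.n (.p (nat_lit 0x1a1526502) (nat_lit 0x400a0a) (nat_lit 30))
 (.p (nat_lit 0x1adc5f5b02) (nat_lit 0x1a2276350000200000600) (nat_lit 49))))))
 (.n (.n (.n (.n (.p (nat_lit 0x9160910090e090c0725072306) (nat_lit 0xc0000c6100) (nat_lit 51))
 (.p (nat_lit 0xe9a0e980e960e920e9010eb06) (nat_lit 0x2000080415) (nat_lit 52)))
 (.n (.p (nat_lit 0x3ee03ede3edc3eda3ed80ce306) (nat_lit 0x80004c204) (nat_lit 52))
 (.p (nat_lit 0x210588f02) (nat_lit 0x300101) (nat_lit 27))))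
 (.n (.n (.p (nat_lit 0x256f22bf02) (nat_lit 0x240b00) (nat_lit 16))
 (.p (nat_lit 0x50b84db102) (nat_lit 0x440822) (nat_lit 5)))
 (.n (.p (nat_lit 0x1d3e06d502) (nat_lit 0x540807) (nat_lit 5))
 (.p (nat_lit 0x5ceb206d02) (nat_lit 0x20020000a00) (nat_lit 38)))))
 (.n (.n (.n (.p (nat_lit 0x1790178c178a1788178616b906) (nat_lit 0x80000d4600) (nat_lit 52))
 (.p (nat_lit 0x19841982197e197c073f073906) (nat_lit 0x120000ce01c) (nat_lit 51)))
 (.n (.p (nat_lit 0x1ff01fea1fe81fe61c2b1c2906) (nat_lit 0xc000096805) (nat_lit 51))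
 (.p (nat_lit 0x5dec0e1502) (nat_lit 0x80000200) (nat_lit 47))))
 (.n (.n (.p (nat_lit 0x8f208ee08ec08ea08e821bd06) (nat_lit 0x8000082a02) (nat_lit 52))
 (.p (nat_lit 0x4ff04ef102) (nat_lit 0x500729) (nat_lit 4)))
 (.n (.p (nat_lit 0xe740e720e700e6e0e6c123f06) (nat_lit 0x100000c640e) (nat_lit 52))
 (.p (nat_lit 0x1538605d02) (nat_lit 0x506272b31000000000600) (nat_lit 49))))))

def c1024_763 : Tr :=
 .n (.n (.n (.n (.n (.n (.p (nat_lit 0x50605040502050004fe04e506) (nat_lit 0x10000006000) (nat_lit 52))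
 (.p (nat_lit 0x233661d702) (nat_lit 0x542266c0c800500000600) (nat_lit 49)))
 (.p (nat_lit 0x43723d5f02) (nat_lit 0x240b12) (nat_lit 5)))
 (.n (.p (nat_lit 0x1c501c4c1c4a1c481c46247106) (nat_lit 0x8000090b03) (nat_lit 51))
 (.p (nat_lit 0x387039b502) (nat_lit 0x24032d) (nat_lit 5))))
 (.n (.n (.p (nat_lit 0xe41ff502) (nat_lit 0x140a00) (nat_lit 1))
 (.p (nat_lit 0x3df03dee3de83de6037c036903673ded3deb09) (nat_lit 0x1a40120) (nat_lit 10)))
 (.n (.p (nat_lit 0x197a19781974197219700f6f06) (nat_lit 0x40000ce307) (nat_lit 52))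
 (.p (nat_lit 0x5d435e7502) (nat_lit 0xa0060000800) (nat_lit 37)))))
 (.n (.n (.n (.p (nat_lit 0x13e510c902) (nat_lit 0x316500) (nat_lit 16))
 (.p (nat_lit 0x440a440844064404440202fd440d07) (nat_lit 0x50001a) (nat_lit 7)))
 (.n (.p (nat_lit 0xed48df02) (nat_lit 0x540505) (nat_lit 30))
 (.p (nat_lit 0x5d77064902) (nat_lit 0x60080000000) (nat_lit 41))))
 (.n (.n (.p (nat_lit 0x2f8a2f882f862f842f800ccd06) (nat_lit 0x10000d4202) (nat_lit 51))
 (.p (nat_lit 0x3ba2395702) (nat_lit 0x400b26) (nat_lit 5)))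
 (.n (.p (nat_lit 0x4cf04aad02) (nat_lit 0x20d) (nat_lit 4))
 (.p (nat_lit 0x181e5fdd02) (nat_lit 0x3842a1c35000100000600) (nat_lit 50))))))
 (.n (.n (.n (.n (.p (nat_lit 0xb2e0d1302) (nat_lit 0x300) (nat_lit 5))
 (.p (nat_lit 0x545e545c545a545854565454028c07) (nat_lit 0x40715) (nat_lit 8)))
 (.n (.p (nat_lit 0x4ca04c604c404c217fd17f906) (nat_lit 0x14000040604) (nat_lit 52))
 (.p (nat_lit 0x11c01160114011200eb000706) (nat_lit 0x2312806) (nat_lit 26))))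
 (.n (.n (.p (nat_lit 0x13aa173b02) (nat_lit 0x400501) (nat_lit 4))
 (.p (nat_lit 0xd580d560d540d520b490b4706) (nat_lit 0x180000a223) (nat_lit 52)))
 (.n (.p (nat_lit 0x2f8c51fd02) (nat_lit 0x40209) (nat_lit 29))
 (.p (nat_lit 0x233c5ed302) (nat_lit 0x4a1a36344000500000600) (nat_lit 49)))))
 (.n (.n (.n (.p (nat_lit 0x1b021afe1afc1af8190118fb06) (nat_lit 0x9000080800) (nat_lit 51))
 (.p (nat_lit 0x30883086308430823080192906) (nat_lit 0x80001671c) (nat_lit 51)))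
 (.n (.p (nat_lit 0x1194f3f02) (nat_lit 0x300506) (nat_lit 30))
 (.p (nat_lit 0x5c9112a102) (nat_lit 0x2c0000000500) (nat_lit 40))))
 (.n (.n (.p (nat_lit 0x76c34d302) (nat_lit 0x440003) (nat_lit 29))
 (.p (nat_lit 0x2fab0cb902) (nat_lit 0x34e22a) (nat_lit 16)))
 (.n (.p (nat_lit 0x21731eab02) (nat_lit 0x30090e) (nat_lit 15))
 (.p (nat_lit 0xe7260db02) (nat_lit 0x340a621b0000300040000) (nat_lit 49))))))

def c512_251 : Tr := .n c1024_251 c1024_763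

def c1024_507 : Tr :=
 .n (.n (.n (.n (.n (.n (.p (nat_lit 0x3080306031503) (nat_lit 0x180050001c) (nat_lit 17))
 (.p (nat_lit 0x636619d02) (nat_lit 0x380aa5c14800000040000) (nat_lit 49)))
 (.p (nat_lit 0x3b7c35a702) (nat_lit 0x300b11) (nat_lit 5)))
 (.n (.p (nat_lit 0x21c61cff02) (nat_lit 0x300a03) (nat_lit 5))
 (.p (nat_lit 0x1a1e1a1c1a1a1a181a162fa506) (nat_lit 0x80005222c) (nat_lit 51))))
 (.n (.n (.p (nat_lit 0x1ff91d2f02) (nat_lit 0x340900) (nat_lit 15))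
 (.p (nat_lit 0x363a381902) (nat_lit 0x44011f) (nat_lit 4)))
 (.n (.p (nat_lit 0x9220920091e091c09180c9d06) (nat_lit 0x1000048207) (nat_lit 51))
 (.p (nat_lit 0x5d5b5e6102) (nat_lit 0x220080000700) (nat_lit 36)))))
 (.n (.n (.n (.p (nat_lit 0x120c120a120612040f670f6106) (nat_lit 0x12000056400) (nat_lit 51))
 (.p (nat_lit 0xaa20aa00a9e0a9c0a9a3b8306) (nat_lit 0x80008ab18) (nat_lit 51)))
 (.n (.p (nat_lit 0x46584656465246500cf90cf306) (nat_lit 0x1200004c205) (nat_lit 52))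
 (.p (nat_lit 0x46c5c4302) (nat_lit 0x50062a) (nat_lit 27))))
 (.n (.n (.p (nat_lit 0x600199102) (nat_lit 0x400002) (nat_lit 4))
 (.p (nat_lit 0x2ebe312b02) (nat_lit 0x240125) (nat_lit 4)))
 (.n (.p (nat_lit 0x662065e065c065a0658426506) (nat_lit 0x800004460b) (nat_lit 51))
 (.p (nat_lit 0x63a5f9702) (nat_lit 0x88bb0155800000040000) (nat_lit 49))))))
 (.n (.n (.n (.n (.p (nat_lit 0xae80ae40ae20ae0087b087706) (nat_lit 0x14000090200) (nat_lit 52))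
 (.p (nat_lit 0x31f5139302) (nat_lit 0x40e515) (nat_lit 16)))
 (.n (.p (nat_lit 0x412a412841264124412213cf06) (nat_lit 0x8000082504) (nat_lit 52))
 (.p (nat_lit 0x90008e008c008a0001005b06) (nat_lit 0x116603) (nat_lit 26))))
 (.n (.n (.p (nat_lit 0x3327bf02) (nat_lit 0x400201) (nat_lit 30))
 (.p (nat_lit 0x12aa12a612a212a00891088d06) (nat_lit 0xa00000a123) (nat_lit 51)))
 (.n (.p (nat_lit 0x280c265502) (nat_lit 0x208) (nat_lit 5))
 (.p (nat_lit 0x5ccf248f02) (nat_lit 0x1e0020000b00) (nat_lit 41)))))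
 (.n (.n (.n (.p (nat_lit 0x1792197102) (nat_lit 0x40700) (nat_lit 4))
 (.p (nat_lit 0x309551702) (nat_lit 0x10051c) (nat_lit 30)))
 (.n (.p (nat_lit 0xa4224c702) (nat_lit 0x540106) (nat_lit 5))
 (.p (nat_lit 0x5cb90fd502) (nat_lit 0x40000000400) (nat_lit 38))))
 (.n (.n (.p (nat_lit 0x2331232502) (nat_lit 0x552a02) (nat_lit 16))
 (.p (nat_lit 0x6c806c606c406c006be09f506) (nat_lit 0x200005012a) (nat_lit 51)))
 (.n (.p (nat_lit 0x1eb52fd02) (nat_lit 0x20060e) (nat_lit 30))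
 (.p (nat_lit 0x197a609702) (nat_lit 0x344580ca4000100040600) (nat_lit 49))))))

def c1024_1019 : Tr :=
 .n (.n (.n (.n (.n (.p (nat_lit 0x737064f02) (nat_lit 0x146000) (nat_lit 16))
 (.p (nat_lit 0x50104be502) (nat_lit 0x440714) (nat_lit 4)))
 (.n (.p (nat_lit 0x1b0077502) (nat_lit 0x240004) (nat_lit 1))
 (.p (nat_lit 0x452248e102) (nat_lit 0x12f) (nat_lit 5))))
 (.n (.n (.p (nat_lit 0x23d623d223d023ce23cc215d06) (nat_lit 0x800000eb00) (nat_lit 52))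
 (.p (nat_lit 0x495e46cb02) (nat_lit 0x440521) (nat_lit 4)))
 (.n (.p (nat_lit 0x2a03122f02) (nat_lit 0x34c407) (nat_lit 16))
 (.p (nat_lit 0x5ccb1daf02) (nat_lit 0x220020000900) (nat_lit 40)))))
 (.n (.n (.n (.p (nat_lit 0x15ee15ec15ea15e615e4155106) (nat_lit 0x2000090600) (nat_lit 52))
 (.p (nat_lit 0xa7e0a7c0a7a0a760a74505506) (nat_lit 0x200000881b) (nat_lit 52)))
 (.n (.p (nat_lit 0x207420722070206e206c195906) (nat_lit 0x800014705) (nat_lit 52))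
 (.p (nat_lit 0x5da95dd902) (nat_lit 0x400a0000100) (nat_lit 37))))
 (.n (.n (.p (nat_lit 0x150018ad02) (nat_lit 0x440502) (nat_lit 5))
 (.p (nat_lit 0x44b2480302) (nat_lit 0x540028) (nat_lit 5)))
 (.n (.p (nat_lit 0xc800c7e0c7c0c7a0c780e1106) (nat_lit 0x200001630e) (nat_lit 52))
 (.p (nat_lit 0xbae601b02) (nat_lit 0x4099a2354800200040000) (nat_lit 49))))))
 (.n (.n (.n (.n (.p (nat_lit 0xe9a0e980e960e920e900c9306) (nat_lit 0x20000c0300) (nat_lit 52))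
 (.p (nat_lit 0x22e60b1502) (nat_lit 0x440a15) (nat_lit 4)))
 (.n (.p (nat_lit 0x1ab61fd502) (nat_lit 0x340704) (nat_lit 4))
 (.p (nat_lit 0x2225a9102) (nat_lit 0x70e) (nat_lit 27))))
 (.n (.n (.p (nat_lit 0x1a2a1a281a261a221d811d7d06) (nat_lit 0x28000d2801) (nat_lit 51))
 (.p (nat_lit 0x1c02106902) (nat_lit 0x200823) (nat_lit 5)))
 (.n (.p (nat_lit 0x33d42d9302) (nat_lit 0x500b09) (nat_lit 4))
 (.p (nat_lit 0x15345f1902) (nat_lit 0x1a2274b50000000000600) (nat_lit 49)))))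
 (.n (.n (.n (.p (nat_lit 0x1cd21cd01cce1ccc1a5f1a5d06) (nat_lit 0x180004a800) (nat_lit 51))
 (.p (nat_lit 0x218a558702) (nat_lit 0x300a1c) (nat_lit 29)))
 (.n (.p (nat_lit 0x1820181c181a181818161c3706) (nat_lit 0x800000e806) (nat_lit 51))
 (.p (nat_lit 0x5c93154102) (nat_lit 0x2a0000000600) (nat_lit 40))))
 (.n (.n (.p (nat_lit 0xe40376b02) (nat_lit 0x200303) (nat_lit 29))
 (.p (nat_lit 0x194a146102) (nat_lit 0x50072a) (nat_lit 5)))
 (.n (.p (nat_lit 0x2ae2277502) (nat_lit 0x54050f) (nat_lit 4))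
 (.p (nat_lit 0x206c611d02) (nat_lit 0x35486a3a4000400000600) (nat_lit 49))))))

def c512_507 : Tr := .n c1024_507 c1024_1019

def c256_251 : Tr := .n c512_251 c512_507

def c128_123 : Tr := .n c256_123 c256_251

def c64_59 : Tr := .n c128_59 c128_123

def c32_27 : Tr := .n c64_27 c64_59

def c16_11 : Tr := .n c32_11 c32_27

def b11 : Tr := c16_11

theorem hb4_11 : allp (tst G49 true (getA DT)) b11 = true := by decide +kernel

end Vale.Agent.P032.H437.Ev2
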