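import Vale.Agent.P032.H437.Ev2.T

namespace Vale.Agent.P032.H437.Ev2
open Vale.Agent.P032.H859.Rup Vale.Agent.P032.H437

def c1024_12 : Tr :=
 .n (.n (.n (.n (.n (.n (.p (nat_lit 0x270025001f001104) (nat_lit 0x571000000) (nat_lit 21))
 (.p (nat_lit 0x12a712990feb0fd70d130d0d0a550a4d07a7079f04d704c361220d) (nat_lit 0x35486a3b0000000000000) (nat_lit 33)))
 (.p (nat_lit 0x53925390538e538c538a5388021607) (nat_lit 0x80f) (nat_lit 8)))
 (.n (.p (nat_lit 0x37d037ce37cc37ca37c837c606) (nat_lit 0x96303) (nat_lit 52))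
 (.p (nat_lit 0x1c0d194302) (nat_lit 0x10072a) (nat_lit 15))))
 (.n (.n (.p (nat_lit 0x1cea1ce81ce41ce21ce01a6306) (nat_lit 0x400004c800) (nat_lit 52))
 (.p (nat_lit 0x218a21882186218403340311030f218f218d09) (nat_lit 0x2c00a1c) (nat_lit 10)))
 (.n (.p (nat_lit 0x233c233a2338233623321c3106) (nat_lit 0x1000016806) (nat_lit 52))
 (.p (nat_lit 0x5ced154302) (nat_lit 0x20000600) (nat_lit 40)))))
 (.n (.n (.n (.p (nat_lit 0xea60ea40ea00e9c0c950c9106) (nat_lit 0x5000042300) (nat_lit 52))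
 (.p (nat_lit 0x258b22e702) (nat_lit 0x440a15) (nat_lit 15)))
 (.n (.p (nat_lit 0x1ab81ab41ab21ab000de00bf00bb1abb1ab709) (nat_lit 0x2b40704) (nat_lit 10))
 (.p (nat_lit 0x1ed5aa302) (nat_lit 0x30080e) (nat_lit 28))))
 (.n (.n (.p (nat_lit 0x18ea18e818e618e21d811d7d06) (nat_lit 0x2800056801) (nat_lit 51))
 (.p (nat_lit 0x390a39083906390439021c0906) (nat_lit 0x10000080823) (nat_lit 51)))
 (.n (.p (nat_lit 0x34202ced02) (nat_lit 0x340b09) (nat_lit 5))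
 (.p (nat_lit 0x1aea5f1b02) (nat_lit 0x3a2274b50000200000600) (nat_lit 50))))))
 (.n (.n (.n (.n (.p (nat_lit 0x75b064f02) (nat_lit 0x14e000) (nat_lit 16))
 (.p (nat_lit 0x504c4bf102) (nat_lit 0x400814) (nat_lit 4)))
 (.n (.p (nat_lit 0xbf3c7502) (nat_lit 0x540004) (nat_lit 30))
 (.p (nat_lit 0x459c48f502) (nat_lit 0x54012f) (nat_lit 5))))
 (.n (.n (.p (nat_lit 0x23ee23ec23ea23e823e623e406) (nat_lit 0x10b00) (nat_lit 52))
 (.p (nat_lit 0x30e49f502) (nat_lit 0x400721) (nat_lit 1)))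
 (.n (.p (nat_lit 0x1630053302) (nat_lit 0x200607) (nat_lit 4))
 (.p (nat_lit 0x5e823d0302) (nat_lit 0x20046900) (nat_lit 48)))))
 (.n (.n (.n (.p (nat_lit 0x160616041602160015fe154d06) (nat_lit 0x800092600) (nat_lit 51))
 (.p (nat_lit 0x50f84ce702) (nat_lit 0x91b) (nat_lit 4)))
 (.n (.p (nat_lit 0x1c27195d02) (nat_lit 0x200705) (nat_lit 15))
 (.p (nat_lit 0x5d8d079f02) (nat_lit 0x2000a0000100) (nat_lit 38))))
 (.n (.n (.p (nat_lit 0x32423240323e323c323a323806) (nat_lit 0x52502) (nat_lit 52))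
 (.p (nat_lit 0x4518478902) (nat_lit 0x100128) (nat_lit 4)))
 (.n (.p (nat_lit 0xf76090f02) (nat_lit 0x14030e) (nat_lit 5))
 (.p (nat_lit 0x2070601f02) (nat_lit 0x4099a2354800400000600) (nat_lit 49))))))

def c1024_524 : Tr :=
 .n (.n (.n (.n (.n (.n (.p (nat_lit 0x3290319031403) (nat_lit 0x2280001c) (nat_lit 19))
 (.p (nat_lit 0xe76619f02) (nat_lit 0x380aa5c15000300040000) (nat_lit 49)))
 (.p (nat_lit 0x7da07d807d607d207d03b7b06) (nat_lit 0x2000088b11) (nat_lit 51)))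
 (.n (.p (nat_lit 0x21ca21c621c421c2009e008f008721c921c109) (nat_lit 0x2000a03) (nat_lit 10))
 (.p (nat_lit 0x47d585302) (nat_lit 0x10032c) (nat_lit 30))))
 (.n (.n (.p (nat_lit 0x20211d3302) (nat_lit 0x544900) (nat_lit 16))
 (.p (nat_lit 0x3def363b02) (nat_lit 0x45411f) (nat_lit 16)))
 (.n (.p (nat_lit 0x94609420940093e093c0ca306) (nat_lit 0x80000ca207) (nat_lit 52))
 (.p (nat_lit 0x5d4f198502) (nat_lit 0x2e0080000700) (nat_lit 41)))))
 (.n (.n (.n (.p (nat_lit 0x12370f5f02) (nat_lit 0x142400) (nat_lit 16))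
 (.p (nat_lit 0x3be036b502) (nat_lit 0x540b18) (nat_lit 5)))
 (.n (.p (nat_lit 0x46a246a0469e469c469a469800ee07) (nat_lit 0x305) (nat_lit 8))
 (.p (nat_lit 0x4945c5302) (nat_lit 0x30082a) (nat_lit 27))))
 (.n (.n (.p (nat_lit 0x2cce2ccc2cca2cc82cc6060306) (nat_lit 0x10000014002) (nat_lit 51))
 (.p (nat_lit 0x363f2ebb02) (nat_lit 0x52125) (nat_lit 16)))
 (.n (.p (nat_lit 0x42b0527502) (nat_lit 0x70b) (nat_lit 29))
 (.p (nat_lit 0x1ad45f9b02) (nat_lit 0x88bb0155800200000600) (nat_lit 49))))))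
 (.n (.n (.n (.n (.p (nat_lit 0xb39087b02) (nat_lit 0x500200) (nat_lit 15))
 (.p (nat_lit 0x14da0c0102) (nat_lit 0x340515) (nat_lit 4)))
 (.n (.p (nat_lit 0x4166416441624160415c13c906) (nat_lit 0x100008c504) (nat_lit 52))
 (.p (nat_lit 0xb9594f02) (nat_lit 0x200004) (nat_lit 28))))
 (.n (.n (.p (nat_lit 0x28170b6902) (nat_lit 0x500201) (nat_lit 16))
 (.p (nat_lit 0x18121810180e180c180a089306) (nat_lit 0x1000000e123) (nat_lit 52)))
 (.n (.p (nat_lit 0x214281702) (nat_lit 0x500208) (nat_lit 1))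
 (.p (nat_lit 0x5d15248502) (nat_lit 0x80040000b00) (nat_lit 39)))))
 (.n (.n (.n (.p (nat_lit 0x5e179902) (nat_lit 0x340700) (nat_lit 1))
 (.p (nat_lit 0x13a00d5902) (nat_lit 0x50051c) (nat_lit 4)))
 (.n (.p (nat_lit 0x4c7e4c7c4c7a4c784c760a3906) (nat_lit 0x800052106) (nat_lit 51))
 (.p (nat_lit 0x5c915e0b02) (nat_lit 0x2c0000000400) (nat_lit 36))))
 (.n (.n (.p (nat_lit 0x246018e502) (nat_lit 0x200b02) (nat_lit 5))
 (.p (nat_lit 0x3e0309f502) (nat_lit 0x25212a) (nat_lit 16)))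
 (.n (.p (nat_lit 0x26f426f226f026ee26ec164306) (nat_lit 0x1000008860e) (nat_lit 51))
 (.p (nat_lit 0xe6e609b02) (nat_lit 0x342529ca4000300040000) (nat_lit 49))))))

def c512_12 : Tr := .n c1024_12 c1024_524

def c1024_268 : Tr :=
 .n (.n (.n (.n (.n (.n (.p (nat_lit 0x10700ff00f700f204) (nat_lit 0x4c800005) (nat_lit 20))
 (.p (nat_lit 0xe78615f02) (nat_lit 0x352829d84000300040000) (nat_lit 50)))
 (.p (nat_lit 0x7da07d807d607d207d0333306) (nat_lit 0x2000088a10) (nat_lit 51)))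
 (.n (.p (nat_lit 0x150a1cdb02) (nat_lit 0x340503) (nat_lit 5))
 (.p (nat_lit 0x245814b902) (nat_lit 0x400b2a) (nat_lit 5))))
 (.n (.n (.p (nat_lit 0x1e7e1e7c1e7a1e761e741bc706) (nat_lit 0x2000016900) (nat_lit 52))
 (.p (nat_lit 0x2d062fc702) (nat_lit 0x50001e) (nat_lit 4)))
 (.n (.p (nat_lit 0x50ff1eff02) (nat_lit 0x304906) (nat_lit 16))
 (.p (nat_lit 0x5ca9180b02) (nat_lit 0x140000000700) (nat_lit 38)))))
 (.n (.n (.n (.p (nat_lit 0x10321030102e102c0df70df506) (nat_lit 0x1800084400) (nat_lit 51))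
 (.p (nat_lit 0x339532ed02) (nat_lit 0x340917) (nat_lit 15)))
 (.n (.p (nat_lit 0x620208702) (nat_lit 0x200005) (nat_lit 4))
 (.p (nat_lit 0x3465b9302) (nat_lit 0x10071c) (nat_lit 27))))
 (.n (.n (.p (nat_lit 0x16a2169c169a1698204f204d06) (nat_lit 0xc0000cc901) (nat_lit 52))
 (.p (nat_lit 0x4e944e924e8e4e8c4e8a244b06) (nat_lit 0x4000090b23) (nat_lit 51)))
 (.n (.p (nat_lit 0x3b6a352502) (nat_lit 0xb0a) (nat_lit 4))
 (.p (nat_lit 0xfe05f5d02) (nat_lit 0x262530344000400000000) (nat_lit 50))))))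
 (.n (.n (.n (.n (.p (nat_lit 0x92e092c092809240723071f06) (nat_lit 0x50000c8100) (nat_lit 52))
 (.p (nat_lit 0xd580d560d540d500d4e10eb06) (nat_lit 0x200000a415) (nat_lit 52)))
 (.n (.p (nat_lit 0x3f250ce302) (nat_lit 0x4a204) (nat_lit 16))
 (.p (nat_lit 0x3400320030002e000102b106) (nat_lit 0x112201) (nat_lit 26))))
 (.n (.n (.p (nat_lit 0x259322bf02) (nat_lit 0x246b00) (nat_lit 16))
 (.p (nat_lit 0xeca0ec80ec40ec20ec050b706) (nat_lit 0x40000ca822) (nat_lit 51)))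
 (.n (.p (nat_lit 0x1d771d3b02) (nat_lit 0x348807) (nat_lit 16))
 (.p (nat_lit 0x5cdb21cf02) (nat_lit 0x120020000a00) (nat_lit 39)))))
 (.n (.n (.n (.p (nat_lit 0x17b716b102) (nat_lit 0x44600) (nat_lit 16))
 (.p (nat_lit 0x207420722070206e206c073506) (nat_lit 0x80005401c) (nat_lit 52)))
 (.n (.p (nat_lit 0xe34a8302) (nat_lit 0x40805) (nat_lit 30))
 (.p (nat_lit 0x5d9d5df102) (nat_lit 0x1000a0000200) (nat_lit 37))))
 (.n (.n (.p (nat_lit 0xe800e7e0e7c0e7a0e7821bf06) (nat_lit 0x10000086a02) (nat_lit 51))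
 (.p (nat_lit 0x506c579502) (nat_lit 0x200829) (nat_lit 29)))
 (.n (.p (nat_lit 0x16ae16aa16a816a616a4123d06) (nat_lit 0x80000cc40e) (nat_lit 51))
 (.p (nat_lit 0x1ae8605f02) (nat_lit 0x506272831000200000600) (nat_lit 50))))))

def c1024_780 : Tr :=
 .n (.n (.n (.n (.n (.n (.p (nat_lit 0x520051e051c0518051604df06) (nat_lit 0x2000008000) (nat_lit 51))
 (.p (nat_lit 0x181661dd02) (nat_lit 0x3302a5895000100000600) (nat_lit 50)))
 (.p (nat_lit 0x475c453102) (nat_lit 0x140313) (nat_lit 5)))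
 (.n (.p (nat_lit 0x21e221de21dc21da21d8247106) (nat_lit 0x8000094b03) (nat_lit 51))
 (.p (nat_lit 0x3b5639bf02) (nat_lit 0x240a2d) (nat_lit 5))))
 (.n (.n (.p (nat_lit 0xea1ffb02) (nat_lit 0x440a00) (nat_lit 1))
 (.p (nat_lit 0x3fe420f02) (nat_lit 0x240520) (nat_lit 1)))
 (.n (.p (nat_lit 0x1f1a1f181f161f121f100f6d06) (nat_lit 0x20000d2307) (nat_lit 51))
 (.p (nat_lit 0x5d2f1c4102) (nat_lit 0x1e0060000800) (nat_lit 39)))))
 (.n (.n (.n (.p (nat_lit 0x122213fd02) (nat_lit 0x340500) (nat_lit 5))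
 (.p (nat_lit 0x47ea45b102) (nat_lit 0x50041a) (nat_lit 4)))
 (.n (.p (nat_lit 0x4953152502) (nat_lit 0x444505) (nat_lit 16))
 (.p (nat_lit 0x5d57064902) (nat_lit 0x260080000000) (nat_lit 41))))
 (.n (.n (.p (nat_lit 0x592fb102) (nat_lit 0x302) (nat_lit 30))
 (.p (nat_lit 0x118c118a1186118411823ba106) (nat_lit 0x4000004b26) (nat_lit 52)))
 (.n (.p (nat_lit 0x4dc04ab902) (nat_lit 0x30d) (nat_lit 4))
 (.p (nat_lit 0x6385fe102) (nat_lit 0x3062a1c35000000040000) (nat_lit 49))))))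
 (.n (.n (.n (.n (.p (nat_lit 0xb340d1902) (nat_lit 0x300300) (nat_lit 5))
 (.p (nat_lit 0x1a86545b02) (nat_lit 0x340715) (nat_lit 29)))
 (.n (.p (nat_lit 0xa580a540a520a5017fd17f906) (nat_lit 0x14000044604) (nat_lit 51))
 (.p (nat_lit 0x1ec59f902) (nat_lit 0x300207) (nat_lit 27))))
 (.n (.n (.p (nat_lit 0x13af13a302) (nat_lit 0x10501) (nat_lit 16))
 (.p (nat_lit 0xdce0dcc0dc80dc40b4d0b4906) (nat_lit 0x5000014223) (nat_lit 52)))
 (.n (.p (nat_lit 0x2e5e2e5a2e582e562e542f9506) (nat_lit 0x8000048209) (nat_lit 51))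
 (.p (nat_lit 0x8fa5ed702) (nat_lit 0x4a1a36344000100040000) (nat_lit 50)))))
 (.n (.n (.n (.p (nat_lit 0x1b3c1b381b361b34190118f906) (nat_lit 0x8800006800) (nat_lit 52))
 (.p (nat_lit 0x1a8e0ef302) (nat_lit 0x14071c) (nat_lit 4)))
 (.n (.p (nat_lit 0x15321530152c152a15280119152f07) (nat_lit 0x340506) (nat_lit 7))
 (.p (nat_lit 0x5e223bfb02) (nat_lit 0x50500) (nat_lit 48))))
 (.n (.n (.p (nat_lit 0x353a3538353435323530076b06) (nat_lit 0x40000d6003) (nat_lit 52))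
 (.p (nat_lit 0x3a20e1b02) (nat_lit 0x10032a) (nat_lit 1)))
 (.n (.p (nat_lit 0x200e099502) (nat_lit 0x24090e) (nat_lit 5))
 (.p (nat_lit 0x234460dd02) (nat_lit 0x3505623a4000500000600) (nat_lit 50))))))

def c512_268 : Tr := .n c1024_268 c1024_780

def c256_12 : Tr := .n c512_12 c512_268

def c1024_140 : Tr :=
 .n (.n (.n (.n (.n (.n (.p (nat_lit 0x9000880086009304) (nat_lit 0x11800400003) (nat_lit 17))
 (.p (nat_lit 0x1ada614102) (nat_lit 0x352a21d84000200000600) (nat_lit 49)))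
 (.p (nat_lit 0x31022dd102) (nat_lit 0x400410) (nat_lit 4)))
 (.n (.p (nat_lit 0x38e7111302) (nat_lit 0x402403) (nat_lit 16))
 (.p (nat_lit 0x2bc91ed902) (nat_lit 0x20c92a) (nat_lit 16))))
 (.n (.n (.p (nat_lit 0x1dad1da102) (nat_lit 0x900) (nat_lit 34))
 (.p (nat_lit 0x25980df302) (nat_lit 0x540b1c) (nat_lit 4)))
 (.n (.p (nat_lit 0x1db61db41db21db01dae1d9506) (nat_lit 0x800052806) (nat_lit 51))
 (.p (nat_lit 0x5d35169f02) (nat_lit 0x180060000600) (nat_lit 39)))))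
 (.n (.n (.n (.p (nat_lit 0xfa50c8f02) (nat_lit 0x50300) (nat_lit 16))
 (.p (nat_lit 0x2bff2b6702) (nat_lit 0x540816) (nat_lit 15)))
 (.n (.p (nat_lit 0x21522150214e21482479247706) (nat_lit 0x3000090b04) (nat_lit 51))
 (.p (nat_lit 0x2bc5b1b02) (nat_lit 0x715) (nat_lit 27))))
 (.n (.n (.p (nat_lit 0x1f0e1f0a1f081f061f041ee906) (nat_lit 0x8000092901) (nat_lit 52))
 (.p (nat_lit 0x203011e902) (nat_lit 0x140923) (nat_lit 4)))
 (.n (.p (nat_lit 0x49038d502) (nat_lit 0x10040a) (nat_lit 1))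
 (.p (nat_lit 0x8ec5f3b02) (nat_lit 0x3a6560c44000100040000) (nat_lit 49))))))
 (.n (.n (.n (.n (.p (nat_lit 0x8120810080e080c05bf05bd06) (nat_lit 0x180008e100) (nat_lit 52))
 (.p (nat_lit 0x7300a7102) (nat_lit 0x440015) (nat_lit 5)))
 (.n (.p (nat_lit 0xb821f4d02) (nat_lit 0x204) (nat_lit 4))
 (.p (nat_lit 0x1430142c142a142814264a0b06) (nat_lit 0x800008472f) (nat_lit 52))))
 (.n (.n (.p (nat_lit 0x2497248b02) (nat_lit 0x540b00) (nat_lit 34))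
 (.p (nat_lit 0x4cae4cac4caa4ca84c0b4c0506) (nat_lit 0x12000008122) (nat_lit 52)))
 (.n (.p (nat_lit 0x1a7006bd02) (nat_lit 0x440707) (nat_lit 5))
 (.p (nat_lit 0x5d5d5e8f02) (nat_lit 0x200080000900) (nat_lit 37)))))
 (.n (.n (.n (.p (nat_lit 0x16d016ce16ca16c816bb16b506) (nat_lit 0x120000c0600) (nat_lit 52))
 (.p (nat_lit 0x21e021dc21da21d805df05db06) (nat_lit 0x1400009401c) (nat_lit 51)))
 (.n (.p (nat_lit 0x207e207c207a207820761ac706) (nat_lit 0x10000054705) (nat_lit 51))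
 (.p (nat_lit 0x5d1b0a5502) (nat_lit 0x20040000200) (nat_lit 40))))
 (.n (.n (.p (nat_lit 0x205a20582056205420520063205d07) (nat_lit 0x540902) (nat_lit 7))
 (.p (nat_lit 0x4b2a4e4302) (nat_lit 0x300029) (nat_lit 4)))
 (.n (.p (nat_lit 0x16a216a0169e169c169a10db06) (nat_lit 0x80008c40e) (nat_lit 52))
 (.p (nat_lit 0x1536604102) (nat_lit 0x4a8176340800000000600) (nat_lit 49))))))

def c1024_652 : Tr :=
 .n (.n (.n (.n (.n (.n (.p (nat_lit 0x43e0436044303) (nat_lit 0x1100050002a) (nat_lit 17))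
 (.p (nat_lit 0x114661bd02) (nat_lit 0x322266c75000400040000) (nat_lit 50)))
 (.p (nat_lit 0x418e3dad02) (nat_lit 0x400512) (nat_lit 4)))
 (.n (.p (nat_lit 0x1ff01fec1fea1fe81fe6232f06) (nat_lit 0x80000d6a03) (nat_lit 51))
 (.p (nat_lit 0x35d2399702) (nat_lit 0x40012d) (nat_lit 4))))
 (.n (.n (.p (nat_lit 0x212e212c212821241e931e8f06) (nat_lit 0x500000ea00) (nat_lit 52))
 (.p (nat_lit 0x35955eb02) (nat_lit 0x540b1f) (nat_lit 30)))
 (.n (.p (nat_lit 0x1f0e1f0c1f0a1f040e050e0306) (nat_lit 0x3000092307) (nat_lit 52))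
 (.p (nat_lit 0x5ce91ae302) (nat_lit 0x40020000800) (nat_lit 40)))))
 (.n (.n (.n (.p (nat_lit 0x12da12d412d212d010cb10c906) (nat_lit 0xc000084500) (nat_lit 51))
 (.p (nat_lit 0x42343e4102) (nat_lit 0x400619) (nat_lit 5)))
 (.n (.p (nat_lit 0x47b447b247b047ae47ac112306) (nat_lit 0x80000c405) (nat_lit 52))
 (.p (nat_lit 0x5cdf5db502) (nat_lit 0xe0020000000) (nat_lit 36))))
 (.n (.n (.p (nat_lit 0xa0a19af02) (nat_lit 0x140102) (nat_lit 4))
 (.p (nat_lit 0x1cae1cac1caa1ca61ca4364306) (nat_lit 0x20000c6126) (nat_lit 51)))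
 (.n (.p (nat_lit 0x21222120211e211a2118475306) (nat_lit 0x20000cc30c) (nat_lit 52))
 (.p (nat_lit 0x15385fc702) (nat_lit 0x89832b05000000000600) (nat_lit 49))))))
 (.n (.n (.n (.n (.p (nat_lit 0xbea0be80be60be40be209d706) (nat_lit 0x100000c8200) (nat_lit 51))
 (.p (nat_lit 0x164e0aaf02) (nat_lit 0x500615) (nat_lit 5)))
 (.n (.p (nat_lit 0xfe80fe60fe20fe0168b168506) (nat_lit 0x12000008604) (nat_lit 51))
 (.p (nat_lit 0x11659af02) (nat_lit 0x200605) (nat_lit 27))))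
 (.n (.n (.p (nat_lit 0xfa10f9502) (nat_lit 0x450301) (nat_lit 16))
 (.p (nat_lit 0x1820181e181a1818181609eb06) (nat_lit 0x400004e123) (nat_lit 51)))
 (.n (.p (nat_lit 0x17351f502) (nat_lit 0x240808) (nat_lit 30))
 (.p (nat_lit 0x5d51249502) (nat_lit 0x2c0080000b00) (nat_lit 41)))))
 (.n (.n (.n (.p (nat_lit 0x1a4e1a4a1a481a44179b179506) (nat_lit 0x9000056700) (nat_lit 52))
 (.p (nat_lit 0x11e411e211de11dc11da14e706) (nat_lit 0x400005251c) (nat_lit 52)))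
 (.n (.p (nat_lit 0x112e24f302) (nat_lit 0x406) (nat_lit 4))
 (.p (nat_lit 0x5d775e1b02) (nat_lit 0x60080000400) (nat_lit 36))))
 (.n (.n (.p (nat_lit 0x25bc25ba25b625b20076005f005b25b925b509) (nat_lit 0x1940b02) (nat_lit 10))
 (.p (nat_lit 0xcb257b502) (nat_lit 0x4022a) (nat_lit 29)))
 (.n (.p (nat_lit 0x35f635f435f235f035ee1be506) (nat_lit 0x1000008880e) (nat_lit 52))
 (.p (nat_lit 0x64260c902) (nat_lit 0x3505223a4000000040000) (nat_lit 50))))))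

def c512_140 : Tr := .n c1024_140 c1024_652

def c1024_396 : Tr :=
 .n (.n (.n (.n (.n (.n (.p (nat_lit 0x1ea01e801f503) (nat_lit 0x300050000e) (nat_lit 17))
 (.p (nat_lit 0x181c617d02) (nat_lit 0x421a86b15000100000600) (nat_lit 50)))
 (.p (nat_lit 0x1bb41bb01bae1bac1baa38e706) (nat_lit 0x8000016411) (nat_lit 52)))
 (.n (.p (nat_lit 0x17e63ab902) (nat_lit 0x40603) (nat_lit 29))
 (.p (nat_lit 0x2b722a4d02) (nat_lit 0x14082b) (nat_lit 5))))
 (.n (.n (.p (nat_lit 0x1f3c1f3a1f361f341d331d2d06) (nat_lit 0x12000042900) (nat_lit 52))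
 (.p (nat_lit 0xd400d3c0d3a0d380d3633a306) (nat_lit 0x8000042a1e) (nat_lit 51)))
 (.n (.p (nat_lit 0x14e015d0159066304f105) (nat_lit 0x64500207) (nat_lit 9))
 (.p (nat_lit 0x5e5830ff02) (nat_lit 0x40002700) (nat_lit 47)))))
 (.n (.n (.n (.p (nat_lit 0xf5e114902) (nat_lit 0x140400) (nat_lit 5))
 (.p (nat_lit 0x39ec367702) (nat_lit 0x100518) (nat_lit 4)))
 (.n (.p (nat_lit 0xa2c20a702) (nat_lit 0x40105) (nat_lit 4))
 (.p (nat_lit 0x3a35bdb02) (nat_lit 0x100a23) (nat_lit 28))))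
 (.n (.n (.p (nat_lit 0x23f823f623f423f223f021b306) (nat_lit 0x10000090a01) (nat_lit 51))
 (.p (nat_lit 0x178417821780177c27af27ab06) (nat_lit 0x2800054124) (nat_lit 52)))
 (.n (.p (nat_lit 0x3f9a3c1d02) (nat_lit 0x50030b) (nat_lit 4))
 (.p (nat_lit 0x8ec5f7b02) (nat_lit 0x581a22b44000100040000) (nat_lit 49))))))
 (.n (.n (.n (.n (.p (nat_lit 0xa530a4702) (nat_lit 0x100200) (nat_lit 34))
 (.p (nat_lit 0x13920a9502) (nat_lit 0x400515) (nat_lit 4)))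
 (.n (.p (nat_lit 0x4030402e402a4026111d111906) (nat_lit 0x5000002404) (nat_lit 52))
 (.p (nat_lit 0x8a58fb02) (nat_lit 0x200902) (nat_lit 27))))
 (.n (.n (.p (nat_lit 0x8a016d502) (nat_lit 0x101) (nat_lit 5))
 (.p (nat_lit 0x748569102) (nat_lit 0x440023) (nat_lit 29)))
 (.n (.p (nat_lit 0x22ce22cc22ca22c822c6014b22d107) (nat_lit 0x540a07) (nat_lit 7))
 (.p (nat_lit 0x5d63207f02) (nat_lit 0x1a0080000a00) (nat_lit 40)))))
 (.n (.n (.n (.p (nat_lit 0x18c618c418be18bc1627162506) (nat_lit 0x6000092700) (nat_lit 52))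
 (.p (nat_lit 0x893088702) (nat_lit 0x50a11c) (nat_lit 16)))
 (.n (.p (nat_lit 0x4b13062b02) (nat_lit 0x104006) (nat_lit 16))
 (.p (nat_lit 0x5d3b5e0302) (nat_lit 0x120060000300) (nat_lit 37))))
 (.n (.n (.p (nat_lit 0x8fe08fc08f808f608f4232106) (nat_lit 0x40000c2a02) (nat_lit 51))
 (.p (nat_lit 0x68606840682067e067c089906) (nat_lit 0x200008612a) (nat_lit 52)))
 (.n (.p (nat_lit 0x1391138502) (nat_lit 0x30650e) (nat_lit 16))
 (.p (nat_lit 0x1812607f02) (nat_lit 0x511a22b85000100000600) (nat_lit 49))))))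

def c1024_908 : Tr :=
 .n (.n (.n (.n (.n (.p (nat_lit 0x656065406520650000c00030001064f064d09) (nat_lit 0x840000) (nat_lit 10))
 (.p (nat_lit 0x4a92450702) (nat_lit 0x340813) (nat_lit 4)))
 (.n (.p (nat_lit 0x1c441c421c401c3c25c325bf06) (nat_lit 0x28000d0b03) (nat_lit 52))
 (.p (nat_lit 0x468f3f2702) (nat_lit 0x15622e) (nat_lit 16))))
 (.n (.n (.p (nat_lit 0x22c71ff302) (nat_lit 0x40a00) (nat_lit 16))
 (.p (nat_lit 0x56325630562e562c562a5628036e07) (nat_lit 0x40b20) (nat_lit 8)))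
 (.n (.p (nat_lit 0x1340133e133c133a133810d706) (nat_lit 0x8000012407) (nat_lit 51))
 (.p (nat_lit 0x5d9b1c5102) (nat_lit 0x1200a0000800) (nat_lit 41)))))
 (.n (.n (.n (.p (nat_lit 0x14e3121f02) (nat_lit 0x146500) (nat_lit 16))
 (.p (nat_lit 0xaa20a9e0a9c0a9a0a9849e906) (nat_lit 0x800008a71a) (nat_lit 51)))
 (.n (.p (nat_lit 0x180818041802180000fa00eb00e3180717ff09) (nat_lit 0x2040605) (nat_lit 10))
 (.p (nat_lit 0x5d01079902) (nat_lit 0x1c0040000100) (nat_lit 38))))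
 (.n (.n (.p (nat_lit 0x13af10ff02) (nat_lit 0x402) (nat_lit 15))
 (.p (nat_lit 0x46893f2102) (nat_lit 0x456227) (nat_lit 16)))
 (.n (.p (nat_lit 0x508e4b6902) (nat_lit 0x14080d) (nat_lit 5))
 (.p (nat_lit 0x18205fff02) (nat_lit 0x16a88cd50000100000600) (nat_lit 50))))))
 (.n (.n (.n (.n (.p (nat_lit 0xdc00dbe0dba0db80b390b3306) (nat_lit 0x12000092300) (nat_lit 52))
 (.p (nat_lit 0x281548502) (nat_lit 0x40915) (nat_lit 30)))
 (.n (.p (nat_lit 0x19541fcb02) (nat_lit 0x400704) (nat_lit 4))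
 (.p (nat_lit 0x1a2019e019a019801b5018906) (nat_lit 0x221460a) (nat_lit 26))))
 (.n (.n (.p (nat_lit 0x187e187c187818741c1d1c1906) (nat_lit 0x5000086801) (nat_lit 52))
 (.p (nat_lit 0x29e629e429e229e029dc165f06) (nat_lit 0x1000012623) (nat_lit 52)))
 (.n (.p (nat_lit 0x3170521302) (nat_lit 0x540409) (nat_lit 29))
 (.p (nat_lit 0xd1c5ef302) (nat_lit 0x4a9d84344000300000000) (nat_lit 50)))))
 (.n (.n (.n (.p (nat_lit 0x1c1718f902) (nat_lit 0xc800) (nat_lit 16))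
 (.p (nat_lit 0x384a3848384438421d631d5d06) (nat_lit 0x1200005681c) (nat_lit 51)))
 (.n (.p (nat_lit 0x1760175e175c175817561acd06) (nat_lit 0x20000d0706) (nat_lit 51))
 (.p (nat_lit 0x5d67129d02) (nat_lit 0x160080000500) (nat_lit 38))))
 (.n (.n (.p (nat_lit 0x362436223620361e361c0a1506) (nat_lit 0x800056103) (nat_lit 52))
 (.p (nat_lit 0x108610841080107e0f870f8106) (nat_lit 0x480005232a) (nat_lit 51)))
 (.n (.p (nat_lit 0x257609c102) (nat_lit 0x40b0e) (nat_lit 4))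
 (.p (nat_lit 0x154860ff02) (nat_lit 0x3425219b0000000000600) (nat_lit 50))))))

def c512_396 : Tr := .n c1024_396 c1024_908

def c256_140 : Tr := .n c512_140 c512_396

def c128_12 : Tr := .n c256_12 c256_140

def c1024_76 : Tr :=
 .n (.n (.n (.n (.n (.n (.p (nat_lit 0x5c005a0058006504) (nat_lit 0x3800400002) (nat_lit 17))
 (.p (nat_lit 0x1548613302) (nat_lit 0x35486a3b0000000000600) (nat_lit 50)))
 (.p (nat_lit 0x976097409720970096e2b9506) (nat_lit 0x80001090f) (nat_lit 51)))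
 (.n (.p (nat_lit 0x38650faf02) (nat_lit 0x540303) (nat_lit 16))
 (.p (nat_lit 0x48e1d7102) (nat_lit 0x4082a) (nat_lit 1))))
 (.n (.n (.p (nat_lit 0x1d241d221d201d1e1d1c1a6706) (nat_lit 0x100000d6800) (nat_lit 52))
 (.p (nat_lit 0x339d22ed02) (nat_lit 0x14ea1c) (nat_lit 16)))
 (.n (.p (nat_lit 0x8f208ee08ec08ea08e81d9d06) (nat_lit 0x80000c2806) (nat_lit 52))
 (.p (nat_lit 0x5e3e288102) (nat_lit 0x2004a600) (nat_lit 48)))))
 (.n (.n (.n (.p (nat_lit 0xf120f100f0c0f0a0f080c9506) (nat_lit 0x40000d0300) (nat_lit 52))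
 (.p (nat_lit 0x4383258b02) (nat_lit 0x452b15) (nat_lit 16)))
 (.n (.p (nat_lit 0x247e247c247a2476247400b9247907) (nat_lit 0x200b04) (nat_lit 7))
 (.p (nat_lit 0x23b5ae902) (nat_lit 0x100611) (nat_lit 28))))
 (.n (.n (.p (nat_lit 0x63e063c063a063806361ee106) (nat_lit 0x800080901) (nat_lit 52))
 (.p (nat_lit 0x39363934393239301d6b1d6906) (nat_lit 0x60000c4823) (nat_lit 52)))
 (.n (.p (nat_lit 0x37d434e502) (nat_lit 0x10030a) (nat_lit 5))
 (.p (nat_lit 0x1da65f2f02) (nat_lit 0x3a2560b44000300000600) (nat_lit 49))))))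
 (.n (.n (.n (.n (.p (nat_lit 0x7ab079f02) (nat_lit 0x500100) (nat_lit 34))
 (.p (nat_lit 0x5d20bc902) (nat_lit 0x500015) (nat_lit 4)))
 (.n (.p (nat_lit 0x3d6f08cf02) (nat_lit 0x506104) (nat_lit 16))
 (.p (nat_lit 0x21522150214e214a2148469106) (nat_lit 0x20000d022f) (nat_lit 51))))
 (.n (.n (.p (nat_lit 0x2443215f02) (nat_lit 0x506b00) (nat_lit 16))
 (.p (nat_lit 0x4b1e4d6b02) (nat_lit 0x200022) (nat_lit 4)))
 (.n (.p (nat_lit 0x145517d02) (nat_lit 0x200707) (nat_lit 30))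
 (.p (nat_lit 0x5d3d5e8d02) (nat_lit 0x100060000900) (nat_lit 37)))))
 (.n (.n (.n (.p (nat_lit 0x1679155102) (nat_lit 0x210600) (nat_lit 16))
 (.p (nat_lit 0xd100d0e0d0c0d0605d905d706) (nat_lit 0x300000601c) (nat_lit 52)))
 (.n (.p (nat_lit 0xa5a0a560a540a520a501ac506) (nat_lit 0x8000044705) (nat_lit 51))
 (.p (nat_lit 0x5dde422d02) (nat_lit 0x12200) (nat_lit 48))))
 (.n (.n (.p (nat_lit 0x1cea1ce81ce61ce41ce21eed06) (nat_lit 0x80000c902) (nat_lit 52))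
 (.p (nat_lit 0x4684482102) (nat_lit 0x240228) (nat_lit 4)))
 (.n (.p (nat_lit 0x4e2d0f7b02) (nat_lit 0x35630e) (nat_lit 16))
 (.p (nat_lit 0x2078602f02) (nat_lit 0x466a62335000400000600) (nat_lit 50))))))

def c1024_588 : Tr :=
 .n (.n (.n (.n (.n (.n (.p (nat_lit 0x3aa03a403a003ad04) (nat_lit 0x12800400023) (nat_lit 17))
 (.p (nat_lit 0x114261ad02) (nat_lit 0x3421a9c14800400040000) (nat_lit 49)))
 (.p (nat_lit 0x1e4e1e4c1e4a1e481e44408506) (nat_lit 0x100000c412) (nat_lit 52)))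
 (.n (.p (nat_lit 0x3b1b21c102) (nat_lit 0xaa03) (nat_lit 16))
 (.p (nat_lit 0x47f586102) (nat_lit 0x200a2c) (nat_lit 30))))
 (.n (.n (.p (nat_lit 0x208c208a208420821e931e9106) (nat_lit 0x6000000a00) (nat_lit 52))
 (.p (nat_lit 0x3f703f6e3f6a3f683f663b4106) (nat_lit 0x40000cca1f) (nat_lit 51)))
 (.n (.p (nat_lit 0x4cc04ca04c804c40e050e0106) (nat_lit 0x2800000307) (nat_lit 52))
 (.p (nat_lit 0x5d81182102) (nat_lit 0x2c00a0000700) (nat_lit 40)))))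
 (.n (.n (.n (.p (nat_lit 0x43a10c902) (nat_lit 0x300500) (nat_lit 1))
 (.p (nat_lit 0x1dfc1dfa1df81df61df4419d06) (nat_lit 0x10000084519) (nat_lit 51)))
 (.n (.p (nat_lit 0xf00111010720db223d05) (nat_lit 0xb1340305) (nat_lit 9))
 (.p (nat_lit 0x4be04bc04ba04b8043f046706) (nat_lit 0x2a10730) (nat_lit 26))))
 (.n (.n (.p (nat_lit 0x2d642d602d5c2d5a0761075d06) (nat_lit 0xa000052002) (nat_lit 52))
 (.p (nat_lit 0x33fc30e902) (nat_lit 0x200b25) (nat_lit 4)))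
 (.n (.p (nat_lit 0x45fe442d02) (nat_lit 0x40020c) (nat_lit 5))
 (.p (nat_lit 0xe785fa702) (nat_lit 0x89832955800300040000) (nat_lit 50))))))
 (.n (.n (.n (.n (.p (nat_lit 0xbb90bad02) (nat_lit 0x340200) (nat_lit 34))
 (.p (nat_lit 0x1c441c421c401c3c1c3a14d906) (nat_lit 0x20000d0515) (nat_lit 52)))
 (.n (.p (nat_lit 0x168a168816861684168000b7168307) (nat_lit 0x100604) (nat_lit 7))
 (.p (nat_lit 0x598659825980597e597c000900c007) (nat_lit 0x40eb04) (nat_lit 25))))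
 (.n (.n (.p (nat_lit 0xe28159702) (nat_lit 0x200301) (nat_lit 4))
 (.p (nat_lit 0x9ee09ec09ea09e809e403a309e707) (nat_lit 0x140123) (nat_lit 7)))
 (.n (.p (nat_lit 0x292c267702) (nat_lit 0x540308) (nat_lit 4))
 (.p (nat_lit 0x5d25249302) (nat_lit 0x280060000b00) (nat_lit 41)))))
 (.n (.n (.n (.p (nat_lit 0x1a121a0e1a0a1a08179b179706) (nat_lit 0xa0000ca700) (nat_lit 52))
 (.p (nat_lit 0x14ea14e814e614e414e0030914e307) (nat_lit 0x14051c) (nat_lit 7)))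
 (.n (.p (nat_lit 0xe64239702) (nat_lit 0x200306) (nat_lit 5))
 (.p (nat_lit 0x5d1d5e1302) (nat_lit 0x40000400) (nat_lit 36))))
 (.n (.n (.p (nat_lit 0x176c176a176617642463245d06) (nat_lit 0x4800012b02) (nat_lit 51))
 (.p (nat_lit 0x140013fe13fc13fa13f80b5306) (nat_lit 0x80008a22a) (nat_lit 51)))
 (.n (.p (nat_lit 0x1a74096102) (nat_lit 0x4070e) (nat_lit 5))
 (.p (nat_lit 0x21cc60a902) (nat_lit 0x344581ca4000400040600) (nat_lit 49))))))

def c512_76 : Tr := .n c1024_76 c1024_588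

def c1024_332 : Tr :=
 .n (.n (.n (.n (.n (.n (.p (nat_lit 0x1480140014f03) (nat_lit 0x8800500007) (nat_lit 17))
 (.p (nat_lit 0x154a616f02) (nat_lit 0x421aa6315000000000600) (nat_lit 50)))
 (.p (nat_lit 0x3b7d33dd02) (nat_lit 0x312b10) (nat_lit 16)))
 (.n (.p (nat_lit 0x167c167a1678167616740091167f07) (nat_lit 0x500603) (nat_lit 7))
 (.p (nat_lit 0x15fa15f615f415f215f0282106) (nat_lit 0x800001222b) (nat_lit 52))))
 (.n (.n (.p (nat_lit 0x1ee91bcb02) (nat_lit 0x40c900) (nat_lit 16))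
 (.p (nat_lit 0x32f6305f02) (nat_lit 0x24091e) (nat_lit 5)))
 (.n (.p (nat_lit 0x227c2278227622722067206106) (nat_lit 0x900004c906) (nat_lit 51))
 (.p (nat_lit 0x5cd75e5702) (nat_lit 0x160020000700) (nat_lit 36)))))
 (.n (.n (.n (.p (nat_lit 0x10c50df702) (nat_lit 0x100400) (nat_lit 15))
 (.p (nat_lit 0x33e42f2702) (nat_lit 0x200b17) (nat_lit 5)))
 (.n (.p (nat_lit 0x786209902) (nat_lit 0x540005) (nat_lit 4))
 (.p (nat_lit 0x38f5bc102) (nat_lit 0x500521) (nat_lit 28))))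
 (.n (.n (.p (nat_lit 0x2c2e2c2c2c2a2c282c262c24003607) (nat_lit 0xa01) (nat_lit 8))
 (.p (nat_lit 0x2a322a302a2e2a2c2a28264306) (nat_lit 0x1000004024) (nat_lit 52)))
 (.n (.p (nat_lit 0x50605040502050004fe3bc906) (nat_lit 0x10000046b0a) (nat_lit 52))
 (.p (nat_lit 0x233c5f6f02) (nat_lit 0x3aa074b50000500000600) (nat_lit 49))))))
 (.n (.n (.n (.n (.p (nat_lit 0x9dd072102) (nat_lit 0x246100) (nat_lit 16))
 (.p (nat_lit 0x124a12481242124002a2028702851247124509) (nat_lit 0x1a40415) (nat_lit 10)))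
 (.n (.p (nat_lit 0xfb81e1102) (nat_lit 0x440304) (nat_lit 5))
 (.p (nat_lit 0x320030002e002c0113000b06) (nat_lit 0x514901) (nat_lit 26))))
 (.n (.n (.p (nat_lit 0x260c260a26082606260405f106) (nat_lit 0x2000086001) (nat_lit 51))
 (.p (nat_lit 0x12ce12cc12ca12c612c405e506) (nat_lit 0x2000004023) (nat_lit 52)))
 (.n (.p (nat_lit 0x2043200702) (nat_lit 0x448907) (nat_lit 16))
 (.p (nat_lit 0x5e9c47dd02) (nat_lit 0x40002a00) (nat_lit 48)))))
 (.n (.n (.n (.p (nat_lit 0x16281624162216200026000b0007162b162709) (nat_lit 0x2b00700) (nat_lit 10))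
 (.p (nat_lit 0x30d550302) (nat_lit 0x30011c) (nat_lit 30)))
 (.n (.p (nat_lit 0x1fc01fbc1fba1fb81fb61d9106) (nat_lit 0x80000cc805) (nat_lit 52))
 (.p (nat_lit 0x5ccf5dfb02) (nat_lit 0x1e0020000300) (nat_lit 37))))
 (.n (.n (.p (nat_lit 0x246521bd02) (nat_lit 0x400a02) (nat_lit 15))
 (.p (nat_lit 0x510e4f0b02) (nat_lit 0x929) (nat_lit 4)))
 (.n (.p (nat_lit 0x4f21123502) (nat_lit 0x5640e) (nat_lit 16))
 (.p (nat_lit 0x2348606f02) (nat_lit 0x588172b40800500000600) (nat_lit 50))))))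

def c1024_844 : Tr :=
 .n (.n (.n (.n (.n (.n (.p (nat_lit 0x5d704dd02) (nat_lit 0x106000) (nat_lit 16))
 (.p (nat_lit 0xbb661eb02) (nat_lit 0x14e0a8c74000200040000) (nat_lit 50)))
 (.p (nat_lit 0x494444db02) (nat_lit 0x340513) (nat_lit 5)))
 (.n (.p (nat_lit 0x4d804d604d404d204d025bf06) (nat_lit 0x800040b03) (nat_lit 51))
 (.p (nat_lit 0x3dfe41ab02) (nat_lit 0x4012e) (nat_lit 5))))
 (.n (.n (.p (nat_lit 0x227c22782276227422721ffb06) (nat_lit 0x800004ca00) (nat_lit 51))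
 (.p (nat_lit 0xd620d600d5e0d5c0d5a428b06) (nat_lit 0x100000ca620) (nat_lit 52)))
 (.n (.p (nat_lit 0x10d810d610d410d210d0014110cf07) (nat_lit 0x407) (nat_lit 7))
 (.p (nat_lit 0x5d651c4f02) (nat_lit 0x180080000800) (nat_lit 41)))))
 (.n (.n (.n (.p (nat_lit 0x14481446144414421440121d06) (nat_lit 0x8000c6500) (nat_lit 52))
 (.p (nat_lit 0x495045d102) (nat_lit 0x34051a) (nat_lit 5)))
 (.n (.p (nat_lit 0x2550254e254c254a2546168f06) (nat_lit 0x1000090605) (nat_lit 52))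
 (.p (nat_lit 0x5dc6422102) (nat_lit 0x12100) (nat_lit 48))))
 (.n (.n (.p (nat_lit 0x59302102) (nat_lit 0x40302) (nat_lit 30))
 (.p (nat_lit 0x1fcc1fc81fc61fc41fc23d7906) (nat_lit 0x800000e127) (nat_lit 52)))
 (.n (.p (nat_lit 0x4f1c4ad902) (nat_lit 0x44040d) (nat_lit 5))
 (.p (nat_lit 0x8ea5fef02) (nat_lit 0x306a81c35000100040000) (nat_lit 49))))))
 (.n (.n (.n (.n (.p (nat_lit 0xd4c0d4a0d460d440b350b2f06) (nat_lit 0x4800082300) (nat_lit 51))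
 (.p (nat_lit 0x1d50547102) (nat_lit 0x240815) (nat_lit 29)))
 (.n (.p (nat_lit 0x1f0c1f0a1f081f061f0417fd06) (nat_lit 0x100000d2604) (nat_lit 52))
 (.p (nat_lit 0x1735a2902) (nat_lit 0x200408) (nat_lit 28))))
 (.n (.n (.p (nat_lit 0x153314f702) (nat_lit 0x554501) (nat_lit 16))
 (.p (nat_lit 0xebe0ebc0eba0eb60cab0ca706) (nat_lit 0x280004a223) (nat_lit 51)))
 (.n (.p (nat_lit 0x308e2d3b02) (nat_lit 0x240309) (nat_lit 4))
 (.p (nat_lit 0xe725ee302) (nat_lit 0x4a8866344000300040000) (nat_lit 49)))))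
 (.n (.n (.n (.p (nat_lit 0x1ba61ba41ba21ba0190318f906) (nat_lit 0x10800094800) (nat_lit 52))
 (.p (nat_lit 0x37fc37fa37f837f637f41bf506) (nat_lit 0x100000081c) (nat_lit 51)))
 (.n (.p (nat_lit 0x177817721770176e196d196b06) (nat_lit 0xc000092706) (nat_lit 52))
 (.p (nat_lit 0x5e2a05e502) (nat_lit 0x40006500) (nat_lit 47))))
 (.n (.n (.p (nat_lit 0xb7f08c102) (nat_lit 0x400103) (nat_lit 15))
 (.p (nat_lit 0x46f90e1f02) (nat_lit 0x31432a) (nat_lit 16)))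
 (.n (.p (nat_lit 0x1ed535302) (nat_lit 0x340a0e) (nat_lit 30))
 (.p (nat_lit 0x8f260f302) (nat_lit 0x440d663a4000100040000) (nat_lit 49))))))

def c512_332 : Tr := .n c1024_332 c1024_844

def c256_76 : Tr := .n c512_76 c512_332

def c1024_204 : Tr :=
 .n (.n (.n (.n (.n (.n (.p (nat_lit 0xb800c502) (nat_lit 0x2000600004) (nat_lit 17))
 (.p (nat_lit 0xbb2615102) (nat_lit 0x2b0221d84000200040000) (nat_lit 50)))
 (.p (nat_lit 0x326c2e6d02) (nat_lit 0x40510) (nat_lit 4)))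
 (.n (.p (nat_lit 0x1273126702) (nat_lit 0x154403) (nat_lit 16))
 (.p (nat_lit 0x21a421a221a0219e219c043f21a707) (nat_lit 0x500a2a) (nat_lit 7))))
 (.n (.n (.p (nat_lit 0x1e2a1e261e221e201bcb1bc706) (nat_lit 0xa000088900) (nat_lit 52))
 (.p (nat_lit 0x2ff22ff02fec2fea2fe82b2506) (nat_lit 0x400001481d) (nat_lit 52)))
 (.n (.p (nat_lit 0x1efe50db02) (nat_lit 0x300906) (nat_lit 29))
 (.p (nat_lit 0x5e4a299b02) (nat_lit 0x80002600) (nat_lit 48)))))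
 (.n (.n (.n (.p (nat_lit 0xff60ff40ff20ff00fee0df506) (nat_lit 0x800000400) (nat_lit 52))
 (.p (nat_lit 0x31f22eeb02) (nat_lit 0x300517) (nat_lit 4)))
 (.n (.p (nat_lit 0x20c620c220c020bc25d325cd06) (nat_lit 0x90000c4b04) (nat_lit 51))
 (.p (nat_lit 0x2fd5b6502) (nat_lit 0x50041a) (nat_lit 28))))
 (.n (.n (.p (nat_lit 0x204e160502) (nat_lit 0x440901) (nat_lit 5))
 (.p (nat_lit 0x22f810a102) (nat_lit 0x140a23) (nat_lit 4)))
 (.n (.p (nat_lit 0x3a8a347b02) (nat_lit 0x60a) (nat_lit 4))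
 (.p (nat_lit 0x23405f5102) (nat_lit 0x1a1d22350000500000600) (nat_lit 50))))))
 (.n (.n (.n (.n (.p (nat_lit 0x8d705c302) (nat_lit 0x314100) (nat_lit 16))
 (.p (nat_lit 0x28e029d02930bd70a7505) (nat_lit 0x65000415) (nat_lit 9)))
 (.n (.p (nat_lit 0xce21df502) (nat_lit 0x40204) (nat_lit 5))
 (.p (nat_lit 0x4ddc4f5502) (nat_lit 0x500330) (nat_lit 5))))
 (.n (.n (.p (nat_lit 0x2550254e254c254a2548254606) (nat_lit 0xd0b00) (nat_lit 52))
 (.p (nat_lit 0x505e4e0502) (nat_lit 0x100822) (nat_lit 4)))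
 (.n (.p (nat_lit 0x351835163514351235101bd306) (nat_lit 0x200000c807) (nat_lit 51))
 (.p (nat_lit 0x5cbb206b02) (nat_lit 0x20000000a00) (nat_lit 38)))))
 (.n (.n (.n (.p (nat_lit 0x176c17681766176416b916b106) (nat_lit 0x8800052600) (nat_lit 51))
 (.p (nat_lit 0xa5a0a580a560a540a50073706) (nat_lit 0x100004401c) (nat_lit 51)))
 (.n (.p (nat_lit 0xf0010b0103214522ab05) (nat_lit 0xa8c00805) (nat_lit 9))
 (.p (nat_lit 0x5d710a5902) (nat_lit 0xc0080000200) (nat_lit 40))))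
 (.n (.n (.p (nat_lit 0x32ed205902) (nat_lit 0x344902) (nat_lit 16))
 (.p (nat_lit 0x4c8e4e6702) (nat_lit 0x440129) (nat_lit 5)))
 (.n (.p (nat_lit 0x408d10e502) (nat_lit 0x51240e) (nat_lit 16))
 (.p (nat_lit 0x8fa604f02) (nat_lit 0x40a962335000100040000) (nat_lit 50))))))

def c1024_716 : Tr :=
 .n (.n (.n (.n (.n (.n (.p (nat_lit 0x14a04e502) (nat_lit 0x500000) (nat_lit 1))
 (.p (nat_lit 0x13fc61cd02) (nat_lit 0x3421684a0800500040000) (nat_lit 50)))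
 (.p (nat_lit 0x42c5422902) (nat_lit 0x400612) (nat_lit 15)))
 (.n (.p (nat_lit 0xd1c0d1a0d160d140d12246f06) (nat_lit 0x4000006b03) (nat_lit 51))
 (.p (nat_lit 0x1b9c1b9a1b981b961b9236d106) (nat_lit 0x100001422d) (nat_lit 52))))
 (.n (.n (.p (nat_lit 0x217d1e9102) (nat_lit 0x204a00) (nat_lit 16))
 (.p (nat_lit 0x1e661e641e621e601e5c3d0306) (nat_lit 0x100004e020) (nat_lit 51)))
 (.n (.p (nat_lit 0x4d804d604d404d204ce0f6b06) (nat_lit 0x1000040307) (nat_lit 51))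
 (.p (nat_lit 0x5e6c1ab302) (nat_lit 0x20054800) (nat_lit 47)))))
 (.n (.n (.n (.p (nat_lit 0x4e310cb02) (nat_lit 0x400500) (nat_lit 15))
 (.p (nat_lit 0x42d03ef702) (nat_lit 0x400719) (nat_lit 4)))
 (.n (.p (nat_lit 0x13d8486902) (nat_lit 0x300505) (nat_lit 29))
 (.p (nat_lit 0x5db6064502) (nat_lit 0x40040000) (nat_lit 46))))
 (.n (.n (.p (nat_lit 0x632ed902) (nat_lit 0x500202) (nat_lit 30))
 (.p (nat_lit 0x3aca393902) (nat_lit 0x40626) (nat_lit 5)))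
 (.n (.p (nat_lit 0x14a49d302) (nat_lit 0x50070c) (nat_lit 1))
 (.p (nat_lit 0x1ade5fd102) (nat_lit 0x95a2ec05000200000600) (nat_lit 49))))))
 (.n (.n (.n (.n (.p (nat_lit 0xca909cf02) (nat_lit 0x148200) (nat_lit 16))
 (.p (nat_lit 0x285544d02) (nat_lit 0x200715) (nat_lit 30)))
 (.n (.p (nat_lit 0x423b168302) (nat_lit 0x106604) (nat_lit 16))
 (.p (nat_lit 0x118011601140112000b030306) (nat_lit 0x2c10206) (nat_lit 26))))
 (.n (.n (.p (nat_lit 0x125229a502) (nat_lit 0x340401) (nat_lit 29))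
 (.p (nat_lit 0xb46101d02) (nat_lit 0x223) (nat_lit 5)))
 (.n (.p (nat_lit 0x2be6263f02) (nat_lit 0x540908) (nat_lit 5))
 (.p (nat_lit 0x8ec5ec702) (nat_lit 0x4a1a34344000100040000) (nat_lit 49)))))
 (.n (.n (.n (.p (nat_lit 0x1abf179502) (nat_lit 0x154700) (nat_lit 16))
 (.p (nat_lit 0x5536553455325530552e552c031417cd17c917c70a) (nat_lit 0x15a4061c) (nat_lit 31)))
 (.n (.p (nat_lit 0x12904eb702) (nat_lit 0x440406) (nat_lit 29))
 (.p (nat_lit 0x5d955e2102) (nat_lit 0x1800a0000400) (nat_lit 37))))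
 (.n (.n (.p (nat_lit 0x60e343d02) (nat_lit 0x500003) (nat_lit 29))
 (.p (nat_lit 0x153e153c1538153615340cb906) (nat_lit 0x400004c22a) (nat_lit 52)))
 (.n (.p (nat_lit 0x3630362e362a36261d471d4306) (nat_lit 0x50000d680e) (nat_lit 52))
 (.p (nat_lit 0xe7260d302) (nat_lit 0x340a623b0000300040000) (nat_lit 49))))))

def c512_204 : Tr := .n c1024_204 c1024_716

def c1024_460 : Tr :=
 .n (.n (.n (.n (.n (.n (.p (nat_lit 0x282029102) (nat_lit 0x1000600015) (nat_lit 17))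
 (.p (nat_lit 0xbb0618d02) (nat_lit 0x54c88a970000200040000) (nat_lit 49)))
 (.p (nat_lit 0x39e8360302) (nat_lit 0x500511) (nat_lit 4)))
 (.n (.p (nat_lit 0x18c618c418c018bc17ed17e906) (nat_lit 0x50000d2603) (nat_lit 52))
 (.p (nat_lit 0x12cc12ca12c812c612c42c2306) (nat_lit 0x1000004492b) (nat_lit 52))))
 (.n (.n (.p (nat_lit 0x1fcc1fca1fc81fc61fc21d2b06) (nat_lit 0x100004e900) (nat_lit 52))
 (.p (nat_lit 0x1b0e1b0c1b0a1b081b06354906) (nat_lit 0x80004201f) (nat_lit 51)))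
 (.n (.p (nat_lit 0x3e6d0b3f02) (nat_lit 0x212207) (nat_lit 16))
 (.p (nat_lit 0x5e5c2e3902) (nat_lit 0x60008700) (nat_lit 48)))))
 (.n (.n (.n (.p (nat_lit 0x117e117c117a117811760f6706) (nat_lit 0x100000c2400) (nat_lit 52))
 (.p (nat_lit 0x2d554c902) (nat_lit 0x400618) (nat_lit 30)))
 (.n (.p (nat_lit 0xe570b9102) (nat_lit 0x100205) (nat_lit 15))
 (.p (nat_lit 0x4235c1b02) (nat_lit 0x300829) (nat_lit 28))))
 (.n (.n (.p (nat_lit 0x252a2528252625242522231906) (nat_lit 0x1000004ea01) (nat_lit 51))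
 (.p (nat_lit 0x2c162c122c102c0e2c0c03d92c1507) (nat_lit 0x440924) (nat_lit 7)))
 (.n (.p (nat_lit 0x42163cc102) (nat_lit 0x10060b) (nat_lit 5))
 (.p (nat_lit 0x15425f8f02) (nat_lit 0x581a303a4000000000600) (nat_lit 50))))))
 (.n (.n (.n (.n (.p (nat_lit 0xa8a0a860a840a800879087306) (nat_lit 0x9000088200) (nat_lit 52))
 (.p (nat_lit 0x18121810180e180c180a139506) (nat_lit 0x1000000e515) (nat_lit 52)))
 (.n (.p (nat_lit 0x40de40dc40da40d840d640d406) (nat_lit 0x4e404) (nat_lit 52))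
 (.p (nat_lit 0x592459225920591e591c02cf009207) (nat_lit 0x6103) (nat_lit 25))))
 (.n (.n (.p (nat_lit 0xa06275302) (nat_lit 0x540101) (nat_lit 29))
 (.p (nat_lit 0x8920890088e088a088803a5088d07) (nat_lit 0x200123) (nat_lit 7)))
 (.n (.p (nat_lit 0x2427241b02) (nat_lit 0x304b07) (nat_lit 16))
 (.p (nat_lit 0x5c995ead02) (nat_lit 0x240000000b00) (nat_lit 37)))))
 (.n (.n (.n (.p (nat_lit 0x1915162502) (nat_lit 0x202700) (nat_lit 16))
 (.p (nat_lit 0xbe00bdc0bd80bd609e109dd06) (nat_lit 0xa00004811c) (nat_lit 51)))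
 (.n (.p (nat_lit 0x11b4ba502) (nat_lit 0x400106) (nat_lit 30))
 (.p (nat_lit 0x5d590e7502) (nat_lit 0x240080000300) (nat_lit 39))))
 (.n (.n (.p (nat_lit 0x1c421c401c3e1c3c1c3a232506) (nat_lit 0x100000d0a02) (nat_lit 52))
 (.p (nat_lit 0x9f8141702) (nat_lit 0x44012a) (nat_lit 5)))
 (.n (.p (nat_lit 0x5080502050004fe14d114cf06) (nat_lit 0xc00004650e) (nat_lit 52))
 (.p (nat_lit 0x8fc608f02) (nat_lit 0x356221ca4000100040000) (nat_lit 50))))))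

def c1024_972 : Tr :=
 .n (.n (.n (.n (.n (.p (nat_lit 0x69c069a069806960694065706) (nat_lit 0x100000c8000) (nat_lit 52))
 (.p (nat_lit 0x4f284c5502) (nat_lit 0x440414) (nat_lit 4)))
 (.n (.p (nat_lit 0x6181dc102) (nat_lit 0x400004) (nat_lit 4))
 (.p (nat_lit 0x12d812d612d412d212d042a306) (nat_lit 0x100000c462e) (nat_lit 51))))
 (.n (.n (.p (nat_lit 0x11a215d02) (nat_lit 0x400b00) (nat_lit 1))
 (.p (nat_lit 0x22882286228422822280449d06) (nat_lit 0x8000cc021) (nat_lit 51)))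
 (.n (.p (nat_lit 0x1230122e122c122a0158014b01411233122909) (nat_lit 0x2840407) (nat_lit 10))
 (.p (nat_lit 0x5c911f0502) (nat_lit 0x2c0000000900) (nat_lit 39)))))
 (.n (.n (.n (.p (nat_lit 0x155615541552154c0016000500031551154f09) (nat_lit 0x1100600) (nat_lit 10))
 (.p (nat_lit 0x4f664d2302) (nat_lit 0x40051b) (nat_lit 5)))
 (.n (.p (nat_lit 0xa4e0a4a0a480a460a44196106) (nat_lit 0x8000004705) (nat_lit 52))
 (.p (nat_lit 0x5dd00b4102) (nat_lit 0x6000a100) (nat_lit 47))))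
 (.n (.n (.p (nat_lit 0x13b4189f02) (nat_lit 0x300502) (nat_lit 5))
 (.p (nat_lit 0x3898389638943890388e42e506) (nat_lit 0x2000082727) (nat_lit 51)))
 (.n (.p (nat_lit 0xe1207b302) (nat_lit 0x30030e) (nat_lit 4))
 (.p (nat_lit 0x1ae0601102) (nat_lit 0x405aa0b95000200000600) (nat_lit 50))))))
 (.n (.n (.n (.n (.p (nat_lit 0xe5f0b3902) (nat_lit 0x514300) (nat_lit 16))
 (.p (nat_lit 0x2180217e217a217802a6028b02852183217d09) (nat_lit 0x2a00a15) (nat_lit 10)))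
 (.n (.p (nat_lit 0x1bc01bbe1bba1bb81bb6195306) (nat_lit 0x4000096704) (nat_lit 51))
 (.p (nat_lit 0x1f001ee01e801e60145000706) (nat_lit 0x130a40e) (nat_lit 26))))
 (.n (.n (.p (nat_lit 0x2d2b4102) (nat_lit 0x140801) (nat_lit 30))
 (.p (nat_lit 0x1943193702) (nat_lit 0x100723) (nat_lit 16)))
 (.n (.p (nat_lit 0x702070006fe06fc06fa332306) (nat_lit 0x800094a09) (nat_lit 52))
 (.p (nat_lit 0x15485f1102) (nat_lit 0x3a2270350000000000600) (nat_lit 50)))))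
 (.n (.n (.n (.p (nat_lit 0x1c681c661c621c601a631a5d06) (nat_lit 0x48000c0800) (nat_lit 52))
 (.p (nat_lit 0x20260f2502) (nat_lit 0x24091c) (nat_lit 5)))
 (.n (.p (nat_lit 0x64a06480646064406401c3106) (nat_lit 0x1000080806) (nat_lit 51))
 (.p (nat_lit 0x5e3413f502) (nat_lit 0xa0040500) (nat_lit 45))))
 (.n (.n (.p (nat_lit 0xcdc1c9502) (nat_lit 0x340203) (nat_lit 4))
 (.p (nat_lit 0x46617df02) (nat_lit 0x24062a) (nat_lit 1)))
 (.n (.p (nat_lit 0x176a1768176617641762299d06) (nat_lit 0x1000001240f) (nat_lit 51))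
 (.p (nat_lit 0xe7c611502) (nat_lit 0x3422621b0000300040000) (nat_lit 50))))))

def c512_460 : Tr := .n c1024_460 c1024_972

def c256_204 : Tr := .n c512_204 c512_460

def c128_76 : Tr := .n c256_76 c256_204

def c64_12 : Tr := .n c128_12 c128_76

def c1024_44 : Tr :=
 .n (.n (.n (.n (.n (.n (.p (nat_lit 0x32002a003903) (nat_lit 0x8800500001) (nat_lit 17))
 (.p (nat_lit 0xbb6612d02) (nat_lit 0x45486a3a4000200040000) (nat_lit 50)))
 (.p (nat_lit 0x2b5c278902) (nat_lit 0x44080f) (nat_lit 5)))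
 (.n (.p (nat_lit 0x8d37ef02) (nat_lit 0x340303) (nat_lit 30))
 (.p (nat_lit 0x31a831a631a431a0319e1aa906) (nat_lit 0x20000c472a) (nat_lit 51))))
 (.n (.n (.p (nat_lit 0x1d0e1d0c1d0a1d081d041a5f06) (nat_lit 0x10000d4800) (nat_lit 51))
 (.p (nat_lit 0x30b559102) (nat_lit 0x240a1c) (nat_lit 30)))
 (.n (.p (nat_lit 0x1d96508302) (nat_lit 0x140806) (nat_lit 29))
 (.p (nat_lit 0x5cd5169b02) (nat_lit 0x180020000600) (nat_lit 39)))))
 (.n (.n (.n (.p (nat_lit 0xeca0ec80ec40ec20c950c8f06) (nat_lit 0x48000ca300) (nat_lit 51))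
 (.p (nat_lit 0x258454ab02) (nat_lit 0x140b15) (nat_lit 29)))
 (.n (.p (nat_lit 0x1d261d241d221d1e1d1c1ab506) (nat_lit 0x20000d6704) (nat_lit 52))
 (.p (nat_lit 0x2245ac102) (nat_lit 0x10080f) (nat_lit 27))))
 (.n (.n (.p (nat_lit 0x1ee215f302) (nat_lit 0x100901) (nat_lit 4))
 (.p (nat_lit 0x3a156f502) (nat_lit 0x40823) (nat_lit 30)))
 (.n (.p (nat_lit 0x374c374a3748374637440199374307) (nat_lit 0x4020a) (nat_lit 7))
 (.p (nat_lit 0x8fa5f2102) (nat_lit 0x3a2570344000100040000) (nat_lit 50))))))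
 (.n (.n (.n (.n (.p (nat_lit 0x5bc079502) (nat_lit 0x100) (nat_lit 4))
 (.p (nat_lit 0x50f64c7f02) (nat_lit 0x500914) (nat_lit 5)))
 (.n (.p (nat_lit 0x25008c702) (nat_lit 0x100104) (nat_lit 1))
 (.p (nat_lit 0x22aa22a822a622a422a2460d06) (nat_lit 0x1000001022f) (nat_lit 52))))
 (.n (.n (.p (nat_lit 0x24122410240c240a215b215506) (nat_lit 0x4800092b00) (nat_lit 51))
 (.p (nat_lit 0x4a40564502) (nat_lit 0x240721) (nat_lit 29)))
 (.n (.p (nat_lit 0x17a4053f02) (nat_lit 0x340607) (nat_lit 4))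
 (.p (nat_lit 0x5cfd1f1502) (nat_lit 0x200040000900) (nat_lit 41)))))
 (.n (.n (.n (.p (nat_lit 0x1633155302) (nat_lit 0x300600) (nat_lit 16))
 (.p (nat_lit 0x30f54f902) (nat_lit 0x40001c) (nat_lit 30)))
 (.n (.p (nat_lit 0x1ac61ac41ac01abe1abc00e91ac307) (nat_lit 0x340705) (nat_lit 7))
 (.p (nat_lit 0x5cb70bb302) (nat_lit 0x60000000200) (nat_lit 41))))
 (.n (.n (.p (nat_lit 0x1ef0328902) (nat_lit 0x200902) (nat_lit 29))
 (.p (nat_lit 0x458c481702) (nat_lit 0x340128) (nat_lit 4)))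
 (.n (.p (nat_lit 0xa660a640a600a5c0f7b0f7706) (nat_lit 0x500004030e) (nat_lit 51))
 (.p (nat_lit 0x8fa602702) (nat_lit 0x406a62335000100040000) (nat_lit 50))))))

def c1024_556 : Tr :=
 .n (.n (.n (.n (.n (.n (.p (nat_lit 0x36c03640362036f04) (nat_lit 0x11800400020) (nat_lit 17))
 (.p (nat_lit 0x154a61a702) (nat_lit 0x3421a9c14800000000600) (nat_lit 50)))
 (.p (nat_lit 0x92e092c092a092609243bcf06) (nat_lit 0x20000c8b11) (nat_lit 52)))
 (.n (.p (nat_lit 0x1fcc1fca1fc81fc61fc221c306) (nat_lit 0x100000ea03) (nat_lit 52))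
 (.p (nat_lit 0x32c231bb02) (nat_lit 0x30092c) (nat_lit 5))))
 (.n (.n (.p (nat_lit 0x20611d2b02) (nat_lit 0x156900) (nat_lit 16))
 (.p (nat_lit 0x3ab437ad02) (nat_lit 0x40061f) (nat_lit 5)))
 (.n (.p (nat_lit 0x51525150514e514c514a5148014c07) (nat_lit 0x307) (nat_lit 8))
 (.p (nat_lit 0x5d9d182102) (nat_lit 0x1000a0000700) (nat_lit 40)))))
 (.n (.n (.n (.p (nat_lit 0x12770f6302) (nat_lit 0x352400) (nat_lit 16))
 (.p (nat_lit 0x3d093cfd02) (nat_lit 0x448019) (nat_lit 16)))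
 (.n (.p (nat_lit 0x46c446c246c046be46bc0e5f06) (nat_lit 0x10000082305) (nat_lit 51))
 (.p (nat_lit 0x4840480047c047a0439049706) (nat_lit 0x141492c) (nat_lit 26))))
 (.n (.n (.p (nat_lit 0x18c076102) (nat_lit 0x440002) (nat_lit 1))
 (.p (nat_lit 0x3315330902) (nat_lit 0x540925) (nat_lit 16)))
 (.n (.p (nat_lit 0x433a3ce302) (nat_lit 0x100b0b) (nat_lit 4))
 (.p (nat_lit 0x2497248921dd21d31f111f071c4f1c451983197516a716995fa00d) (nat_lit 0x589832b44000000040600) (nat_lit 33))))))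
 (.n (.n (.n (.n (.p (nat_lit 0xb7d087702) (nat_lit 0x310200) (nat_lit 16))
 (.p (nat_lit 0xd0e0d0c0d0a0d080d0614df06) (nat_lit 0x10000046515) (nat_lit 52)))
 (.n (.p (nat_lit 0xbb41a502) (nat_lit 0x340504) (nat_lit 30))
 (.p (nat_lit 0xbb596f02) (nat_lit 0x300504) (nat_lit 28))))
 (.n (.n (.p (nat_lit 0xcc6158f02) (nat_lit 0x440201) (nat_lit 4))
 (.p (nat_lit 0x249624922490248e0891088906) (nat_lit 0x8800096123) (nat_lit 51)))
 (.n (.p (nat_lit 0x2e28cf02) (nat_lit 0x200308) (nat_lit 1))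
 (.p (nat_lit 0x5d3d5ebb02) (nat_lit 0x100060000b00) (nat_lit 36)))))
 (.n (.n (.n (.p (nat_lit 0x19b619b419b219b01795179306) (nat_lit 0x18000c2700) (nat_lit 52))
 (.p (nat_lit 0x1030102e102c102a102813a106) (nat_lit 0x1000008451c) (nat_lit 51)))
 (.n (.p (nat_lit 0x4cba4cb84cb64cb44cb24cb006) (nat_lit 0x88206) (nat_lit 52))
 (.p (nat_lit 0x5cdb114902) (nat_lit 0x120020000400) (nat_lit 41))))
 (.n (.n (.p (nat_lit 0x24642462245e245c00800063005d2467246109) (nat_lit 0x2a00b02) (nat_lit 10))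
 (.p (nat_lit 0x8fe08fc08f808f608f40b5906) (nat_lit 0x400008222a) (nat_lit 51)))
 (.n (.p (nat_lit 0x1910530502) (nat_lit 0x70e) (nat_lit 29))
 (.p (nat_lit 0x63460a502) (nat_lit 0x346068ca4000000040000) (nat_lit 49))))))

def c512_44 : Tr := .n c1024_44 c1024_556

def c1024_300 : Tr :=
 .n (.n (.n (.n (.n (.n (.p (nat_lit 0x12b0127012003) (nat_lit 0x2a00006) (nat_lit 19))
 (.p (nat_lit 0x1982616502) (nat_lit 0x340c62b84000100040600) (nat_lit 50)))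
 (.p (nat_lit 0x81c081a081808160814338d06) (nat_lit 0x10000050a10) (nat_lit 52)))
 (.n (.p (nat_lit 0x3a883a863a843a823a803a7e009207) (nat_lit 0x603) (nat_lit 8))
 (.p (nat_lit 0x43f584f02) (nat_lit 0x540b2a) (nat_lit 30))))
 (.n (.n (.p (nat_lit 0x1ea11bcb02) (nat_lit 0x400900) (nat_lit 16))
 (.p (nat_lit 0x1a4c1a4a1a481a462da72d9d06) (nat_lit 0x1080005601e) (nat_lit 52)))
 (.n (.p (nat_lit 0x2066256702) (nat_lit 0x440906) (nat_lit 4))
 (.p (nat_lit 0x5e522cfd02) (nat_lit 0x6700) (nat_lit 48)))))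
 (.n (.n (.n (.p (nat_lit 0x107810761074107210700dff06) (nat_lit 0x10000090400) (nat_lit 51))
 (.p (nat_lit 0x3b03334302) (nat_lit 0x412a17) (nat_lit 16)))
 (.n (.p (nat_lit 0x8d7062302) (nat_lit 0x300005) (nat_lit 15))
 (.p (nat_lit 0x3575bb502) (nat_lit 0x400a1f) (nat_lit 28))))
 (.n (.n (.p (nat_lit 0x249624942490248e248c204d06) (nat_lit 0x40000d6901) (nat_lit 51))
 (.p (nat_lit 0x25a010bd02) (nat_lit 0x340b23) (nat_lit 4)))
 (.n (.p (nat_lit 0x52a05280526052405223b7506) (nat_lit 0x10000088b0a) (nat_lit 51))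
 (.p (nat_lit 0xe725f6302) (nat_lit 0x3aa074b44000300040000) (nat_lit 49))))))
 (.n (.n (.n (.n (.p (nat_lit 0x952094e094c094a0948072506) (nat_lit 0x800004c100) (nat_lit 52))
 (.p (nat_lit 0x1242541b02) (nat_lit 0x140415) (nat_lit 29)))
 (.n (.p (nat_lit 0xe523f3b02) (nat_lit 0x500304) (nat_lit 29))
 (.p (nat_lit 0x3558bd02) (nat_lit 0x500501) (nat_lit 28))))
 (.n (.n (.p (nat_lit 0x25d522c502) (nat_lit 0x552b00) (nat_lit 16))
 (.p (nat_lit 0x5e6568302) (nat_lit 0x300023) (nat_lit 29)))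
 (.n (.p (nat_lit 0x50e51e9d02) (nat_lit 0x216907) (nat_lit 16))
 (.p (nat_lit 0x5e9a247702) (nat_lit 0x20010a00) (nat_lit 47)))))
 (.n (.n (.n (.p (nat_lit 0x180316b502) (nat_lit 0x254600) (nat_lit 16))
 (.p (nat_lit 0x354d073902) (nat_lit 0x25001c) (nat_lit 16)))
 (.n (.p (nat_lit 0x1d921d901d8e1d8c00f400e500e31d8b1d8909) (nat_lit 0x840805) (nat_lit 10))
 (.p (nat_lit 0x5c935df502) (nat_lit 0x2a0000000300) (nat_lit 36))))
 (.n (.n (.p (nat_lit 0x198619841980197c21bb21b706) (nat_lit 0x500008ea02) (nat_lit 51))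
 (.p (nat_lit 0x50c04f0302) (nat_lit 0x240829) (nat_lit 4)))
 (.n (.p (nat_lit 0x21e221de21dc21da21d8123d06) (nat_lit 0x80000d440e) (nat_lit 51))
 (.p (nat_lit 0xa58606702) (nat_lit 0x5898b0b44000200000000) (nat_lit 50))))))

def c1024_812 : Tr :=
 .n (.n (.n (.n (.n (.n (.p (nat_lit 0x55a055805560552055004df06) (nat_lit 0x200008e000) (nat_lit 52))
 (.p (nat_lit 0x13ec61e302) (nat_lit 0x3302a5895000500040000) (nat_lit 49)))
 (.p (nat_lit 0x485448524850484e484c025d484b07) (nat_lit 0x40413) (nat_lit 7)))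
 (.n (.p (nat_lit 0x3ba9246b02) (nat_lit 0x10ab03) (nat_lit 16))
 (.p (nat_lit 0x1430142e142c142a14263ba906) (nat_lit 0x1000084b2d) (nat_lit 52))))
 (.n (.n (.p (nat_lit 0x221e221a221822161ffb1ff306) (nat_lit 0x8800044a00) (nat_lit 52))
 (.p (nat_lit 0xd320d300d2e0d2c0d2a424306) (nat_lit 0x10000080620) (nat_lit 51)))
 (.n (.p (nat_lit 0xf830f6b02) (nat_lit 0x148307) (nat_lit 16))
 (.p (nat_lit 0x5d7d1c4302) (nat_lit 0x80000800) (nat_lit 39)))))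
 (.n (.n (.n (.p (nat_lit 0x141614141410140e1227122106) (nat_lit 0x120000c2500) (nat_lit 51))
 (.p (nat_lit 0x48c648c448c248be48bc02f748c107) (nat_lit 0x20051a) (nat_lit 7)))
 (.n (.p (nat_lit 0x169616921690168e168c00eb169507) (nat_lit 0x400605) (nat_lit 7))
 (.p (nat_lit 0x5d87064b02) (nat_lit 0x2600a0000000) (nat_lit 41))))
 (.n (.n (.p (nat_lit 0xe3a0e340e320e3000820061005f0e390e3709) (nat_lit 0x2300302) (nat_lit 10))
 (.p (nat_lit 0x10321030102e102c102a3bef06) (nat_lit 0x8000c4b26) (nat_lit 51)))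
 (.n (.p (nat_lit 0x4e1c4ac702) (nat_lit 0x14030d) (nat_lit 5))
 (.p (nat_lit 0xd1a5fe702) (nat_lit 0x38ac60b44000300000000) (nat_lit 50))))))
 (.n (.n (.n (.n (.p (nat_lit 0xd240d220d200d1e0b390b3706) (nat_lit 0x18000000300) (nat_lit 52))
 (.p (nat_lit 0x1bea0ad902) (nat_lit 0x200815) (nat_lit 4)))
 (.n (.p (nat_lit 0x153e153c153a1538153417f506) (nat_lit 0x100004c604) (nat_lit 52))
 (.p (nat_lit 0x43e5a0502) (nat_lit 0x500407) (nat_lit 27))))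
 (.n (.n (.p (nat_lit 0x14f415d502) (nat_lit 0x440501) (nat_lit 5))
 (.p (nat_lit 0xcae119702) (nat_lit 0x440223) (nat_lit 4)))
 (.n (.p (nat_lit 0x30122d3302) (nat_lit 0x400309) (nat_lit 5))
 (.p (nat_lit 0x13fe5edb02) (nat_lit 0x4a9d22344000500040000) (nat_lit 50)))))
 (.n (.n (.n (.p (nat_lit 0x1b841b7e1b7c1b7a190118ff06) (nat_lit 0xc00000c800) (nat_lit 51))
 (.p (nat_lit 0x4a431a9302) (nat_lit 0x35471c) (nat_lit 16)))
 (.n (.p (nat_lit 0x196a4fcb02) (nat_lit 0x300706) (nat_lit 29))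
 (.p (nat_lit 0x5e26429b02) (nat_lit 0x20052500) (nat_lit 48))))
 (.n (.n (.p (nat_lit 0x8be1c7102) (nat_lit 0x300103) (nat_lit 4))
 (.p (nat_lit 0xff60ff00fee0fec0e210e1f06) (nat_lit 0xc00000032a) (nat_lit 52)))
 (.n (.p (nat_lit 0x217409a502) (nat_lit 0x400a0e) (nat_lit 4))
 (.p (nat_lit 0xbae60ed02) (nat_lit 0x340d6a3a4000200040000) (nat_lit 49))))))

def c512_300 : Tr := .n c1024_300 c1024_812

def c256_44 : Tr := .n c512_44 c512_300

def c1024_172 : Tr :=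
 .n (.n (.n (.n (.n (.n (.p (nat_lit 0xaf00ab00a5009604) (nat_lit 0x71100003) (nat_lit 20))
 (.p (nat_lit 0x114e614b02) (nat_lit 0x3b0221d84000400040000) (nat_lit 50)))
 (.p (nat_lit 0x31782e6702) (nat_lit 0x340410) (nat_lit 4)))
 (.n (.p (nat_lit 0x126e390102) (nat_lit 0x540403) (nat_lit 29))
 (.p (nat_lit 0x4170416e416c416a4168204306) (nat_lit 0x80000ce92a) (nat_lit 52))))
 (.n (.n (.p (nat_lit 0x1dda1dd81dd41dd21bc91bc306) (nat_lit 0x4800002900) (nat_lit 51))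
 (.p (nat_lit 0x1778177617721770176e26c306) (nat_lit 0x40000d201d) (nat_lit 52)))
 (.n (.p (nat_lit 0x508f1d9702) (nat_lit 0x140806) (nat_lit 16))
 (.p (nat_lit 0x5e46288502) (nat_lit 0x6004a600) (nat_lit 48)))))
 (.n (.n (.n (.p (nat_lit 0xdf60fe302) (nat_lit 0x100400) (nat_lit 5))
 (.p (nat_lit 0x2bfe285b02) (nat_lit 0x540916) (nat_lit 5)))
 (.n (.p (nat_lit 0x25d01e8702) (nat_lit 0x340b04) (nat_lit 4))
 (.p (nat_lit 0x2b55b4302) (nat_lit 0x300416) (nat_lit 28))))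
 (.n (.n (.p (nat_lit 0x2bc91ee502) (nat_lit 0x20a901) (nat_lit 16))
 (.p (nat_lit 0x2194109702) (nat_lit 0x200a23) (nat_lit 4)))
 (.n (.p (nat_lit 0x3966350502) (nat_lit 0x4040a) (nat_lit 4))
 (.p (nat_lit 0xbb25f4102) (nat_lit 0x3a2260b50000200040000) (nat_lit 50))))))
 (.n (.n (.n (.n (.p (nat_lit 0x89105c502) (nat_lit 0x408100) (nat_lit 16))
 (.p (nat_lit 0x92e092c092a09260924072d06) (nat_lit 0x20000c8015) (nat_lit 52)))
 (.n (.p (nat_lit 0xb8a0b880b860b8400cc00bf00b50b8d0b8309) (nat_lit 0x2800204) (nat_lit 10))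
 (.p (nat_lit 0x4ac24abe4abc4aba4ab84c1d06) (nat_lit 0x8000006130) (nat_lit 52))))
 (.n (.n (.p (nat_lit 0x251425122510250e22bd22bb06) (nat_lit 0x180004ab00) (nat_lit 52))
 (.p (nat_lit 0x4fc24d9102) (nat_lit 0x540522) (nat_lit 4)))
 (.n (.p (nat_lit 0x1bd2056102) (nat_lit 0x200807) (nat_lit 4))
 (.p (nat_lit 0x5d9b1db702) (nat_lit 0x1200a0000900) (nat_lit 40)))))
 (.n (.n (.n (.p (nat_lit 0x175417521750174e16b316b106) (nat_lit 0x1800050600) (nat_lit 51))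
 (.p (nat_lit 0x7360e9302) (nat_lit 0x14001c) (nat_lit 4)))
 (.n (.p (nat_lit 0x1ad11ac502) (nat_lit 0x44c705) (nat_lit 16))
 (.p (nat_lit 0x5d3d5de902) (nat_lit 0x100060000200) (nat_lit 37))))
 (.n (.n (.p (nat_lit 0x1b801b7e1b7c1b7a205d205b06) (nat_lit 0x1800004c902) (nat_lit 51))
 (.p (nat_lit 0x4c164c124c104c0e4c0c04254c1507) (nat_lit 0x400129) (nat_lit 7)))
 (.n (.p (nat_lit 0x207420722070206e206c10db06) (nat_lit 0x80001440e) (nat_lit 52))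
 (.p (nat_lit 0x2074604702) (nat_lit 0x40a96254c800400000600) (nat_lit 49))))))

def c1024_684 : Tr :=
 .n (.n (.n (.n (.n (.n (.p (nat_lit 0x49804960490049b04) (nat_lit 0x1900040002d) (nat_lit 17))
 (.p (nat_lit 0x1ad461c502) (nat_lit 0x3421684a0800200000600) (nat_lit 49)))
 (.p (nat_lit 0x494541fd02) (nat_lit 0x356512) (nat_lit 16)))
 (.n (.p (nat_lit 0x9400a100a71d191bb305) (nat_lit 0xa0c00b03) (nat_lit 9))
 (.p (nat_lit 0x375d364d02) (nat_lit 0x14012d) (nat_lit 15))))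
 (.n (.n (.p (nat_lit 0x21522150214e214c214a1e8d06) (nat_lit 0x800090a00) (nat_lit 51))
 (.p (nat_lit 0x3c683fbb02) (nat_lit 0x500020) (nat_lit 5)))
 (.n (.p (nat_lit 0x300f0e0502) (nat_lit 0x20e307) (nat_lit 16))
 (.p (nat_lit 0x5cd11ad702) (nat_lit 0x1c0020000800) (nat_lit 38)))))
 (.n (.n (.n (.p (nat_lit 0x131613141310130c10c910c506) (nat_lit 0x500000e500) (nat_lit 52))
 (.p (nat_lit 0x28a427f02) (nat_lit 0x540619) (nat_lit 1)))
 (.n (.p (nat_lit 0xed47f702) (nat_lit 0x540405) (nat_lit 30))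
 (.p (nat_lit 0x5cc304d102) (nat_lit 0x2a0020000000) (nat_lit 40))))
 (.n (.n (.p (nat_lit 0xcd10a0f02) (nat_lit 0x340102) (nat_lit 15))
 (.p (nat_lit 0x36c4575702) (nat_lit 0x100226) (nat_lit 29)))
 (.n (.p (nat_lit 0x484643e102) (nat_lit 0x44040c) (nat_lit 5))
 (.p (nat_lit 0x20705fcb02) (nat_lit 0x9582ec05800400000600) (nat_lit 49))))))
 (.n (.n (.n (.n (.p (nat_lit 0xc460c420c400c3c09d509cf06) (nat_lit 0x90000d0200) (nat_lit 51))
 (.p (nat_lit 0x17bc0c1902) (nat_lit 0x340615) (nat_lit 4)))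
 (.n (.p (nat_lit 0x1f1a1f161f141f121f10168906) (nat_lit 0x8000092604) (nat_lit 51))
 (.p (nat_lit 0xb859bb02) (nat_lit 0x200805) (nat_lit 27))))
 (.n (.n (.p (nat_lit 0x10fa10f810f410f200500035002f10fd10f709) (nat_lit 0x2a00401) (nat_lit 10))
 (.p (nat_lit 0x248a248824862482248009e906) (nat_lit 0x20000d6123) (nat_lit 52)))
 (.n (.p (nat_lit 0x2b8e263102) (nat_lit 0x300908) (nat_lit 5))
 (.p (nat_lit 0x5d7f5ec102) (nat_lit 0x2e00a0000b00) (nat_lit 37)))))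
 (.n (.n (.n (.p (nat_lit 0x1a77179502) (nat_lit 0x142700) (nat_lit 16))
 (.p (nat_lit 0x16580d6f02) (nat_lit 0x40061c) (nat_lit 5)))
 (.n (.p (nat_lit 0x4e864e844e824e804e7e113906) (nat_lit 0x10000010406) (nat_lit 51))
 (.p (nat_lit 0x5d53114302) (nat_lit 0x2a0080000400) (nat_lit 39))))
 (.n (.n (.p (nat_lit 0x177817761772176e25b925b506) (nat_lit 0x50000d2b02) (nat_lit 52))
 (.p (nat_lit 0x8f208ee08ec08ea08e80cbb06) (nat_lit 0x80000c222a) (nat_lit 52)))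
 (.n (.p (nat_lit 0x1d42532b02) (nat_lit 0x14080e) (nat_lit 29))
 (.p (nat_lit 0x13ee60cd02) (nat_lit 0x3502623b0000500040000) (nat_lit 49))))))

def c512_172 : Tr := .n c1024_172 c1024_684

def c1024_428 : Tr :=
 .n (.n (.n (.n (.n (.n (.p (nat_lit 0x25402520250025b04) (nat_lit 0x7000400012) (nat_lit 17))
 (.p (nat_lit 0x1146618502) (nat_lit 0x421a86b95000400040000) (nat_lit 50)))
 (.p (nat_lit 0x397a53c102) (nat_lit 0x440411) (nat_lit 29)))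
 (.n (.p (nat_lit 0x913ac302) (nat_lit 0x540603) (nat_lit 30))
 (.p (nat_lit 0x2bce2a6102) (nat_lit 0x50092b) (nat_lit 5))))
 (.n (.n (.p (nat_lit 0x1fa61fa41fa21fa01d331d2906) (nat_lit 0x108000ca900) (nat_lit 51))
 (.p (nat_lit 0x34c637fb02) (nat_lit 0x40001f) (nat_lit 5)))
 (.n (.p (nat_lit 0x7f207ee07ec07e80b430b3d06) (nat_lit 0x900008a207) (nat_lit 51))
 (.p (nat_lit 0x5d35181102) (nat_lit 0x180060000700) (nat_lit 38)))))
 (.n (.n (.n (.p (nat_lit 0x115c1158115611540f650f5d06) (nat_lit 0x8800040400) (nat_lit 51))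
 (.p (nat_lit 0x3a703a6e3a6c3a6a3a6602d13a6907) (nat_lit 0x140518) (nat_lit 7)))
 (.n (.p (nat_lit 0xb8e459f02) (nat_lit 0x205) (nat_lit 29))
 (.p (nat_lit 0x3da03d603d403d2041d033f06) (nat_lit 0x414224) (nat_lit 26))))
 (.n (.n (.p (nat_lit 0x118231502) (nat_lit 0x340a01) (nat_lit 1))
 (.p (nat_lit 0x2b6e29db02) (nat_lit 0x540824) (nat_lit 4)))
 (.n (.p (nat_lit 0x4016401440124010400e01b7401907) (nat_lit 0x54030b) (nat_lit 7))
 (.p (nat_lit 0x20705f8302) (nat_lit 0x581a32b44000400000600) (nat_lit 49))))))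
 (.n (.n (.n (.n (.p (nat_lit 0xa660a640a600a5e0a5c087706) (nat_lit 0x4000000200) (nat_lit 51))
 (.p (nat_lit 0xbbc0bb80bb60bb40bb2139306) (nat_lit 0x8000084515) (nat_lit 51)))
 (.n (.p (nat_lit 0xb9409d02) (nat_lit 0x240404) (nat_lit 30))
 (.p (nat_lit 0x590c590a5908590459020005006407) (nat_lit 0x212b02) (nat_lit 25))))
 (.n (.n (.p (nat_lit 0x8ad08a102) (nat_lit 0x10101) (nat_lit 16))
 (.p (nat_lit 0x14481446144414421440074106) (nat_lit 0x8000c6023) (nat_lit 52)))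
 (.n (.p (nat_lit 0x241805a902) (nat_lit 0x200b07) (nat_lit 5))
 (.p (nat_lit 0x5d97208102) (nat_lit 0x1600a0000a00) (nat_lit 40)))))
 (.n (.n (.n (.p (nat_lit 0x18ea18e618e418e01629162306) (nat_lit 0x9000016700) (nat_lit 51))
 (.p (nat_lit 0x28409dd02) (nat_lit 0x24011c) (nat_lit 1)))
 (.n (.p (nat_lit 0x4b4e4b4c4b4a4b484b44078b06) (nat_lit 0x10000c6006) (nat_lit 52))
 (.p (nat_lit 0x5e002c0702) (nat_lit 0x6004c300) (nat_lit 48))))
 (.n (.n (.p (nat_lit 0x140013fe13fc13fa13f8231b06) (nat_lit 0x8000caa02) (nat_lit 51))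
 (.p (nat_lit 0x452b089d02) (nat_lit 0x41412a) (nat_lit 16)))
 (.n (.p (nat_lit 0x14d214ce14cc14ca14c801ef14d107) (nat_lit 0x44050e) (nat_lit 7))
 (.p (nat_lit 0x2484608302) (nat_lit 0x344380a64000500040600) (nat_lit 49))))))

def c1024_940 : Tr :=
 .n (.n (.n (.n (.n (.p (nat_lit 0x686068406820680067e067c06) (nat_lit 0xc6000) (nat_lit 52))
 (.p (nat_lit 0x4e984c4502) (nat_lit 0x100414) (nat_lit 5)))
 (.n (.p (nat_lit 0x3be725c302) (nat_lit 0x246b03) (nat_lit 16))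
 (.p (nat_lit 0x12c012be12bc12ba425b425106) (nat_lit 0x1080008262e) (nat_lit 52))))
 (.n (.n (.p (nat_lit 0x230f1ff302) (nat_lit 0x4ca00) (nat_lit 16))
 (.p (nat_lit 0x2116211421122110210e440f06) (nat_lit 0x80000c021) (nat_lit 52)))
 (.n (.p (nat_lit 0x122a052502) (nat_lit 0x140407) (nat_lit 5))
 (.p (nat_lit 0x5e7a34c902) (nat_lit 0xa0006800) (nat_lit 48)))))
 (.n (.n (.n (.p (nat_lit 0x1525122502) (nat_lit 0x454500) (nat_lit 16))
 (.p (nat_lit 0x4ea44cab02) (nat_lit 0x10041b) (nat_lit 4)))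
 (.n (.p (nat_lit 0x195a212702) (nat_lit 0x100705) (nat_lit 4))
 (.p (nat_lit 0x5d3d079b02) (nat_lit 0x100060000100) (nat_lit 38))))
 (.n (.n (.p (nat_lit 0x1262125e125c125800780061005b1261125b09) (nat_lit 0x2140402) (nat_lit 10))
 (.p (nat_lit 0x428e406102) (nat_lit 0x140627) (nat_lit 4)))
 (.n (.p (nat_lit 0x51244b7d02) (nat_lit 0x4090d) (nat_lit 4))
 (.p (nat_lit 0x1db0600b02) (nat_lit 0x405aa2354800300000600) (nat_lit 50))))))
 (.n (.n (.n (.n (.p (nat_lit 0xe1d0b3302) (nat_lit 0x20a300) (nat_lit 16))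
 (.p (nat_lit 0x2f2217902) (nat_lit 0xa15) (nat_lit 1)))
 (.n (.p (nat_lit 0x1b501b4e1b4c1b4a1957195506) (nat_lit 0x18000008704) (nat_lit 52))
 (.p (nat_lit 0x1e201e001dc01d80147026b06) (nat_lit 0x191020d) (nat_lit 26))))
 (.n (.n (.p (nat_lit 0x18f418f018ee18ec1c211c1d06) (nat_lit 0x14000096801) (nat_lit 51))
 (.p (nat_lit 0x17d856db02) (nat_lit 0x540623) (nat_lit 29)))
 (.n (.p (nat_lit 0x192019701952cc72d7105) (nat_lit 0x8e800a09) (nat_lit 9))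
 (.p (nat_lit 0x2493248b21dd21d51f1b1f0b1c4f1c3b1983197516a716995efe0d) (nat_lit 0x3aa570344000000040600) (nat_lit 33)))))
 (.n (.n (.n (.p (nat_lit 0x8a1a6102) (nat_lit 0x240800) (nat_lit 1))
 (.p (nat_lit 0x1ec40db502) (nat_lit 0x40091c) (nat_lit 4)))
 (.n (.p (nat_lit 0x50211ac902) (nat_lit 0x46706) (nat_lit 16))
 (.p (nat_lit 0x5e3250d102) (nat_lit 0x80056500) (nat_lit 47))))
 (.n (.n (.p (nat_lit 0x8b365b02) (nat_lit 0x200203) (nat_lit 30))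
 (.p (nat_lit 0x167057e102) (nat_lit 0x40062a) (nat_lit 29)))
 (.n (.p (nat_lit 0x4bfe4bfc4bfa4bf64bf4257b06) (nat_lit 0x20000d0b0e) (nat_lit 52))
 (.p (nat_lit 0xe6e610f02) (nat_lit 0x3425299b0000300040000) (nat_lit 49))))))

def c512_428 : Tr := .n c1024_428 c1024_940

def c256_172 : Tr := .n c512_172 c512_428

def c128_44 : Tr := .n c256_44 c256_172

def c1024_108 : Tr :=
 .n (.n (.n (.n (.n (.n (.p (nat_lit 0x6f006d006603) (nat_lit 0x1a00002) (nat_lit 19))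
 (.p (nat_lit 0x21e0613702) (nat_lit 0x3503a0d64000400040600) (nat_lit 50)))
 (.p (nat_lit 0x2c3227a302) (nat_lit 0x100a0f) (nat_lit 4)))
 (.n (.p (nat_lit 0x8f387f02) (nat_lit 0x400403) (nat_lit 30))
 (.p (nat_lit 0x1ede1edc1eda1ed81ed604351ed507) (nat_lit 0x92a) (nat_lit 7))))
 (.n (.n (.p (nat_lit 0x1d651a5d02) (nat_lit 0x48800) (nat_lit 16))
 (.p (nat_lit 0x4e0a4e084e064e022443243b06) (nat_lit 0x11000010b1c) (nat_lit 52)))
 (.n (.p (nat_lit 0x140013fe13fa13f813f61d9b06) (nat_lit 0x40000ca806) (nat_lit 51))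
 (.p (nat_lit 0x5cf116a902) (nat_lit 0x2c0040000600) (nat_lit 41)))))
 (.n (.n (.n (.p (nat_lit 0xf610c9302) (nat_lit 0x240300) (nat_lit 15))
 (.p (nat_lit 0x2aee2aea2ae82ae62ae402b72aed07) (nat_lit 0x440516) (nat_lit 7)))
 (.n (.p (nat_lit 0x221e221c221a22182214247706) (nat_lit 0x1000004b04) (nat_lit 52))
 (.p (nat_lit 0x28a028802840280000701e906) (nat_lit 0x190a015) (nat_lit 26))))
 (.n (.n (.p (nat_lit 0x129e129c1298129612941ee706) (nat_lit 0x400000a901) (nat_lit 52))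
 (.p (nat_lit 0x1ece570702) (nat_lit 0x300923) (nat_lit 29)))
 (.n (.p (nat_lit 0x385a346302) (nat_lit 0x4030a) (nat_lit 5))
 (.p (nat_lit 0x1ad65f3502) (nat_lit 0x3a2560c44000200000600) (nat_lit 49))))))
 (.n (.n (.n (.n (.p (nat_lit 0x7ce07ca07c807c405c505bf06) (nat_lit 0x9000008100) (nat_lit 52))
 (.p (nat_lit 0x5db05cf02) (nat_lit 0x308015) (nat_lit 16)))
 (.n (.p (nat_lit 0xa2a0a280a260a2000ce00b900b70a250a2309) (nat_lit 0x1140104) (nat_lit 10))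
 (.p (nat_lit 0x499c492102) (nat_lit 0x20062f) (nat_lit 5))))
 (.n (.n (.p (nat_lit 0x22ba248d02) (nat_lit 0x40b00) (nat_lit 5))
 (.p (nat_lit 0x252a25282526252425224b8f06) (nat_lit 0x1000004e022) (nat_lit 51)))
 (.n (.p (nat_lit 0x1bd9190f02) (nat_lit 0x500707) (nat_lit 15))
 (.p (nat_lit 0x5e8a1c2902) (nat_lit 0x60016900) (nat_lit 48)))))
 (.n (.n (.n (.p (nat_lit 0x16b416a902) (nat_lit 0x240600) (nat_lit 5))
 (.p (nat_lit 0x197a197819741972197005db06) (nat_lit 0x400008e01c) (nat_lit 52)))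
 (.n (.p (nat_lit 0x153e153c1538153615341ac306) (nat_lit 0x400004c705) (nat_lit 52))
 (.p (nat_lit 0x5cd30a4702) (nat_lit 0x1a0020000200) (nat_lit 38))))
 (.n (.n (.p (nat_lit 0x32b91ef502) (nat_lit 0x408902) (nat_lit 16))
 (.p (nat_lit 0x49fa47b902) (nat_lit 0x100728) (nat_lit 5)))
 (.n (.p (nat_lit 0xa5a0a580a560a540a5010dd06) (nat_lit 0x100000440e) (nat_lit 51))
 (.p (nat_lit 0xa46603702) (nat_lit 0x4a9d80b44000200000000) (nat_lit 49))))))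

def c1024_620 : Tr :=
 .n (.n (.n (.n (.n (.n (.p (nat_lit 0x3da03d403d203dd04) (nat_lit 0x13000400024) (nat_lit 17))
 (.p (nat_lit 0x181e61b502) (nat_lit 0x322266c15000100000600) (nat_lit 50)))
 (.p (nat_lit 0x410a3d2f02) (nat_lit 0x540412) (nat_lit 5)))
 (.n (.p (nat_lit 0x232e232c232a232823260091233107) (nat_lit 0x540a03) (nat_lit 7))
 (.p (nat_lit 0x33b4325b02) (nat_lit 0x140a2c) (nat_lit 4))))
 (.n (.n (.p (nat_lit 0x210a2106210421001e951e8f06) (nat_lit 0x900008aa00) (nat_lit 52))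
 (.p (nat_lit 0xeb20eb00eae0eaa0ea83b9306) (nat_lit 0x2000082b1f) (nat_lit 52)))
 (.n (.p (nat_lit 0x13f413f013ee13ec13ea0e0906) (nat_lit 0x800008a307) (nat_lit 52))
 (.p (nat_lit 0x5c9b1ad502) (nat_lit 0x220000000800) (nat_lit 38)))))
 (.n (.n (.n (.p (nat_lit 0x12b212b012ae12ac10cd10cb06) (nat_lit 0x18000002500) (nat_lit 52))
 (.p (nat_lit 0x1de41de21de01dde1ddc420d06) (nat_lit 0x100000c2519) (nat_lit 51)))
 (.n (.p (nat_lit 0x47670fbf02) (nat_lit 0x14a305) (nat_lit 16))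
 (.p (nat_lit 0x5c99064102) (nat_lit 0x240000000000) (nat_lit 41))))
 (.n (.n (.p (nat_lit 0x8b0183d02) (nat_lit 0x200102) (nat_lit 5))
 (.p (nat_lit 0x1b901b8e1b8a1b881b8635c706) (nat_lit 0x400008c126) (nat_lit 51)))
 (.n (.p (nat_lit 0x46f0444502) (nat_lit 0x50030c) (nat_lit 5))
 (.p (nat_lit 0x1ade5fc102) (nat_lit 0x8982e955800200000600) (nat_lit 49))))))
 (.n (.n (.n (.n (.p (nat_lit 0xbd40bd00bce0bcc09d509cd06) (nat_lit 0x88000c0200) (nat_lit 52))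
 (.p (nat_lit 0x328114dd02) (nat_lit 0x44e515) (nat_lit 16)))
 (.n (.p (nat_lit 0x79e079c079a07941685168306) (nat_lit 0x3000002604) (nat_lit 52))
 (.p (nat_lit 0xe9599b02) (nat_lit 0x300305) (nat_lit 28))))
 (.n (.n (.p (nat_lit 0xe370e2b02) (nat_lit 0x310301) (nat_lit 16))
 (.p (nat_lit 0xa580a560a540a520a5009ef06) (nat_lit 0x10000044123) (nat_lit 51)))
 (.n (.p (nat_lit 0x4f1b2a0302) (nat_lit 0x354408) (nat_lit 16))
 (.p (nat_lit 0x5d715ebf02) (nat_lit 0xc0080000b00) (nat_lit 36)))))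
 (.n (.n (.n (.p (nat_lit 0x1a361a321a2e1a2c179b179706) (nat_lit 0xa000054700) (nat_lit 51))
 (.p (nat_lit 0x14ea14e814e414e00324030d030914e714e309) (nat_lit 0x194051c) (nat_lit 10)))
 (.n (.p (nat_lit 0xfce23a302) (nat_lit 0x340306) (nat_lit 5))
 (.p (nat_lit 0x5d3d0fe702) (nat_lit 0x100060000400) (nat_lit 40))))
 (.n (.n (.p (nat_lit 0x25bc25ba25b825b625b4005925b307) (nat_lit 0x40b02) (nat_lit 7))
 (.p (nat_lit 0x1f0c1f0a1f061f040b5d0b5706) (nat_lit 0x1200009222a) (nat_lit 52)))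
 (.n (.p (nat_lit 0x1be41be21be01bde1bdc01e71bdb07) (nat_lit 0x80e) (nat_lit 7))
 (.p (nat_lit 0x181c60b102) (nat_lit 0x3505223a4000100000600) (nat_lit 50))))))

def c512_108 : Tr := .n c1024_108 c1024_620

def c1024_364 : Tr :=
 .n (.n (.n (.n (.n (.n (.p (nat_lit 0x18a01880184019104) (nat_lit 0x6800400009) (nat_lit 17))
 (.p (nat_lit 0x2070617502) (nat_lit 0x521a86b11000400000600) (nat_lit 49)))
 (.p (nat_lit 0x8c38e502) (nat_lit 0x300411) (nat_lit 1)))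
 (.n (.p (nat_lit 0x1a361a341a301a2e1a2c167b06) (nat_lit 0x4000014603) (nat_lit 51))
 (.p (nat_lit 0x28de2a9f02) (nat_lit 0x32b) (nat_lit 4))))
 (.n (.n (.p (nat_lit 0x1f151f0902) (nat_lit 0x240900) (nat_lit 34))
 (.p (nat_lit 0xea60ea40ea20ea00e9c334906) (nat_lit 0x1000002a1e) (nat_lit 52)))
 (.n (.p (nat_lit 0x14e015b0155065904e705) (nat_lit 0x45800207) (nat_lit 9))
 (.p (nat_lit 0x5d1d198102) (nat_lit 0x40000700) (nat_lit 41)))))
 (.n (.n (.n (.p (nat_lit 0x11070dfd02) (nat_lit 0x40e400) (nat_lit 16))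
 (.p (nat_lit 0x3544366902) (nat_lit 0x440018) (nat_lit 5)))
 (.n (.p (nat_lit 0x8d2209d02) (nat_lit 0x100105) (nat_lit 4))
 (.p (nat_lit 0x3a95bd502) (nat_lit 0x400023) (nat_lit 28))))
 (.n (.n (.p (nat_lit 0x352c2f02) (nat_lit 0x500a01) (nat_lit 30))
 (.p (nat_lit 0x15f815f615f415f215f0273f06) (nat_lit 0x10000012124) (nat_lit 52)))
 (.n (.p (nat_lit 0x3e723c8102) (nat_lit 0x50020b) (nat_lit 5))
 (.p (nat_lit 0xe725f7502) (nat_lit 0x1aa074b50000300040000) (nat_lit 49))))))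
 (.n (.n (.n (.n (.p (nat_lit 0xa1f072702) (nat_lit 0x550100) (nat_lit 16))
 (.p (nat_lit 0xdc20dc00dbc0db81247124306) (nat_lit 0x50000d2415) (nat_lit 52)))
 (.n (.p (nat_lit 0xfc70fbb02) (nat_lit 0x556304) (nat_lit 16))
 (.p (nat_lit 0x60005e005c00580003018f06) (nat_lit 0xd14002) (nat_lit 26))))
 (.n (.n (.p (nat_lit 0x33265102) (nat_lit 0x440001) (nat_lit 30))
 (.p (nat_lit 0x264505e502) (nat_lit 0x20c023) (nat_lit 16)))
 (.n (.p (nat_lit 0x2175216902) (nat_lit 0x404a07) (nat_lit 16))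
 (.p (nat_lit 0x5ea2485102) (nat_lit 0x60042a00) (nat_lit 47)))))
 (.n (.n (.n (.p (nat_lit 0x18941890188e188c162b162706) (nat_lit 0x14000088700) (nat_lit 52))
 (.p (nat_lit 0xbec0bea0be60be40883087d06) (nat_lit 0x480008811c) (nat_lit 51)))
 (.n (.p (nat_lit 0x4aaa4aa84aa64aa44aa24aa0011e07) (nat_lit 0x6) (nat_lit 8))
 (.p (nat_lit 0x5d0f0e7d02) (nat_lit 0xe0040000300) (nat_lit 41))))
 (.n (.n (.p (nat_lit 0x231e18d902) (nat_lit 0x240a02) (nat_lit 5))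
 (.p (nat_lit 0x89c12b502) (nat_lit 0x40012a) (nat_lit 4)))
 (.n (.p (nat_lit 0x138807e702) (nat_lit 0x50050e) (nat_lit 5))
 (.p (nat_lit 0x113c607502) (nat_lit 0x4688ae154000400040000) (nat_lit 49))))))

def c1024_876 : Tr :=
 .n (.n (.n (.n (.n (.p (nat_lit 0x61f04dd02) (nat_lit 0x114000) (nat_lit 16))
 (.p (nat_lit 0x92e092c092a0928092649d506) (nat_lit 0x800088713) (nat_lit 52)))
 (.n (.p (nat_lit 0xfde0fdc0fda0fd80fd625bf06) (nat_lit 0x800048b03) (nat_lit 52))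
 (.p (nat_lit 0x3f2641c102) (nat_lit 0x14022e) (nat_lit 4))))
 (.n (.n (.p (nat_lit 0x22a0229a229822961ffb1ff906) (nat_lit 0xc0000cea00) (nat_lit 52))
 (.p (nat_lit 0x3788378637843780377e42d906) (nat_lit 0x2000080720) (nat_lit 51)))
 (.n (.p (nat_lit 0x10d810d410d210d001560149014110d710cf09) (nat_lit 0x2000407) (nat_lit 10))
 (.p (nat_lit 0x5e7838e702) (nat_lit 0x80002800) (nat_lit 47)))))
 (.n (.n (.n (.p (nat_lit 0x14a414a2149e149a1223121f06) (nat_lit 0x5000054500) (nat_lit 52))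
 (.p (nat_lit 0x304498b02) (nat_lit 0x50061a) (nat_lit 1)))
 (.n (.p (nat_lit 0x49ae49ac49aa49a849a649a400ee07) (nat_lit 0x40605) (nat_lit 8))
 (.p (nat_lit 0x5ccd5dcb02) (nat_lit 0x200020000100) (nat_lit 36))))
 (.n (.n (.p (nat_lit 0x308f0f9d02) (nat_lit 0x240302) (nat_lit 16))
 (.p (nat_lit 0x1fc01fbe1fba1fb81fb63df906) (nat_lit 0x40000cc127) (nat_lit 52)))
 (.n (.p (nat_lit 0x508d4fff02) (nat_lit 0x4070d) (nat_lit 15))
 (.p (nat_lit 0x20745ff702) (nat_lit 0x386a81c35000400000600) (nat_lit 49))))))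
 (.n (.n (.n (.n (.p (nat_lit 0xd700d6a0d680d660b370b3506) (nat_lit 0xc00000c300) (nat_lit 51))
 (.p (nat_lit 0x281547902) (nat_lit 0x915) (nat_lit 30)))
 (.n (.p (nat_lit 0x180317f702) (nat_lit 0x256604) (nat_lit 16))
 (.p (nat_lit 0x18e018c018801860141019f06) (nat_lit 0x314909) (nat_lit 26))))
 (.n (.n (.p (nat_lit 0x1c1e15e102) (nat_lit 0x400801) (nat_lit 4))
 (.p (nat_lit 0x37510ca902) (nat_lit 0x150223) (nat_lit 16)))
 (.n (.p (nat_lit 0x30f830f630f430f030ee018930f307) (nat_lit 0x200409) (nat_lit 7))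
 (.p (nat_lit 0x4c25eed02) (nat_lit 0x4a1d84344000000000000) (nat_lit 49)))))
 (.n (.n (.n (.p (nat_lit 0x1bd318fd02) (nat_lit 0x200800) (nat_lit 16))
 (.p (nat_lit 0x309555f02) (nat_lit 0x14081c) (nat_lit 30)))
 (.n (.p (nat_lit 0x2e1acd02) (nat_lit 0x240706) (nat_lit 1))
 (.p (nat_lit 0x5d2f13fd02) (nat_lit 0x1e0060000500) (nat_lit 41))))
 (.n (.n (.p (nat_lit 0xa1c1c7f02) (nat_lit 0x440103) (nat_lit 4))
 (.p (nat_lit 0xf8a57d702) (nat_lit 0x54032a) (nat_lit 29)))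
 (.n (.p (nat_lit 0x2424535d02) (nat_lit 0x200b0e) (nat_lit 29))
 (.p (nat_lit 0x233660f702) (nat_lit 0x440d663a4000500000600) (nat_lit 49))))))

def c512_364 : Tr := .n c1024_364 c1024_876

def c256_108 : Tr := .n c512_108 c512_364

def c1024_236 : Tr :=
 .n (.n (.n (.n (.n (.n (.p (nat_lit 0xea00e800e200ef04) (nat_lit 0xc800400005) (nat_lit 17))
 (.p (nat_lit 0x1534615902) (nat_lit 0x352829d84000000000600) (nat_lit 49)))
 (.p (nat_lit 0x32a632a432a2329c02340227022532a1329f09) (nat_lit 0x1100910) (nat_lit 10)))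
 (.n (.p (nat_lit 0x39b039ae39ac39aa39a813bb06) (nat_lit 0x800004503) (nat_lit 52))
 (.p (nat_lit 0x2306135f02) (nat_lit 0x240a2a) (nat_lit 5))))
 (.n (.n (.p (nat_lit 0x1e5a1e581e521e501bc91bc706) (nat_lit 0x600008c900) (nat_lit 51))
 (.p (nat_lit 0x2c08291f02) (nat_lit 0x44091d) (nat_lit 5)))
 (.n (.p (nat_lit 0x21162110210e210c1f011eff06) (nat_lit 0xc00000c906) (nat_lit 52))
 (.p (nat_lit 0x5d85154b02) (nat_lit 0x2800a0000600) (nat_lit 40)))))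
 (.n (.n (.n (.p (nat_lit 0x100e100c100a10060df90df506) (nat_lit 0x2800002400) (nat_lit 52))
 (.p (nat_lit 0x18ba18b818b618b418b0327b06) (nat_lit 0x1000052517) (nat_lit 52)))
 (.n (.p (nat_lit 0x22b822b622b222b025d125cb06) (nat_lit 0x48000d0b04) (nat_lit 52))
 (.p (nat_lit 0x30e030c030a03080359000106) (nat_lit 0x281001c) (nat_lit 26))))
 (.n (.n (.p (nat_lit 0xbb00bae0baa0ba80ba6204d06) (nat_lit 0x40000c4901) (nat_lit 52))
 (.p (nat_lit 0x3a3572702) (nat_lit 0x100b23) (nat_lit 30)))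
 (.n (.p (nat_lit 0x5266526452625260525e525c01a407) (nat_lit 0xa0a) (nat_lit 8))
 (.p (nat_lit 0x15485f5902) (nat_lit 0x1a2262350000000000600) (nat_lit 50))))))
 (.n (.n (.n (.n (.p (nat_lit 0x7260724071e071c001e000700050723072109) (nat_lit 0x1a40100) (nat_lit 10))
 (.p (nat_lit 0x10f010ee10ea10e802940287028110ed10e709) (nat_lit 0x1800415) (nat_lit 10)))
 (.n (.p (nat_lit 0xcea0ce80ce60ce400cc00bf00b50ced0ce309) (nat_lit 0x2840204) (nat_lit 10))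
 (.p (nat_lit 0x1430142e142c142a142650cb06) (nat_lit 0x10000c4830) (nat_lit 52))))
 (.n (.n (.p (nat_lit 0x256825662560255e22c122bf06) (nat_lit 0x60000d2b00) (nat_lit 52))
 (.p (nat_lit 0xde40de20de00ddc5067505f06) (nat_lit 0x11000016822) (nat_lit 52)))
 (.n (.p (nat_lit 0x1d3606cd02) (nat_lit 0x140807) (nat_lit 5))
 (.p (nat_lit 0x5e9648bd02) (nat_lit 0x4a00) (nat_lit 47)))))
 (.n (.n (.n (.p (nat_lit 0x17841780177e177c16b916b106) (nat_lit 0x8800054600) (nat_lit 52))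
 (.p (nat_lit 0x16ae16aa16a616a4073d073906) (nat_lit 0xa0000cc01c) (nat_lit 51)))
 (.n (.p (nat_lit 0x1e5a1e581e561e501c271c2506) (nat_lit 0x300008c805) (nat_lit 51))
 (.p (nat_lit 0x5d570a4d02) (nat_lit 0x260080000200) (nat_lit 38))))
 (.n (.n (.p (nat_lit 0x21be1a3702) (nat_lit 0x500a02) (nat_lit 5))
 (.p (nat_lit 0x425578d02) (nat_lit 0x440229) (nat_lit 30)))
 (.n (.p (nat_lit 0x8f208f008ee08ea08e8123906) (nat_lit 0x20000c240e) (nat_lit 52))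
 (.p (nat_lit 0x12aa605502) (nat_lit 0x5858b0b44000500000000) (nat_lit 50))))))

def c1024_748 : Tr :=
 .n (.n (.n (.n (.n (.n (.p (nat_lit 0x4fa04f804f604f404f204e506) (nat_lit 0x10000084000) (nat_lit 52))
 (.p (nat_lit 0xe7261d502) (nat_lit 0x54216ac0c800300040000) (nat_lit 49)))
 (.p (nat_lit 0x357e357c357a3578357442bf06) (nat_lit 0x1000008712) (nat_lit 52)))
 (.n (.p (nat_lit 0x181418121810180e180c246906) (nat_lit 0x80000eb03) (nat_lit 52))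
 (.p (nat_lit 0x3f25375b02) (nat_lit 0x5422d) (nat_lit 16))))
 (.n (.n (.p (nat_lit 0x21bd1e9502) (nat_lit 0x40ea00) (nat_lit 16))
 (.p (nat_lit 0x3dec3fd902) (nat_lit 0x340120) (nat_lit 4)))
 (.n (.p (nat_lit 0x12a812a612a412a212a00f7306) (nat_lit 0x1000004a307) (nat_lit 51))
 (.p (nat_lit 0x5e6e1ad902) (nat_lit 0x40000800) (nat_lit 45)))))
 (.n (.n (.n (.p (nat_lit 0x13c310cb02) (nat_lit 0x410500) (nat_lit 16))
 (.p (nat_lit 0x43823f0b02) (nat_lit 0x440b19) (nat_lit 4)))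
 (.n (.p (nat_lit 0x152048d902) (nat_lit 0x240505) (nat_lit 29))
 (.p (nat_lit 0x5d275dbb02) (nat_lit 0x260060000000) (nat_lit 37))))
 (.n (.n (.p (nat_lit 0xcd4186702) (nat_lit 0x540202) (nat_lit 4))
 (.p (nat_lit 0x3bf53b4d02) (nat_lit 0x340a26) (nat_lit 15)))
 (.n (.p (nat_lit 0x66e066c066a066606644a1d06) (nat_lit 0x20000c470c) (nat_lit 51))
 (.p (nat_lit 0x6385fd702) (nat_lit 0x3842a1c35000000040000) (nat_lit 49))))))
 (.n (.n (.n (.n (.p (nat_lit 0xced09d702) (nat_lit 0x552200) (nat_lit 16))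
 (.p (nat_lit 0x1be7191d02) (nat_lit 0x715) (nat_lit 15)))
 (.n (.p (nat_lit 0x17fc17f817f617f417f200bd17fb07) (nat_lit 0x440604) (nat_lit 7))
 (.p (nat_lit 0x3059e102) (nat_lit 0x300706) (nat_lit 27))))
 (.n (.n (.p (nat_lit 0x13a22a1502) (nat_lit 0x501) (nat_lit 29))
 (.p (nat_lit 0xe8e0e8c0e8a0e880e840b4906) (nat_lit 0x1000000223) (nat_lit 51)))
 (.n (.p (nat_lit 0x2f342c9302) (nat_lit 0x300209) (nat_lit 4))
 (.p (nat_lit 0x1db05ed102) (nat_lit 0x4a1a22344000300000600) (nat_lit 50)))))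
 (.n (.n (.n (.p (nat_lit 0x19021adf02) (nat_lit 0x500800) (nat_lit 4))
 (.p (nat_lit 0x1930554102) (nat_lit 0x40071c) (nat_lit 29)))
 (.n (.p (nat_lit 0x4f2b129302) (nat_lit 0x542406) (nat_lit 16))
 (.p (nat_lit 0x5cb913eb02) (nat_lit 0x40000000500) (nat_lit 39))))
 (.n (.n (.p (nat_lit 0x76634cd02) (nat_lit 0x140003) (nat_lit 29))
 (.p (nat_lit 0x21e221de21dc21da21d80cbb06) (nat_lit 0x80000d422a) (nat_lit 51)))
 (.n (.p (nat_lit 0x1eac533d02) (nat_lit 0x40090e) (nat_lit 29))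
 (.p (nat_lit 0x8fa60d902) (nat_lit 0x3542623b0000100040000) (nat_lit 50))))))

def c512_236 : Tr := .n c1024_236 c1024_748

def c1024_492 : Tr :=
 .n (.n (.n (.n (.n (.n (.p (nat_lit 0x30e03080306031304) (nat_lit 0x980040001c) (nat_lit 17))
 (.p (nat_lit 0x1142619902) (nat_lit 0x3422a5c14800400040000) (nat_lit 49)))
 (.p (nat_lit 0x53ce53cc53ca53c853c653c4024407) (nat_lit 0xb11) (nat_lit 8)))
 (.n (.p (nat_lit 0x21ca21c821c621c421c2008721c107) (nat_lit 0xa03) (nat_lit 7))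
 (.p (nat_lit 0x2fa4321902) (nat_lit 0x4022c) (nat_lit 4))))
 (.n (.n (.p (nat_lit 0x1fe21fe01fde1fdc1d331d2906) (nat_lit 0x10800056900) (nat_lit 51))
 (.p (nat_lit 0x35be381102) (nat_lit 0x50011f) (nat_lit 4)))
 (.n (.p (nat_lit 0xca40ca00c9e0c9c0c9a01490ca307) (nat_lit 0x440207) (nat_lit 7))
 (.p (nat_lit 0x5d69198502) (nat_lit 0x140080000700) (nat_lit 41)))))
 (.n (.n (.n (.p (nat_lit 0x11d811d411d211d00f650f5d06) (nat_lit 0x88000d0400) (nat_lit 52))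
 (.p (nat_lit 0x3b84372f02) (nat_lit 0x100b18) (nat_lit 4)))
 (.n (.p (nat_lit 0xeb461702) (nat_lit 0x440205) (nat_lit 30))
 (.p (nat_lit 0x4375c2f02) (nat_lit 0x10032a) (nat_lit 28))))
 (.n (.n (.p (nat_lit 0x5f8182302) (nat_lit 0x2) (nat_lit 5))
 (.p (nat_lit 0x2e38312102) (nat_lit 0x300125) (nat_lit 5)))
 (.n (.p (nat_lit 0x425e3c3702) (nat_lit 0x14060b) (nat_lit 4))
 (.p (nat_lit 0xfe05f9302) (nat_lit 0x580bb0344000400000000) (nat_lit 50))))))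
 (.n (.n (.n (.n (.p (nat_lit 0xaae0aaa0aa80aa60879087106) (nat_lit 0x880000c200) (nat_lit 51))
 (.p (nat_lit 0x233c2338233623342332139306) (nat_lit 0x8000016515) (nat_lit 52)))
 (.n (.p (nat_lit 0x13d013ce13ca13c813c600bb13cd07) (nat_lit 0x300504) (nat_lit 7))
 (.p (nat_lit 0x90008e008a0088000703ed06) (nat_lit 0x1816403) (nat_lit 26))))
 (.n (.n (.p (nat_lit 0xb6016ed02) (nat_lit 0x100201) (nat_lit 5))
 (.p (nat_lit 0xd100d0e0d0c0d0a0d06088b06) (nat_lit 0x1000006123) (nat_lit 52)))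
 (.n (.p (nat_lit 0x4b664b644b604b5e4b5c257106) (nat_lit 0x4000050b07) (nat_lit 51))
 (.p (nat_lit 0x5cdf5eb302) (nat_lit 0xe0020000b00) (nat_lit 36)))))
 (.n (.n (.n (.p (nat_lit 0x1957162b02) (nat_lit 0x512700) (nat_lit 16))
 (.p (nat_lit 0x3deb09dd02) (nat_lit 0x25211c) (nat_lit 16)))
 (.n (.p (nat_lit 0xa3c24c102) (nat_lit 0x240106) (nat_lit 5))
 (.p (nat_lit 0x5d8f0d1d02) (nat_lit 0x1e00a0000300) (nat_lit 40))))
 (.n (.n (.p (nat_lit 0x337b231f02) (nat_lit 0x240a02) (nat_lit 16))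
 (.p (nat_lit 0x5140510050e050c050a09f906) (nat_lit 0x80000c612a) (nat_lit 51)))
 (.n (.p (nat_lit 0x4fa314cb02) (nat_lit 0x15650e) (nat_lit 16))
 (.p (nat_lit 0x2344609302) (nat_lit 0x356221ca4000500000600) (nat_lit 50))))))

def c1024_1004 : Tr :=
 .n (.n (.n (.n (.n (.p (nat_lit 0x7180716071407120657064d06) (nat_lit 0x108000d6000) (nat_lit 52))
 (.p (nat_lit 0x2124fe302) (nat_lit 0x400714) (nat_lit 1)))
 (.n (.p (nat_lit 0x61d061102) (nat_lit 0x16004) (nat_lit 16))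
 (.p (nat_lit 0x48ba48b848b648b248b0435306) (nat_lit 0x200008eb2e) (nat_lit 52))))
 (.n (.n (.p (nat_lit 0x2390238c238a2388215d215506) (nat_lit 0x8800084b00) (nat_lit 52))
 (.p (nat_lit 0x48d0473302) (nat_lit 0x400521) (nat_lit 5)))
 (.n (.p (nat_lit 0x142e142c142a14281426123306) (nat_lit 0x100000c4407) (nat_lit 52))
 (.p (nat_lit 0x5cd71daf02) (nat_lit 0x160020000900) (nat_lit 40)))))
 (.n (.n (.n (.p (nat_lit 0x15e215e015dc15da15d8155306) (nat_lit 0x4000010600) (nat_lit 52))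
 (.p (nat_lit 0x501c4d3902) (nat_lit 0x44071b) (nat_lit 4)))
 (.n (.p (nat_lit 0x197a1978197619721970195d06) (nat_lit 0x200008e705) (nat_lit 52))
 (.p (nat_lit 0x5d5307a902) (nat_lit 0x2a0080000100) (nat_lit 40))))
 (.n (.n (.p (nat_lit 0x14fa1a0b02) (nat_lit 0x140502) (nat_lit 4))
 (.p (nat_lit 0x409577902) (nat_lit 0x40028) (nat_lit 30)))
 (.n (.p (nat_lit 0xa7e0a7c0a7a0a780a760e0d06) (nat_lit 0x80000830e) (nat_lit 52))
 (.p (nat_lit 0x4d0601902) (nat_lit 0x46ab80b44000000000000) (nat_lit 50))))))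
 (.n (.n (.n (.n (.p (nat_lit 0xc980c960c940c8e0016000500030c930c9109) (nat_lit 0x1140300) (nat_lit 10))
 (.p (nat_lit 0x54a654a454a254a0549e549c028c07) (nat_lit 0x40a15) (nat_lit 8)))
 (.n (.p (nat_lit 0x1aba1ab81ab61ab41ab200b51ab107) (nat_lit 0x40704) (nat_lit 7))
 (.p (nat_lit 0x5a825a805a7c5a7a5a78000701f207) (nat_lit 0x30650e) (nat_lit 25))))
 (.n (.n (.p (nat_lit 0x199e199c199a199819941d7f06) (nat_lit 0x10000c0801) (nat_lit 52))
 (.p (nat_lit 0x1aa51a9902) (nat_lit 0x40723) (nat_lit 16)))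
 (.n (.p (nat_lit 0x338b337f02) (nat_lit 0x444a09) (nat_lit 16))
 (.p (nat_lit 0x207a5f1502) (nat_lit 0x3aa530344000400000600) (nat_lit 50)))))
 (.n (.n (.n (.p (nat_lit 0x1cae1cac1ca81ca41a631a5f06) (nat_lit 0x50000c6800) (nat_lit 51))
 (.p (nat_lit 0x2184558102) (nat_lit 0xa1c) (nat_lit 29)))
 (.n (.p (nat_lit 0x129e129c1298129612941c3506) (nat_lit 0x400000a806) (nat_lit 52))
 (.p (nat_lit 0x5ca1169902) (nat_lit 0x1c0000000600) (nat_lit 39))))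
 (.n (.n (.p (nat_lit 0xce70cdb02) (nat_lit 0x254203) (nat_lit 16))
 (.p (nat_lit 0x47e194502) (nat_lit 0x20072a) (nat_lit 1)))
 (.n (.p (nat_lit 0x2ada26fb02) (nat_lit 0x14050f) (nat_lit 5))
 (.p (nat_lit 0x1c46611b02) (nat_lit 0x350522264000200040600) (nat_lit 50))))))

def c512_492 : Tr := .n c1024_492 c1024_1004

def c256_236 : Tr := .n c512_236 c512_492

def c128_108 : Tr := .n c256_108 c256_236

def c64_44 : Tr := .n c128_44 c128_108

def c32_12 : Tr := .n c64_12 c64_44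

def c1024_28 : Tr :=
 .n (.n (.n (.n (.n (.n (.p (nat_lit 0x30002c002a003704) (nat_lit 0x5800400001) (nat_lit 17))
 (.p (nat_lit 0x648612b02) (nat_lit 0x35486a3b0000000040000) (nat_lit 50)))
 (.p (nat_lit 0x2b10270d02) (nat_lit 0x40080f) (nat_lit 4)))
 (.n (.p (nat_lit 0xfa437e902) (nat_lit 0x40303) (nat_lit 29))
 (.p (nat_lit 0x1aa8131d02) (nat_lit 0x24072a) (nat_lit 4))))
 (.n (.n (.p (nat_lit 0x1cf41cf21cf01cee1a671a5d06) (nat_lit 0x108000cc800) (nat_lit 52))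
 (.p (nat_lit 0x334f218d02) (nat_lit 0x40ea1c) (nat_lit 16)))
 (.n (.p (nat_lit 0x50591c3702) (nat_lit 0x404806) (nat_lit 16))
 (.p (nat_lit 0x5cdf5e3f02) (nat_lit 0xe0020000600) (nat_lit 36)))))
 (.n (.n (.n (.p (nat_lit 0xeb00eae0eac0eaa0ea80c9906) (nat_lit 0x100000c2300) (nat_lit 52))
 (.p (nat_lit 0x24340c7f02) (nat_lit 0x400b15) (nat_lit 4)))
 (.n (.p (nat_lit 0x1cf61cf41cf01cee1cec1ab706) (nat_lit 0x40000cc704) (nat_lit 52))
 (.p (nat_lit 0x5ab05aae5aac5aaa5aa8011d01f207) (nat_lit 0x508b0e) (nat_lit 25))))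
 (.n (.n (.p (nat_lit 0x2b531d8502) (nat_lit 0x440801) (nat_lit 16))
 (.p (nat_lit 0x1ecf1c0502) (nat_lit 0x300823) (nat_lit 15)))
 (.n (.p (nat_lit 0x19d521902) (nat_lit 0x20020a) (nat_lit 30))
 (.p (nat_lit 0x20765f1d02) (nat_lit 0x3a2274350000400000600) (nat_lit 50))))))
 (.n (.n (.n (.n (.p (nat_lit 0x77b065702) (nat_lit 0x552000) (nat_lit 16))
 (.p (nat_lit 0x509c4bf902) (nat_lit 0x240814) (nat_lit 4)))
 (.n (.p (nat_lit 0x3cf23cf03cee3cec077b077706) (nat_lit 0x140000d6004) (nat_lit 52))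
 (.p (nat_lit 0xea460b02) (nat_lit 0x40022f) (nat_lit 1))))
 (.n (.n (.p (nat_lit 0x23fa23f623f423f223f0215d06) (nat_lit 0x8000090b00) (nat_lit 51))
 (.p (nat_lit 0xebe0ebc0eba0eb80eb649ed06) (nat_lit 0x80000a721) (nat_lit 51)))
 (.n (.p (nat_lit 0x1643163702) (nat_lit 0x504607) (nat_lit 16))
 (.p (nat_lit 0x5d111db102) (nat_lit 0xc0040000900) (nat_lit 40)))))
 (.n (.n (.n (.p (nat_lit 0x1610160e160c160a1557154d06) (nat_lit 0x10800014600) (nat_lit 51))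
 (.p (nat_lit 0x5d60e8702) (nat_lit 0x10001c) (nat_lit 5)))
 (.n (.p (nat_lit 0x196f196302) (nat_lit 0x50c705) (nat_lit 16))
 (.p (nat_lit 0x5dda422b02) (nat_lit 0xa0012100) (nat_lit 48))))
 (.n (.n (.p (nat_lit 0x861eed02) (nat_lit 0x902) (nat_lit 1))
 (.p (nat_lit 0x227c2278227622742272451f06) (nat_lit 0x800000c128) (nat_lit 51)))
 (.n (.p (nat_lit 0xf7e0f7a0f780f760f7401ef0f7d07) (nat_lit 0x44030e) (nat_lit 7))
 (.p (nat_lit 0x2495248121db21d71f151f0b1c471c431987197316ab169d60220d) (nat_lit 0x406a6252d000000040600) (nat_lit 33))))))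

def c1024_540 : Tr :=
 .n (.n (.n (.n (.n (.n (.p (nat_lit 0x33303310325031604) (nat_lit 0x7610001c) (nat_lit 20))
 (.p (nat_lit 0x233461a102) (nat_lit 0x3222a5c15000500000600) (nat_lit 49)))
 (.p (nat_lit 0x3bd035b302) (nat_lit 0x340b11) (nat_lit 5)))
 (.n (.p (nat_lit 0x1e421e401e3e1e3c1e3a21c106) (nat_lit 0x80008aa03) (nat_lit 52))
 (.p (nat_lit 0x488048b048d31ad323105) (nat_lit 0x8114032c) (nat_lit 9))))
 (.n (.n (.p (nat_lit 0x20411d2f02) (nat_lit 0x34a900) (nat_lit 16))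
 (.p (nat_lit 0x3ec3a7302) (nat_lit 0x4051f) (nat_lit 1)))
 (.n (.p (nat_lit 0xcbb0ca302) (nat_lit 0x448207) (nat_lit 16))
 (.p (nat_lit 0x5dab182102) (nat_lit 0x200a0000700) (nat_lit 40)))))
 (.n (.n (.n (.p (nat_lit 0x12570f6702) (nat_lit 0x54c400) (nat_lit 16))
 (.p (nat_lit 0x3c5f3c5702) (nat_lit 0x8019) (nat_lit 16)))
 (.n (.p (nat_lit 0xe5a223102) (nat_lit 0x300305) (nat_lit 4))
 (.p (nat_lit 0x4b05c6b02) (nat_lit 0x300a2a) (nat_lit 27))))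
 (.n (.n (.p (nat_lit 0x75a199702) (nat_lit 0x140002) (nat_lit 4))
 (.p (nat_lit 0x32ba314902) (nat_lit 0x500925) (nat_lit 4)))
 (.n (.p (nat_lit 0x34a434a234a0349e349c42b106) (nat_lit 0x80001670b) (nat_lit 51))
 (.p (nat_lit 0xfd65f9d02) (nat_lit 0x568bb0344000400000000) (nat_lit 49))))))
 (.n (.n (.n (.n (.p (nat_lit 0xb59087702) (nat_lit 0x30a200) (nat_lit 16))
 (.p (nat_lit 0x8fe08fc08fa08f808f414d706) (nat_lit 0x10000c2515) (nat_lit 51)))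
 (.n (.p (nat_lit 0x1510419f02) (nat_lit 0x40504) (nat_lit 29))
 (.p (nat_lit 0xbe00bc00ba00b80001036506) (nat_lit 0x10c304) (nat_lit 26))))
 (.n (.n (.p (nat_lit 0xcbe282502) (nat_lit 0x40201) (nat_lit 29))
 (.p (nat_lit 0x1f0e1f0c1f0a1f081f04088b06) (nat_lit 0x1000092123) (nat_lit 52)))
 (.n (.p (nat_lit 0x286625ef02) (nat_lit 0x40208) (nat_lit 4))
 (.p (nat_lit 0x5cf55eb502) (nat_lit 0x280040000b00) (nat_lit 37)))))
 (.n (.n (.n (.p (nat_lit 0x179a1798179617941792000b179d07) (nat_lit 0x540700) (nat_lit 7))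
 (.p (nat_lit 0x100e100c100a10061004139b06) (nat_lit 0x200000251c) (nat_lit 52)))
 (.n (.p (nat_lit 0xb9e237f02) (nat_lit 0x200206) (nat_lit 4))
 (.p (nat_lit 0x5e0a428d02) (nat_lit 0x52400) (nat_lit 48))))
 (.n (.n (.p (nat_lit 0x246418e902) (nat_lit 0x400b02) (nat_lit 5))
 (.p (nat_lit 0xb5a12cd02) (nat_lit 0x40022a) (nat_lit 4)))
 (.n (.p (nat_lit 0x3aa1164302) (nat_lit 0x51060e) (nat_lit 16))
 (.p (nat_lit 0x2336609d02) (nat_lit 0x346068ca4000500000600) (nat_lit 49))))))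

def c512_28 : Tr := .n c1024_28 c1024_540

def c1024_284 : Tr :=
 .n (.n (.n (.n (.n (.n (.p (nat_lit 0x11c01160112011f04) (nat_lit 0x12800400006) (nat_lit 17))
 (.p (nat_lit 0x2492616102) (nat_lit 0x3503a8d84000500040600) (nat_lit 50)))
 (.p (nat_lit 0x338a2e0d02) (nat_lit 0x440a10) (nat_lit 5)))
 (.n (.p (nat_lit 0x3a383a343a323a2e150d150706) (nat_lit 0x90000c4503) (nat_lit 52))
 (.p (nat_lit 0x435584502) (nat_lit 0x40b2a) (nat_lit 30))))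
 (.n (.n (.p (nat_lit 0x1e8a1e881e841e801bc91bc506) (nat_lit 0x5000096900) (nat_lit 52))
 (.p (nat_lit 0x2da62da42da22d9e2d9c03492da107) (nat_lit 0x24001e) (nat_lit 7)))
 (.n (.p (nat_lit 0x2060511b02) (nat_lit 0x140906) (nat_lit 29))
 (.p (nat_lit 0x5c97197102) (nat_lit 0x260000000700) (nat_lit 39)))))
 (.n (.n (.n (.p (nat_lit 0x105610521050104e104c0dfd06) (nat_lit 0x800000e400) (nat_lit 51))
 (.p (nat_lit 0x33442f7f02) (nat_lit 0x500a17) (nat_lit 5)))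
 (.n (.p (nat_lit 0x62643b502) (nat_lit 0x500005) (nat_lit 29))
 (.p (nat_lit 0x3da5bad02) (nat_lit 0x50051d) (nat_lit 27))))
 (.n (.n (.p (nat_lit 0x1daa1da81da41da21da0204d06) (nat_lit 0x4000052901) (nat_lit 52))
 (.p (nat_lit 0x3ba3244d02) (nat_lit 0x410b23) (nat_lit 16)))
 (.n (.p (nat_lit 0x3b7434a502) (nat_lit 0x500b0a) (nat_lit 5))
 (.p (nat_lit 0x7985f6102) (nat_lit 0x3aa570344000100000000) (nat_lit 49))))))
 (.n (.n (.n (.n (.p (nat_lit 0x9360934093209300727072506) (nat_lit 0x1800004a100) (nat_lit 52))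
 (.p (nat_lit 0x139310ef02) (nat_lit 0x400415) (nat_lit 15)))
 (.n (.p (nat_lit 0xe4a3f3302) (nat_lit 0x100304) (nat_lit 29))
 (.p (nat_lit 0x3da58b102) (nat_lit 0x500401) (nat_lit 27))))
 (.n (.n (.p (nat_lit 0x25b322bb02) (nat_lit 0x4eb00) (nat_lit 16))
 (.p (nat_lit 0x5e0115302) (nat_lit 0x23) (nat_lit 5)))
 (.n (.p (nat_lit 0x1ea206e102) (nat_lit 0x500907) (nat_lit 4))
 (.p (nat_lit 0x5ccd5e9b02) (nat_lit 0x200020000a00) (nat_lit 37)))))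
 (.n (.n (.n (.p (nat_lit 0x17e116b702) (nat_lit 0x34a600) (nat_lit 16))
 (.p (nat_lit 0x9dd073902) (nat_lit 0x24001c) (nat_lit 15)))
 (.n (.p (nat_lit 0x1d8e4a8902) (nat_lit 0x340805) (nat_lit 29))
 (.p (nat_lit 0x5df2088702) (nat_lit 0xa0008200) (nat_lit 48))))
 (.n (.n (.p (nat_lit 0x13f213f013ee13ec13ea21bf06) (nat_lit 0x1000008aa02) (nat_lit 52))
 (.p (nat_lit 0x115a1158115611541152507306) (nat_lit 0x10000000829) (nat_lit 51)))
 (.n (.p (nat_lit 0x1c421c401c3e1c3c1c3a123f06) (nat_lit 0x100000d040e) (nat_lit 52))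
 (.p (nat_lit 0x13f2606102) (nat_lit 0x85ab0335000500040000) (nat_lit 49))))))

def c1024_796 : Tr :=
 .n (.n (.n (.n (.n (.n (.p (nat_lit 0x52a052805260524052204e506) (nat_lit 0x10000088000) (nat_lit 51))
 (.p (nat_lit 0x1f1061df02) (nat_lit 0x3508a5d84000300040600) (nat_lit 50)))
 (.p (nat_lit 0x47dc453f02) (nat_lit 0x200413) (nat_lit 5)))
 (.n (.p (nat_lit 0x3b73247102) (nat_lit 0x400b03) (nat_lit 16))
 (.p (nat_lit 0x4383bab02) (nat_lit 0x200b2d) (nat_lit 1))))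
 (.n (.n (.p (nat_lit 0x1ffc1ff81ff41ff20020000900051ffb1ff709) (nat_lit 0x2240a00) (nat_lit 10))
 (.p (nat_lit 0x423c560902) (nat_lit 0x200620) (nat_lit 29)))
 (.n (.p (nat_lit 0x2348234423422340233e0f7106) (nat_lit 0x8000056307) (nat_lit 51))
 (.p (nat_lit 0x5e7437d902) (nat_lit 0x60000800) (nat_lit 47)))))
 (.n (.n (.n (.p (nat_lit 0x140c140a140414021223122106) (nat_lit 0x6000042500) (nat_lit 51))
 (.p (nat_lit 0x485c54df02) (nat_lit 0x34041a) (nat_lit 29)))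
 (.n (.p (nat_lit 0x1696169416921690168c00e5168f07) (nat_lit 0x100605) (nat_lit 7))
 (.p (nat_lit 0x5da104cd02) (nat_lit 0xc00a0000000) (nat_lit 38))))
 (.n (.n (.p (nat_lit 0x5f2fb702) (nat_lit 0x300302) (nat_lit 30))
 (.p (nat_lit 0x3bf638cf02) (nat_lit 0x440b26) (nat_lit 4)))
 (.n (.p (nat_lit 0x4dca4ac302) (nat_lit 0x50030d) (nat_lit 4))
 (.p (nat_lit 0x181e5fe502) (nat_lit 0x3062a1c35000100000600) (nat_lit 50))))))
 (.n (.n (.n (.n (.p (nat_lit 0xb380b340b300b2e0020000900050b370b3309) (nat_lit 0x2200300) (nat_lit 10))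
 (.p (nat_lit 0x1d531a8702) (nat_lit 0x340715) (nat_lit 15)))
 (.n (.p (nat_lit 0xfde0fdc0fd80fd60fd417f906) (nat_lit 0x4000048604) (nat_lit 52))
 (.p (nat_lit 0x14801440142014001a3000706) (nat_lit 0x2b10307) (nat_lit 26))))
 (.n (.n (.p (nat_lit 0x14ee15cf02) (nat_lit 0x140501) (nat_lit 5))
 (.p (nat_lit 0x3080ca902) (nat_lit 0x140223) (nat_lit 1)))
 (.n (.p (nat_lit 0x58300b02) (nat_lit 0x309) (nat_lit 1))
 (.p (nat_lit 0xd1c5ed902) (nat_lit 0x4a0d84344000300000000) (nat_lit 50)))))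
 (.n (.n (.n (.p (nat_lit 0x1b601b5c1b5a1b58190118f906) (nat_lit 0x8800088800) (nat_lit 52))
 (.p (nat_lit 0x1a960d9502) (nat_lit 0x54071c) (nat_lit 5)))
 (.n (.p (nat_lit 0x196423cd02) (nat_lit 0x706) (nat_lit 4))
 (.p (nat_lit 0x5cd15e2902) (nat_lit 0x1c0020000500) (nat_lit 37))))
 (.n (.n (.p (nat_lit 0x779076d02) (nat_lit 0x454003) (nat_lit 16))
 (.p (nat_lit 0xe2012e502) (nat_lit 0x40032a) (nat_lit 5)))
 (.n (.p (nat_lit 0x3d623d603d5e3d5c3d5a201506) (nat_lit 0x100000d690e) (nat_lit 51))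
 (.p (nat_lit 0x12a912990fe10fd70d1d0d0d0a510a4d07a7079f04d104c360e60d) (nat_lit 0x440d623a4000000000000) (nat_lit 33))))))

def c512_284 : Tr := .n c1024_284 c1024_796

def c256_28 : Tr := .n c512_28 c512_284

def c1024_156 : Tr :=
 .n (.n (.n (.n (.n (.n (.p (nat_lit 0x90008a009503) (nat_lit 0x12000500003) (nat_lit 17))
 (.p (nat_lit 0xbb2614902) (nat_lit 0x350221d84000200040000) (nat_lit 50)))
 (.p (nat_lit 0x1a5a1a581a561a541a5030fd06) (nat_lit 0x1000096410) (nat_lit 52)))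
 (.n (.p (nat_lit 0x12681cc102) (nat_lit 0x240403) (nat_lit 5))
 (.p (nat_lit 0x2040582702) (nat_lit 0x34092a) (nat_lit 29))))
 (.n (.n (.p (nat_lit 0x1db51da902) (nat_lit 0x400900) (nat_lit 34))
 (.p (nat_lit 0x26bc28f302) (nat_lit 0x4001d) (nat_lit 4)))
 (.n (.p (nat_lit 0x2348234623422340233e1d9b06) (nat_lit 0x4000056806) (nat_lit 51))
 (.p (nat_lit 0x5d29154702) (nat_lit 0x240060000600) (nat_lit 40)))))
 (.n (.n (.n (.p (nat_lit 0xfc50c9702) (nat_lit 0x454300) (nat_lit 16))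
 (.p (nat_lit 0xbd40bd20bce0bcc0bca2ba706) (nat_lit 0x4000080916) (nat_lit 52)))
 (.n (.p (nat_lit 0x25ca1fe702) (nat_lit 0x40b04) (nat_lit 5))
 (.p (nat_lit 0x5b2e5b2c5b2a5b285b26036d028c07) (nat_lit 0x508915) (nat_lit 25))))
 (.n (.n (.p (nat_lit 0x21af1ee702) (nat_lit 0x300901) (nat_lit 15))
 (.p (nat_lit 0x402e402c402a40284026203906) (nat_lit 0x10000042923) (nat_lit 52)))
 (.n (.p (nat_lit 0x49838dd02) (nat_lit 0x50040a) (nat_lit 1))
 (.p (nat_lit 0xe725f3d02) (nat_lit 0x3a2560c64000300040000) (nat_lit 49))))))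
 (.n (.n (.n (.n (.p (nat_lit 0x86c086a0868086405c705bf06) (nat_lit 0x11000096100) (nat_lit 51))
 (.p (nat_lit 0x90a0906090409000731072b06) (nat_lit 0x9000046015) (nat_lit 51)))
 (.n (.p (nat_lit 0xb881def02) (nat_lit 0x300204) (nat_lit 5))
 (.p (nat_lit 0x4a5a493902) (nat_lit 0x34072f) (nat_lit 5))))
 (.n (.n (.p (nat_lit 0x24ce24cc24ca24c822c522bd06) (nat_lit 0x11000044b00) (nat_lit 51))
 (.p (nat_lit 0x41c4fb902) (nat_lit 0x40522) (nat_lit 1)))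
 (.n (.p (nat_lit 0x1aaf1a7302) (nat_lit 0x548707) (nat_lit 16))
 (.p (nat_lit 0x5e8e3dfb02) (nat_lit 0x80048900) (nat_lit 47)))))
 (.n (.n (.n (.p (nat_lit 0x171817161714171216b316b106) (nat_lit 0x18000c6600) (nat_lit 51))
 (.p (nat_lit 0x2d0305db02) (nat_lit 0x30e01c) (nat_lit 16)))
 (.n (.p (nat_lit 0x1d8f1ac302) (nat_lit 0x340705) (nat_lit 15))
 (.p (nat_lit 0x5de6088102) (nat_lit 0x40008200) (nat_lit 48))))
 (.n (.n (.p (nat_lit 0x1c981c961c941c901c8e205706) (nat_lit 0x20000c4902) (nat_lit 52))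
 (.p (nat_lit 0x4f7c4f7a4f784f764f724b9306) (nat_lit 0x1000044029) (nat_lit 51)))
 (.n (.p (nat_lit 0x1aea1ae81ae61ae41ae210db06) (nat_lit 0x80001040e) (nat_lit 51))
 (.p (nat_lit 0xbb2604302) (nat_lit 0x40a96254c800200040000) (nat_lit 50))))))

def c1024_668 : Tr :=
 .n (.n (.n (.n (.n (.n (.p (nat_lit 0x45904510449044404) (nat_lit 0x4c80002a) (nat_lit 20))
 (.p (nat_lit 0x63861c302) (nat_lit 0x3221a9c15000000040000) (nat_lit 49)))
 (.p (nat_lit 0x41f83d3302) (nat_lit 0x140512) (nat_lit 5)))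
 (.n (.p (nat_lit 0x246a1d1302) (nat_lit 0x100b03) (nat_lit 5))
 (.p (nat_lit 0x364e3a1d02) (nat_lit 0x24012d) (nat_lit 5))))
 (.n (.n (.p (nat_lit 0x2146214421422140213e1e8d06) (nat_lit 0x800010a00) (nat_lit 51))
 (.p (nat_lit 0xd640d600d5e0d5c0d5a3beb06) (nat_lit 0x80000cab1f) (nat_lit 52)))
 (.n (.p (nat_lit 0x10d30e0502) (nat_lit 0x200307) (nat_lit 15))
 (.p (nat_lit 0x5cdd1c4902) (nat_lit 0x100020000800) (nat_lit 41)))))
 (.n (.n (.n (.p (nat_lit 0x12f212f012ee12ec12ea10c306) (nat_lit 0x800086500) (nat_lit 51))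
 (.p (nat_lit 0xc1a0c180c160c144237422d06) (nat_lit 0x1080008c619) (nat_lit 52)))
 (.n (.p (nat_lit 0x127e20eb02) (nat_lit 0x140405) (nat_lit 5))
 (.p (nat_lit 0x5cd504c502) (nat_lit 0x180020000000) (nat_lit 38))))
 (.n (.n (.p (nat_lit 0xa12184f02) (nat_lit 0x540102) (nat_lit 5))
 (.p (nat_lit 0x1d261d241d221d1e1d1c364306) (nat_lit 0x20000d6126) (nat_lit 52)))
 (.n (.p (nat_lit 0x47d0445702) (nat_lit 0x20040c) (nat_lit 4))
 (.p (nat_lit 0x1ade5fc902) (nat_lit 0x9582ec15800200000600) (nat_lit 49))))))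
 (.n (.n (.n (.n (.p (nat_lit 0xc040c000bfe0bfc0bfa09d506) (nat_lit 0x80000ca200) (nat_lit 52))
 (.p (nat_lit 0x3aab164d02) (nat_lit 0x410615) (nat_lit 16)))
 (.n (.p (nat_lit 0x18141810180e180c180a168906) (nat_lit 0x800000e604) (nat_lit 52))
 (.p (nat_lit 0xec00ea00e600e400bb000106) (nat_lit 0x1810705) (nat_lit 26))))
 (.n (.n (.p (nat_lit 0x2f293f02) (nat_lit 0x200401) (nat_lit 30))
 (.p (nat_lit 0x1db61db41db21db01dac09e706) (nat_lit 0x1000052123) (nat_lit 51)))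
 (.n (.p (nat_lit 0x2ce42ce22ce02cde2b552b5306) (nat_lit 0x18000056808) (nat_lit 51))
 (.p (nat_lit 0x5ebe180702) (nat_lit 0x80052b00) (nat_lit 48)))))
 (.n (.n (.n (.p (nat_lit 0x1a581a561a541a521a50179d06) (nat_lit 0x100000d6700) (nat_lit 52))
 (.p (nat_lit 0x3a7d14eb02) (nat_lit 0x55051c) (nat_lit 16)))
 (.n (.p (nat_lit 0x1194e3902) (nat_lit 0x300406) (nat_lit 30))
 (.p (nat_lit 0x5d650fe902) (nat_lit 0x180080000400) (nat_lit 40))))
 (.n (.n (.p (nat_lit 0x17521750174e174c174a25bd06) (nat_lit 0x10000050b02) (nat_lit 51))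
 (.p (nat_lit 0xcbc143102) (nat_lit 0x54022a) (nat_lit 4)))
 (.n (.p (nat_lit 0x1bf11be502) (nat_lit 0x50680e) (nat_lit 16))
 (.p (nat_lit 0xbb260cb02) (nat_lit 0x3505623a4000200040000) (nat_lit 50))))))

def c512_156 : Tr := .n c1024_156 c1024_668

def c1024_412 : Tr :=
 .n (.n (.n (.n (.n (.n (.p (nat_lit 0x214020e020c021704) (nat_lit 0x1300040000f) (nat_lit 17))
 (.p (nat_lit 0xbb4618302) (nat_lit 0x421a86b15000200040000) (nat_lit 50)))
 (.p (nat_lit 0x23953b902) (nat_lit 0x40411) (nat_lit 30)))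
 (.n (.p (nat_lit 0x17ec3abf02) (nat_lit 0x340603) (nat_lit 29))
 (.p (nat_lit 0x4342bc502) (nat_lit 0x92b) (nat_lit 1))))
 (.n (.n (.p (nat_lit 0x1f7a1f781f761f721f701d2d06) (nat_lit 0x20000c6900) (nat_lit 52))
 (.p (nat_lit 0x28fc28fa28f828f628f233ef06) (nat_lit 0x1000080b1e) (nat_lit 52)))
 (.n (.p (nat_lit 0x7ce07cc07c807c607c40b4106) (nat_lit 0x4000008207) (nat_lit 52))
 (.p (nat_lit 0x5d41181d02) (nat_lit 0xc0060000700) (nat_lit 40)))))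
 (.n (.n (.n (.p (nat_lit 0xf66115102) (nat_lit 0x540400) (nat_lit 5))
 (.p (nat_lit 0x1ce81ce61ce41ce21ce039f506) (nat_lit 0x1000000c518) (nat_lit 52)))
 (.n (.p (nat_lit 0x455c455a4558455445520a3106) (nat_lit 0x20000ca105) (nat_lit 52))
 (.p (nat_lit 0x5bec5bea5be85be65be4011303ac07) (nat_lit 0x2b23) (nat_lit 25))))
 (.n (.n (.p (nat_lit 0x2b2c4f02) (nat_lit 0x40a01) (nat_lit 30))
 (.p (nat_lit 0x287c29d302) (nat_lit 0x540224) (nat_lit 4)))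
 (.n (.p (nat_lit 0x1e881e861e841e821e803f9b06) (nat_lit 0x1000009630b) (nat_lit 52))
 (.p (nat_lit 0x1ade5f8102) (nat_lit 0x581a22b44000200000600) (nat_lit 49))))))
 (.n (.n (.n (.n (.p (nat_lit 0xa580a4c087903) (nat_lit 0x400200) (nat_lit 6))
 (.p (nat_lit 0x63e063c063a06380636138b06) (nat_lit 0x800080515) (nat_lit 52)))
 (.n (.p (nat_lit 0x112b111f02) (nat_lit 0x416404) (nat_lit 16))
 (.p (nat_lit 0x620060005a00580031000506) (nat_lit 0x1a16a02) (nat_lit 26))))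
 (.n (.n (.p (nat_lit 0x8a826dd02) (nat_lit 0x400101) (nat_lit 29))
 (.p (nat_lit 0x142414221420141e141c074106) (nat_lit 0x800044023) (nat_lit 51)))
 (.n (.p (nat_lit 0x230922cd02) (nat_lit 0x348a07) (nat_lit 16))
 (.p (nat_lit 0x5ea6451f02) (nat_lit 0x80008a00) (nat_lit 47)))))
 (.n (.n (.n (.p (nat_lit 0x18de18dc18da18d618d4162506) (nat_lit 0x2000094700) (nat_lit 51))
 (.p (nat_lit 0x4c07088302) (nat_lit 0x31611c) (nat_lit 16)))
 (.n (.p (nat_lit 0x78e235d02) (nat_lit 0x340006) (nat_lit 4))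
 (.p (nat_lit 0x5d2b0e7302) (nat_lit 0x220060000300) (nat_lit 39))))
 (.n (.n (.p (nat_lit 0xd0e0d0c0d080d062325231f06) (nat_lit 0x12000046a02) (nat_lit 52))
 (.p (nat_lit 0x54e054c05480544089b089706) (nat_lit 0x500000e12a) (nat_lit 52)))
 (.n (.p (nat_lit 0x14ca52ef02) (nat_lit 0x14050e) (nat_lit 29))
 (.p (nat_lit 0x1da2608102) (nat_lit 0x354221ca4000300000600) (nat_lit 49))))))

def c1024_924 : Tr :=
 .n (.n (.n (.n (.n (.p (nat_lit 0x66e066c066606640653065106) (nat_lit 0x60000c4000) (nat_lit 51))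
 (.p (nat_lit 0x4e2a4c3b02) (nat_lit 0x240314) (nat_lit 5)))
 (.n (.p (nat_lit 0x233c233823362334233225c706) (nat_lit 0x8000056b03) (nat_lit 52))
 (.p (nat_lit 0x4252415302) (nat_lit 0x10062e) (nat_lit 4))))
 (.n (.n (.p (nat_lit 0x22eb1ff302) (nat_lit 0x46a00) (nat_lit 16))
 (.p (nat_lit 0x440e46a502) (nat_lit 0x21) (nat_lit 4)))
 (.n (.p (nat_lit 0x38db10d702) (nat_lit 0x410407) (nat_lit 16))
 (.p (nat_lit 0x5d891c4502) (nat_lit 0x2400a0000800) (nat_lit 39)))))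
 (.n (.n (.n (.p (nat_lit 0x1503122702) (nat_lit 0x54e500) (nat_lit 16))
 (.p (nat_lit 0x2e64a9902) (nat_lit 0x14081a) (nat_lit 1)))
 (.n (.p (nat_lit 0x24062404240023fe180517ff06) (nat_lit 0x4800052605) (nat_lit 51))
 (.p (nat_lit 0x5dce0c9f02) (nat_lit 0x4004a100) (nat_lit 48))))
 (.n (.n (.p (nat_lit 0x125a310902) (nat_lit 0x140402) (nat_lit 29))
 (.p (nat_lit 0x115a1158115611541152424f06) (nat_lit 0x10000000627) (nat_lit 51)))
 (.n (.p (nat_lit 0x50c9508d02) (nat_lit 0x4880d) (nat_lit 16))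
 (.p (nat_lit 0xe7c600102) (nat_lit 0x405aa2354800300040000) (nat_lit 50))))))
 (.n (.n (.n (.n (.p (nat_lit 0xdfd0b3702) (nat_lit 0x400300) (nat_lit 15))
 (.p (nat_lit 0x201e548d02) (nat_lit 0x440915) (nat_lit 29)))
 (.n (.p (nat_lit 0x42ae42ac42aa42a842a642a400c219571951194f0a) (nat_lit 0x15100704) (nat_lit 31))
 (.p (nat_lit 0x1b401b201b001ae014b00b506) (nat_lit 0x280c30b) (nat_lit 26))))
 (.n (.n (.p (nat_lit 0x18d018ce18cc18ca18c81c2106) (nat_lit 0x10000014801) (nat_lit 52))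
 (.p (nat_lit 0x3d017cf02) (nat_lit 0x40623) (nat_lit 1)))
 (.n (.p (nat_lit 0x35383536353435323530329b06) (nat_lit 0x10000096909) (nat_lit 52))
 (.p (nat_lit 0x12a45ef502) (nat_lit 0x281d30344000500000000) (nat_lit 50)))))
 (.n (.n (.n (.p (nat_lit 0x1c37190102) (nat_lit 0x416800) (nat_lit 16))
 (.p (nat_lit 0x1ebc556902) (nat_lit 0x91c) (nat_lit 29)))
 (.n (.p (nat_lit 0x16121610160e160a1acd1ac906) (nat_lit 0x2800054706) (nat_lit 51))
 (.p (nat_lit 0x5d4f5e3302) (nat_lit 0x2e0080000500) (nat_lit 37))))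
 (.n (.n (.p (nat_lit 0xa230a1702) (nat_lit 0x154103) (nat_lit 16))
 (.p (nat_lit 0x466166d02) (nat_lit 0x20062a) (nat_lit 1)))
 (.n (.p (nat_lit 0x1ed536b02) (nat_lit 0x340b0e) (nat_lit 30))
 (.p (nat_lit 0x12a712990feb0fdd0d170d0d0a510a4d07a3079f04d704c3610a0d) (nat_lit 0x3562621b0000000000000) (nat_lit 33))))))

def c512_412 : Tr := .n c1024_412 c1024_924

def c256_156 : Tr := .n c512_156 c512_412

def c128_28 : Tr := .n c256_28 c256_156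

def c1024_92 : Tr :=
 .n (.n (.n (.n (.n (.n (.p (nat_lit 0x5a0058006703) (nat_lit 0x1800500002) (nat_lit 17))
 (.p (nat_lit 0x1ae0613502) (nat_lit 0x342a21d84000200000600) (nat_lit 50)))
 (.p (nat_lit 0x2bf0279d02) (nat_lit 0x44090f) (nat_lit 5)))
 (.n (.p (nat_lit 0x110c1cb302) (nat_lit 0x100403) (nat_lit 5))
 (.p (nat_lit 0x442045d045f1335147f05) (nat_lit 0xaa34082a) (nat_lit 9))))
 (.n (.n (.p (nat_lit 0x1d451a6102) (nat_lit 0x242800) (nat_lit 16))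
 (.p (nat_lit 0x243e0de302) (nat_lit 0x300b1c) (nat_lit 4)))
 (.n (.p (nat_lit 0xe820e800e7e0e7c0e7a1d9506) (nat_lit 0x8000c6806) (nat_lit 51))
 (.p (nat_lit 0x5d0f153902) (nat_lit 0xe0040000600) (nat_lit 38)))))
 (.n (.n (.n (.p (nat_lit 0xf420f400f3e0f380c930c9106) (nat_lit 0x30000d4300) (nat_lit 51))
 (.p (nat_lit 0x17541750174e174c174a2a7706) (nat_lit 0x8000010516) (nat_lit 51)))
 (.n (.p (nat_lit 0x247e1e7f02) (nat_lit 0x500b04) (nat_lit 4))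
 (.p (nat_lit 0x2535af502) (nat_lit 0x200b12) (nat_lit 28))))
 (.n (.n (.p (nat_lit 0xd1c0d1a0d160d140d121ee706) (nat_lit 0x4000006901) (nat_lit 51))
 (.p (nat_lit 0x1ec811db02) (nat_lit 0x923) (nat_lit 4)))
 (.n (.p (nat_lit 0x1b0e1b0c1b0a1b081b0637d306) (nat_lit 0x80000230a) (nat_lit 51))
 (.p (nat_lit 0x233c5f3102) (nat_lit 0x3aa560b44000500000600) (nat_lit 49))))))
 (.n (.n (.n (.n (.p (nat_lit 0x7c207c007be07bc07b805bf06) (nat_lit 0x1000086100) (nat_lit 52))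
 (.p (nat_lit 0x9220920091c091a05cf05c906) (nat_lit 0x4800008015) (nat_lit 51)))
 (.n (.p (nat_lit 0xb93d8102) (nat_lit 0x240104) (nat_lit 30))
 (.p (nat_lit 0x480e480c480a4806480446f706) (nat_lit 0x200000232f) (nat_lit 51))))
 (.n (.n (.p (nat_lit 0x2467215f02) (nat_lit 0x50eb00) (nat_lit 16))
 (.p (nat_lit 0x4b8e4b8c4b8a4b884b8603934b8507) (nat_lit 0x40022) (nat_lit 7)))
 (.n (.p (nat_lit 0x14b518302) (nat_lit 0x500707) (nat_lit 30))
 (.p (nat_lit 0x5d291f1702) (nat_lit 0x240060000900) (nat_lit 41)))))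
 (.n (.n (.n (.p (nat_lit 0x16a216a0169e169c169a169806) (nat_lit 0x40600) (nat_lit 2))
 (.p (nat_lit 0x140013fc13fa13f813f605dd06) (nat_lit 0x800008a01c) (nat_lit 51)))
 (.n (.p (nat_lit 0xfea0fe60fe40fe20fe01ac506) (nat_lit 0x8000048705) (nat_lit 51))
 (.p (nat_lit 0x5ce10a5302) (nat_lit 0xc0020000200) (nat_lit 40))))
 (.n (.n (.p (nat_lit 0x1bb41bb21bae1bac1baa1ef306) (nat_lit 0x4000016902) (nat_lit 52))
 (.p (nat_lit 0x498c47ab02) (nat_lit 0x628) (nat_lit 4)))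
 (.n (.p (nat_lit 0x10e4092302) (nat_lit 0x50040e) (nat_lit 5))
 (.p (nat_lit 0x1538603502) (nat_lit 0x4099a2335000000000600) (nat_lit 49))))))

def c1024_604 : Tr :=
 .n (.n (.n (.n (.n (.n (.p (nat_lit 0x3aa03b102) (nat_lit 0x10000600023) (nat_lit 17))
 (.p (nat_lit 0x12ab12970fe10fdd0d170d0d0a530a4f07a9079504d504c761b00d) (nat_lit 0x522266c0d000000000000) (nat_lit 33)))
 (.p (nat_lit 0x4187408302) (nat_lit 0x412) (nat_lit 15)))
 (.n (.p (nat_lit 0x232a1d0902) (nat_lit 0x240a03) (nat_lit 5))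
 (.p (nat_lit 0x12c212be12ba12b83367336306) (nat_lit 0xa000082a2c) (nat_lit 52))))
 (.n (.n (.p (nat_lit 0x20c620c220c020be20bc1e9506) (nat_lit 0x8000084a00) (nat_lit 51))
 (.p (nat_lit 0x3b983b963b943b903b8e03533b9307) (nat_lit 0x200b1f) (nat_lit 7)))
 (.n (.p (nat_lit 0xbbc0bba0bb60bb40bb20e0706) (nat_lit 0x4000084307) (nat_lit 51))
 (.p (nat_lit 0x5cbb1c3b02) (nat_lit 0x20000000800) (nat_lit 39)))))
 (.n (.n (.n (.p (nat_lit 0x10ca10c810c610c410c2000b10cd07) (nat_lit 0x500500) (nat_lit 7))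
 (.p (nat_lit 0x42023ecb02) (nat_lit 0x40519) (nat_lit 4)))
 (.n (.p (nat_lit 0x47124710470c470a0fc70fc106) (nat_lit 0x12000040305) (nat_lit 51))
 (.p (nat_lit 0x5cb35db102) (nat_lit 0xa0000000000) (nat_lit 36))))
 (.n (.n (.p (nat_lit 0xa11076102) (nat_lit 0x440002) (nat_lit 15))
 (.p (nat_lit 0x35c0388302) (nat_lit 0x126) (nat_lit 4)))
 (.n (.p (nat_lit 0x467c443902) (nat_lit 0x44020c) (nat_lit 5))
 (.p (nat_lit 0x153a5fbf02) (nat_lit 0x89832955800000000600) (nat_lit 49))))))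
 (.n (.n (.n (.n (.p (nat_lit 0xbc80bc60bc20bc009d309cd06) (nat_lit 0x4800040200) (nat_lit 52))
 (.p (nat_lit 0x2348234423422340233e14dd06) (nat_lit 0x8000056515) (nat_lit 51)))
 (.n (.p (nat_lit 0x168a1e4f02) (nat_lit 0x500604) (nat_lit 4))
 (.p (nat_lit 0xec00ea00e400e2000501cb06) (nat_lit 0x130e005) (nat_lit 26))))
 (.n (.n (.p (nat_lit 0xe2e289502) (nat_lit 0x500301) (nat_lit 29))
 (.p (nat_lit 0x9ee101b02) (nat_lit 0x540123) (nat_lit 5)))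
 (.n (.p (nat_lit 0x2a902a8e2a8c2a8a2a86298d06) (nat_lit 0x1000004408) (nat_lit 51))
 (.p (nat_lit 0x5eba4b8b02) (nat_lit 0x60046b00) (nat_lit 48)))))
 (.n (.n (.n (.p (nat_lit 0x1a1c1a1a1a181a16179d179306) (nat_lit 0x10800052700) (nat_lit 51))
 (.p (nat_lit 0x314032d03330ec70d6105) (nat_lit 0x8ab4051c) (nat_lit 9)))
 (.n (.p (nat_lit 0x4db24db04dae4dac4daa0e6106) (nat_lit 0x800090306) (nat_lit 51))
 (.p (nat_lit 0x5cef5e1302) (nat_lit 0x2e0040000400) (nat_lit 36))))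
 (.n (.n (.p (nat_lit 0x33e1246702) (nat_lit 0x502b02) (nat_lit 16))
 (.p (nat_lit 0x198619841982197e197c0b5706) (nat_lit 0x200008e22a) (nat_lit 51)))
 (.n (.p (nat_lit 0x1a7e096b02) (nat_lit 0x54070e) (nat_lit 5))
 (.p (nat_lit 0x13fc60ad02) (nat_lit 0x342521ca4000500040000) (nat_lit 50))))))

def c512_92 : Tr := .n c1024_92 c1024_604

def c1024_348 : Tr :=
 .n (.n (.n (.n (.n (.n (.p (nat_lit 0x1630153014e03) (nat_lit 0x41800007) (nat_lit 19))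
 (.p (nat_lit 0xbae617302) (nat_lit 0x421aa6315000200040000) (nat_lit 49)))
 (.p (nat_lit 0x36fa36f836f636f236f0386906) (nat_lit 0x2000048311) (nat_lit 51)))
 (.n (.p (nat_lit 0x18ba18b818b618b418b2167506) (nat_lit 0x800012603) (nat_lit 52))
 (.p (nat_lit 0x28842a9902) (nat_lit 0x34022b) (nat_lit 4))))
 (.n (.n (.p (nat_lit 0x1d281f0502) (nat_lit 0x40900) (nat_lit 4))
 (.p (nat_lit 0x33482feb02) (nat_lit 0x100a1e) (nat_lit 4)))
 (.n (.p (nat_lit 0x22ac22aa22a622a422a2206506) (nat_lit 0x4000050906) (nat_lit 52))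
 (.p (nat_lit 0x5e5430fd02) (nat_lit 0x20002700) (nat_lit 47)))))
 (.n (.n (.n (.p (nat_lit 0x10e50dff02) (nat_lit 0x502400) (nat_lit 16))
 (.p (nat_lit 0x360e360c360a3606360434b706) (nat_lit 0x200000c018) (nat_lit 52)))
 (.n (.p (nat_lit 0xa2f077f02) (nat_lit 0x140005) (nat_lit 15))
 (.p (nat_lit 0x398039603940392033f042706) (nat_lit 0x250e522) (nat_lit 26))))
 (.n (.n (.p (nat_lit 0x2f2c2902) (nat_lit 0x200a01) (nat_lit 30))
 (.p (nat_lit 0x273829b702) (nat_lit 0x200124) (nat_lit 5)))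
 (.n (.p (nat_lit 0x3bfd3bc102) (nat_lit 0x148b0a) (nat_lit 16))
 (.p (nat_lit 0x180e5f7302) (nat_lit 0x1aa074b50000100000600) (nat_lit 49))))))
 (.n (.n (.n (.n (.p (nat_lit 0x9ff071f02) (nat_lit 0x14c100) (nat_lit 16))
 (.p (nat_lit 0xd400d3e0d3a0d361247124306) (nat_lit 0x5000042415) (nat_lit 51)))
 (.n (.p (nat_lit 0x3ff43ff23ff03fee3fec3fea06) (nat_lit 0xcc304) (nat_lit 52))
 (.p (nat_lit 0x5d58db02) (nat_lit 0x200002) (nat_lit 28))))
 (.n (.n (.p (nat_lit 0x756075407520750074e002b074d07) (nat_lit 0x40001) (nat_lit 7))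
 (.p (nat_lit 0x12f212ec12ea12e805e905e706) (nat_lit 0xc000086023) (nat_lit 51)))
 (.n (.p (nat_lit 0x216651bb02) (nat_lit 0x300a07) (nat_lit 29))
 (.p (nat_lit 0x5d355ea302) (nat_lit 0x180060000a00) (nat_lit 37)))))
 (.n (.n (.n (.p (nat_lit 0x186618641860185c1627162306) (nat_lit 0x5000084700) (nat_lit 52))
 (.p (nat_lit 0x88608820880087c0326030f03090885087f09) (nat_lit 0x210011c) (nat_lit 10)))
 (.n (.p (nat_lit 0x1fe41fe21fe01fda1d8d1d8b06) (nat_lit 0x3000056805) (nat_lit 51))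
 (.p (nat_lit 0x5dfa4a3f02) (nat_lit 0x20054300) (nat_lit 47))))
 (.n (.n (.p (nat_lit 0x336721bd02) (nat_lit 0x40aa02) (nat_lit 16))
 (.p (nat_lit 0x437579f02) (nat_lit 0x10012a) (nat_lit 30)))
 (.n (.p (nat_lit 0x1382093502) (nat_lit 0x20050e) (nat_lit 4))
 (.p (nat_lit 0xa4c607302) (nat_lit 0x570aa2344000200000000) (nat_lit 49))))))

def c1024_860 : Tr :=
 .n (.n (.n (.n (.n (.n (.p (nat_lit 0x5fd04df02) (nat_lit 0x20e000) (nat_lit 16))
 (.p (nat_lit 0x207661ed02) (nat_lit 0x382a31d05000400000600) (nat_lit 50)))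
 (.p (nat_lit 0x1e649d502) (nat_lit 0x713) (nat_lit 1)))
 (.n (.p (nat_lit 0xa5a0a580a560a540a5225bf06) (nat_lit 0x800044b03) (nat_lit 51))
 (.p (nat_lit 0x3e8041b702) (nat_lit 0x10022e) (nat_lit 5))))
 (.n (.n (.p (nat_lit 0x229422922290228c228a1ff706) (nat_lit 0x200004ea00) (nat_lit 51))
 (.p (nat_lit 0x42d83f7702) (nat_lit 0x200720) (nat_lit 5)))
 (.n (.p (nat_lit 0x10d4068f02) (nat_lit 0x300407) (nat_lit 4))
 (.p (nat_lit 0x5d591c4302) (nat_lit 0x240080000800) (nat_lit 39)))))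
 (.n (.n (.n (.p (nat_lit 0x1452144e144c144a1227122306) (nat_lit 0x1400004c500) (nat_lit 51))
 (.p (nat_lit 0x22aa22a822a622a422a2495506) (nat_lit 0x1000005051a) (nat_lit 52)))
 (.n (.p (nat_lit 0x2410240e240c24081697168f06) (nat_lit 0x11000092605) (nat_lit 51))
 (.p (nat_lit 0x5cdb079702) (nat_lit 0x120020000100) (nat_lit 38))))
 (.n (.n (.p (nat_lit 0xfa219e302) (nat_lit 0x540302) (nat_lit 5))
 (.p (nat_lit 0x3df640b502) (nat_lit 0x240127) (nat_lit 4)))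
 (.n (.p (nat_lit 0x26a226a0269c269a26984fd706) (nat_lit 0x400001270d) (nat_lit 52))
 (.p (nat_lit 0x1ada5ff502) (nat_lit 0x306a81c35000200000600) (nat_lit 49))))))
 (.n (.n (.n (.n (.p (nat_lit 0xd560d540d520d500b390b2f06) (nat_lit 0x1080000a300) (nat_lit 52))
 (.p (nat_lit 0x1d541d501d4e1d4c02aa028b02871d571d5309) (nat_lit 0x2b40815) (nat_lit 10)))
 (.n (.p (nat_lit 0x426317f902) (nat_lit 0x340604) (nat_lit 16))
 (.p (nat_lit 0x5a3a5a385a365a325a30023d019007) (nat_lit 0x212209) (nat_lit 25))))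
 (.n (.n (.p (nat_lit 0x3800410047174d15db05) (nat_lit 0x61100801) (nat_lit 9))
 (.p (nat_lit 0xda80da60da20da00cb10cab06) (nat_lit 0x120000d0223) (nat_lit 51)))
 (.n (.p (nat_lit 0x1a361a341a321a301a2c308d06) (nat_lit 0x1000054309) (nat_lit 51))
 (.p (nat_lit 0x206c5ee902) (nat_lit 0x4a8866344000400000600) (nat_lit 49)))))
 (.n (.n (.n (.p (nat_lit 0x1bc01bbe1bbc1bb81bb618fd06) (nat_lit 0x2000096800) (nat_lit 51))
 (.p (nat_lit 0x1c011bf502) (nat_lit 0x10a81c) (nat_lit 16)))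
 (.n (.p (nat_lit 0x1c33196902) (nat_lit 0x200706) (nat_lit 15))
 (.p (nat_lit 0x5d3d5e2d02) (nat_lit 0x100060000500) (nat_lit 36))))
 (.n (.n (.p (nat_lit 0xa161b1302) (nat_lit 0x140103) (nat_lit 5))
 (.p (nat_lit 0x3a40f8502) (nat_lit 0x24032a) (nat_lit 1)))
 (.n (.p (nat_lit 0x257922d502) (nat_lit 0x140a0e) (nat_lit 15))
 (.p (nat_lit 0x1da660f502) (nat_lit 0x440d623a4000300000600) (nat_lit 49))))))

def c512_348 : Tr := .n c1024_348 c1024_860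

def c256_92 : Tr := .n c512_92 c512_348

def c1024_220 : Tr :=
 .n (.n (.n (.n (.n (.n (.p (nat_lit 0xd900cf00c900c404) (nat_lit 0x50800004) (nat_lit 20))
 (.p (nat_lit 0x207e615302) (nat_lit 0x1503a8895800400000600) (nat_lit 50)))
 (.p (nat_lit 0x2d642d622d602d5e2d5a326f06) (nat_lit 0x1000052510) (nat_lit 52)))
 (.n (.p (nat_lit 0x49413c102) (nat_lit 0x300503) (nat_lit 1))
 (.p (nat_lit 0x2451219d02) (nat_lit 0xa2a) (nat_lit 15))))
 (.n (.n (.p (nat_lit 0x1e4e1e4c1e4a1e481e441bc506) (nat_lit 0x100000c900) (nat_lit 52))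
 (.p (nat_lit 0xe9a0e980e960e920e902bb106) (nat_lit 0x200008091d) (nat_lit 52)))
 (.n (.p (nat_lit 0x1f0250df02) (nat_lit 0x500906) (nat_lit 29))
 (.p (nat_lit 0x5da116af02) (nat_lit 0xc00a0000600) (nat_lit 41)))))
 (.n (.n (.n (.p (nat_lit 0x100210000ffe0ffa0ff80df906) (nat_lit 0x2000080400) (nat_lit 52))
 (.p (nat_lit 0x32782f5f02) (nat_lit 0x40517) (nat_lit 4)))
 (.n (.p (nat_lit 0x229422922290228c228a25cf06) (nat_lit 0x200004eb04) (nat_lit 51))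
 (.p (nat_lit 0x2f55b7102) (nat_lit 0x10071a) (nat_lit 28))))
 (.n (.n (.p (nat_lit 0x4d804d404d204d004ce204f06) (nat_lit 0x8000040901) (nat_lit 51))
 (.p (nat_lit 0x230322f702) (nat_lit 0x40a23) (nat_lit 16)))
 (.n (.p (nat_lit 0x3a94524f02) (nat_lit 0x50060a) (nat_lit 29))
 (.p (nat_lit 0x181c5f5502) (nat_lit 0x1a2522350000100000600) (nat_lit 50))))))
 (.n (.n (.n (.n (.p (nat_lit 0x72008ed02) (nat_lit 0x240100) (nat_lit 4))
 (.p (nat_lit 0x10f010ee10ea10e810e6028710ed07) (nat_lit 0x300415) (nat_lit 7)))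
 (.n (.p (nat_lit 0xcec0cea0ce60ce40ce200bb0ce907) (nat_lit 0x340204) (nat_lit 7))
 (.p (nat_lit 0x14181416141414121410507506) (nat_lit 0x800082830) (nat_lit 51))))
 (.n (.n (.p (nat_lit 0x255c255a25582554255222bf06) (nat_lit 0x2000052b00) (nat_lit 52))
 (.p (nat_lit 0xe8e0e8c0e880e860e84506306) (nat_lit 0x4000000822) (nat_lit 51)))
 (.n (.p (nat_lit 0x1be31bd702) (nat_lit 0x404807) (nat_lit 16))
 (.p (nat_lit 0x5c99207702) (nat_lit 0x240000000a00) (nat_lit 40)))))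
 (.n (.n (.n (.p (nat_lit 0x1778177417721770176e16b906) (nat_lit 0x80000d2600) (nat_lit 52))
 (.p (nat_lit 0x11441142113e113c113a073b06) (nat_lit 0x40000c801c) (nat_lit 52)))
 (.n (.p (nat_lit 0x1f221f201f1e1f1c1c2d1c2b06) (nat_lit 0x18000000805) (nat_lit 51))
 (.p (nat_lit 0x5d615def02) (nat_lit 0x1c0080000200) (nat_lit 36))))
 (.n (.n (.p (nat_lit 0x21b61a2f02) (nat_lit 0x100a02) (nat_lit 5))
 (.p (nat_lit 0x24062404240023fe23fc4c8d06) (nat_lit 0x4000052129) (nat_lit 51)))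
 (.n (.p (nat_lit 0x123c07d902) (nat_lit 0x44040e) (nat_lit 5))
 (.p (nat_lit 0x1da6605302) (nat_lit 0x40a962335000300000600) (nat_lit 49))))))

def c1024_732 : Tr :=
 .n (.n (.n (.n (.n (.n (.p (nat_lit 0x4f004ec04ea04e804e604e306) (nat_lit 0x8000004000) (nat_lit 52))
 (.p (nat_lit 0x181e61d102) (nat_lit 0x54216ac0c800100000600) (nat_lit 50)))
 (.p (nat_lit 0x94409420940093e093c427306) (nat_lit 0x100000ca612) (nat_lit 52)))
 (.n (.p (nat_lit 0x12aa12a612a412a212a0247106) (nat_lit 0x800000ab03) (nat_lit 51))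
 (.p (nat_lit 0x90376502) (nat_lit 0x54022d) (nat_lit 1))))
 (.n (.n (.p (nat_lit 0x219d1e8d02) (nat_lit 0xaa00) (nat_lit 16))
 (.p (nat_lit 0x3d683fcd02) (nat_lit 0x200120) (nat_lit 4)))
 (.n (.p (nat_lit 0xbb00bae0bac0baa0ba80f6906) (nat_lit 0x8000c4307) (nat_lit 52))
 (.p (nat_lit 0x5d0b1ae502) (nat_lit 0x120040000800) (nat_lit 40)))))
 (.n (.n (.n (.p (nat_lit 0x139f10cb02) (nat_lit 0x406500) (nat_lit 16))
 (.p (nat_lit 0x430e3efb02) (nat_lit 0x40719) (nat_lit 4)))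
 (.n (.p (nat_lit 0x62713dd02) (nat_lit 0x500505) (nat_lit 15))
 (.p (nat_lit 0x5d3d5dbd02) (nat_lit 0x100060000000) (nat_lit 36))))
 (.n (.n (.p (nat_lit 0xcd40cd20cd00cce0cca005b0ccd07) (nat_lit 0x140202) (nat_lit 7))
 (.p (nat_lit 0x576a5768576657645762576003f807) (nat_lit 0x40a26) (nat_lit 8)))
 (.n (.p (nat_lit 0x69c06980696069449d349cf06) (nat_lit 0x1400008870c) (nat_lit 52))
 (.p (nat_lit 0x20705fd302) (nat_lit 0x95a32b05000400000600) (nat_lit 49))))))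
 (.n (.n (.n (.n (.p (nat_lit 0xccd09cf02) (nat_lit 0x14e200) (nat_lit 16))
 (.p (nat_lit 0x28b545302) (nat_lit 0x500715) (nat_lit 30)))
 (.n (.p (nat_lit 0x1697168b02) (nat_lit 0x516604) (nat_lit 16))
 (.p (nat_lit 0x59d859d659d459d259ce03d3011e07) (nat_lit 0x10e406) (nat_lit 25))))
 (.n (.n (.p (nat_lit 0x29e629e229e029de29dc125506) (nat_lit 0x8000052401) (nat_lit 52))
 (.p (nat_lit 0xb500b4e0b4a0b480b4603a70b4d07) (nat_lit 0x300223) (nat_lit 7)))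
 (.n (.p (nat_lit 0x2c5a26b102) (nat_lit 0x40a08) (nat_lit 4))
 (.p (nat_lit 0x181c5ecf02) (nat_lit 0x4a1a34344000100000600) (nat_lit 50)))))
 (.n (.n (.n (.p (nat_lit 0x18fa1ad702) (nat_lit 0x100800) (nat_lit 4))
 (.p (nat_lit 0x192a0ee702) (nat_lit 0x10071c) (nat_lit 4)))
 (.n (.p (nat_lit 0x4ee64ee44ee24ee04ede129106) (nat_lit 0x80000c4406) (nat_lit 52))
 (.p (nat_lit 0x5e1e0e2302) (nat_lit 0xa0000400) (nat_lit 48))))
 (.n (.n (.p (nat_lit 0x8c3060f02) (nat_lit 0x500003) (nat_lit 15))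
 (.p (nat_lit 0x1c501c4e1c4a1c481c460cb906) (nat_lit 0x40000d022a) (nat_lit 51)))
 (.n (.p (nat_lit 0x1ea6082f02) (nat_lit 0x10090e) (nat_lit 4))
 (.p (nat_lit 0x13ee60d502) (nat_lit 0x354a621b0000500040000) (nat_lit 49))))))

def c512_220 : Tr := .n c1024_220 c1024_732

def c1024_476 : Tr :=
 .n (.n (.n (.n (.n (.n (.p (nat_lit 0x2ab02a1028e03) (nat_lit 0xa1900015) (nat_lit 19))
 (.p (nat_lit 0x2072618f02) (nat_lit 0x3422a5c14800400000600) (nat_lit 49)))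
 (.p (nat_lit 0x2e5e2e5c2e582e562e543a9d06) (nat_lit 0x4000008611) (nat_lit 51)))
 (.n (.p (nat_lit 0x1a401a3e1a3c1a3a1a3817f106) (nat_lit 0x100000d4603) (nat_lit 52))
 (.p (nat_lit 0x2f3c319502) (nat_lit 0x10022c) (nat_lit 4))))
 (.n (.n (.p (nat_lit 0x1fd81fd61fd41fce1d2d1d2b06) (nat_lit 0x30000ce900) (nat_lit 52))
 (.p (nat_lit 0x1d261d241d221d1e1d1c354d06) (nat_lit 0x20000d601f) (nat_lit 52)))
 (.n (.p (nat_lit 0xca40ca20ca00c9e0c9a01430c9d07) (nat_lit 0x140207) (nat_lit 7))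
 (.p (nat_lit 0x5d77181f02) (nat_lit 0x60080000700) (nat_lit 40)))))
 (.n (.n (.n (.p (nat_lit 0x11981196119211900f630f5d06) (nat_lit 0x48000c4400) (nat_lit 52))
 (.p (nat_lit 0x3b00369d02) (nat_lit 0x300a18) (nat_lit 4)))
 (.n (.p (nat_lit 0xcf0222302) (nat_lit 0x140205) (nat_lit 4))
 (.p (nat_lit 0x5c2a5c285c265c245c200003044007) (nat_lit 0x10612a) (nat_lit 25))))
 (.n (.n (.p (nat_lit 0x255c255a255825562552231106) (nat_lit 0x1000052a01) (nat_lit 52))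
 (.p (nat_lit 0x2c80298902) (nat_lit 0x540a24) (nat_lit 4)))
 (.n (.p (nat_lit 0x50805060504050004fe421906) (nat_lit 0x200000660b) (nat_lit 52))
 (.p (nat_lit 0x1ae85f9102) (nat_lit 0x581a303a5000200000600) (nat_lit 50))))))
 (.n (.n (.n (.n (.p (nat_lit 0xa940a920a900a8e087b087106) (nat_lit 0x1080000a200) (nat_lit 52))
 (.p (nat_lit 0x1f1a1f181f161f141f10138d06) (nat_lit 0x1000092515) (nat_lit 51)))
 (.n (.p (nat_lit 0x13c61f9502) (nat_lit 0x504) (nat_lit 5))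
 (.p (nat_lit 0x5930592e592a592859260369009207) (nat_lit 0x314303) (nat_lit 25))))
 (.n (.n (.p (nat_lit 0x27af0a0102) (nat_lit 0x248101) (nat_lit 16))
 (.p (nat_lit 0x64a0646064406420640089106) (nat_lit 0x8000080123) (nat_lit 51)))
 (.n (.p (nat_lit 0x256e071502) (nat_lit 0x240b07) (nat_lit 4))
 (.p (nat_lit 0x5eac4f2102) (nat_lit 0x42b00) (nat_lit 47)))))
 (.n (.n (.n (.p (nat_lit 0x1937162302) (nat_lit 0x108700) (nat_lit 16))
 (.p (nat_lit 0xac60ac20abe0abc09e109dd06) (nat_lit 0xa00004e11c) (nat_lit 51)))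
 (.n (.p (nat_lit 0x4bf04bee4bec4bea4be808e706) (nat_lit 0x10000010106) (nat_lit 52))
 (.p (nat_lit 0x5da90d1102) (nat_lit 0x400a0000300) (nat_lit 38))))
 (.n (.n (.p (nat_lit 0x21e221e021de21da231f231b06) (nat_lit 0x28000d4a02) (nat_lit 51))
 (.p (nat_lit 0x57b257b057ae57ac57aa57a8044209f709f509f10a) (nat_lit 0xd04012a) (nat_lit 31)))
 (.n (.p (nat_lit 0x702070006fc06f814cf14cb06) (nat_lit 0x50000d450e) (nat_lit 52))
 (.p (nat_lit 0x1db0609102) (nat_lit 0x342221ca4000300000600) (nat_lit 50))))))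

def c1024_988 : Tr :=
 .n (.n (.n (.n (.n (.p (nat_lit 0x6e006de06dc06da064f064d06) (nat_lit 0x1800052000) (nat_lit 52))
 (.p (nat_lit 0x4fa74f2702) (nat_lit 0x340414) (nat_lit 15)))
 (.n (.p (nat_lit 0x3c1c3c1a3c163c120617061306) (nat_lit 0x5000006004) (nat_lit 52))
 (.p (nat_lit 0x498432b02) (nat_lit 0x54072e) (nat_lit 1))))
 (.n (.n (.p (nat_lit 0x2360235c235a23582356215d06) (nat_lit 0x8000080b00) (nat_lit 52))
 (.p (nat_lit 0x4510472902) (nat_lit 0x300121) (nat_lit 4)))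
 (.n (.p (nat_lit 0x14081406140414021233123106) (nat_lit 0x18000042407) (nat_lit 51))
 (.p (nat_lit 0x5ce35e8302) (nat_lit 0xa0020000900) (nat_lit 36)))))
 (.n (.n (.n (.p (nat_lit 0x159c159a15981596154f154d06) (nat_lit 0x1800006600) (nat_lit 52))
 (.p (nat_lit 0x4fb64d3102) (nat_lit 0x54051b) (nat_lit 4)))
 (.n (.p (nat_lit 0x11441142113e113c113a195f06) (nat_lit 0x4000088705) (nat_lit 52))
 (.p (nat_lit 0x5d715dd502) (nat_lit 0xc0080000100) (nat_lit 37))))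
 (.n (.n (.p (nat_lit 0x319c319a319831963194319206) (nat_lit 0x4502) (nat_lit 52))
 (.p (nat_lit 0x439440ed02) (nat_lit 0x140b27) (nat_lit 5)))
 (.n (.p (nat_lit 0x1f152d302) (nat_lit 0x50030e) (nat_lit 30))
 (.p (nat_lit 0x13ea601302) (nat_lit 0x405aa2335000500040000) (nat_lit 49))))))
 (.n (.n (.n (.n (.p (nat_lit 0xc920e7102) (nat_lit 0x240300) (nat_lit 4))
 (.p (nat_lit 0x242f217b02) (nat_lit 0x100a15) (nat_lit 15)))
 (.n (.p (nat_lit 0x42e3194f02) (nat_lit 0x108704) (nat_lit 16))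
 (.p (nat_lit 0x1ec01ea01e801e60257000b06) (nat_lit 0x251240e) (nat_lit 26))))
 (.n (.n (.p (nat_lit 0x1d861d821d801d7e1d7c00331d8507) (nat_lit 0x440801) (nat_lit 7))
 (.p (nat_lit 0x1aa011bf02) (nat_lit 0x440723) (nat_lit 4)))
 (.n (.p (nat_lit 0x337e2cdb02) (nat_lit 0x440a09) (nat_lit 5))
 (.p (nat_lit 0x1ae85f1302) (nat_lit 0x3aa570344000200000600) (nat_lit 50)))))
 (.n (.n (.n (.p (nat_lit 0x1c8c1c8a1c861c841a631a5d06) (nat_lit 0x4800044800) (nat_lit 52))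
 (.p (nat_lit 0x3fdc3fda3fd83fd63fd2202506) (nat_lit 0x10000c291c) (nat_lit 52)))
 (.n (.p (nat_lit 0xd100d0e0d0c0d0a0d061c3106) (nat_lit 0x1000006806) (nat_lit 52))
 (.p (nat_lit 0x5cb1153502) (nat_lit 0xc0000000600) (nat_lit 38))))
 (.n (.n (.p (nat_lit 0x372837263724372237200ce106) (nat_lit 0x10000054203) (nat_lit 51))
 (.p (nat_lit 0x2a3c2a3a2a382a362a3417e506) (nat_lit 0x100000c462a) (nat_lit 51)))
 (.n (.p (nat_lit 0x15e215e015dc15da15d82a0f06) (nat_lit 0x400005040f) (nat_lit 52))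
 (.p (nat_lit 0x1542611902) (nat_lit 0x342521ca4000000000600) (nat_lit 50))))))

def c512_476 : Tr := .n c1024_476 c1024_988

def c256_220 : Tr := .n c512_220 c512_476

def c128_92 : Tr := .n c256_92 c256_220

def c64_28 : Tr := .n c128_28 c128_92

def c1024_60 : Tr :=
 .n (.n (.n (.n (.n (.n (.p (nat_lit 0x4b0047003803) (nat_lit 0x22a00001) (nat_lit 19))
 (.p (nat_lit 0x1150612f02) (nat_lit 0x35486a1b0000400040000) (nat_lit 50)))
 (.p (nat_lit 0x1f02b9f02) (nat_lit 0x50090f) (nat_lit 1)))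
 (.n (.p (nat_lit 0x37f237f037ee37ec37ea37e800940faf0fad0fa50a) (nat_lit 0x16040303) (nat_lit 31))
 (.p (nat_lit 0x1c10147302) (nat_lit 0x30082a) (nat_lit 4))))
 (.n (.n (.p (nat_lit 0x1d1a1d161d141d101a651a5f06) (nat_lit 0x9000056800) (nat_lit 51))
 (.p (nat_lit 0x5596559455925590558e558c031422f522f122ef0a) (nat_lit 0x15a40a1c) (nat_lit 31)))
 (.n (.p (nat_lit 0x1d9e255102) (nat_lit 0x540806) (nat_lit 4))
 (.p (nat_lit 0x5cc516a702) (nat_lit 0x280020000600) (nat_lit 41)))))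
 (.n (.n (.n (.p (nat_lit 0xeee0eec0eea0ee60ee40c9306) (nat_lit 0x200004e300) (nat_lit 52))
 (.p (nat_lit 0x258c54b302) (nat_lit 0x540b15) (nat_lit 29)))
 (.n (.p (nat_lit 0x24741e7502) (nat_lit 0xb04) (nat_lit 4))
 (.p (nat_lit 0x22b5ad902) (nat_lit 0x400910) (nat_lit 28))))
 (.n (.n (.p (nat_lit 0x1eea1ee61ee41ee21ee000331ee907) (nat_lit 0x400901) (nat_lit 7))
 (.p (nat_lit 0x3a956fd02) (nat_lit 0x440823) (nat_lit 30)))
 (.n (.p (nat_lit 0x35ec35e835e635e435e2374b06) (nat_lit 0x800004820a) (nat_lit 51))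
 (.p (nat_lit 0xe825f2302) (nat_lit 0x3a2560b44000300040000) (nat_lit 50))))))
 (.n (.n (.n (.n (.p (nat_lit 0x1ec05c302) (nat_lit 0x300100) (nat_lit 1))
 (.p (nat_lit 0x28353f702) (nat_lit 0x100015) (nat_lit 30)))
 (.n (.p (nat_lit 0x8ce1ddb02) (nat_lit 0x500104) (nat_lit 5))
 (.p (nat_lit 0x4696490d02) (nat_lit 0x54022f) (nat_lit 4))))
 (.n (.n (.p (nat_lit 0x241d215d02) (nat_lit 0x400b00) (nat_lit 16))
 (.p (nat_lit 0xe9a0e980e960e940e924a3d06) (nat_lit 0x8000c0721) (nat_lit 52)))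
 (.n (.p (nat_lit 0x17b117a502) (nat_lit 0x344607) (nat_lit 16))
 (.p (nat_lit 0x5e861f0902) (nat_lit 0x40040900) (nat_lit 45)))))
 (.n (.n (.n (.p (nat_lit 0x1655155102) (nat_lit 0x206600) (nat_lit 16))
 (.p (nat_lit 0x4d804d604d404ce05d905d706) (nat_lit 0x300000001c) (nat_lit 51)))
 (.n (.p (nat_lit 0x1ac21ac01abe1abc011000ed00eb1ac71ac509) (nat_lit 0x2c40705) (nat_lit 10))
 (.p (nat_lit 0x5c950ba702) (nat_lit 0x280000000200) (nat_lit 39))))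
 (.n (.n (.p (nat_lit 0x1ef6328f02) (nat_lit 0x500902) (nat_lit 29))
 (.p (nat_lit 0x213a2138213421322130458d06) (nat_lit 0x40000ce128) (nat_lit 51)))
 (.n (.p (nat_lit 0xaa20aa00a9e0a9a0a980f7906) (nat_lit 0x20000ca30e) (nat_lit 51))
 (.p (nat_lit 0x1ae0602d02) (nat_lit 0x406a62335000200000600) (nat_lit 50))))))

def c1024_572 : Tr :=
 .n (.n (.n (.n (.n (.n (.p (nat_lit 0x38303810377037204) (nat_lit 0x95800020) (nat_lit 20))
 (.p (nat_lit 0x1c4a61a902) (nat_lit 0x340b8ac64000200040600) (nat_lit 50)))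
 (.p (nat_lit 0x408c408a408840864084024f408307) (nat_lit 0x412) (nat_lit 7)))
 (.n (.p (nat_lit 0x1e7e1e7c1e7a1e781e7621c106) (nat_lit 0x800016a03) (nat_lit 52))
 (.p (nat_lit 0x331231c702) (nat_lit 0x44092c) (nat_lit 5))))
 (.n (.n (.p (nat_lit 0xe81e9302) (nat_lit 0x300a00) (nat_lit 1))
 (.p (nat_lit 0x3b3c383b02) (nat_lit 0x140a1f) (nat_lit 5)))
 (.n (.p (nat_lit 0xe0a0e080e040e020e0001470e0707) (nat_lit 0x300307) (nat_lit 7))
 (.p (nat_lit 0x5d91181502) (nat_lit 0x1c00a0000700) (nat_lit 38)))))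
 (.n (.n (.n (.p (nat_lit 0x10c2129502) (nat_lit 0x500) (nat_lit 4))
 (.p (nat_lit 0x41923e2102) (nat_lit 0x519) (nat_lit 4)))
 (.n (.p (nat_lit 0xfc60fc40fc20fc00fbe00e30fbd07) (nat_lit 0x40305) (nat_lit 7))
 (.p (nat_lit 0x4805c8102) (nat_lit 0x30062d) (nat_lit 27))))
 (.n (.n (.p (nat_lit 0x2d1e2d1c2d1a2d162d14075d06) (nat_lit 0x2000044002) (nat_lit 51))
 (.p (nat_lit 0x3a633ad02) (nat_lit 0x340a25) (nat_lit 1)))
 (.n (.p (nat_lit 0x4450444e444c444a4446436906) (nat_lit 0x10000c6b0b) (nat_lit 52))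
 (.p (nat_lit 0x7a65fa502) (nat_lit 0x588bb0344000100000000) (nat_lit 50))))))
 (.n (.n (.n (.n (.p (nat_lit 0xba3087902) (nat_lit 0x416200) (nat_lit 16))
 (.p (nat_lit 0x154a154815441542154014db06) (nat_lit 0x400004c515) (nat_lit 51)))
 (.n (.p (nat_lit 0x41d441d241ce41cc41ca151706) (nat_lit 0x400004c504) (nat_lit 51))
 (.p (nat_lit 0xbc00ba00b600b400e7000b06) (nat_lit 0x1516604) (nat_lit 26))))
 (.n (.n (.p (nat_lit 0xccf0cc302) (nat_lit 0x250201) (nat_lit 16))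
 (.p (nat_lit 0x35cb089302) (nat_lit 0x510123) (nat_lit 16)))
 (.n (.p (nat_lit 0x15fa15f615f415f215f028d306) (nat_lit 0x8000012308) (nat_lit 52))
 (.p (nat_lit 0x5d2f5eb902) (nat_lit 0x1e0060000b00) (nat_lit 37)))))
 (.n (.n (.n (.p (nat_lit 0x19e219e019de19dc179b179306) (nat_lit 0x88000c6700) (nat_lit 51))
 (.p (nat_lit 0x5df13a102) (nat_lit 0x50051c) (nat_lit 15)))
 (.n (.p (nat_lit 0xd0224d902) (nat_lit 0x440206) (nat_lit 5))
 (.p (nat_lit 0x5ccb0fe302) (nat_lit 0x220020000400) (nat_lit 40))))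
 (.n (.n (.p (nat_lit 0x15d415d215d015ce2467245d06) (nat_lit 0x1080008ab02) (nat_lit 51))
 (.p (nat_lit 0xd0e0d0c0d0a0d080d060b5d06) (nat_lit 0x1000000622a) (nat_lit 52)))
 (.n (.p (nat_lit 0x2e682e662e642e622e60191b06) (nat_lit 0x1000008870e) (nat_lit 52))
 (.p (nat_lit 0xba860a702) (nat_lit 0x356068ca4000200040000) (nat_lit 49))))))

def c512_60 : Tr := .n c1024_60 c1024_572

def c1024_316 : Tr :=
 .n (.n (.n (.n (.n (.n (.p (nat_lit 0x14401420140014d04) (nat_lit 0x3800400007) (nat_lit 17))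
 (.p (nat_lit 0x1140616b02) (nat_lit 0x421aa4395000400040000) (nat_lit 49)))
 (.p (nat_lit 0x33de2eab02) (nat_lit 0x400b10) (nat_lit 4)))
 (.n (.p (nat_lit 0x16783a8302) (nat_lit 0x200603) (nat_lit 29))
 (.p (nat_lit 0x28222820281e281c28180465281b07) (nat_lit 0x10022b) (nat_lit 7))))
 (.n (.n (.p (nat_lit 0x1ec31bc902) (nat_lit 0x306900) (nat_lit 16))
 (.p (nat_lit 0x2efa2ef82ef62ef42ef22e2706) (nat_lit 0x80008a11e) (nat_lit 51)))
 (.n (.p (nat_lit 0x206420622060205e013e011d011b2069206709) (nat_lit 0x2c40906) (nat_lit 10))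
 (.p (nat_lit 0x5ce55e5502) (nat_lit 0x80020000700) (nat_lit 37)))))
 (.n (.n (.n (.p (nat_lit 0x109a1098109610920dff0df706) (nat_lit 0x11000014400) (nat_lit 52))
 (.p (nat_lit 0x33982f8b02) (nat_lit 0x540a17) (nat_lit 5)))
 (.n (.p (nat_lit 0x77e21f302) (nat_lit 0x140005) (nat_lit 5))
 (.p (nat_lit 0x36c036803660364030f03fb06) (nat_lit 0x200c520) (nat_lit 26))))
 (.n (.n (.p (nat_lit 0x2c05204b02) (nat_lit 0x246901) (nat_lit 16))
 (.p (nat_lit 0x4e7c4e7a4e784e764e74259b06) (nat_lit 0x80004eb23) (nat_lit 51)))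
 (.n (.p (nat_lit 0x3bc4353702) (nat_lit 0x340b0a) (nat_lit 4))
 (.p (nat_lit 0x1da65f6d02) (nat_lit 0x3aa074b44000300000600) (nat_lit 49))))))
 (.n (.n (.n (.n (.p (nat_lit 0x99a0998099609940990071f06) (nat_lit 0x10000d2100) (nat_lit 51))
 (.p (nat_lit 0x12480a8902) (nat_lit 0x440415) (nat_lit 4)))
 (.n (.p (nat_lit 0xe590e4d02) (nat_lit 0x216304) (nat_lit 16))
 (.p (nat_lit 0x6058c702) (nat_lit 0x400801) (nat_lit 27))))
 (.n (.n (.p (nat_lit 0x5f225dd02) (nat_lit 0x300001) (nat_lit 29))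
 (.p (nat_lit 0x3ae03b903cd115d0ff705) (nat_lit 0x81d00023) (nat_lit 9)))
 (.n (.p (nat_lit 0x200651b102) (nat_lit 0x440907) (nat_lit 29))
 (.p (nat_lit 0x5d135e9d02) (nat_lit 0xa0040000a00) (nat_lit 36)))))
 (.n (.n (.n (.p (nat_lit 0x5e162702) (nat_lit 0x300700) (nat_lit 1))
 (.p (nat_lit 0x886088408820880087e0307087d07) (nat_lit 0x11c) (nat_lit 7)))
 (.n (.p (nat_lit 0x1e121e101e0e1e0a1e081d8d06) (nat_lit 0x20000c6805) (nat_lit 51))
 (.p (nat_lit 0x5ce50e6f02) (nat_lit 0x80020000300) (nat_lit 39))))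
 (.n (.n (.p (nat_lit 0x1f1a1f181f141f121f1021bb06) (nat_lit 0x4000092a02) (nat_lit 51))
 (.p (nat_lit 0x100210000ffc0ffa0ff850c306) (nat_lit 0x40000c0829) (nat_lit 52)))
 (.n (.p (nat_lit 0x2a0d123902) (nat_lit 0x24c40e) (nat_lit 16))
 (.p (nat_lit 0x114a606902) (nat_lit 0x588172b40800400040000) (nat_lit 50))))))

def c1024_828 : Tr :=
 .n (.n (.n (.n (.n (.n (.p (nat_lit 0x5ae05ac05aa05a805a404dd06) (nat_lit 0x1000016000) (nat_lit 51))
 (.p (nat_lit 0x197661e702) (nat_lit 0x3422b0d64000100040600) (nat_lit 49)))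
 (.p (nat_lit 0x2288228622842280227e484f06) (nat_lit 0x20000cc413) (nat_lit 51)))
 (.n (.p (nat_lit 0x25c825c625c425c025be008b25c307) (nat_lit 0x240b03) (nat_lit 7))
 (.p (nat_lit 0x43c3c0302) (nat_lit 0x440b2d) (nat_lit 1))))
 (.n (.n (.p (nat_lit 0x2258225622542250224e1ff706) (nat_lit 0x20000c8a00) (nat_lit 52))
 (.p (nat_lit 0x42843f6b02) (nat_lit 0x240620) (nat_lit 5)))
 (.n (.p (nat_lit 0x400f0f6902) (nat_lit 0x52307) (nat_lit 16))
 (.p (nat_lit 0x5d6f1ae902) (nat_lit 0xe0080000800) (nat_lit 40)))))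
 (.n (.n (.n (.p (nat_lit 0x1430142e142a14281223121d06) (nat_lit 0x48000c4500) (nat_lit 52))
 (.p (nat_lit 0x22a0229e229a2298229648c306) (nat_lit 0x400008e51a) (nat_lit 52)))
 (.n (.p (nat_lit 0x496c496a496849664964496200f016971695168d0a) (nat_lit 0x16000605) (nat_lit 31))
 (.p (nat_lit 0x5cb15dc502) (nat_lit 0xc0000000100) (nat_lit 37))))
 (.n (.n (.p (nat_lit 0x11070e3902) (nat_lit 0x400302) (nat_lit 15))
 (.p (nat_lit 0xbc3d7902) (nat_lit 0x400127) (nat_lit 1)))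
 (.n (.p (nat_lit 0x4f1452a502) (nat_lit 0x4040d) (nat_lit 29))
 (.p (nat_lit 0x13fc5fe902) (nat_lit 0x306a81d31000500040000) (nat_lit 50))))))
 (.n (.n (.n (.n (.p (nat_lit 0xd400d3e0d3c0d3a0d360b3106) (nat_lit 0x1000002300) (nat_lit 51))
 (.p (nat_lit 0x1eb31be902) (nat_lit 0x100815) (nat_lit 15)))
 (.n (.p (nat_lit 0x198619841982197e197c17f706) (nat_lit 0x20000ce604) (nat_lit 51))
 (.p (nat_lit 0x1c85a1702) (nat_lit 0x200a07) (nat_lit 27))))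
 (.n (.n (.p (nat_lit 0x2ad62ad42ad02ace2acc14f306) (nat_lit 0x40000d2501) (nat_lit 52))
 (.p (nat_lit 0xd280d260d240d200d1e0cab06) (nat_lit 0x2000040223) (nat_lit 52)))
 (.n (.p (nat_lit 0x1a4e1a4c1a481a461a44301106) (nat_lit 0x4000016309) (nat_lit 52))
 (.p (nat_lit 0x7985ee102) (nat_lit 0x4a8d84344000100000000) (nat_lit 49)))))
 (.n (.n (.n (.p (nat_lit 0x1b9c1b9a1b981b961b9418f906) (nat_lit 0x800014800) (nat_lit 52))
 (.p (nat_lit 0x30b555502) (nat_lit 0x20081c) (nat_lit 30)))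
 (.n (.p (nat_lit 0x196e196819661964013a011b0119196d196b09) (nat_lit 0x2300706) (nat_lit 10))
 (.p (nat_lit 0x5cf75e2b02) (nat_lit 0x260040000500) (nat_lit 37))))
 (.n (.n (.p (nat_lit 0x356a35683566356435623560009408bf08bb08b90a) (nat_lit 0xc800103) (nat_lit 31))
 (.p (nat_lit 0x10321030102e102c102a0e1906) (nat_lit 0x80008432a) (nat_lit 51)))
 (.n (.p (nat_lit 0x2c35217102) (nat_lit 0x20ca0e) (nat_lit 16))
 (.p (nat_lit 0x113c60ef02) (nat_lit 0x440d6a3a4000400040000) (nat_lit 49))))))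

def c512_316 : Tr := .n c1024_316 c1024_828

def c256_60 : Tr := .n c512_60 c512_316

def c1024_188 : Tr :=
 .n (.n (.n (.n (.n (.n (.p (nat_lit 0xbe00bc00b600c104) (nat_lit 0x19000400004) (nat_lit 17))
 (.p (nat_lit 0x16a6614f02) (nat_lit 0x3503a0d84000000040600) (nat_lit 50)))
 (.p (nat_lit 0x18f418f218f018ee18ec317d06) (nat_lit 0x100000d6410) (nat_lit 51)))
 (.n (.p (nat_lit 0x3956395439523950394e126f06) (nat_lit 0x10000056403) (nat_lit 51))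
 (.p (nat_lit 0x4ae21a102) (nat_lit 0x200a2a) (nat_lit 1))))
 (.n (.n (.p (nat_lit 0x1dfe1dfc1dfa1df41bc71bc506) (nat_lit 0x3000084900) (nat_lit 51))
 (.p (nat_lit 0x27fa27f627f427f227f0273106) (nat_lit 0x800001211d) (nat_lit 52)))
 (.n (.p (nat_lit 0x1ef823fd02) (nat_lit 0x906) (nat_lit 5))
 (.p (nat_lit 0x5d7316ad02) (nat_lit 0xa0080000600) (nat_lit 41)))))
 (.n (.n (.n (.p (nat_lit 0xfe80fdc0dfd03) (nat_lit 0x400400) (nat_lit 6))
 (.p (nat_lit 0x2c6c280b02) (nat_lit 0x540a16) (nat_lit 4)))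
 (.n (.p (nat_lit 0x25d41ff102) (nat_lit 0x540b04) (nat_lit 5))
 (.p (nat_lit 0x2e55b5102) (nat_lit 0xb19) (nat_lit 28))))
 (.n (.n (.p (nat_lit 0x20462bd102) (nat_lit 0x40901) (nat_lit 29))
 (.p (nat_lit 0x4790478c478a47884786219906) (nat_lit 0x8000002a23) (nat_lit 52)))
 (.n (.p (nat_lit 0x396e396c396a3968396601a3397107) (nat_lit 0x54040a) (nat_lit 7))
 (.p (nat_lit 0x13f45f4302) (nat_lit 0x1a1d22350000500040000) (nat_lit 49))))))
 (.n (.n (.n (.n (.p (nat_lit 0x8b705c702) (nat_lit 0x50e100) (nat_lit 16))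
 (.p (nat_lit 0x739072d02) (nat_lit 0x248015) (nat_lit 16)))
 (.n (.p (nat_lit 0xe4d0b8702) (nat_lit 0x200204) (nat_lit 15))
 (.p (nat_lit 0x252c252a2528252625224cff06) (nat_lit 0x100000e230) (nat_lit 51))))
 (.n (.n (.p (nat_lit 0x2538253625322530252e22c106) (nat_lit 0x40000ceb00) (nat_lit 51))
 (.p (nat_lit 0x50264d9902) (nat_lit 0x340722) (nat_lit 5)))
 (.n (.p (nat_lit 0x1a21bd902) (nat_lit 0x500807) (nat_lit 1))
 (.p (nat_lit 0x5d831f0f02) (nat_lit 0x2a00a0000900) (nat_lit 39)))))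
 (.n (.n (.n (.p (nat_lit 0x1760175e175c1758175616b506) (nat_lit 0x20000d0600) (nat_lit 51))
 (.p (nat_lit 0x73e0d3502) (nat_lit 0x54001c) (nat_lit 5)))
 (.n (.p (nat_lit 0x1c26214102) (nat_lit 0x200805) (nat_lit 5))
 (.p (nat_lit 0x5de8505702) (nat_lit 0x60016200) (nat_lit 47))))
 (.n (.n (.p (nat_lit 0x1d1a1d161d141d10205b205506) (nat_lit 0x9000056902) (nat_lit 51))
 (.p (nat_lit 0x1124c8702) (nat_lit 0x40129) (nat_lit 1)))
 (.n (.p (nat_lit 0x138910e502) (nat_lit 0x50040e) (nat_lit 15))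
 (.p (nat_lit 0x2495248121db21d71f151f0b1c471c431987197516ab169b604a0d) (nat_lit 0x406a6254c800000040600) (nat_lit 33))))))

def c1024_700 : Tr :=
 .n (.n (.n (.n (.n (.n (.p (nat_lit 0x4d104c502) (nat_lit 0x100000) (nat_lit 34))
 (.p (nat_lit 0x21ce61c702) (nat_lit 0x340d89ca4000400040600) (nat_lit 49)))
 (.p (nat_lit 0x422a42264224422242200257422907) (nat_lit 0x400612) (nat_lit 7)))
 (.n (.p (nat_lit 0x79e079a079807960794247106) (nat_lit 0x8000002b03) (nat_lit 52))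
 (.p (nat_lit 0x36d439ad02) (nat_lit 0x30022d) (nat_lit 4))))
 (.n (.n (.p (nat_lit 0x215b1e9302) (nat_lit 0x300a00) (nat_lit 15))
 (.p (nat_lit 0x3d043fc102) (nat_lit 0x240020) (nat_lit 4)))
 (.n (.p (nat_lit 0xf6a050d02) (nat_lit 0x140307) (nat_lit 5))
 (.p (nat_lit 0x5cc11ad702) (nat_lit 0x2c0020000800) (nat_lit 38)))))
 (.n (.n (.n (.p (nat_lit 0x135813561354134e10c710c506) (nat_lit 0x3000014500) (nat_lit 51))
 (.p (nat_lit 0x4313427902) (nat_lit 0x240619) (nat_lit 15)))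
 (.n (.p (nat_lit 0x1291128502) (nat_lit 0x44c405) (nat_lit 16))
 (.p (nat_lit 0x5d11063902) (nat_lit 0xc0040000000) (nat_lit 39))))
 (.n (.n (.p (nat_lit 0xb6c19bb02) (nat_lit 0x100202) (nat_lit 5))
 (.p (nat_lit 0x374e38a502) (nat_lit 0x40226) (nat_lit 5)))
 (.n (.p (nat_lit 0x49b843eb02) (nat_lit 0x44060c) (nat_lit 4))
 (.p (nat_lit 0x15385fcf02) (nat_lit 0x9582ec05000000000600) (nat_lit 49))))))
 (.n (.n (.n (.n (.p (nat_lit 0xc8c0c880c860c8209d509cf06) (nat_lit 0x90000d6200) (nat_lit 52))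
 (.p (nat_lit 0x17c917bd02) (nat_lit 0x348615) (nat_lit 16)))
 (.n (.p (nat_lit 0x194d168102) (nat_lit 0x604) (nat_lit 15))
 (.p (nat_lit 0x11559c502) (nat_lit 0x100106) (nat_lit 28))))
 (.n (.n (.p (nat_lit 0x29a829a629a429a229a0299e003607) (nat_lit 0x40401) (nat_lit 8))
 (.p (nat_lit 0x364109e702) (nat_lit 0x150123) (nat_lit 16)))
 (.n (.p (nat_lit 0x2b992b8d02) (nat_lit 0x204908) (nat_lit 16))
 (.p (nat_lit 0x5ec0231902) (nat_lit 0xa004eb00) (nat_lit 47)))))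
 (.n (.n (.n (.p (nat_lit 0x1a97179d02) (nat_lit 0x546700) (nat_lit 16))
 (.p (nat_lit 0x17c40edb02) (nat_lit 0x14061c) (nat_lit 4)))
 (.n (.p (nat_lit 0x128a23b702) (nat_lit 0x140406) (nat_lit 5))
 (.p (nat_lit 0x5e1c50c502) (nat_lit 0x80056400) (nat_lit 47))))
 (.n (.n (.p (nat_lit 0x604343302) (nat_lit 0x3) (nat_lit 29))
 (.p (nat_lit 0x1150114e114c114811460cb706) (nat_lit 0x20000c822a) (nat_lit 51)))
 (.n (.p (nat_lit 0x1d4a082b02) (nat_lit 0x54080e) (nat_lit 4))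
 (.p (nat_lit 0x8f260d102) (nat_lit 0x35052a3a4000100040000) (nat_lit 49))))))

def c512_188 : Tr := .n c1024_188 c1024_700

def c1024_444 : Tr :=
 .n (.n (.n (.n (.n (.n (.p (nat_lit 0x28a02840282028d04) (nat_lit 0x13000400015) (nat_lit 17))
 (.p (nat_lit 0x16a6618902) (nat_lit 0x340b86c64000000040600) (nat_lit 50)))
 (.p (nat_lit 0x1d1a1d161d141d121d10397b06) (nat_lit 0x8000056411) (nat_lit 51)))
 (.n (.p (nat_lit 0x199e19981996199417ef17ed06) (nat_lit 0xc0000c0603) (nat_lit 52))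
 (.p (nat_lit 0x2c1c2ad102) (nat_lit 0x24092b) (nat_lit 4))))
 (.n (.n (.p (nat_lit 0x1fb01fae1fac1faa1d331d3106) (nat_lit 0x1800004c900) (nat_lit 51))
 (.p (nat_lit 0x3548377f02) (nat_lit 0x4001f) (nat_lit 5)))
 (.n (.p (nat_lit 0xe070b4102) (nat_lit 0x300207) (nat_lit 15))
 (.p (nat_lit 0x5d2b197702) (nat_lit 0x220060000700) (nat_lit 39)))))
 (.n (.n (.n (.p (nat_lit 0x11741170116e116c116a0f6506) (nat_lit 0x8000042400) (nat_lit 51))
 (.p (nat_lit 0x54ca54c854c654c454c254c002d807) (nat_lit 0x618) (nat_lit 8)))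
 (.n (.p (nat_lit 0xb96221d02) (nat_lit 0x400205) (nat_lit 4))
 (.p (nat_lit 0x5c0a5c085c065c045c0203a703ea07) (nat_lit 0x312b25) (nat_lit 25))))
 (.n (.n (.p (nat_lit 0x352c5902) (nat_lit 0x540a01) (nat_lit 30))
 (.p (nat_lit 0x2bc2297f02) (nat_lit 0x500924) (nat_lit 5)))
 (.n (.p (nat_lit 0x407c3cad02) (nat_lit 0x30040b) (nat_lit 4))
 (.p (nat_lit 0x2497248921d921d31f151f071c4f1c3b1983197516a716995f860d) (nat_lit 0x581a30344000000040600) (nat_lit 33))))))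
 (.n (.n (.n (.n (.p (nat_lit 0xa7e0a7c0a7a0a780a760a7406) (nat_lit 0x8200) (nat_lit 52))
 (.p (nat_lit 0x12a812a612a412a212a0139506) (nat_lit 0x1000000a515) (nat_lit 51)))
 (.n (.p (nat_lit 0x127812761274127200cc00bf00b5127b127109) (nat_lit 0x2840404) (nat_lit 10))
 (.p (nat_lit 0x5918591659125910590e0147009207) (nat_lit 0x316003) (nat_lit 25))))
 (.n (.n (.p (nat_lit 0xa0016e302) (nat_lit 0x240101) (nat_lit 5))
 (.p (nat_lit 0x355d074902) (nat_lit 0x450023) (nat_lit 16)))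
 (.n (.p (nat_lit 0x14b51d702) (nat_lit 0x500b07) (nat_lit 30))
 (.p (nat_lit 0x5eaa21e302) (nat_lit 0xa0040a00) (nat_lit 46)))))
 (.n (.n (.n (.p (nat_lit 0x18f418f218f018ec162b162306) (nat_lit 0x11000096700) (nat_lit 51))
 (.p (nat_lit 0x28a09e302) (nat_lit 0x54011c) (nat_lit 1)))
 (.n (.p (nat_lit 0x8de24b302) (nat_lit 0x100106) (nat_lit 5))
 (.p (nat_lit 0x5d695e0702) (nat_lit 0x140080000300) (nat_lit 37))))
 (.n (.n (.p (nat_lit 0x181e181c181a18181816232506) (nat_lit 0x1000004ea02) (nat_lit 51))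
 (.p (nat_lit 0x44204590457141112bb05) (nat_lit 0x6a94012a) (nat_lit 9)))
 (.n (.p (nat_lit 0x662065e065c065814d114cb06) (nat_lit 0x900004450e) (nat_lit 51))
 (.p (nat_lit 0x13fc608b02) (nat_lit 0x354221ca4000500040000) (nat_lit 50))))))

def c1024_956 : Tr :=
 .n (.n (.n (.n (.n (.p (nat_lit 0x6920690068a06880653065106) (nat_lit 0x6000048000) (nat_lit 52))
 (.p (nat_lit 0x24062404240023fe23fc4e9d06) (nat_lit 0x4000012414) (nat_lit 51)))
 (.n (.p (nat_lit 0x6103c0702) (nat_lit 0x4) (nat_lit 29))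
 (.p (nat_lit 0x438429d02) (nat_lit 0x24062e) (nat_lit 1))))
 (.n (.n (.p (nat_lit 0x23311ffd02) (nat_lit 0x550a00) (nat_lit 16))
 (.p (nat_lit 0x449e471902) (nat_lit 0x140021) (nat_lit 4)))
 (.n (.p (nat_lit 0x14e0159015d0529069b05) (nat_lit 0xa0b40407) (nat_lit 9))
 (.p (nat_lit 0x5cbb1f0502) (nat_lit 0x20000000900) (nat_lit 39)))))
 (.n (.n (.n (.p (nat_lit 0x1550154502) (nat_lit 0x200600) (nat_lit 5))
 (.p (nat_lit 0x4f2e4d1502) (nat_lit 0x14041b) (nat_lit 5)))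
 (.n (.p (nat_lit 0x1960195e195c195a195800ed196307) (nat_lit 0x500705) (nat_lit 7))
 (.p (nat_lit 0x5d2f5dd302) (nat_lit 0x1e0060000100) (nat_lit 36))))
 (.n (.n (.p (nat_lit 0x31883186318431823180317e006407) (nat_lit 0x502) (nat_lit 8))
 (.p (nat_lit 0x42a1429502) (nat_lit 0x440627) (nat_lit 16)))
 (.n (.p (nat_lit 0xe0c52c902) (nat_lit 0x30e) (nat_lit 29))
 (.p (nat_lit 0x1536600f02) (nat_lit 0x405aa0b94800000000600) (nat_lit 49))))))
 (.n (.n (.n (.n (.p (nat_lit 0xe3f0b3102) (nat_lit 0x110300) (nat_lit 16))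
 (.p (nat_lit 0x217e0c6702) (nat_lit 0x300a15) (nat_lit 5)))
 (.n (.p (nat_lit 0x1b9a1b981b961b921957194f06) (nat_lit 0x11000014704) (nat_lit 52))
 (.p (nat_lit 0x1e75a6f02) (nat_lit 0x30e) (nat_lit 28))))
 (.n (.n (.p (nat_lit 0x2b391c1d02) (nat_lit 0x30a801) (nat_lit 16))
 (.p (nat_lit 0x193811b102) (nat_lit 0x200723) (nat_lit 4)))
 (.n (.p (nat_lit 0x6620660065c065a0658332906) (nat_lit 0x4000004a09) (nat_lit 51))
 (.p (nat_lit 0x20765f0d02) (nat_lit 0x3a2530344000400000600) (nat_lit 50)))))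
 (.n (.n (.n (.p (nat_lit 0x901a6702) (nat_lit 0x540800) (nat_lit 1))
 (.p (nat_lit 0x218d1ec502) (nat_lit 0x40091c) (nat_lit 15)))
 (.n (.p (nat_lit 0x1c3423eb02) (nat_lit 0x300806) (nat_lit 4))
 (.p (nat_lit 0x5d995e3502) (nat_lit 0x1400a0000500) (nat_lit 36))))
 (.n (.n (.p (nat_lit 0x368836863684368236800b8106) (nat_lit 0x1000008a203) (nat_lit 51))
 (.p (nat_lit 0x2aca2ac82ac62ac22ac0166d06) (nat_lit 0x200001262a) (nat_lit 52)))
 (.n (.p (nat_lit 0x28442842283e283c283a28db06) (nat_lit 0x400008a30f) (nat_lit 52))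
 (.p (nat_lit 0x648611302) (nat_lit 0x34252a1b0000000040000) (nat_lit 50))))))

def c512_444 : Tr := .n c1024_444 c1024_956

def c256_188 : Tr := .n c512_188 c512_444

def c128_60 : Tr := .n c256_60 c256_188

def c1024_124 : Tr :=
 .n (.n (.n (.n (.n (.n (.p (nat_lit 0x7d0077006603) (nat_lit 0x61100002) (nat_lit 19))
 (.p (nat_lit 0x634613f02) (nat_lit 0x352a21d84000000040000) (nat_lit 49)))
 (.p (nat_lit 0x30a02dc702) (nat_lit 0x540310) (nat_lit 4)))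
 (.n (.p (nat_lit 0x38b838b638b238b01111110f06) (nat_lit 0x6000094403) (nat_lit 52))
 (.p (nat_lit 0x1edc581d02) (nat_lit 0x40092a) (nat_lit 29))))
 (.n (.n (.p (nat_lit 0x1d871a6702) (nat_lit 0x54c800) (nat_lit 16))
 (.p (nat_lit 0x25900deb02) (nat_lit 0x140b1c) (nat_lit 4)))
 (.n (.p (nat_lit 0x197a19781974197219701d9b06) (nat_lit 0x40000ce806) (nat_lit 52))
 (.p (nat_lit 0x5d45154702) (nat_lit 0x80060000600) (nat_lit 40)))))
 (.n (.n (.n (.p (nat_lit 0xf810c8f02) (nat_lit 0x4a300) (nat_lit 16))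
 (.p (nat_lit 0x2b1627dd02) (nat_lit 0x100816) (nat_lit 4)))
 (.n (.p (nat_lit 0x212c212a212821262124247f06) (nat_lit 0x1000000eb04) (nat_lit 52))
 (.p (nat_lit 0x2880286028402800003031106) (nat_lit 0xd0a415) (nat_lit 26))))
 (.n (.n (.p (nat_lit 0x16aa16a816a616a41eeb1ee906) (nat_lit 0x1800008c901) (nat_lit 51))
 (.p (nat_lit 0x40d240ce40cc40ca40c81ed106) (nat_lit 0x800008c923) (nat_lit 51)))
 (.n (.p (nat_lit 0x1c641c621c601c5e3865386306) (nat_lit 0x180000c030a) (nat_lit 52))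
 (.p (nat_lit 0x20785f3702) (nat_lit 0x3a6560c44000400000600) (nat_lit 50))))))
 (.n (.n (.n (.n (.p (nat_lit 0x7e607e407e007de07dc05c306) (nat_lit 0x400000a100) (nat_lit 51))
 (.p (nat_lit 0x72a0a6b02) (nat_lit 0x140015) (nat_lit 5)))
 (.n (.p (nat_lit 0x3de90a2302) (nat_lit 0x146104) (nat_lit 16))
 (.p (nat_lit 0x4a06492b02) (nat_lit 0x20072f) (nat_lit 5))))
 (.n (.n (.p (nat_lit 0x22c0248702) (nat_lit 0x340b00) (nat_lit 4))
 (.p (nat_lit 0x4c02564f02) (nat_lit 0x100122) (nat_lit 29)))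
 (.n (.p (nat_lit 0x1a68518502) (nat_lit 0x40707) (nat_lit 29))
 (.p (nat_lit 0x5d751f0d02) (nat_lit 0x80080000900) (nat_lit 39)))))
 (.n (.n (.n (.p (nat_lit 0x3416bb02) (nat_lit 0x540600) (nat_lit 1))
 (.p (nat_lit 0x1db61db41db21dae1dac05d906) (nat_lit 0x200001201c) (nat_lit 51)))
 (.n (.p (nat_lit 0x19821980197e197c1ac71ac506) (nat_lit 0x180000ce705) (nat_lit 51))
 (.p (nat_lit 0x5de2087f02) (nat_lit 0x20008200) (nat_lit 48))))
 (.n (.n (.p (nat_lit 0x20561a2502) (nat_lit 0x240902) (nat_lit 5))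
 (.p (nat_lit 0x4a50483b02) (nat_lit 0x440728) (nat_lit 4)))
 (.n (.p (nat_lit 0xfea0fe60fe40fe20fe010e306) (nat_lit 0x800000840e) (nat_lit 51))
 (.p (nat_lit 0x113a603902) (nat_lit 0x4a8162340800400040000) (nat_lit 49))))))

def c1024_636 : Tr :=
 .n (.n (.n (.n (.n (.n (.p (nat_lit 0x43c04380436044104) (nat_lit 0xb00040002a) (nat_lit 17))
 (.p (nat_lit 0xbb461bb02) (nat_lit 0x322266c15000200040000) (nat_lit 50)))
 (.p (nat_lit 0x1fd81fd61fd21fd01fce410706) (nat_lit 0x40000ce412) (nat_lit 52)))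
 (.n (.p (nat_lit 0x1e5a1e581e541e521e50232d06) (nat_lit 0x40000cca03) (nat_lit 51))
 (.p (nat_lit 0x340431d902) (nat_lit 0x100b2c) (nat_lit 4))))
 (.n (.n (.p (nat_lit 0x211421122110210c1e971e8f06) (nat_lit 0x1100000ca00) (nat_lit 52))
 (.p (nat_lit 0x3be4385102) (nat_lit 0x140b1f) (nat_lit 5)))
 (.n (.p (nat_lit 0x181e181c181a181818160e0b06) (nat_lit 0x1000000e307) (nat_lit 51))
 (.p (nat_lit 0x5e6838df02) (nat_lit 0x2800) (nat_lit 47)))))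
 (.n (.n (.n (.p (nat_lit 0x12ce12cc12ca12c612c410c706) (nat_lit 0x2000004500) (nat_lit 52))
 (.p (nat_lit 0x3cf7420502) (nat_lit 0x140519) (nat_lit 15)))
 (.n (.p (nat_lit 0x1126477302) (nat_lit 0x200405) (nat_lit 29))
 (.p (nat_lit 0x5dae089502) (nat_lit 0x8000) (nat_lit 47))))
 (.n (.n (.p (nat_lit 0x2dde2dda2dd82dd62dd408b506) (nat_lit 0x8000088102) (nat_lit 51))
 (.p (nat_lit 0x363e388f02) (nat_lit 0x40126) (nat_lit 5)))
 (.n (.p (nat_lit 0x475243d102) (nat_lit 0x24030c) (nat_lit 5))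
 (.p (nat_lit 0x20705fc302) (nat_lit 0x89832915800400000600) (nat_lit 49))))))
 (.n (.n (.n (.n (.p (nat_lit 0xbe00bdc0bd80bd609d509d106) (nat_lit 0xa000048200) (nat_lit 51))
 (.p (nat_lit 0x16480c0b02) (nat_lit 0x200615) (nat_lit 4)))
 (.n (.p (nat_lit 0xbb00bae0baa0ba80ba6168706) (nat_lit 0x4000084604) (nat_lit 52))
 (.p (nat_lit 0xec00ea00e800e20003040d06) (nat_lit 0xa0e405) (nat_lit 26))))
 (.n (.n (.p (nat_lit 0xf9215a502) (nat_lit 0x340301) (nat_lit 4))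
 (.p (nat_lit 0x11441140113e113a09ed09e706) (nat_lit 0x90000c8123) (nat_lit 52)))
 (.n (.p (nat_lit 0x2d402d3e2d3c2d3a2d382afd06) (nat_lit 0x800086808) (nat_lit 52))
 (.p (nat_lit 0x5d5d5ebd02) (nat_lit 0x200080000b00) (nat_lit 37)))))
 (.n (.n (.n (.p (nat_lit 0x1a401a3e1a3a1a38179d179706) (nat_lit 0x120000d4700) (nat_lit 52))
 (.p (nat_lit 0x102410221020101e101c14eb06) (nat_lit 0x1000004451c) (nat_lit 51)))
 (.n (.p (nat_lit 0x4df44dee4dec4dea0fd10fcf06) (nat_lit 0xc0000c0306) (nat_lit 52))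
 (.p (nat_lit 0x5e18335902) (nat_lit 0x6000e400) (nat_lit 47))))
 (.n (.n (.p (nat_lit 0x25bc25ba25b625b425b2005f25b907) (nat_lit 0x340b02) (nat_lit 7))
 (.p (nat_lit 0xe210b5b02) (nat_lit 0x40022a) (nat_lit 15)))
 (.n (.p (nat_lit 0x1be2081d02) (nat_lit 0x40080e) (nat_lit 4))
 (.p (nat_lit 0x1f1a60b302) (nat_lit 0x350521a84000300040600) (nat_lit 50))))))

def c512_124 : Tr := .n c1024_124 c1024_636

def c1024_380 : Tr :=
 .n (.n (.n (.n (.n (.n (.p (nat_lit 0x1ca01c801c601d104) (nat_lit 0x700040000c) (nat_lit 17))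
 (.p (nat_lit 0x12ab12970fe10fdb0d170d0f0a530a4f07a7079504d704c761780d) (nat_lit 0x521a86b11000000000000) (nat_lit 33)))
 (.p (nat_lit 0x1c741c721c701c6a38e338e106) (nat_lit 0x3000002411) (nat_lit 52)))
 (.n (.p (nat_lit 0x3a9d167b02) (nat_lit 0x302603) (nat_lit 16))
 (.p (nat_lit 0x2b342ab102) (nat_lit 0x10082b) (nat_lit 4))))
 (.n (.n (.p (nat_lit 0x1f1b1f0f02) (nat_lit 0x540900) (nat_lit 34))
 (.p (nat_lit 0x339e2ff902) (nat_lit 0x240a1e) (nat_lit 4)))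
 (.n (.p (nat_lit 0xb440b420b3e0b3c0b3a01470b4107) (nat_lit 0x300207) (nat_lit 7))
 (.p (nat_lit 0x5d11198102) (nat_lit 0xc0040000700) (nat_lit 41)))))
 (.n (.n (.n (.p (nat_lit 0x11270df902) (nat_lit 0x214400) (nat_lit 16))
 (.p (nat_lit 0x38f236f902) (nat_lit 0x400418) (nat_lit 5)))
 (.n (.p (nat_lit 0x8da220702) (nat_lit 0x500105) (nat_lit 5))
 (.p (nat_lit 0x3a603a403a203a0030f000b06) (nat_lit 0x2504123) (nat_lit 26))))
 (.n (.n (.p (nat_lit 0x23be23bc23b823b621af21a906) (nat_lit 0x4800088a01) (nat_lit 51))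
 (.p (nat_lit 0x27b229c702) (nat_lit 0x440124) (nat_lit 4)))
 (.n (.p (nat_lit 0x467b3f1502) (nat_lit 0x35620b) (nat_lit 16))
 (.p (nat_lit 0x13f45f7702) (nat_lit 0x3aa074b50000500040000) (nat_lit 49))))))
 (.n (.n (.n (.n (.p (nat_lit 0xa3f072302) (nat_lit 0x356100) (nat_lit 16))
 (.p (nat_lit 0x542e542c542a542854265424028c07) (nat_lit 0x515) (nat_lit 8)))
 (.n (.p (nat_lit 0x111c1e1b02) (nat_lit 0x300404) (nat_lit 4))
 (.p (nat_lit 0x5958ed02) (nat_lit 0x502) (nat_lit 28))))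
 (.n (.n (.p (nat_lit 0x26ae26ac26aa26a8074f074d06) (nat_lit 0x18000d2001) (nat_lit 52))
 (.p (nat_lit 0x438074502) (nat_lit 0x240023) (nat_lit 1)))
 (.n (.p (nat_lit 0x22c8059b02) (nat_lit 0x140a07) (nat_lit 5))
 (.p (nat_lit 0x5d6f5ea502) (nat_lit 0xe0080000a00) (nat_lit 36)))))
 (.n (.n (.n (.p (nat_lit 0x18ba18b618b418b218b0162906) (nat_lit 0x8000012700) (nat_lit 52))
 (.p (nat_lit 0xab80ab60ab40ab20887087d06) (nat_lit 0x1080008c11c) (nat_lit 51)))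
 (.n (.p (nat_lit 0x630235302) (nat_lit 0x400006) (nat_lit 4))
 (.p (nat_lit 0x5dfc0b4b02) (nat_lit 0x4000a300) (nat_lit 48))))
 (.n (.n (.p (nat_lit 0x2324337502) (nat_lit 0x540a02) (nat_lit 29))
 (.p (nat_lit 0x89e089c089608940458043b0439089b089909) (nat_lit 0x1a0012a) (nat_lit 10)))
 (.n (.p (nat_lit 0x67a0678067606720670138306) (nat_lit 0x200000650e) (nat_lit 51))
 (.p (nat_lit 0x2346607902) (nat_lit 0x4688ae154000500000600) (nat_lit 50))))))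

def c1024_892 : Tr :=
 .n (.n (.n (.n (.n (.p (nat_lit 0x144065102) (nat_lit 0x240000) (nat_lit 1))
 (.p (nat_lit 0x7da07d807d607d407d24a2506) (nat_lit 0x8000c8713) (nat_lit 51)))
 (.n (.p (nat_lit 0x154a154815441542154025c506) (nat_lit 0x400004cb03) (nat_lit 51))
 (.p (nat_lit 0x1e4e1e4c1e4a1e481e443f2706) (nat_lit 0x100004c22e) (nat_lit 52))))
 (.n (.n (.p (nat_lit 0x22b822b622b422b222b022ae06) (nat_lit 0xd0a00) (nat_lit 52))
 (.p (nat_lit 0x4348400702) (nat_lit 0x200b20) (nat_lit 5)))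
 (.n (.p (nat_lit 0x14221420141e141c141a10d906) (nat_lit 0x10000004407) (nat_lit 51))
 (.p (nat_lit 0x5dad1adf02) (nat_lit 0xa0000800) (nat_lit 38)))))
 (.n (.n (.n (.p (nat_lit 0x653122302) (nat_lit 0x340500) (nat_lit 15))
 (.p (nat_lit 0x49e6466302) (nat_lit 0x30071a) (nat_lit 4)))
 (.n (.p (nat_lit 0x180249a902) (nat_lit 0x240605) (nat_lit 29))
 (.p (nat_lit 0x5dca0c9d02) (nat_lit 0x2004a100) (nat_lit 48))))
 (.n (.n (.p (nat_lit 0x1102188502) (nat_lit 0x200402) (nat_lit 4))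
 (.p (nat_lit 0x3e74403f02) (nat_lit 0x227) (nat_lit 5)))
 (.n (.p (nat_lit 0x5040503e503c503a503801e3504307) (nat_lit 0x50080d) (nat_lit 7))
 (.p (nat_lit 0x6345ffb02) (nat_lit 0x16a88cd50000000040000) (nat_lit 49))))))
 (.n (.n (.n (.n (.p (nat_lit 0xdaa0da80da60da40da20da006) (nat_lit 0x90300) (nat_lit 51))
 (.p (nat_lit 0x289548102) (nat_lit 0x400915) (nat_lit 30)))
 (.n (.p (nat_lit 0x194e42a702) (nat_lit 0x100704) (nat_lit 29))
 (.p (nat_lit 0x1a201a0019e01980145008906) (nat_lit 0x111630a) (nat_lit 26))))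
 (.n (.n (.p (nat_lit 0x1c201c1c1c181c16004e0033002f1c1f1c1b09) (nat_lit 0x2200801) (nat_lit 10))
 (.p (nat_lit 0x1660119f02) (nat_lit 0x200623) (nat_lit 5)))
 (.n (.p (nat_lit 0x3166520902) (nat_lit 0x40409) (nat_lit 29))
 (.p (nat_lit 0x181c5ef102) (nat_lit 0x4a1d22344000100000600) (nat_lit 50)))))
 (.n (.n (.n (.p (nat_lit 0x1bf318f902) (nat_lit 0x6800) (nat_lit 16))
 (.p (nat_lit 0x1d600da902) (nat_lit 0x44081c) (nat_lit 5)))
 (.n (.p (nat_lit 0x11b4ffb02) (nat_lit 0x440706) (nat_lit 30))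
 (.p (nat_lit 0x5e2c429f02) (nat_lit 0x60052500) (nat_lit 48))))
 (.n (.n (.p (nat_lit 0x35e035de35dc35da35d835d600940a1f0a170a150a) (nat_lit 0x14840103) (nat_lit 31))
 (.p (nat_lit 0x10020ffe0ffc0ffa0f890f8106) (nat_lit 0x88000c032a) (nat_lit 52)))
 (.n (.p (nat_lit 0x4be64be44be24be04bde242306) (nat_lit 0x100008eb0e) (nat_lit 52))
 (.p (nat_lit 0xbb260fb02) (nat_lit 0x460d623a4000200040000) (nat_lit 50))))))

def c512_380 : Tr := .n c1024_380 c1024_892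

def c256_124 : Tr := .n c512_124 c512_380

def c1024_252 : Tr :=
 .n (.n (.n (.n (.n (.n (.p (nat_lit 0xe800e600f103) (nat_lit 0x6000500005) (nat_lit 17))
 (.p (nat_lit 0x1c3c615b02) (nat_lit 0x3503a8d64000200040600) (nat_lit 49)))
 (.p (nat_lit 0x332e2e8b02) (nat_lit 0xa10) (nat_lit 4)))
 (.n (.p (nat_lit 0x13cf13c302) (nat_lit 0x414503) (nat_lit 16))
 (.p (nat_lit 0x490c4908490649044902230b06) (nat_lit 0x80000c4a2a) (nat_lit 52))))
 (.n (.n (.p (nat_lit 0x1e641e621e5e1e5c1bcd1bc706) (nat_lit 0x1200000e900) (nat_lit 51))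
 (.p (nat_lit 0x2c7228c502) (nat_lit 0x240a1d) (nat_lit 4)))
 (.n (.p (nat_lit 0x22942290228c228a1f011efd06) (nat_lit 0xa00000e906) (nat_lit 51))
 (.p (nat_lit 0x5cbb197d02) (nat_lit 0x20000000700) (nat_lit 41)))))
 (.n (.n (.n (.p (nat_lit 0x10181016101410100dff0df706) (nat_lit 0x11000082400) (nat_lit 51))
 (.p (nat_lit 0x32ac2f0102) (nat_lit 0x300917) (nat_lit 4)))
 (.n (.p (nat_lit 0x438f25d302) (nat_lit 0x446b04) (nat_lit 16))
 (.p (nat_lit 0x2825b7d02) (nat_lit 0x10011c) (nat_lit 27))))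
 (.n (.n (.p (nat_lit 0x1150114e114c11481146204b06) (nat_lit 0x20000c8901) (nat_lit 51))
 (.p (nat_lit 0x244e10b502) (nat_lit 0x500b23) (nat_lit 4)))
 (.n (.p (nat_lit 0x3aec352302) (nat_lit 0x500a0a) (nat_lit 4))
 (.p (nat_lit 0x1aea5f5b02) (nat_lit 0x1a2276350000200000600) (nat_lit 50))))))
 (.n (.n (.n (.n (.p (nat_lit 0x91409120910090e0727071d06) (nat_lit 0x108000c6100) (nat_lit 51))
 (.p (nat_lit 0xe9a0e980e940e9210ed10e706) (nat_lit 0x4800080415) (nat_lit 52)))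
 (.n (.p (nat_lit 0x3ee03ede3eda3ed83ed60ce906) (nat_lit 0x400004c204) (nat_lit 52))
 (.p (nat_lit 0x31588f02) (nat_lit 0x300101) (nat_lit 28))))
 (.n (.n (.p (nat_lit 0x257122c102) (nat_lit 0x340b00) (nat_lit 16))
 (.p (nat_lit 0x50ba4e1902) (nat_lit 0x540822) (nat_lit 4)))
 (.n (.p (nat_lit 0x1d3e51a702) (nat_lit 0x540807) (nat_lit 29))
 (.p (nat_lit 0x5ce9206d02) (nat_lit 0x40020000a00) (nat_lit 38)))))
 (.n (.n (.n (.p (nat_lit 0x1790178c178a178616b916b306) (nat_lit 0x90000d4600) (nat_lit 52))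
 (.p (nat_lit 0x1aea1ae81ae61ae41ae2073506) (nat_lit 0x80005001c) (nat_lit 51)))
 (.n (.p (nat_lit 0x1fee1fec1fea1fe61c2d1c2506) (nat_lit 0x11000096805) (nat_lit 51))
 (.p (nat_lit 0x5dee088502) (nat_lit 0x80008200) (nat_lit 48))))
 (.n (.n (.p (nat_lit 0xa5a0a580a560a540a5221b506) (nat_lit 0x800004a02) (nat_lit 51))
 (.p (nat_lit 0x4ff04e7d02) (nat_lit 0x500729) (nat_lit 5)))
 (.n (.p (nat_lit 0xfde0fdc0fda0fd80fd6123506) (nat_lit 0x80004840e) (nat_lit 52))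
 (.p (nat_lit 0x1548605d02) (nat_lit 0x506272b31000000000600) (nat_lit 50))))))

def c1024_764 : Tr :=
 .n (.n (.n (.n (.n (.n (.p (nat_lit 0x5060504050004fe04e504df06) (nat_lit 0x12000006000) (nat_lit 52))
 (.p (nat_lit 0x234861d702) (nat_lit 0x542266c0c800500000600) (nat_lit 50)))
 (.p (nat_lit 0x4378437643744370436e0253437307) (nat_lit 0x240b12) (nat_lit 7)))
 (.n (.p (nat_lit 0x1c501c4c1c4a1c462471246b06) (nat_lit 0x9000090b03) (nat_lit 51))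
 (.p (nat_lit 0x387239b702) (nat_lit 0x44032d) (nat_lit 5))))
 (.n (.n (.p (nat_lit 0x1ff421cf02) (nat_lit 0x140a00) (nat_lit 4))
 (.p (nat_lit 0x3df03dec3de83de6037e036b03673def3deb09) (nat_lit 0x2240120) (nat_lit 10)))
 (.n (.p (nat_lit 0x197a19761974197219700f7106) (nat_lit 0x80000ce307) (nat_lit 52))
 (.p (nat_lit 0x5d415e7502) (nat_lit 0xc0060000800) (nat_lit 37)))))
 (.n (.n (.n (.p (nat_lit 0x13e710cb02) (nat_lit 0x416500) (nat_lit 16))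
 (.p (nat_lit 0x453645344532452e440d440506) (nat_lit 0x1100008601a) (nat_lit 51)))
 (.n (.p (nat_lit 0x152615241522151c00fe00e700e51521151f09) (nat_lit 0x1140505) (nat_lit 10))
 (.p (nat_lit 0x5d715dc102) (nat_lit 0xc0080000000) (nat_lit 36))))
 (.n (.n (.p (nat_lit 0x2f8a2f882f842f822f800cd106) (nat_lit 0x40000d4202) (nat_lit 51))
 (.p (nat_lit 0x3ba43ba03b9e3b9c3b9a03f53ba307) (nat_lit 0x400b26) (nat_lit 7)))
 (.n (.p (nat_lit 0x4cf0528d02) (nat_lit 0x20d) (nat_lit 29))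
 (.p (nat_lit 0x1ada5fdd02) (nat_lit 0x3842a1c35000200000600) (nat_lit 49))))))
 (.n (.n (.n (.n (.p (nat_lit 0xb380b360b340b320b3000010b2f07) (nat_lit 0x300) (nat_lit 7))
 (.p (nat_lit 0x2bc1a8102) (nat_lit 0x40715) (nat_lit 1)))
 (.n (.p (nat_lit 0x4c804c604c404c217fd17fb06) (nat_lit 0x18000040604) (nat_lit 52))
 (.p (nat_lit 0x11c01180116011400e3000906) (nat_lit 0x412806) (nat_lit 26))))
 (.n (.n (.p (nat_lit 0x13aa15c902) (nat_lit 0x400501) (nat_lit 5))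
 (.p (nat_lit 0xd580d560d520d500d4e0b4d06) (nat_lit 0x400000a223) (nat_lit 52)))
 (.n (.p (nat_lit 0x2f8e2c9b02) (nat_lit 0x140209) (nat_lit 4))
 (.p (nat_lit 0x23465ed302) (nat_lit 0x4a1a36344000500000600) (nat_lit 50)))))
 (.n (.n (.n (.p (nat_lit 0x1b021afc1afa1af8190118ff06) (nat_lit 0xc000080800) (nat_lit 51))
 (.p (nat_lit 0x3088308630823080307e192f06) (nat_lit 0x400001671c) (nat_lit 51)))
 (.n (.p (nat_lit 0x13e6251302) (nat_lit 0x400506) (nat_lit 4))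
 (.p (nat_lit 0x5c8f5e2502) (nat_lit 0x2e0000000500) (nat_lit 37))))
 (.n (.n (.p (nat_lit 0x8f34d302) (nat_lit 0x440003) (nat_lit 30))
 (.p (nat_lit 0x2fad0cbb02) (nat_lit 0x44e22a) (nat_lit 16)))
 (.n (.p (nat_lit 0x1eb71eab02) (nat_lit 0x30690e) (nat_lit 16))
 (.p (nat_lit 0xe7c60db02) (nat_lit 0x340a621b0000300040000) (nat_lit 50))))))

def c512_252 : Tr := .n c1024_252 c1024_764

def c1024_508 : Tr :=
 .n (.n (.n (.n (.n (.n (.p (nat_lit 0x30a0306031503) (nat_lit 0x280050001c) (nat_lit 17))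
 (.p (nat_lit 0x64a619d02) (nat_lit 0x380aa5c14800000040000) (nat_lit 50)))
 (.p (nat_lit 0x3b7c53cb02) (nat_lit 0x300b11) (nat_lit 29)))
 (.n (.p (nat_lit 0x21ca21c821c421c221c0008d21c707) (nat_lit 0x300a03) (nat_lit 7))
 (.p (nat_lit 0x1a2a1a281a241a221a202fab06) (nat_lit 0x40000d222c) (nat_lit 51))))
 (.n (.n (.p (nat_lit 0x1ffb1d3102) (nat_lit 0x440900) (nat_lit 15))
 (.p (nat_lit 0x363a379302) (nat_lit 0x44011f) (nat_lit 5)))
 (.n (.p (nat_lit 0x9220920091c091a09180ca106) (nat_lit 0x4000048207) (nat_lit 51))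
 (.p (nat_lit 0x5d5b181302) (nat_lit 0x220080000700) (nat_lit 38)))))
 (.n (.n (.n (.p (nat_lit 0x121a1216121412120f650f5d06) (nat_lit 0x88000d6400) (nat_lit 51))
 (.p (nat_lit 0xaa20aa00a9e0a9a0a983b8706) (nat_lit 0x200008ab18) (nat_lit 51)))
 (.n (.p (nat_lit 0x4666466446624660465e465c06) (nat_lit 0x4e205) (nat_lit 52))
 (.p (nat_lit 0x43f5c4302) (nat_lit 0x50062a) (nat_lit 28))))
 (.n (.n (.p (nat_lit 0x600182b02) (nat_lit 0x400002) (nat_lit 5))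
 (.p (nat_lit 0x2ebe30c902) (nat_lit 0x240125) (nat_lit 5)))
 (.n (.p (nat_lit 0x660065e065c065a0658426706) (nat_lit 0x1000004460b) (nat_lit 51))
 (.p (nat_lit 0x64a5f9702) (nat_lit 0x88bb0155800000040000) (nat_lit 50))))))
 (.n (.n (.n (.n (.p (nat_lit 0xaf20af00aee0aec0873087106) (nat_lit 0x1800012200) (nat_lit 52))
 (.p (nat_lit 0x31f7139502) (nat_lit 0x50e515) (nat_lit 16)))
 (.n (.p (nat_lit 0x412a41284124412213cf13cb06) (nat_lit 0xa000082504) (nat_lit 52))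
 (.p (nat_lit 0x90008a008800860009005f06) (nat_lit 0x2316603) (nat_lit 26))))
 (.n (.n (.p (nat_lit 0xb68158502) (nat_lit 0x500201) (nat_lit 4))
 (.p (nat_lit 0x140013fe13fc13fa13f8088906) (nat_lit 0x80008a123) (nat_lit 51)))
 (.n (.p (nat_lit 0x16f51e502) (nat_lit 0x208) (nat_lit 30))
 (.p (nat_lit 0x5ccd5eb102) (nat_lit 0x200020000b00) (nat_lit 37)))))
 (.n (.n (.n (.p (nat_lit 0x1792197d02) (nat_lit 0x40700) (nat_lit 5))
 (.p (nat_lit 0x314031d03290eb70d5105) (nat_lit 0x6290051c) (nat_lit 9)))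
 (.n (.p (nat_lit 0xa400a3e0a3c0a3a0a38011d0a4307) (nat_lit 0x540106) (nat_lit 7))
 (.p (nat_lit 0x5cb75e0b02) (nat_lit 0x60000000400) (nat_lit 36))))
 (.n (.n (.p (nat_lit 0x33c833c633c433c233c033be006407) (nat_lit 0xb02) (nat_lit 8))
 (.p (nat_lit 0x6c806c606c406c009f509f106) (nat_lit 0x280005012a) (nat_lit 51)))
 (.n (.p (nat_lit 0x210163f02) (nat_lit 0x30060e) (nat_lit 1))
 (.p (nat_lit 0x1984609702) (nat_lit 0x344580ca4000100040600) (nat_lit 50))))))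

def c1024_1020 : Tr :=
 .n (.n (.n (.n (.n (.p (nat_lit 0x739065102) (nat_lit 0x246000) (nat_lit 16))
 (.p (nat_lit 0x50104c6702) (nat_lit 0x440714) (nat_lit 5)))
 (.n (.p (nat_lit 0x7741dc902) (nat_lit 0x240004) (nat_lit 4))
 (.p (nat_lit 0x4524487102) (nat_lit 0x10012f) (nat_lit 4))))
 (.n (.n (.p (nat_lit 0x23d623d223d023ce215d215506) (nat_lit 0x880000eb00) (nat_lit 52))
 (.p (nat_lit 0x495e563d02) (nat_lit 0x440521) (nat_lit 29)))
 (.n (.p (nat_lit 0x2a07123302) (nat_lit 0x54c407) (nat_lit 16))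
 (.p (nat_lit 0x5cc91da302) (nat_lit 0x240020000900) (nat_lit 38)))))
 (.n (.n (.n (.p (nat_lit 0x15ee15ec15ea15e41551154f06) (nat_lit 0x3000090600) (nat_lit 52))
 (.p (nat_lit 0xa960a940a920a900a8c505306) (nat_lit 0x100000a81b) (nat_lit 52)))
 (.n (.p (nat_lit 0x207420722070206e206a195b06) (nat_lit 0x1000014705) (nat_lit 52))
 (.p (nat_lit 0x5da75dd902) (nat_lit 0x600a0000100) (nat_lit 37))))
 (.n (.n (.p (nat_lit 0x1500320102) (nat_lit 0x440502) (nat_lit 29))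
 (.p (nat_lit 0x44b2578302) (nat_lit 0x540028) (nat_lit 29)))
 (.n (.p (nat_lit 0xc8c0c8a0c880c860e0f0e0d06) (nat_lit 0x180009630e) (nat_lit 52))
 (.p (nat_lit 0xbb2601b02) (nat_lit 0x4099a2354800200040000) (nat_lit 50))))))
 (.n (.n (.n (.n (.p (nat_lit 0xe9a0e980e960e900c930c9106) (nat_lit 0x30000c0300) (nat_lit 52))
 (.p (nat_lit 0x22e60c7502) (nat_lit 0x440a15) (nat_lit 5)))
 (.n (.p (nat_lit 0x1ab61e6f02) (nat_lit 0x340704) (nat_lit 5))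
 (.p (nat_lit 0x1e75a9102) (nat_lit 0x70e) (nat_lit 28))))
 (.n (.n (.p (nat_lit 0x1a2a1a281a241a221a201d8306) (nat_lit 0x40000d2801) (nat_lit 51))
 (.p (nat_lit 0x1c081c061c041c001bfe03a51c0307) (nat_lit 0x200823) (nat_lit 7)))
 (.n (.p (nat_lit 0x33d233d033ce33cc33ca018f33d507) (nat_lit 0x500b09) (nat_lit 7))
 (.p (nat_lit 0x15485f1902) (nat_lit 0x1a2274b50000000000600) (nat_lit 50)))))
 (.n (.n (.n (.p (nat_lit 0x1cd21cd01ccc1cca1a631a5d06) (nat_lit 0x480004a800) (nat_lit 51))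
 (.p (nat_lit 0x30d558702) (nat_lit 0x300a1c) (nat_lit 30)))
 (.n (.p (nat_lit 0x181e181c181a181818161c3906) (nat_lit 0x1000000e806) (nat_lit 51))
 (.p (nat_lit 0x5c915e3902) (nat_lit 0x2c0000000600) (nat_lit 37))))
 (.n (.n (.p (nat_lit 0xe421b3902) (nat_lit 0x300303) (nat_lit 4))
 (.p (nat_lit 0x194a57fb02) (nat_lit 0x50072a) (nat_lit 29)))
 (.n (.p (nat_lit 0x2ae2270302) (nat_lit 0x54050f) (nat_lit 5))
 (.p (nat_lit 0x2080611d02) (nat_lit 0x35486a3a4000400000600) (nat_lit 50))))))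

def c512_508 : Tr := .n c1024_508 c1024_1020

def c256_252 : Tr := .n c512_252 c512_508

def c128_124 : Tr := .n c256_124 c256_252

def c64_60 : Tr := .n c128_60 c128_124

def c32_28 : Tr := .n c64_28 c64_60

def c16_12 : Tr := .n c32_12 c32_28

def b12 : Tr := c16_12

theorem hb4_12 : allp (tst G49 true (getA DT)) b12 = true := by decide +kernel

end Vale.Agent.P032.H437.Ev2
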