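import Vale.Agent.P032.H437.Ev2.T

namespace Vale.Agent.P032.H437.Ev2
open Vale.Agent.P032.H859.Rup Vale.Agent.P032.H437

def c1024_13 : Tr :=
 .n (.n (.n (.n (.n (.n (.p (nat_lit 0x270025001f001904) (nat_lit 0x571100000) (nat_lit 21))
 (.p (nat_lit 0x12a912990feb0fd70d130d0d0a550a4d07a7079f04d104c361240d) (nat_lit 0x45486a3a4000000000000) (nat_lit 33)))
 (.p (nat_lit 0x2b08270502) (nat_lit 0x80f) (nat_lit 4)))
 (.n (.p (nat_lit 0x37d037ce37ca37c837c60e4306) (nat_lit 0x4000096303) (nat_lit 52))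
 (.p (nat_lit 0x1c0f194502) (nat_lit 0x20072a) (nat_lit 15))))
 (.n (.n (.p (nat_lit 0x1cea1ce81ce41ce01a631a5f06) (nat_lit 0x500004c800) (nat_lit 52))
 (.p (nat_lit 0x4720471e471c471a4718218506) (nat_lit 0x800080a1c) (nat_lit 52)))
 (.n (.p (nat_lit 0x233c233a2338233423321c3306) (nat_lit 0x2000016806) (nat_lit 52))
 (.p (nat_lit 0x5ced16a702) (nat_lit 0x20000600) (nat_lit 41)))))
 (.n (.n (.n (.p (nat_lit 0xea60ea40e9e0e9c0c950c9306) (nat_lit 0x6000042300) (nat_lit 52))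
 (.p (nat_lit 0x258d22e902) (nat_lit 0x540a15) (nat_lit 15)))
 (.n (.p (nat_lit 0x1c5c1c581c561c541c521ab906) (nat_lit 0x8000040704) (nat_lit 52))
 (.p (nat_lit 0x2405aa502) (nat_lit 0x40080e) (nat_lit 27))))
 (.n (.n (.p (nat_lit 0x18ea18e818e618e01d811d7f06) (nat_lit 0x3000056801) (nat_lit 51))
 (.p (nat_lit 0x3918391639143912390e1c0106) (nat_lit 0x1000002823) (nat_lit 51)))
 (.n (.p (nat_lit 0x34222cef02) (nat_lit 0x440b09) (nat_lit 5))
 (.p (nat_lit 0x1da65f1b02) (nat_lit 0x3a2274b50000300000600) (nat_lit 49))))))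
 (.n (.n (.n (.n (.p (nat_lit 0x75d065102) (nat_lit 0x24e000) (nat_lit 16))
 (.p (nat_lit 0x504c4c7102) (nat_lit 0x400814) (nat_lit 5)))
 (.n (.p (nat_lit 0x77807760772077000da00bf00b9077b077509) (nat_lit 0x2a40004) (nat_lit 10))
 (.p (nat_lit 0x444444424440443e443c459b06) (nat_lit 0x800004612f) (nat_lit 51))))
 (.n (.n (.p (nat_lit 0x23ee23ec23ea23e823e6215506) (nat_lit 0x800010b00) (nat_lit 52))
 (.p (nat_lit 0x49f4473f02) (nat_lit 0x400721) (nat_lit 4)))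
 (.n (.p (nat_lit 0x1632053502) (nat_lit 0x300607) (nat_lit 4))
 (.p (nat_lit 0x5e843df502) (nat_lit 0x20048900) (nat_lit 47)))))
 (.n (.n (.n (.p (nat_lit 0x1606160416021600154f154d06) (nat_lit 0x1800092600) (nat_lit 51))
 (.p (nat_lit 0x50f84d3d02) (nat_lit 0x91b) (nat_lit 5)))
 (.n (.p (nat_lit 0x1c2d196302) (nat_lit 0x500705) (nat_lit 15))
 (.p (nat_lit 0x5d8b5ddb02) (nat_lit 0x2200a0000100) (nat_lit 36))))
 (.n (.n (.p (nat_lit 0x3256325432523250324e324c06) (nat_lit 0x54502) (nat_lit 52))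
 (.p (nat_lit 0x4518480702) (nat_lit 0x100128) (nat_lit 5)))
 (.n (.p (nat_lit 0xf7e0f7c0f7a0f780f7401e90f7707) (nat_lit 0x14030e) (nat_lit 7))
 (.p (nat_lit 0x207a601f02) (nat_lit 0x4099a2354800400000600) (nat_lit 50))))))

def c1024_525 : Tr :=
 .n (.n (.n (.n (.n (.n (.p (nat_lit 0x3250323031403) (nat_lit 0x21a0001c) (nat_lit 19))
 (.p (nat_lit 0xe7c619f02) (nat_lit 0x380aa5c15000300040000) (nat_lit 50)))
 (.p (nat_lit 0x7da07d607d407d207d03b7f06) (nat_lit 0x8000088b11) (nat_lit 51)))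
 (.n (.p (nat_lit 0x21c821c621c421c200a00091008721cb21c109) (nat_lit 0x2800a03) (nat_lit 10))
 (.p (nat_lit 0x3e2301902) (nat_lit 0x20032c) (nat_lit 1))))
 (.n (.n (.p (nat_lit 0x20231d2902) (nat_lit 0x46900) (nat_lit 16))
 (.p (nat_lit 0x3df1363d02) (nat_lit 0x55411f) (nat_lit 16)))
 (.n (.p (nat_lit 0x94409420940093c0ca50c9d06) (nat_lit 0x110000ca207) (nat_lit 52))
 (.p (nat_lit 0x5e60181302) (nat_lit 0x80000700) (nat_lit 45)))))
 (.n (.n (.n (.p (nat_lit 0x12390f6102) (nat_lit 0x242400) (nat_lit 16))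
 (.p (nat_lit 0xa660a640a620a5e0a5c3bdb06) (nat_lit 0x2000040b18) (nat_lit 51)))
 (.n (.p (nat_lit 0x3840e5502) (nat_lit 0x305) (nat_lit 1))
 (.p (nat_lit 0x43d5c5502) (nat_lit 0x40082a) (nat_lit 28))))
 (.n (.n (.p (nat_lit 0x2cdc2cda2cd82cd62cd405f906) (nat_lit 0x800094002) (nat_lit 51))
 (.p (nat_lit 0x2f98313302) (nat_lit 0x40225) (nat_lit 4)))
 (.n (.p (nat_lit 0x42b23c4302) (nat_lit 0x10070b) (nat_lit 4))
 (.p (nat_lit 0x1ae85f9b02) (nat_lit 0x88bb0155800200000600) (nat_lit 50))))))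
 (.n (.n (.n (.n (.p (nat_lit 0xb3b087102) (nat_lit 0x200) (nat_lit 16))
 (.p (nat_lit 0x14da0a9f02) (nat_lit 0x340515) (nat_lit 5)))
 (.n (.p (nat_lit 0x416441624160415c13d113c906) (nat_lit 0x1100008c504) (nat_lit 52))
 (.p (nat_lit 0x1b2595102) (nat_lit 0x300004) (nat_lit 27))))
 (.n (.n (.p (nat_lit 0x281b0b6102) (nat_lit 0x10a201) (nat_lit 16))
 (.p (nat_lit 0x197a1978197619741972088906) (nat_lit 0x80008e123) (nat_lit 52)))
 (.n (.p (nat_lit 0x281625ed02) (nat_lit 0x500208) (nat_lit 4))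
 (.p (nat_lit 0x5d13233702) (nat_lit 0xa0040000b00) (nat_lit 38)))))
 (.n (.n (.n (.p (nat_lit 0x1798197702) (nat_lit 0x340700) (nat_lit 4))
 (.p (nat_lit 0x13a00ebf02) (nat_lit 0x50051c) (nat_lit 5)))
 (.n (.p (nat_lit 0x4c7c4c7a4c784c764c740a4306) (nat_lit 0x10000052106) (nat_lit 51))
 (.p (nat_lit 0x5c910fd502) (nat_lit 0x2c0000000400) (nat_lit 38))))
 (.n (.n (.p (nat_lit 0x246624642462245e245c005d246107) (nat_lit 0x200b02) (nat_lit 7))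
 (.p (nat_lit 0x459309f102) (nat_lit 0x5412a) (nat_lit 16)))
 (.n (.p (nat_lit 0x2702270026fe26fc26fa163906) (nat_lit 0x80008a60e) (nat_lit 51))
 (.p (nat_lit 0xe82609b02) (nat_lit 0x342529ca4000300040000) (nat_lit 50))))))

def c512_13 : Tr := .n c1024_13 c1024_525

def c1024_269 : Tr :=
 .n (.n (.n (.n (.n (.n (.p (nat_lit 0x10b010900f700f204) (nat_lit 0x56000005) (nat_lit 20))
 (.p (nat_lit 0x1144615f02) (nat_lit 0x352829d84000400040000) (nat_lit 49)))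
 (.p (nat_lit 0x93a0938093609340932332f06) (nat_lit 0x80000aa10) (nat_lit 52)))
 (.n (.p (nat_lit 0x8d3a0902) (nat_lit 0x340503) (nat_lit 30))
 (.p (nat_lit 0x245a137102) (nat_lit 0x500b2a) (nat_lit 4))))
 (.n (.n (.p (nat_lit 0x1e7e1e7c1e7a1e741bc71bc506) (nat_lit 0x3000016900) (nat_lit 52))
 (.p (nat_lit 0x2d06303702) (nat_lit 0x50001e) (nat_lit 5)))
 (.n (.p (nat_lit 0x51051efb02) (nat_lit 0x106906) (nat_lit 16))
 (.p (nat_lit 0x5ca7180b02) (nat_lit 0x160000000700) (nat_lit 38)))))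
 (.n (.n (.n (.p (nat_lit 0x10321030102e102a10280df906) (nat_lit 0x2000084400) (nat_lit 51))
 (.p (nat_lit 0x333a2f0d02) (nat_lit 0xa17) (nat_lit 4)))
 (.n (.p (nat_lit 0x62021e902) (nat_lit 0x200005) (nat_lit 5))
 (.p (nat_lit 0x30b5b9502) (nat_lit 0x20071c) (nat_lit 28))))
 (.n (.n (.p (nat_lit 0x16a0169e169c169a1698205106) (nat_lit 0x100000cc901) (nat_lit 52))
 (.p (nat_lit 0x4e944e904e8e4e8c4e8a244d06) (nat_lit 0x8000090b23) (nat_lit 51)))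
 (.n (.p (nat_lit 0x3b6a349b02) (nat_lit 0xb0a) (nat_lit 5))
 (.p (nat_lit 0x129a5f5d02) (nat_lit 0x262530344000500000000) (nat_lit 49))))))
 (.n (.n (.n (.n (.p (nat_lit 0x92e092c092609240723072106) (nat_lit 0x60000c8100) (nat_lit 52))
 (.p (nat_lit 0xd580d560d520d500d4e10ed06) (nat_lit 0x400000a415) (nat_lit 52)))
 (.n (.p (nat_lit 0x3f290ce702) (nat_lit 0x24a204) (nat_lit 16))
 (.p (nat_lit 0x3400320030002a000302b306) (nat_lit 0xa12201) (nat_lit 26))))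
 (.n (.n (.p (nat_lit 0x259522c102) (nat_lit 0x346b00) (nat_lit 16))
 (.p (nat_lit 0xeca0ec60ec40ec20ec050b906) (nat_lit 0x80000ca822) (nat_lit 51)))
 (.n (.p (nat_lit 0x1d791d3d02) (nat_lit 0x448807) (nat_lit 16))
 (.p (nat_lit 0x5cd921cf02) (nat_lit 0x140020000a00) (nat_lit 39)))))
 (.n (.n (.n (.p (nat_lit 0x17b916b302) (nat_lit 0x144600) (nat_lit 16))
 (.p (nat_lit 0x207420722070206e206a073706) (nat_lit 0x100005401c) (nat_lit 52)))
 (.n (.p (nat_lit 0xf0010300fd214922af05) (nat_lit 0x86840805) (nat_lit 9))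
 (.p (nat_lit 0x5d9b5df102) (nat_lit 0x1200a0000200) (nat_lit 37))))
 (.n (.n (.p (nat_lit 0xfea0fe80fe60fe40fe221b506) (nat_lit 0x800008a02) (nat_lit 51))
 (.p (nat_lit 0x3a6506f02) (nat_lit 0x300829) (nat_lit 1)))
 (.n (.p (nat_lit 0x181418121810180e180c123506) (nat_lit 0x80004e40e) (nat_lit 52))
 (.p (nat_lit 0x1da6605f02) (nat_lit 0x506272831000300000600) (nat_lit 49))))))

def c1024_781 : Tr :=
 .n (.n (.n (.n (.n (.n (.p (nat_lit 0x520051e051c051604df04dd06) (nat_lit 0x3000008000) (nat_lit 51))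
 (.p (nat_lit 0x1ada61dd02) (nat_lit 0x3302a5895000200000600) (nat_lit 49)))
 (.p (nat_lit 0x475e453302) (nat_lit 0x240313) (nat_lit 5)))
 (.n (.p (nat_lit 0x21e221de21dc21d82471246b06) (nat_lit 0x9000094b03) (nat_lit 51))
 (.p (nat_lit 0x3b5839c102) (nat_lit 0x340a2d) (nat_lit 5))))
 (.n (.n (.p (nat_lit 0x1ffa21d502) (nat_lit 0x440a00) (nat_lit 4))
 (.p (nat_lit 0x420e55fd02) (nat_lit 0x240520) (nat_lit 29)))
 (.n (.p (nat_lit 0x1f1a1f181f141f121f100f6f06) (nat_lit 0x40000d2307) (nat_lit 51))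
 (.p (nat_lit 0x5d2d5e7302) (nat_lit 0x200060000800) (nat_lit 36)))))
 (.n (.n (.n (.p (nat_lit 0x13fd13f102) (nat_lit 0x340500) (nat_lit 34))
 (.p (nat_lit 0x4720471e471a4718471647e906) (nat_lit 0x400008041a) (nat_lit 52)))
 (.n (.p (nat_lit 0x4955152702) (nat_lit 0x544505) (nat_lit 16))
 (.p (nat_lit 0x5d55064902) (nat_lit 0x280080000000) (nat_lit 41))))
 (.n (.n (.p (nat_lit 0xe32186b02) (nat_lit 0x100302) (nat_lit 4))
 (.p (nat_lit 0x119811961194119211903b9b06) (nat_lit 0x800084b26) (nat_lit 52)))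
 (.n (.p (nat_lit 0x4dc04b3d02) (nat_lit 0x30d) (nat_lit 5))
 (.p (nat_lit 0x64a5fe102) (nat_lit 0x3062a1c35000000040000) (nat_lit 50))))))
 (.n (.n (.n (.n (.p (nat_lit 0xd180d0c0b3503) (nat_lit 0x300300) (nat_lit 6))
 (.p (nat_lit 0x287545b02) (nat_lit 0x340715) (nat_lit 30)))
 (.n (.p (nat_lit 0xa560a540a520a5017fd17fb06) (nat_lit 0x18000044604) (nat_lit 51))
 (.p (nat_lit 0x14959fb02) (nat_lit 0x400207) (nat_lit 28))))
 (.n (.n (.p (nat_lit 0x13b113a502) (nat_lit 0x110501) (nat_lit 16))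
 (.p (nat_lit 0xf4c0f4a0f480f440b510b4906) (nat_lit 0x11000016223) (nat_lit 51)))
 (.n (.p (nat_lit 0x2e5c2e5a2e582e562e542f9706) (nat_lit 0x10000048209) (nat_lit 51))
 (.p (nat_lit 0xbae5ed702) (nat_lit 0x4a1a36344000200040000) (nat_lit 49)))))
 (.n (.n (.n (.p (nat_lit 0x1b3c1b361b341b32190118ff06) (nat_lit 0xc000006800) (nat_lit 52))
 (.p (nat_lit 0x1a8e0d8d02) (nat_lit 0x14071c) (nat_lit 5)))
 (.n (.p (nat_lit 0x1530251f02) (nat_lit 0x440506) (nat_lit 4))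
 (.p (nat_lit 0x5e22429902) (nat_lit 0x52500) (nat_lit 48))))
 (.n (.n (.p (nat_lit 0x353a3536353435323530076d06) (nat_lit 0x80000d6003) (nat_lit 52))
 (.p (nat_lit 0xe1a143502) (nat_lit 0x10032a) (nat_lit 4)))
 (.n (.p (nat_lit 0x200e534502) (nat_lit 0x24090e) (nat_lit 29))
 (.p (nat_lit 0x153460df02) (nat_lit 0x340d623a4000000000600) (nat_lit 49))))))

def c512_269 : Tr := .n c1024_269 c1024_781

def c256_13 : Tr := .n c512_13 c512_269

def c1024_141 : Tr :=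
 .n (.n (.n (.n (.n (.n (.p (nat_lit 0x90008a0086009304) (nat_lit 0x12800400003) (nat_lit 17))
 (.p (nat_lit 0x1ae0614102) (nat_lit 0x352a21d84000200000600) (nat_lit 50)))
 (.p (nat_lit 0x31022e5d02) (nat_lit 0x400410) (nat_lit 5)))
 (.n (.p (nat_lit 0x1117110b02) (nat_lit 0x14403) (nat_lit 16))
 (.p (nat_lit 0x32bf1ed702) (nat_lit 0x10e92a) (nat_lit 16))))
 (.n (.n (.p (nat_lit 0xb61bc502) (nat_lit 0x100900) (nat_lit 1))
 (.p (nat_lit 0x25980f5b02) (nat_lit 0x540b1c) (nat_lit 5)))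
 (.n (.p (nat_lit 0x1db61db41db21db01dac1d9706) (nat_lit 0x1000052806) (nat_lit 51))
 (.p (nat_lit 0x5d335e4702) (nat_lit 0x1a0060000600) (nat_lit 36)))))
 (.n (.n (.n (.p (nat_lit 0xfa70c9102) (nat_lit 0x150300) (nat_lit 16))
 (.p (nat_lit 0x2ba027f102) (nat_lit 0x916) (nat_lit 4)))
 (.n (.p (nat_lit 0x21522150214c214a247b247506) (nat_lit 0x4800090b04) (nat_lit 51))
 (.p (nat_lit 0x2835b1d02) (nat_lit 0x100715) (nat_lit 28))))
 (.n (.n (.p (nat_lit 0x1f0c1f0a1f081f061f041eeb06) (nat_lit 0x10000092901) (nat_lit 52))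
 (.p (nat_lit 0x2030108b02) (nat_lit 0x140923) (nat_lit 5)))
 (.n (.p (nat_lit 0x38d434fb02) (nat_lit 0x10040a) (nat_lit 4))
 (.p (nat_lit 0x8fc5f3b02) (nat_lit 0x3a6560c44000100040000) (nat_lit 50))))))
 (.n (.n (.n (.n (.p (nat_lit 0x8120810080a080805c305c106) (nat_lit 0x600008e100) (nat_lit 52))
 (.p (nat_lit 0x732072e072c072a07280289073107) (nat_lit 0x440015) (nat_lit 7)))
 (.n (.p (nat_lit 0xb821de902) (nat_lit 0x204) (nat_lit 5))
 (.p (nat_lit 0x142e142c142a142814264a0d06) (nat_lit 0x1000008472f) (nat_lit 52))))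
 (.n (.n (.p (nat_lit 0x22c422c222be22bc00100007000122c122bb09) (nat_lit 0x1840b00) (nat_lit 10))
 (.p (nat_lit 0x4d1a4d184d164d144d124c0506) (nat_lit 0x2000088122) (nat_lit 51)))
 (.n (.p (nat_lit 0x1a70518d02) (nat_lit 0x440707) (nat_lit 29))
 (.p (nat_lit 0x5d5d1f1902) (nat_lit 0x200080000900) (nat_lit 41)))))
 (.n (.n (.n (.p (nat_lit 0x16dc16da16d816d416b516b306) (nat_lit 0x3000042600) (nat_lit 51))
 (.p (nat_lit 0x2348234623442342233e05d706) (nat_lit 0x100001601c) (nat_lit 51)))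
 (.n (.p (nat_lit 0x207e207c207a20781ac71abd06) (nat_lit 0x10800054705) (nat_lit 51))
 (.p (nat_lit 0x5d1b0bb702) (nat_lit 0x20040000200) (nat_lit 41))))
 (.n (.n (.p (nat_lit 0x205c32d302) (nat_lit 0x540902) (nat_lit 29))
 (.p (nat_lit 0x4b2c4e4502) (nat_lit 0x400029) (nat_lit 4)))
 (.n (.p (nat_lit 0x16a216a0169e169c169810dd06) (nat_lit 0x100008c40e) (nat_lit 52))
 (.p (nat_lit 0x1540604102) (nat_lit 0x4a8176340800000000600) (nat_lit 50))))))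

def c1024_653 : Tr :=
 .n (.n (.n (.n (.n (.n (.p (nat_lit 0x43e0438044303) (nat_lit 0x1200050002a) (nat_lit 17))
 (.p (nat_lit 0x13ec61bd02) (nat_lit 0x322266c75000500040000) (nat_lit 49)))
 (.p (nat_lit 0x418e53d902) (nat_lit 0x400512) (nat_lit 29)))
 (.n (.p (nat_lit 0x1fee1fec1fea1fe81fe6233106) (nat_lit 0x100000d6a03) (nat_lit 51))
 (.p (nat_lit 0x35d23a1502) (nat_lit 0x40012d) (nat_lit 5))))
 (.n (.n (.p (nat_lit 0x212e212c212621241e931e9106) (nat_lit 0x600000ea00) (nat_lit 52))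
 (.p (nat_lit 0xe8e0e8c0e8a0e860e843be706) (nat_lit 0x2000040b1f) (nat_lit 51)))
 (.n (.p (nat_lit 0x1f0e1f0a1f081f061f040e0906) (nat_lit 0x8000092307) (nat_lit 52))
 (.p (nat_lit 0x5ce71ae302) (nat_lit 0x60020000800) (nat_lit 40)))))
 (.n (.n (.n (.p (nat_lit 0x12d812d612d412d212d010cd06) (nat_lit 0x10000084500) (nat_lit 51))
 (.p (nat_lit 0x423642324230422e422c02ed423507) (nat_lit 0x400619) (nat_lit 7)))
 (.n (.p (nat_lit 0x13d3112302) (nat_lit 0x405) (nat_lit 15))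
 (.p (nat_lit 0x5cdf04c502) (nat_lit 0xe0020000000) (nat_lit 38))))
 (.n (.n (.p (nat_lit 0xa0a184702) (nat_lit 0x140102) (nat_lit 5))
 (.p (nat_lit 0x1cae1cac1ca81ca61ca4364506) (nat_lit 0x40000c6126) (nat_lit 51)))
 (.n (.p (nat_lit 0x212e212c212a21282126474f06) (nat_lit 0x80004e30c) (nat_lit 52))
 (.p (nat_lit 0x15425fc702) (nat_lit 0x89832b05000000000600) (nat_lit 50))))))
 (.n (.n (.n (.n (.p (nat_lit 0xbea0be80be60be209d709cf06) (nat_lit 0x110000c8200) (nat_lit 51))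
 (.p (nat_lit 0x164e543b02) (nat_lit 0x500615) (nat_lit 29)))
 (.n (.p (nat_lit 0x1150114e114c11481146168506) (nat_lit 0x2000088604) (nat_lit 51))
 (.p (nat_lit 0xe959b102) (nat_lit 0x300605) (nat_lit 28))))
 (.n (.n (.p (nat_lit 0xfcb0f8f02) (nat_lit 0x154301) (nat_lit 16))
 (.p (nat_lit 0x1820181e181a181609eb09e706) (nat_lit 0x500004e123) (nat_lit 51)))
 (.n (.p (nat_lit 0x2b50262502) (nat_lit 0x340808) (nat_lit 4))
 (.p (nat_lit 0x5d4f234702) (nat_lit 0x2e0080000b00) (nat_lit 40)))))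
 (.n (.n (.n (.p (nat_lit 0x1a4e1a4a1a461a44179b179706) (nat_lit 0xa000056700) (nat_lit 52))
 (.p (nat_lit 0x109c109a10981096109214e306) (nat_lit 0x100005451c) (nat_lit 52)))
 (.n (.p (nat_lit 0x112e23a902) (nat_lit 0x406) (nat_lit 5))
 (.p (nat_lit 0x5d770fdd02) (nat_lit 0x60080000400) (nat_lit 38))))
 (.n (.n (.p (nat_lit 0x25ba25b825b625b2007a0063005b25bd25b509) (nat_lit 0x2940b02) (nat_lit 10))
 (.p (nat_lit 0xcb4142902) (nat_lit 0x14022a) (nat_lit 4)))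
 (.n (.p (nat_lit 0x3602360035fe35fc35fa1be306) (nat_lit 0x800000a80e) (nat_lit 52))
 (.p (nat_lit 0x8f260c902) (nat_lit 0x3505223a4000100040000) (nat_lit 49))))))

def c512_141 : Tr := .n c1024_141 c1024_653

def c1024_397 : Tr :=
 .n (.n (.n (.n (.n (.n (.p (nat_lit 0x1ec01ea01f503) (nat_lit 0x600050000e) (nat_lit 17))
 (.p (nat_lit 0x1ade617d02) (nat_lit 0x421a86b15000200000600) (nat_lit 49)))
 (.p (nat_lit 0x1bb21bb01bae1bac1baa38e906) (nat_lit 0x10000016411) (nat_lit 52)))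
 (.n (.p (nat_lit 0x873ab902) (nat_lit 0x40603) (nat_lit 30))
 (.p (nat_lit 0x2b742abb02) (nat_lit 0x24082b) (nat_lit 4))))
 (.n (.n (.p (nat_lit 0x1f4a1f481f461f441d2b1d2906) (nat_lit 0x18000c2900) (nat_lit 52))
 (.p (nat_lit 0xebe0eba0eb80eb60eb433a306) (nat_lit 0x800004aa1e) (nat_lit 51)))
 (.n (.p (nat_lit 0xb440b420b3e0b3c0154014701410b410b3b09) (nat_lit 0x1800207) (nat_lit 10))
 (.p (nat_lit 0x5e581c1b02) (nat_lit 0x40016700) (nat_lit 47)))))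
 (.n (.n (.n (.p (nat_lit 0x1149113d02) (nat_lit 0x140400) (nat_lit 34))
 (.p (nat_lit 0x39ec36ff02) (nat_lit 0x100518) (nat_lit 5)))
 (.n (.p (nat_lit 0xa2c220902) (nat_lit 0x40105) (nat_lit 5))
 (.p (nat_lit 0x40c5bdd02) (nat_lit 0x200a23) (nat_lit 27))))
 (.n (.n (.p (nat_lit 0x23f823f623f423f021b321ab06) (nat_lit 0x11000090a01) (nat_lit 51))
 (.p (nat_lit 0x17841780177e177c177a27b306) (nat_lit 0x8000054124) (nat_lit 52)))
 (.n (.p (nat_lit 0x3f9a3c9902) (nat_lit 0x50030b) (nat_lit 5))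
 (.p (nat_lit 0x8fa5f7b02) (nat_lit 0x581a22b44000100040000) (nat_lit 50))))))
 (.n (.n (.n (.n (.p (nat_lit 0x284087502) (nat_lit 0x200200) (nat_lit 1))
 (.p (nat_lit 0x13920bf702) (nat_lit 0x400515) (nat_lit 5)))
 (.n (.p (nat_lit 0x403a4038403640344032112106) (nat_lit 0x10000082404) (nat_lit 51))
 (.p (nat_lit 0x5d58fb02) (nat_lit 0x200902) (nat_lit 28))))
 (.n (.n (.p (nat_lit 0x8a026d502) (nat_lit 0x101) (nat_lit 29))
 (.p (nat_lit 0x3a9569102) (nat_lit 0x440023) (nat_lit 30)))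
 (.n (.p (nat_lit 0x22d051cb02) (nat_lit 0x540a07) (nat_lit 29))
 (.p (nat_lit 0x5d6321e102) (nat_lit 0x1a0080000a00) (nat_lit 41)))))
 (.n (.n (.n (.p (nat_lit 0x18c618c018be18bc1629162706) (nat_lit 0xc000092700) (nat_lit 52))
 (.p (nat_lit 0x2729087d02) (nat_lit 0xc11c) (nat_lit 16)))
 (.n (.p (nat_lit 0x4b23063102) (nat_lit 0x406006) (nat_lit 16))
 (.p (nat_lit 0x5d3b0d1902) (nat_lit 0x120060000300) (nat_lit 40))))
 (.n (.n (.p (nat_lit 0x8fe08fa08f808f608f4232306) (nat_lit 0x80000c2a02) (nat_lit 51))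
 (.p (nat_lit 0x68606820680067e067c089d06) (nat_lit 0x800008612a) (nat_lit 52)))
 (.n (.p (nat_lit 0x1393138702) (nat_lit 0x40650e) (nat_lit 16))
 (.p (nat_lit 0x181c607f02) (nat_lit 0x511a22b85000100000600) (nat_lit 50))))))

def c1024_909 : Tr :=
 .n (.n (.n (.n (.n (.p (nat_lit 0x65606520650064e0012000900010655064d09) (nat_lit 0x2040000) (nat_lit 10))
 (.p (nat_lit 0x4a94450902) (nat_lit 0x440813) (nat_lit 4)))
 (.n (.p (nat_lit 0x1c441c401c3e1c3c1c3a25c706) (nat_lit 0x80000d0b03) (nat_lit 52))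
 (.p (nat_lit 0x46953f2d02) (nat_lit 0x45622e) (nat_lit 16))))
 (.n (.n (.p (nat_lit 0x22cb1ff702) (nat_lit 0x240a00) (nat_lit 16))
 (.p (nat_lit 0x43863f8702) (nat_lit 0x40b20) (nat_lit 4)))
 (.n (.p (nat_lit 0x1340133e133c133a10d710cf06) (nat_lit 0x8800012407) (nat_lit 51))
 (.p (nat_lit 0x5d995e7d02) (nat_lit 0x1400a0000800) (nat_lit 37)))))
 (.n (.n (.n (.p (nat_lit 0x14e5122102) (nat_lit 0x246500) (nat_lit 16))
 (.p (nat_lit 0xaa00a9e0a9c0a9a0a9849eb06) (nat_lit 0x1000008a71a) (nat_lit 51)))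
 (.n (.p (nat_lit 0x235e235c235a2358180917ff06) (nat_lit 0x108000c0605) (nat_lit 52))
 (.p (nat_lit 0x5cff079902) (nat_lit 0x1e0040000100) (nat_lit 38))))
 (.n (.n (.p (nat_lit 0x13b1110102) (nat_lit 0x100402) (nat_lit 15))
 (.p (nat_lit 0x4244405302) (nat_lit 0x627) (nat_lit 4)))
 (.n (.p (nat_lit 0x50904aff02) (nat_lit 0x24080d) (nat_lit 4))
 (.p (nat_lit 0x1ad65fff02) (nat_lit 0x16a88cd50000200000600) (nat_lit 49))))))
 (.n (.n (.n (.n (.p (nat_lit 0xdce0dcc0dc80dc60dc40b3506) (nat_lit 0x4000014300) (nat_lit 52))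
 (.p (nat_lit 0x2e6201902) (nat_lit 0x140915) (nat_lit 1)))
 (.n (.p (nat_lit 0x19541e6502) (nat_lit 0x400704) (nat_lit 5))
 (.p (nat_lit 0x1a201a0019e01980143018906) (nat_lit 0xa1660a) (nat_lit 26))))
 (.n (.n (.p (nat_lit 0x188a1888188418801c1d1c1906) (nat_lit 0x5000008801) (nat_lit 52))
 (.p (nat_lit 0x29e629e229e029dc1665165f06) (nat_lit 0x9000012623) (nat_lit 52)))
 (.n (.p (nat_lit 0x31d431d031ce31cc31ca316f06) (nat_lit 0x8000054409) (nat_lit 51))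
 (.p (nat_lit 0xfda5ef302) (nat_lit 0x4a9d84344000400000000) (nat_lit 49)))))
 (.n (.n (.n (.p (nat_lit 0x1c1918fb02) (nat_lit 0x10c800) (nat_lit 16))
 (.p (nat_lit 0x37d037ce37ca37c61d5f1d5b06) (nat_lit 0x50000d681c) (nat_lit 52)))
 (.n (.p (nat_lit 0x1760175e175c17581acd1ac906) (nat_lit 0x28000d0706) (nat_lit 51))
 (.p (nat_lit 0x5d6513f302) (nat_lit 0x180080000500) (nat_lit 39))))
 (.n (.n (.p (nat_lit 0x362436223620361c361a0a1906) (nat_lit 0x2000056103) (nat_lit 52))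
 (.p (nat_lit 0x11f811f611f411f20f870f8106) (nat_lit 0x480005432a) (nat_lit 51)))
 (.n (.p (nat_lit 0x2576086502) (nat_lit 0x40b0e) (nat_lit 5))
 (.p (nat_lit 0x181460ff02) (nat_lit 0x3425219b0000100000600) (nat_lit 49))))))

def c512_397 : Tr := .n c1024_397 c1024_909

def c256_141 : Tr := .n c512_141 c512_397

def c128_13 : Tr := .n c256_13 c256_141

def c1024_77 : Tr :=
 .n (.n (.n (.n (.n (.n (.p (nat_lit 0x5e005c0058006504) (nat_lit 0x6800400002) (nat_lit 17))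
 (.p (nat_lit 0x1814613302) (nat_lit 0x35486a3b0000100000600) (nat_lit 49)))
 (.p (nat_lit 0x97409720970096e096c2b9f06) (nat_lit 0x1000001090f) (nat_lit 51)))
 (.n (.p (nat_lit 0x386b0fab02) (nat_lit 0x342303) (nat_lit 16))
 (.p (nat_lit 0x1d70147902) (nat_lit 0x4082a) (nat_lit 4))))
 (.n (.n (.p (nat_lit 0x1d241d221d201d1e1a671a5d06) (nat_lit 0x108000d6800) (nat_lit 52))
 (.p (nat_lit 0x33a122f102) (nat_lit 0x34ea1c) (nat_lit 16)))
 (.n (.p (nat_lit 0xa4e0a4c0a4a0a480a461d9506) (nat_lit 0x800044806) (nat_lit 52))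
 (.p (nat_lit 0x5e3c25b502) (nat_lit 0x20050600) (nat_lit 47)))))
 (.n (.n (.n (.p (nat_lit 0xf120f100f0a0f080c950c9306) (nat_lit 0x60000d0300) (nat_lit 52))
 (.p (nat_lit 0x2a2a6f02) (nat_lit 0x516) (nat_lit 1)))
 (.n (.p (nat_lit 0xb9433102) (nat_lit 0x200b04) (nat_lit 30))
 (.p (nat_lit 0x2265aeb02) (nat_lit 0x200611) (nat_lit 27))))
 (.n (.n (.p (nat_lit 0x63e063c063a063806341ee306) (nat_lit 0x1000080901) (nat_lit 52))
 (.p (nat_lit 0x394c394a3948394639441d6706) (nat_lit 0x1000054823) (nat_lit 51)))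
 (.n (.p (nat_lit 0x37d4522302) (nat_lit 0x10030a) (nat_lit 29))
 (.p (nat_lit 0x1db65f2f02) (nat_lit 0x3a2560b44000300000600) (nat_lit 50))))))
 (.n (.n (.n (.n (.p (nat_lit 0x5c605c405c205be000e0005000105c105bd09) (nat_lit 0x1000100) (nat_lit 10))
 (.p (nat_lit 0x5d20a6702) (nat_lit 0x500015) (nat_lit 5)))
 (.n (.p (nat_lit 0x8d108c502) (nat_lit 0x16104) (nat_lit 16))
 (.p (nat_lit 0x46f2488f02) (nat_lit 0x32f) (nat_lit 5))))
 (.n (.n (.p (nat_lit 0x2445215502) (nat_lit 0x8b00) (nat_lit 16))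
 (.p (nat_lit 0x4b204d6d02) (nat_lit 0x300022) (nat_lit 4)))
 (.n (.p (nat_lit 0x190a054b02) (nat_lit 0x300707) (nat_lit 4))
 (.p (nat_lit 0x5d3d1f1702) (nat_lit 0x100060000900) (nat_lit 41)))))
 (.n (.n (.n (.p (nat_lit 0x167b155302) (nat_lit 0x310600) (nat_lit 16))
 (.p (nat_lit 0xd100d0e0d0a0d080d0605db06) (nat_lit 0x400000601c) (nat_lit 52)))
 (.n (.p (nat_lit 0xa5a0a560a540a501ac51abf06) (nat_lit 0x9000044705) (nat_lit 51))
 (.p (nat_lit 0x5dde49e102) (nat_lit 0x14200) (nat_lit 48))))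
 (.n (.n (.p (nat_lit 0x1cea1ce81ce61ce41ce01eef06) (nat_lit 0x100000c902) (nat_lit 52))
 (.p (nat_lit 0x468447a302) (nat_lit 0x240228) (nat_lit 5)))
 (.n (.p (nat_lit 0x4e310f7f02) (nat_lit 0x55630e) (nat_lit 16))
 (.p (nat_lit 0x2338602f02) (nat_lit 0x466a62335000500000600) (nat_lit 49))))))

def c1024_589 : Tr :=
 .n (.n (.n (.n (.n (.n (.p (nat_lit 0x3aa03a403a203ad04) (nat_lit 0x13000400023) (nat_lit 17))
 (.p (nat_lit 0x114661ad02) (nat_lit 0x3421a9c14800400040000) (nat_lit 50)))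
 (.p (nat_lit 0x1e4e1e4c1e4a1e461e44408706) (nat_lit 0x200000c412) (nat_lit 52)))
 (.n (.p (nat_lit 0x3b1f21c502) (nat_lit 0x20aa03) (nat_lit 16))
 (.p (nat_lit 0x43a336502) (nat_lit 0x300a2c) (nat_lit 1))))
 (.n (.n (.p (nat_lit 0x208c2088208620821e951e8f06) (nat_lit 0x9000000a00) (nat_lit 52))
 (.p (nat_lit 0x400c40084006400440023b4306) (nat_lit 0x8000056a1f) (nat_lit 51)))
 (.n (.p (nat_lit 0x4cc04c604c404c20e090e0706) (nat_lit 0xc000000307) (nat_lit 52))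
 (.p (nat_lit 0x5d7f5e6302) (nat_lit 0x2e00a0000700) (nat_lit 37)))))
 (.n (.n (.n (.p (nat_lit 0x10c8129b02) (nat_lit 0x300500) (nat_lit 4))
 (.p (nat_lit 0x1e4e1e4c1e4a1e481e46419306) (nat_lit 0x80000c519) (nat_lit 52)))
 (.n (.p (nat_lit 0x38c0fc502) (nat_lit 0x440305) (nat_lit 1))
 (.p (nat_lit 0x5cbc5cba5cb85cb65cb45cb25cb05cae5cac5caa5ca85ca65ca45ca25ca05c9e5c9c5c9a5c985c965c945c925c905c8e18) (nat_lit 0x0) (nat_lit 35))))
 (.n (.n (.p (nat_lit 0x2d6e2d6c2d6a2d682d66075d06) (nat_lit 0x20000d2002) (nat_lit 52))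
 (.p (nat_lit 0x33fc574d02) (nat_lit 0x200b25) (nat_lit 29)))
 (.n (.p (nat_lit 0x45fe528902) (nat_lit 0x40020c) (nat_lit 29))
 (.p (nat_lit 0x11405fa702) (nat_lit 0x89832955800400040000) (nat_lit 49))))))
 (.n (.n (.n (.n (.p (nat_lit 0x28809d502) (nat_lit 0x440200) (nat_lit 1))
 (.p (nat_lit 0x1c441c421c3e1c3c1c3a14db06) (nat_lit 0x40000d0515) (nat_lit 52)))
 (.n (.p (nat_lit 0xc200df00cf1fad1e4705) (nat_lit 0xad100604) (nat_lit 9))
 (.p (nat_lit 0x598459825980597e597c000b00c007) (nat_lit 0x50eb04) (nat_lit 25))))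
 (.n (.n (.p (nat_lit 0xe28170702) (nat_lit 0x200301) (nat_lit 5))
 (.p (nat_lit 0x3a356a302) (nat_lit 0x140123) (nat_lit 30)))
 (.n (.p (nat_lit 0x292c260d02) (nat_lit 0x540308) (nat_lit 5))
 (.p (nat_lit 0x5d23234502) (nat_lit 0x2a0060000b00) (nat_lit 40)))))
 (.n (.n (.n (.p (nat_lit 0x1a101a0e1a0c1a08179d179506) (nat_lit 0x110000ca700) (nat_lit 52))
 (.p (nat_lit 0x14e2552302) (nat_lit 0x14051c) (nat_lit 29)))
 (.n (.p (nat_lit 0xe6a0e680e660e620e6001170e6507) (nat_lit 0x200306) (nat_lit 7))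
 (.p (nat_lit 0x5d1d0fd902) (nat_lit 0x40000400) (nat_lit 38))))
 (.n (.n (.p (nat_lit 0x176c1768176617641762246506) (nat_lit 0x8000012b02) (nat_lit 51))
 (.p (nat_lit 0x140013fc13fa13f813f60b5b06) (nat_lit 0x800008a22a) (nat_lit 51)))
 (.n (.p (nat_lit 0x1a74531102) (nat_lit 0x4070e) (nat_lit 29))
 (.p (nat_lit 0x21da60a902) (nat_lit 0x344581ca4000400040600) (nat_lit 50))))))

def c512_77 : Tr := .n c1024_77 c1024_589

def c1024_333 : Tr :=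
 .n (.n (.n (.n (.n (.n (.p (nat_lit 0x1480144014f03) (nat_lit 0xa000500007) (nat_lit 17))
 (.p (nat_lit 0x180a616f02) (nat_lit 0x421aa6315000100000600) (nat_lit 49)))
 (.p (nat_lit 0x3b7f33df02) (nat_lit 0x412b10) (nat_lit 16)))
 (.n (.p (nat_lit 0x167e3a8902) (nat_lit 0x500603) (nat_lit 29))
 (.p (nat_lit 0x15f815f615f415f215f0282306) (nat_lit 0x1000001222b) (nat_lit 52))))
 (.n (.n (.p (nat_lit 0x1eeb1bcd02) (nat_lit 0x50c900) (nat_lit 16))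
 (.p (nat_lit 0x32f82fe302) (nat_lit 0x34091e) (nat_lit 4)))
 (.n (.p (nat_lit 0x227c2276227422722067206506) (nat_lit 0xc00004c906) (nat_lit 51))
 (.p (nat_lit 0x5cd7197302) (nat_lit 0x160020000700) (nat_lit 39)))))
 (.n (.n (.n (.p (nat_lit 0x10c70df902) (nat_lit 0x200400) (nat_lit 15))
 (.p (nat_lit 0x33e62f2902) (nat_lit 0x300b17) (nat_lit 5)))
 (.n (.p (nat_lit 0x78621fb02) (nat_lit 0x540005) (nat_lit 5))
 (.p (nat_lit 0x5bc05bbe5bbc5bba5bb80425039007) (nat_lit 0x40c521) (nat_lit 25))))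
 (.n (.n (.p (nat_lit 0x11221a902) (nat_lit 0xa01) (nat_lit 1))
 (.p (nat_lit 0x26c8294702) (nat_lit 0x40024) (nat_lit 4)))
 (.n (.p (nat_lit 0x686068406820680067c3bc106) (nat_lit 0x10000c6b0a) (nat_lit 52))
 (.p (nat_lit 0x23445f6f02) (nat_lit 0x3aa074b50000500000600) (nat_lit 50))))))
 (.n (.n (.n (.n (.p (nat_lit 0x9df072302) (nat_lit 0x346100) (nat_lit 16))
 (.p (nat_lit 0x124a12441242124002a8028902871249124709) (nat_lit 0x2340415) (nat_lit 10)))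
 (.n (.p (nat_lit 0x36c0fbb02) (nat_lit 0x540304) (nat_lit 1))
 (.p (nat_lit 0x32002e002c002a0119000b06) (nat_lit 0x1d14901) (nat_lit 26))))
 (.n (.n (.p (nat_lit 0x26342632262e262c262a05f306) (nat_lit 0x4000012001) (nat_lit 51))
 (.p (nat_lit 0x12ce12cc12ca12c605e505e106) (nat_lit 0x2800004023) (nat_lit 52)))
 (.n (.p (nat_lit 0x512b200502) (nat_lit 0x356907) (nat_lit 16))
 (.p (nat_lit 0x5e9c460702) (nat_lit 0x4000aa00) (nat_lit 48)))))
 (.n (.n (.n (.p (nat_lit 0x16261624162216200028000b0009162b162909) (nat_lit 0x2c00700) (nat_lit 10))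
 (.p (nat_lit 0x314032103250d3d0ea305) (nat_lit 0xa0b0011c) (nat_lit 9)))
 (.n (.p (nat_lit 0x1fc01fba1fb81fb61d911d8f06) (nat_lit 0xc0000cc805) (nat_lit 52))
 (.p (nat_lit 0x5ccf0d1502) (nat_lit 0x1e0020000300) (nat_lit 40))))
 (.n (.n (.p (nat_lit 0x246721bf02) (nat_lit 0x500a02) (nat_lit 15))
 (.p (nat_lit 0x51104f0d02) (nat_lit 0x100929) (nat_lit 4)))
 (.n (.p (nat_lit 0x4f25123902) (nat_lit 0x25640e) (nat_lit 16))
 (.p (nat_lit 0x1536607102) (nat_lit 0x588162b40800000000600) (nat_lit 49))))))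

def c1024_845 : Tr :=
 .n (.n (.n (.n (.n (.n (.p (nat_lit 0x5d904df02) (nat_lit 0x206000) (nat_lit 16))
 (.p (nat_lit 0xe7661eb02) (nat_lit 0x14e0a8c74000300040000) (nat_lit 49)))
 (.p (nat_lit 0x4946455b02) (nat_lit 0x440513) (nat_lit 4)))
 (.n (.p (nat_lit 0x4d804d604d404d204ce25c106) (nat_lit 0x1000040b03) (nat_lit 51))
 (.p (nat_lit 0x3e00412502) (nat_lit 0x14012e) (nat_lit 4))))
 (.n (.n (.p (nat_lit 0x227c2278227622741ffb1ff306) (nat_lit 0x880004ca00) (nat_lit 51))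
 (.p (nat_lit 0xd940d920d900d8e0d8c428106) (nat_lit 0x8000ce620) (nat_lit 51)))
 (.n (.p (nat_lit 0x10ce515502) (nat_lit 0x407) (nat_lit 29))
 (.p (nat_lit 0x5d631ae902) (nat_lit 0x1a0080000800) (nat_lit 40)))))
 (.n (.n (.n (.p (nat_lit 0x1448144614441442143e121f06) (nat_lit 0x10000c6500) (nat_lit 52))
 (.p (nat_lit 0x49544952494e494c494a02f9495107) (nat_lit 0x34051a) (nat_lit 7)))
 (.n (.p (nat_lit 0x2550254e254a25482546169306) (nat_lit 0x4000090605) (nat_lit 52))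
 (.p (nat_lit 0x5dc449d502) (nat_lit 0x14100) (nat_lit 47))))
 (.n (.n (.p (nat_lit 0xf9a187702) (nat_lit 0x140302) (nat_lit 4))
 (.p (nat_lit 0x1fca1fc81fc61fc41fc23d7b06) (nat_lit 0x1000000e127) (nat_lit 52)))
 (.n (.p (nat_lit 0x4f1e4f1a4f184f164f1401e14f1d07) (nat_lit 0x44040d) (nat_lit 7))
 (.p (nat_lit 0x8fc5fef02) (nat_lit 0x306a81c35000100040000) (nat_lit 50))))))
 (.n (.n (.n (.n (.p (nat_lit 0xd4c0d4a0d440d420b350b3306) (nat_lit 0x6000082300) (nat_lit 51))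
 (.p (nat_lit 0x1d520ae702) (nat_lit 0x340815) (nat_lit 4)))
 (.n (.p (nat_lit 0x1f0c1f0a1f081f0417fd17f506) (nat_lit 0x110000d2604) (nat_lit 52))
 (.p (nat_lit 0x4685a2b02) (nat_lit 0x300408) (nat_lit 27))))
 (.n (.n (.p (nat_lit 0x2afa2af82af62af42af22af0003607) (nat_lit 0x801) (nat_lit 8))
 (.p (nat_lit 0xebe0ebc0eba0eb40cab0ca906) (nat_lit 0x300004a223) (nat_lit 51)))
 (.n (.p (nat_lit 0x308e2cb502) (nat_lit 0x240309) (nat_lit 5))
 (.p (nat_lit 0xe785ee302) (nat_lit 0x4a8866344000300040000) (nat_lit 50)))))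
 (.n (.n (.n (.p (nat_lit 0x1ba61ba41ba21b9e190318fb06) (nat_lit 0x11000094800) (nat_lit 52))
 (.p (nat_lit 0x3788378637823780377e1bf906) (nat_lit 0x400008081c) (nat_lit 51)))
 (.n (.p (nat_lit 0x1776177417721770176e196f06) (nat_lit 0x10000092706) (nat_lit 52))
 (.p (nat_lit 0x5e2a3bab02) (nat_lit 0x40010500) (nat_lit 47))))
 (.n (.n (.p (nat_lit 0xb8108c302) (nat_lit 0x500103) (nat_lit 15))
 (.p (nat_lit 0x46fb0e2102) (nat_lit 0x41432a) (nat_lit 16)))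
 (.n (.p (nat_lit 0x22da09b102) (nat_lit 0x440a0e) (nat_lit 4))
 (.p (nat_lit 0x8fa60f302) (nat_lit 0x440d663a4000100040000) (nat_lit 50))))))

def c512_333 : Tr := .n c1024_333 c1024_845

def c256_77 : Tr := .n c512_77 c512_333

def c1024_205 : Tr :=
 .n (.n (.n (.n (.n (.n (.p (nat_lit 0xba00c502) (nat_lit 0x4000600004) (nat_lit 17))
 (.p (nat_lit 0xe6e615102) (nat_lit 0x2b0221d84000300040000) (nat_lit 49)))
 (.p (nat_lit 0x326e2e6f02) (nat_lit 0x140510) (nat_lit 4)))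
 (.n (.p (nat_lit 0x1275126902) (nat_lit 0x254403) (nat_lit 16))
 (.p (nat_lit 0x21a6583702) (nat_lit 0x500a2a) (nat_lit 29))))
 (.n (.n (.p (nat_lit 0x1e281e261e241e221bcd1bc306) (nat_lit 0x10800088900) (nat_lit 52))
 (.p (nat_lit 0x505f2b2302) (nat_lit 0x11481d) (nat_lit 16)))
 (.n (.p (nat_lit 0x11950db02) (nat_lit 0x300906) (nat_lit 30))
 (.p (nat_lit 0x5e4a2a7702) (nat_lit 0x80004600) (nat_lit 48)))))
 (.n (.n (.n (.p (nat_lit 0xff60ff40ff20ff00fec0df706) (nat_lit 0x1000000400) (nat_lit 52))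
 (.p (nat_lit 0x31f22f5902) (nat_lit 0x300517) (nat_lit 5)))
 (.n (.p (nat_lit 0x20c420c020be20bc25d525d106) (nat_lit 0x140000c4b04) (nat_lit 51))
 (.p (nat_lit 0x5b645b605b5e5b5c5b5a030f02fe07) (nat_lit 0x40e41a) (nat_lit 25))))
 (.n (.n (.p (nat_lit 0x2050204c204a204820460033204f07) (nat_lit 0x440901) (nat_lit 7))
 (.p (nat_lit 0x22f811fd02) (nat_lit 0x140a23) (nat_lit 5)))
 (.n (.p (nat_lit 0x3a8a351102) (nat_lit 0x60a) (nat_lit 5))
 (.p (nat_lit 0x15345f5302) (nat_lit 0x1a9d22350000000000600) (nat_lit 49))))))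
 (.n (.n (.n (.n (.p (nat_lit 0x8d905c502) (nat_lit 0x414100) (nat_lit 16))
 (.p (nat_lit 0x30810e902) (nat_lit 0x100415) (nat_lit 1)))
 (.n (.p (nat_lit 0xcec0cea0ce80ce60ce400b50ce307) (nat_lit 0x40204) (nat_lit 7))
 (.p (nat_lit 0x4e664e644e624e604e5e4ddd06) (nat_lit 0x10000082330) (nat_lit 51))))
 (.n (.n (.p (nat_lit 0x2550254e254c254a254622bd06) (nat_lit 0x10000d0b00) (nat_lit 52))
 (.p (nat_lit 0x505e4d9f02) (nat_lit 0x100822) (nat_lit 5)))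
 (.n (.p (nat_lit 0x35223520351e351c351a1bd306) (nat_lit 0x2000014807) (nat_lit 52))
 (.p (nat_lit 0x5cbb21cd02) (nat_lit 0x20000000a00) (nat_lit 39)))))
 (.n (.n (.n (.p (nat_lit 0x176c17681766176216b916b306) (nat_lit 0x9000052600) (nat_lit 51))
 (.p (nat_lit 0xa5a0a580a540a520a50073b06) (nat_lit 0x400004401c) (nat_lit 51)))
 (.n (.p (nat_lit 0xf001070111214522ab05) (nat_lit 0x6ac00805) (nat_lit 9))
 (.p (nat_lit 0x5d6f5ded02) (nat_lit 0xe0080000200) (nat_lit 37))))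
 (.n (.n (.p (nat_lit 0x32ef205b02) (nat_lit 0x444902) (nat_lit 16))
 (.p (nat_lit 0x4c904c8c4c8a4c884c8604254c8f07) (nat_lit 0x440129) (nat_lit 7)))
 (.n (.p (nat_lit 0x47df10e102) (nat_lit 0x31440e) (nat_lit 16))
 (.p (nat_lit 0xbae604f02) (nat_lit 0x40a962335000200040000) (nat_lit 49))))))

def c1024_717 : Tr :=
 .n (.n (.n (.n (.n (.n (.p (nat_lit 0x4e404cd02) (nat_lit 0x500000) (nat_lit 4))
 (.p (nat_lit 0x63661cf02) (nat_lit 0x3561684a0800000040000) (nat_lit 49)))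
 (.p (nat_lit 0x422d422102) (nat_lit 0x6612) (nat_lit 16)))
 (.n (.p (nat_lit 0xd1c0d180d160d140d12247106) (nat_lit 0x8000006b03) (nat_lit 51))
 (.p (nat_lit 0x1ba81ba61ba21ba01b9e36d506) (nat_lit 0x400009422d) (nat_lit 52))))
 (.n (.n (.p (nat_lit 0x217f1e9302) (nat_lit 0x304a00) (nat_lit 16))
 (.p (nat_lit 0x1e661e641e601e5c3d073d0306) (nat_lit 0x500004e020) (nat_lit 51)))
 (.n (.p (nat_lit 0x4d804d604d404d004ce0f6d06) (nat_lit 0x2000040307) (nat_lit 51))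
 (.p (nat_lit 0x5d1d5e6f02) (nat_lit 0x40000800) (nat_lit 36)))))
 (.n (.n (.n (.p (nat_lit 0x4e510cd02) (nat_lit 0x500500) (nat_lit 15))
 (.p (nat_lit 0x2ed54d502) (nat_lit 0x400719) (nat_lit 30)))
 (.n (.p (nat_lit 0x13da20fd02) (nat_lit 0x400505) (nat_lit 4))
 (.p (nat_lit 0x5db614cd02) (nat_lit 0x40044000) (nat_lit 47))))
 (.n (.n (.p (nat_lit 0x2eee2eec2eea2ee82ee62ee406) (nat_lit 0xa202) (nat_lit 52))
 (.p (nat_lit 0x3acc393b02) (nat_lit 0x140626) (nat_lit 5)))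
 (.n (.p (nat_lit 0x49d243f702) (nat_lit 0x50070c) (nat_lit 4))
 (.p (nat_lit 0x1ae65fd102) (nat_lit 0x95a2ec05000200000600) (nat_lit 50))))))
 (.n (.n (.n (.n (.p (nat_lit 0xcab09d102) (nat_lit 0x248200) (nat_lit 16))
 (.p (nat_lit 0x19220c2302) (nat_lit 0x300715) (nat_lit 4)))
 (.n (.p (nat_lit 0x423d168502) (nat_lit 0x206604) (nat_lit 16))
 (.p (nat_lit 0x1180116011401120009030506) (nat_lit 0x2510206) (nat_lit 26))))
 (.n (.n (.p (nat_lit 0x3129a502) (nat_lit 0x340401) (nat_lit 30))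
 (.p (nat_lit 0xb4656ad02) (nat_lit 0x223) (nat_lit 29)))
 (.n (.p (nat_lit 0x4f004ee04ea04e804e62be306) (nat_lit 0x4000044908) (nat_lit 52))
 (.p (nat_lit 0x8fa5ec702) (nat_lit 0x4a1a34344000100040000) (nat_lit 50)))))
 (.n (.n (.n (.p (nat_lit 0x1ac1179702) (nat_lit 0x254700) (nat_lit 16))
 (.p (nat_lit 0x291429122910290c290a17c706) (nat_lit 0x200005261c) (nat_lit 51)))
 (.n (.p (nat_lit 0x11b4eb702) (nat_lit 0x440406) (nat_lit 30))
 (.p (nat_lit 0x5d950feb02) (nat_lit 0x1800a0000400) (nat_lit 40))))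
 (.n (.n (.p (nat_lit 0x91343d02) (nat_lit 0x500003) (nat_lit 30))
 (.p (nat_lit 0x16a216a0169e169c169a0cb306) (nat_lit 0x8000cc22a) (nat_lit 52)))
 (.n (.p (nat_lit 0x200b1d4102) (nat_lit 0x4080e) (nat_lit 15))
 (.p (nat_lit 0xe7c60d302) (nat_lit 0x340a623b0000300040000) (nat_lit 50))))))

def c512_205 : Tr := .n c1024_205 c1024_717

def c1024_461 : Tr :=
 .n (.n (.n (.n (.n (.n (.p (nat_lit 0x2990297028e03) (nat_lit 0x2c00015) (nat_lit 19))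
 (.p (nat_lit 0xbb6618d02) (nat_lit 0x54c88a970000200040000) (nat_lit 50)))
 (.p (nat_lit 0x39e8359502) (nat_lit 0x500511) (nat_lit 5)))
 (.n (.p (nat_lit 0x18c618c218c018be18bc17ef06) (nat_lit 0x80000d2603) (nat_lit 52))
 (.p (nat_lit 0x1430142e142c142a14262c1b06) (nat_lit 0x10000c492b) (nat_lit 52))))
 (.n (.n (.p (nat_lit 0x1fcc1fca1fc81fc61d2b1d2906) (nat_lit 0x180004e900) (nat_lit 52))
 (.p (nat_lit 0x1b1a1b181b161b141b12354906) (nat_lit 0x8000c201f) (nat_lit 51)))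
 (.n (.p (nat_lit 0x3e6f0b4102) (nat_lit 0x312207) (nat_lit 16))
 (.p (nat_lit 0x5e5c167b02) (nat_lit 0x60012700) (nat_lit 48)))))
 (.n (.n (.n (.p (nat_lit 0x117e117c117a11760f670f5f06) (nat_lit 0x110000c2400) (nat_lit 52))
 (.p (nat_lit 0x3aac371f02) (nat_lit 0x500618) (nat_lit 4)))
 (.n (.p (nat_lit 0xe590b9302) (nat_lit 0x200205) (nat_lit 15))
 (.p (nat_lit 0x4255c1d02) (nat_lit 0x400829) (nat_lit 28))))
 (.n (.n (.p (nat_lit 0x252a2528252625222319231106) (nat_lit 0x1100004ea01) (nat_lit 51))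
 (.p (nat_lit 0x2c1629f302) (nat_lit 0x540924) (nat_lit 4)))
 (.n (.p (nat_lit 0x421e421c421a4218421401af421707) (nat_lit 0x10060b) (nat_lit 7))
 (.p (nat_lit 0x18145f8f02) (nat_lit 0x581a303a4000100000600) (nat_lit 49))))))
 (.n (.n (.n (.n (.p (nat_lit 0xa8a0a840a820a800879087706) (nat_lit 0xc000088200) (nat_lit 52))
 (.p (nat_lit 0x197a1978197619741970138d06) (nat_lit 0x100008e515) (nat_lit 52)))
 (.n (.p (nat_lit 0x40e640e440e240e0127b127706) (nat_lit 0x140000ce404) (nat_lit 52))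
 (.p (nat_lit 0x592459225920591e591c024f009207) (nat_lit 0x14103) (nat_lit 25))))
 (.n (.n (.p (nat_lit 0x35275302) (nat_lit 0x540101) (nat_lit 30))
 (.p (nat_lit 0x3a5569902) (nat_lit 0x200123) (nat_lit 30)))
 (.n (.p (nat_lit 0x2429241d02) (nat_lit 0x404b07) (nat_lit 16))
 (.p (nat_lit 0x5c975ead02) (nat_lit 0x260000000b00) (nat_lit 37)))))
 (.n (.n (.n (.p (nat_lit 0x1917162702) (nat_lit 0x302700) (nat_lit 16))
 (.p (nat_lit 0xbde0bdc0bda0bd80bd609e306) (nat_lit 0x1000004811c) (nat_lit 51)))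
 (.n (.p (nat_lit 0x120012f012924b9236b05) (nat_lit 0x64400106) (nat_lit 9))
 (.p (nat_lit 0x5d570d0f02) (nat_lit 0x260080000300) (nat_lit 38))))
 (.n (.n (.p (nat_lit 0x1daa1da81da61da41da0231d06) (nat_lit 0x1000052a02) (nat_lit 52))
 (.p (nat_lit 0x9f857b102) (nat_lit 0x44012a) (nat_lit 29)))
 (.n (.p (nat_lit 0x50605040502050004fe14d306) (nat_lit 0x1000004650e) (nat_lit 52))
 (.p (nat_lit 0xbac608f02) (nat_lit 0x356221ca4000200040000) (nat_lit 49))))))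

def c1024_973 : Tr :=
 .n (.n (.n (.n (.n (.p (nat_lit 0x69c069a069806960657064d06) (nat_lit 0x108000c8000) (nat_lit 52))
 (.p (nat_lit 0x4f284bc702) (nat_lit 0x440414) (nat_lit 5)))
 (.n (.p (nat_lit 0x6181f2502) (nat_lit 0x400004) (nat_lit 5))
 (.p (nat_lit 0x4327429d02) (nat_lit 0x24062e) (nat_lit 15))))
 (.n (.n (.p (nat_lit 0x215c233b02) (nat_lit 0x400b00) (nat_lit 4))
 (.p (nat_lit 0x2288228622842280227e44a106) (nat_lit 0x20000cc021) (nat_lit 51)))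
 (.n (.p (nat_lit 0x12321230122e1228015a01450143122d122b09) (nat_lit 0x1140407) (nat_lit 10))
 (.p (nat_lit 0x5c8f5e7f02) (nat_lit 0x2e0000000900) (nat_lit 36)))))
 (.n (.n (.n (.p (nat_lit 0x1560155e155c155a1558155706) (nat_lit 0x10000000600) (nat_lit 51))
 (.p (nat_lit 0x4f684d2502) (nat_lit 0x50051b) (nat_lit 5)))
 (.n (.p (nat_lit 0xbb00bae0bac0baa0ba8195906) (nat_lit 0x800084705) (nat_lit 52))
 (.p (nat_lit 0x5dd02b9b02) (nat_lit 0x6000c100) (nat_lit 47))))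
 (.n (.n (.p (nat_lit 0x13b4318502) (nat_lit 0x300502) (nat_lit 29))
 (.p (nat_lit 0x3958395439523950394e42e906) (nat_lit 0x8000016727) (nat_lit 51)))
 (.n (.p (nat_lit 0xe12090702) (nat_lit 0x30030e) (nat_lit 5))
 (.p (nat_lit 0x1daa601102) (nat_lit 0x405aa0b95000300000600) (nat_lit 49))))))
 (.n (.n (.n (.n (.p (nat_lit 0xe610b2f02) (nat_lit 0x16300) (nat_lit 16))
 (.p (nat_lit 0x217e217c217a217802ac028b02892183218109) (nat_lit 0x2c00a15) (nat_lit 10)))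
 (.n (.p (nat_lit 0x1bbe1bba1bb81bb61957195306) (nat_lit 0x14000096704) (nat_lit 51))
 (.p (nat_lit 0x1f001ec01ea01e80141000906) (nat_lit 0x40a40e) (nat_lit 26))))
 (.n (.n (.p (nat_lit 0x5c1d8102) (nat_lit 0x240801) (nat_lit 1))
 (.p (nat_lit 0x42e5193902) (nat_lit 0x212723) (nat_lit 16)))
 (.n (.p (nat_lit 0x33d5332d02) (nat_lit 0x500a09) (nat_lit 15))
 (.p (nat_lit 0x180e5f1102) (nat_lit 0x3a2270350000100000600) (nat_lit 49)))))
 (.n (.n (.n (.p (nat_lit 0x1c681c661c621c5e1a631a5f06) (nat_lit 0x50000c0800) (nat_lit 52))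
 (.p (nat_lit 0x202c202a202820242022030b202707) (nat_lit 0x24091c) (nat_lit 7)))
 (.n (.p (nat_lit 0x64a06460644064206401c3706) (nat_lit 0x8000080806) (nat_lit 51))
 (.p (nat_lit 0x5e36123302) (nat_lit 0xa0042500) (nat_lit 47))))
 (.n (.n (.p (nat_lit 0xcdc1b2d02) (nat_lit 0x340203) (nat_lit 5))
 (.p (nat_lit 0x17de130502) (nat_lit 0x24062a) (nat_lit 4)))
 (.n (.p (nat_lit 0x160616041602160015fe299306) (nat_lit 0x80009240f) (nat_lit 51))
 (.p (nat_lit 0x1142611502) (nat_lit 0x3422621b0000400040000) (nat_lit 49))))))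

def c512_461 : Tr := .n c1024_461 c1024_973

def c256_205 : Tr := .n c512_205 c512_461

def c128_77 : Tr := .n c256_77 c256_205

def c64_13 : Tr := .n c128_13 c128_77

def c1024_45 : Tr :=
 .n (.n (.n (.n (.n (.n (.p (nat_lit 0x32002c003903) (nat_lit 0x9000500001) (nat_lit 17))
 (.p (nat_lit 0xe72612d02) (nat_lit 0x45486a3a4000300040000) (nat_lit 49)))
 (.p (nat_lit 0x2e5e2e5c2e582e562e542b5b06) (nat_lit 0x400004880f) (nat_lit 51)))
 (.n (.p (nat_lit 0x9400a3009d1cab1b4505) (nat_lit 0x44340303) (nat_lit 9))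
 (.p (nat_lit 0x31a831a431a231a0319e1aad06) (nat_lit 0x80000c472a) (nat_lit 51))))
 (.n (.n (.p (nat_lit 0x1d0e1d0c1d0a1d081a5f1a5d06) (nat_lit 0x18000d4800) (nat_lit 51))
 (.p (nat_lit 0x22f00dd702) (nat_lit 0x340a1c) (nat_lit 4)))
 (.n (.p (nat_lit 0x115508302) (nat_lit 0x140806) (nat_lit 30))
 (.p (nat_lit 0x5cd35e3f02) (nat_lit 0x1a0020000600) (nat_lit 36)))))
 (.n (.n (.n (.p (nat_lit 0xeca0ec80ec40ec00c950c9106) (nat_lit 0x50000ca300) (nat_lit 51))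
 (.p (nat_lit 0x28354ab02) (nat_lit 0x140b15) (nat_lit 30)))
 (.n (.p (nat_lit 0x1d261d221d201d1e1d1c1ab906) (nat_lit 0x80000d6704) (nat_lit 52))
 (.p (nat_lit 0x2285ac302) (nat_lit 0x30080f) (nat_lit 27))))
 (.n (.n (.p (nat_lit 0x1ee2176502) (nat_lit 0x100901) (nat_lit 5))
 (.p (nat_lit 0x1d6611d102) (nat_lit 0x140823) (nat_lit 4)))
 (.n (.p (nat_lit 0x3744344d02) (nat_lit 0x14020a) (nat_lit 4))
 (.p (nat_lit 0xba65f2102) (nat_lit 0x3a2570344000200040000) (nat_lit 49))))))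
 (.n (.n (.n (.n (.p (nat_lit 0x5bc07a102) (nat_lit 0x100) (nat_lit 5))
 (.p (nat_lit 0x4550454e454c454a454850ed06) (nat_lit 0x800088914) (nat_lit 52)))
 (.n (.p (nat_lit 0x8c61f3702) (nat_lit 0x100104) (nat_lit 4))
 (.p (nat_lit 0x46f9460902) (nat_lit 0x30022f) (nat_lit 15))))
 (.n (.n (.p (nat_lit 0x2412240e240c240a2408215d06) (nat_lit 0x8000092b00) (nat_lit 51))
 (.p (nat_lit 0x4a42474902) (nat_lit 0x340721) (nat_lit 4)))
 (.n (.p (nat_lit 0x17a406a702) (nat_lit 0x340607) (nat_lit 5))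
 (.p (nat_lit 0x5cfb5e8902) (nat_lit 0x220040000900) (nat_lit 37)))))
 (.n (.n (.n (.p (nat_lit 0x1635155502) (nat_lit 0x400600) (nat_lit 16))
 (.p (nat_lit 0x5de0d2902) (nat_lit 0x50001c) (nat_lit 4)))
 (.n (.p (nat_lit 0x1ac24a1502) (nat_lit 0x340705) (nat_lit 29))
 (.p (nat_lit 0x5cb35ddd02) (nat_lit 0xa0000000200) (nat_lit 37))))
 (.n (.n (.p (nat_lit 0x5d328902) (nat_lit 0x200902) (nat_lit 30))
 (.p (nat_lit 0x458c479902) (nat_lit 0x340128) (nat_lit 5)))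
 (.n (.p (nat_lit 0xa660a620a600a5e0a5c0f7d06) (nat_lit 0x800004030e) (nat_lit 51))
 (.p (nat_lit 0xbae602702) (nat_lit 0x406a62335000200040000) (nat_lit 49))))))

def c1024_557 : Tr :=
 .n (.n (.n (.n (.n (.n (.p (nat_lit 0x36c03680366036f04) (nat_lit 0x16000400020) (nat_lit 17))
 (.p (nat_lit 0x180a61a702) (nat_lit 0x3421a9c14800100000600) (nat_lit 49)))
 (.p (nat_lit 0x94609420940093e093c3bd306) (nat_lit 0x80000cab11) (nat_lit 52)))
 (.n (.p (nat_lit 0x1fcc1fca1fc81fc621c321c106) (nat_lit 0x180000ea03) (nat_lit 52))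
 (.p (nat_lit 0x32c4324102) (nat_lit 0x40092c) (nat_lit 4))))
 (.n (.n (.p (nat_lit 0x20631d2d02) (nat_lit 0x256900) (nat_lit 16))
 (.p (nat_lit 0x3ab637af02) (nat_lit 0x50061f) (nat_lit 5)))
 (.n (.p (nat_lit 0xe0004ff02) (nat_lit 0x307) (nat_lit 4))
 (.p (nat_lit 0x5d9d198702) (nat_lit 0x1000a0000700) (nat_lit 41)))))
 (.n (.n (.n (.p (nat_lit 0x12790f6502) (nat_lit 0x452400) (nat_lit 16))
 (.p (nat_lit 0x408e3eab02) (nat_lit 0x419) (nat_lit 5)))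
 (.n (.p (nat_lit 0x46d846d646d446d246ce0e5706) (nat_lit 0x100000e305) (nat_lit 51))
 (.p (nat_lit 0x4820480047c047a0467043f06) (nat_lit 0x1516a2c) (nat_lit 26))))
 (.n (.n (.p (nat_lit 0x760199d02) (nat_lit 0x440002) (nat_lit 4))
 (.p (nat_lit 0x3352315502) (nat_lit 0xa25) (nat_lit 5)))
 (.n (.p (nat_lit 0x1c8433d02) (nat_lit 0x200b0b) (nat_lit 1))
 (.p (nat_lit 0x15345fa302) (nat_lit 0x589832b44000000000600) (nat_lit 49))))))
 (.n (.n (.n (.n (.p (nat_lit 0xb7f087902) (nat_lit 0x410200) (nat_lit 16))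
 (.p (nat_lit 0xd0c0d0a0d080d0614df14dd06) (nat_lit 0x18000046515) (nat_lit 52)))
 (.n (.p (nat_lit 0x15181e4102) (nat_lit 0x440504) (nat_lit 4))
 (.p (nat_lit 0xbd597102) (nat_lit 0x400504) (nat_lit 28))))
 (.n (.n (.p (nat_lit 0xcc616ff02) (nat_lit 0x440201) (nat_lit 5))
 (.p (nat_lit 0xb4b088d02) (nat_lit 0x200123) (nat_lit 15)))
 (.n (.p (nat_lit 0x28ce25fd02) (nat_lit 0x200308) (nat_lit 4))
 (.p (nat_lit 0x5d3b5ebb02) (nat_lit 0x120060000b00) (nat_lit 36)))))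
 (.n (.n (.n (.p (nat_lit 0x19b619b419b019ae1799179306) (nat_lit 0x48000c2700) (nat_lit 52))
 (.p (nat_lit 0x1030102e102c102a13a1139706) (nat_lit 0x1080008451c) (nat_lit 51)))
 (.n (.p (nat_lit 0x4cc24cc04cbe4cbc0ba10b9d06) (nat_lit 0x500008a206) (nat_lit 51))
 (.p (nat_lit 0x5cd95e1102) (nat_lit 0x140020000400) (nat_lit 37))))
 (.n (.n (.p (nat_lit 0x33c833c633c433c233c033be00662465246324610a) (nat_lit 0x11a00b02) (nat_lit 31))
 (.p (nat_lit 0x8fe08fa08f808f608f40b5b06) (nat_lit 0x800008222a) (nat_lit 51)))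
 (.n (.p (nat_lit 0x191207ff02) (nat_lit 0x10070e) (nat_lit 4))
 (.p (nat_lit 0x64260a502) (nat_lit 0x346068ca4000000040000) (nat_lit 50))))))

def c512_45 : Tr := .n c1024_45 c1024_557

def c1024_301 : Tr :=
 .n (.n (.n (.n (.n (.n (.p (nat_lit 0x12b01270125012204) (nat_lit 0x15100006) (nat_lit 20))
 (.p (nat_lit 0x1c44616502) (nat_lit 0x340c62b84000200040600) (nat_lit 49)))
 (.p (nat_lit 0x862085e085c085a0858338b06) (nat_lit 0x8000056a10) (nat_lit 51)))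
 (.n (.p (nat_lit 0x58167502) (nat_lit 0x603) (nat_lit 1))
 (.p (nat_lit 0x4f5e4f5c4f5a4f584f5625af06) (nat_lit 0x8000050b2a) (nat_lit 51))))
 (.n (.n (.p (nat_lit 0x1ea31bcd02) (nat_lit 0x500900) (nat_lit 16))
 (.p (nat_lit 0x1a5a1a581a561a541a502d9f06) (nat_lit 0x10000d601e) (nat_lit 52)))
 (.n (.p (nat_lit 0x2066241102) (nat_lit 0x440906) (nat_lit 5))
 (.p (nat_lit 0x5e522e3302) (nat_lit 0x8700) (nat_lit 48)))))
 (.n (.n (.n (.p (nat_lit 0x10781076107410720dff0df506) (nat_lit 0x10800090400) (nat_lit 51))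
 (.p (nat_lit 0x338e2f1902) (nat_lit 0x40a17) (nat_lit 4)))
 (.n (.p (nat_lit 0x8d9062502) (nat_lit 0x400005) (nat_lit 15))
 (.p (nat_lit 0x36c5bb702) (nat_lit 0x500a1f) (nat_lit 27))))
 (.n (.n (.p (nat_lit 0x249624922490248e248c204f06) (nat_lit 0x80000d6901) (nat_lit 51))
 (.p (nat_lit 0x25a0121702) (nat_lit 0x340b23) (nat_lit 5)))
 (.n (.p (nat_lit 0x56605640562055e055c3b6f06) (nat_lit 0x2000010b0a) (nat_lit 52))
 (.p (nat_lit 0xe785f6302) (nat_lit 0x3aa074b44000300040000) (nat_lit 50))))))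
 (.n (.n (.n (.n (.p (nat_lit 0x952094e094c094a0725071d06) (nat_lit 0x880004c100) (nat_lit 52))
 (.p (nat_lit 0x283541b02) (nat_lit 0x140415) (nat_lit 30)))
 (.n (.p (nat_lit 0xbf3f3b02) (nat_lit 0x500304) (nat_lit 30))
 (.p (nat_lit 0x58ba58b858b658b458b20485003607) (nat_lit 0x510501) (nat_lit 25))))
 (.n (.n (.p (nat_lit 0x25e025de25dc25da25d825d6003607) (nat_lit 0x1) (nat_lit 8))
 (.p (nat_lit 0x3a7568302) (nat_lit 0x300023) (nat_lit 30)))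
 (.n (.p (nat_lit 0x1ffe06e302) (nat_lit 0x40907) (nat_lit 4))
 (.p (nat_lit 0x5e9821cf02) (nat_lit 0x20040a00) (nat_lit 45)))))
 (.n (.n (.n (.p (nat_lit 0x180516b702) (nat_lit 0x354600) (nat_lit 16))
 (.p (nat_lit 0x354f073b02) (nat_lit 0x35001c) (nat_lit 16)))
 (.n (.p (nat_lit 0x1d921d901d8e1d8a00f600e700e31d8d1d8909) (nat_lit 0x1040805) (nat_lit 10))
 (.p (nat_lit 0x5c915df502) (nat_lit 0x2c0000000300) (nat_lit 36))))
 (.n (.n (.p (nat_lit 0x198619821980197e197c21bd06) (nat_lit 0x800008ea02) (nat_lit 51))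
 (.p (nat_lit 0x50c04e8f02) (nat_lit 0x240829) (nat_lit 5)))
 (.n (.p (nat_lit 0x2348234623442342233e123706) (nat_lit 0x100005640e) (nat_lit 51))
 (.p (nat_lit 0xd10606702) (nat_lit 0x5898b0b44000300000000) (nat_lit 49))))))

def c1024_813 : Tr :=
 .n (.n (.n (.n (.n (.n (.p (nat_lit 0x56605640562056004dd04db06) (nat_lit 0x1800010000) (nat_lit 52))
 (.p (nat_lit 0x13fc61e302) (nat_lit 0x3302a5895000500040000) (nat_lit 50)))
 (.p (nat_lit 0x484c454902) (nat_lit 0x140413) (nat_lit 4)))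
 (.n (.p (nat_lit 0x3baf247102) (nat_lit 0x40ab03) (nat_lit 16))
 (.p (nat_lit 0x12e612e412e012de12dc3bad06) (nat_lit 0x4000006b2d) (nat_lit 51))))
 (.n (.n (.p (nat_lit 0x221e2218221622141ffb1ff906) (nat_lit 0xc000044a00) (nat_lit 52))
 (.p (nat_lit 0xea60ea40ea20ea00e9c423b06) (nat_lit 0x1000002620) (nat_lit 52)))
 (.n (.p (nat_lit 0xf850f6d02) (nat_lit 0x248307) (nat_lit 16))
 (.p (nat_lit 0x5d7b1add02) (nat_lit 0x20080000800) (nat_lit 38)))))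
 (.n (.n (.n (.p (nat_lit 0x141614121410140e1227122306) (nat_lit 0x140000c2500) (nat_lit 51))
 (.p (nat_lit 0x48c245c502) (nat_lit 0x30051a) (nat_lit 4)))
 (.n (.p (nat_lit 0x1694496b02) (nat_lit 0x400605) (nat_lit 29))
 (.p (nat_lit 0x5d855dc302) (nat_lit 0x2800a0000000) (nat_lit 37))))
 (.n (.n (.p (nat_lit 0x2fba2fb82fb62fb42fb22fb000660e370e330e310a) (nat_lit 0xc800302) (nat_lit 31))
 (.p (nat_lit 0x10321030102e102c10283bf106) (nat_lit 0x10000c4b26) (nat_lit 51)))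
 (.n (.p (nat_lit 0x4e1e4b4902) (nat_lit 0x24030d) (nat_lit 4))
 (.p (nat_lit 0xfde5fe702) (nat_lit 0x38ac60b44000400000000) (nat_lit 49))))))
 (.n (.n (.n (.n (.p (nat_lit 0xd340d320d300d2e0d2c0b2f06) (nat_lit 0x800080300) (nat_lit 51))
 (.p (nat_lit 0x1bea546502) (nat_lit 0x200815) (nat_lit 29)))
 (.n (.p (nat_lit 0x153e153c153a1536153417f706) (nat_lit 0x200004c604) (nat_lit 52))
 (.p (nat_lit 0x14b5a0502) (nat_lit 0x500407) (nat_lit 28))))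
 (.n (.n (.p (nat_lit 0x14f42a8302) (nat_lit 0x440501) (nat_lit 29))
 (.p (nat_lit 0xcae103102) (nat_lit 0x440223) (nat_lit 5)))
 (.n (.p (nat_lit 0x30142caf02) (nat_lit 0x500309) (nat_lit 4))
 (.p (nat_lit 0x2495248b21dd21d31f1b1f071c471c431983197516a716995edc0d) (nat_lit 0x4a9d22344000000040600) (nat_lit 33)))))
 (.n (.n (.n (.p (nat_lit 0x1b821b801b7e1b7c1b7a190306) (nat_lit 0x1000000c800) (nat_lit 51))
 (.p (nat_lit 0x50251a9102) (nat_lit 0x25671c) (nat_lit 16)))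
 (.n (.p (nat_lit 0x1194fcb02) (nat_lit 0x300706) (nat_lit 30))
 (.p (nat_lit 0x5e264a5702) (nat_lit 0x20054500) (nat_lit 48))))
 (.n (.n (.p (nat_lit 0x8be1b0b02) (nat_lit 0x300103) (nat_lit 5))
 (.p (nat_lit 0xff40ff00fee0fec0e230e1f06) (nat_lit 0x1400000032a) (nat_lit 52)))
 (.n (.p (nat_lit 0x2174084902) (nat_lit 0x400a0e) (nat_lit 5))
 (.p (nat_lit 0xbb660ed02) (nat_lit 0x340d6a3a4000200040000) (nat_lit 50))))))

def c512_301 : Tr := .n c1024_301 c1024_813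

def c256_45 : Tr := .n c512_45 c512_301

def c1024_173 : Tr :=
 .n (.n (.n (.n (.n (.n (.p (nat_lit 0xb100af00a5009604) (nat_lit 0x76100003) (nat_lit 20))
 (.p (nat_lit 0x13f4614b02) (nat_lit 0x3b0221d84000500040000) (nat_lit 49)))
 (.p (nat_lit 0x31782ddb02) (nat_lit 0x340410) (nat_lit 5)))
 (.n (.p (nat_lit 0x91390102) (nat_lit 0x540403) (nat_lit 30))
 (.p (nat_lit 0x41f441f241f041ee41ec203b06) (nat_lit 0x80005692a) (nat_lit 51))))
 (.n (.n (.p (nat_lit 0x1dda1dd61dd41dd21bcb1bc306) (nat_lit 0x8800002900) (nat_lit 51))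
 (.p (nat_lit 0x1778177417721770176e26c506) (nat_lit 0x80000d201d) (nat_lit 52)))
 (.n (.p (nat_lit 0x50931d9b02) (nat_lit 0x340806) (nat_lit 16))
 (.p (nat_lit 0x5e4425b902) (nat_lit 0x60050600) (nat_lit 47)))))
 (.n (.n (.n (.p (nat_lit 0xfe20fd60df703) (nat_lit 0x100400) (nat_lit 6))
 (.p (nat_lit 0xbe00bde0bdc0bd80bd62bf906) (nat_lit 0x2000048916) (nat_lit 51)))
 (.n (.p (nat_lit 0x25d01fed02) (nat_lit 0x340b04) (nat_lit 5))
 (.p (nat_lit 0x3405b4502) (nat_lit 0x500416) (nat_lit 27))))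
 (.n (.n (.p (nat_lit 0x2bcd1ee902) (nat_lit 0x40a901) (nat_lit 16))
 (.p (nat_lit 0x219411f502) (nat_lit 0x200a23) (nat_lit 5)))
 (.n (.p (nat_lit 0x3966523902) (nat_lit 0x4040a) (nat_lit 29))
 (.p (nat_lit 0xe725f4102) (nat_lit 0x3a2260b50000300040000) (nat_lit 49))))))
 (.n (.n (.n (.n (.p (nat_lit 0x89305c702) (nat_lit 0x508100) (nat_lit 16))
 (.p (nat_lit 0x92e092a092809260924073106) (nat_lit 0x80000c8015) (nat_lit 52)))
 (.n (.p (nat_lit 0xb8c0b860b840b8200dc00bd00bb0b8b0b8909) (nat_lit 0x2300204) (nat_lit 10))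
 (.p (nat_lit 0x4ae44ae24ae04ade4adc4c1d06) (nat_lit 0x800000e130) (nat_lit 52))))
 (.n (.n (.p (nat_lit 0x251425122510250c250a22bf06) (nat_lit 0x200004ab00) (nat_lit 52))
 (.p (nat_lit 0x4fc2566f02) (nat_lit 0x540522) (nat_lit 29)))
 (.n (.p (nat_lit 0x1bd206c302) (nat_lit 0x200807) (nat_lit 5))
 (.p (nat_lit 0x5d9b1f1b02) (nat_lit 0x1200a0000900) (nat_lit 41)))))
 (.n (.n (.n (.p (nat_lit 0x175417521750174a16b516b306) (nat_lit 0x3000050600) (nat_lit 51))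
 (.p (nat_lit 0x7360d2d02) (nat_lit 0x14001c) (nat_lit 5)))
 (.n (.p (nat_lit 0x1ad31ac702) (nat_lit 0x54c705) (nat_lit 16))
 (.p (nat_lit 0x5d3d0a5702) (nat_lit 0x100060000200) (nat_lit 40))))
 (.n (.n (.p (nat_lit 0x1cf61cf41cf21cf01cec205506) (nat_lit 0x10000cc902) (nat_lit 52))
 (.p (nat_lit 0x42a0431042f4ecf4e5b05) (nat_lit 0xacc00129) (nat_lit 9)))
 (.n (.p (nat_lit 0x207420722070206e206a10dd06) (nat_lit 0x100001440e) (nat_lit 52))
 (.p (nat_lit 0x207a604702) (nat_lit 0x40a96254c800400000600) (nat_lit 50))))))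

def c1024_685 : Tr :=
 .n (.n (.n (.n (.n (.n (.p (nat_lit 0x492048e049d03) (nat_lit 0x280050002d) (nat_lit 17))
 (.p (nat_lit 0x1ae461c502) (nat_lit 0x3421684a0800200000600) (nat_lit 50)))
 (.p (nat_lit 0x494741ff02) (nat_lit 0x456512) (nat_lit 16)))
 (.n (.p (nat_lit 0x9400a100af1d191bb305) (nat_lit 0xa1c00b03) (nat_lit 9))
 (.p (nat_lit 0x3e05365102) (nat_lit 0x35412d) (nat_lit 16))))
 (.n (.n (.p (nat_lit 0x21522150214e214c21481e8f06) (nat_lit 0x1000090a00) (nat_lit 51))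
 (.p (nat_lit 0x1fc01fbe1fbc1fba1fb63c6106) (nat_lit 0x100008c020) (nat_lit 52)))
 (.n (.p (nat_lit 0x30150e0b02) (nat_lit 0x50e307) (nat_lit 16))
 (.p (nat_lit 0x5cd11c4902) (nat_lit 0x1c0020000800) (nat_lit 41)))))
 (.n (.n (.n (.p (nat_lit 0x131613121310130e130c10cb06) (nat_lit 0x800000e500) (nat_lit 52))
 (.p (nat_lit 0x427e3eed02) (nat_lit 0x540619) (nat_lit 4)))
 (.n (.p (nat_lit 0x4802480047fe47fc47fa127d06) (nat_lit 0x8000c0405) (nat_lit 51))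
 (.p (nat_lit 0x5cc104d102) (nat_lit 0x2c0020000000) (nat_lit 40))))
 (.n (.n (.p (nat_lit 0xcd30a1102) (nat_lit 0x440102) (nat_lit 15))
 (.p (nat_lit 0x36c6392b02) (nat_lit 0x200226) (nat_lit 4)))
 (.n (.p (nat_lit 0x4848446702) (nat_lit 0x54040c) (nat_lit 4))
 (.p (nat_lit 0x20805fcb02) (nat_lit 0x9582ec05800400000600) (nat_lit 50))))))
 (.n (.n (.n (.n (.p (nat_lit 0xc460c400c3e0c3c09d509d306) (nat_lit 0xc0000d0200) (nat_lit 51))
 (.p (nat_lit 0x17bc0ab702) (nat_lit 0x340615) (nat_lit 5)))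
 (.n (.p (nat_lit 0x1f1a1f161f121f101689168506) (nat_lit 0xa000092604) (nat_lit 51))
 (.p (nat_lit 0xe759bb02) (nat_lit 0x200805) (nat_lit 28))))
 (.n (.n (.p (nat_lit 0x2950294e294c294a2948294606) (nat_lit 0x80401) (nat_lit 52))
 (.p (nat_lit 0x2488248624842482248009ef06) (nat_lit 0x100000d6123) (nat_lit 52)))
 (.n (.p (nat_lit 0x2b922b902b8c2b8a2b8801752b8f07) (nat_lit 0x300908) (nat_lit 7))
 (.p (nat_lit 0x5ec05ec2011d03) (nat_lit 0xa0000b00) (nat_lit 42)))))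
 (.n (.n (.n (.p (nat_lit 0x1a79179702) (nat_lit 0x242700) (nat_lit 16))
 (.p (nat_lit 0x165a0ed702) (nat_lit 0x50061c) (nat_lit 4)))
 (.n (.p (nat_lit 0x4e944e924e904e8e4e8c112f06) (nat_lit 0x800090406) (nat_lit 51))
 (.p (nat_lit 0x5d515e1b02) (nat_lit 0x2c0080000400) (nat_lit 36))))
 (.n (.n (.p (nat_lit 0x1778177417721770176e25bb06) (nat_lit 0x80000d2b02) (nat_lit 52))
 (.p (nat_lit 0xa4e0a4c0a4a0a480a460cb306) (nat_lit 0x80004422a) (nat_lit 52)))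
 (.n (.p (nat_lit 0x1e9532b02) (nat_lit 0x14080e) (nat_lit 30))
 (.p (nat_lit 0x13fc60cd02) (nat_lit 0x3502623b0000500040000) (nat_lit 50))))))

def c512_173 : Tr := .n c1024_173 c1024_685

def c1024_429 : Tr :=
 .n (.n (.n (.n (.n (.n (.p (nat_lit 0x2560254024e025b04) (nat_lit 0xc800400012) (nat_lit 17))
 (.p (nat_lit 0x13ec618502) (nat_lit 0x421a86b95000500040000) (nat_lit 49)))
 (.p (nat_lit 0x397c35f902) (nat_lit 0x540411) (nat_lit 4)))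
 (.n (.p (nat_lit 0x9400af00a11b911cf705) (nat_lit 0x8c540603) (nat_lit 9))
 (.p (nat_lit 0x2bcc2bca2bc82bc62bc4046d2bcf07) (nat_lit 0x50092b) (nat_lit 7))))
 (.n (.n (.p (nat_lit 0x1fa61fa41fa01f9e1d331d2d06) (nat_lit 0x120000ca900) (nat_lit 51))
 (.p (nat_lit 0x34c8377d02) (nat_lit 0x50001f) (nat_lit 4)))
 (.n (.p (nat_lit 0x7f007ee07ec07ea07e80b4506) (nat_lit 0x1000008a207) (nat_lit 51))
 (.p (nat_lit 0x5d35197702) (nat_lit 0x180060000700) (nat_lit 39)))))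
 (.n (.n (.n (.p (nat_lit 0x115c1158115611520f650f5f06) (nat_lit 0x9000040400) (nat_lit 51))
 (.p (nat_lit 0x3a6a370d02) (nat_lit 0x240518) (nat_lit 4)))
 (.n (.p (nat_lit 0xe3459f02) (nat_lit 0x205) (nat_lit 30))
 (.p (nat_lit 0x3de5bf902) (nat_lit 0x824) (nat_lit 27))))
 (.n (.n (.p (nat_lit 0x2314178d02) (nat_lit 0x340a01) (nat_lit 4))
 (.p (nat_lit 0x3130312e312a312831262b6b06) (nat_lit 0x40000c2824) (nat_lit 52)))
 (.n (.p (nat_lit 0x401840164012401001bc01b301ad4015400f09) (nat_lit 0x184030b) (nat_lit 10))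
 (.p (nat_lit 0x20765f8302) (nat_lit 0x581a32b44000400000600) (nat_lit 50))))))
 (.n (.n (.n (.n (.p (nat_lit 0xa660a620a600a5e0a5c087906) (nat_lit 0x8000000200) (nat_lit 51))
 (.p (nat_lit 0xd1c0d1a0d180d160d14138b06) (nat_lit 0x800006515) (nat_lit 51)))
 (.n (.p (nat_lit 0x12761e2702) (nat_lit 0x340404) (nat_lit 4))
 (.p (nat_lit 0x590c59085906590459020009006407) (nat_lit 0x412b02) (nat_lit 25))))
 (.n (.n (.p (nat_lit 0x8b508a902) (nat_lit 0x410101) (nat_lit 16))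
 (.p (nat_lit 0x14481444144214400749074106) (nat_lit 0x88000c6023) (nat_lit 52)))
 (.n (.p (nat_lit 0x241851d102) (nat_lit 0x200b07) (nat_lit 29))
 (.p (nat_lit 0x5d9721e302) (nat_lit 0x1600a0000a00) (nat_lit 41)))))
 (.n (.n (.n (.p (nat_lit 0x18ea18e618e218e01629162506) (nat_lit 0xa000016700) (nat_lit 51))
 (.p (nat_lit 0x9dc0ead02) (nat_lit 0x24011c) (nat_lit 4)))
 (.n (.p (nat_lit 0x4b644b624b604b5e4b5c079306) (nat_lit 0x10000050006) (nat_lit 51))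
 (.p (nat_lit 0x5e0033a102) (nat_lit 0x6004e300) (nat_lit 48))))
 (.n (.n (.p (nat_lit 0x140013fc13fa13f813f6232306) (nat_lit 0x80000caa02) (nat_lit 51))
 (.p (nat_lit 0x452d089f02) (nat_lit 0x51412a) (nat_lit 16)))
 (.n (.p (nat_lit 0x14d052f502) (nat_lit 0x44050e) (nat_lit 29))
 (.p (nat_lit 0x2492608302) (nat_lit 0x344380a64000500040600) (nat_lit 50))))))

def c1024_941 : Tr :=
 .n (.n (.n (.n (.n (.p (nat_lit 0x686068406820680067e064d06) (nat_lit 0x8000c6000) (nat_lit 52))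
 (.p (nat_lit 0x1164e9b02) (nat_lit 0x200414) (nat_lit 1)))
 (.n (.p (nat_lit 0x3bed25c902) (nat_lit 0x546b03) (nat_lit 16))
 (.p (nat_lit 0x12ce12cc12ca12c812c6425106) (nat_lit 0x80000462e) (nat_lit 52))))
 (.n (.n (.p (nat_lit 0x23111ff502) (nat_lit 0x14ca00) (nat_lit 16))
 (.p (nat_lit 0x2116211421122110210c441106) (nat_lit 0x100000c021) (nat_lit 52)))
 (.n (.p (nat_lit 0x12321230122e122c12280143122b07) (nat_lit 0x140407) (nat_lit 7))
 (.p (nat_lit 0x5e7a35cb02) (nat_lit 0xa0008800) (nat_lit 48)))))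
 (.n (.n (.n (.p (nat_lit 0x1527122702) (nat_lit 0x554500) (nat_lit 16))
 (.p (nat_lit 0x4ea64d0b02) (nat_lit 0x20041b) (nat_lit 5)))
 (.n (.p (nat_lit 0x195a228d02) (nat_lit 0x100705) (nat_lit 5))
 (.p (nat_lit 0x5d3d08fb02) (nat_lit 0x100060000100) (nat_lit 41))))
 (.n (.n (.p (nat_lit 0x311a3118311631143112125f06) (nat_lit 0x40000c0402) (nat_lit 51))
 (.p (nat_lit 0x428e40cb02) (nat_lit 0x140627) (nat_lit 5)))
 (.n (.p (nat_lit 0x512452bd02) (nat_lit 0x4090d) (nat_lit 29))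
 (.p (nat_lit 0x2070600b02) (nat_lit 0x405aa2354800400000600) (nat_lit 49))))))
 (.n (.n (.n (.n (.p (nat_lit 0xe1f0b3502) (nat_lit 0x30a300) (nat_lit 16))
 (.p (nat_lit 0x21780b0102) (nat_lit 0xa15) (nat_lit 4)))
 (.n (.p (nat_lit 0x1b601b5e1b5a1b561953194f06) (nat_lit 0x5000088704) (nat_lit 52))
 (.p (nat_lit 0x1e201e001dc01d80143026f06) (nat_lit 0xb1020d) (nat_lit 26))))
 (.n (.n (.p (nat_lit 0x18f218f018ee18ec1c211c1f06) (nat_lit 0x18000096801) (nat_lit 51))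
 (.p (nat_lit 0x29bc29b829b629b429b217d706) (nat_lit 0x8000042623) (nat_lit 51)))
 (.n (.p (nat_lit 0x33242d7302) (nat_lit 0x100a09) (nat_lit 4))
 (.p (nat_lit 0x2493248b21dd21d51f1b1f071c4f1c3b1983197516a716995f000d) (nat_lit 0x3aa530344000000040600) (nat_lit 33)))))
 (.n (.n (.n (.p (nat_lit 0x1a601c3f02) (nat_lit 0x240800) (nat_lit 4))
 (.p (nat_lit 0x1ec40f1d02) (nat_lit 0x40091c) (nat_lit 5)))
 (.n (.p (nat_lit 0x50271acf02) (nat_lit 0x346706) (nat_lit 16))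
 (.p (nat_lit 0x5dad129f02) (nat_lit 0xa0000500) (nat_lit 38))))
 (.n (.n (.p (nat_lit 0xb7c1c8902) (nat_lit 0x300203) (nat_lit 4))
 (.p (nat_lit 0x43d57e102) (nat_lit 0x40062a) (nat_lit 30)))
 (.n (.p (nat_lit 0x4bfc4bfa4bf84bf62581257706) (nat_lit 0x108000d0b0e) (nat_lit 52))
 (.p (nat_lit 0xe82610f02) (nat_lit 0x3425299b0000300040000) (nat_lit 50))))))

def c512_429 : Tr := .n c1024_429 c1024_941

def c256_173 : Tr := .n c512_173 c512_429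

def c128_45 : Tr := .n c256_45 c256_173

def c1024_109 : Tr :=
 .n (.n (.n (.n (.n (.n (.p (nat_lit 0x71006d006603) (nat_lit 0x2200002) (nat_lit 19))
 (.p (nat_lit 0x2492613702) (nat_lit 0x3503a0d64000500040600) (nat_lit 50)))
 (.p (nat_lit 0x2c3a2c382c362c342c30020d2c3307) (nat_lit 0x100a0f) (nat_lit 7)))
 (.n (.p (nat_lit 0x3f6111502) (nat_lit 0x500403) (nat_lit 1))
 (.p (nat_lit 0x1ed4581502) (nat_lit 0x92a) (nat_lit 29))))
 (.n (.n (.p (nat_lit 0x1d671a5f02) (nat_lit 0x148800) (nat_lit 16))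
 (.p (nat_lit 0x1653243b02) (nat_lit 0x100b1c) (nat_lit 15)))
 (.n (.p (nat_lit 0x140013fe13fa13f61d9b1d9706) (nat_lit 0x50000ca806) (nat_lit 51))
 (.p (nat_lit 0x5cef5e4102) (nat_lit 0x2e0040000600) (nat_lit 37)))))
 (.n (.n (.n (.p (nat_lit 0xf630c9502) (nat_lit 0x340300) (nat_lit 15))
 (.p (nat_lit 0x342aef02) (nat_lit 0x540516) (nat_lit 1)))
 (.n (.p (nat_lit 0x221e221a22162214247d247906) (nat_lit 0xa000004b04) (nat_lit 52))
 (.p (nat_lit 0x288028602840280000b01e906) (nat_lit 0x290a015) (nat_lit 26))))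
 (.n (.n (.p (nat_lit 0x129e129a1298129612941ee906) (nat_lit 0x800000a901) (nat_lit 52))
 (.p (nat_lit 0x3a7570702) (nat_lit 0x300923) (nat_lit 30)))
 (.n (.p (nat_lit 0x88385d02) (nat_lit 0x14030a) (nat_lit 1))
 (.p (nat_lit 0x1ae05f3502) (nat_lit 0x3a2560c44000200000600) (nat_lit 50))))))
 (.n (.n (.n (.n (.p (nat_lit 0x7ce07ca07c607c405c505c106) (nat_lit 0xa000008100) (nat_lit 52))
 (.p (nat_lit 0x5dd05d102) (nat_lit 0x408015) (nat_lit 16)))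
 (.n (.p (nat_lit 0x3d9a3d963d923d900a290a2506) (nat_lit 0xa000048104) (nat_lit 51))
 (.p (nat_lit 0x499e489f02) (nat_lit 0x30062f) (nat_lit 4))))
 (.n (.n (.p (nat_lit 0x248c248022bb03) (nat_lit 0x40b00) (nat_lit 6))
 (.p (nat_lit 0x2538253625342530252e4b8906) (nat_lit 0x20000ce022) (nat_lit 51)))
 (.n (.p (nat_lit 0x1911190502) (nat_lit 0x4707) (nat_lit 16))
 (.p (nat_lit 0x5e8c1f1702) (nat_lit 0x60040900) (nat_lit 46)))))
 (.n (.n (.n (.p (nat_lit 0x16a8169c16b503) (nat_lit 0x240600) (nat_lit 6))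
 (.p (nat_lit 0x197a197619741972197005dd06) (nat_lit 0x800008e01c) (nat_lit 52)))
 (.n (.p (nat_lit 0x16a216a0169e169c169a1abd06) (nat_lit 0x8000cc705) (nat_lit 52))
 (.p (nat_lit 0x5cd30ba902) (nat_lit 0x1a0020000200) (nat_lit 39))))
 (.n (.n (.p (nat_lit 0x32c31ef302) (nat_lit 0x30a902) (nat_lit 16))
 (.p (nat_lit 0x49fc47bb02) (nat_lit 0x200728) (nat_lit 5)))
 (.n (.p (nat_lit 0xa5a0a580a540a5010e110dd06) (nat_lit 0x500000440e) (nat_lit 51))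
 (.p (nat_lit 0xa50603702) (nat_lit 0x4a9d80b44000200000000) (nat_lit 50))))))

def c1024_621 : Tr :=
 .n (.n (.n (.n (.n (.n (.p (nat_lit 0x3e403e203de03eb04) (nat_lit 0x6800400025) (nat_lit 17))
 (.p (nat_lit 0x1ade61b502) (nat_lit 0x322266c15000200000600) (nat_lit 49)))
 (.p (nat_lit 0x410841064104410241000259410b07) (nat_lit 0x540412) (nat_lit 7)))
 (.n (.p (nat_lit 0x913b2f02) (nat_lit 0x540a03) (nat_lit 30))
 (.p (nat_lit 0x33b4586b02) (nat_lit 0x140a2c) (nat_lit 29))))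
 (.n (.n (.p (nat_lit 0x21082106210421021e971e8d06) (nat_lit 0x1080008aa00) (nat_lit 52))
 (.p (nat_lit 0xebe0ebc0eba0eb80eb63b8f06) (nat_lit 0x80000ab1f) (nat_lit 51)))
 (.n (.p (nat_lit 0x13f213f013ee13ec13ea0e0b06) (nat_lit 0x1000008a307) (nat_lit 52))
 (.p (nat_lit 0x5c995e6702) (nat_lit 0x240000000800) (nat_lit 36)))))
 (.n (.n (.n (.p (nat_lit 0x12c212c012be12bc12ba12b806) (nat_lit 0x82500) (nat_lit 52))
 (.p (nat_lit 0x1f621f601f5e1f5c1f58420506) (nat_lit 0x10000c4519) (nat_lit 52)))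
 (.n (.p (nat_lit 0xfc90fbd02) (nat_lit 0x4c305) (nat_lit 16))
 (.p (nat_lit 0x5c975daf02) (nat_lit 0x260000000000) (nat_lit 37))))
 (.n (.n (.p (nat_lit 0x8b02db702) (nat_lit 0x200102) (nat_lit 29))
 (.p (nat_lit 0x1d021d001cfe1cfc1cfa35c106) (nat_lit 0x800014126) (nat_lit 51)))
 (.n (.p (nat_lit 0x227c227a22762274227246ed06) (nat_lit 0x400000c30c) (nat_lit 51))
 (.p (nat_lit 0x1ae65fc102) (nat_lit 0x8982e955800200000600) (nat_lit 50))))))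
 (.n (.n (.n (.n (.p (nat_lit 0xbd40bd00bcc0bca09d509d106) (nat_lit 0xa0000c0200) (nat_lit 52))
 (.p (nat_lit 0x3a6b14d902) (nat_lit 0x250515) (nat_lit 16)))
 (.n (.p (nat_lit 0x79e079a079807960794168906) (nat_lit 0x8000002604) (nat_lit 52))
 (.p (nat_lit 0x38c599d02) (nat_lit 0x400305) (nat_lit 27))))
 (.n (.n (.p (nat_lit 0xe390e2d02) (nat_lit 0x410301) (nat_lit 16))
 (.p (nat_lit 0xa580a540a520a5009ef09eb06) (nat_lit 0x14000044123) (nat_lit 51)))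
 (.n (.p (nat_lit 0x4f1d2a0502) (nat_lit 0x454408) (nat_lit 16))
 (.p (nat_lit 0x5d6f5ebf02) (nat_lit 0xe0080000b00) (nat_lit 36)))))
 (.n (.n (.n (.p (nat_lit 0x1a361a301a2e1a2c179b179906) (nat_lit 0xc000054700) (nat_lit 51))
 (.p (nat_lit 0x552a55285526552455225520031414eb14e514e30a) (nat_lit 0x1514051c) (nat_lit 31)))
 (.n (.p (nat_lit 0xfd20fd00fcc0fca0fc801190fcf07) (nat_lit 0x340306) (nat_lit 7))
 (.p (nat_lit 0x5d3b0fe702) (nat_lit 0x120060000400) (nat_lit 40))))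
 (.n (.n (.p (nat_lit 0x25b2340f02) (nat_lit 0x40b02) (nat_lit 29))
 (.p (nat_lit 0x207420722070206e206c0b5306) (nat_lit 0x80001422a) (nat_lit 52)))
 (.n (.p (nat_lit 0x1bda531d02) (nat_lit 0x80e) (nat_lit 29))
 (.p (nat_lit 0x1adc60b102) (nat_lit 0x3505223a4000200000600) (nat_lit 49))))))

def c512_109 : Tr := .n c1024_109 c1024_621

def c1024_365 : Tr :=
 .n (.n (.n (.n (.n (.n (.p (nat_lit 0x18e01880186019104) (nat_lit 0x13000400009) (nat_lit 17))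
 (.p (nat_lit 0x2076617502) (nat_lit 0x521a86b11000400000600) (nat_lit 50)))
 (.p (nat_lit 0x38e4357b02) (nat_lit 0x300411) (nat_lit 4)))
 (.n (.p (nat_lit 0x1a361a341a301a2c167b167706) (nat_lit 0x5000014603) (nat_lit 51))
 (.p (nat_lit 0x28e02aa102) (nat_lit 0x30032b) (nat_lit 4))))
 (.n (.n (.p (nat_lit 0xba1d2f02) (nat_lit 0x340900) (nat_lit 1))
 (.p (nat_lit 0xea60ea20ea00e9e0e9c334f06) (nat_lit 0x8000002a1e) (nat_lit 52)))
 (.n (.p (nat_lit 0x14e015d0159065904e705) (nat_lit 0x66800207) (nat_lit 9))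
 (.p (nat_lit 0x5d1b5e5902) (nat_lit 0x20040000700) (nat_lit 37)))))
 (.n (.n (.n (.p (nat_lit 0x11090dff02) (nat_lit 0x50e400) (nat_lit 16))
 (.p (nat_lit 0x354454bd02) (nat_lit 0x440018) (nat_lit 29)))
 (.n (.p (nat_lit 0x8d221ff02) (nat_lit 0x100105) (nat_lit 5))
 (.p (nat_lit 0x43e5bd702) (nat_lit 0x500023) (nat_lit 27))))
 (.n (.n (.p (nat_lit 0x21b221b021ae21ac003c002d002b21ab21a909) (nat_lit 0x800a01) (nat_lit 10))
 (.p (nat_lit 0x1778177617741770176e273906) (nat_lit 0x2000092124) (nat_lit 52)))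
 (.n (.p (nat_lit 0x1b7527302) (nat_lit 0x50020b) (nat_lit 30))
 (.p (nat_lit 0xe785f7502) (nat_lit 0x1aa074b50000300040000) (nat_lit 50))))))
 (.n (.n (.n (.n (.p (nat_lit 0xa21071d02) (nat_lit 0x52100) (nat_lit 16))
 (.p (nat_lit 0xdc20dbe0dbc0db81249124306) (nat_lit 0x90000d2415) (nat_lit 52)))
 (.n (.p (nat_lit 0x402440224020401e401c401a00c007) (nat_lit 0x404) (nat_lit 8))
 (.p (nat_lit 0x620060005e005c0003022306) (nat_lit 0x814102) (nat_lit 26))))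
 (.n (.n (.p (nat_lit 0x75616d302) (nat_lit 0x540001) (nat_lit 4))
 (.p (nat_lit 0x264705e702) (nat_lit 0x30c023) (nat_lit 16)))
 (.n (.p (nat_lit 0x2177216b02) (nat_lit 0x504a07) (nat_lit 16))
 (.p (nat_lit 0x5ea2469302) (nat_lit 0x6004aa00) (nat_lit 47)))))
 (.n (.n (.n (.p (nat_lit 0x18a218a0189e189c189a162106) (nat_lit 0x80000a700) (nat_lit 51))
 (.p (nat_lit 0xbec0bea0be60be20883087f06) (nat_lit 0x500008811c) (nat_lit 51)))
 (.n (.p (nat_lit 0x628234b02) (nat_lit 0x6) (nat_lit 4))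
 (.p (nat_lit 0x5cff5dff02) (nat_lit 0x1e0040000300) (nat_lit 37))))
 (.n (.n (.p (nat_lit 0x232423222320231c231a005d231f07) (nat_lit 0x240a02) (nat_lit 7))
 (.p (nat_lit 0x89c140b02) (nat_lit 0x40012a) (nat_lit 5)))
 (.n (.p (nat_lit 0x138852eb02) (nat_lit 0x50050e) (nat_lit 29))
 (.p (nat_lit 0x114a607502) (nat_lit 0x4688ae154000400040000) (nat_lit 50))))))

def c1024_877 : Tr :=
 .n (.n (.n (.n (.n (.p (nat_lit 0x62104df02) (nat_lit 0x214000) (nat_lit 16))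
 (.p (nat_lit 0x7e607e407e207e007de49d506) (nat_lit 0x80000a713) (nat_lit 51)))
 (.n (.p (nat_lit 0xfde0fdc0fd80fd60fd425c506) (nat_lit 0x4000048b03) (nat_lit 52))
 (.p (nat_lit 0x3f26413b02) (nat_lit 0x14022e) (nat_lit 5))))
 (.n (.n (.p (nat_lit 0x229e229c229a229822961ffd06) (nat_lit 0x100000cea00) (nat_lit 52))
 (.p (nat_lit 0x3788378637823780377e42db06) (nat_lit 0x4000080720) (nat_lit 51)))
 (.n (.p (nat_lit 0x10d810d610d410ce015a0145014310d310d109) (nat_lit 0x1100407) (nat_lit 10))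
 (.p (nat_lit 0x5e7839f302) (nat_lit 0x80004800) (nat_lit 47)))))
 (.n (.n (.n (.p (nat_lit 0x14a414a2149c149a1223122106) (nat_lit 0x6000054500) (nat_lit 52))
 (.p (nat_lit 0x498a465b02) (nat_lit 0x50061a) (nat_lit 4)))
 (.n (.p (nat_lit 0x11217ff02) (nat_lit 0x40605) (nat_lit 1))
 (.p (nat_lit 0x5ccd079702) (nat_lit 0x200020000100) (nat_lit 38))))
 (.n (.n (.p (nat_lit 0x30990f9b02) (nat_lit 0x142302) (nat_lit 16))
 (.p (nat_lit 0x1fc01fbc1fba1fb81fb63dfb06) (nat_lit 0x80000cc127) (nat_lit 52)))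
 (.n (.p (nat_lit 0x5013500702) (nat_lit 0x54470d) (nat_lit 16))
 (.p (nat_lit 0x20785ff702) (nat_lit 0x386a81c35000400000600) (nat_lit 50))))))
 (.n (.n (.n (.n (.p (nat_lit 0xd6e0d6c0d6a0d660b390b3106) (nat_lit 0x1100000c300) (nat_lit 51))
 (.p (nat_lit 0x1eb20c4b02) (nat_lit 0x100915) (nat_lit 5)))
 (.n (.p (nat_lit 0x180517f902) (nat_lit 0x356604) (nat_lit 16))
 (.p (nat_lit 0x18e018c018a01840173014306) (nat_lit 0x1116a09) (nat_lit 26))))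
 (.n (.n (.p (nat_lit 0x1c1e175302) (nat_lit 0x400801) (nat_lit 5))
 (.p (nat_lit 0x37530cab02) (nat_lit 0x250223) (nat_lit 16)))
 (.n (.p (nat_lit 0x30f42d4902) (nat_lit 0x300409) (nat_lit 4))
 (.p (nat_lit 0x4d05eed02) (nat_lit 0x4a1d84344000000000000) (nat_lit 50)))))
 (.n (.n (.n (.p (nat_lit 0x1bd518ff02) (nat_lit 0x300800) (nat_lit 16))
 (.p (nat_lit 0x314033303230da30f0b05) (nat_lit 0xad14081c) (nat_lit 9)))
 (.n (.p (nat_lit 0x1acc23dd02) (nat_lit 0x240706) (nat_lit 4))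
 (.p (nat_lit 0x5d2d5e2f02) (nat_lit 0x200060000500) (nat_lit 37))))
 (.n (.n (.p (nat_lit 0xa1c1b1902) (nat_lit 0x440103) (nat_lit 5))
 (.p (nat_lit 0xf8a0f880f860f820448043904350f850f8109) (nat_lit 0x104032a) (nat_lit 10)))
 (.n (.p (nat_lit 0x1eb535d02) (nat_lit 0x200b0e) (nat_lit 30))
 (.p (nat_lit 0x234660f702) (nat_lit 0x440d663a4000500000600) (nat_lit 50))))))

def c512_365 : Tr := .n c1024_365 c1024_877

def c256_109 : Tr := .n c512_109 c512_365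

def c1024_237 : Tr :=
 .n (.n (.n (.n (.n (.n (.p (nat_lit 0xea00e800e600ef04) (nat_lit 0xe000400005) (nat_lit 17))
 (.p (nat_lit 0x1542615902) (nat_lit 0x352829d84000000000600) (nat_lit 50)))
 (.p (nat_lit 0x332f329d02) (nat_lit 0x910) (nat_lit 15)))
 (.n (.p (nat_lit 0x39b839b639b439b213c113bd06) (nat_lit 0x5000086503) (nat_lit 51))
 (.p (nat_lit 0x2306583d02) (nat_lit 0x240a2a) (nat_lit 29))))
 (.n (.n (.p (nat_lit 0x1e581e561e541e521e501bcd06) (nat_lit 0x1000008c900) (nat_lit 51))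
 (.p (nat_lit 0x2c0a28bf02) (nat_lit 0x54091d) (nat_lit 4)))
 (.n (.p (nat_lit 0x211421122110210e210c1f0306) (nat_lit 0x1000000c906) (nat_lit 52))
 (.p (nat_lit 0x5d83154b02) (nat_lit 0x2a00a0000600) (nat_lit 40)))))
 (.n (.n (.n (.p (nat_lit 0x100e100a1008100610040dfd06) (nat_lit 0x8000002400) (nat_lit 52))
 (.p (nat_lit 0x18c618c418c218c018bc327b06) (nat_lit 0x10000d2517) (nat_lit 52)))
 (.n (.p (nat_lit 0x17f525cd02) (nat_lit 0x140b04) (nat_lit 15))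
 (.p (nat_lit 0x30e030c030a03060359000306) (nat_lit 0x291001c) (nat_lit 26))))
 (.n (.n (.p (nat_lit 0xbb00bac0baa0ba80ba6204f06) (nat_lit 0x80000c4901) (nat_lit 52))
 (.p (nat_lit 0x420244902) (nat_lit 0x200b23) (nat_lit 1)))
 (.n (.p (nat_lit 0x1ac3ae302) (nat_lit 0xa0a) (nat_lit 1))
 (.p (nat_lit 0x180e5f5902) (nat_lit 0x1a2262350000100000600) (nat_lit 49))))))
 (.n (.n (.n (.n (.p (nat_lit 0x7240722071e071c0022000b00050727072109) (nat_lit 0x2a40100) (nat_lit 10))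
 (.p (nat_lit 0x10ee10ec10ea10e80298028b028110f110e709) (nat_lit 0x2800415) (nat_lit 10)))
 (.n (.p (nat_lit 0xcea0ce80ce60ce200d400bf00b70ced0ce509) (nat_lit 0x2940204) (nat_lit 10))
 (.p (nat_lit 0x16e588102) (nat_lit 0x1) (nat_lit 27))))
 (.n (.n (.p (nat_lit 0x256825642562256022c322bb06) (nat_lit 0x88000d2b00) (nat_lit 52))
 (.p (nat_lit 0x510d506702) (nat_lit 0x500822) (nat_lit 15)))
 (.n (.p (nat_lit 0x1d36519f02) (nat_lit 0x140807) (nat_lit 29))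
 (.p (nat_lit 0x5e96440f02) (nat_lit 0x6a00) (nat_lit 47)))))
 (.n (.n (.n (.p (nat_lit 0x17841780177e177a16b916b306) (nat_lit 0x9000054600) (nat_lit 52))
 (.p (nat_lit 0x16ac16aa16a816a4073f073706) (nat_lit 0x110000cc01c) (nat_lit 51)))
 (.n (.p (nat_lit 0x1e5a1e581e541e521e501c2906) (nat_lit 0x400008c805) (nat_lit 51))
 (.p (nat_lit 0x5d570baf02) (nat_lit 0x260080000200) (nat_lit 39))))
 (.n (.n (.p (nat_lit 0x21bc21ba21b821b621b4006321bf07) (nat_lit 0x500a02) (nat_lit 7))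
 (.p (nat_lit 0x4d4e4ee702) (nat_lit 0x540229) (nat_lit 4)))
 (.n (.p (nat_lit 0x8f008ee08ea08e8123f123906) (nat_lit 0x120000c240e) (nat_lit 52))
 (.p (nat_lit 0x638605702) (nat_lit 0x506272b31000000040000) (nat_lit 49))))))

def c1024_749 : Tr :=
 .n (.n (.n (.n (.n (.n (.p (nat_lit 0x4fa04f804f604f404e504db06) (nat_lit 0x10800084000) (nat_lit 52))
 (.p (nat_lit 0x114261d502) (nat_lit 0x54216ac0c800400040000) (nat_lit 49)))
 (.p (nat_lit 0x357e357c357a3576357442c106) (nat_lit 0x2000008712) (nat_lit 52)))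
 (.n (.p (nat_lit 0x18141812180e180c180a246f06) (nat_lit 0x400000eb03) (nat_lit 52))
 (.p (nat_lit 0x3f29375f02) (nat_lit 0x25422d) (nat_lit 16))))
 (.n (.n (.p (nat_lit 0x21bf1e9702) (nat_lit 0x50ea00) (nat_lit 16))
 (.p (nat_lit 0x3dec3f5702) (nat_lit 0x340120) (nat_lit 5)))
 (.n (.p (nat_lit 0x140013fe13fa13f813f60f6f06) (nat_lit 0x40000ca307) (nat_lit 51))
 (.p (nat_lit 0x5e6e34c302) (nat_lit 0x40006800) (nat_lit 48)))))
 (.n (.n (.n (.p (nat_lit 0x13c510cd02) (nat_lit 0x510500) (nat_lit 16))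
 (.p (nat_lit 0x43823e6702) (nat_lit 0x440b19) (nat_lit 5)))
 (.n (.p (nat_lit 0xe748d902) (nat_lit 0x240505) (nat_lit 30))
 (.p (nat_lit 0x5d27064702) (nat_lit 0x260060000000) (nat_lit 41))))
 (.n (.n (.p (nat_lit 0xcd419cd02) (nat_lit 0x540202) (nat_lit 5))
 (.p (nat_lit 0x3b533b4702) (nat_lit 0x40a26) (nat_lit 16)))
 (.n (.p (nat_lit 0x67a06780676067206704a1d06) (nat_lit 0x200004670c) (nat_lit 51))
 (.p (nat_lit 0x64a5fd702) (nat_lit 0x3842a1c35000000040000) (nat_lit 50))))))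
 (.n (.n (.n (.n (.p (nat_lit 0xcef09cd02) (nat_lit 0x54200) (nat_lit 16))
 (.p (nat_lit 0x1be9191f02) (nat_lit 0x100715) (nat_lit 15)))
 (.n (.p (nat_lit 0x17fc1fc102) (nat_lit 0x540604) (nat_lit 4))
 (.p (nat_lit 0x3259e302) (nat_lit 0x400706) (nat_lit 27))))
 (.n (.n (.p (nat_lit 0x2b2a1502) (nat_lit 0x501) (nat_lit 30))
 (.p (nat_lit 0xe8e0e8c0e8a0e860e840b4b06) (nat_lit 0x2000000223) (nat_lit 51)))
 (.n (.p (nat_lit 0x2f342d1b02) (nat_lit 0x300209) (nat_lit 5))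
 (.p (nat_lit 0x20705ed102) (nat_lit 0x4a1a22344000400000600) (nat_lit 49)))))
 (.n (.n (.n (.p (nat_lit 0x19021aeb02) (nat_lit 0x500800) (nat_lit 5))
 (.p (nat_lit 0x30f554102) (nat_lit 0x40071c) (nat_lit 30)))
 (.n (.p (nat_lit 0x4f424f404f3e4f3c4f3a4f38011e07) (nat_lit 0x506) (nat_lit 8))
 (.p (nat_lit 0x5cb75e2302) (nat_lit 0x60000000500) (nat_lit 36))))
 (.n (.n (.p (nat_lit 0x8934cd02) (nat_lit 0x140003) (nat_lit 30))
 (.p (nat_lit 0x233c233a2338233623320cb506) (nat_lit 0x100005622a) (nat_lit 52)))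
 (.n (.p (nat_lit 0x1ef533d02) (nat_lit 0x40090e) (nat_lit 30))
 (.p (nat_lit 0xbae60d902) (nat_lit 0x3542623b0000200040000) (nat_lit 49))))))

def c512_237 : Tr := .n c1024_237 c1024_749

def c1024_493 : Tr :=
 .n (.n (.n (.n (.n (.n (.p (nat_lit 0x30e030a0306031304) (nat_lit 0xa80040001c) (nat_lit 17))
 (.p (nat_lit 0x1146619902) (nat_lit 0x3422a5c14800400040000) (nat_lit 50)))
 (.p (nat_lit 0x1e63b7702) (nat_lit 0xb11) (nat_lit 1)))
 (.n (.p (nat_lit 0x873ad702) (nat_lit 0xa03) (nat_lit 30))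
 (.p (nat_lit 0x2fa4319f02) (nat_lit 0x4022c) (nat_lit 5))))
 (.n (.n (.p (nat_lit 0x1fe21fe01fdc1fda1d331d2d06) (nat_lit 0x12000056900) (nat_lit 51))
 (.p (nat_lit 0x35be55c702) (nat_lit 0x50011f) (nat_lit 29)))
 (.n (.p (nat_lit 0xca2514502) (nat_lit 0x440207) (nat_lit 29))
 (.p (nat_lit 0x5d675e6102) (nat_lit 0x160080000700) (nat_lit 36)))))
 (.n (.n (.n (.p (nat_lit 0x11d811d211d011ce0f650f6306) (nat_lit 0xc0000d0400) (nat_lit 52))
 (.p (nat_lit 0x3b8436a502) (nat_lit 0x100b18) (nat_lit 5)))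
 (.n (.p (nat_lit 0xcf8222b02) (nat_lit 0x540205) (nat_lit 4))
 (.p (nat_lit 0x3a45c3102) (nat_lit 0x20032a) (nat_lit 27))))
 (.n (.n (.p (nat_lit 0x5f82c8302) (nat_lit 0x2) (nat_lit 29))
 (.p (nat_lit 0x2e3a30c302) (nat_lit 0x400125) (nat_lit 4)))
 (.n (.p (nat_lit 0x425e3ccd02) (nat_lit 0x14060b) (nat_lit 5))
 (.p (nat_lit 0x129c5f9302) (nat_lit 0x580bb0344000500000000) (nat_lit 49))))))
 (.n (.n (.n (.n (.p (nat_lit 0xaba0ab60ab40ab20879087106) (nat_lit 0x880008c200) (nat_lit 51))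
 (.p (nat_lit 0x248a2488248624842480138d06) (nat_lit 0x1000096515) (nat_lit 52)))
 (.n (.p (nat_lit 0x13cc411d02) (nat_lit 0x300504) (nat_lit 29))
 (.p (nat_lit 0x90008c008a0088000903ed06) (nat_lit 0x2016403) (nat_lit 26))))
 (.n (.n (.p (nat_lit 0xb680b660b640b620b5e002d0b6107) (nat_lit 0x100201) (nat_lit 7))
 (.p (nat_lit 0xd100d0e0d0c0d080d06088d06) (nat_lit 0x2000006123) (nat_lit 52)))
 (.n (.p (nat_lit 0x4b644b624b604b5e4b5c257506) (nat_lit 0x10000050b07) (nat_lit 51))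
 (.p (nat_lit 0x5cdf248302) (nat_lit 0xe0020000b00) (nat_lit 39)))))
 (.n (.n (.n (.p (nat_lit 0x1959162102) (nat_lit 0x14700) (nat_lit 16))
 (.p (nat_lit 0x3df109e302) (nat_lit 0x55211c) (nat_lit 16)))
 (.n (.p (nat_lit 0xa3c4c2502) (nat_lit 0x240106) (nat_lit 29))
 (.p (nat_lit 0x5d8d0d1102) (nat_lit 0x2000a0000300) (nat_lit 38))))
 (.n (.n (.p (nat_lit 0x3381232502) (nat_lit 0x540a02) (nat_lit 16))
 (.p (nat_lit 0x520051e051c0518051609f506) (nat_lit 0x200004812a) (nat_lit 51)))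
 (.n (.p (nat_lit 0x4fa714cf02) (nat_lit 0x35650e) (nat_lit 16))
 (.p (nat_lit 0x1534609502) (nat_lit 0x342529ca4000000000600) (nat_lit 49))))))

def c1024_1005 : Tr :=
 .n (.n (.n (.n (.n (.p (nat_lit 0x7180714071207100657065306) (nat_lit 0x140000d6000) (nat_lit 52))
 (.p (nat_lit 0x4fe24bdb02) (nat_lit 0x400714) (nat_lit 4)))
 (.n (.p (nat_lit 0x61f061302) (nat_lit 0x116004) (nat_lit 16))
 (.p (nat_lit 0x48ba48b848b448b248b0435506) (nat_lit 0x400008eb2e) (nat_lit 52))))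
 (.n (.n (.p (nat_lit 0x239a239823962394215d215506) (nat_lit 0x8800006b00) (nat_lit 51))
 (.p (nat_lit 0x48d248ce48cc48ca48c8038d48d107) (nat_lit 0x400521) (nat_lit 7)))
 (.n (.p (nat_lit 0x142c142a142814261233123106) (nat_lit 0x180000c4407) (nat_lit 52))
 (.p (nat_lit 0x5cd71f1302) (nat_lit 0x160020000900) (nat_lit 41)))))
 (.n (.n (.n (.p (nat_lit 0x15e215e015dc15d81553154f06) (nat_lit 0x5000010600) (nat_lit 52))
 (.p (nat_lit 0x501c4ccb02) (nat_lit 0x44071b) (nat_lit 5)))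
 (.n (.p (nat_lit 0x197a1976197419721970196106) (nat_lit 0x800008e705) (nat_lit 52))
 (.p (nat_lit 0x5d5308fd02) (nat_lit 0x2a0080000100) (nat_lit 41))))
 (.n (.n (.p (nat_lit 0x14fa18a702) (nat_lit 0x140502) (nat_lit 5))
 (.p (nat_lit 0x44aa477d02) (nat_lit 0x140028) (nat_lit 4)))
 (.n (.p (nat_lit 0xa7e0a7c0a7a0a760a740e1106) (nat_lit 0x200000830e) (nat_lit 52))
 (.p (nat_lit 0x798601902) (nat_lit 0x46ab80b44000100000000) (nat_lit 49))))))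
 (.n (.n (.n (.n (.p (nat_lit 0xe8e0e8c0e8a0e880e840c9106) (nat_lit 0x1000040300) (nat_lit 51))
 (.p (nat_lit 0x22de0b0d02) (nat_lit 0x40a15) (nat_lit 4)))
 (.n (.p (nat_lit 0xb542f702) (nat_lit 0x40704) (nat_lit 30))
 (.p (nat_lit 0x20a5a8502) (nat_lit 0x60e) (nat_lit 27))))
 (.n (.n (.p (nat_lit 0x199e199c199a19961d811d7d06) (nat_lit 0x28000c0801) (nat_lit 52))
 (.p (nat_lit 0x1aa91a9d02) (nat_lit 0x240723) (nat_lit 16)))
 (.n (.p (nat_lit 0x33b5337902) (nat_lit 0x148a09) (nat_lit 16))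
 (.p (nat_lit 0x233c5f1502) (nat_lit 0x3aa530344000500000600) (nat_lit 49)))))
 (.n (.n (.n (.p (nat_lit 0x1cac1caa1ca81ca61a671a5d06) (nat_lit 0x108000c6800) (nat_lit 51))
 (.p (nat_lit 0x307558102) (nat_lit 0xa1c) (nat_lit 30)))
 (.n (.p (nat_lit 0x129e129a1298129612941c3706) (nat_lit 0x800000a806) (nat_lit 52))
 (.p (nat_lit 0x5c9f153502) (nat_lit 0x1e0000000600) (nat_lit 38))))
 (.n (.n (.p (nat_lit 0xce90cdd02) (nat_lit 0x354203) (nat_lit 16))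
 (.p (nat_lit 0x1944131102) (nat_lit 0x20072a) (nat_lit 4)))
 (.n (.p (nat_lit 0x2ada537f02) (nat_lit 0x14050f) (nat_lit 29))
 (.p (nat_lit 0x1f06611b02) (nat_lit 0x350522264000300040600) (nat_lit 49))))))

def c512_493 : Tr := .n c1024_493 c1024_1005

def c256_237 : Tr := .n c512_237 c512_493

def c128_109 : Tr := .n c256_109 c256_237

def c64_45 : Tr := .n c128_45 c128_109

def c32_13 : Tr := .n c64_13 c64_45

def c1024_29 : Tr :=
 .n (.n (.n (.n (.n (.n (.p (nat_lit 0x32002c002a003704) (nat_lit 0x9800400001) (nat_lit 17))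
 (.p (nat_lit 0x8f2612b02) (nat_lit 0x35486a3b0000100040000) (nat_lit 49)))
 (.p (nat_lit 0x2b10277f02) (nat_lit 0x40080f) (nat_lit 5)))
 (.n (.p (nat_lit 0x8737e902) (nat_lit 0x40303) (nat_lit 30))
 (.p (nat_lit 0x1aa8146502) (nat_lit 0x24072a) (nat_lit 5))))
 (.n (.n (.p (nat_lit 0x1cf41cf21cee1cec1a671a6106) (nat_lit 0x120000cc800) (nat_lit 52))
 (.p (nat_lit 0x3b09218702) (nat_lit 0x110a1c) (nat_lit 16)))
 (.n (.p (nat_lit 0x505d1c2f02) (nat_lit 0x6806) (nat_lit 16))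
 (.p (nat_lit 0x5cdf153702) (nat_lit 0xe0020000600) (nat_lit 38)))))
 (.n (.n (.n (.p (nat_lit 0xeb00eae0eac0ea80c990c9106) (nat_lit 0x110000c2300) (nat_lit 52))
 (.p (nat_lit 0x24340b2102) (nat_lit 0x400b15) (nat_lit 5)))
 (.n (.p (nat_lit 0x1cf61cf21cf01cee1cec1ab906) (nat_lit 0x80000cc704) (nat_lit 52))
 (.p (nat_lit 0x5ab05aae5aac5aaa5aa801e301f207) (nat_lit 0x50ab0e) (nat_lit 25))))
 (.n (.n (.p (nat_lit 0x2b571d7f02) (nat_lit 0x142801) (nat_lit 16))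
 (.p (nat_lit 0x1c0b1bff02) (nat_lit 0x823) (nat_lit 16)))
 (.n (.p (nat_lit 0x36bc344502) (nat_lit 0x30020a) (nat_lit 4))
 (.p (nat_lit 0x15345f1f02) (nat_lit 0x1a2260b50000000000600) (nat_lit 49))))))
 (.n (.n (.n (.n (.p (nat_lit 0x77d064d02) (nat_lit 0x54000) (nat_lit 16))
 (.p (nat_lit 0x50a250a0509e509a5098026d509d07) (nat_lit 0x240814) (nat_lit 7)))
 (.n (.p (nat_lit 0xa23077302) (nat_lit 0x140004) (nat_lit 15))
 (.p (nat_lit 0x460a487f02) (nat_lit 0x40022f) (nat_lit 4))))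
 (.n (.n (.p (nat_lit 0x23fa23f623f423f2215d215506) (nat_lit 0x8800090b00) (nat_lit 51))
 (.p (nat_lit 0xeca0ec80ec40ec20ec049f306) (nat_lit 0x400008a721) (nat_lit 51)))
 (.n (.p (nat_lit 0x166d163102) (nat_lit 0x208607) (nat_lit 16))
 (.p (nat_lit 0x5d0f1db102) (nat_lit 0xe0040000900) (nat_lit 40)))))
 (.n (.n (.n (.p (nat_lit 0x1610160e160a16081557155106) (nat_lit 0x12000014600) (nat_lit 51))
 (.p (nat_lit 0x5de05dc05da05d805d4030905d707) (nat_lit 0x10001c) (nat_lit 7)))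
 (.n (.p (nat_lit 0x4a184a164a144a124a104a0e00ee07) (nat_lit 0x40705) (nat_lit 8))
 (.p (nat_lit 0x5dd849df02) (nat_lit 0xa0014100) (nat_lit 47))))
 (.n (.n (.p (nat_lit 0x1eec18b102) (nat_lit 0x902) (nat_lit 4))
 (.p (nat_lit 0x227a2278227622742272452106) (nat_lit 0x1000000c128) (nat_lit 51)))
 (.n (.p (nat_lit 0xf7c52dd02) (nat_lit 0x44030e) (nat_lit 29))
 (.p (nat_lit 0x1538602502) (nat_lit 0x406a6252d000000000600) (nat_lit 49))))))

def c1024_541 : Tr :=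
 .n (.n (.n (.n (.n (.n (.p (nat_lit 0x335031f031403) (nat_lit 0x8280001c) (nat_lit 19))
 (.p (nat_lit 0x234461a102) (nat_lit 0x3222a5c15000500000600) (nat_lit 50)))
 (.p (nat_lit 0x3bd43bd23bce3bcc3bca023f3bd107) (nat_lit 0x340b11) (nat_lit 7)))
 (.n (.p (nat_lit 0x1e401e3e1e3c1e3a1e3821cb06) (nat_lit 0x1000008aa03) (nat_lit 52))
 (.p (nat_lit 0x30a631af02) (nat_lit 0x24032c) (nat_lit 5))))
 (.n (.n (.p (nat_lit 0x20431d3102) (nat_lit 0x44a900) (nat_lit 16))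
 (.p (nat_lit 0x3a72379f02) (nat_lit 0x4051f) (nat_lit 4)))
 (.n (.p (nat_lit 0xcbd0ca502) (nat_lit 0x548207) (nat_lit 16))
 (.p (nat_lit 0x5da95e6302) (nat_lit 0x400a0000700) (nat_lit 37)))))
 (.n (.n (.n (.p (nat_lit 0x12590f5d02) (nat_lit 0x4e400) (nat_lit 16))
 (.p (nat_lit 0x3cf43e9f02) (nat_lit 0x40019) (nat_lit 4)))
 (.n (.p (nat_lit 0xe5a20cf02) (nat_lit 0x300305) (nat_lit 5))
 (.p (nat_lit 0x43b5c6b02) (nat_lit 0x300a2a) (nat_lit 28))))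
 (.n (.n (.p (nat_lit 0x75a183102) (nat_lit 0x140002) (nat_lit 5))
 (.p (nat_lit 0x3916391439123910390e32bb06) (nat_lit 0x10000002925) (nat_lit 51)))
 (.n (.p (nat_lit 0x42f542bb02) (nat_lit 0x50870b) (nat_lit 16))
 (.p (nat_lit 0xfe45f9d02) (nat_lit 0x568bb0344000400000000) (nat_lit 50))))))
 (.n (.n (.n (.n (.p (nat_lit 0xb5b087902) (nat_lit 0x40a200) (nat_lit 16))
 (.p (nat_lit 0x8fe08fc08f808f608f414db06) (nat_lit 0x40000c2515) (nat_lit 51)))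
 (.n (.p (nat_lit 0xb5419f02) (nat_lit 0x40504) (nat_lit 30))
 (.p (nat_lit 0xbe00bc00b600b40007036706) (nat_lit 0x1a0c304) (nat_lit 26))))
 (.n (.n (.p (nat_lit 0x2b282502) (nat_lit 0x40201) (nat_lit 30))
 (.p (nat_lit 0x1f0e1f0c1f081f061f04088f06) (nat_lit 0x4000092123) (nat_lit 52)))
 (.n (.p (nat_lit 0x2870286e286c286a2868016f286707) (nat_lit 0x40208) (nat_lit 7))
 (.p (nat_lit 0x5cf35eb502) (nat_lit 0x2a0040000b00) (nat_lit 37)))))
 (.n (.n (.n (.p (nat_lit 0x1987197b02) (nat_lit 0x540700) (nat_lit 34))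
 (.p (nat_lit 0x100e100c100a1006139b139706) (nat_lit 0x280000251c) (nat_lit 52)))
 (.n (.p (nat_lit 0xb9e24cb02) (nat_lit 0x200206) (nat_lit 5))
 (.p (nat_lit 0x5e0c50bd02) (nat_lit 0x56400) (nat_lit 47))))
 (.n (.n (.p (nat_lit 0x246433c702) (nat_lit 0x400b02) (nat_lit 29))
 (.p (nat_lit 0xb5a142302) (nat_lit 0x40022a) (nat_lit 5)))
 (.n (.p (nat_lit 0x4221163902) (nat_lit 0x1260e) (nat_lit 16))
 (.p (nat_lit 0x2344609d02) (nat_lit 0x346068ca4000500000600) (nat_lit 50))))))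

def c512_29 : Tr := .n c1024_29 c1024_541

def c1024_285 : Tr :=
 .n (.n (.n (.n (.n (.n (.p (nat_lit 0x11c01160114011f04) (nat_lit 0x13000400006) (nat_lit 17))
 (.p (nat_lit 0x1538616302) (nat_lit 0x421aa4395000000000600) (nat_lit 49)))
 (.p (nat_lit 0x338c3388338633843382022b338b07) (nat_lit 0x440a10) (nat_lit 7)))
 (.n (.p (nat_lit 0x3a423a403a3e3a3c3a3a150906) (nat_lit 0x2000046503) (nat_lit 52))
 (.p (nat_lit 0x25a8137502) (nat_lit 0x140b2a) (nat_lit 4))))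
 (.n (.n (.p (nat_lit 0x1e8a1e881e821e801bc91bc706) (nat_lit 0x6000096900) (nat_lit 52))
 (.p (nat_lit 0x2da2303f02) (nat_lit 0x34001e) (nat_lit 4)))
 (.n (.p (nat_lit 0x115511b02) (nat_lit 0x140906) (nat_lit 30))
 (.p (nat_lit 0x5c955e5302) (nat_lit 0x280000000700) (nat_lit 36)))))
 (.n (.n (.n (.p (nat_lit 0x105610521050104c0dfd0df706) (nat_lit 0x900000e400) (nat_lit 51))
 (.p (nat_lit 0xbc80bc60bc40bc20bc0333b06) (nat_lit 0x800000a17) (nat_lit 52)))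
 (.n (.p (nat_lit 0xed43b502) (nat_lit 0x500005) (nat_lit 30))
 (.p (nat_lit 0x5bac5baa5ba85ba65ba403a7034207) (nat_lit 0x31251d) (nat_lit 25))))
 (.n (.n (.p (nat_lit 0x1daa1da61da41da21da0204f06) (nat_lit 0x8000052901) (nat_lit 52))
 (.p (nat_lit 0x3ba5244f02) (nat_lit 0x510b23) (nat_lit 16)))
 (.n (.p (nat_lit 0x4f004ee04ec04ea04e83b6b06) (nat_lit 0x800004b0a) (nat_lit 52))
 (.p (nat_lit 0x7a65f6102) (nat_lit 0x3aa570344000100000000) (nat_lit 50))))))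
 (.n (.n (.n (.n (.p (nat_lit 0x94609440940093e0723071d06) (nat_lit 0x48000ca100) (nat_lit 52))
 (.p (nat_lit 0x139510f102) (nat_lit 0x500415) (nat_lit 15)))
 (.n (.p (nat_lit 0xb73f3302) (nat_lit 0x100304) (nat_lit 30))
 (.p (nat_lit 0x58b058ae58ac58aa58a803a9003607) (nat_lit 0x412401) (nat_lit 25))))
 (.n (.n (.p (nat_lit 0x25b522bd02) (nat_lit 0x14eb00) (nat_lit 16))
 (.p (nat_lit 0x5e0567d02) (nat_lit 0x23) (nat_lit 29)))
 (.n (.p (nat_lit 0x1ea2057f02) (nat_lit 0x500907) (nat_lit 5))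
 (.p (nat_lit 0x5ccd21db02) (nat_lit 0x200020000a00) (nat_lit 41)))))
 (.n (.n (.n (.p (nat_lit 0x17e316b902) (nat_lit 0x44a600) (nat_lit 16))
 (.p (nat_lit 0x9df073b02) (nat_lit 0x34001c) (nat_lit 15)))
 (.n (.p (nat_lit 0xe94a8902) (nat_lit 0x340805) (nat_lit 30))
 (.p (nat_lit 0x5df0334502) (nat_lit 0xa000e200) (nat_lit 47))))
 (.n (.n (.p (nat_lit 0x153e153c153a1538153621b506) (nat_lit 0x80000ca02) (nat_lit 52))
 (.p (nat_lit 0x1168116611641160115e506d06) (nat_lit 0x2000080829) (nat_lit 51)))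
 (.n (.p (nat_lit 0x1daa1da81da61da41da0123706) (nat_lit 0x100005240e) (nat_lit 52))
 (.p (nat_lit 0x13f6606102) (nat_lit 0x85ab0335000500040000) (nat_lit 50))))))

def c1024_797 : Tr :=
 .n (.n (.n (.n (.n (.n (.p (nat_lit 0x52a05280526052404e504db06) (nat_lit 0x10800088000) (nat_lit 51))
 (.p (nat_lit 0x21ce61df02) (nat_lit 0x3508a5d84000400040600) (nat_lit 49)))
 (.p (nat_lit 0x47de454102) (nat_lit 0x300413) (nat_lit 5)))
 (.n (.p (nat_lit 0x3b75247302) (nat_lit 0x500b03) (nat_lit 16))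
 (.p (nat_lit 0x3baa39cb02) (nat_lit 0x200b2d) (nat_lit 4))))
 (.n (.n (.p (nat_lit 0x1ffc1ff61ff41ff20024000900071ffb1ff909) (nat_lit 0x2340a00) (nat_lit 10))
 (.p (nat_lit 0x423e3fe502) (nat_lit 0x300620) (nat_lit 4)))
 (.n (.p (nat_lit 0x2346234423422340233e0f7306) (nat_lit 0x10000056307) (nat_lit 51))
 (.p (nat_lit 0x5e7438e502) (nat_lit 0x60002800) (nat_lit 47)))))
 (.n (.n (.n (.p (nat_lit 0x140c1408140414021225122106) (nat_lit 0xa000042500) (nat_lit 51))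
 (.p (nat_lit 0x485e45bb02) (nat_lit 0x44041a) (nat_lit 4)))
 (.n (.p (nat_lit 0x168e496502) (nat_lit 0x100605) (nat_lit 29))
 (.p (nat_lit 0x5d9f04cd02) (nat_lit 0xe00a0000000) (nat_lit 38))))
 (.n (.n (.p (nat_lit 0x34a0e3902) (nat_lit 0x400302) (nat_lit 1))
 (.p (nat_lit 0x3bf6396302) (nat_lit 0x440b26) (nat_lit 5)))
 (.n (.p (nat_lit 0x4dca4b4302) (nat_lit 0x50030d) (nat_lit 5))
 (.p (nat_lit 0x1ada5fe502) (nat_lit 0x3062a1c35000200000600) (nat_lit 49))))))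
 (.n (.n (.n (.n (.p (nat_lit 0xb360b340b300b2e0022000b00050b390b3309) (nat_lit 0x2a00300) (nat_lit 10))
 (.p (nat_lit 0x1a8d1a8102) (nat_lit 0x48715) (nat_lit 16)))
 (.n (.p (nat_lit 0xfde0fda0fd80fd60fd417fb06) (nat_lit 0x8000048604) (nat_lit 52))
 (.p (nat_lit 0x14a0146014401420199000906) (nat_lit 0x410307) (nat_lit 26))))
 (.n (.n (.p (nat_lit 0x14f614f414f214f014ec002d14ef07) (nat_lit 0x140501) (nat_lit 7))
 (.p (nat_lit 0xca8119102) (nat_lit 0x140223) (nat_lit 4)))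
 (.n (.p (nat_lit 0x300a2ca502) (nat_lit 0x309) (nat_lit 4))
 (.p (nat_lit 0xfd65ed902) (nat_lit 0x4a0d84344000400000000) (nat_lit 49)))))
 (.n (.n (.n (.p (nat_lit 0x1b5e1b5c1b5a1b56190318fb06) (nat_lit 0x11000088800) (nat_lit 52))
 (.p (nat_lit 0x1a96554f02) (nat_lit 0x54071c) (nat_lit 29)))
 (.n (.p (nat_lit 0x1964252302) (nat_lit 0x706) (nat_lit 5))
 (.p (nat_lit 0x5cd113f902) (nat_lit 0x1c0020000500) (nat_lit 41))))
 (.n (.n (.p (nat_lit 0x356a35683566356435623560009207) (nat_lit 0x103) (nat_lit 8))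
 (.p (nat_lit 0xe220e1e0e1c0e1a0e18043d0e2107) (nat_lit 0x40032a) (nat_lit 7)))
 (.n (.p (nat_lit 0x22d3200b02) (nat_lit 0x4090e) (nat_lit 15))
 (.p (nat_lit 0x12a912990fe10fd70d1d0d0d0a530a4d07a7079f04d104c360e80d) (nat_lit 0x440d663a4000000000000) (nat_lit 33))))))

def c512_285 : Tr := .n c1024_285 c1024_797

def c256_29 : Tr := .n c512_29 c512_285

def c1024_157 : Tr :=
 .n (.n (.n (.n (.n (.n (.p (nat_lit 0x90008c009503) (nat_lit 0x14000500003) (nat_lit 17))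
 (.p (nat_lit 0xe6e614902) (nat_lit 0x350221d84000300040000) (nat_lit 49)))
 (.p (nat_lit 0x1a5a1a581a541a521a50310106) (nat_lit 0x4000096410) (nat_lit 52)))
 (.n (.p (nat_lit 0x126e126c126a12661264008b126907) (nat_lit 0x240403) (nat_lit 7))
 (.p (nat_lit 0x43b582702) (nat_lit 0x34092a) (nat_lit 30))))
 (.n (.n (.p (nat_lit 0xbe1bcd02) (nat_lit 0x500900) (nat_lit 1))
 (.p (nat_lit 0x26bc289702) (nat_lit 0x4001d) (nat_lit 5)))
 (.n (.p (nat_lit 0x234823462342233e1d9b1d9706) (nat_lit 0x5000056806) (nat_lit 51))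
 (.p (nat_lit 0x5d275e4502) (nat_lit 0x260060000600) (nat_lit 37)))))
 (.n (.n (.n (.p (nat_lit 0xfc70c9902) (nat_lit 0x554300) (nat_lit 16))
 (.p (nat_lit 0xa7e0a7c0a7a0a760a742ba506) (nat_lit 0x2000008916) (nat_lit 52)))
 (.n (.p (nat_lit 0x25d425d225d025ce25cc00b525cb07) (nat_lit 0x40b04) (nat_lit 7))
 (.p (nat_lit 0x5b2e5b2c5b2a5b285b2602d7028c07) (nat_lit 0x50e915) (nat_lit 25))))
 (.n (.n (.p (nat_lit 0x21b11ee902) (nat_lit 0x400901) (nat_lit 15))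
 (.p (nat_lit 0x40ba40b840b640b240b0203306) (nat_lit 0x20000c2923) (nat_lit 52)))
 (.n (.p (nat_lit 0x38dc350302) (nat_lit 0x50040a) (nat_lit 4))
 (.p (nat_lit 0xe825f3d02) (nat_lit 0x3a2560c64000300040000) (nat_lit 50))))))
 (.n (.n (.n (.n (.p (nat_lit 0x87105bd02) (nat_lit 0x100) (nat_lit 15))
 (.p (nat_lit 0x90a0904090209000731072f06) (nat_lit 0xc000046015) (nat_lit 51)))
 (.n (.p (nat_lit 0xb883e1102) (nat_lit 0x300204) (nat_lit 29))
 (.p (nat_lit 0x4a5e4a5c4a584a564a5404b14a5b07) (nat_lit 0x34072f) (nat_lit 7))))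
 (.n (.n (.p (nat_lit 0x24da24d824d624d424d022bd06) (nat_lit 0x10000c4b00) (nat_lit 51))
 (.p (nat_lit 0x4fb84d8702) (nat_lit 0x40522) (nat_lit 4)))
 (.n (.p (nat_lit 0x43031a6902) (nat_lit 0x52707) (nat_lit 16))
 (.p (nat_lit 0x5e8e3f2d02) (nat_lit 0x8004a900) (nat_lit 47)))))
 (.n (.n (.n (.p (nat_lit 0x171817161710170e16b716b506) (nat_lit 0x60000c6600) (nat_lit 51))
 (.p (nat_lit 0x2d0705df02) (nat_lit 0x50e01c) (nat_lit 16)))
 (.n (.p (nat_lit 0x1d911ac502) (nat_lit 0x440705) (nat_lit 15))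
 (.p (nat_lit 0x5de63b8702) (nat_lit 0x40010200) (nat_lit 48))))
 (.n (.n (.p (nat_lit 0x1b481b441b421b3e205b205506) (nat_lit 0x90000c6902) (nat_lit 52))
 (.p (nat_lit 0x4f7c4f7a4f764f744f724b9706) (nat_lit 0x4000044029) (nat_lit 51)))
 (.n (.p (nat_lit 0x1aea1ae81ae61ae41ae010dd06) (nat_lit 0x100001040e) (nat_lit 51))
 (.p (nat_lit 0xe72604302) (nat_lit 0x40a96254c800300040000) (nat_lit 49))))))

def c1024_669 : Tr :=
 .n (.n (.n (.n (.n (.n (.p (nat_lit 0x45b04510449044404) (nat_lit 0x5080002a) (nat_lit 20))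
 (.p (nat_lit 0x64a61c302) (nat_lit 0x3221a9c15000000040000) (nat_lit 50)))
 (.p (nat_lit 0x25153df02) (nat_lit 0x140512) (nat_lit 30)))
 (.n (.p (nat_lit 0x24722470246e246c24680089246b07) (nat_lit 0x100b03) (nat_lit 7))
 (.p (nat_lit 0x365039a102) (nat_lit 0x34012d) (nat_lit 4))))
 (.n (.n (.p (nat_lit 0x2146214421422140213c1e8f06) (nat_lit 0x1000010a00) (nat_lit 51))
 (.p (nat_lit 0x3bf13be502) (nat_lit 0x14ab1f) (nat_lit 16)))
 (.n (.p (nat_lit 0x10d70e0902) (nat_lit 0x400307) (nat_lit 15))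
 (.p (nat_lit 0x5cdb5e6d02) (nat_lit 0x120020000800) (nat_lit 37)))))
 (.n (.n (.n (.p (nat_lit 0x12f212f012ee12ec12e810c506) (nat_lit 0x1000086500) (nat_lit 51))
 (.p (nat_lit 0xc680c660c640c620c60423706) (nat_lit 0x10000014619) (nat_lit 51)))
 (.n (.p (nat_lit 0x127e47ef02) (nat_lit 0x140405) (nat_lit 29))
 (.p (nat_lit 0x5cd35db502) (nat_lit 0x1a0020000000) (nat_lit 36))))
 (.n (.n (.p (nat_lit 0xa122e4902) (nat_lit 0x540102) (nat_lit 29))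
 (.p (nat_lit 0x1d261d221d201d1e1d1c364706) (nat_lit 0x80000d6126) (nat_lit 52)))
 (.n (.p (nat_lit 0x47d4445902) (nat_lit 0x40040c) (nat_lit 4))
 (.p (nat_lit 0x1ae65fc902) (nat_lit 0x9582ec15800200000600) (nat_lit 50))))))
 (.n (.n (.n (.n (.p (nat_lit 0xc020c000bfe0bfc09d709cd06) (nat_lit 0x108000ca200) (nat_lit 52))
 (.p (nat_lit 0x422f164702) (nat_lit 0x112615) (nat_lit 16)))
 (.n (.p (nat_lit 0x18121810180e180c180a168b06) (nat_lit 0x1000000e604) (nat_lit 52))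
 (.p (nat_lit 0xec00e800e600e400bd000106) (nat_lit 0x2010705) (nat_lit 26))))
 (.n (.n (.p (nat_lit 0x10f8172102) (nat_lit 0x300401) (nat_lit 4))
 (.p (nat_lit 0x1db61db41db21dae1dac09e906) (nat_lit 0x2000052123) (nat_lit 51)))
 (.n (.p (nat_lit 0x2bdf2b4d02) (nat_lit 0x140808) (nat_lit 15))
 (.p (nat_lit 0x5da55ec302) (nat_lit 0x800a0000b00) (nat_lit 36)))))
 (.n (.n (.n (.p (nat_lit 0x1a581a561a541a50179d179506) (nat_lit 0x110000d6700) (nat_lit 52))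
 (.p (nat_lit 0x421114e702) (nat_lit 0x35251c) (nat_lit 16)))
 (.n (.p (nat_lit 0x113624fb02) (nat_lit 0x400406) (nat_lit 4))
 (.p (nat_lit 0x5d635e1d02) (nat_lit 0x1a0080000400) (nat_lit 37))))
 (.n (.n (.p (nat_lit 0x17521750174e174a25bd25b506) (nat_lit 0x11000050b02) (nat_lit 51))
 (.p (nat_lit 0xcbc12db02) (nat_lit 0x54022a) (nat_lit 5)))
 (.n (.p (nat_lit 0x2b091bdb02) (nat_lit 0xc80e) (nat_lit 16))
 (.p (nat_lit 0xe7260cb02) (nat_lit 0x3505623a4000300040000) (nat_lit 49))))))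

def c512_157 : Tr := .n c1024_157 c1024_669

def c1024_413 : Tr :=
 .n (.n (.n (.n (.n (.n (.p (nat_lit 0x2140210020e021704) (nat_lit 0x1600040000f) (nat_lit 17))
 (.p (nat_lit 0xe74618302) (nat_lit 0x421a86b15000300040000) (nat_lit 49)))
 (.p (nat_lit 0x397435f102) (nat_lit 0x140411) (nat_lit 4)))
 (.n (.p (nat_lit 0x8d3abf02) (nat_lit 0x340603) (nat_lit 30))
 (.p (nat_lit 0x2bc42ac102) (nat_lit 0x92b) (nat_lit 4))))
 (.n (.n (.p (nat_lit 0x1f7a1f781f741f721f701d2f06) (nat_lit 0x40000c6900) (nat_lit 52))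
 (.p (nat_lit 0x28fa28f828f628f428f233f706) (nat_lit 0x10000080b1e) (nat_lit 52)))
 (.n (.p (nat_lit 0x7ce07cc07c807c40b410b3d06) (nat_lit 0x5000008207) (nat_lit 52))
 (.p (nat_lit 0x5d41198302) (nat_lit 0xc0060000700) (nat_lit 41)))))
 (.n (.n (.n (.p (nat_lit 0x1151114502) (nat_lit 0x540400) (nat_lit 34))
 (.p (nat_lit 0x1cf61cf21cf01cee1cec39f306) (nat_lit 0x800008c518) (nat_lit 52)))
 (.n (.p (nat_lit 0xcef0a2d02) (nat_lit 0x40105) (nat_lit 15))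
 (.p (nat_lit 0x5bec5bea5be85be65be4039303ac07) (nat_lit 0x4b23) (nat_lit 25))))
 (.n (.n (.p (nat_lit 0x38004700411615178705) (nat_lit 0x45840a01) (nat_lit 9))
 (.p (nat_lit 0x287c297302) (nat_lit 0x540224) (nat_lit 5)))
 (.n (.p (nat_lit 0x3fa13f9902) (nat_lit 0x40430b) (nat_lit 16))
 (.p (nat_lit 0x1ae05f8102) (nat_lit 0x581a22b44000200000600) (nat_lit 50))))))
 (.n (.n (.n (.n (.p (nat_lit 0x87a08760874087208700009087907) (nat_lit 0x400200) (nat_lit 7))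
 (.p (nat_lit 0x63e063c063a06360634138f06) (nat_lit 0x2000080515) (nat_lit 52)))
 (.n (.p (nat_lit 0x40a240a0409e409c409a409800c007) (nat_lit 0x40404) (nat_lit 8))
 (.p (nat_lit 0x60005e005a00580035000506) (nat_lit 0x2a16a02) (nat_lit 26))))
 (.n (.n (.p (nat_lit 0x3326dd02) (nat_lit 0x400101) (nat_lit 30))
 (.p (nat_lit 0x142414221420141e0743074106) (nat_lit 0x1800044023) (nat_lit 51)))
 (.n (.p (nat_lit 0x230b22cf02) (nat_lit 0x448a07) (nat_lit 16))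
 (.p (nat_lit 0x5ea41f0102) (nat_lit 0x8000ca00) (nat_lit 48)))))
 (.n (.n (.n (.p (nat_lit 0x18de18dc18d818d61627162106) (nat_lit 0x4800094700) (nat_lit 51))
 (.p (nat_lit 0x4c09088502) (nat_lit 0x41611c) (nat_lit 16)))
 (.n (.p (nat_lit 0x78e24ab02) (nat_lit 0x340006) (nat_lit 5))
 (.p (nat_lit 0x5d295e0102) (nat_lit 0x240060000300) (nat_lit 36))))
 (.n (.n (.p (nat_lit 0xe760e740e720e700e6c231d06) (nat_lit 0x10000c6a02) (nat_lit 52))
 (.p (nat_lit 0x56605620560055e055c089d06) (nat_lit 0x800001012a) (nat_lit 52)))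
 (.n (.p (nat_lit 0x1e952ef02) (nat_lit 0x14050e) (nat_lit 30))
 (.p (nat_lit 0x1db0608102) (nat_lit 0x354221ca4000300000600) (nat_lit 50))))))

def c1024_925 : Tr :=
 .n (.n (.n (.n (.n (.p (nat_lit 0x66e066a066806660664065506) (nat_lit 0x80000c4000) (nat_lit 51))
 (.p (nat_lit 0x4e304e2e4e2c4e284e26026d4e2b07) (nat_lit 0x240314) (nat_lit 7)))
 (.n (.p (nat_lit 0x2496249424922490248e25bf06) (nat_lit 0x8000d6b03) (nat_lit 51))
 (.p (nat_lit 0x425241cd02) (nat_lit 0x10062e) (nat_lit 5))))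
 (.n (.n (.p (nat_lit 0x22ed1ff502) (nat_lit 0x146a00) (nat_lit 16))
 (.p (nat_lit 0x440e470b02) (nat_lit 0x21) (nat_lit 5)))
 (.n (.p (nat_lit 0x38dd10d902) (nat_lit 0x510407) (nat_lit 16))
 (.p (nat_lit 0x5d875e7b02) (nat_lit 0x2600a0000800) (nat_lit 36)))))
 (.n (.n (.n (.p (nat_lit 0x1505121d02) (nat_lit 0x50500) (nat_lit 16))
 (.p (nat_lit 0x4a9845ef02) (nat_lit 0x14081a) (nat_lit 4)))
 (.n (.p (nat_lit 0x24062402240023fe23fc180706) (nat_lit 0x8000052605) (nat_lit 51))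
 (.p (nat_lit 0x5dcc338702) (nat_lit 0x4004e100) (nat_lit 47))))
 (.n (.n (.p (nat_lit 0x5b310902) (nat_lit 0x140402) (nat_lit 30))
 (.p (nat_lit 0x1168116611621160115e424b06) (nat_lit 0x4000080627) (nat_lit 51)))
 (.n (.p (nat_lit 0x50e04b7302) (nat_lit 0x90d) (nat_lit 4))
 (.p (nat_lit 0x1140600102) (nat_lit 0x405aa2354800400040000) (nat_lit 49))))))
 (.n (.n (.n (.n (.p (nat_lit 0xdff0b3902) (nat_lit 0x500300) (nat_lit 15))
 (.p (nat_lit 0x289548d02) (nat_lit 0x440915) (nat_lit 30)))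
 (.n (.p (nat_lit 0x1af61af41af01aee1aec195306) (nat_lit 0x4000000704) (nat_lit 51))
 (.p (nat_lit 0x1b601b401b201ac019d00b706) (nat_lit 0x110e30b) (nat_lit 26))))
 (.n (.n (.p (nat_lit 0x1a421a401a3e1a3c1a3a1c1706) (nat_lit 0x800094801) (nat_lit 52))
 (.p (nat_lit 0x17ce104102) (nat_lit 0x40623) (nat_lit 4)))
 (.n (.p (nat_lit 0x32bf329302) (nat_lit 0x108909) (nat_lit 16))
 (.p (nat_lit 0x6345ef702) (nat_lit 0x3a2530344000000040000) (nat_lit 49)))))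
 (.n (.n (.n (.p (nat_lit 0x1c39190302) (nat_lit 0x516800) (nat_lit 16))
 (.p (nat_lit 0x307556902) (nat_lit 0x91c) (nat_lit 30)))
 (.n (.p (nat_lit 0x16121610160c160a1acf1ac906) (nat_lit 0x4800054706) (nat_lit 51))
 (.p (nat_lit 0x5d4f12a902) (nat_lit 0x2e0080000500) (nat_lit 40))))
 (.n (.n (.p (nat_lit 0xa250a1902) (nat_lit 0x254103) (nat_lit 16))
 (.p (nat_lit 0x166c12f902) (nat_lit 0x20062a) (nat_lit 4)))
 (.n (.p (nat_lit 0x257e09c902) (nat_lit 0x440b0e) (nat_lit 4))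
 (.p (nat_lit 0x634610d02) (nat_lit 0x3425219b0000000040000) (nat_lit 49))))))

def c512_413 : Tr := .n c1024_413 c1024_925

def c256_157 : Tr := .n c512_157 c512_413

def c128_29 : Tr := .n c256_29 c256_157

def c1024_93 : Tr :=
 .n (.n (.n (.n (.n (.n (.p (nat_lit 0x5c005a006703) (nat_lit 0x3000500002) (nat_lit 17))
 (.p (nat_lit 0x1da2613502) (nat_lit 0x342a21d84000300000600) (nat_lit 49)))
 (.p (nat_lit 0x1f02bf302) (nat_lit 0x54090f) (nat_lit 1)))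
 (.n (.p (nat_lit 0x110c387902) (nat_lit 0x100403) (nat_lit 29))
 (.p (nat_lit 0x1d78148102) (nat_lit 0x44082a) (nat_lit 4))))
 (.n (.n (.p (nat_lit 0x1d471a6302) (nat_lit 0x342800) (nat_lit 16))
 (.p (nat_lit 0x243e0f4b02) (nat_lit 0x300b1c) (nat_lit 5)))
 (.n (.p (nat_lit 0xe820e800e7e0e7c0e781d9706) (nat_lit 0x10000c6806) (nat_lit 51))
 (.p (nat_lit 0x5d0d153902) (nat_lit 0x100040000600) (nat_lit 38)))))
 (.n (.n (.n (.p (nat_lit 0xf420f400f3a0f380c950c9306) (nat_lit 0x60000d4300) (nat_lit 51))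
 (.p (nat_lit 0x1760175e175c175a17562a7106) (nat_lit 0x1000090516) (nat_lit 51)))
 (.n (.p (nat_lit 0x247e1fe502) (nat_lit 0x500b04) (nat_lit 5))
 (.p (nat_lit 0x2645af702) (nat_lit 0x400b12) (nat_lit 27))))
 (.n (.n (.p (nat_lit 0xd1c0d180d160d140d121ee906) (nat_lit 0x8000006901) (nat_lit 51))
 (.p (nat_lit 0x1ec8107d02) (nat_lit 0x923) (nat_lit 5)))
 (.n (.p (nat_lit 0x1b601b5e1b5c1b5a1b5837d306) (nat_lit 0x80008830a) (nat_lit 52))
 (.p (nat_lit 0x23445f3102) (nat_lit 0x3aa560b44000500000600) (nat_lit 50))))))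
 (.n (.n (.n (.n (.p (nat_lit 0x7c207c007bc07ba07b805c306) (nat_lit 0x4000086100) (nat_lit 52))
 (.p (nat_lit 0x922091e091c091a091805d106) (nat_lit 0x8000008015) (nat_lit 51)))
 (.n (.p (nat_lit 0xa261f4702) (nat_lit 0x340104) (nat_lit 4))
 (.p (nat_lit 0x479c479847964794479246fb06) (nat_lit 0x800008232f) (nat_lit 51))))
 (.n (.n (.p (nat_lit 0x246b215702) (nat_lit 0x110b00) (nat_lit 16))
 (.p (nat_lit 0x4b864ded02) (nat_lit 0x140022) (nat_lit 4)))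
 (.n (.p (nat_lit 0x190e190c190a19060152014501411909190509) (nat_lit 0x1000707) (nat_lit 10))
 (.p (nat_lit 0x5d275e8b02) (nat_lit 0x260060000900) (nat_lit 36)))))
 (.n (.n (.n (.p (nat_lit 0x16ae16ac16aa16a816a616a406) (nat_lit 0x40600) (nat_lit 3))
 (.p (nat_lit 0x140013fa13f813f605dd05db06) (nat_lit 0xc00008a01c) (nat_lit 51)))
 (.n (.p (nat_lit 0x1150114e114c114a11481abd06) (nat_lit 0x8000c8705) (nat_lit 51))
 (.p (nat_lit 0x5cdf5de102) (nat_lit 0xe0020000200) (nat_lit 37))))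
 (.n (.n (.p (nat_lit 0x1bb41bb01bae1bac1baa1ef506) (nat_lit 0x8000016902) (nat_lit 52))
 (.p (nat_lit 0x498e47ad02) (nat_lit 0x100628) (nat_lit 4)))
 (.n (.p (nat_lit 0x10e210e010de10dc10da01f110e507) (nat_lit 0x50040e) (nat_lit 7))
 (.p (nat_lit 0x154a603502) (nat_lit 0x4099a2335000000000600) (nat_lit 50))))))

def c1024_605 : Tr :=
 .n (.n (.n (.n (.n (.n (.p (nat_lit 0x3b703b303ae03) (nat_lit 0x1900023) (nat_lit 19))
 (.p (nat_lit 0x63861b302) (nat_lit 0x522266c0d000000040000) (nat_lit 49)))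
 (.p (nat_lit 0x418d408902) (nat_lit 0x300412) (nat_lit 15)))
 (.n (.p (nat_lit 0x232a3b2902) (nat_lit 0x240a03) (nat_lit 29))
 (.p (nat_lit 0x142414221420141e141c335f06) (nat_lit 0x800004a2c) (nat_lit 51))))
 (.n (.n (.p (nat_lit 0x20c620c220c020be1e951e8d06) (nat_lit 0x8800084a00) (nat_lit 51))
 (.p (nat_lit 0x3b9437c102) (nat_lit 0x300b1f) (nat_lit 4)))
 (.n (.p (nat_lit 0xbbc0bb80bb60bb40bb20e0906) (nat_lit 0x8000084307) (nat_lit 51))
 (.p (nat_lit 0x5cb91c3b02) (nat_lit 0x40000000800) (nat_lit 39)))))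
 (.n (.n (.n (.p (nat_lit 0x12ab129f02) (nat_lit 0x500500) (nat_lit 34))
 (.p (nat_lit 0x42023e2d02) (nat_lit 0x40519) (nat_lit 5)))
 (.n (.p (nat_lit 0x4720471e471c471a4718471606) (nat_lit 0xc0305) (nat_lit 52))
 (.p (nat_lit 0x5cb304c302) (nat_lit 0xa0000000000) (nat_lit 38))))
 (.n (.n (.p (nat_lit 0x2d9f075b02) (nat_lit 0x146002) (nat_lit 16))
 (.p (nat_lit 0x35c0390f02) (nat_lit 0x126) (nat_lit 5)))
 (.n (.p (nat_lit 0x467e443b02) (nat_lit 0x54020c) (nat_lit 5))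
 (.p (nat_lit 0x154a5fbf02) (nat_lit 0x89832955800000000600) (nat_lit 50))))))
 (.n (.n (.n (.n (.p (nat_lit 0xbc80bc60bc20bbe09d309cf06) (nat_lit 0x5000040200) (nat_lit 52))
 (.p (nat_lit 0x2346234423422340233e14df06) (nat_lit 0x10000056515) (nat_lit 51)))
 (.n (.p (nat_lit 0x168a1fb502) (nat_lit 0x500604) (nat_lit 5))
 (.p (nat_lit 0xea00e600e400e2000b01cb06) (nat_lit 0x2b0e005) (nat_lit 26))))
 (.n (.n (.p (nat_lit 0xe2e0e2c0e280e2600400031002b0e2b0e2509) (nat_lit 0x1800301) (nat_lit 10))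
 (.p (nat_lit 0x9ec09ea09e809e609e403ab09ef07) (nat_lit 0x540123) (nat_lit 7)))
 (.n (.p (nat_lit 0x29fc267902) (nat_lit 0x40408) (nat_lit 4))
 (.p (nat_lit 0x5eba4c8d02) (nat_lit 0x60048b00) (nat_lit 48)))))
 (.n (.n (.n (.p (nat_lit 0x1a1a1a181a161a14179d179b06) (nat_lit 0x18000052700) (nat_lit 51))
 (.p (nat_lit 0x14e80d6302) (nat_lit 0x44051c) (nat_lit 4)))
 (.n (.p (nat_lit 0x4dbe4dbc4dba4db84db64db406) (nat_lit 0x12306) (nat_lit 52))
 (.p (nat_lit 0x5cef0fd902) (nat_lit 0x2e0040000400) (nat_lit 38))))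
 (.n (.n (.p (nat_lit 0x33e5246102) (nat_lit 0x204b02) (nat_lit 16))
 (.p (nat_lit 0x198619841982197e0b570b5306) (nat_lit 0x280008e22a) (nat_lit 51)))
 (.n (.p (nat_lit 0x1a7e531b02) (nat_lit 0x54070e) (nat_lit 29))
 (.p (nat_lit 0x169860af02) (nat_lit 0x344589ca4000000040600) (nat_lit 49))))))

def c512_93 : Tr := .n c1024_93 c1024_605

def c1024_349 : Tr :=
 .n (.n (.n (.n (.n (.n (.p (nat_lit 0x165015b0153015004) (nat_lit 0x50800007) (nat_lit 20))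
 (.p (nat_lit 0xbb4617302) (nat_lit 0x421aa6315000200040000) (nat_lit 50)))
 (.p (nat_lit 0x37063702370036fe36fc386d06) (nat_lit 0x800004a311) (nat_lit 51)))
 (.n (.p (nat_lit 0x18ba18b818b618b418b0167706) (nat_lit 0x1000012603) (nat_lit 52))
 (.p (nat_lit 0x28842a3b02) (nat_lit 0x34022b) (nat_lit 5))))
 (.n (.n (.p (nat_lit 0x1d281f1102) (nat_lit 0x40900) (nat_lit 5))
 (.p (nat_lit 0x3348306902) (nat_lit 0x100a1e) (nat_lit 5)))
 (.n (.p (nat_lit 0x22ac22a822a622a422a2206706) (nat_lit 0x8000050906) (nat_lit 52))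
 (.p (nat_lit 0x5e5631ef02) (nat_lit 0x20004700) (nat_lit 48)))))
 (.n (.n (.n (.p (nat_lit 0x10e70df502) (nat_lit 0x4400) (nat_lit 16))
 (.p (nat_lit 0x35b635b435b235b035ac34b506) (nat_lit 0x1000096018) (nat_lit 51)))
 (.n (.p (nat_lit 0xa33078302) (nat_lit 0x340005) (nat_lit 15))
 (.p (nat_lit 0x39c039a039603920309042306) (nat_lit 0xb10522) (nat_lit 26))))
 (.n (.n (.p (nat_lit 0x21ae178102) (nat_lit 0x300a01) (nat_lit 4))
 (.p (nat_lit 0x30273b02) (nat_lit 0x300124) (nat_lit 1)))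
 (.n (.p (nat_lit 0x3c013bc502) (nat_lit 0x348b0a) (nat_lit 16))
 (.p (nat_lit 0x181c5f7302) (nat_lit 0x1aa074b50000100000600) (nat_lit 50))))))
 (.n (.n (.n (.n (.p (nat_lit 0xa01072102) (nat_lit 0x24c100) (nat_lit 16))
 (.p (nat_lit 0xd400d3c0d3a0d380d36124906) (nat_lit 0x8000042415) (nat_lit 51)))
 (.n (.p (nat_lit 0x3ff43ff23fee3fec3fea0fb706) (nat_lit 0x40000cc304) (nat_lit 52))
 (.p (nat_lit 0x5f58dd02) (nat_lit 0x300002) (nat_lit 28))))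
 (.n (.n (.p (nat_lit 0x74c264902) (nat_lit 0x40001) (nat_lit 29))
 (.p (nat_lit 0x12f012ee12ec12ea05eb05e106) (nat_lit 0x10800086023) (nat_lit 51)))
 (.n (.p (nat_lit 0x216806f502) (nat_lit 0x400a07) (nat_lit 4))
 (.p (nat_lit 0x5d335ea302) (nat_lit 0x1a0060000a00) (nat_lit 37)))))
 (.n (.n (.n (.p (nat_lit 0x18661864185e185c1627162506) (nat_lit 0x6000084700) (nat_lit 52))
 (.p (nat_lit 0x8860884087e087c032a030d030b0883088109) (nat_lit 0x1a0011c) (nat_lit 10)))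
 (.n (.p (nat_lit 0x1fe41fe01fdc1fda1d911d8d06) (nat_lit 0xa000056805) (nat_lit 51))
 (.p (nat_lit 0x5d1d5dfd02) (nat_lit 0x40000300) (nat_lit 36))))
 (.n (.n (.p (nat_lit 0x336921bf02) (nat_lit 0x50aa02) (nat_lit 16))
 (.p (nat_lit 0x44204490453140512af05) (nat_lit 0x4190012a) (nat_lit 9)))
 (.n (.p (nat_lit 0x138207e102) (nat_lit 0x20050e) (nat_lit 5))
 (.p (nat_lit 0xa50607302) (nat_lit 0x570aa2344000200000000) (nat_lit 50))))))

def c1024_861 : Tr :=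
 .n (.n (.n (.n (.n (.n (.p (nat_lit 0x5ff04e102) (nat_lit 0x30e000) (nat_lit 16))
 (.p (nat_lit 0x233a61ed02) (nat_lit 0x382a31d05000500000600) (nat_lit 49)))
 (.p (nat_lit 0x49d444df02) (nat_lit 0x713) (nat_lit 4)))
 (.n (.p (nat_lit 0xa5a0a580a560a540a5025c106) (nat_lit 0x1000044b03) (nat_lit 51))
 (.p (nat_lit 0xb83e8302) (nat_lit 0x20022e) (nat_lit 1))))
 (.n (.n (.p (nat_lit 0x229422922290228c1ff71ff306) (nat_lit 0x280004ea00) (nat_lit 51))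
 (.p (nat_lit 0x42de42dc42da42d642d4036742d907) (nat_lit 0x200720) (nat_lit 7)))
 (.n (.p (nat_lit 0x10d4051d02) (nat_lit 0x300407) (nat_lit 5))
 (.p (nat_lit 0x5d575e7702) (nat_lit 0x260080000800) (nat_lit 36)))))
 (.n (.n (.n (.p (nat_lit 0x1460145c145a14581225121d06) (nat_lit 0x880004e500) (nat_lit 51))
 (.p (nat_lit 0x54ee54ec54ea54e854e654e402fe07) (nat_lit 0x61a) (nat_lit 8)))
 (.n (.p (nat_lit 0x240e240c240a24081697169506) (nat_lit 0x18000092605) (nat_lit 51))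
 (.p (nat_lit 0x5cdb08eb02) (nat_lit 0x120020000100) (nat_lit 39))))
 (.n (.n (.p (nat_lit 0xfa2302b02) (nat_lit 0x540302) (nat_lit 29))
 (.p (nat_lit 0x3df6403702) (nat_lit 0x240127) (nat_lit 5)))
 (.n (.p (nat_lit 0x26ae26ac26aa26a826a44fd306) (nat_lit 0x100009270d) (nat_lit 52))
 (.p (nat_lit 0x1ae05ff502) (nat_lit 0x306a81c35000200000600) (nat_lit 50))))))
 (.n (.n (.n (.n (.p (nat_lit 0xd560d540d520d4e0b390b3106) (nat_lit 0x1100000a300) (nat_lit 52))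
 (.p (nat_lit 0x5476547454725470546e546c028e1d551d4f1d4d0a) (nat_lit 0x10840815) (nat_lit 31)))
 (.n (.p (nat_lit 0x426717fd02) (nat_lit 0x540604) (nat_lit 16))
 (.p (nat_lit 0x5a3a5a385a345a325a3001ed019007) (nat_lit 0x314209) (nat_lit 25))))
 (.n (.n (.p (nat_lit 0x3800450049174d15db05) (nat_lit 0xa1900801) (nat_lit 9))
 (.p (nat_lit 0xf1e0f1c0f1a0f180f160ca706) (nat_lit 0x800052223) (nat_lit 51)))
 (.n (.p (nat_lit 0x1a361a321a301a2e1a2c309306) (nat_lit 0x8000054309) (nat_lit 51))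
 (.p (nat_lit 0x207a5ee902) (nat_lit 0x4a8866344000400000600) (nat_lit 50)))))
 (.n (.n (.n (.p (nat_lit 0x1bc01bbe1bba1bb81bb618ff06) (nat_lit 0x4000096800) (nat_lit 51))
 (.p (nat_lit 0x1c031bf702) (nat_lit 0x20a81c) (nat_lit 16)))
 (.n (.p (nat_lit 0x4fdd196702) (nat_lit 0x102706) (nat_lit 16))
 (.p (nat_lit 0x5d3d129b02) (nat_lit 0x100060000500) (nat_lit 38))))
 (.n (.n (.p (nat_lit 0xa1635d902) (nat_lit 0x140103) (nat_lit 29))
 (.p (nat_lit 0xf84144302) (nat_lit 0x24032a) (nat_lit 4)))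
 (.n (.p (nat_lit 0x258122dd02) (nat_lit 0x540a0e) (nat_lit 15))
 (.p (nat_lit 0x1db660f502) (nat_lit 0x440d623a4000300000600) (nat_lit 50))))))

def c512_349 : Tr := .n c1024_349 c1024_861

def c256_93 : Tr := .n c512_93 c512_349

def c1024_221 : Tr :=
 .n (.n (.n (.n (.n (.n (.p (nat_lit 0xd900d700c900c404) (nat_lit 0x51800004) (nat_lit 20))
 (.p (nat_lit 0x2336615302) (nat_lit 0x1503a8895800500000600) (nat_lit 49)))
 (.p (nat_lit 0x327f327302) (nat_lit 0x346510) (nat_lit 16)))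
 (.n (.p (nat_lit 0x13c01b6902) (nat_lit 0x300503) (nat_lit 4))
 (.p (nat_lit 0x2453219f02) (nat_lit 0x100a2a) (nat_lit 15))))
 (.n (.n (.p (nat_lit 0x1e4e1e4c1e4a1e461e441bc706) (nat_lit 0x200000c900) (nat_lit 52))
 (.p (nat_lit 0xd400d3e0d3c0d3a0d382bad06) (nat_lit 0x80000291d) (nat_lit 51)))
 (.n (.p (nat_lit 0x11d50df02) (nat_lit 0x500906) (nat_lit 30))
 (.p (nat_lit 0x5d9f5e4f02) (nat_lit 0xe00a0000600) (nat_lit 36)))))
 (.n (.n (.n (.p (nat_lit 0x100210000ffa0ff80dfb0df906) (nat_lit 0x6000080400) (nat_lit 52))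
 (.p (nat_lit 0x32782ef102) (nat_lit 0x40517) (nat_lit 5)))
 (.n (.p (nat_lit 0x22942290228e228c228a25d306) (nat_lit 0x800004eb04) (nat_lit 51))
 (.p (nat_lit 0x2845b7302) (nat_lit 0x20071a) (nat_lit 27))))
 (.n (.n (.p (nat_lit 0x64a0648064606440642204706) (nat_lit 0x8000c0901) (nat_lit 51))
 (.p (nat_lit 0x230722fb02) (nat_lit 0x240a23) (nat_lit 16)))
 (.n (.p (nat_lit 0x2ca02c9e2c9c2c9a2c983a9506) (nat_lit 0x1000008460a) (nat_lit 52))
 (.p (nat_lit 0x1da25f5502) (nat_lit 0x1a2522350000300000600) (nat_lit 49))))))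
 (.n (.n (.n (.n (.p (nat_lit 0x72008f902) (nat_lit 0x240100) (nat_lit 5))
 (.p (nat_lit 0x10ec541302) (nat_lit 0x300415) (nat_lit 29)))
 (.n (.p (nat_lit 0xce83e9102) (nat_lit 0x340204) (nat_lit 29))
 (.p (nat_lit 0x1418141614141410140e507906) (nat_lit 0x2000082830) (nat_lit 51))))
 (.n (.n (.p (nat_lit 0x255c255a25562554255222c106) (nat_lit 0x4000052b00) (nat_lit 52))
 (.p (nat_lit 0xe8e0e8a0e880e860e84506506) (nat_lit 0x8000000822) (nat_lit 51)))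
 (.n (.p (nat_lit 0x1be51bd902) (nat_lit 0x504807) (nat_lit 16))
 (.p (nat_lit 0x5c975e9702) (nat_lit 0x260000000a00) (nat_lit 37)))))
 (.n (.n (.n (.p (nat_lit 0x177817741772177016b916b106) (nat_lit 0x88000d2600) (nat_lit 52))
 (.p (nat_lit 0x11441140113e113c113a073d06) (nat_lit 0x80000c801c) (nat_lit 52)))
 (.n (.p (nat_lit 0x1dda1dd81dd61dd41dd01c2506) (nat_lit 0x1000002805) (nat_lit 51))
 (.p (nat_lit 0x5d610a4d02) (nat_lit 0x1c0080000200) (nat_lit 38))))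
 (.n (.n (.p (nat_lit 0x21be21bc21ba21b821b4005b21b707) (nat_lit 0x100a02) (nat_lit 7))
 (.p (nat_lit 0x24122410240e240c240a4c8706) (nat_lit 0x8000d2129) (nat_lit 51)))
 (.n (.p (nat_lit 0x123e123a12381236123401ef123d07) (nat_lit 0x44040e) (nat_lit 7))
 (.p (nat_lit 0x2074605302) (nat_lit 0x40a962335000400000600) (nat_lit 49))))))

def c1024_733 : Tr :=
 .n (.n (.n (.n (.n (.n (.p (nat_lit 0x4f004ec04ea04e604e304dd06) (nat_lit 0x9000004000) (nat_lit 52))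
 (.p (nat_lit 0x1ade61d102) (nat_lit 0x54216ac0c800200000600) (nat_lit 49)))
 (.p (nat_lit 0x976097409720970096e426906) (nat_lit 0x800050612) (nat_lit 51)))
 (.n (.p (nat_lit 0x12a812a612a412a212a0247306) (nat_lit 0x1000000ab03) (nat_lit 51))
 (.p (nat_lit 0x37643a3902) (nat_lit 0x54022d) (nat_lit 4))))
 (.n (.n (.p (nat_lit 0x219f1e8f02) (nat_lit 0x10aa00) (nat_lit 16))
 (.p (nat_lit 0x3d6a3fcf02) (nat_lit 0x300120) (nat_lit 4)))
 (.n (.p (nat_lit 0xbb00bae0bac0baa0ba60f6b06) (nat_lit 0x10000c4307) (nat_lit 52))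
 (.p (nat_lit 0x5d091ae502) (nat_lit 0x140040000800) (nat_lit 40)))))
 (.n (.n (.n (.p (nat_lit 0x13a110cd02) (nat_lit 0x506500) (nat_lit 16))
 (.p (nat_lit 0x43103efd02) (nat_lit 0x140719) (nat_lit 4)))
 (.n (.p (nat_lit 0x13df13d302) (nat_lit 0xc505) (nat_lit 16))
 (.p (nat_lit 0x5d3d04c902) (nat_lit 0x100060000000) (nat_lit 38))))
 (.n (.n (.p (nat_lit 0xccc2f4902) (nat_lit 0x140202) (nat_lit 29))
 (.p (nat_lit 0x3b4638b102) (nat_lit 0x40a26) (nat_lit 4)))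
 (.n (.p (nat_lit 0x4a6d49c902) (nat_lit 0x70c) (nat_lit 15))
 (.p (nat_lit 0x20805fd302) (nat_lit 0x95a32b05000400000600) (nat_lit 50))))))
 (.n (.n (.n (.n (.p (nat_lit 0xccf09d102) (nat_lit 0x24e200) (nat_lit 16))
 (.p (nat_lit 0x192419221920191c02a0028b02831927191f09) (nat_lit 0x2900715) (nat_lit 10)))
 (.n (.p (nat_lit 0x17f21fb702) (nat_lit 0x40604) (nat_lit 4))
 (.p (nat_lit 0x59d859d659d459d059ce03a5011e07) (nat_lit 0x210406) (nat_lit 25))))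
 (.n (.n (.p (nat_lit 0x29f229f029ee29ec29ea29e806) (nat_lit 0xd2401) (nat_lit 52))
 (.p (nat_lit 0x3a756b302) (nat_lit 0x300223) (nat_lit 30)))
 (.n (.p (nat_lit 0x2c5c26b302) (nat_lit 0x140a08) (nat_lit 4))
 (.p (nat_lit 0x1ad45ecf02) (nat_lit 0x4a1a34344000200000600) (nat_lit 49)))))
 (.n (.n (.n (.p (nat_lit 0x18fa1ae302) (nat_lit 0x100800) (nat_lit 5))
 (.p (nat_lit 0x192a0d8102) (nat_lit 0x10071c) (nat_lit 5)))
 (.n (.p (nat_lit 0x4efc4efa4ef84ef64ef2128b06) (nat_lit 0x1000050406) (nat_lit 52))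
 (.p (nat_lit 0x5e2013a102) (nat_lit 0xa0004400) (nat_lit 47))))
 (.n (.n (.p (nat_lit 0x34b9060b02) (nat_lit 0x304003) (nat_lit 16))
 (.p (nat_lit 0x1c501c4c1c4a1c481c460cbb06) (nat_lit 0x80000d022a) (nat_lit 51)))
 (.n (.p (nat_lit 0x1ea6098702) (nat_lit 0x10090e) (nat_lit 5))
 (.p (nat_lit 0x13fc60d502) (nat_lit 0x354a621b0000500040000) (nat_lit 50))))))

def c512_221 : Tr := .n c1024_221 c1024_733

def c1024_477 : Tr :=
 .n (.n (.n (.n (.n (.n (.p (nat_lit 0x2ad02a7028e03) (nat_lit 0xa2200015) (nat_lit 19))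
 (.p (nat_lit 0x2076618f02) (nat_lit 0x3422a5c14800400000600) (nat_lit 50)))
 (.p (nat_lit 0x2e5e2e5a2e582e562e543a9f06) (nat_lit 0x8000008611) (nat_lit 51)))
 (.n (.p (nat_lit 0x1a4e1a4c1a4a1a461a4417eb06) (nat_lit 0x2000056603) (nat_lit 52))
 (.p (nat_lit 0x2f3c321102) (nat_lit 0x10022c) (nat_lit 5))))
 (.n (.n (.p (nat_lit 0x1fd81fd61fd21fd01d2f1d2906) (nat_lit 0x48000ce900) (nat_lit 52))
 (.p (nat_lit 0x1d241d221d201d1e1d1c355306) (nat_lit 0x100000d601f) (nat_lit 52)))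
 (.n (.p (nat_lit 0x143513f02) (nat_lit 0x140207) (nat_lit 30))
 (.p (nat_lit 0x5d755e5f02) (nat_lit 0x80080000700) (nat_lit 37)))))
 (.n (.n (.n (.p (nat_lit 0x119811961192118e0f630f5f06) (nat_lit 0x50000c4400) (nat_lit 52))
 (.p (nat_lit 0x3b00372702) (nat_lit 0x300a18) (nat_lit 5)))
 (.n (.p (nat_lit 0xcf020bf02) (nat_lit 0x140205) (nat_lit 5))
 (.p (nat_lit 0x5c2a5c265c245c225c200009044007) (nat_lit 0x40612a) (nat_lit 25))))
 (.n (.n (.p (nat_lit 0x255c255a255625542552231506) (nat_lit 0x4000052a01) (nat_lit 52))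
 (.p (nat_lit 0x4f084f044f024f004efe2c7f06) (nat_lit 0x80000d0a24) (nat_lit 52)))
 (.n (.p (nat_lit 0x50805040502050004fe421d06) (nat_lit 0x800000660b) (nat_lit 52))
 (.p (nat_lit 0x1da25f9102) (nat_lit 0x581a303a5000300000600) (nat_lit 49))))))
 (.n (.n (.n (.n (.p (nat_lit 0xa940a920a900a8c087b087306) (nat_lit 0x1100000a200) (nat_lit 52))
 (.p (nat_lit 0x1f1a1f181f141f121f10139106) (nat_lit 0x4000092515) (nat_lit 51)))
 (.n (.p (nat_lit 0x13d013ce13cc13ca13c800b513c707) (nat_lit 0x504) (nat_lit 7))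
 (.p (nat_lit 0x5930592e592c592a59260309009207) (nat_lit 0x116303) (nat_lit 25))))
 (.n (.n (.p (nat_lit 0xa0909fd02) (nat_lit 0x50101) (nat_lit 16))
 (.p (nat_lit 0x64a0646064406420891088906) (nat_lit 0x8800080123) (nat_lit 51)))
 (.n (.p (nat_lit 0x256e05b502) (nat_lit 0x240b07) (nat_lit 5))
 (.p (nat_lit 0x5eac4fad02) (nat_lit 0x44b00) (nat_lit 47)))))
 (.n (.n (.n (.p (nat_lit 0x1939162502) (nat_lit 0x208700) (nat_lit 16))
 (.p (nat_lit 0xad20ace0aca0ac809e109dd06) (nat_lit 0xa0000ce11c) (nat_lit 51)))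
 (.n (.p (nat_lit 0x4bfe4bfc4bfa4bf84bf64bf406) (nat_lit 0x90106) (nat_lit 52))
 (.p (nat_lit 0x5da70d1102) (nat_lit 0x600a0000300) (nat_lit 38))))
 (.n (.n (.p (nat_lit 0x21e221de21dc21da21d8232306) (nat_lit 0x80000d4a02) (nat_lit 51))
 (.p (nat_lit 0x57b257b057ae57ac57aa57a8044209f909f709f50a) (nat_lit 0x11a4012a) (nat_lit 31)))
 (.n (.p (nat_lit 0x5b805b605b405b205b014d306) (nat_lit 0x100000d650e) (nat_lit 51))
 (.p (nat_lit 0x2072609102) (nat_lit 0x342221ca4000400000600) (nat_lit 49))))))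

def c1024_989 : Tr :=
 .n (.n (.n (.n (.n (.p (nat_lit 0x6de06da06d806d60657065306) (nat_lit 0x14000052000) (nat_lit 52))
 (.p (nat_lit 0x4fa04bcb02) (nat_lit 0x40514) (nat_lit 5)))
 (.n (.p (nat_lit 0x3c1c3c163c143c120619061706) (nat_lit 0xc000006004) (nat_lit 52))
 (.p (nat_lit 0x432a417102) (nat_lit 0x54072e) (nat_lit 4))))
 (.n (.n (.p (nat_lit 0x2360235c235a2358215d215506) (nat_lit 0x8800080b00) (nat_lit 52))
 (.p (nat_lit 0x4512472b02) (nat_lit 0x400121) (nat_lit 4)))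
 (.n (.p (nat_lit 0x12c212c012bc12ba12b8122f06) (nat_lit 0x40000c2407) (nat_lit 52))
 (.p (nat_lit 0x5ce31f0702) (nat_lit 0xa0020000900) (nat_lit 39)))))
 (.n (.n (.n (.p (nat_lit 0x159c159a159815941592155106) (nat_lit 0x2000006600) (nat_lit 52))
 (.p (nat_lit 0x4fb64cc302) (nat_lit 0x54051b) (nat_lit 5)))
 (.n (.p (nat_lit 0x11441140113e113c113a196106) (nat_lit 0x8000088705) (nat_lit 52))
 (.p (nat_lit 0x5d7107a902) (nat_lit 0xc0080000100) (nat_lit 40))))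
 (.n (.n (.p (nat_lit 0x319c319a3196319213b513b106) (nat_lit 0x5000004502) (nat_lit 52))
 (.p (nat_lit 0x4394576f02) (nat_lit 0x140b27) (nat_lit 29)))
 (.n (.p (nat_lit 0xe160e140e120e1001f601e901e70e0f0e0d09) (nat_lit 0x80030e) (nat_lit 10))
 (.p (nat_lit 0x13fe601302) (nat_lit 0x405aa2335000500040000) (nat_lit 50))))))
 (.n (.n (.n (.n (.p (nat_lit 0xc920e7d02) (nat_lit 0x240300) (nat_lit 5))
 (.p (nat_lit 0x2431217d02) (nat_lit 0x200a15) (nat_lit 15)))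
 (.n (.p (nat_lit 0x42e5195102) (nat_lit 0x208704) (nat_lit 16))
 (.p (nat_lit 0x1f001ee01e801e60263000506) (nat_lit 0x1a1440e) (nat_lit 26))))
 (.n (.n (.p (nat_lit 0x1d842b4702) (nat_lit 0x440801) (nat_lit 29))
 (.p (nat_lit 0x1aa0106102) (nat_lit 0x440723) (nat_lit 5)))
 (.n (.p (nat_lit 0x33802d8702) (nat_lit 0x540a09) (nat_lit 4))
 (.p (nat_lit 0x1da65f1302) (nat_lit 0x3aa570344000300000600) (nat_lit 49)))))
 (.n (.n (.n (.p (nat_lit 0x1c8c1c881c861c821a651a5f06) (nat_lit 0x9000044800) (nat_lit 52))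
 (.p (nat_lit 0x3fdc3fda3fd63fd43fd2202906) (nat_lit 0x40000c291c) (nat_lit 52)))
 (.n (.p (nat_lit 0xd100d0e0d0a0d080d061c3506) (nat_lit 0x4000006806) (nat_lit 52))
 (.p (nat_lit 0x5caf153502) (nat_lit 0xe0000000600) (nat_lit 38))))
 (.n (.n (.p (nat_lit 0x3736373437323730372e372c06) (nat_lit 0x56203) (nat_lit 52))
 (.p (nat_lit 0x2a482a462a442a422a4017df06) (nat_lit 0x200005062a) (nat_lit 51)))
 (.n (.p (nat_lit 0x15fa15f815f615f415f02a0b06) (nat_lit 0x100005240f) (nat_lit 52))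
 (.p (nat_lit 0x1814611902) (nat_lit 0x342521ca4000100000600) (nat_lit 49))))))

def c512_477 : Tr := .n c1024_477 c1024_989

def c256_221 : Tr := .n c512_221 c512_477

def c128_93 : Tr := .n c256_93 c256_221

def c64_29 : Tr := .n c128_29 c128_93

def c1024_61 : Tr :=
 .n (.n (.n (.n (.n (.n (.p (nat_lit 0x47003f003803) (nat_lit 0x40800001) (nat_lit 19))
 (.p (nat_lit 0x13ee612f02) (nat_lit 0x35486a1b0000500040000) (nat_lit 49)))
 (.p (nat_lit 0x2b9e271b02) (nat_lit 0x50090f) (nat_lit 4)))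
 (.n (.p (nat_lit 0x3808380638043802380037fe06) (nat_lit 0xc0303) (nat_lit 52))
 (.p (nat_lit 0x1c10132902) (nat_lit 0x30082a) (nat_lit 5))))
 (.n (.n (.p (nat_lit 0x1d1a1d141d121d101a651a6306) (nat_lit 0xc000056800) (nat_lit 51))
 (.p (nat_lit 0x471447124710470e470a22ed06) (nat_lit 0x1000040a1c) (nat_lit 51)))
 (.n (.p (nat_lit 0x1d9e23fb02) (nat_lit 0x540806) (nat_lit 5))
 (.p (nat_lit 0x5cc3154302) (nat_lit 0x2a0020000600) (nat_lit 40)))))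
 (.n (.n (.n (.p (nat_lit 0xeee0eec0eea0ee40c930c9106) (nat_lit 0x300004e300) (nat_lit 52))
 (.p (nat_lit 0x28b54b302) (nat_lit 0x540b15) (nat_lit 30)))
 (.n (.p (nat_lit 0x24741fdb02) (nat_lit 0xb04) (nat_lit 5))
 (.p (nat_lit 0x2425adb02) (nat_lit 0x500910) (nat_lit 27))))
 (.n (.n (.p (nat_lit 0x1ee82b8502) (nat_lit 0x400901) (nat_lit 29))
 (.p (nat_lit 0x3f61d6f02) (nat_lit 0x540823) (nat_lit 1)))
 (.n (.p (nat_lit 0x35ea35e835e635e435e2374d06) (nat_lit 0x1000004820a) (nat_lit 51))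
 (.p (nat_lit 0x11425f2302) (nat_lit 0x3a2560b44000400040000) (nat_lit 49))))))
 (.n (.n (.n (.n (.p (nat_lit 0x5c2079b02) (nat_lit 0x300100) (nat_lit 4))
 (.p (nat_lit 0x5cc0bc302) (nat_lit 0x200015) (nat_lit 4)))
 (.n (.p (nat_lit 0xbf3d1702) (nat_lit 0x500104) (nat_lit 30))
 (.p (nat_lit 0x4696488d02) (nat_lit 0x54022f) (nat_lit 5))))
 (.n (.n (.p (nat_lit 0x241f215f02) (nat_lit 0x500b00) (nat_lit 16))
 (.p (nat_lit 0xe9a0e980e960e920e904a4106) (nat_lit 0x20000c0721) (nat_lit 52)))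
 (.n (.p (nat_lit 0x17e317a702) (nat_lit 0x448607) (nat_lit 16))
 (.p (nat_lit 0x5e86410502) (nat_lit 0x40042900) (nat_lit 48)))))
 (.n (.n (.n (.p (nat_lit 0x1659155502) (nat_lit 0x406600) (nat_lit 16))
 (.p (nat_lit 0x4d804d404d204d004ce05dd06) (nat_lit 0x800000001c) (nat_lit 51)))
 (.n (.p (nat_lit 0x4cc04ca04c804c604c41abd06) (nat_lit 0x800040705) (nat_lit 52))
 (.p (nat_lit 0x5c935ddf02) (nat_lit 0x2a0000000200) (nat_lit 36))))
 (.n (.n (.p (nat_lit 0x1ef61ef41ef21eee006c005d00591ef11eed09) (nat_lit 0x1000902) (nat_lit 10))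
 (.p (nat_lit 0x21382136213421322130459106) (nat_lit 0x100000ce128) (nat_lit 51)))
 (.n (.p (nat_lit 0xaa20aa00a9c0a9a0f7b0f7506) (nat_lit 0x48000ca30e) (nat_lit 51))
 (.p (nat_lit 0x1da6602d02) (nat_lit 0x406a62335000300000600) (nat_lit 49))))))

def c1024_573 : Tr :=
 .n (.n (.n (.n (.n (.n (.p (nat_lit 0x38a03880386039104) (nat_lit 0x7000400021) (nat_lit 17))
 (.p (nat_lit 0x1f0c61a902) (nat_lit 0x340b8ac64000300040600) (nat_lit 49)))
 (.p (nat_lit 0x40843d1b02) (nat_lit 0x100412) (nat_lit 4)))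
 (.n (.p (nat_lit 0x1e7e1e7c1e7a1e761e7421c506) (nat_lit 0x2000016a03) (nat_lit 52))
 (.p (nat_lit 0x3314324b02) (nat_lit 0x54092c) (nat_lit 4))))
 (.n (.n (.p (nat_lit 0x1e92207102) (nat_lit 0x300a00) (nat_lit 4))
 (.p (nat_lit 0x35155d702) (nat_lit 0x140a1f) (nat_lit 30)))
 (.n (.p (nat_lit 0xe06514f02) (nat_lit 0x300307) (nat_lit 29))
 (.p (nat_lit 0x5d8f5e6502) (nat_lit 0x1e00a0000700) (nat_lit 36)))))
 (.n (.n (.n (.p (nat_lit 0x10c212a102) (nat_lit 0x500) (nat_lit 5))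
 (.p (nat_lit 0x41923ebf02) (nat_lit 0x519) (nat_lit 5)))
 (.n (.p (nat_lit 0xfbc46ff02) (nat_lit 0x40305) (nat_lit 29))
 (.p (nat_lit 0x4845c8302) (nat_lit 0x50062d) (nat_lit 27))))
 (.n (.n (.p (nat_lit 0x2d1e2d1a2d182d162d14076106) (nat_lit 0x8000044002) (nat_lit 51))
 (.p (nat_lit 0x33ac30df02) (nat_lit 0x340a25) (nat_lit 4)))
 (.n (.p (nat_lit 0x4261436b02) (nat_lit 0x240b0b) (nat_lit 15))
 (.p (nat_lit 0xa445fa502) (nat_lit 0x588bb0344000200000000) (nat_lit 49))))))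
 (.n (.n (.n (.n (.p (nat_lit 0x28009cd02) (nat_lit 0x40200) (nat_lit 1))
 (.p (nat_lit 0x154a154615441542154014dd06) (nat_lit 0x800004c515) (nat_lit 51)))
 (.n (.p (nat_lit 0x41d441d041ce41cc41ca151906) (nat_lit 0x800004c504) (nat_lit 51))
 (.p (nat_lit 0xb5597302) (nat_lit 0x704) (nat_lit 28))))
 (.n (.n (.p (nat_lit 0xcd10cc502) (nat_lit 0x350201) (nat_lit 16))
 (.p (nat_lit 0x3d71088902) (nat_lit 0x12123) (nat_lit 16)))
 (.n (.p (nat_lit 0x1778177417721770176e28d306) (nat_lit 0x8000092308) (nat_lit 52))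
 (.p (nat_lit 0x5d2f234502) (nat_lit 0x1e0060000b00) (nat_lit 40)))))
 (.n (.n (.n (.p (nat_lit 0x19e219e019de19da179b179506) (nat_lit 0x90000c6700) (nat_lit 51))
 (.p (nat_lit 0x39f7139702) (nat_lit 0x1051c) (nat_lit 16)))
 (.n (.p (nat_lit 0xd040d000cfe0cfc0cfa011b0d0307) (nat_lit 0x440206) (nat_lit 7))
 (.p (nat_lit 0x5cc95e1102) (nat_lit 0x240020000400) (nat_lit 37))))
 (.n (.n (.p (nat_lit 0x15e215e015de15dc15da245d06) (nat_lit 0x800010b02) (nat_lit 52))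
 (.p (nat_lit 0xd0e0d0c0d080d060b5d0b5706) (nat_lit 0x1200000622a) (nat_lit 52)))
 (.n (.p (nat_lit 0x2df22df02dee2dec2dea191106) (nat_lit 0x80008a70e) (nat_lit 51))
 (.p (nat_lit 0xbb660a702) (nat_lit 0x356068ca4000200040000) (nat_lit 50))))))

def c512_61 : Tr := .n c1024_61 c1024_573

def c1024_317 : Tr :=
 .n (.n (.n (.n (.n (.n (.p (nat_lit 0x14601420140014d04) (nat_lit 0x5800400007) (nat_lit 17))
 (.p (nat_lit 0x1146616b02) (nat_lit 0x421aa4395000400040000) (nat_lit 50)))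
 (.p (nat_lit 0x33de2e1902) (nat_lit 0x400b10) (nat_lit 5)))
 (.n (.p (nat_lit 0x9400af00ad1b7f1ce505) (nat_lit 0x8ea00603) (nat_lit 9))
 (.p (nat_lit 0x2e281d02) (nat_lit 0x20022b) (nat_lit 1))))
 (.n (.n (.p (nat_lit 0x1ec71bcd02) (nat_lit 0x506900) (nat_lit 16))
 (.p (nat_lit 0x2ef82ef62ef42ef22ef02e3106) (nat_lit 0x1000008a11e) (nat_lit 51)))
 (.n (.p (nat_lit 0x51225120511e511c511a5118012020652061205f0a) (nat_lit 0xc840906) (nat_lit 31))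
 (.p (nat_lit 0x5ce5181902) (nat_lit 0x80020000700) (nat_lit 40)))))
 (.n (.n (.n (.p (nat_lit 0x109a1096109410920dff0dfb06) (nat_lit 0x14000014400) (nat_lit 52))
 (.p (nat_lit 0x339833963392338e02cc02c302bf3395339109) (nat_lit 0x1940a17) (nat_lit 10)))
 (.n (.p (nat_lit 0x77e441d02) (nat_lit 0x140005) (nat_lit 29))
 (.p (nat_lit 0x36c036803660362030f03fd06) (nat_lit 0x210c520) (nat_lit 26))))
 (.n (.n (.p (nat_lit 0x2c09204f02) (nat_lit 0x446901) (nat_lit 16))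
 (.p (nat_lit 0x4e884e864e844e824e7e259d06) (nat_lit 0x1000050b23) (nat_lit 51)))
 (.n (.p (nat_lit 0x3bc434ad02) (nat_lit 0x340b0a) (nat_lit 5))
 (.p (nat_lit 0x1dac5f6d02) (nat_lit 0x3aa074b44000300000600) (nat_lit 50))))))
 (.n (.n (.n (.n (.p (nat_lit 0x99a0994099209900725072306) (nat_lit 0xc0000d2100) (nat_lit 51))
 (.p (nat_lit 0x12480beb02) (nat_lit 0x440415) (nat_lit 5)))
 (.n (.p (nat_lit 0xe5b0e4f02) (nat_lit 0x316304) (nat_lit 16))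
 (.p (nat_lit 0x3358c702) (nat_lit 0x400801) (nat_lit 28))))
 (.n (.n (.p (nat_lit 0x3125dd02) (nat_lit 0x300001) (nat_lit 30))
 (.p (nat_lit 0x5ea05e805e405e203b603a703a105e705e109) (nat_lit 0x1800023) (nat_lit 10)))
 (.n (.p (nat_lit 0x200806eb02) (nat_lit 0x540907) (nat_lit 4))
 (.p (nat_lit 0x5d1321d102) (nat_lit 0xa0040000a00) (nat_lit 39)))))
 (.n (.n (.n (.p (nat_lit 0x1626181102) (nat_lit 0x300700) (nat_lit 4))
 (.p (nat_lit 0x87c54fd02) (nat_lit 0x11c) (nat_lit 29)))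
 (.n (.p (nat_lit 0x1f861f841f821f801f7e1d8906) (nat_lit 0x800048805) (nat_lit 51))
 (.p (nat_lit 0x5ce30e7b02) (nat_lit 0xa0020000300) (nat_lit 41))))
 (.n (.n (.p (nat_lit 0x1f1a1f161f141f121f1021bd06) (nat_lit 0x8000092a02) (nat_lit 51))
 (.p (nat_lit 0x100e100c100a1008100650bd06) (nat_lit 0x800042829) (nat_lit 52)))
 (.n (.p (nat_lit 0x2a11123d02) (nat_lit 0x44c40e) (nat_lit 16))
 (.p (nat_lit 0x13f2606902) (nat_lit 0x588172b40800500040000) (nat_lit 49))))))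

def c1024_829 : Tr :=
 .n (.n (.n (.n (.n (.n (.p (nat_lit 0x5ae05ac05a805a605a404e106) (nat_lit 0x4000016000) (nat_lit 51))
 (.p (nat_lit 0x198661e702) (nat_lit 0x3422b0d64000100040600) (nat_lit 50)))
 (.p (nat_lit 0x212e212c212a21262124484f06) (nat_lit 0x200004e413) (nat_lit 52)))
 (.n (.p (nat_lit 0x8b3bb702) (nat_lit 0x240b03) (nat_lit 30))
 (.p (nat_lit 0x3c0239db02) (nat_lit 0x440b2d) (nat_lit 4))))
 (.n (.n (.p (nat_lit 0x2258225622522250224e1ff906) (nat_lit 0x40000c8a00) (nat_lit 52))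
 (.p (nat_lit 0x42863ff102) (nat_lit 0x340620) (nat_lit 4)))
 (.n (.p (nat_lit 0x40110f6b02) (nat_lit 0x152307) (nat_lit 16))
 (.p (nat_lit 0x5d6f1c4f02) (nat_lit 0xe0080000800) (nat_lit 41)))))
 (.n (.n (.n (.p (nat_lit 0x1430142e142814261223122106) (nat_lit 0x60000c4500) (nat_lit 52))
 (.p (nat_lit 0x22a0229c229a2298229648c506) (nat_lit 0x800008e51a) (nat_lit 52)))
 (.n (.p (nat_lit 0x24a2249e249c249a2498169506) (nat_lit 0x8000000605) (nat_lit 51))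
 (.p (nat_lit 0x5cb107a102) (nat_lit 0xc0000000100) (nat_lit 40))))
 (.n (.n (.p (nat_lit 0x300b0e3102) (nat_lit 0x302) (nat_lit 16))
 (.p (nat_lit 0x3d78402f02) (nat_lit 0x400127) (nat_lit 4)))
 (.n (.p (nat_lit 0x4ba4f1702) (nat_lit 0x14040d) (nat_lit 1))
 (.p (nat_lit 0x2493248121db21d71f151f0d1c471c411987197316ad169d5fea0d) (nat_lit 0x306a81d31000000040600) (nat_lit 33))))))
 (.n (.n (.n (.n (.p (nat_lit 0xd400d3e0d3c0d360b330b3106) (nat_lit 0x3000002300) (nat_lit 51))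
 (.p (nat_lit 0x1eb71bed02) (nat_lit 0x300815) (nat_lit 15)))
 (.n (.p (nat_lit 0x198619841980197e197c17f906) (nat_lit 0x40000ce604) (nat_lit 51))
 (.p (nat_lit 0x1cc5a1902) (nat_lit 0x400a07) (nat_lit 27))))
 (.n (.n (.p (nat_lit 0x2ad62ad22ad02ace2acc14f506) (nat_lit 0x80000d2501) (nat_lit 52))
 (.p (nat_lit 0xd280d260d220d200d1e0cad06) (nat_lit 0x4000040223) (nat_lit 52)))
 (.n (.p (nat_lit 0x1a5a1a581a561a541a50300d06) (nat_lit 0x1000096309) (nat_lit 52))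
 (.p (nat_lit 0x7a65ee102) (nat_lit 0x4a8d84344000100000000) (nat_lit 50)))))
 (.n (.n (.n (.p (nat_lit 0x1b9c1b9a1b981b961b9218fb06) (nat_lit 0x1000014800) (nat_lit 52))
 (.p (nat_lit 0x1bf80f0302) (nat_lit 0x30081c) (nat_lit 4)))
 (.n (.p (nat_lit 0x1560155c155a1558196f196b06) (nat_lit 0x14000000706) (nat_lit 51))
 (.p (nat_lit 0x5cf712a502) (nat_lit 0x260040000500) (nat_lit 40))))
 (.n (.n (.p (nat_lit 0x356a35683566356435623560009408c308bd08bb0a) (nat_lit 0x15100103) (nat_lit 31))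
 (.p (nat_lit 0x10321030102e102c10280e1b06) (nat_lit 0x100008432a) (nat_lit 51)))
 (.n (.p (nat_lit 0x5356535453525350534e534c01f207) (nat_lit 0x40a0e) (nat_lit 8))
 (.p (nat_lit 0x114660ef02) (nat_lit 0x440d6a3a4000400040000) (nat_lit 50))))))

def c512_317 : Tr := .n c1024_317 c1024_829

def c256_61 : Tr := .n c512_61 c512_317

def c1024_189 : Tr :=
 .n (.n (.n (.n (.n (.n (.p (nat_lit 0xbe00bc00b800c104) (nat_lit 0x1a000400004) (nat_lit 17))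
 (.p (nat_lit 0x1978614f02) (nat_lit 0x3503a0d84000100040600) (nat_lit 49)))
 (.p (nat_lit 0x326f317502) (nat_lit 0x140410) (nat_lit 15)))
 (.n (.p (nat_lit 0x396439623960395e395a126706) (nat_lit 0x10000d6403) (nat_lit 51))
 (.p (nat_lit 0x21a0149f02) (nat_lit 0x200a2a) (nat_lit 4))))
 (.n (.n (.p (nat_lit 0x1dfe1dfc1df81df61bc91bc306) (nat_lit 0x4800084900) (nat_lit 51))
 (.p (nat_lit 0x2737272b02) (nat_lit 0x10a11d) (nat_lit 16)))
 (.n (.p (nat_lit 0x1f021f001efe1efc1efa01131ef907) (nat_lit 0x906) (nat_lit 7))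
 (.p (nat_lit 0x5d6f5e4b02) (nat_lit 0xe0080000600) (nat_lit 36)))))
 (.n (.n (.n (.p (nat_lit 0xdfe0dfa0df80df60df400090dfd07) (nat_lit 0x400400) (nat_lit 7))
 (.p (nat_lit 0x338f2c6702) (nat_lit 0x50a16) (nat_lit 16)))
 (.n (.p (nat_lit 0x25d225d025ce25cc25ca00bf25d507) (nat_lit 0x540b04) (nat_lit 7))
 (.p (nat_lit 0x2f45b5302) (nat_lit 0x100b19) (nat_lit 27))))
 (.n (.n (.p (nat_lit 0x2048177102) (nat_lit 0x140901) (nat_lit 4))
 (.p (nat_lit 0x47b247b047ae47ac47aa219b06) (nat_lit 0x1000000ca23) (nat_lit 52)))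
 (.n (.p (nat_lit 0x3970524302) (nat_lit 0x54040a) (nat_lit 29))
 (.p (nat_lit 0x13f85f4302) (nat_lit 0x1a1d22350000500040000) (nat_lit 50))))))
 (.n (.n (.n (.n (.p (nat_lit 0x8b905bd02) (nat_lit 0x10100) (nat_lit 16))
 (.p (nat_lit 0x73b072f02) (nat_lit 0x348015) (nat_lit 16)))
 (.n (.p (nat_lit 0xe510b8b02) (nat_lit 0x400204) (nat_lit 15))
 (.p (nat_lit 0x252c25282526252425224d0506) (nat_lit 0x800000e230) (nat_lit 51))))
 (.n (.n (.p (nat_lit 0x253825362530252e22c122bf06) (nat_lit 0x60000ceb00) (nat_lit 51))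
 (.p (nat_lit 0x5026567702) (nat_lit 0x340722) (nat_lit 29)))
 (.n (.p (nat_lit 0x1bd8056702) (nat_lit 0x500807) (nat_lit 4))
 (.p (nat_lit 0x5d815e9102) (nat_lit 0x2c00a0000900) (nat_lit 36)))))
 (.n (.n (.n (.p (nat_lit 0x1760175e175c175816b516b106) (nat_lit 0x28000d0600) (nat_lit 51))
 (.p (nat_lit 0x73c073a0738073607340311073f07) (nat_lit 0x54001c) (nat_lit 7)))
 (.n (.p (nat_lit 0x1c264a6502) (nat_lit 0x200805) (nat_lit 29))
 (.p (nat_lit 0x5de809df02) (nat_lit 0x60048200) (nat_lit 47))))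
 (.n (.n (.p (nat_lit 0x1d181d161d141d121d10205d06) (nat_lit 0x10000056902) (nat_lit 51))
 (.p (nat_lit 0x4c864ed302) (nat_lit 0x40129) (nat_lit 4)))
 (.n (.p (nat_lit 0x10e910dd02) (nat_lit 0x10640e) (nat_lit 16))
 (.p (nat_lit 0x1536604d02) (nat_lit 0x406a6254c800000000600) (nat_lit 49))))))

def c1024_701 : Tr :=
 .n (.n (.n (.n (.n (.n (.p (nat_lit 0x14404df02) (nat_lit 0x200000) (nat_lit 1))
 (.p (nat_lit 0x21d861c702) (nat_lit 0x340d89ca4000400040600) (nat_lit 50)))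
 (.p (nat_lit 0x1f0422b02) (nat_lit 0x500612) (nat_lit 1)))
 (.n (.p (nat_lit 0x79c079a079807960794247306) (nat_lit 0x10000002b03) (nat_lit 52))
 (.p (nat_lit 0x36d43a2902) (nat_lit 0x30022d) (nat_lit 5))))
 (.n (.n (.p (nat_lit 0x215d1e9502) (nat_lit 0x400a00) (nat_lit 15))
 (.p (nat_lit 0x3d043f4b02) (nat_lit 0x240020) (nat_lit 5)))
 (.n (.p (nat_lit 0xf720f700f6e0f6c0f6801430f6b07) (nat_lit 0x140307) (nat_lit 7))
 (.p (nat_lit 0x5cbf1ad702) (nat_lit 0x2e0020000800) (nat_lit 38)))))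
 (.n (.n (.n (.p (nat_lit 0x135813561352134e10c910c506) (nat_lit 0x5000014500) (nat_lit 51))
 (.p (nat_lit 0x4285427902) (nat_lit 0x248619) (nat_lit 16)))
 (.n (.p (nat_lit 0x1293128702) (nat_lit 0x54c405) (nat_lit 16))
 (.p (nat_lit 0x5d0f063902) (nat_lit 0xe0040000000) (nat_lit 39))))
 (.n (.n (.p (nat_lit 0xb6c2ed102) (nat_lit 0x100202) (nat_lit 29))
 (.p (nat_lit 0x3750393302) (nat_lit 0x140226) (nat_lit 4)))
 (.n (.p (nat_lit 0x4b664b644b624b604b5c49b306) (nat_lit 0x100005060c) (nat_lit 51))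
 (.p (nat_lit 0x15425fcf02) (nat_lit 0x9582ec05000000000600) (nat_lit 50))))))
 (.n (.n (.n (.n (.p (nat_lit 0xc8c0c860c840c8209d509d306) (nat_lit 0xc0000d6200) (nat_lit 52))
 (.p (nat_lit 0x17cd17c102) (nat_lit 0x548615) (nat_lit 16)))
 (.n (.p (nat_lit 0x194f168302) (nat_lit 0x100604) (nat_lit 15))
 (.p (nat_lit 0x26c59c702) (nat_lit 0x200106) (nat_lit 27))))
 (.n (.n (.p (nat_lit 0x124c172702) (nat_lit 0x40401) (nat_lit 4))
 (.p (nat_lit 0x364509eb02) (nat_lit 0x350123) (nat_lit 16)))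
 (.n (.p (nat_lit 0x2b9b2b8f02) (nat_lit 0x304908) (nat_lit 16))
 (.p (nat_lit 0x5ec2180902) (nat_lit 0xa0052b00) (nat_lit 48)))))
 (.n (.n (.n (.p (nat_lit 0x1a99179302) (nat_lit 0x48700) (nat_lit 16))
 (.p (nat_lit 0x17c40d7502) (nat_lit 0x14061c) (nat_lit 5)))
 (.n (.p (nat_lit 0x128a4eb102) (nat_lit 0x140406) (nat_lit 29))
 (.p (nat_lit 0x5dad0fdf02) (nat_lit 0xa0000400) (nat_lit 38))))
 (.n (.n (.p (nat_lit 0x6061c5502) (nat_lit 0x100003) (nat_lit 4))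
 (.p (nat_lit 0x12aa12a812a612a412a00cb506) (nat_lit 0x100004a22a) (nat_lit 51)))
 (.n (.p (nat_lit 0x1d4a098302) (nat_lit 0x54080e) (nat_lit 5))
 (.p (nat_lit 0x8fa60d102) (nat_lit 0x35052a3a4000100040000) (nat_lit 50))))))

def c512_189 : Tr := .n c1024_189 c1024_701

def c1024_445 : Tr :=
 .n (.n (.n (.n (.n (.n (.p (nat_lit 0x28a02860280028d04) (nat_lit 0x14800400015) (nat_lit 17))
 (.p (nat_lit 0x1976618902) (nat_lit 0x340b86c64000100040600) (nat_lit 49)))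
 (.p (nat_lit 0x1d181d161d141d121d10397d06) (nat_lit 0x10000056411) (nat_lit 51)))
 (.n (.p (nat_lit 0x18421840183e183c183a17e906) (nat_lit 0x1000042603) (nat_lit 51))
 (.p (nat_lit 0x2c1c2a6702) (nat_lit 0x24092b) (nat_lit 5))))
 (.n (.n (.p (nat_lit 0x1fc01fbe1fbc1fba1fb81fb606) (nat_lit 0xcc900) (nat_lit 52))
 (.p (nat_lit 0x35523550354e354c354a034f354907) (nat_lit 0x4001f) (nat_lit 7)))
 (.n (.p (nat_lit 0xe090b4302) (nat_lit 0x400207) (nat_lit 15))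
 (.p (nat_lit 0x5d295e5d02) (nat_lit 0x240060000700) (nat_lit 36)))))
 (.n (.n (.n (.p (nat_lit 0x11741170116e116c0f650f5d06) (nat_lit 0x8800042400) (nat_lit 51))
 (.p (nat_lit 0x3aa2371502) (nat_lit 0x618) (nat_lit 4)))
 (.n (.p (nat_lit 0xb9620b902) (nat_lit 0x400205) (nat_lit 5))
 (.p (nat_lit 0x34e5c0d02) (nat_lit 0x226) (nat_lit 27))))
 (.n (.n (.p (nat_lit 0x3800490045161f179105) (nat_lit 0x64540a01) (nat_lit 9))
 (.p (nat_lit 0x100210000ffc0ffa0ff82bbf06) (nat_lit 0x4000080924) (nat_lit 52)))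
 (.n (.p (nat_lit 0x407e3caf02) (nat_lit 0x40040b) (nat_lit 4))
 (.p (nat_lit 0x2497248921d921d31f151f071c4f1c3b1983197b16a716995f880d) (nat_lit 0x581a303a4000000040600) (nat_lit 33))))))
 (.n (.n (.n (.n (.p (nat_lit 0xa7e0a7c0a7a0a780a76087106) (nat_lit 0x800008200) (nat_lit 52))
 (.p (nat_lit 0x12a812a412a212a01395139106) (nat_lit 0x1400000a515) (nat_lit 51)))
 (.n (.p (nat_lit 0x127a12781276127000ce00b900b71275127309) (nat_lit 0x1140404) (nat_lit 10))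
 (.p (nat_lit 0x90008c008a00880009019906) (nat_lit 0x2016003) (nat_lit 26))))
 (.n (.n (.p (nat_lit 0xa00274d02) (nat_lit 0x240101) (nat_lit 29))
 (.p (nat_lit 0x44ab074302) (nat_lit 0x154023) (nat_lit 16)))
 (.n (.p (nat_lit 0x241c241a241624140166014b0145241f241909) (nat_lit 0x2a00b07) (nat_lit 10))
 (.p (nat_lit 0x5eaa475902) (nat_lit 0xa0040a00) (nat_lit 47)))))
 (.n (.n (.n (.p (nat_lit 0x18f418f018ee18ec162b162706) (nat_lit 0x14000096700) (nat_lit 51))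
 (.p (nat_lit 0x9e20eb302) (nat_lit 0x54011c) (nat_lit 4)))
 (.n (.p (nat_lit 0x8de4b9f02) (nat_lit 0x100106) (nat_lit 29))
 (.p (nat_lit 0x5d690d1b02) (nat_lit 0x140080000300) (nat_lit 40))))
 (.n (.n (.p (nat_lit 0x197a1978197619741972231b06) (nat_lit 0x8000cea02) (nat_lit 52))
 (.p (nat_lit 0x14409f502) (nat_lit 0x24012a) (nat_lit 1)))
 (.n (.p (nat_lit 0x660065e065c065a065814d306) (nat_lit 0x1000004450e) (nat_lit 51))
 (.p (nat_lit 0x634608d02) (nat_lit 0x342221ca4000000040000) (nat_lit 49))))))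

def c1024_957 : Tr :=
 .n (.n (.n (.n (.n (.p (nat_lit 0x692068e068c068a0655064d06) (nat_lit 0x8800048000) (nat_lit 52))
 (.p (nat_lit 0x24122410240e240c240a4e9706) (nat_lit 0x800092414) (nat_lit 51)))
 (.n (.p (nat_lit 0x6121dbb02) (nat_lit 0x100004) (nat_lit 4))
 (.p (nat_lit 0x429c416102) (nat_lit 0x24062e) (nat_lit 4))))
 (.n (.n (.p (nat_lit 0x112215502) (nat_lit 0xb00) (nat_lit 1))
 (.p (nat_lit 0x449e46b302) (nat_lit 0x140021) (nat_lit 5)))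
 (.n (.p (nat_lit 0x14e015b016b0529069b05) (nat_lit 0x46b40407) (nat_lit 9))
 (.p (nat_lit 0x5cb95e7f02) (nat_lit 0x40000000900) (nat_lit 36)))))
 (.n (.n (.n (.p (nat_lit 0x1545153902) (nat_lit 0x200600) (nat_lit 34))
 (.p (nat_lit 0x3964f3102) (nat_lit 0x24041b) (nat_lit 1)))
 (.n (.p (nat_lit 0x196249c702) (nat_lit 0x500705) (nat_lit 29))
 (.p (nat_lit 0x5d2f08ef02) (nat_lit 0x1e0060000100) (nat_lit 39))))
 (.n (.n (.p (nat_lit 0x13ae19fd02) (nat_lit 0x502) (nat_lit 4))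
 (.p (nat_lit 0x42e040d502) (nat_lit 0x727) (nat_lit 4)))
 (.n (.p (nat_lit 0x1e752c902) (nat_lit 0x30e) (nat_lit 30))
 (.p (nat_lit 0x154a600f02) (nat_lit 0x405aa0b94800000000600) (nat_lit 50))))))
 (.n (.n (.n (.n (.p (nat_lit 0xe410b3302) (nat_lit 0x210300) (nat_lit 16))
 (.p (nat_lit 0x217e549702) (nat_lit 0x300a15) (nat_lit 29)))
 (.n (.p (nat_lit 0x1b9a1b981b941b921957195106) (nat_lit 0x12000014704) (nat_lit 52))
 (.p (nat_lit 0x1e95a7102) (nat_lit 0x10030e) (nat_lit 28))))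
 (.n (.n (.p (nat_lit 0x1c2f1c1702) (nat_lit 0x14801) (nat_lit 16))
 (.p (nat_lit 0x1938105102) (nat_lit 0x200723) (nat_lit 5)))
 (.n (.p (nat_lit 0x662065e065c065a0658332b06) (nat_lit 0x8000004a09) (nat_lit 51))
 (.p (nat_lit 0x233c5f0d02) (nat_lit 0x3a2530344000500000600) (nat_lit 49)))))
 (.n (.n (.n (.p (nat_lit 0x1a661c4502) (nat_lit 0x540800) (nat_lit 4))
 (.p (nat_lit 0x1ecb1ebf02) (nat_lit 0x10a91c) (nat_lit 16)))
 (.n (.p (nat_lit 0x1c34254102) (nat_lit 0x300806) (nat_lit 5))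
 (.p (nat_lit 0x5d975e3502) (nat_lit 0x1600a0000500) (nat_lit 36))))
 (.n (.n (.p (nat_lit 0x36a0369e369c369a36980b7706) (nat_lit 0x800014203) (nat_lit 52))
 (.p (nat_lit 0x2aca2ac42ac22ac01671166f06) (nat_lit 0xc00001262a) (nat_lit 52)))
 (.n (.p (nat_lit 0x2a299302) (nat_lit 0x40f) (nat_lit 1))
 (.p (nat_lit 0x8f2611302) (nat_lit 0x34252a1b0000100040000) (nat_lit 49))))))

def c512_445 : Tr := .n c1024_445 c1024_957

def c256_189 : Tr := .n c512_189 c512_445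

def c128_61 : Tr := .n c256_61 c256_189

def c1024_125 : Tr :=
 .n (.n (.n (.n (.n (.n (.p (nat_lit 0x830077006603) (nat_lit 0x62100002) (nat_lit 19))
 (.p (nat_lit 0x642613f02) (nat_lit 0x352a21d84000000040000) (nat_lit 50)))
 (.p (nat_lit 0x2ee22ee02edc2eda30a1309b06) (nat_lit 0x12000040310) (nat_lit 51)))
 (.n (.p (nat_lit 0x38c438c238c038be38bc38ba06) (nat_lit 0x16403) (nat_lit 52))
 (.p (nat_lit 0x43d581d02) (nat_lit 0x40092a) (nat_lit 30))))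
 (.n (.n (.p (nat_lit 0x1d891a5d02) (nat_lit 0x54800) (nat_lit 16))
 (.p (nat_lit 0x25900f5302) (nat_lit 0x140b1c) (nat_lit 5)))
 (.n (.p (nat_lit 0x197a19761974197219701d9d06) (nat_lit 0x80000ce806) (nat_lit 52))
 (.p (nat_lit 0x5d43154702) (nat_lit 0xa0060000600) (nat_lit 40)))))
 (.n (.n (.n (.p (nat_lit 0xf830c9102) (nat_lit 0x14a300) (nat_lit 16))
 (.p (nat_lit 0x2b1827df02) (nat_lit 0x200816) (nat_lit 4)))
 (.n (.p (nat_lit 0x22a0229e229c229a2296247706) (nat_lit 0x100008eb04) (nat_lit 52))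
 (.p (nat_lit 0x2880286028202800005031106) (nat_lit 0x150a415) (nat_lit 26))))
 (.n (.n (.p (nat_lit 0x1820181e181c181a18181ee106) (nat_lit 0x80000e901) (nat_lit 51))
 (.p (nat_lit 0x407440724070406e406c1ec906) (nat_lit 0x80000e923) (nat_lit 51)))
 (.n (.p (nat_lit 0x1cea1ce81ce61ce41ce0385d06) (nat_lit 0x100004c30a) (nat_lit 52))
 (.p (nat_lit 0x233c5f3702) (nat_lit 0x3a6560c44000500000600) (nat_lit 49))))))
 (.n (.n (.n (.n (.p (nat_lit 0x7e607e407de07dc05c305c106) (nat_lit 0x600000a100) (nat_lit 51))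
 (.p (nat_lit 0x7320730072e072c07280283072b07) (nat_lit 0x140015) (nat_lit 7)))
 (.n (.p (nat_lit 0x3ded0a2702) (nat_lit 0x346104) (nat_lit 16))
 (.p (nat_lit 0x43a4a0902) (nat_lit 0x30072f) (nat_lit 1))))
 (.n (.n (.p (nat_lit 0x22c0249302) (nat_lit 0x340b00) (nat_lit 5))
 (.p (nat_lit 0x4c044dfb02) (nat_lit 0x200122) (nat_lit 4)))
 (.n (.p (nat_lit 0x141518502) (nat_lit 0x40707) (nat_lit 30))
 (.p (nat_lit 0x5d731da902) (nat_lit 0xa0080000900) (nat_lit 38)))))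
 (.n (.n (.n (.p (nat_lit 0x16ba16a302) (nat_lit 0x540600) (nat_lit 4))
 (.p (nat_lit 0x1db61db41db01dae1dac05db06) (nat_lit 0x400001201c) (nat_lit 51)))
 (.n (.p (nat_lit 0x1aea1ae81ae61ae41ae21abd06) (nat_lit 0x800050705) (nat_lit 51))
 (.p (nat_lit 0x5de02ba302) (nat_lit 0x2000c200) (nat_lit 47))))
 (.n (.n (.p (nat_lit 0x205632cd02) (nat_lit 0x240902) (nat_lit 29))
 (.p (nat_lit 0x4a5047c902) (nat_lit 0x440728) (nat_lit 5)))
 (.n (.p (nat_lit 0xfe80fe60fe40fe20fe010e506) (nat_lit 0x1000000840e) (nat_lit 51))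
 (.p (nat_lit 0x114a603902) (nat_lit 0x4a8162340800400040000) (nat_lit 50))))))

def c1024_637 : Tr :=
 .n (.n (.n (.n (.n (.n (.p (nat_lit 0x43c043a0434044104) (nat_lit 0xc80040002a) (nat_lit 17))
 (.p (nat_lit 0xe7261bb02) (nat_lit 0x322266c15000300040000) (nat_lit 49)))
 (.p (nat_lit 0x1fd61fd41fd21fd01fce410b06) (nat_lit 0x100000ce412) (nat_lit 52)))
 (.n (.p (nat_lit 0x1e5a1e561e541e521e50232f06) (nat_lit 0x80000cca03) (nat_lit 51))
 (.p (nat_lit 0x3404326502) (nat_lit 0x100b2c) (nat_lit 5))))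
 (.n (.n (.p (nat_lit 0x21222120211e211c211a211806) (nat_lit 0x8ca00) (nat_lit 52))
 (.p (nat_lit 0x35155e302) (nat_lit 0x140b1f) (nat_lit 30)))
 (.n (.p (nat_lit 0x198619841982197e197c0e0506) (nat_lit 0x200008e307) (nat_lit 51))
 (.p (nat_lit 0x5e6634bf02) (nat_lit 0x6800) (nat_lit 48)))))
 (.n (.n (.n (.p (nat_lit 0x12ce12cc12ca12c610c710c306) (nat_lit 0x2800004500) (nat_lit 52))
 (.p (nat_lit 0x422c3ed702) (nat_lit 0x619) (nat_lit 4)))
 (.n (.p (nat_lit 0x1128224902) (nat_lit 0x300405) (nat_lit 4))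
 (.p (nat_lit 0x5dae421502) (nat_lit 0x12000) (nat_lit 47))))
 (.n (.n (.p (nat_lit 0xb6d08af02) (nat_lit 0x100102) (nat_lit 15))
 (.p (nat_lit 0x3648364636443642364003ed363f07) (nat_lit 0x40126) (nat_lit 7)))
 (.n (.p (nat_lit 0xe8475502) (nat_lit 0x34030c) (nat_lit 1))
 (.p (nat_lit 0x207a5fc302) (nat_lit 0x89832915800400000600) (nat_lit 50))))))
 (.n (.n (.n (.n (.p (nat_lit 0xbe00bda0bd80bd609d509d306) (nat_lit 0xc000048200) (nat_lit 51))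
 (.p (nat_lit 0x16480aa902) (nat_lit 0x200615) (nat_lit 5)))
 (.n (.p (nat_lit 0xbb00bac0baa0ba80ba6168906) (nat_lit 0x8000084604) (nat_lit 52))
 (.p (nat_lit 0xec00ea00e400e20007040d06) (nat_lit 0x1a0e405) (nat_lit 26))))
 (.n (.n (.p (nat_lit 0xf92171502) (nat_lit 0x340301) (nat_lit 5))
 (.p (nat_lit 0x11421140113e113c113a09ef06) (nat_lit 0x100000c8123) (nat_lit 52)))
 (.n (.p (nat_lit 0x2d642d622d602d5e2d5a2aff06) (nat_lit 0x1000012808) (nat_lit 52))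
 (.p (nat_lit 0x5d5d234702) (nat_lit 0x200080000b00) (nat_lit 40)))))
 (.n (.n (.n (.p (nat_lit 0x1a401a3c1a3a1a38179d179906) (nat_lit 0x140000d4700) (nat_lit 52))
 (.p (nat_lit 0x102410221020101c14eb14e306) (nat_lit 0x1100004451c) (nat_lit 51)))
 (.n (.p (nat_lit 0x4df24df04dee4dec0fd30fc906) (nat_lit 0x108000c0306) (nat_lit 52))
 (.p (nat_lit 0x5e183ba102) (nat_lit 0x60010400) (nat_lit 47))))
 (.n (.n (.p (nat_lit 0x25b8341502) (nat_lit 0x340b02) (nat_lit 29))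
 (.p (nat_lit 0xe230b5d02) (nat_lit 0x50022a) (nat_lit 15)))
 (.n (.p (nat_lit 0x1be2097502) (nat_lit 0x40080e) (nat_lit 5))
 (.p (nat_lit 0x21cc60b302) (nat_lit 0x350521a84000400040600) (nat_lit 49))))))

def c512_125 : Tr := .n c1024_125 c1024_637

def c1024_381 : Tr :=
 .n (.n (.n (.n (.n (.n (.p (nat_lit 0x1ce01ca01c601d104) (nat_lit 0x1500040000c) (nat_lit 17))
 (.p (nat_lit 0x638617b02) (nat_lit 0x521a86b11000000040000) (nat_lit 49)))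
 (.p (nat_lit 0x1c741c701c6e1c6c38e738df06) (nat_lit 0x8800002411) (nat_lit 52)))
 (.n (.p (nat_lit 0x3aa1167f02) (nat_lit 0x502603) (nat_lit 16))
 (.p (nat_lit 0x2b342a4302) (nat_lit 0x10082b) (nat_lit 5))))
 (.n (.n (.p (nat_lit 0x1d301d2e1d2c1d2a0014000b00011d331d2909) (nat_lit 0x2840900) (nat_lit 10))
 (.p (nat_lit 0x339e307702) (nat_lit 0x240a1e) (nat_lit 5)))
 (.n (.p (nat_lit 0xb40513702) (nat_lit 0x300207) (nat_lit 29))
 (.p (nat_lit 0x5d0f5e5902) (nat_lit 0xe0040000700) (nat_lit 37)))))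
 (.n (.n (.n (.p (nat_lit 0x11290dfb02) (nat_lit 0x314400) (nat_lit 16))
 (.p (nat_lit 0x38f436fb02) (nat_lit 0x500418) (nat_lit 5)))
 (.n (.p (nat_lit 0x8da44bf02) (nat_lit 0x500105) (nat_lit 29))
 (.p (nat_lit 0x3a803a603a403a203db000106) (nat_lit 0x280c123) (nat_lit 26))))
 (.n (.n (.p (nat_lit 0x251425122510250e250c21a906) (nat_lit 0x80000aa01) (nat_lit 52))
 (.p (nat_lit 0x27b2296702) (nat_lit 0x440124) (nat_lit 5)))
 (.n (.p (nat_lit 0x467d3f1702) (nat_lit 0x45620b) (nat_lit 16))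
 (.p (nat_lit 0x13fc5f7702) (nat_lit 0x3aa074b50000500040000) (nat_lit 50))))))
 (.n (.n (.n (.n (.p (nat_lit 0xa41072502) (nat_lit 0x456100) (nat_lit 16))
 (.p (nat_lit 0x138a0a8d02) (nat_lit 0x515) (nat_lit 4)))
 (.n (.p (nat_lit 0x111c1f8302) (nat_lit 0x300404) (nat_lit 5))
 (.p (nat_lit 0x5b58ef02) (nat_lit 0x100502) (nat_lit 28))))
 (.n (.n (.p (nat_lit 0x26ae26aa26a826a626a4075506) (nat_lit 0x80000d2001) (nat_lit 52))
 (.p (nat_lit 0x7440ffd02) (nat_lit 0x240023) (nat_lit 4)))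
 (.n (.p (nat_lit 0x14351c302) (nat_lit 0x140a07) (nat_lit 30))
 (.p (nat_lit 0x5d6f207302) (nat_lit 0xe0080000a00) (nat_lit 38)))))
 (.n (.n (.n (.p (nat_lit 0x18ba18b618b418b21629162106) (nat_lit 0x8800012700) (nat_lit 52))
 (.p (nat_lit 0xc260c240c200c1c0883087f06) (nat_lit 0x500000e11c) (nat_lit 52)))
 (.n (.p (nat_lit 0x63024a102) (nat_lit 0x400006) (nat_lit 5))
 (.p (nat_lit 0x5dfc423d02) (nat_lit 0x40012300) (nat_lit 48))))
 (.n (.n (.p (nat_lit 0x63337502) (nat_lit 0x540a02) (nat_lit 30))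
 (.p (nat_lit 0x89e089a08960894045a043d0439089d089909) (nat_lit 0x220012a) (nat_lit 10)))
 (.n (.p (nat_lit 0x67a0678067406720670138506) (nat_lit 0x400000650e) (nat_lit 51))
 (.p (nat_lit 0x638607b02) (nat_lit 0x511a22b85000000040000) (nat_lit 49))))))

def c1024_893 : Tr :=
 .n (.n (.n (.n (.n (.p (nat_lit 0x650063902) (nat_lit 0x240000) (nat_lit 4))
 (.p (nat_lit 0x7da07d607d407d207d04a2d06) (nat_lit 0x80000c8713) (nat_lit 51)))
 (.n (.p (nat_lit 0x154a154615441542154025c706) (nat_lit 0x800004cb03) (nat_lit 51))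
 (.p (nat_lit 0x1e4e1e4c1e4a1e461e443f2906) (nat_lit 0x200004c22e) (nat_lit 52))))
 (.n (.n (.p (nat_lit 0x22b822b622b422b222b01ff306) (nat_lit 0x8000d0a00) (nat_lit 52))
 (.p (nat_lit 0x4348562102) (nat_lit 0x200b20) (nat_lit 29)))
 (.n (.p (nat_lit 0x12da12d812d612d412d010d106) (nat_lit 0x1000084407) (nat_lit 51))
 (.p (nat_lit 0x5dad1c4502) (nat_lit 0xa0000800) (nat_lit 39)))))
 (.n (.n (.n (.p (nat_lit 0x655122502) (nat_lit 0x440500) (nat_lit 15))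
 (.p (nat_lit 0x49e645e702) (nat_lit 0x30071a) (nat_lit 5)))
 (.n (.p (nat_lit 0xe749a902) (nat_lit 0x240605) (nat_lit 30))
 (.p (nat_lit 0x5dc8338502) (nat_lit 0x2004e100) (nat_lit 47))))
 (.n (.n (.p (nat_lit 0x110219e902) (nat_lit 0x200402) (nat_lit 5))
 (.p (nat_lit 0x3e76404102) (nat_lit 0x200227) (nat_lit 5)))
 (.n (.p (nat_lit 0x6620660065e065c0658503b06) (nat_lit 0x100000480d) (nat_lit 51))
 (.p (nat_lit 0x6485ffb02) (nat_lit 0x16a88cd50000000040000) (nat_lit 50))))))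
 (.n (.n (.n (.n (.p (nat_lit 0xdaa0da80da60da40b310b2f06) (nat_lit 0x1800090300) (nat_lit 51))
 (.p (nat_lit 0x1eba0af302) (nat_lit 0x500915) (nat_lit 4)))
 (.n (.p (nat_lit 0xb742a702) (nat_lit 0x100704) (nat_lit 30))
 (.p (nat_lit 0x1a201a0019e01980143008b06) (nat_lit 0xa1630a) (nat_lit 26))))
 (.n (.n (.p (nat_lit 0x1c1e1c1a1c181c160054003500311c211c1d09) (nat_lit 0x2b00801) (nat_lit 10))
 (.p (nat_lit 0x166616641662165e165c03a5166107) (nat_lit 0x200623) (nat_lit 7)))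
 (.n (.p (nat_lit 0x31682d5102) (nat_lit 0x140409) (nat_lit 4))
 (.p (nat_lit 0x1adc5ef102) (nat_lit 0x4a1d22344000200000600) (nat_lit 49)))))
 (.n (.n (.n (.p (nat_lit 0x1bf518fb02) (nat_lit 0x106800) (nat_lit 16))
 (.p (nat_lit 0x1d60556502) (nat_lit 0x44081c) (nat_lit 29)))
 (.n (.p (nat_lit 0x341ad302) (nat_lit 0x540706) (nat_lit 1))
 (.p (nat_lit 0x5d7d129d02) (nat_lit 0x80000500) (nat_lit 38))))
 (.n (.n (.p (nat_lit 0x35e035de35dc35da35d835d600940a1f0a1d0a150a) (nat_lit 0x16040103) (nat_lit 31))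
 (.p (nat_lit 0x100e100c100a100810060f8106) (nat_lit 0x80004232a) (nat_lit 52)))
 (.n (.p (nat_lit 0x4bf24bf04bec4bea4be8242706) (nat_lit 0x4000010b0e) (nat_lit 52))
 (.p (nat_lit 0x113c60fb02) (nat_lit 0x460d623a4000400040000) (nat_lit 49))))))

def c512_381 : Tr := .n c1024_381 c1024_893

def c256_125 : Tr := .n c512_125 c512_381

def c1024_253 : Tr :=
 .n (.n (.n (.n (.n (.n (.p (nat_lit 0xea00e200f103) (nat_lit 0x8800500005) (nat_lit 17))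
 (.p (nat_lit 0x1c4a615b02) (nat_lit 0x3503a8d64000200040600) (nat_lit 50)))
 (.p (nat_lit 0x333833363334333233300223332f07) (nat_lit 0xa10) (nat_lit 7)))
 (.n (.p (nat_lit 0x13d113c502) (nat_lit 0x514503) (nat_lit 16))
 (.p (nat_lit 0x491449124910490e230d230306) (nat_lit 0x10800046a2a) (nat_lit 52))))
 (.n (.n (.p (nat_lit 0x1e641e601e5e1e5c1bcd1bc906) (nat_lit 0x1400000e900) (nat_lit 51))
 (.p (nat_lit 0x2c7428c702) (nat_lit 0x340a1d) (nat_lit 4)))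
 (.n (.p (nat_lit 0x22922290228e228c228a1f0306) (nat_lit 0x1000000e906) (nat_lit 51))
 (.p (nat_lit 0x5cb95e5102) (nat_lit 0x40000000700) (nat_lit 37)))))
 (.n (.n (.n (.p (nat_lit 0x10181016101210100dff0df906) (nat_lit 0x12000082400) (nat_lit 51))
 (.p (nat_lit 0x32ae2f0302) (nat_lit 0x400917) (nat_lit 4)))
 (.n (.p (nat_lit 0x439525cd02) (nat_lit 0x148b04) (nat_lit 16))
 (.p (nat_lit 0x3095b7d02) (nat_lit 0x10011c) (nat_lit 28))))
 (.n (.n (.p (nat_lit 0x12aa12a812a612a212a0204b06) (nat_lit 0x200004a901) (nat_lit 51))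
 (.p (nat_lit 0x244e120f02) (nat_lit 0x500b23) (nat_lit 5)))
 (.n (.p (nat_lit 0x3aec526702) (nat_lit 0x500a0a) (nat_lit 29))
 (.p (nat_lit 0x1da65f5b02) (nat_lit 0x1a2276350000300000600) (nat_lit 49))))))
 (.n (.n (.n (.n (.p (nat_lit 0x9120910090e090c0727072506) (nat_lit 0x180000c6100) (nat_lit 51))
 (.p (nat_lit 0xe9a0e980e920e9010ed10eb06) (nat_lit 0x6000080415) (nat_lit 52)))
 (.n (.p (nat_lit 0x3ee03edc3eda3ed83ed60ceb06) (nat_lit 0x800004c204) (nat_lit 52))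
 (.p (nat_lit 0x212589102) (nat_lit 0x400101) (nat_lit 27))))
 (.n (.n (.p (nat_lit 0x257322c302) (nat_lit 0x440b00) (nat_lit 16))
 (.p (nat_lit 0x50ba4db302) (nat_lit 0x540822) (nat_lit 5)))
 (.n (.p (nat_lit 0x14b51a702) (nat_lit 0x540807) (nat_lit 30))
 (.p (nat_lit 0x5ce7206d02) (nat_lit 0x60020000a00) (nat_lit 38)))))
 (.n (.n (.n (.p (nat_lit 0x178e178c178a178816bb16b106) (nat_lit 0x108000d4600) (nat_lit 52))
 (.p (nat_lit 0x1aea1ae81ae61ae21ae0073906) (nat_lit 0x200005001c) (nat_lit 51)))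
 (.n (.p (nat_lit 0x1fee1fea1fe81fe61c2d1c2906) (nat_lit 0x14000096805) (nat_lit 51))
 (.p (nat_lit 0x5dee3b8b02) (nat_lit 0x80010200) (nat_lit 48))))
 (.n (.n (.p (nat_lit 0xa5a0a580a560a540a5021b706) (nat_lit 0x1000004a02) (nat_lit 51))
 (.p (nat_lit 0x2968296429622960295e4fef06) (nat_lit 0x8000082729) (nat_lit 51)))
 (.n (.p (nat_lit 0xfde0fdc0fd80fd60fd4123b06) (nat_lit 0x400004840e) (nat_lit 52))
 (.p (nat_lit 0x180c605d02) (nat_lit 0x506272b31000100000600) (nat_lit 49))))))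

def c1024_765 : Tr :=
 .n (.n (.n (.n (.n (.n (.p (nat_lit 0x5060502050004fe04e504e106) (nat_lit 0x14000006000) (nat_lit 52))
 (.p (nat_lit 0x12ab12990fe10fdd0d170d0d0a530a4f07a9079504d504c561d80d) (nat_lit 0x542266c0c800000000000) (nat_lit 33)))
 (.p (nat_lit 0x25353ed02) (nat_lit 0x240b12) (nat_lit 30)))
 (.n (.p (nat_lit 0x1c501c4a1c481c462471246f06) (nat_lit 0xc000090b03) (nat_lit 51))
 (.p (nat_lit 0x387439b902) (nat_lit 0x54032d) (nat_lit 5))))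
 (.n (.n (.p (nat_lit 0x1ff421db02) (nat_lit 0x140a00) (nat_lit 5))
 (.p (nat_lit 0x3dec3dea3de83de60382036d036b3df13def09) (nat_lit 0x2c40120) (nat_lit 10)))
 (.n (.p (nat_lit 0x197a1976197419720f710f6906) (nat_lit 0x88000ce307) (nat_lit 52))
 (.p (nat_lit 0x5d3f5e7502) (nat_lit 0xe0060000800) (nat_lit 37)))))
 (.n (.n (.n (.p (nat_lit 0x13e910cd02) (nat_lit 0x516500) (nat_lit 16))
 (.p (nat_lit 0x4490462302) (nat_lit 0x4001a) (nat_lit 4)))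
 (.n (.p (nat_lit 0x15261522151e151c010800eb00e71525152109) (nat_lit 0x2240505) (nat_lit 10))
 (.p (nat_lit 0x5d7104cb02) (nat_lit 0xc0080000000) (nat_lit 38))))
 (.n (.n (.p (nat_lit 0xf990ccb02) (nat_lit 0x40202) (nat_lit 15))
 (.p (nat_lit 0x3ba438c502) (nat_lit 0x500b26) (nat_lit 4)))
 (.n (.p (nat_lit 0x4cf24aaf02) (nat_lit 0x10020d) (nat_lit 4))
 (.p (nat_lit 0x1ae05fdd02) (nat_lit 0x3842a1c35000200000600) (nat_lit 50))))))
 (.n (.n (.n (.n (.p (nat_lit 0xd130d0702) (nat_lit 0x300) (nat_lit 34))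
 (.p (nat_lit 0x1a800c2902) (nat_lit 0x40715) (nat_lit 4)))
 (.n (.p (nat_lit 0x63e063c063a0638063617f306) (nat_lit 0x8000c0604) (nat_lit 52))
 (.p (nat_lit 0x11c01160114011200e9000906) (nat_lit 0x1c12806) (nat_lit 26))))
 (.n (.n (.p (nat_lit 0x13aa2a1d02) (nat_lit 0x400501) (nat_lit 29))
 (.p (nat_lit 0xeca0ec80ec60ec40ec00b4906) (nat_lit 0x100008a223) (nat_lit 51)))
 (.n (.p (nat_lit 0x2f8e2d2302) (nat_lit 0x140209) (nat_lit 5))
 (.p (nat_lit 0x6345ed502) (nat_lit 0x4a1a22344000000040000) (nat_lit 49)))))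
 (.n (.n (.n (.p (nat_lit 0x1b0e1b0c1b0a1b081b0618f906) (nat_lit 0x800002800) (nat_lit 51))
 (.p (nat_lit 0x1bf5192b02) (nat_lit 0x10071c) (nat_lit 15)))
 (.n (.p (nat_lit 0x13e623c902) (nat_lit 0x400506) (nat_lit 5))
 (.p (nat_lit 0x5c8f12a102) (nat_lit 0x2e0000000500) (nat_lit 40))))
 (.n (.n (.p (nat_lit 0x76e1c6902) (nat_lit 0x540003) (nat_lit 4))
 (.p (nat_lit 0x2faf0cbd02) (nat_lit 0x54e22a) (nat_lit 16)))
 (.n (.p (nat_lit 0x1eb91ead02) (nat_lit 0x40690e) (nat_lit 16))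
 (.p (nat_lit 0x113c60db02) (nat_lit 0x340a621b0000400040000) (nat_lit 49))))))

def c512_253 : Tr := .n c1024_253 c1024_765

def c1024_509 : Tr :=
 .n (.n (.n (.n (.n (.n (.p (nat_lit 0x30a0308031503) (nat_lit 0x300050001c) (nat_lit 17))
 (.p (nat_lit 0x8e8619d02) (nat_lit 0x380aa5c14800100040000) (nat_lit 49)))
 (.p (nat_lit 0x1ee3b7f02) (nat_lit 0x400b11) (nat_lit 1)))
 (.n (.p (nat_lit 0x21c63add02) (nat_lit 0x300a03) (nat_lit 29))
 (.p (nat_lit 0x1a2a1a261a241a221a202fad06) (nat_lit 0x80000d222c) (nat_lit 51))))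
 (.n (.n (.p (nat_lit 0x1ffd1d3302) (nat_lit 0x540900) (nat_lit 15))
 (.p (nat_lit 0x35755d102) (nat_lit 0x44011f) (nat_lit 30)))
 (.n (.p (nat_lit 0x922091e091c091a09180ca306) (nat_lit 0x8000048207) (nat_lit 51))
 (.p (nat_lit 0x5d5b197902) (nat_lit 0x220080000700) (nat_lit 39)))))
 (.n (.n (.n (.p (nat_lit 0x12181216121412120f670f5d06) (nat_lit 0x108000d6400) (nat_lit 51))
 (.p (nat_lit 0xaa00a9e0a9c0a9a0a983b8d06) (nat_lit 0x1000008ab18) (nat_lit 51)))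
 (.n (.p (nat_lit 0x4666466446624660465c0cf106) (nat_lit 0x100004e205) (nat_lit 52))
 (.p (nat_lit 0x5c425c405c3e5c3c5c3a002b044007) (nat_lit 0x462a) (nat_lit 25))))
 (.n (.n (.p (nat_lit 0x6002c8b02) (nat_lit 0x400002) (nat_lit 29))
 (.p (nat_lit 0x2ec0312d02) (nat_lit 0x340125) (nat_lit 4)))
 (.n (.p (nat_lit 0x67a0678067606740672425d06) (nat_lit 0x80004660b) (nat_lit 51))
 (.p (nat_lit 0x8ec5f9702) (nat_lit 0x88bb0155800100040000) (nat_lit 49))))))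
 (.n (.n (.n (.n (.p (nat_lit 0xafe0afa0af80af60879087106) (nat_lit 0x8800092200) (nat_lit 52))
 (.p (nat_lit 0x39f5139502) (nat_lit 0x510515) (nat_lit 16)))
 (.n (.p (nat_lit 0x4136413441324130412e412c06) (nat_lit 0x4504) (nat_lit 52))
 (.p (nat_lit 0x8e008a00880086000b005f06) (nat_lit 0x2b16603) (nat_lit 26))))
 (.n (.n (.p (nat_lit 0xb6816f502) (nat_lit 0x500201) (nat_lit 5))
 (.p (nat_lit 0x140013fc13fa13f813f6089106) (nat_lit 0x800008a123) (nat_lit 51)))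
 (.n (.p (nat_lit 0x280e25e502) (nat_lit 0x100208) (nat_lit 4))
 (.p (nat_lit 0x5cc95eb102) (nat_lit 0x240020000b00) (nat_lit 37)))))
 (.n (.n (.n (.p (nat_lit 0x197c1970179303) (nat_lit 0x40700) (nat_lit 6))
 (.p (nat_lit 0x3a4139b02) (nat_lit 0x20051c) (nat_lit 1)))
 (.n (.p (nat_lit 0xa424c2b02) (nat_lit 0x540106) (nat_lit 29))
 (.p (nat_lit 0x5cb55e0b02) (nat_lit 0x80000000400) (nat_lit 36))))
 (.n (.n (.p (nat_lit 0x245c1a4502) (nat_lit 0xb02) (nat_lit 4))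
 (.p (nat_lit 0x6c606c406c206c006be09fb06) (nat_lit 0x1000005012a) (nat_lit 51)))
 (.n (.p (nat_lit 0x163e094f02) (nat_lit 0x30060e) (nat_lit 4))
 (.p (nat_lit 0x1c3c609702) (nat_lit 0x344580ca4000200040600) (nat_lit 49))))))

def c1024_1021 : Tr :=
 .n (.n (.n (.n (.n (.p (nat_lit 0x73b065302) (nat_lit 0x346000) (nat_lit 16))
 (.p (nat_lit 0x50124be702) (nat_lit 0x540714) (nat_lit 4)))
 (.n (.p (nat_lit 0x7741f2d02) (nat_lit 0x240004) (nat_lit 5))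
 (.p (nat_lit 0x452448e302) (nat_lit 0x10012f) (nat_lit 5))))
 (.n (.n (.p (nat_lit 0x23d623d223d023cc215d215706) (nat_lit 0x900000eb00) (nat_lit 52))
 (.p (nat_lit 0x496046cd02) (nat_lit 0x540521) (nat_lit 4)))
 (.n (.p (nat_lit 0x3167122902) (nat_lit 0x4e407) (nat_lit 16))
 (.p (nat_lit 0x5cc91f1302) (nat_lit 0x240020000900) (nat_lit 41)))))
 (.n (.n (.n (.p (nat_lit 0x15ee15ec15e615e41553155106) (nat_lit 0x6000090600) (nat_lit 52))
 (.p (nat_lit 0xa940a920a900a8e0a8c505b06) (nat_lit 0x1000000a81b) (nat_lit 52)))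
 (.n (.p (nat_lit 0x20742070206e206c206a196106) (nat_lit 0x8000014705) (nat_lit 52))
 (.p (nat_lit 0x5da55dd902) (nat_lit 0x800a0000100) (nat_lit 37))))
 (.n (.n (.p (nat_lit 0x61320102) (nat_lit 0x440502) (nat_lit 30))
 (.p (nat_lit 0x44b244ae44ac44aa04180411040944b144a909) (nat_lit 0x2040028) (nat_lit 10)))
 (.n (.p (nat_lit 0xc8c0c880c860c840e150e0d06) (nat_lit 0x880009630e) (nat_lit 52))
 (.p (nat_lit 0xe76601b02) (nat_lit 0x4099a2354800300040000) (nat_lit 49))))))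
 (.n (.n (.n (.n (.p (nat_lit 0xe9a0e980e940e920e900c9506) (nat_lit 0x40000c0300) (nat_lit 52))
 (.p (nat_lit 0x28954a502) (nat_lit 0x440a15) (nat_lit 30)))
 (.n (.p (nat_lit 0x1aba1ab81ab41ab21ab000bb1ab707) (nat_lit 0x340704) (nat_lit 7))
 (.p (nat_lit 0x1e95a9302) (nat_lit 0x10070e) (nat_lit 28))))
 (.n (.n (.p (nat_lit 0x1a2a1a261a241a221a201d8506) (nat_lit 0x80000d2801) (nat_lit 51))
 (.p (nat_lit 0x1c0256ed02) (nat_lit 0x200823) (nat_lit 29)))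
 (.n (.p (nat_lit 0x266a266826662664266033cd06) (nat_lit 0x1000006b09) (nat_lit 51))
 (.p (nat_lit 0x180e5f1902) (nat_lit 0x1a2274b50000100000600) (nat_lit 49)))))
 (.n (.n (.n (.p (nat_lit 0x1cd21cd01cca1cc81a631a6106) (nat_lit 0x600004a800) (nat_lit 51))
 (.p (nat_lit 0x218c0dcd02) (nat_lit 0x400a1c) (nat_lit 4)))
 (.n (.p (nat_lit 0x198619841982197e197c1c3306) (nat_lit 0x200008e806) (nat_lit 51))
 (.p (nat_lit 0x5c91154102) (nat_lit 0x2c0000000600) (nat_lit 40))))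
 (.n (.n (.p (nat_lit 0xe421ca102) (nat_lit 0x300303) (nat_lit 5))
 (.p (nat_lit 0x43f57fb02) (nat_lit 0x50072a) (nat_lit 30)))
 (.n (.p (nat_lit 0x2ae2538702) (nat_lit 0x54050f) (nat_lit 29))
 (.p (nat_lit 0x2336611d02) (nat_lit 0x35486a3a4000500000600) (nat_lit 49))))))

def c512_509 : Tr := .n c1024_509 c1024_1021

def c256_253 : Tr := .n c512_253 c512_509

def c128_125 : Tr := .n c256_125 c256_253

def c64_61 : Tr := .n c128_61 c128_125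

def c32_29 : Tr := .n c64_29 c64_61

def c16_13 : Tr := .n c32_13 c32_29

def b13 : Tr := c16_13

theorem hb4_13 : allp (tst G49 true (getA DT)) b13 = true := by decide +kernel

end Vale.Agent.P032.H437.Ev2
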