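import Vale.Agent.P032.H437.Ev2.T

namespace Vale.Agent.P032.H437.Ev2
open Vale.Agent.P032.H859.Rup Vale.Agent.P032.H437

def c1024_14 : Tr :=
 .n (.n (.n (.n (.n (.n (.p (nat_lit 0x250021001b001304) (nat_lit 0x388800000) (nat_lit 21))
 (.p (nat_lit 0x12a712990feb0fd70d130d0d0a550a4d07a3079f04d704c361260d) (nat_lit 0x35486a1b0000000000000) (nat_lit 33)))
 (.p (nat_lit 0x2b08277702) (nat_lit 0x80f) (nat_lit 5)))
 (.n (.p (nat_lit 0x37d037cc37ca37c837c60e4506) (nat_lit 0x8000096303) (nat_lit 52))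
 (.p (nat_lit 0x1c11194702) (nat_lit 0x30072a) (nat_lit 15))))
 (.n (.n (.p (nat_lit 0x1cea1ce81ce21ce01a631a6106) (nat_lit 0x600004c800) (nat_lit 52))
 (.p (nat_lit 0x4720471e471a47184716218b06) (nat_lit 0x4000080a1c) (nat_lit 52)))
 (.n (.p (nat_lit 0x233c2338233423321c371c3306) (nat_lit 0xa000016806) (nat_lit 52))
 (.p (nat_lit 0x5ceb154302) (nat_lit 0x20020000600) (nat_lit 40)))))
 (.n (.n (.n (.p (nat_lit 0xea60ea20ea00e9e0e9c0c9706) (nat_lit 0x8000042300) (nat_lit 52))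
 (.p (nat_lit 0x22ed22e102) (nat_lit 0x148a15) (nat_lit 16)))
 (.n (.p (nat_lit 0x1c801c7e1c7c1c7a1c761ab306) (nat_lit 0x10000c2704) (nat_lit 52))
 (.p (nat_lit 0x1ef5aa502) (nat_lit 0x40080e) (nat_lit 28))))
 (.n (.n (.p (nat_lit 0x18ea18e818e418e21d831d7d06) (nat_lit 0x4800056801) (nat_lit 51))
 (.p (nat_lit 0x3918391639123910390e1c0506) (nat_lit 0x4000002823) (nat_lit 51)))
 (.n (.p (nat_lit 0x34242d9b02) (nat_lit 0x540b09) (nat_lit 4))
 (.p (nat_lit 0x1db05f1b02) (nat_lit 0x3a2274b50000300000600) (nat_lit 50))))))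
 (.n (.n (.n (.n (.p (nat_lit 0x75f065302) (nat_lit 0x34e000) (nat_lit 16))
 (.p (nat_lit 0x1f0504f02) (nat_lit 0x500814) (nat_lit 1)))
 (.n (.p (nat_lit 0x3c803c7c3c7a3c783c76077906) (nat_lit 0x8000044004) (nat_lit 51))
 (.p (nat_lit 0x43d643d443d243d043ce459306) (nat_lit 0x8000c612f) (nat_lit 51))))
 (.n (.n (.p (nat_lit 0x23ee23ec23ea23e823e4215706) (nat_lit 0x1000010b00) (nat_lit 52))
 (.p (nat_lit 0x49f446d702) (nat_lit 0x400721) (nat_lit 5)))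
 (.n (.p (nat_lit 0x176163502) (nat_lit 0x400607) (nat_lit 1))
 (.p (nat_lit 0x5e843f2702) (nat_lit 0x2004a900) (nat_lit 47)))))
 (.n (.n (.n (.p (nat_lit 0x16061604160215fe15fc155106) (nat_lit 0x2000092600) (nat_lit 51))
 (.p (nat_lit 0x50fa4ce902) (nat_lit 0x10091b) (nat_lit 4)))
 (.n (.p (nat_lit 0x49c9195902) (nat_lit 0x705) (nat_lit 16))
 (.p (nat_lit 0x5d8b079f02) (nat_lit 0x2200a0000100) (nat_lit 38))))
 (.n (.n (.p (nat_lit 0x325632543252324e324c14fd06) (nat_lit 0x2000054502) (nat_lit 52))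
 (.p (nat_lit 0x451a478b02) (nat_lit 0x200128) (nat_lit 4)))
 (.n (.p (nat_lit 0xf7652d702) (nat_lit 0x14030e) (nat_lit 29))
 (.p (nat_lit 0x2332601f02) (nat_lit 0x4099a2354800500000600) (nat_lit 49))))))

def c1024_526 : Tr :=
 .n (.n (.n (.n (.n (.n (.p (nat_lit 0x3270323031403) (nat_lit 0x2220001c) (nat_lit 19))
 (.p (nat_lit 0x113c619f02) (nat_lit 0x380aa5c15000400040000) (nat_lit 49)))
 (.p (nat_lit 0x7e607e407e207e007de3b7706) (nat_lit 0x80000ab11) (nat_lit 51)))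
 (.n (.p (nat_lit 0x21c821c621c221c000ac0091008b21cb21c509) (nat_lit 0x2a00a03) (nat_lit 10))
 (.p (nat_lit 0x3018322702) (nat_lit 0x20032c) (nat_lit 4))))
 (.n (.n (.p (nat_lit 0x20251d2b02) (nat_lit 0x146900) (nat_lit 16))
 (.p (nat_lit 0x3ec39f702) (nat_lit 0x51f) (nat_lit 1)))
 (.n (.p (nat_lit 0x9520950094e094a09480c9f06) (nat_lit 0x200004c207) (nat_lit 52))
 (.p (nat_lit 0x5e5e301302) (nat_lit 0x80000700) (nat_lit 47)))))
 (.n (.n (.n (.p (nat_lit 0x123b0f6302) (nat_lit 0x342400) (nat_lit 16))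
 (.p (nat_lit 0xa720a700a6e0a6c0a683bd906) (nat_lit 0x10000c0b18) (nat_lit 51)))
 (.n (.p (nat_lit 0xe54222d02) (nat_lit 0x305) (nat_lit 4))
 (.p (nat_lit 0x43f5c5702) (nat_lit 0x50082a) (nat_lit 28))))
 (.n (.n (.p (nat_lit 0x8b5060102) (nat_lit 0x400002) (nat_lit 15))
 (.p (nat_lit 0x2f9a313502) (nat_lit 0x140225) (nat_lit 4)))
 (.n (.p (nat_lit 0x42b2527702) (nat_lit 0x10070b) (nat_lit 29))
 (.p (nat_lit 0x1daa5f9b02) (nat_lit 0x88bb0155800300000600) (nat_lit 49))))))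
 (.n (.n (.n (.n (.p (nat_lit 0xb3d087302) (nat_lit 0x100200) (nat_lit 16))
 (.p (nat_lit 0x14dc0c0302) (nat_lit 0x440515) (nat_lit 4)))
 (.n (.p (nat_lit 0x417841764174417213cf13c706) (nat_lit 0x8800016504) (nat_lit 52))
 (.p (nat_lit 0x1b4595302) (nat_lit 0x400004) (nat_lit 27))))
 (.n (.n (.p (nat_lit 0x281f0b6502) (nat_lit 0x30a201) (nat_lit 16))
 (.p (nat_lit 0x197a1976197419721970089106) (nat_lit 0x800008e123) (nat_lit 52)))
 (.n (.p (nat_lit 0x2816265f02) (nat_lit 0x500208) (nat_lit 5))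
 (.p (nat_lit 0x5d13248502) (nat_lit 0xa0040000b00) (nat_lit 39)))))
 (.n (.n (.n (.p (nat_lit 0x1798198302) (nat_lit 0x340700) (nat_lit 5))
 (.p (nat_lit 0x139e139c139a13981396031113a107) (nat_lit 0x50051c) (nat_lit 7)))
 (.n (.p (nat_lit 0xcfb0a3902) (nat_lit 0x40106) (nat_lit 15))
 (.p (nat_lit 0x5c91113b02) (nat_lit 0x2c0000000400) (nat_lit 39))))
 (.n (.n (.p (nat_lit 0x5d33c302) (nat_lit 0x200b02) (nat_lit 30))
 (.p (nat_lit 0x459509f302) (nat_lit 0x15412a) (nat_lit 16)))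
 (.n (.p (nat_lit 0x2702270026fc26f8163f163b06) (nat_lit 0x500008a60e) (nat_lit 51))
 (.p (nat_lit 0x1142609b02) (nat_lit 0x342529ca4000400040000) (nat_lit 49))))))

def c512_14 : Tr := .n c1024_14 c1024_526

def c1024_270 : Tr :=
 .n (.n (.n (.n (.n (.n (.p (nat_lit 0x107010100f003) (nat_lit 0x61100005) (nat_lit 19))
 (.p (nat_lit 0x114e615f02) (nat_lit 0x352829d84000400040000) (nat_lit 50)))
 (.p (nat_lit 0x94609420940093e093c333706) (nat_lit 0x800008aa10) (nat_lit 52)))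
 (.n (.p (nat_lit 0x496150d02) (nat_lit 0x440503) (nat_lit 1))
 (.p (nat_lit 0x245a14bb02) (nat_lit 0x500b2a) (nat_lit 5))))
 (.n (.n (.p (nat_lit 0x1e7e1e7c1e781e761bc91bc306) (nat_lit 0x4800016900) (nat_lit 52))
 (.p (nat_lit 0x1a2a1a281a261a241a202cff06) (nat_lit 0x100009201e) (nat_lit 51)))
 (.n (.p (nat_lit 0x51091eff02) (nat_lit 0x306906) (nat_lit 16))
 (.p (nat_lit 0x5ca5180b02) (nat_lit 0x180000000700) (nat_lit 38)))))
 (.n (.n (.n (.p (nat_lit 0x10321030102e102a0df90df506) (nat_lit 0x2800084400) (nat_lit 51))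
 (.p (nat_lit 0x333a2f7502) (nat_lit 0xa17) (nat_lit 5)))
 (.n (.p (nat_lit 0x62606240622061e061c00e7062107) (nat_lit 0x200005) (nat_lit 7))
 (.p (nat_lit 0x30d5b9702) (nat_lit 0x30071c) (nat_lit 28))))
 (.n (.n (.p (nat_lit 0x169e169c169a16982051204f06) (nat_lit 0x180000cc901) (nat_lit 52))
 (.p (nat_lit 0x4e924e904e8e4e8c244f244506) (nat_lit 0x10800090b23) (nat_lit 51)))
 (.n (.p (nat_lit 0x3b743b723b703b6e3b6c01993b6b07) (nat_lit 0xb0a) (nat_lit 7))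
 (.p (nat_lit 0x12a45f5d02) (nat_lit 0x262530344000500000000) (nat_lit 50))))))
 (.n (.n (.n (.n (.p (nat_lit 0x92e092a092809260924072506) (nat_lit 0x80000c8100) (nat_lit 52))
 (.p (nat_lit 0xd560d540d520d500d4e10f106) (nat_lit 0x1000000a415) (nat_lit 52)))
 (.n (.p (nat_lit 0x3f2b0ce902) (nat_lit 0x34a204) (nat_lit 16))
 (.p (nat_lit 0x320030002c002a000b02b306) (nat_lit 0x2a12201) (nat_lit 26))))
 (.n (.n (.p (nat_lit 0x259722c302) (nat_lit 0x446b00) (nat_lit 16))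
 (.p (nat_lit 0x50bd50b102) (nat_lit 0x4a822) (nat_lit 16)))
 (.n (.p (nat_lit 0x2b4b1d3502) (nat_lit 0x4c807) (nat_lit 16))
 (.p (nat_lit 0x5cd9207902) (nat_lit 0x140020000a00) (nat_lit 40)))))
 (.n (.n (.n (.p (nat_lit 0x17bb16b502) (nat_lit 0x244600) (nat_lit 16))
 (.p (nat_lit 0x20742070206e206c206a073d06) (nat_lit 0x800005401c) (nat_lit 52)))
 (.n (.p (nat_lit 0xb61d8b02) (nat_lit 0x140805) (nat_lit 1))
 (.p (nat_lit 0x5d995df102) (nat_lit 0x1400a0000200) (nat_lit 37))))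
 (.n (.n (.p (nat_lit 0xfea0fe80fe60fe40fe021b706) (nat_lit 0x1000008a02) (nat_lit 51))
 (.p (nat_lit 0x506e4ef902) (nat_lit 0x300829) (nat_lit 4)))
 (.n (.p (nat_lit 0x18141812180e180c180a123b06) (nat_lit 0x400004e40e) (nat_lit 52))
 (.p (nat_lit 0x1db0605f02) (nat_lit 0x506272831000300000600) (nat_lit 50))))))

def c1024_782 : Tr :=
 .n (.n (.n (.n (.n (.n (.p (nat_lit 0x520051e051a051804e104db06) (nat_lit 0x4800008000) (nat_lit 51))
 (.p (nat_lit 0x1ae261dd02) (nat_lit 0x3302a5895000200000600) (nat_lit 50)))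
 (.p (nat_lit 0x4760453502) (nat_lit 0x340313) (nat_lit 5)))
 (.n (.p (nat_lit 0x21e021de21dc21da21d8247306) (nat_lit 0x10000094b03) (nat_lit 51))
 (.p (nat_lit 0x3b5a39c302) (nat_lit 0x440a2d) (nat_lit 5))))
 (.n (.n (.p (nat_lit 0x1ffa21e102) (nat_lit 0x440a00) (nat_lit 5))
 (.p (nat_lit 0x421055ff02) (nat_lit 0x340520) (nat_lit 29)))
 (.n (.p (nat_lit 0x1f1a1f161f141f121f100f7106) (nat_lit 0x80000d2307) (nat_lit 51))
 (.p (nat_lit 0x5d2d1adb02) (nat_lit 0x200060000800) (nat_lit 38)))))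
 (.n (.n (.n (.p (nat_lit 0x43c122502) (nat_lit 0x440500) (nat_lit 1))
 (.p (nat_lit 0x48bd47e502) (nat_lit 0x41a) (nat_lit 15)))
 (.n (.p (nat_lit 0x495f152502) (nat_lit 0x446505) (nat_lit 16))
 (.p (nat_lit 0x5d535dbf02) (nat_lit 0x2a0080000000) (nat_lit 37))))
 (.n (.n (.p (nat_lit 0xe3219d102) (nat_lit 0x100302) (nat_lit 5))
 (.p (nat_lit 0x1198119611941190118e3b9f06) (nat_lit 0x2000084b26) (nat_lit 52)))
 (.n (.p (nat_lit 0x4dc0529902) (nat_lit 0x30d) (nat_lit 29))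
 (.p (nat_lit 0x8ea5fe102) (nat_lit 0x3062a1c35000100040000) (nat_lit 49))))))
 (.n (.n (.n (.n (.p (nat_lit 0xb380b360b320b300b2e00070b3507) (nat_lit 0x300300) (nat_lit 7))
 (.p (nat_lit 0x1a880c3102) (nat_lit 0x440715) (nat_lit 4)))
 (.n (.p (nat_lit 0xbbc0bba0bb80bb60bb417f306) (nat_lit 0x8000c4604) (nat_lit 51))
 (.p (nat_lit 0x14a014801460144000301e706) (nat_lit 0x806207) (nat_lit 26))))
 (.n (.n (.p (nat_lit 0x13b313a702) (nat_lit 0x210501) (nat_lit 16))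
 (.p (nat_lit 0xb530b4702) (nat_lit 0x223) (nat_lit 16)))
 (.n (.p (nat_lit 0x2dde2ddc2dda2dd82dd62f8d06) (nat_lit 0x8000c8209) (nat_lit 51))
 (.p (nat_lit 0xbbc5ed702) (nat_lit 0x4a1a36344000200040000) (nat_lit 50)))))
 (.n (.n (.n (.p (nat_lit 0x1b3a1b381b361b34190318f906) (nat_lit 0x10800006800) (nat_lit 52))
 (.p (nat_lit 0x1a8e554702) (nat_lit 0x14071c) (nat_lit 29)))
 (.n (.p (nat_lit 0x1532252102) (nat_lit 0x540506) (nat_lit 4))
 (.p (nat_lit 0x5ce55e2702) (nat_lit 0x80020000500) (nat_lit 36))))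
 (.n (.n (.p (nat_lit 0xa15076502) (nat_lit 0x40003) (nat_lit 15))
 (.p (nat_lit 0xe1a12df02) (nat_lit 0x10032a) (nat_lit 5)))
 (.n (.p (nat_lit 0x1eb534502) (nat_lit 0x24090e) (nat_lit 30))
 (.p (nat_lit 0x154260df02) (nat_lit 0x340d623a4000000000600) (nat_lit 50))))))

def c512_270 : Tr := .n c1024_270 c1024_782

def c256_14 : Tr := .n c512_14 c512_270

def c1024_142 : Tr :=
 .n (.n (.n (.n (.n (.n (.p (nat_lit 0x90008a0088009304) (nat_lit 0x13000400003) (nat_lit 17))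
 (.p (nat_lit 0x1da2614102) (nat_lit 0x352a21d84000300000600) (nat_lit 49)))
 (.p (nat_lit 0x3104310030fe30fc30fa022b310307) (nat_lit 0x400410) (nat_lit 7)))
 (.n (.p (nat_lit 0x1119110d02) (nat_lit 0x114403) (nat_lit 16))
 (.p (nat_lit 0x582a58285826582458225820044007) (nat_lit 0x4092a) (nat_lit 8))))
 (.n (.n (.p (nat_lit 0x1bc41da302) (nat_lit 0x100900) (nat_lit 4))
 (.p (nat_lit 0x2596259425922590258e0311259907) (nat_lit 0x540b1c) (nat_lit 7)))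
 (.n (.p (nat_lit 0x1db61db41db21dae1dac1d9906) (nat_lit 0x2000052806) (nat_lit 51))
 (.p (nat_lit 0x5d33153b02) (nat_lit 0x1a0060000600) (nat_lit 38)))))
 (.n (.n (.n (.p (nat_lit 0xfa90c9302) (nat_lit 0x250300) (nat_lit 16))
 (.p (nat_lit 0x2ba0284702) (nat_lit 0x916) (nat_lit 5)))
 (.n (.p (nat_lit 0x2152214e214a2148247d247906) (nat_lit 0xa000090b04) (nat_lit 51))
 (.p (nat_lit 0x2855b1f02) (nat_lit 0x200715) (nat_lit 28))))
 (.n (.n (.p (nat_lit 0x207420722070206e206c1ee106) (nat_lit 0x800014901) (nat_lit 52))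
 (.p (nat_lit 0x3a3570f02) (nat_lit 0x140923) (nat_lit 30)))
 (.n (.p (nat_lit 0x38d4347102) (nat_lit 0x10040a) (nat_lit 5))
 (.p (nat_lit 0xba85f3b02) (nat_lit 0x3a6560c44000200040000) (nat_lit 49))))))
 (.n (.n (.n (.n (.p (nat_lit 0x81e081c0816081405c305c106) (nat_lit 0x6000010100) (nat_lit 52))
 (.p (nat_lit 0x730540902) (nat_lit 0x440015) (nat_lit 29)))
 (.n (.p (nat_lit 0xb823e0b02) (nat_lit 0x204) (nat_lit 29))
 (.p (nat_lit 0x143c143a1438143614324a0506) (nat_lit 0x100000672f) (nat_lit 52))))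
 (.n (.n (.p (nat_lit 0x22c222c022be22bc0014000b000122c522bb09) (nat_lit 0x2840b00) (nat_lit 10))
 (.p (nat_lit 0x4d244d224d204d1e4d1c4c0106) (nat_lit 0x80000a122) (nat_lit 51)))
 (.n (.p (nat_lit 0x149518d02) (nat_lit 0x440707) (nat_lit 30))
 (.p (nat_lit 0x5d591da902) (nat_lit 0x240080000900) (nat_lit 38)))))
 (.n (.n (.n (.p (nat_lit 0x16dc16d816d616d416b916b306) (nat_lit 0x9000042600) (nat_lit 51))
 (.p (nat_lit 0x2348234623422340233e05db06) (nat_lit 0x400001601c) (nat_lit 51)))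
 (.n (.p (nat_lit 0x21d621d421d221d021cc1abf06) (nat_lit 0x10000d4705) (nat_lit 52))
 (.p (nat_lit 0x5d195de502) (nat_lit 0x40040000200) (nat_lit 37))))
 (.n (.n (.p (nat_lit 0x6332d302) (nat_lit 0x540902) (nat_lit 30))
 (.p (nat_lit 0x4b2e4e4702) (nat_lit 0x500029) (nat_lit 4)))
 (.n (.p (nat_lit 0x16a216a0169c169810e110dd06) (nat_lit 0x500008c40e) (nat_lit 52))
 (.p (nat_lit 0x180e604102) (nat_lit 0x4a8176340800100000600) (nat_lit 49))))))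

def c1024_654 : Tr :=
 .n (.n (.n (.n (.n (.n (.p (nat_lit 0x43e043c044303) (nat_lit 0x1800050002a) (nat_lit 17))
 (.p (nat_lit 0x13fc61bd02) (nat_lit 0x322266c75000500040000) (nat_lit 50)))
 (.p (nat_lit 0x25753d902) (nat_lit 0x400512) (nat_lit 30)))
 (.n (.p (nat_lit 0x1fec1fea1fe81fe62331232f06) (nat_lit 0x180000d6a03) (nat_lit 51))
 (.p (nat_lit 0x35d4399902) (nat_lit 0x50012d) (nat_lit 4))))
 (.n (.n (.p (nat_lit 0x212e212a2128212621241e9506) (nat_lit 0x800000ea00) (nat_lit 52))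
 (.p (nat_lit 0xe8e0e8a0e880e860e843beb06) (nat_lit 0x8000040b1f) (nat_lit 51)))
 (.n (.p (nat_lit 0x207420722070206e206c0e0106) (nat_lit 0x800014307) (nat_lit 52))
 (.p (nat_lit 0x5ce55e6d02) (nat_lit 0x80020000800) (nat_lit 37)))))
 (.n (.n (.n (.p (nat_lit 0x12d812d612d412d010cd10c506) (nat_lit 0x11000084500) (nat_lit 51))
 (.p (nat_lit 0x28a423702) (nat_lit 0x500619) (nat_lit 1)))
 (.n (.p (nat_lit 0x13d7112702) (nat_lit 0x200405) (nat_lit 15))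
 (.p (nat_lit 0x5cdf063702) (nat_lit 0xe0020000000) (nat_lit 39))))
 (.n (.n (.p (nat_lit 0xa0a2e4102) (nat_lit 0x140102) (nat_lit 29))
 (.p (nat_lit 0x1cea1ce81ce61ce21ce0364306) (nat_lit 0x200004c126) (nat_lit 52)))
 (.n (.p (nat_lit 0x212e212c212a21262124475306) (nat_lit 0x200004e30c) (nat_lit 52))
 (.p (nat_lit 0x180a5fc702) (nat_lit 0x89832b05000100000600) (nat_lit 49))))))
 (.n (.n (.n (.n (.p (nat_lit 0xbea0be80be40be209d709d106) (nat_lit 0x120000c8200) (nat_lit 51))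
 (.p (nat_lit 0x28b543b02) (nat_lit 0x500615) (nat_lit 30)))
 (.n (.p (nat_lit 0x12aa12a812a612a412a0168306) (nat_lit 0x100000a604) (nat_lit 51))
 (.p (nat_lit 0xeb59b302) (nat_lit 0x400605) (nat_lit 28))))
 (.n (.n (.p (nat_lit 0xfcd0f9102) (nat_lit 0x254301) (nat_lit 16))
 (.p (nat_lit 0x1820181c181a1818181609ed06) (nat_lit 0x800004e123) (nat_lit 51)))
 (.n (.p (nat_lit 0x2b50269502) (nat_lit 0x340808) (nat_lit 5))
 (.p (nat_lit 0x5d4f249502) (nat_lit 0x2e0080000b00) (nat_lit 41)))))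
 (.n (.n (.n (.p (nat_lit 0x1a4c1a4a1a481a44179d179506) (nat_lit 0x11000056700) (nat_lit 52))
 (.p (nat_lit 0x109c109a10961094109214e706) (nat_lit 0x400005451c) (nat_lit 52)))
 (.n (.p (nat_lit 0x112e4e3302) (nat_lit 0x406) (nat_lit 29))
 (.p (nat_lit 0x5d755e1b02) (nat_lit 0x80080000400) (nat_lit 36))))
 (.n (.n (.p (nat_lit 0x25bc25ba25b425b2007c005f005d25b925b709) (nat_lit 0x1a40b02) (nat_lit 10))
 (.p (nat_lit 0xcb412d302) (nat_lit 0x14022a) (nat_lit 5)))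
 (.n (.p (nat_lit 0x359e359c359a359835961bdb06) (nat_lit 0x80000c80e) (nat_lit 51))
 (.p (nat_lit 0x8fa60c902) (nat_lit 0x3505223a4000100040000) (nat_lit 50))))))

def c512_142 : Tr := .n c1024_142 c1024_654

def c1024_398 : Tr :=
 .n (.n (.n (.n (.n (.n (.p (nat_lit 0x1ee01e601f503) (nat_lit 0x880050000e) (nat_lit 17))
 (.p (nat_lit 0x1ae2617d02) (nat_lit 0x421a86b15000200000600) (nat_lit 50)))
 (.p (nat_lit 0x1d261d241d221d201d1e38df06) (nat_lit 0x800096411) (nat_lit 52)))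
 (.n (.p (nat_lit 0x5a17e902) (nat_lit 0x140603) (nat_lit 1))
 (.p (nat_lit 0x2b742a4f02) (nat_lit 0x24082b) (nat_lit 5))))
 (.n (.n (.p (nat_lit 0x1f461f441f421f401d331d3106) (nat_lit 0x180000c2900) (nat_lit 52))
 (.p (nat_lit 0xeca0ec80ec60ec40ec0339d06) (nat_lit 0x10000caa1e) (nat_lit 51)))
 (.n (.p (nat_lit 0xb440b400b3e0b3c0156014901410b430b3b09) (nat_lit 0x2000207) (nat_lit 10))
 (.p (nat_lit 0x5e58198102) (nat_lit 0x40040700) (nat_lit 46)))))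
 (.n (.n (.n (.p (nat_lit 0x3a40f6102) (nat_lit 0x240400) (nat_lit 1))
 (.p (nat_lit 0x39f439f239f039ee39ea02d139ed07) (nat_lit 0x100518) (nat_lit 7)))
 (.n (.p (nat_lit 0xa2e20a902) (nat_lit 0x140105) (nat_lit 4))
 (.p (nat_lit 0x3a95bdf02) (nat_lit 0x400a23) (nat_lit 28))))
 (.n (.n (.p (nat_lit 0x240624042402240023fe21a906) (nat_lit 0x800012a01) (nat_lit 51))
 (.p (nat_lit 0x1790178e178c178a178827ab06) (nat_lit 0x8000d4124) (nat_lit 52)))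
 (.n (.p (nat_lit 0x3f9a3f943f923f9001c001b501b33f993f9709) (nat_lit 0x230030b) (nat_lit 10))
 (.p (nat_lit 0xbb05f7b02) (nat_lit 0x581a22b44000200040000) (nat_lit 49))))))
 (.n (.n (.n (.n (.p (nat_lit 0x8740a4902) (nat_lit 0x200200) (nat_lit 4))
 (.p (nat_lit 0x13941390138e138c138a0289139307) (nat_lit 0x400515) (nat_lit 7)))
 (.n (.p (nat_lit 0x403a4038403440321121111b06) (nat_lit 0x12000082404) (nat_lit 51))
 (.p (nat_lit 0x5f58fd02) (nat_lit 0x300902) (nat_lit 28))))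
 (.n (.n (.p (nat_lit 0x2b26d502) (nat_lit 0x101) (nat_lit 30))
 (.p (nat_lit 0x43e074b02) (nat_lit 0x540023) (nat_lit 1)))
 (.n (.p (nat_lit 0x14b51cb02) (nat_lit 0x540a07) (nat_lit 30))
 (.p (nat_lit 0x5d615ea702) (nat_lit 0x1c0080000a00) (nat_lit 37)))))
 (.n (.n (.n (.p (nat_lit 0x18c418c218c018bc162b162306) (nat_lit 0x11000092700) (nat_lit 52))
 (.p (nat_lit 0x272b087f02) (nat_lit 0x10c11c) (nat_lit 16)))
 (.n (.p (nat_lit 0x4b25063302) (nat_lit 0x506006) (nat_lit 16))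
 (.p (nat_lit 0x5d395e0302) (nat_lit 0x140060000300) (nat_lit 37))))
 (.n (.n (.p (nat_lit 0x8fc08fa08f808f608f4232506) (nat_lit 0x100000c2a02) (nat_lit 51))
 (.p (nat_lit 0x68406820680067e067c089f06) (nat_lit 0x1000008612a) (nat_lit 52)))
 (.n (.p (nat_lit 0x1395138902) (nat_lit 0x50650e) (nat_lit 16))
 (.p (nat_lit 0x1ade607f02) (nat_lit 0x511a22b85000200000600) (nat_lit 49))))))

def c1024_910 : Tr :=
 .n (.n (.n (.n (.n (.p (nat_lit 0x65406520650064e0014000b00010657064d09) (nat_lit 0x2840000) (nat_lit 10))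
 (.p (nat_lit 0x3d9a3d983d963d943d904a9106) (nat_lit 0x1000048813) (nat_lit 51)))
 (.n (.p (nat_lit 0x1c421c401c3e1c3c1c3a25c906) (nat_lit 0x100000d0b03) (nat_lit 52))
 (.p (nat_lit 0x46973f2f02) (nat_lit 0x55622e) (nat_lit 16))))
 (.n (.n (.p (nat_lit 0x22cd1ff902) (nat_lit 0x340a00) (nat_lit 16))
 (.p (nat_lit 0x4386562902) (nat_lit 0x40b20) (nat_lit 29)))
 (.n (.p (nat_lit 0x134c134a1346134410d510cf06) (nat_lit 0x4800092407) (nat_lit 51))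
 (.p (nat_lit 0x5d991c5102) (nat_lit 0x1400a0000800) (nat_lit 41)))))
 (.n (.n (.n (.p (nat_lit 0x14e7122302) (nat_lit 0x346500) (nat_lit 16))
 (.p (nat_lit 0xb0a0b080b040b0049e749e306) (nat_lit 0x500001471a) (nat_lit 52)))
 (.n (.p (nat_lit 0x23a623a423a0239e180517ff06) (nat_lit 0x48000c6605) (nat_lit 51))
 (.p (nat_lit 0x5cfd5dcf02) (nat_lit 0x200040000100) (nat_lit 36))))
 (.n (.n (.p (nat_lit 0x13b3110302) (nat_lit 0x200402) (nat_lit 15))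
 (.p (nat_lit 0x424440bd02) (nat_lit 0x627) (nat_lit 5)))
 (.n (.p (nat_lit 0x50904b6b02) (nat_lit 0x24080d) (nat_lit 5))
 (.p (nat_lit 0x1ae65fff02) (nat_lit 0x16a88cd50000200000600) (nat_lit 50))))))
 (.n (.n (.n (.n (.p (nat_lit 0xdcc0dc80dc60dc40b390b3506) (nat_lit 0x14000014300) (nat_lit 52))
 (.p (nat_lit 0x20180af702) (nat_lit 0x140915) (nat_lit 4)))
 (.n (.p (nat_lit 0x195619521950194e194c00bd195507) (nat_lit 0x400704) (nat_lit 7))
 (.p (nat_lit 0x1a201a0019a01980147018906) (nat_lit 0x1a1660a) (nat_lit 26))))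
 (.n (.n (.p (nat_lit 0x189618941890188c1c1d1c1906) (nat_lit 0x5000088801) (nat_lit 52))
 (.p (nat_lit 0x29fa29f829f629f4165f165d06) (nat_lit 0x1800014623) (nat_lit 51)))
 (.n (.p (nat_lit 0x326a326832663264316b316706) (nat_lit 0x2800056409) (nat_lit 51))
 (.p (nat_lit 0xfe45ef302) (nat_lit 0x4a9d84344000400000000) (nat_lit 50)))))
 (.n (.n (.n (.p (nat_lit 0x1c1b18fd02) (nat_lit 0x20c800) (nat_lit 16))
 (.p (nat_lit 0x37d037cc37ca37c837c61d6106) (nat_lit 0x80000d681c) (nat_lit 52)))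
 (.n (.p (nat_lit 0x176c176a1768176617621acb06) (nat_lit 0x1000052706) (nat_lit 51))
 (.p (nat_lit 0x5d6512a902) (nat_lit 0x180080000500) (nat_lit 40))))
 (.n (.n (.p (nat_lit 0x3630362e362c362a3628362606) (nat_lit 0xd6103) (nat_lit 52))
 (.p (nat_lit 0x292f0f8102) (nat_lit 0x4c32a) (nat_lit 16)))
 (.n (.p (nat_lit 0x2580257e257c257a257801e7257707) (nat_lit 0x40b0e) (nat_lit 7))
 (.p (nat_lit 0x181860ff02) (nat_lit 0x3425219b0000100000600) (nat_lit 50))))))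

def c512_398 : Tr := .n c1024_398 c1024_910

def c256_142 : Tr := .n c512_142 c512_398

def c128_14 : Tr := .n c256_14 c256_142

def c1024_78 : Tr :=
 .n (.n (.n (.n (.n (.n (.p (nat_lit 0x5e005c005a006504) (nat_lit 0x7000400002) (nat_lit 17))
 (.p (nat_lit 0x181c613302) (nat_lit 0x35486a3b0000100000600) (nat_lit 50)))
 (.p (nat_lit 0x2c3b2b9f02) (nat_lit 0x50090f) (nat_lit 15)))
 (.n (.p (nat_lit 0xfb10fa502) (nat_lit 0x54303) (nat_lit 16))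
 (.p (nat_lit 0x1d70132f02) (nat_lit 0x4082a) (nat_lit 5))))
 (.n (.n (.p (nat_lit 0x1d241d221d1e1d1c1a671a6106) (nat_lit 0x120000d6800) (nat_lit 52))
 (.p (nat_lit 0x3b3b22eb02) (nat_lit 0x50a1c) (nat_lit 16)))
 (.n (.p (nat_lit 0xa4e0a4c0a4a0a480a441d9706) (nat_lit 0x1000044806) (nat_lit 52))
 (.p (nat_lit 0x5e3e1acb02) (nat_lit 0x20054600) (nat_lit 48)))))
 (.n (.n (.n (.p (nat_lit 0xf100f0e0f0c0f0a0c990c8f06) (nat_lit 0x108000d0300) (nat_lit 52))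
 (.p (nat_lit 0x2a6e27c302) (nat_lit 0x516) (nat_lit 4)))
 (.n (.p (nat_lit 0xc200d100c91fdf1e7905) (nat_lit 0x64200b04) (nat_lit 9))
 (.p (nat_lit 0x2285aed02) (nat_lit 0x300611) (nat_lit 27))))
 (.n (.n (.p (nat_lit 0x63e063c063a063606341ee506) (nat_lit 0x2000080901) (nat_lit 52))
 (.p (nat_lit 0x3958395439523950394e1d6d06) (nat_lit 0x8000056823) (nat_lit 51)))
 (.n (.p (nat_lit 0x37d6345b02) (nat_lit 0x20030a) (nat_lit 4))
 (.p (nat_lit 0x20725f2f02) (nat_lit 0x3a2560b44000400000600) (nat_lit 49))))))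
 (.n (.n (.n (.n (.p (nat_lit 0x5c605c405c005be00100007000105c305bd09) (nat_lit 0x1800100) (nat_lit 10))
 (.p (nat_lit 0x5d005ce05cc05ca05c8028b05d307) (nat_lit 0x500015) (nat_lit 7)))
 (.n (.p (nat_lit 0x8d308c702) (nat_lit 0x116104) (nat_lit 16))
 (.p (nat_lit 0x46f4490f02) (nat_lit 0x10032f) (nat_lit 4))))
 (.n (.n (.p (nat_lit 0x2447215702) (nat_lit 0x108b00) (nat_lit 16))
 (.p (nat_lit 0x4b224d6f02) (nat_lit 0x400022) (nat_lit 4)))
 (.n (.p (nat_lit 0x190a06b102) (nat_lit 0x300707) (nat_lit 5))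
 (.p (nat_lit 0x5d3b5e8d02) (nat_lit 0x120060000900) (nat_lit 37)))))
 (.n (.n (.n (.p (nat_lit 0x167d155502) (nat_lit 0x410600) (nat_lit 16))
 (.p (nat_lit 0xd100d0c0d0a0d080d0605dd06) (nat_lit 0x800000601c) (nat_lit 52)))
 (.n (.p (nat_lit 0xbbc0bba0bb80bb60bb41abd06) (nat_lit 0x8000c4705) (nat_lit 51))
 (.p (nat_lit 0x5ddc505102) (nat_lit 0x16200) (nat_lit 47))))
 (.n (.n (.p (nat_lit 0x1cea1ce81ce61ce41eef1eed06) (nat_lit 0x180000c902) (nat_lit 52))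
 (.p (nat_lit 0x38a468702) (nat_lit 0x340228) (nat_lit 1)))
 (.n (.p (nat_lit 0x10da07c502) (nat_lit 0x40e) (nat_lit 4))
 (.p (nat_lit 0x2346602f02) (nat_lit 0x466a62335000500000600) (nat_lit 50))))))

def c1024_590 : Tr :=
 .n (.n (.n (.n (.n (.n (.p (nat_lit 0x3aa03a603a003ad04) (nat_lit 0x14800400023) (nat_lit 17))
 (.p (nat_lit 0x13ee61ad02) (nat_lit 0x3421a9c14800500040000) (nat_lit 49)))
 (.p (nat_lit 0x1e4e1e4a1e481e461e44408b06) (nat_lit 0x800000c412) (nat_lit 52)))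
 (.n (.p (nat_lit 0x3b2321cb02) (nat_lit 0x50aa03) (nat_lit 16))
 (.p (nat_lit 0x3364325302) (nat_lit 0x300a2c) (nat_lit 4))))
 (.n (.n (.p (nat_lit 0x208c2086208420821e951e9306) (nat_lit 0xc000000a00) (nat_lit 52))
 (.p (nat_lit 0x3be93b4102) (nat_lit 0x340a1f) (nat_lit 15)))
 (.n (.p (nat_lit 0x4ca04c804c604c404c20e0b06) (nat_lit 0x10000000307) (nat_lit 52))
 (.p (nat_lit 0x5d7f182102) (nat_lit 0x2e00a0000700) (nat_lit 40)))))
 (.n (.n (.n (.p (nat_lit 0x10c812a702) (nat_lit 0x300500) (nat_lit 5))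
 (.p (nat_lit 0x1e4e1e4c1e4a1e481e44419506) (nat_lit 0x100000c519) (nat_lit 52)))
 (.n (.p (nat_lit 0xfc4223f02) (nat_lit 0x440305) (nat_lit 4))
 (.p (nat_lit 0x5cec5cea5ce85ce65ce45ce25ce05cde5cdc5cda5cd85cd65cd45cd25cd05cce5ccc5cca5cc85cc65cc45cc25cc05cbe18) (nat_lit 0x20000000) (nat_lit 35))))
 (.n (.n (.p (nat_lit 0x2d6e2d6a2d682d660761075d06) (nat_lit 0xa0000d2002) (nat_lit 52))
 (.p (nat_lit 0x33fe30eb02) (nat_lit 0x300b25) (nat_lit 4)))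
 (.n (.p (nat_lit 0x1cd528902) (nat_lit 0x40020c) (nat_lit 30))
 (.p (nat_lit 0x114a5fa702) (nat_lit 0x89832955800400040000) (nat_lit 50))))))
 (.n (.n (.n (.n (.p (nat_lit 0x9d40baf02) (nat_lit 0x440200) (nat_lit 4))
 (.p (nat_lit 0x1daa1da81da61da41da014d706) (nat_lit 0x1000052515) (nat_lit 52)))
 (.n (.p (nat_lit 0x16841e4902) (nat_lit 0x200604) (nat_lit 4))
 (.p (nat_lit 0x1c4598902) (nat_lit 0x5) (nat_lit 27))))
 (.n (.n (.p (nat_lit 0xe2e0e2c0e2a0e260e24002f0e2907) (nat_lit 0x200301) (nat_lit 7))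
 (.p (nat_lit 0x3ae03bb03c11013117905) (nat_lit 0xa2140123) (nat_lit 9)))
 (.n (.p (nat_lit 0x15ee15ec15ea15e815e4292506) (nat_lit 0x10000d0308) (nat_lit 52))
 (.p (nat_lit 0x5d23249302) (nat_lit 0x2a0060000b00) (nat_lit 41)))))
 (.n (.n (.n (.p (nat_lit 0x1a1e1a1c1a1a1a181a161a1406) (nat_lit 0x52700) (nat_lit 51))
 (.p (nat_lit 0x309552302) (nat_lit 0x14051c) (nat_lit 30)))
 (.n (.p (nat_lit 0x1174d5f02) (nat_lit 0x200306) (nat_lit 30))
 (.p (nat_lit 0x5d1b5e1302) (nat_lit 0x20040000400) (nat_lit 36))))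
 (.n (.n (.p (nat_lit 0x176a1768176617641762246706) (nat_lit 0x10000012b02) (nat_lit 51))
 (.p (nat_lit 0x140013fc13f813f60b5b0b5706) (nat_lit 0xa00008a22a) (nat_lit 51)))
 (.n (.p (nat_lit 0x1a76080b02) (nat_lit 0x14070e) (nat_lit 4))
 (.p (nat_lit 0x248460a902) (nat_lit 0x344581ca4000500040600) (nat_lit 49))))))

def c512_78 : Tr := .n c1024_78 c1024_590

def c1024_334 : Tr :=
 .n (.n (.n (.n (.n (.n (.p (nat_lit 0x1480146014f03) (nat_lit 0xc000500007) (nat_lit 17))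
 (.p (nat_lit 0x181c616f02) (nat_lit 0x421aa6315000100000600) (nat_lit 50)))
 (.p (nat_lit 0x34262e1d02) (nat_lit 0x40b10) (nat_lit 5)))
 (.n (.p (nat_lit 0x913a8902) (nat_lit 0x500603) (nat_lit 30))
 (.p (nat_lit 0x1778177417721770176e282106) (nat_lit 0x800009222b) (nat_lit 52))))
 (.n (.n (.p (nat_lit 0x1eed1bc302) (nat_lit 0xe900) (nat_lit 16))
 (.p (nat_lit 0x32f8306102) (nat_lit 0x34091e) (nat_lit 5)))
 (.n (.p (nat_lit 0x227a2278227622742069205f06) (nat_lit 0x1080004c906) (nat_lit 51))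
 (.p (nat_lit 0x5cd55e5702) (nat_lit 0x180020000700) (nat_lit 36)))))
 (.n (.n (.n (.p (nat_lit 0x10c90dfb02) (nat_lit 0x300400) (nat_lit 15))
 (.p (nat_lit 0x33e82f2b02) (nat_lit 0x400b17) (nat_lit 5)))
 (.n (.p (nat_lit 0x786442502) (nat_lit 0x540005) (nat_lit 29))
 (.p (nat_lit 0x38e038a03880386030f040906) (nat_lit 0x200e521) (nat_lit 26))))
 (.n (.n (.p (nat_lit 0x21a8177b02) (nat_lit 0xa01) (nat_lit 4))
 (.p (nat_lit 0x26ca294902) (nat_lit 0x140024) (nat_lit 4)))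
 (.n (.p (nat_lit 0x68606840682067e067c3bc306) (nat_lit 0x20000c6b0a) (nat_lit 52))
 (.p (nat_lit 0x15345f7102) (nat_lit 0x3aa074c44000000000600) (nat_lit 49))))))
 (.n (.n (.n (.n (.p (nat_lit 0x9e1072502) (nat_lit 0x446100) (nat_lit 16))
 (.p (nat_lit 0x124612441242124002ac028b0289124b124909) (nat_lit 0x2c40415) (nat_lit 10)))
 (.n (.p (nat_lit 0xfba1f7b02) (nat_lit 0x540304) (nat_lit 4))
 (.p (nat_lit 0x2b58cb02) (nat_lit 0xa01) (nat_lit 28))))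
 (.n (.n (.p (nat_lit 0x26322630262e262c262a05f706) (nat_lit 0x10000012001) (nat_lit 51))
 (.p (nat_lit 0x12ce12ca12c812c612c405e906) (nat_lit 0x8000004023) (nat_lit 52)))
 (.n (.p (nat_lit 0x51be51bc51ba51b851b651b4014c07) (nat_lit 0xa07) (nat_lit 8))
 (.p (nat_lit 0x5e9c1efd02) (nat_lit 0x4000ca00) (nat_lit 48)))))
 (.n (.n (.n (.p (nat_lit 0x182c182a182818221625162306) (nat_lit 0x3000000700) (nat_lit 51))
 (.p (nat_lit 0x8840ea502) (nat_lit 0x40011c) (nat_lit 4)))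
 (.n (.p (nat_lit 0x1fbe1fbc1fba1fb81fb61d9306) (nat_lit 0x100000cc805) (nat_lit 52))
 (.p (nat_lit 0x5ccf0e7b02) (nat_lit 0x1e0020000300) (nat_lit 41))))
 (.n (.n (.p (nat_lit 0x332521b702) (nat_lit 0x100a02) (nat_lit 16))
 (.p (nat_lit 0x51124f0f02) (nat_lit 0x200929) (nat_lit 4)))
 (.n (.p (nat_lit 0x4f29123d02) (nat_lit 0x45640e) (nat_lit 16))
 (.p (nat_lit 0x180e607102) (nat_lit 0x588162b40800100000600) (nat_lit 49))))))

def c1024_846 : Tr :=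
 .n (.n (.n (.n (.n (.n (.p (nat_lit 0x5db04e102) (nat_lit 0x306000) (nat_lit 16))
 (.p (nat_lit 0xe7861eb02) (nat_lit 0x14e0a8c74000300040000) (nat_lit 50)))
 (.p (nat_lit 0x4948455d02) (nat_lit 0x540513) (nat_lit 4)))
 (.n (.p (nat_lit 0x4d804d404d204d004ce25c706) (nat_lit 0x8000040b03) (nat_lit 51))
 (.p (nat_lit 0x3e0041ad02) (nat_lit 0x14012e) (nat_lit 5))))
 (.n (.n (.p (nat_lit 0x227c2278227622721ffb1ff506) (nat_lit 0x900004ca00) (nat_lit 51))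
 (.p (nat_lit 0xdce0dcc0dca0dc60dc4428506) (nat_lit 0x2000054620) (nat_lit 52)))
 (.n (.p (nat_lit 0x141515502) (nat_lit 0x407) (nat_lit 30))
 (.p (nat_lit 0x5d631c4f02) (nat_lit 0x1a0080000800) (nat_lit 41)))))
 (.n (.n (.n (.p (nat_lit 0x1448144614441440143e122106) (nat_lit 0x20000c6500) (nat_lit 52))
 (.p (nat_lit 0x4952464d02) (nat_lit 0x44051a) (nat_lit 4)))
 (.n (.p (nat_lit 0x2550254c254a25482546169506) (nat_lit 0x8000090605) (nat_lit 52))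
 (.p (nat_lit 0x5dc4072902) (nat_lit 0x46100) (nat_lit 47))))
 (.n (.n (.p (nat_lit 0xf9a19dd02) (nat_lit 0x140302) (nat_lit 5))
 (.p (nat_lit 0x1fd61fd41fd21fd01fce3d7b06) (nat_lit 0x1000008e127) (nat_lit 52)))
 (.n (.p (nat_lit 0x4f1c52ad02) (nat_lit 0x44040d) (nat_lit 29))
 (.p (nat_lit 0xbac5fef02) (nat_lit 0x306a81c35000200040000) (nat_lit 49))))))
 (.n (.n (.n (.n (.p (nat_lit 0xd4c0d480d460d440d420b3706) (nat_lit 0x8000082300) (nat_lit 51))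
 (.p (nat_lit 0x1d520c4302) (nat_lit 0x340815) (nat_lit 5)))
 (.n (.p (nat_lit 0x207420722070206e206c17f306) (nat_lit 0x800054604) (nat_lit 52))
 (.p (nat_lit 0x46a5a2d02) (nat_lit 0x400408) (nat_lit 27))))
 (.n (.n (.p (nat_lit 0x581c1702) (nat_lit 0x801) (nat_lit 1))
 (.p (nat_lit 0xebe0ebc0eb80eb60cad0ca706) (nat_lit 0x480004a223) (nat_lit 51)))
 (.n (.p (nat_lit 0x309430923090308c308a0189308f07) (nat_lit 0x240309) (nat_lit 7))
 (.p (nat_lit 0x113c5ee302) (nat_lit 0x4a8866344000400040000) (nat_lit 49)))))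
 (.n (.n (.n (.p (nat_lit 0x1ba41ba21ba01b9e1903190106) (nat_lit 0x18000094800) (nat_lit 52))
 (.p (nat_lit 0x3788378437823780377e1bfb06) (nat_lit 0x800008081c) (nat_lit 51)))
 (.n (.p (nat_lit 0x178417821780177e177c196506) (nat_lit 0x800014706) (nat_lit 52))
 (.p (nat_lit 0x5e2a425502) (nat_lit 0x40012500) (nat_lit 47))))
 (.n (.n (.p (nat_lit 0x35c308bb02) (nat_lit 0x108103) (nat_lit 16))
 (.p (nat_lit 0x46fd0e2302) (nat_lit 0x51432a) (nat_lit 16)))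
 (.n (.p (nat_lit 0x22da085502) (nat_lit 0x440a0e) (nat_lit 5))
 (.p (nat_lit 0xbae60f302) (nat_lit 0x440d663a4000200040000) (nat_lit 49))))))

def c512_334 : Tr := .n c1024_334 c1024_846

def c256_78 : Tr := .n c512_78 c512_334

def c1024_206 : Tr :=
 .n (.n (.n (.n (.n (.n (.p (nat_lit 0xcd00cb00c203) (nat_lit 0x2c00004) (nat_lit 19))
 (.p (nat_lit 0xe7c615102) (nat_lit 0x2b0221d84000300040000) (nat_lit 50)))
 (.p (nat_lit 0x326e2deb02) (nat_lit 0x140510) (nat_lit 5)))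
 (.n (.p (nat_lit 0x1277126b02) (nat_lit 0x354403) (nat_lit 16))
 (.p (nat_lit 0x43f583702) (nat_lit 0x500a2a) (nat_lit 30))))
 (.n (.n (.p (nat_lit 0x1e281e261e241e201bcd1bc506) (nat_lit 0x11000088900) (nat_lit 52))
 (.p (nat_lit 0x2bac28a902) (nat_lit 0x91d) (nat_lit 4)))
 (.n (.p (nat_lit 0x1200129012f2403255905) (nat_lit 0x80b00906) (nat_lit 9))
 (.p (nat_lit 0x5e4a246502) (nat_lit 0x80010600) (nat_lit 48)))))
 (.n (.n (.n (.p (nat_lit 0xff60ff40ff20fec0df90df706) (nat_lit 0x3000000400) (nat_lit 52))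
 (.p (nat_lit 0x31f42eed02) (nat_lit 0x400517) (nat_lit 4)))
 (.n (.p (nat_lit 0x224c224a22482246224225cd06) (nat_lit 0x1000048b04) (nat_lit 52))
 (.p (nat_lit 0x5b625b605b5e5b5c5b5a031102fe07) (nat_lit 0x50e41a) (nat_lit 25))))
 (.n (.n (.p (nat_lit 0x332bd902) (nat_lit 0x440901) (nat_lit 30))
 (.p (nat_lit 0x22fa10a302) (nat_lit 0x240a23) (nat_lit 4)))
 (.n (.p (nat_lit 0x3a8a524502) (nat_lit 0x60a) (nat_lit 29))
 (.p (nat_lit 0x15485f5302) (nat_lit 0x1a9d22350000000000600) (nat_lit 50))))))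
 (.n (.n (.n (.n (.p (nat_lit 0x8db05c702) (nat_lit 0x514100) (nat_lit 16))
 (.p (nat_lit 0x10e80a7702) (nat_lit 0x100415) (nat_lit 4)))
 (.n (.p (nat_lit 0xce23e8b02) (nat_lit 0x40204) (nat_lit 29))
 (.p (nat_lit 0x50744f8902) (nat_lit 0x830) (nat_lit 4))))
 (.n (.n (.p (nat_lit 0x2550254e254c2548254622bf06) (nat_lit 0x20000d0b00) (nat_lit 52))
 (.p (nat_lit 0x5066506450625060505c0395505f07) (nat_lit 0x100822) (nat_lit 7)))
 (.n (.p (nat_lit 0x352e352c352a35261bd31bcf06) (nat_lit 0x2800016807) (nat_lit 52))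
 (.p (nat_lit 0x5cb95e9502) (nat_lit 0x40000000a00) (nat_lit 36)))))
 (.n (.n (.n (.p (nat_lit 0x176c17681764176216b916b506) (nat_lit 0xa000052600) (nat_lit 51))
 (.p (nat_lit 0xa5a0a560a540a520a50073d06) (nat_lit 0x800004401c) (nat_lit 51)))
 (.n (.p (nat_lit 0x1c2c22ad02) (nat_lit 0x500805) (nat_lit 4))
 (.p (nat_lit 0x5d6f0a5902) (nat_lit 0xe0080000200) (nat_lit 40))))
 (.n (.n (.p (nat_lit 0x32f1205d02) (nat_lit 0x544902) (nat_lit 16))
 (.p (nat_lit 0x11c4c9102) (nat_lit 0x540129) (nat_lit 1)))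
 (.n (.p (nat_lit 0x47e110e302) (nat_lit 0x41440e) (nat_lit 16))
 (.p (nat_lit 0xbb2604f02) (nat_lit 0x40a962335000200040000) (nat_lit 50))))))

def c1024_718 : Tr :=
 .n (.n (.n (.n (.n (.n (.p (nat_lit 0x4e404d902) (nat_lit 0x500000) (nat_lit 5))
 (.p (nat_lit 0x64061cf02) (nat_lit 0x3561684a0800000040000) (nat_lit 50)))
 (.p (nat_lit 0x42683dc702) (nat_lit 0x40612) (nat_lit 4)))
 (.n (.p (nat_lit 0xd1a0d180d160d140d12247306) (nat_lit 0x10000006b03) (nat_lit 51))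
 (.p (nat_lit 0x1d1a1d181d161d141d1036d106) (nat_lit 0x100001622d) (nat_lit 51))))
 (.n (.n (.p (nat_lit 0x21811e9502) (nat_lit 0x404a00) (nat_lit 16))
 (.p (nat_lit 0x1e661e621e601e5e1e5c3d0906) (nat_lit 0x800004e020) (nat_lit 51)))
 (.n (.p (nat_lit 0x4d804d604d404ce0f6d0f6b06) (nat_lit 0x3000040307) (nat_lit 51))
 (.p (nat_lit 0x5d1b1c3f02) (nat_lit 0x20040000800) (nat_lit 39)))))
 (.n (.n (.n (.p (nat_lit 0x137f10c302) (nat_lit 0x2500) (nat_lit 16))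
 (.p (nat_lit 0x42d23ef902) (nat_lit 0x500719) (nat_lit 4)))
 (.n (.p (nat_lit 0x13da226302) (nat_lit 0x400505) (nat_lit 5))
 (.p (nat_lit 0x5db809f502) (nat_lit 0x40048000) (nat_lit 48))))
 (.n (.n (.p (nat_lit 0x2f0a2f082f062f040b750b6b06) (nat_lit 0x10800092202) (nat_lit 52))
 (.p (nat_lit 0x3e23acf02) (nat_lit 0x240626) (nat_lit 1)))
 (.n (.p (nat_lit 0x49d2447b02) (nat_lit 0x50070c) (nat_lit 5))
 (.p (nat_lit 0x1da25fd102) (nat_lit 0x95a2ec05000300000600) (nat_lit 49))))))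
 (.n (.n (.n (.n (.p (nat_lit 0xcad09d302) (nat_lit 0x348200) (nat_lit 16))
 (.p (nat_lit 0x19220ac302) (nat_lit 0x300715) (nat_lit 5)))
 (.n (.p (nat_lit 0x4241168902) (nat_lit 0x406604) (nat_lit 16))
 (.p (nat_lit 0x11c0116011401120009039906) (nat_lit 0x2310306) (nat_lit 26))))
 (.n (.n (.p (nat_lit 0x3d8125502) (nat_lit 0x440401) (nat_lit 1))
 (.p (nat_lit 0x3a156ad02) (nat_lit 0x223) (nat_lit 30)))
 (.n (.p (nat_lit 0x4fc04fa04f804f604f42bdd06) (nat_lit 0x8000c4908) (nat_lit 52))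
 (.p (nat_lit 0xba65ec702) (nat_lit 0x4a1a34344000200040000) (nat_lit 49)))))
 (.n (.n (.n (.p (nat_lit 0x1ac3179902) (nat_lit 0x354700) (nat_lit 16))
 (.p (nat_lit 0x28c828c628c428c228c017cb06) (nat_lit 0x80000d461c) (nat_lit 52)))
 (.n (.p (nat_lit 0x426129302) (nat_lit 0x540406) (nat_lit 1))
 (.p (nat_lit 0x5d935e2102) (nat_lit 0x1a00a0000400) (nat_lit 37))))
 (.n (.n (.p (nat_lit 0x34483446344434423440343e06) (nat_lit 0x4003) (nat_lit 52))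
 (.p (nat_lit 0x16a216a0169c169a16980cb906) (nat_lit 0x40000cc22a) (nat_lit 52)))
 (.n (.p (nat_lit 0x200d1d4302) (nat_lit 0x14080e) (nat_lit 15))
 (.p (nat_lit 0x113c60d302) (nat_lit 0x340a623b0000400040000) (nat_lit 49))))))

def c512_206 : Tr := .n c1024_206 c1024_718

def c1024_462 : Tr :=
 .n (.n (.n (.n (.n (.n (.p (nat_lit 0x29702950293029004) (nat_lit 0x11a00015) (nat_lit 20))
 (.p (nat_lit 0xe74618d02) (nat_lit 0x54c88a970000300040000) (nat_lit 49)))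
 (.p (nat_lit 0x346a346834663464346239e906) (nat_lit 0x10000086511) (nat_lit 51)))
 (.n (.p (nat_lit 0x18c618c018be18bc17ef17ed06) (nat_lit 0xc0000d2603) (nat_lit 52))
 (.p (nat_lit 0x13081306130413022c232c1906) (nat_lit 0x108000cc92b) (nat_lit 52))))
 (.n (.n (.p (nat_lit 0x1fcc1fca1fc61fc41fc21d2f06) (nat_lit 0x400004e900) (nat_lit 52))
 (.p (nat_lit 0x1b1a1b181b161b12354d354906) (nat_lit 0x28000c201f) (nat_lit 51)))
 (.n (.p (nat_lit 0x3e730b4502) (nat_lit 0x512207) (nat_lit 16))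
 (.p (nat_lit 0x5e5a1c1d02) (nat_lit 0x60016700) (nat_lit 47)))))
 (.n (.n (.n (.p (nat_lit 0x117c117a117811760f670f6506) (nat_lit 0x180000c2400) (nat_lit 52))
 (.p (nat_lit 0x3aac369702) (nat_lit 0x500618) (nat_lit 5)))
 (.n (.p (nat_lit 0xe5f0b9902) (nat_lit 0x500205) (nat_lit 15))
 (.p (nat_lit 0x3aa5c1f02) (nat_lit 0x500829) (nat_lit 27))))
 (.n (.n (.p (nat_lit 0x23e223e023dc23da23d8231506) (nat_lit 0x40000cea01) (nat_lit 52))
 (.p (nat_lit 0x115a11581156115411522c1706) (nat_lit 0x10000040924) (nat_lit 51)))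
 (.n (.p (nat_lit 0x42183c2d02) (nat_lit 0x20060b) (nat_lit 4))
 (.p (nat_lit 0x181c5f8f02) (nat_lit 0x581a303a4000100000600) (nat_lit 50))))))
 (.n (.n (.n (.n (.p (nat_lit 0xa880a860a840a820a80087b06) (nat_lit 0x10000088200) (nat_lit 52))
 (.p (nat_lit 0x197a1978197419721970139106) (nat_lit 0x400008e515) (nat_lit 52)))
 (.n (.p (nat_lit 0x1513127302) (nat_lit 0x140404) (nat_lit 15))
 (.p (nat_lit 0x592459225920591e591c01e7009207) (nat_lit 0x16103) (nat_lit 25))))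
 (.n (.n (.p (nat_lit 0xa040a020a0009fe00440035002b0a0709fd09) (nat_lit 0x2840101) (nat_lit 10))
 (.p (nat_lit 0x3ae03c103b5116f100905) (nat_lit 0x84200123) (nat_lit 9)))
 (.n (.p (nat_lit 0x242b241f02) (nat_lit 0x504b07) (nat_lit 16))
 (.p (nat_lit 0x5c955ead02) (nat_lit 0x280000000b00) (nat_lit 37)))))
 (.n (.n (.n (.p (nat_lit 0x1919162902) (nat_lit 0x402700) (nat_lit 16))
 (.p (nat_lit 0xa8a0a880a860a840a8009db06) (nat_lit 0x10000c811c) (nat_lit 52)))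
 (.n (.p (nat_lit 0x8e6236d02) (nat_lit 0x500106) (nat_lit 4))
 (.p (nat_lit 0x5d570e7502) (nat_lit 0x260080000300) (nat_lit 39))))
 (.n (.n (.p (nat_lit 0x1daa1da81da61da0231f231d06) (nat_lit 0x3000052a02) (nat_lit 52))
 (.p (nat_lit 0x43d57b102) (nat_lit 0x44012a) (nat_lit 30)))
 (.n (.p (nat_lit 0x50605040502050014d314c906) (nat_lit 0x1080004650e) (nat_lit 52))
 (.p (nat_lit 0xbb2608f02) (nat_lit 0x356221ca4000200040000) (nat_lit 50))))))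

def c1024_974 : Tr :=
 .n (.n (.n (.n (.n (.p (nat_lit 0x69c069a069606940657065106) (nat_lit 0x120000c8000) (nat_lit 52))
 (.p (nat_lit 0x4f2a4c5702) (nat_lit 0x540414) (nat_lit 4)))
 (.n (.p (nat_lit 0x61a061606140612061000bd061907) (nat_lit 0x400004) (nat_lit 7))
 (.p (nat_lit 0x42ec41e302) (nat_lit 0x72e) (nat_lit 5))))
 (.n (.n (.p (nat_lit 0x215c234702) (nat_lit 0x400b00) (nat_lit 5))
 (.p (nat_lit 0x229422922290228e228c449d06) (nat_lit 0x80004e021) (nat_lit 51)))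
 (.n (.p (nat_lit 0x12321230122c1228015c01470143122f122b09) (nat_lit 0x1940407) (nat_lit 10))
 (.p (nat_lit 0x5e7e1da102) (nat_lit 0x900) (nat_lit 45)))))
 (.n (.n (.n (.p (nat_lit 0x156c156a156815661564154d06) (nat_lit 0x800002600) (nat_lit 52))
 (.p (nat_lit 0x23d423d223d023ce23cc4f6906) (nat_lit 0x1000000e51b) (nat_lit 52)))
 (.n (.p (nat_lit 0xbb00bae0bac0baa0ba6195b06) (nat_lit 0x1000084705) (nat_lit 52))
 (.p (nat_lit 0x5dd2333502) (nat_lit 0x6000e100) (nat_lit 48))))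
 (.n (.n (.p (nat_lit 0x5f318502) (nat_lit 0x300502) (nat_lit 30))
 (.p (nat_lit 0x3956395439523950394e42eb06) (nat_lit 0x10000016727) (nat_lit 51)))
 (.n (.p (nat_lit 0xe1252cf02) (nat_lit 0x30030e) (nat_lit 29))
 (.p (nat_lit 0x2070601102) (nat_lit 0x405aa0b95000400000600) (nat_lit 49))))))
 (.n (.n (.n (.n (.p (nat_lit 0xe630b3102) (nat_lit 0x116300) (nat_lit 16))
 (.p (nat_lit 0x549a54985496549454925490028e21832181217b0a) (nat_lit 0x16100a15) (nat_lit 31)))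
 (.n (.p (nat_lit 0x42b3194f02) (nat_lit 0x100704) (nat_lit 16))
 (.p (nat_lit 0x1f001ec01ea01e80213000106) (nat_lit 0x200c40e) (nat_lit 26))))
 (.n (.n (.p (nat_lit 0x1d8015e902) (nat_lit 0x240801) (nat_lit 4))
 (.p (nat_lit 0x4ff1193f02) (nat_lit 0x516723) (nat_lit 16)))
 (.n (.p (nat_lit 0x335f332302) (nat_lit 0x8a09) (nat_lit 16))
 (.p (nat_lit 0x181c5f1102) (nat_lit 0x3a2270350000100000600) (nat_lit 50)))))
 (.n (.n (.n (.p (nat_lit 0x1c661c641c621c601c5e1a6706) (nat_lit 0x100000c0800) (nat_lit 52))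
 (.p (nat_lit 0x2026557902) (nat_lit 0x24091c) (nat_lit 29)))
 (.n (.p (nat_lit 0x64806460644064206401c3906) (nat_lit 0x10000080806) (nat_lit 51))
 (.p (nat_lit 0x5e34074b02) (nat_lit 0xa0046500) (nat_lit 48))))
 (.n (.n (.p (nat_lit 0xce00cde0cda0cd80cd6008d0cdd07) (nat_lit 0x340203) (nat_lit 7))
 (.p (nat_lit 0x17de57e902) (nat_lit 0x24062a) (nat_lit 29)))
 (.n (.p (nat_lit 0x2a08275f02) (nat_lit 0x4040f) (nat_lit 4))
 (.p (nat_lit 0x13ee611502) (nat_lit 0x3422621b0000500040000) (nat_lit 49))))))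

def c512_462 : Tr := .n c1024_462 c1024_974

def c256_206 : Tr := .n c512_206 c512_462

def c128_78 : Tr := .n c256_78 c256_206

def c64_14 : Tr := .n c128_14 c128_78

def c1024_46 : Tr :=
 .n (.n (.n (.n (.n (.n (.p (nat_lit 0x32002e003903) (nat_lit 0xa000500001) (nat_lit 17))
 (.p (nat_lit 0xe78612d02) (nat_lit 0x45486a3a4000300040000) (nat_lit 50)))
 (.p (nat_lit 0x2bed2b5902) (nat_lit 0x24080f) (nat_lit 15)))
 (.n (.p (nat_lit 0xfac1b4702) (nat_lit 0x440303) (nat_lit 4))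
 (.p (nat_lit 0x31c831c631c431c231c01aa706) (nat_lit 0x10000d272a) (nat_lit 51))))
 (.n (.n (.p (nat_lit 0x1d0e1d0c1d081d061d041a6306) (nat_lit 0x40000d4800) (nat_lit 51))
 (.p (nat_lit 0x22f00f3f02) (nat_lit 0x340a1c) (nat_lit 5)))
 (.n (.p (nat_lit 0x1200129012f23f3254905) (nat_lit 0x81940806) (nat_lit 9))
 (.p (nat_lit 0x5cd3153702) (nat_lit 0x1a0020000600) (nat_lit 38)))))
 (.n (.n (.n (.p (nat_lit 0xeca0ec80ec20ec00c950c9306) (nat_lit 0x60000ca300) (nat_lit 51))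
 (.p (nat_lit 0x25860c8702) (nat_lit 0x240b15) (nat_lit 4)))
 (.n (.p (nat_lit 0x1d241d221d201d1e1d1c1abb06) (nat_lit 0x100000d6704) (nat_lit 52))
 (.p (nat_lit 0x2135ac502) (nat_lit 0x40080f) (nat_lit 28))))
 (.n (.n (.p (nat_lit 0x1eea1ee81ee61ee41ee0002d1ee307) (nat_lit 0x100901) (nat_lit 7))
 (.p (nat_lit 0x1d66107302) (nat_lit 0x140823) (nat_lit 5)))
 (.n (.p (nat_lit 0x374434d902) (nat_lit 0x14020a) (nat_lit 5))
 (.p (nat_lit 0xbba5f2102) (nat_lit 0x3a2570344000200040000) (nat_lit 50))))))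
 (.n (.n (.n (.n (.p (nat_lit 0x7a0079405bd03) (nat_lit 0x100) (nat_lit 6))
 (.p (nat_lit 0x4550454c454a4548454650f506) (nat_lit 0x8000088914) (nat_lit 52)))
 (.n (.p (nat_lit 0x8c61dd302) (nat_lit 0x100104) (nat_lit 5))
 (.p (nat_lit 0xe2468d02) (nat_lit 0x4022f) (nat_lit 1))))
 (.n (.n (.p (nat_lit 0x2412240e240c240a215d215506) (nat_lit 0x8800092b00) (nat_lit 51))
 (.p (nat_lit 0x4a4246e102) (nat_lit 0x340721) (nat_lit 5)))
 (.n (.p (nat_lit 0x17a4517302) (nat_lit 0x340607) (nat_lit 29))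
 (.p (nat_lit 0x5cfb1db102) (nat_lit 0x220040000900) (nat_lit 40)))))
 (.n (.n (.n (.p (nat_lit 0x1637155702) (nat_lit 0x500600) (nat_lit 16))
 (.p (nat_lit 0x5de0e8f02) (nat_lit 0x50001c) (nat_lit 5)))
 (.n (.p (nat_lit 0x1ac4229f02) (nat_lit 0x440705) (nat_lit 4))
 (.p (nat_lit 0x5cb30a5102) (nat_lit 0xa0000000200) (nat_lit 40))))
 (.n (.n (.p (nat_lit 0x1ef218b702) (nat_lit 0x300902) (nat_lit 4))
 (.p (nat_lit 0x458e481902) (nat_lit 0x440128) (nat_lit 4)))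
 (.n (.p (nat_lit 0xa660a620a600a5e0f7d0f7506) (nat_lit 0x880004030e) (nat_lit 51))
 (.p (nat_lit 0xbb2602702) (nat_lit 0x406a62335000200040000) (nat_lit 50))))))

def c1024_558 : Tr :=
 .n (.n (.n (.n (.n (.n (.p (nat_lit 0x3640362037103) (nat_lit 0x1800500020) (nat_lit 17))
 (.p (nat_lit 0x181e61a702) (nat_lit 0x3421a9c14800100000600) (nat_lit 50)))
 (.p (nat_lit 0x976097409720970096e3bcb06) (nat_lit 0x800050b11) (nat_lit 51)))
 (.n (.p (nat_lit 0x1fcc1fc81fc61fc41fc221c906) (nat_lit 0x800000ea03) (nat_lit 52))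
 (.p (nat_lit 0x32c431bd02) (nat_lit 0x40092c) (nat_lit 5))))
 (.n (.n (.p (nat_lit 0x20651d2f02) (nat_lit 0x356900) (nat_lit 16))
 (.p (nat_lit 0x3070306e306c306830663ab306) (nat_lit 0x200001461f) (nat_lit 51)))
 (.n (.p (nat_lit 0xe00067102) (nat_lit 0x307) (nat_lit 5))
 (.p (nat_lit 0x5d9b182102) (nat_lit 0x1200a0000700) (nat_lit 40)))))
 (.n (.n (.n (.p (nat_lit 0x127b0f6702) (nat_lit 0x552400) (nat_lit 16))
 (.p (nat_lit 0x40903ead02) (nat_lit 0x100419) (nat_lit 5)))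
 (.n (.p (nat_lit 0x46d846d646d246d046ce0e5b06) (nat_lit 0x400000e305) (nat_lit 51))
 (.p (nat_lit 0x1985c7102) (nat_lit 0x12d) (nat_lit 27))))
 (.n (.n (.p (nat_lit 0x760183702) (nat_lit 0x440002) (nat_lit 5))
 (.p (nat_lit 0x3354315702) (nat_lit 0x100a25) (nat_lit 5)))
 (.n (.p (nat_lit 0x433c3ce502) (nat_lit 0x200b0b) (nat_lit 4))
 (.p (nat_lit 0x15425fa302) (nat_lit 0x589832b44000000000600) (nat_lit 50))))))
 (.n (.n (.n (.n (.p (nat_lit 0xb81087b02) (nat_lit 0x510200) (nat_lit 16))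
 (.p (nat_lit 0xe760e740e720e700e6c14d706) (nat_lit 0x10000c6515) (nat_lit 52)))
 (.n (.p (nat_lit 0x15181fa702) (nat_lit 0x440504) (nat_lit 5))
 (.p (nat_lit 0x5970596e596c596a5968040500c007) (nat_lit 0x506504) (nat_lit 25))))
 (.n (.n (.p (nat_lit 0xcc6282d02) (nat_lit 0x440201) (nat_lit 29))
 (.p (nat_lit 0xb4f089102) (nat_lit 0x400123) (nat_lit 15)))
 (.n (.p (nat_lit 0x28ce266502) (nat_lit 0x200308) (nat_lit 5))
 (.p (nat_lit 0x5d3b248702) (nat_lit 0x120060000b00) (nat_lit 39)))))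
 (.n (.n (.n (.p (nat_lit 0x19b619b219ae19ac179b179706) (nat_lit 0xa0000c2700) (nat_lit 52))
 (.p (nat_lit 0x11b611b411b211b01399139706) (nat_lit 0x180000e51c) (nat_lit 52)))
 (.n (.p (nat_lit 0x4ce24ce04cde4cdc4cda0ba506) (nat_lit 0x10000090206) (nat_lit 52))
 (.p (nat_lit 0x5cd90fe302) (nat_lit 0x140020000400) (nat_lit 40))))
 (.n (.n (.p (nat_lit 0x16c616c416c016be16bc246306) (nat_lit 0x4000000b02) (nat_lit 52))
 (.p (nat_lit 0x8fc08fa08f808f608f40b5d06) (nat_lit 0x1000008222a) (nat_lit 51)))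
 (.n (.p (nat_lit 0x1e9530702) (nat_lit 0x10070e) (nat_lit 30))
 (.p (nat_lit 0x8f260a502) (nat_lit 0x346068ca4000100040000) (nat_lit 49))))))

def c512_46 : Tr := .n c1024_46 c1024_558

def c1024_302 : Tr :=
 .n (.n (.n (.n (.n (.n (.p (nat_lit 0x12f012d012003) (nat_lit 0x21a00006) (nat_lit 19))
 (.p (nat_lit 0x1c46616502) (nat_lit 0x340c62b84000200040600) (nat_lit 50)))
 (.p (nat_lit 0x3397338b02) (nat_lit 0x446a10) (nat_lit 16)))
 (.n (.p (nat_lit 0x16741ce102) (nat_lit 0x603) (nat_lit 4))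
 (.p (nat_lit 0x17e125ad02) (nat_lit 0x340b2a) (nat_lit 15))))
 (.n (.n (.p (nat_lit 0x1ea51bc302) (nat_lit 0x2900) (nat_lit 16))
 (.p (nat_lit 0x1a581a561a541a521a502da706) (nat_lit 0x100000d601e) (nat_lit 52)))
 (.n (.p (nat_lit 0x2068206420622060205e011b206707) (nat_lit 0x440906) (nat_lit 7))
 (.p (nat_lit 0x5e502f3b02) (nat_lit 0xa700) (nat_lit 47)))))
 (.n (.n (.n (.p (nat_lit 0x10781076107410700dff0df706) (nat_lit 0x11000090400) (nat_lit 51))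
 (.p (nat_lit 0x338e2f8102) (nat_lit 0x40a17) (nat_lit 5)))
 (.n (.p (nat_lit 0x8db062702) (nat_lit 0x500005) (nat_lit 15))
 (.p (nat_lit 0x5bb65bb45bb25bb05bae00b9035a07) (nat_lit 0x200a1f) (nat_lit 25))))
 (.n (.n (.p (nat_lit 0x249424922490248e248c205106) (nat_lit 0x100000d6901) (nat_lit 51))
 (.p (nat_lit 0x25a0573702) (nat_lit 0x340b23) (nat_lit 29)))
 (.n (.p (nat_lit 0x56605640562055e3b6f3b6b06) (nat_lit 0x2800010b0a) (nat_lit 52))
 (.p (nat_lit 0x11425f6302) (nat_lit 0x3aa074b44000400040000) (nat_lit 49))))))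
 (.n (.n (.n (.n (.p (nat_lit 0x952094e094c09480725071f06) (nat_lit 0x900004c100) (nat_lit 52))
 (.p (nat_lit 0x30a124502) (nat_lit 0x240415) (nat_lit 1)))
 (.n (.p (nat_lit 0x3f5a3f583f563f543f500e4b06) (nat_lit 0x1000082304) (nat_lit 51))
 (.p (nat_lit 0x58bc58ba58b858b658b40435003607) (nat_lit 0x12501) (nat_lit 25))))
 (.n (.n (.p (nat_lit 0x5ec16bd02) (nat_lit 0x1) (nat_lit 4))
 (.p (nat_lit 0x3ae03b303cb11590ff305) (nat_lit 0x22300023) (nat_lit 9)))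
 (.n (.p (nat_lit 0x1ffe058102) (nat_lit 0x40907) (nat_lit 5))
 (.p (nat_lit 0x5e9a21db02) (nat_lit 0x20040a00) (nat_lit 46)))))
 (.n (.n (.n (.p (nat_lit 0x180716b902) (nat_lit 0x454600) (nat_lit 16))
 (.p (nat_lit 0x3551073d02) (nat_lit 0x45001c) (nat_lit 16)))
 (.n (.p (nat_lit 0x1d901d8e1d8c1d8a00fc00ed00e31d931d8909) (nat_lit 0x2840805) (nat_lit 10))
 (.p (nat_lit 0x5c910d0702) (nat_lit 0x2c0000000300) (nat_lit 38))))
 (.n (.n (.p (nat_lit 0x19861980197e197c21bd21bb06) (nat_lit 0xc00008ea02) (nat_lit 51))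
 (.p (nat_lit 0x50c650c450c250be50bc042150c107) (nat_lit 0x240829) (nat_lit 7)))
 (.n (.p (nat_lit 0x2348234623422340233e123b06) (nat_lit 0x400005640e) (nat_lit 51))
 (.p (nat_lit 0xd12606702) (nat_lit 0x5898b0b44000300000000) (nat_lit 50))))))

def c1024_814 : Tr :=
 .n (.n (.n (.n (.n (.n (.p (nat_lit 0x5640562055e055c04e504df06) (nat_lit 0x12000010000) (nat_lit 52))
 (.p (nat_lit 0x153461e502) (nat_lit 0x14e0a8c74000000000600) (nat_lit 49)))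
 (.p (nat_lit 0x484c44cd02) (nat_lit 0x140413) (nat_lit 5)))
 (.n (.p (nat_lit 0x2477246b02) (nat_lit 0x114b03) (nat_lit 16))
 (.p (nat_lit 0x12f212f012ee12ec12ea3ba706) (nat_lit 0x800086b2d) (nat_lit 51))))
 (.n (.n (.p (nat_lit 0x222a2228222622241ff51ff306) (nat_lit 0x18000c4a00) (nat_lit 52))
 (.p (nat_lit 0xea40ea20ea00e9e0e9c424306) (nat_lit 0x10000002620) (nat_lit 52)))
 (.n (.p (nat_lit 0xf870f6f02) (nat_lit 0x348307) (nat_lit 16))
 (.p (nat_lit 0x5d7b1c4302) (nat_lit 0x20080000800) (nat_lit 39)))))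
 (.n (.n (.n (.p (nat_lit 0x142414221420141e141c141a06) (nat_lit 0x44500) (nat_lit 51))
 (.p (nat_lit 0x48c2463f02) (nat_lit 0x30051a) (nat_lit 5)))
 (.n (.p (nat_lit 0xeb496b02) (nat_lit 0x400605) (nat_lit 30))
 (.p (nat_lit 0x5d85064b02) (nat_lit 0x2800a0000000) (nat_lit 41))))
 (.n (.n (.p (nat_lit 0x2fba2fb82fb62fb42fb22fb000660e370e350e310a) (nat_lit 0xd000302) (nat_lit 31))
 (.p (nat_lit 0x10321030102e102a10283bf306) (nat_lit 0x20000c4b26) (nat_lit 51)))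
 (.n (.p (nat_lit 0x4e1e4ac902) (nat_lit 0x24030d) (nat_lit 5))
 (.p (nat_lit 0xfe45fe702) (nat_lit 0x38ac60b44000400000000) (nat_lit 50))))))
 (.n (.n (.n (.n (.p (nat_lit 0xd340d320d300d2e0d2a0b3106) (nat_lit 0x1000080300) (nat_lit 51))
 (.p (nat_lit 0x1bec0adb02) (nat_lit 0x300815) (nat_lit 4)))
 (.n (.p (nat_lit 0x16ae16ac16aa16a816a417f506) (nat_lit 0x10000cc604) (nat_lit 51))
 (.p (nat_lit 0x5a045a025a0059fe59fc0007014c07) (nat_lit 0x304407) (nat_lit 25))))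
 (.n (.n (.p (nat_lit 0x332a8302) (nat_lit 0x440501) (nat_lit 30))
 (.p (nat_lit 0xcae56c102) (nat_lit 0x440223) (nat_lit 29)))
 (.n (.p (nat_lit 0x30142d3502) (nat_lit 0x500309) (nat_lit 5))
 (.p (nat_lit 0x15345edf02) (nat_lit 0x4a9d22344000000000600) (nat_lit 49)))))
 (.n (.n (.n (.p (nat_lit 0x1b821b801b7e1b7c190318f906) (nat_lit 0x1080000c800) (nat_lit 51))
 (.p (nat_lit 0x555a55585556555455525550031207) (nat_lit 0x81c) (nat_lit 8)))
 (.n (.p (nat_lit 0x1200125013b252923d305) (nat_lit 0x22300706) (nat_lit 9))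
 (.p (nat_lit 0x5d1d129902) (nat_lit 0x40000500) (nat_lit 38))))
 (.n (.n (.p (nat_lit 0x8be356702) (nat_lit 0x300103) (nat_lit 29))
 (.p (nat_lit 0xff20ff00fee0fec0e230e2106) (nat_lit 0x1800000032a) (nat_lit 52)))
 (.n (.p (nat_lit 0x217621722170216e216c01ef217507) (nat_lit 0x400a0e) (nat_lit 7))
 (.p (nat_lit 0xe7260ed02) (nat_lit 0x340d6a3a4000300040000) (nat_lit 49))))))

def c512_302 : Tr := .n c1024_302 c1024_814

def c256_46 : Tr := .n c512_46 c512_302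

def c1024_174 : Tr :=
 .n (.n (.n (.n (.n (.n (.p (nat_lit 0xaf009f009403) (nat_lit 0x81800003) (nat_lit 19))
 (.p (nat_lit 0x13fc614b02) (nat_lit 0x3b0221d84000500040000) (nat_lit 50)))
 (.p (nat_lit 0x317a2e6902) (nat_lit 0x440410) (nat_lit 4)))
 (.n (.p (nat_lit 0x126c12681266126400b00091008d126f126b09) (nat_lit 0x2b40403) (nat_lit 10))
 (.p (nat_lit 0x2305203d02) (nat_lit 0x14092a) (nat_lit 15))))
 (.n (.n (.p (nat_lit 0x1dd81dd61dd21dd01bcd1bc706) (nat_lit 0x12000002900) (nat_lit 51))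
 (.p (nat_lit 0x1776177417721770176e26c706) (nat_lit 0x100000d201d) (nat_lit 52)))
 (.n (.p (nat_lit 0x509b1d9702) (nat_lit 0x142806) (nat_lit 16))
 (.p (nat_lit 0x5e461acf02) (nat_lit 0x60054600) (nat_lit 48)))))
 (.n (.n (.n (.p (nat_lit 0xdfe0dfc0dfa0df80df400030df707) (nat_lit 0x100400) (nat_lit 7))
 (.p (nat_lit 0xbf80bf60bf40bf20bee2bf706) (nat_lit 0x100004a916) (nat_lit 51)))
 (.n (.p (nat_lit 0x25d425d225ce25cc25ca00bb25d107) (nat_lit 0x340b04) (nat_lit 7))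
 (.p (nat_lit 0x5b445b425b405b3e5b3c030f02ba07) (nat_lit 0x412416) (nat_lit 25))))
 (.n (.n (.p (nat_lit 0x2bcf1eeb02) (nat_lit 0x50a901) (nat_lit 16))
 (.p (nat_lit 0x219a219821962192219003a5219507) (nat_lit 0x200a23) (nat_lit 7)))
 (.n (.p (nat_lit 0x3968350702) (nat_lit 0x14040a) (nat_lit 4))
 (.p (nat_lit 0xe7c5f4102) (nat_lit 0x3a2260b50000300040000) (nat_lit 50))))))
 (.n (.n (.n (.n (.p (nat_lit 0x89505bd02) (nat_lit 0xa100) (nat_lit 16))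
 (.p (nat_lit 0x92c092a092809260924073306) (nat_lit 0x100000c8015) (nat_lit 52)))
 (.n (.p (nat_lit 0x3e143e123e103e0e3e0c3e0a00c20b8d0b8b0b830a) (nat_lit 0x16000204) (nat_lit 31))
 (.p (nat_lit 0x4af64af44af24af04aee4c1f06) (nat_lit 0x10000010130) (nat_lit 52))))
 (.n (.n (.p (nat_lit 0x25142510250e250c22c322bb06) (nat_lit 0x880004ab00) (nat_lit 52))
 (.p (nat_lit 0x4ed04ece4ecc4eca4ec64fbb06) (nat_lit 0x1000042522) (nat_lit 51)))
 (.n (.p (nat_lit 0x1bd81bd61bd41bd01bce01451bd307) (nat_lit 0x200807) (nat_lit 7))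
 (.p (nat_lit 0x5d995e9302) (nat_lit 0x1400a0000900) (nat_lit 37)))))
 (.n (.n (.n (.p (nat_lit 0x17541752174e174c174a16b706) (nat_lit 0x4000050600) (nat_lit 51))
 (.p (nat_lit 0x73e073c073a073807340309073707) (nat_lit 0x14001c) (nat_lit 7)))
 (.n (.p (nat_lit 0x4a6a4a684a664a644a624a6000ee07) (nat_lit 0x805) (nat_lit 8))
 (.p (nat_lit 0x5d3b5de902) (nat_lit 0x120060000200) (nat_lit 37))))
 (.n (.n (.p (nat_lit 0x1cf61cf41cf01cee1cec205906) (nat_lit 0x40000cc902) (nat_lit 52))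
 (.p (nat_lit 0x11c4c1702) (nat_lit 0x500129) (nat_lit 1)))
 (.n (.p (nat_lit 0x20742070206e206c206a10e306) (nat_lit 0x800001440e) (nat_lit 52))
 (.p (nat_lit 0x2332604702) (nat_lit 0x40a96254c800500000600) (nat_lit 49))))))

def c1024_686 : Tr :=
 .n (.n (.n (.n (.n (.n (.p (nat_lit 0x4a1049f049c03) (nat_lit 0x8290002d) (nat_lit 19))
 (.p (nat_lit 0x1da661c502) (nat_lit 0x3421684a0800300000600) (nat_lit 49)))
 (.p (nat_lit 0x42203dbb02) (nat_lit 0x612) (nat_lit 4)))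
 (.n (.p (nat_lit 0x24721bb502) (nat_lit 0x500b03) (nat_lit 4))
 (.p (nat_lit 0x3e07365302) (nat_lit 0x45412d) (nat_lit 16))))
 (.n (.n (.p (nat_lit 0x21522150214e214a21481e9106) (nat_lit 0x2000090a00) (nat_lit 51))
 (.p (nat_lit 0x1fc01fbe1fba1fb81fb63c6506) (nat_lit 0x400008c020) (nat_lit 52)))
 (.n (.p (nat_lit 0x37d70e0502) (nat_lit 0x210307) (nat_lit 16))
 (.p (nat_lit 0x5ccf5e6b02) (nat_lit 0x1e0020000800) (nat_lit 36)))))
 (.n (.n (.n (.p (nat_lit 0x131613121310130c10cb10c506) (nat_lit 0x900000e500) (nat_lit 52))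
 (.p (nat_lit 0x427e3e4f02) (nat_lit 0x540619) (nat_lit 5)))
 (.n (.p (nat_lit 0x480e480c480a48084806127d06) (nat_lit 0x800042405) (nat_lit 51))
 (.p (nat_lit 0x5cbf04d102) (nat_lit 0x2e0020000000) (nat_lit 40))))
 (.n (.n (.p (nat_lit 0xcd50a1302) (nat_lit 0x540102) (nat_lit 15))
 (.p (nat_lit 0x36c6389f02) (nat_lit 0x200226) (nat_lit 5)))
 (.n (.p (nat_lit 0x4880487e487a48784876484506) (nat_lit 0x400004440c) (nat_lit 52))
 (.p (nat_lit 0x233a5fcb02) (nat_lit 0x9582ec05800500000600) (nat_lit 49))))))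
 (.n (.n (.n (.n (.p (nat_lit 0xc520c500c4c0c4809d309cf06) (nat_lit 0x5000052200) (nat_lit 51))
 (.p (nat_lit 0x17bc544302) (nat_lit 0x340615) (nat_lit 29)))
 (.n (.p (nat_lit 0x1f181f161f141f121f10168b06) (nat_lit 0x10000092604) (nat_lit 51))
 (.p (nat_lit 0xba59bd02) (nat_lit 0x300805) (nat_lit 27))))
 (.n (.n (.p (nat_lit 0x295c295a295829562954295206) (nat_lit 0x2401) (nat_lit 52))
 (.p (nat_lit 0xca909e702) (nat_lit 0x140123) (nat_lit 15)))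
 (.n (.p (nat_lit 0x2b9026a102) (nat_lit 0x400908) (nat_lit 4))
 (.p (nat_lit 0x5ec2233d02) (nat_lit 0xa0000b00) (nat_lit 45)))))
 (.n (.n (.n (.p (nat_lit 0x1a7b179902) (nat_lit 0x342700) (nat_lit 16))
 (.p (nat_lit 0x165a0d7102) (nat_lit 0x50061c) (nat_lit 5)))
 (.n (.p (nat_lit 0x4e944e924e904e8e4e8a113106) (nat_lit 0x1000090406) (nat_lit 51))
 (.p (nat_lit 0x5d510fdd02) (nat_lit 0x2c0080000400) (nat_lit 38))))
 (.n (.n (.p (nat_lit 0x1776177417721770176e25bd06) (nat_lit 0x100000d2b02) (nat_lit 52))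
 (.p (nat_lit 0xa4e0a4c0a4a0a480a440cb506) (nat_lit 0x100004422a) (nat_lit 52)))
 (.n (.p (nat_lit 0x1d44082502) (nat_lit 0x24080e) (nat_lit 4))
 (.p (nat_lit 0x63460cf02) (nat_lit 0x35056a3a4000000040000) (nat_lit 49))))))

def c512_174 : Tr := .n c1024_174 c1024_686

def c1024_430 : Tr :=
 .n (.n (.n (.n (.n (.n (.p (nat_lit 0x2580256024e025b04) (nat_lit 0x18800400012) (nat_lit 17))
 (.p (nat_lit 0x13fe618502) (nat_lit 0x421a86b95000500040000) (nat_lit 50)))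
 (.p (nat_lit 0x397c358b02) (nat_lit 0x540411) (nat_lit 5)))
 (.n (.p (nat_lit 0x94009f00b11b911cf705) (nat_lit 0x81d40603) (nat_lit 9))
 (.p (nat_lit 0x2bca2bc82bc62bc40478046d046b2bcf2bcd09) (nat_lit 0x2c0092b) (nat_lit 10))))
 (.n (.n (.p (nat_lit 0x1fb41fb21fb01fae1fac1d2906) (nat_lit 0x80004c900) (nat_lit 51))
 (.p (nat_lit 0x34c837fd02) (nat_lit 0x50001f) (nat_lit 5)))
 (.n (.p (nat_lit 0x7f007ee07ec07e80b450b3d06) (nat_lit 0x1100008a207) (nat_lit 51))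
 (.p (nat_lit 0x5d335e5d02) (nat_lit 0x1a0060000700) (nat_lit 36)))))
 (.n (.n (.n (.p (nat_lit 0x115c1156115411520f650f6306) (nat_lit 0xc000040400) (nat_lit 51))
 (.p (nat_lit 0x3a6a368502) (nat_lit 0x240518) (nat_lit 5)))
 (.n (.p (nat_lit 0x2f40b9102) (nat_lit 0x100205) (nat_lit 1))
 (.p (nat_lit 0x3e25bfb02) (nat_lit 0x200824) (nat_lit 27))))
 (.n (.n (.p (nat_lit 0x2314161b02) (nat_lit 0x340a01) (nat_lit 5))
 (.p (nat_lit 0x2b732b6902) (nat_lit 0x140824) (nat_lit 16)))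
 (.n (.p (nat_lit 0x1f261f241f221f1e1f1c401306) (nat_lit 0x200004030b) (nat_lit 51))
 (.p (nat_lit 0x233a5f8302) (nat_lit 0x581a32b44000500000600) (nat_lit 49))))))
 (.n (.n (.n (.n (.p (nat_lit 0xa660a620a600a5e0879087106) (nat_lit 0x8800000200) (nat_lit 51))
 (.p (nat_lit 0xd1c0d1a0d160d140d12139106) (nat_lit 0x4000006515) (nat_lit 51)))
 (.n (.p (nat_lit 0x12761f8f02) (nat_lit 0x340404) (nat_lit 5))
 (.p (nat_lit 0x198590f02) (nat_lit 0x3) (nat_lit 27))))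
 (.n (.n (.p (nat_lit 0x8dd08a102) (nat_lit 0x14101) (nat_lit 16))
 (.p (nat_lit 0x145414521450144e0743074106) (nat_lit 0x180004c023) (nat_lit 51)))
 (.n (.p (nat_lit 0x14551d102) (nat_lit 0x200b07) (nat_lit 30))
 (.p (nat_lit 0x5d955eab02) (nat_lit 0x1800a0000a00) (nat_lit 37)))))
 (.n (.n (.n (.p (nat_lit 0x18ea18e418e218e01629162706) (nat_lit 0xc000016700) (nat_lit 51))
 (.p (nat_lit 0x9dc0d4702) (nat_lit 0x24011c) (nat_lit 5)))
 (.n (.p (nat_lit 0x4b704b6e4b6c4b6a4b68078906) (nat_lit 0x8000d0006) (nat_lit 51))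
 (.p (nat_lit 0x5e003be902) (nat_lit 0x60050300) (nat_lit 48))))
 (.n (.n (.p (nat_lit 0x13fe13fc13fa13f813f6232506) (nat_lit 0x100000caa02) (nat_lit 51))
 (.p (nat_lit 0x4c1b089702) (nat_lit 0x11612a) (nat_lit 16)))
 (.n (.p (nat_lit 0x1ef52f502) (nat_lit 0x44050e) (nat_lit 30))
 (.p (nat_lit 0x12a712990feb0fd50d170d090a510a4b07a9079f04d104c360840d) (nat_lit 0x354221ca4000000000000) (nat_lit 33))))))

def c1024_942 : Tr :=
 .n (.n (.n (.n (.n (.p (nat_lit 0x686068406820680067c064f06) (nat_lit 0x10000c6000) (nat_lit 52))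
 (.p (nat_lit 0x4e9a4bb702) (nat_lit 0x200414) (nat_lit 4)))
 (.n (.p (nat_lit 0x3bef25bf02) (nat_lit 0x48b03) (nat_lit 16))
 (.p (nat_lit 0x12ce12cc12ca12c612c4425506) (nat_lit 0x200000462e) (nat_lit 52))))
 (.n (.n (.p (nat_lit 0x23131ff702) (nat_lit 0x24ca00) (nat_lit 16))
 (.p (nat_lit 0x211621142110210e210c441506) (nat_lit 0x400000c021) (nat_lit 52)))
 (.n (.p (nat_lit 0x122a516302) (nat_lit 0x140407) (nat_lit 29))
 (.p (nat_lit 0x5e7a36d902) (nat_lit 0xa000a800) (nat_lit 48)))))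
 (.n (.n (.n (.p (nat_lit 0x1529121d02) (nat_lit 0x56500) (nat_lit 16))
 (.p (nat_lit 0x4ea84cad02) (nat_lit 0x30041b) (nat_lit 4)))
 (.n (.p (nat_lit 0x195a49bf02) (nat_lit 0x100705) (nat_lit 29))
 (.p (nat_lit 0x5d3b079b02) (nat_lit 0x120060000100) (nat_lit 38))))
 (.n (.n (.p (nat_lit 0x3130312e312c312a3128312606) (nat_lit 0xc2402) (nat_lit 52))
 (.p (nat_lit 0x4290406302) (nat_lit 0x240627) (nat_lit 4)))
 (.n (.p (nat_lit 0x51264b7f02) (nat_lit 0x14090d) (nat_lit 4))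
 (.p (nat_lit 0x2078600b02) (nat_lit 0x405aa2354800400000600) (nat_lit 50))))))
 (.n (.n (.n (.n (.p (nat_lit 0xe210b3702) (nat_lit 0x40a300) (nat_lit 16))
 (.p (nat_lit 0x21780c6102) (nat_lit 0xa15) (nat_lit 5)))
 (.n (.p (nat_lit 0x1b5e1b5c1b5a1b581957194d06) (nat_lit 0x10800088704) (nat_lit 52))
 (.p (nat_lit 0x4b85a6502) (nat_lit 0x40d) (nat_lit 27))))
 (.n (.n (.p (nat_lit 0x1ee31c1902) (nat_lit 0x100801) (nat_lit 15))
 (.p (nat_lit 0x2968296629642960295e17d306) (nat_lit 0x20000c2623) (nat_lit 51)))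
 (.n (.p (nat_lit 0x33242cc902) (nat_lit 0x100a09) (nat_lit 5))
 (.p (nat_lit 0x2493248b21d921d51f151f0b1c471c3d1983197516ad16995f020d) (nat_lit 0x3a2260b50000000040600) (nat_lit 33)))))
 (.n (.n (.n (.p (nat_lit 0x1a601c4b02) (nat_lit 0x240800) (nat_lit 5))
 (.p (nat_lit 0x1ec4557102) (nat_lit 0x40091c) (nat_lit 29)))
 (.n (.p (nat_lit 0x502b1ad302) (nat_lit 0x546706) (nat_lit 16))
 (.p (nat_lit 0x5dab129f02) (nat_lit 0x200a0000500) (nat_lit 38))))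
 (.n (.n (.p (nat_lit 0xb7c365d02) (nat_lit 0x300203) (nat_lit 29))
 (.p (nat_lit 0x46c167302) (nat_lit 0x50062a) (nat_lit 1)))
 (.n (.p (nat_lit 0x17b5258102) (nat_lit 0x540b0e) (nat_lit 15))
 (.p (nat_lit 0x1142610f02) (nat_lit 0x3425299b0000400040000) (nat_lit 49))))))

def c512_430 : Tr := .n c1024_430 c1024_942

def c256_174 : Tr := .n c512_174 c512_430

def c128_46 : Tr := .n c256_46 c256_174

def c1024_110 : Tr :=
 .n (.n (.n (.n (.n (.n (.p (nat_lit 0x71006f006603) (nat_lit 0x2300002) (nat_lit 19))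
 (.p (nat_lit 0x12a712990fe10fdf0d170d090a510a4b07ab079d04d104c361380d) (nat_lit 0x342a21d84000000000000) (nat_lit 33)))
 (.p (nat_lit 0x2c3427a502) (nat_lit 0x200a0f) (nat_lit 4)))
 (.n (.p (nat_lit 0x11141b5502) (nat_lit 0x500403) (nat_lit 4))
 (.p (nat_lit 0x435581502) (nat_lit 0x92a) (nat_lit 30))))
 (.n (.n (.p (nat_lit 0x1d691a6102) (nat_lit 0x248800) (nat_lit 16))
 (.p (nat_lit 0x1659244102) (nat_lit 0x400b1c) (nat_lit 15)))
 (.n (.p (nat_lit 0x140013fc13fa13f813f61d9d06) (nat_lit 0x80000ca806) (nat_lit 51))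
 (.p (nat_lit 0x5cef16a902) (nat_lit 0x2e0040000600) (nat_lit 41)))))
 (.n (.n (.n (.p (nat_lit 0xf650c9702) (nat_lit 0x440300) (nat_lit 15))
 (.p (nat_lit 0x2aee284502) (nat_lit 0x540516) (nat_lit 4)))
 (.n (.p (nat_lit 0x222a2228222622202479247706) (nat_lit 0x3000084b04) (nat_lit 52))
 (.p (nat_lit 0x28a028802860280000301eb06) (nat_lit 0xa0a015) (nat_lit 26))))
 (.n (.n (.p (nat_lit 0x129c129a1298129612941eeb06) (nat_lit 0x1000000a901) (nat_lit 52))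
 (.p (nat_lit 0x3ae03b303cb108311e105) (nat_lit 0x22300923) (nat_lit 9)))
 (.n (.p (nat_lit 0x385c34ef02) (nat_lit 0x14030a) (nat_lit 4))
 (.p (nat_lit 0x1da65f3502) (nat_lit 0x3a2560c44000300000600) (nat_lit 49))))))
 (.n (.n (.n (.n (.p (nat_lit 0x7ce07c807c607c405c505c306) (nat_lit 0xc000008100) (nat_lit 52))
 (.p (nat_lit 0x5df05d302) (nat_lit 0x508015) (nat_lit 16)))
 (.n (.p (nat_lit 0x3da63da43da23da03d9e3d9c06) (nat_lit 0xc8104) (nat_lit 52))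
 (.p (nat_lit 0x499e492302) (nat_lit 0x30062f) (nat_lit 5))))
 (.n (.n (.p (nat_lit 0x22c422c222c022be22bc000122bb07) (nat_lit 0x40b00) (nat_lit 7))
 (.p (nat_lit 0x254425422540253c253a4b8906) (nat_lit 0x2000050022) (nat_lit 51)))
 (.n (.p (nat_lit 0x1919190d02) (nat_lit 0x404707) (nat_lit 16))
 (.p (nat_lit 0x5e8c401502) (nat_lit 0x60040900) (nat_lit 47)))))
 (.n (.n (.n (.p (nat_lit 0x16ba16b816b616b216b0000516b507) (nat_lit 0x240600) (nat_lit 7))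
 (.p (nat_lit 0x1978197619741972197005df06) (nat_lit 0x1000008e01c) (nat_lit 52)))
 (.n (.p (nat_lit 0x16a216a0169e169c16981abf06) (nat_lit 0x10000cc705) (nat_lit 52))
 (.p (nat_lit 0x5cd15de302) (nat_lit 0x1c0020000200) (nat_lit 36))))
 (.n (.n (.p (nat_lit 0x32c51ef502) (nat_lit 0x40a902) (nat_lit 16))
 (.p (nat_lit 0x49fe47bd02) (nat_lit 0x300728) (nat_lit 5)))
 (.n (.p (nat_lit 0xa5a0a560a540a520a5010e306) (nat_lit 0x800000440e) (nat_lit 51))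
 (.p (nat_lit 0xd0e603702) (nat_lit 0x4a9d80b44000300000000) (nat_lit 49))))))

def c1024_622 : Tr :=
 .n (.n (.n (.n (.n (.n (.p (nat_lit 0x3f403ee03ec03f904) (nat_lit 0x9800400026) (nat_lit 17))
 (.p (nat_lit 0x1ae261b502) (nat_lit 0x322266c15000200000600) (nat_lit 50)))
 (.p (nat_lit 0x1f481f461f441f40410b410306) (nat_lit 0x110000c2412) (nat_lit 52)))
 (.n (.p (nat_lit 0x2330232e232a232600a4008d0089232d232909) (nat_lit 0x1940a03) (nat_lit 10))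
 (.p (nat_lit 0x33b6325d02) (nat_lit 0x240a2c) (nat_lit 4))))
 (.n (.n (.p (nat_lit 0x21082106210221001e971e9106) (nat_lit 0x1200008aa00) (nat_lit 52))
 (.p (nat_lit 0xebe0eba0eb80eb60eb43b9706) (nat_lit 0x800000ab1f) (nat_lit 51)))
 (.n (.p (nat_lit 0x154a15481546154415420e0106) (nat_lit 0x80000c307) (nat_lit 51))
 (.p (nat_lit 0x5c991ad502) (nat_lit 0x240000000800) (nat_lit 38)))))
 (.n (.n (.n (.p (nat_lit 0x12c212c012be12bc12ba10c306) (nat_lit 0x800082500) (nat_lit 52))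
 (.p (nat_lit 0x1fb41fb21fb01fae1fac420306) (nat_lit 0x80004c519) (nat_lit 51)))
 (.n (.p (nat_lit 0xfcb0fbf02) (nat_lit 0x14c305) (nat_lit 16))
 (.p (nat_lit 0x5c9704cf02) (nat_lit 0x260000000000) (nat_lit 40))))
 (.n (.n (.p (nat_lit 0x8b219a702) (nat_lit 0x300102) (nat_lit 4))
 (.p (nat_lit 0x1d021d001cfc1cfa1cf835c706) (nat_lit 0x4000014126) (nat_lit 51)))
 (.n (.p (nat_lit 0x2288228622842282228046e706) (nat_lit 0x80008c30c) (nat_lit 51))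
 (.p (nat_lit 0x1da25fc102) (nat_lit 0x8982e955800300000600) (nat_lit 49))))))
 (.n (.n (.n (.n (.p (nat_lit 0xbd40bce0bcc0bca09d509d306) (nat_lit 0xc0000c0200) (nat_lit 52))
 (.p (nat_lit 0x420314d502) (nat_lit 0x52515) (nat_lit 16)))
 (.n (.p (nat_lit 0x79e079a079607941689168506) (nat_lit 0xa000002604) (nat_lit 52))
 (.p (nat_lit 0xeb599d02) (nat_lit 0x400305) (nat_lit 28))))
 (.n (.n (.p (nat_lit 0xe630e2702) (nat_lit 0x114301) (nat_lit 16))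
 (.p (nat_lit 0xbbc0bba0bb80bb60bb409e506) (nat_lit 0x8000c4123) (nat_lit 51)))
 (.n (.p (nat_lit 0x1862aff02) (nat_lit 0x100808) (nat_lit 1))
 (.p (nat_lit 0x5d6d5ebf02) (nat_lit 0x100080000b00) (nat_lit 36)))))
 (.n (.n (.n (.p (nat_lit 0x1a341a321a301a2e1a2c179d06) (nat_lit 0x10000054700) (nat_lit 51))
 (.p (nat_lit 0x115c115811561154115214e906) (nat_lit 0x800004051c) (nat_lit 51)))
 (.n (.p (nat_lit 0xfce4de502) (nat_lit 0x340306) (nat_lit 29))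
 (.p (nat_lit 0x5d395e1902) (nat_lit 0x140060000400) (nat_lit 37))))
 (.n (.n (.p (nat_lit 0x2c25b502) (nat_lit 0x140b02) (nat_lit 1))
 (.p (nat_lit 0x207420722070206e206a0b5506) (nat_lit 0x100001422a) (nat_lit 52)))
 (.n (.p (nat_lit 0x1e7531d02) (nat_lit 0x80e) (nat_lit 30))
 (.p (nat_lit 0x1ae060b102) (nat_lit 0x3505223a4000200000600) (nat_lit 50))))))

def c512_110 : Tr := .n c1024_110 c1024_622

def c1024_366 : Tr :=
 .n (.n (.n (.n (.n (.n (.p (nat_lit 0x18e018c0184019104) (nat_lit 0x18800400009) (nat_lit 17))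
 (.p (nat_lit 0x2334617502) (nat_lit 0x521a86b11000500000600) (nat_lit 49)))
 (.p (nat_lit 0x38e435e902) (nat_lit 0x300411) (nat_lit 5)))
 (.n (.p (nat_lit 0x1a361a321a301a2e1a2c167d06) (nat_lit 0x8000014603) (nat_lit 51))
 (.p (nat_lit 0x28e22aa302) (nat_lit 0x40032b) (nat_lit 4))))
 (.n (.n (.p (nat_lit 0x1d2e1f0b02) (nat_lit 0x340900) (nat_lit 4))
 (.p (nat_lit 0xea40ea20ea00e9e0e9c335106) (nat_lit 0x10000002a1e) (nat_lit 52)))
 (.n (.p (nat_lit 0x1e80b3d02) (nat_lit 0x100207) (nat_lit 1))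
 (.p (nat_lit 0x5d1b181b02) (nat_lit 0x20040000700) (nat_lit 40)))))
 (.n (.n (.n (.p (nat_lit 0x110b0df502) (nat_lit 0x10400) (nat_lit 16))
 (.p (nat_lit 0x354636ef02) (nat_lit 0x540018) (nat_lit 4)))
 (.n (.p (nat_lit 0x8d244b702) (nat_lit 0x100105) (nat_lit 29))
 (.p (nat_lit 0x3aa03a803a603a40003043506) (nat_lit 0x802023) (nat_lit 26))))
 (.n (.n (.p (nat_lit 0x21b221ae21ac21aa00420033002b21b121a909) (nat_lit 0x2000a01) (nat_lit 10))
 (.p (nat_lit 0x1778177417721770176e273d06) (nat_lit 0x8000092124) (nat_lit 52)))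
 (.n (.p (nat_lit 0x3e723e6e3e6c3e6a01be01b501ad3e713e6909) (nat_lit 0x200020b) (nat_lit 10))
 (.p (nat_lit 0x11425f7502) (nat_lit 0x1aa074b50000400040000) (nat_lit 49))))))
 (.n (.n (.n (.n (.p (nat_lit 0xa23071f02) (nat_lit 0x152100) (nat_lit 16))
 (.p (nat_lit 0xf360f340f300f2c1247124306) (nat_lit 0x5000054415) (nat_lit 51)))
 (.n (.p (nat_lit 0x11161e1502) (nat_lit 0x404) (nat_lit 4))
 (.p (nat_lit 0x620060005c005a0007022306) (nat_lit 0x1814102) (nat_lit 26))))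
 (.n (.n (.p (nat_lit 0x756265302) (nat_lit 0x540001) (nat_lit 29))
 (.p (nat_lit 0x4b2f05eb02) (nat_lit 0x516023) (nat_lit 16)))
 (.n (.p (nat_lit 0x219d216102) (nat_lit 0x8a07) (nat_lit 16))
 (.p (nat_lit 0x5ea2206502) (nat_lit 0x6004ca00) (nat_lit 47)))))
 (.n (.n (.n (.p (nat_lit 0x18a218a0189e189c1623162106) (nat_lit 0x180000a700) (nat_lit 51))
 (.p (nat_lit 0xbec0be80be60be40be2088506) (nat_lit 0x800008811c) (nat_lit 51)))
 (.n (.p (nat_lit 0x628249902) (nat_lit 0x6) (nat_lit 5))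
 (.p (nat_lit 0x5cff0d1702) (nat_lit 0x1e0040000300) (nat_lit 40))))
 (.n (.n (.p (nat_lit 0x231e336f02) (nat_lit 0x240a02) (nat_lit 29))
 (.p (nat_lit 0x89e089a089808960894043d089d07) (nat_lit 0x40012a) (nat_lit 7)))
 (.n (.p (nat_lit 0x138813861384138201f601e901e71381137f09) (nat_lit 0x80050e) (nat_lit 10))
 (.p (nat_lit 0x13f0607502) (nat_lit 0x4688ae154000500040000) (nat_lit 49))))))

def c1024_878 : Tr :=
 .n (.n (.n (.n (.n (.p (nat_lit 0x62304e102) (nat_lit 0x314000) (nat_lit 16))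
 (.p (nat_lit 0x4a7949d702) (nat_lit 0x100713) (nat_lit 15)))
 (.n (.p (nat_lit 0xfde0fda0fd80fd60fd425c706) (nat_lit 0x8000048b03) (nat_lit 52))
 (.p (nat_lit 0xb83f2902) (nat_lit 0x24022e) (nat_lit 1))))
 (.n (.n (.p (nat_lit 0x229e229c229a22981ffd1ff306) (nat_lit 0x108000cea00) (nat_lit 52))
 (.p (nat_lit 0x3794378e378c378a42dd42db06) (nat_lit 0xc000082720) (nat_lit 51)))
 (.n (.p (nat_lit 0x12b612b412b212b012ac10d106) (nat_lit 0x1000002407) (nat_lit 52))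
 (.p (nat_lit 0x5e7634c702) (nat_lit 0x80006800) (nat_lit 48)))))
 (.n (.n (.n (.p (nat_lit 0x14a414a0149e149c1225121d06) (nat_lit 0x8800054500) (nat_lit 52))
 (.p (nat_lit 0x498a45df02) (nat_lit 0x50061a) (nat_lit 5)))
 (.n (.p (nat_lit 0x17fe211902) (nat_lit 0x40605) (nat_lit 4))
 (.p (nat_lit 0x5ccb5dcb02) (nat_lit 0x220020000100) (nat_lit 36))))
 (.n (.n (.p (nat_lit 0x30a30f9902) (nat_lit 0x4a302) (nat_lit 16))
 (.p (nat_lit 0x1e661e641e621e601e5e3df306) (nat_lit 0x80004e127) (nat_lit 51)))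
 (.n (.p (nat_lit 0x50384aef02) (nat_lit 0x80d) (nat_lit 4))
 (.p (nat_lit 0x233a5ff702) (nat_lit 0x386a81c35000500000600) (nat_lit 49))))))
 (.n (.n (.n (.n (.p (nat_lit 0xd7c0d7a0d780d720b330b3106) (nat_lit 0x300008c300) (nat_lit 51))
 (.p (nat_lit 0x1eb2547b02) (nat_lit 0x100915) (nat_lit 29)))
 (.n (.p (nat_lit 0x180717fb02) (nat_lit 0x456604) (nat_lit 16))
 (.p (nat_lit 0x18c018a018801840179014306) (nat_lit 0x2916a09) (nat_lit 26))))
 (.n (.n (.p (nat_lit 0x1c201c1c1c1a1c181c1600331c1f07) (nat_lit 0x400801) (nat_lit 7))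
 (.p (nat_lit 0x37570caf02) (nat_lit 0x450223) (nat_lit 16)))
 (.n (.p (nat_lit 0x30f62d4b02) (nat_lit 0x400409) (nat_lit 4))
 (.p (nat_lit 0x7985eed02) (nat_lit 0x4a1d84344000100000000) (nat_lit 49)))))
 (.n (.n (.n (.p (nat_lit 0x1bd7190102) (nat_lit 0x400800) (nat_lit 16))
 (.p (nat_lit 0x1d5c0f0d02) (nat_lit 0x24081c) (nat_lit 4)))
 (.n (.p (nat_lit 0x1acc253302) (nat_lit 0x240706) (nat_lit 5))
 (.p (nat_lit 0x5d2d13fd02) (nat_lit 0x200060000500) (nat_lit 41))))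
 (.n (.n (.p (nat_lit 0xa1c35df02) (nat_lit 0x440103) (nat_lit 29))
 (.p (nat_lit 0xf8a0f880f840f82044a043b04350f870f8109) (nat_lit 0x184032a) (nat_lit 10)))
 (.n (.p (nat_lit 0x242609bb02) (nat_lit 0x300b0e) (nat_lit 4))
 (.p (nat_lit 0x153460f902) (nat_lit 0x460d623a4000000000600) (nat_lit 49))))))

def c512_366 : Tr := .n c1024_366 c1024_878

def c256_110 : Tr := .n c512_110 c512_366

def c1024_238 : Tr :=
 .n (.n (.n (.n (.n (.n (.p (nat_lit 0xec00e400e200ef04) (nat_lit 0x11800400005) (nat_lit 17))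
 (.p (nat_lit 0x1812615902) (nat_lit 0x352829d84000100000600) (nat_lit 49)))
 (.p (nat_lit 0x32de2df502) (nat_lit 0x40910) (nat_lit 4)))
 (.n (.p (nat_lit 0x39d039ce39cc39ca39c839c606) (nat_lit 0x16503) (nat_lit 52))
 (.p (nat_lit 0x230814ad02) (nat_lit 0x340a2a) (nat_lit 4))))
 (.n (.n (.p (nat_lit 0x1e581e561e541e501bcd1bc506) (nat_lit 0x1100008c900) (nat_lit 51))
 (.p (nat_lit 0x2c0a292102) (nat_lit 0x54091d) (nat_lit 5)))
 (.n (.p (nat_lit 0x21142110210e210c1f031eff06) (nat_lit 0x1400000c906) (nat_lit 52))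
 (.p (nat_lit 0x5d815e4d02) (nat_lit 0x2c00a0000600) (nat_lit 37)))))
 (.n (.n (.n (.p (nat_lit 0x100e100a100810060dfd0df506) (nat_lit 0x8800002400) (nat_lit 52))
 (.p (nat_lit 0x18c618c418c018be18bc327f06) (nat_lit 0x40000d2517) (nat_lit 52)))
 (.n (.p (nat_lit 0x17f725cf02) (nat_lit 0x240b04) (nat_lit 15))
 (.p (nat_lit 0x310030e030a0308034f000706) (nat_lit 0x31001c) (nat_lit 26))))
 (.n (.n (.p (nat_lit 0xbae0bac0baa0ba80ba6205106) (nat_lit 0x100000c4901) (nat_lit 52))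
 (.p (nat_lit 0x244810af02) (nat_lit 0x200b23) (nat_lit 4)))
 (.n (.p (nat_lit 0x3ae2351b02) (nat_lit 0xa0a) (nat_lit 4))
 (.p (nat_lit 0x181c5f5902) (nat_lit 0x1a2262350000100000600) (nat_lit 50))))))
 (.n (.n (.n (.n (.p (nat_lit 0x7260720071e071c0024000900070725072309) (nat_lit 0x2340100) (nat_lit 10))
 (.p (nat_lit 0x10f010ee10ec10e6029a0285028310eb10e909) (nat_lit 0x1100415) (nat_lit 10)))
 (.n (.p (nat_lit 0xcec0ce60ce40ce200dc00bd00bb0ceb0ce909) (nat_lit 0x2340204) (nat_lit 10))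
 (.p (nat_lit 0x170588302) (nat_lit 0x100001) (nat_lit 27))))
 (.n (.n (.p (nat_lit 0x256825642560255e22c322bf06) (nat_lit 0xa0000d2b00) (nat_lit 52))
 (.p (nat_lit 0x506f506302) (nat_lit 0x30a822) (nat_lit 16)))
 (.n (.p (nat_lit 0x143519f02) (nat_lit 0x140807) (nat_lit 30))
 (.p (nat_lit 0x5e94460302) (nat_lit 0xaa00) (nat_lit 48)))))
 (.n (.n (.n (.p (nat_lit 0x17841780177c177a16b916b506) (nat_lit 0xa000054600) (nat_lit 52))
 (.p (nat_lit 0x16ac16aa16a616a4073f073906) (nat_lit 0x120000cc01c) (nat_lit 51)))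
 (.n (.p (nat_lit 0x1e5a1e581e541e501c291c2506) (nat_lit 0x500008c805) (nat_lit 51))
 (.p (nat_lit 0x5d555def02) (nat_lit 0x280080000200) (nat_lit 36))))
 (.n (.n (.p (nat_lit 0x21be332102) (nat_lit 0x500a02) (nat_lit 29))
 (.p (nat_lit 0x4d4c4d4a4d484d464d4404274d4f07) (nat_lit 0x540229) (nat_lit 7)))
 (.n (.p (nat_lit 0xa4e0a4c0a4a0a480a46123506) (nat_lit 0x80004440e) (nat_lit 52))
 (.p (nat_lit 0x648605702) (nat_lit 0x506272b31000000040000) (nat_lit 50))))))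

def c1024_750 : Tr :=
 .n (.n (.n (.n (.n (.n (.p (nat_lit 0x4fa04f804f604f204e504dd06) (nat_lit 0x11000084000) (nat_lit 52))
 (.p (nat_lit 0x114661d502) (nat_lit 0x54216ac0c800400040000) (nat_lit 50)))
 (.p (nat_lit 0x35aa35a835a635a435a242bd06) (nat_lit 0x800016712) (nat_lit 51)))
 (.n (.p (nat_lit 0x18141810180e180c180a247106) (nat_lit 0x800000eb03) (nat_lit 52))
 (.p (nat_lit 0x3f2f376502) (nat_lit 0x55422d) (nat_lit 16))))
 (.n (.n (.p (nat_lit 0x21c11e8d02) (nat_lit 0x10a00) (nat_lit 16))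
 (.p (nat_lit 0x3df03dee3dea3de83de603693ded07) (nat_lit 0x340120) (nat_lit 7)))
 (.n (.p (nat_lit 0x140013fc13fa13f813f60f7106) (nat_lit 0x80000ca307) (nat_lit 51))
 (.p (nat_lit 0x5e6e35c502) (nat_lit 0x40008800) (nat_lit 48)))))
 (.n (.n (.n (.p (nat_lit 0x13c710c302) (nat_lit 0x12500) (nat_lit 16))
 (.p (nat_lit 0x2fc438502) (nat_lit 0x540b19) (nat_lit 1)))
 (.n (.p (nat_lit 0xf001010109226b210505) (nat_lit 0x66240505) (nat_lit 9))
 (.p (nat_lit 0x5dbc138502) (nat_lit 0x60004000) (nat_lit 48))))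
 (.n (.n (.p (nat_lit 0xcd42f5102) (nat_lit 0x540202) (nat_lit 29))
 (.p (nat_lit 0x3b5b3b4f02) (nat_lit 0x440a26) (nat_lit 16)))
 (.n (.p (nat_lit 0x67a06760674067206704a2106) (nat_lit 0x800004670c) (nat_lit 51))
 (.p (nat_lit 0x8ea5fd702) (nat_lit 0x3842a1c35000100040000) (nat_lit 49))))))
 (.n (.n (.n (.n (.p (nat_lit 0xcf109cf02) (nat_lit 0x154200) (nat_lit 16))
 (.p (nat_lit 0x1beb192102) (nat_lit 0x200715) (nat_lit 15)))
 (.n (.p (nat_lit 0x17fc1e5b02) (nat_lit 0x540604) (nat_lit 5))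
 (.p (nat_lit 0x11b59e302) (nat_lit 0x400706) (nat_lit 28))))
 (.n (.n (.p (nat_lit 0x13a4173502) (nat_lit 0x100501) (nat_lit 4))
 (.p (nat_lit 0xe8e0e8c0e880e860e840b4d06) (nat_lit 0x4000000223) (nat_lit 51)))
 (.n (.p (nat_lit 0x2f362c9502) (nat_lit 0x400209) (nat_lit 4))
 (.p (nat_lit 0x20765ed102) (nat_lit 0x4a1a22344000400000600) (nat_lit 50)))))
 (.n (.n (.n (.p (nat_lit 0x1aeb1adf02) (nat_lit 0x500800) (nat_lit 34))
 (.p (nat_lit 0x19320eef02) (nat_lit 0x50071c) (nat_lit 4)))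
 (.n (.p (nat_lit 0x13de250b02) (nat_lit 0x506) (nat_lit 4))
 (.p (nat_lit 0x5cb7129502) (nat_lit 0x60000000500) (nat_lit 38))))
 (.n (.n (.p (nat_lit 0x7681c6302) (nat_lit 0x240003) (nat_lit 4))
 (.p (nat_lit 0x233c233a2338233423320cb706) (nat_lit 0x200005622a) (nat_lit 52)))
 (.n (.p (nat_lit 0x1eae083702) (nat_lit 0x50090e) (nat_lit 4))
 (.p (nat_lit 0xbb260d902) (nat_lit 0x3542623b0000200040000) (nat_lit 50))))))

def c512_238 : Tr := .n c1024_238 c1024_750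

def c1024_494 : Tr :=
 .n (.n (.n (.n (.n (.n (.p (nat_lit 0x30e030a0308031304) (nat_lit 0xb00040001c) (nat_lit 17))
 (.p (nat_lit 0x13ee619902) (nat_lit 0x3422a5c14800500040000) (nat_lit 49)))
 (.p (nat_lit 0x3b76361b02) (nat_lit 0xb11) (nat_lit 4)))
 (.n (.p (nat_lit 0x9400a700a11cf91b9305) (nat_lit 0x86800a03) (nat_lit 9))
 (.p (nat_lit 0x2fa6321b02) (nat_lit 0x14022c) (nat_lit 4))))
 (.n (.n (.p (nat_lit 0x1ff01fee1fec1fea1fe81d2906) (nat_lit 0x8000d6900) (nat_lit 51))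
 (.p (nat_lit 0x370637043702370036fe35b906) (nat_lit 0x80000a11f) (nat_lit 51)))
 (.n (.p (nat_lit 0x1f00ca502) (nat_lit 0x540207) (nat_lit 1))
 (.p (nat_lit 0x5d67181302) (nat_lit 0x160080000700) (nat_lit 38)))))
 (.n (.n (.n (.p (nat_lit 0x11e411e211e011da0f610f5f06) (nat_lit 0x3000052400) (nat_lit 52))
 (.p (nat_lit 0x3b86373102) (nat_lit 0x200b18) (nat_lit 4)))
 (.n (.p (nat_lit 0xcf820c702) (nat_lit 0x540205) (nat_lit 5))
 (.p (nat_lit 0x4395c3102) (nat_lit 0x20032a) (nat_lit 28))))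
 (.n (.n (.p (nat_lit 0x592c8302) (nat_lit 0x2) (nat_lit 30))
 (.p (nat_lit 0x2e3a312302) (nat_lit 0x400125) (nat_lit 5)))
 (.n (.p (nat_lit 0x42603c3902) (nat_lit 0x24060b) (nat_lit 4))
 (.p (nat_lit 0x12aa5f9302) (nat_lit 0x580bb0344000500000000) (nat_lit 50))))))
 (.n (.n (.n (.n (.p (nat_lit 0xaba0ab60ab40ab00879087306) (nat_lit 0x900008c200) (nat_lit 51))
 (.p (nat_lit 0x248a2488248624822480138f06) (nat_lit 0x2000096515) (nat_lit 52)))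
 (.n (.p (nat_lit 0x13ce1e3502) (nat_lit 0x400504) (nat_lit 4))
 (.p (nat_lit 0x8e008a00880086000b049506) (nat_lit 0x2b16503) (nat_lit 26))))
 (.n (.n (.p (nat_lit 0xb6027b902) (nat_lit 0x100201) (nat_lit 29))
 (.p (nat_lit 0xd100d0c0d0a0d080d06089106) (nat_lit 0x8000006123) (nat_lit 52)))
 (.n (.p (nat_lit 0x4b644b604b5e4b5c2575257106) (nat_lit 0x14000050b07) (nat_lit 51))
 (.p (nat_lit 0x5cdd5eb302) (nat_lit 0x100020000b00) (nat_lit 36)))))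
 (.n (.n (.n (.p (nat_lit 0x195b162302) (nat_lit 0x114700) (nat_lit 16))
 (.p (nat_lit 0x457f09db02) (nat_lit 0x15411c) (nat_lit 16)))
 (.n (.p (nat_lit 0x1174c2502) (nat_lit 0x240106) (nat_lit 30))
 (.p (nat_lit 0x5d8d0e8302) (nat_lit 0x2000a0000300) (nat_lit 41))))
 (.n (.n (.p (nat_lit 0x3387231f02) (nat_lit 0x242a02) (nat_lit 16))
 (.p (nat_lit 0x520051e051c051809f509f106) (nat_lit 0x280004812a) (nat_lit 51)))
 (.n (.p (nat_lit 0x4fab14d302) (nat_lit 0x55650e) (nat_lit 16))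
 (.p (nat_lit 0x1542609502) (nat_lit 0x342529ca4000000000600) (nat_lit 50))))))

def c1024_1006 : Tr :=
 .n (.n (.n (.n (.n (.p (nat_lit 0x71d064d02) (nat_lit 0x40000) (nat_lit 15))
 (.p (nat_lit 0x4fe24c5f02) (nat_lit 0x400714) (nat_lit 5)))
 (.n (.p (nat_lit 0x621061502) (nat_lit 0x216004) (nat_lit 16))
 (.p (nat_lit 0x439e417b02) (nat_lit 0x40b2e) (nat_lit 4))))
 (.n (.n (.p (nat_lit 0x239a239623942392215d215b06) (nat_lit 0xc000006b00) (nat_lit 51))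
 (.p (nat_lit 0x48d2473502) (nat_lit 0x500521) (nat_lit 5)))
 (.n (.p (nat_lit 0x1448144614421440143e122f06) (nat_lit 0x40000c6407) (nat_lit 52))
 (.p (nat_lit 0x5cd55e8502) (nat_lit 0x180020000900) (nat_lit 37)))))
 (.n (.n (.n (.p (nat_lit 0x15e215e015da15d81553155106) (nat_lit 0x6000010600) (nat_lit 52))
 (.p (nat_lit 0x501e4d3b02) (nat_lit 0x54071b) (nat_lit 4)))
 (.n (.p (nat_lit 0x197a1976197219701961195d06) (nat_lit 0xa00008e705) (nat_lit 52))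
 (.p (nat_lit 0x5d515dd502) (nat_lit 0x2c0080000100) (nat_lit 37))))
 (.n (.n (.p (nat_lit 0x14fa31fb02) (nat_lit 0x140502) (nat_lit 29))
 (.p (nat_lit 0x44aa47fb02) (nat_lit 0x140028) (nat_lit 5)))
 (.n (.p (nat_lit 0xa8a0a880a840a820a800e1306) (nat_lit 0x400008830e) (nat_lit 52))
 (.p (nat_lit 0x7a6601902) (nat_lit 0x46ab80b44000100000000) (nat_lit 50))))))
 (.n (.n (.n (.n (.p (nat_lit 0xe8e0e8c0e8a0e860e840c9306) (nat_lit 0x2000040300) (nat_lit 51))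
 (.p (nat_lit 0x22de0c6d02) (nat_lit 0x40a15) (nat_lit 5)))
 (.n (.p (nat_lit 0xc200d900c71e691fcf05) (nat_lit 0x88840704) (nat_lit 9))
 (.p (nat_lit 0x1e75a8502) (nat_lit 0x60e) (nat_lit 28))))
 (.n (.n (.p (nat_lit 0x19b619b419b019ae19ac1d8306) (nat_lit 0x40000c2801) (nat_lit 52))
 (.p (nat_lit 0x1aaf1aa302) (nat_lit 0x540723) (nat_lit 16)))
 (.n (.p (nat_lit 0x33ca2d8902) (nat_lit 0xb09) (nat_lit 4))
 (.p (nat_lit 0x23445f1502) (nat_lit 0x3aa530344000500000600) (nat_lit 50)))))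
 (.n (.n (.n (.p (nat_lit 0x1cba1cb81cb41cb21a631a5d06) (nat_lit 0x4800048800) (nat_lit 51))
 (.p (nat_lit 0x21860dc702) (nat_lit 0x100a1c) (nat_lit 4)))
 (.n (.p (nat_lit 0x129c129a1298129612941c3906) (nat_lit 0x1000000a806) (nat_lit 52))
 (.p (nat_lit 0x5c9f169902) (nat_lit 0x1e0000000600) (nat_lit 39))))
 (.n (.n (.p (nat_lit 0xceb0cdf02) (nat_lit 0x454203) (nat_lit 16))
 (.p (nat_lit 0x1944145b02) (nat_lit 0x20072a) (nat_lit 5)))
 (.n (.p (nat_lit 0x1722add02) (nat_lit 0x24050f) (nat_lit 1))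
 (.p (nat_lit 0x1f1a611b02) (nat_lit 0x350522264000300040600) (nat_lit 50))))))

def c512_494 : Tr := .n c1024_494 c1024_1006

def c256_238 : Tr := .n c512_238 c512_494

def c128_110 : Tr := .n c256_110 c256_238

def c64_46 : Tr := .n c128_46 c128_110

def c32_14 : Tr := .n c64_14 c64_46

def c1024_30 : Tr :=
 .n (.n (.n (.n (.n (.n (.p (nat_lit 0x32002e002a003704) (nat_lit 0xa800400001) (nat_lit 17))
 (.p (nat_lit 0x8fa612b02) (nat_lit 0x35486a3b0000100040000) (nat_lit 50)))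
 (.p (nat_lit 0x213539102) (nat_lit 0x40080f) (nat_lit 30)))
 (.n (.p (nat_lit 0x9400a3009d1ca51b3f05) (nat_lit 0x45840303) (nat_lit 9))
 (.p (nat_lit 0x1aa8580102) (nat_lit 0x24072a) (nat_lit 29))))
 (.n (.n (.p (nat_lit 0x1cf41cf01cee1cec1a671a6306) (nat_lit 0x140000cc800) (nat_lit 52))
 (.p (nat_lit 0x5596559455925590558e558c031207) (nat_lit 0x40a1c) (nat_lit 8)))
 (.n (.p (nat_lit 0x50611c3302) (nat_lit 0x206806) (nat_lit 16))
 (.p (nat_lit 0x5cdd5e3f02) (nat_lit 0x100020000600) (nat_lit 36)))))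
 (.n (.n (.n (.p (nat_lit 0xeb00eae0eaa0ea80c990c9306) (nat_lit 0x120000c2300) (nat_lit 52))
 (.p (nat_lit 0x24360c8102) (nat_lit 0x500b15) (nat_lit 4)))
 (.n (.p (nat_lit 0x1cf41cf21cf01cee1cec1abb06) (nat_lit 0x100000cc704) (nat_lit 52))
 (.p (nat_lit 0x5ab25aae5aac5aaa5aa8021301f207) (nat_lit 0x40eb0e) (nat_lit 25))))
 (.n (.n (.p (nat_lit 0x2b631d8102) (nat_lit 0x244801) (nat_lit 16))
 (.p (nat_lit 0x1c0d1c0102) (nat_lit 0x100823) (nat_lit 16)))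
 (.n (.p (nat_lit 0x36bc521b02) (nat_lit 0x30020a) (nat_lit 29))
 (.p (nat_lit 0x15485f1f02) (nat_lit 0x1a2260b50000000000600) (nat_lit 50))))))
 (.n (.n (.n (.n (.p (nat_lit 0x77f064f02) (nat_lit 0x154000) (nat_lit 16))
 (.p (nat_lit 0x509e4bfb02) (nat_lit 0x340814) (nat_lit 4)))
 (.n (.p (nat_lit 0xa25077502) (nat_lit 0x240004) (nat_lit 15))
 (.p (nat_lit 0x460a48ff02) (nat_lit 0x40022f) (nat_lit 5))))
 (.n (.n (.p (nat_lit 0x23fa23f423f223f0215d215b06) (nat_lit 0xc000090b00) (nat_lit 51))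
 (.p (nat_lit 0xd7a0d760d740d7249f749f306) (nat_lit 0x1400008c721) (nat_lit 51)))
 (.n (.p (nat_lit 0x166f163302) (nat_lit 0x308607) (nat_lit 16))
 (.p (nat_lit 0x5d0f1f1502) (nat_lit 0xe0040000900) (nat_lit 41)))))
 (.n (.n (.n (.p (nat_lit 0x161e161c161a1618154f154d06) (nat_lit 0x1800094600) (nat_lit 51))
 (.p (nat_lit 0x5d654f302) (nat_lit 0x10001c) (nat_lit 29)))
 (.n (.p (nat_lit 0x1abc229702) (nat_lit 0x40705) (nat_lit 4))
 (.p (nat_lit 0x5dd8073302) (nat_lit 0xa0046100) (nat_lit 47))))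
 (.n (.n (.p (nat_lit 0x1eec1a1502) (nat_lit 0x902) (nat_lit 5))
 (.p (nat_lit 0x2288228622842280227e451b06) (nat_lit 0x200008c128) (nat_lit 51)))
 (.n (.p (nat_lit 0x1ef52dd02) (nat_lit 0x44030e) (nat_lit 30))
 (.p (nat_lit 0x1546602502) (nat_lit 0x406a6252d000000000600) (nat_lit 50))))))

def c1024_542 : Tr :=
 .n (.n (.n (.n (.n (.n (.p (nat_lit 0x3310327031f031604) (nat_lit 0x8c80001c) (nat_lit 20))
 (.p (nat_lit 0x12a712970fe10fdd0d170d110a530a4b07a9079504d904c761a20d) (nat_lit 0x3222a5c15000000000000) (nat_lit 33)))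
 (.p (nat_lit 0x1ee3bd302) (nat_lit 0x440b11) (nat_lit 1)))
 (.n (.p (nat_lit 0x1e4e1e4c1e4a1e481e4621c106) (nat_lit 0x80000ca03) (nat_lit 52))
 (.p (nat_lit 0x30a8323302) (nat_lit 0x34032c) (nat_lit 4))))
 (.n (.n (.p (nat_lit 0x20451d3302) (nat_lit 0x54a900) (nat_lit 16))
 (.p (nat_lit 0x3a72382702) (nat_lit 0x4051f) (nat_lit 5)))
 (.n (.p (nat_lit 0x28690c9d02) (nat_lit 0x14c207) (nat_lit 16))
 (.p (nat_lit 0x5da9182102) (nat_lit 0x400a0000700) (nat_lit 40)))))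
 (.n (.n (.n (.p (nat_lit 0x125b0f5f02) (nat_lit 0x14e400) (nat_lit 16))
 (.p (nat_lit 0x3cf43e1702) (nat_lit 0x40019) (nat_lit 5)))
 (.n (.p (nat_lit 0xe5a469f02) (nat_lit 0x300305) (nat_lit 29))
 (.p (nat_lit 0x43d5c6d02) (nat_lit 0x400a2a) (nat_lit 28))))
 (.n (.n (.p (nat_lit 0x7620760075e075c0758005b075b07) (nat_lit 0x140002) (nat_lit 7))
 (.p (nat_lit 0x38c438c238c038bc38ba32b506) (nat_lit 0x2000016925) (nat_lit 52)))
 (.n (.p (nat_lit 0x43023c4d02) (nat_lit 0x4070b) (nat_lit 4))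
 (.p (nat_lit 0x129a5f9d02) (nat_lit 0x568bb0344000500000000) (nat_lit 49))))))
 (.n (.n (.n (.n (.p (nat_lit 0xb5d087b02) (nat_lit 0x50a200) (nat_lit 16))
 (.p (nat_lit 0x8fe08fa08f808f608f414dd06) (nat_lit 0x80000c2515) (nat_lit 51)))
 (.n (.p (nat_lit 0x4a4151302) (nat_lit 0x140504) (nat_lit 1))
 (.p (nat_lit 0x3fa595f02) (nat_lit 0x404) (nat_lit 27))))
 (.n (.n (.p (nat_lit 0xcc0158902) (nat_lit 0x140201) (nat_lit 4))
 (.p (nat_lit 0x1f0e1f0a1f081f061f04089106) (nat_lit 0x8000092123) (nat_lit 52)))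
 (.n (.p (nat_lit 0x286825f102) (nat_lit 0x140208) (nat_lit 4))
 (.p (nat_lit 0x5cf3249102) (nat_lit 0x2a0040000b00) (nat_lit 41)))))
 (.n (.n (.n (.p (nat_lit 0x179c179a179617940010000700011799179309) (nat_lit 0x1840700) (nat_lit 10))
 (.p (nat_lit 0x100e100a100810061004139f06) (nat_lit 0x800000251c) (nat_lit 52)))
 (.n (.p (nat_lit 0xba40ba20ba00b9c0b9a01170b9f07) (nat_lit 0x200206) (nat_lit 7))
 (.p (nat_lit 0x5ce55e0f02) (nat_lit 0x80020000400) (nat_lit 36))))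
 (.n (.n (.p (nat_lit 0x6133c702) (nat_lit 0x400b02) (nat_lit 30))
 (.p (nat_lit 0xb5c0b580b560b540b52043d0b5b07) (nat_lit 0x40022a) (nat_lit 7)))
 (.n (.p (nat_lit 0x17aa095502) (nat_lit 0x4060e) (nat_lit 4))
 (.p (nat_lit 0x1698609f02) (nat_lit 0x344588ca4000000040600) (nat_lit 49))))))

def c512_30 : Tr := .n c1024_30 c1024_542

def c1024_286 : Tr :=
 .n (.n (.n (.n (.n (.n (.p (nat_lit 0x11c01180114011f04) (nat_lit 0x15000400006) (nat_lit 17))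
 (.p (nat_lit 0x154a616302) (nat_lit 0x421aa4395000000000600) (nat_lit 50)))
 (.p (nat_lit 0x1f0338d02) (nat_lit 0x540a10) (nat_lit 1)))
 (.n (.p (nat_lit 0x3a4c3a4a3a483a44150d150706) (nat_lit 0x9000054503) (nat_lit 52))
 (.p (nat_lit 0x25a814bf02) (nat_lit 0x140b2a) (nat_lit 5))))
 (.n (.n (.p (nat_lit 0x1e881e861e841e821e801bcd06) (nat_lit 0x10000096900) (nat_lit 52))
 (.p (nat_lit 0x2da22fcf02) (nat_lit 0x34001e) (nat_lit 5)))
 (.n (.p (nat_lit 0x120013b0125240b256105) (nat_lit 0x8c140906) (nat_lit 9))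
 (.p (nat_lit 0x5c95180b02) (nat_lit 0x280000000700) (nat_lit 38)))))
 (.n (.n (.n (.p (nat_lit 0x105410521050104e0dff0df506) (nat_lit 0x1080000e400) (nat_lit 51))
 (.p (nat_lit 0xbc80bc60bc40bc00bbe333f06) (nat_lit 0x2000000a17) (nat_lit 52)))
 (.n (.p (nat_lit 0x6220620061e061c011000ed00eb0627062509) (nat_lit 0x2c00005) (nat_lit 10))
 (.p (nat_lit 0x5bac5baa5ba85ba65ba40423034207) (nat_lit 0x31451d) (nat_lit 25))))
 (.n (.n (.p (nat_lit 0x1da81da61da41da21da0205106) (nat_lit 0x10000052901) (nat_lit 52))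
 (.p (nat_lit 0x573a5738573657345732573003ac07) (nat_lit 0x40b23) (nat_lit 8)))
 (.n (.p (nat_lit 0x4f004ee04ea04e804e63b7106) (nat_lit 0x4000004b0a) (nat_lit 52))
 (.p (nat_lit 0xa445f6102) (nat_lit 0x3aa570344000200000000) (nat_lit 49))))))
 (.n (.n (.n (.n (.p (nat_lit 0x94609440940093c0723071f06) (nat_lit 0x50000ca100) (nat_lit 52))
 (.p (nat_lit 0x38eb10e702) (nat_lit 0x10415) (nat_lit 16)))
 (.n (.p (nat_lit 0x3660e4d02) (nat_lit 0x200304) (nat_lit 1))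
 (.p (nat_lit 0x340030002e002c000903d106) (nat_lit 0x2012401) (nat_lit 26))))
 (.n (.n (.p (nat_lit 0x25b722bf02) (nat_lit 0x24eb00) (nat_lit 16))
 (.p (nat_lit 0x3a1567d02) (nat_lit 0x23) (nat_lit 30)))
 (.n (.p (nat_lit 0x3c963c943c923c903c8e1ea306) (nat_lit 0x10000006907) (nat_lit 51))
 (.p (nat_lit 0x5ccb5e9b02) (nat_lit 0x220020000a00) (nat_lit 37)))))
 (.n (.n (.n (.p (nat_lit 0x17e716b102) (nat_lit 0x50600) (nat_lit 16))
 (.p (nat_lit 0x9e1073d02) (nat_lit 0x44001c) (nat_lit 15)))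
 (.n (.p (nat_lit 0xf001030107214f22b505) (nat_lit 0x85340805) (nat_lit 9))
 (.p (nat_lit 0x5df0505b02) (nat_lit 0xa0016200) (nat_lit 47))))
 (.n (.n (.p (nat_lit 0x153e153c153a1538153421b706) (nat_lit 0x100000ca02) (nat_lit 52))
 (.p (nat_lit 0x117411721170116e116c506906) (nat_lit 0x800002829) (nat_lit 51)))
 (.n (.p (nat_lit 0x1daa1da81da41da21da0123b06) (nat_lit 0x400005240e) (nat_lit 52))
 (.p (nat_lit 0x248d248921db21d31f151f0f1c4f1c3b1983197316af169d60620d) (nat_lit 0x85ab0335000000040600) (nat_lit 33))))))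

def c1024_798 : Tr :=
 .n (.n (.n (.n (.n (.n (.p (nat_lit 0x52a05260524052204e504e106) (nat_lit 0x14000088000) (nat_lit 51))
 (.p (nat_lit 0x21e061df02) (nat_lit 0x3508a5d84000400040600) (nat_lit 50)))
 (.p (nat_lit 0xea47e102) (nat_lit 0x400413) (nat_lit 1)))
 (.n (.p (nat_lit 0x3b79246b02) (nat_lit 0x102b03) (nat_lit 16))
 (.p (nat_lit 0x3baa3a5302) (nat_lit 0x200b2d) (nat_lit 5))))
 (.n (.n (.p (nat_lit 0x1ff81ff61ff41ff20028000b00091ffd1ffb09) (nat_lit 0x2c40a00) (nat_lit 10))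
 (.p (nat_lit 0x42424240423c423a42380369423f07) (nat_lit 0x300620) (nat_lit 7)))
 (.n (.p (nat_lit 0x249624942490248e248c0f6f06) (nat_lit 0x40000d6307) (nat_lit 51))
 (.p (nat_lit 0x5e7439f102) (nat_lit 0x60004800) (nat_lit 47)))))
 (.n (.n (.n (.p (nat_lit 0x140c1406140414021225122306) (nat_lit 0xc000042500) (nat_lit 51))
 (.p (nat_lit 0x485e463702) (nat_lit 0x44041a) (nat_lit 5)))
 (.n (.p (nat_lit 0xe5496502) (nat_lit 0x100605) (nat_lit 30))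
 (.p (nat_lit 0x5d9d04cd02) (nat_lit 0x1000a0000000) (nat_lit 38))))
 (.n (.n (.p (nat_lit 0xe38187102) (nat_lit 0x400302) (nat_lit 4))
 (.p (nat_lit 0x3bf838d102) (nat_lit 0x540b26) (nat_lit 4)))
 (.n (.p (nat_lit 0x4dca52a302) (nat_lit 0x50030d) (nat_lit 29))
 (.p (nat_lit 0x1ae05fe502) (nat_lit 0x3062a1c35000200000600) (nat_lit 50))))))
 (.n (.n (.n (.n (.p (nat_lit 0xb360b320b300b2e0026000b00070b390b3509) (nat_lit 0x2b00300) (nat_lit 10))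
 (.p (nat_lit 0x1a8f1a8302) (nat_lit 0x148715) (nat_lit 16)))
 (.n (.p (nat_lit 0xfdc0fda0fd80fd60fd417fd06) (nat_lit 0x10000048604) (nat_lit 52))
 (.p (nat_lit 0x148014601420140019d000b06) (nat_lit 0x1510307) (nat_lit 26))))
 (.n (.n (.p (nat_lit 0x14ee2a7d02) (nat_lit 0x140501) (nat_lit 29))
 (.p (nat_lit 0xca8102b02) (nat_lit 0x140223) (nat_lit 5)))
 (.n (.p (nat_lit 0x300a2d2b02) (nat_lit 0x309) (nat_lit 5))
 (.p (nat_lit 0xfe05ed902) (nat_lit 0x4a0d84344000400000000) (nat_lit 50)))))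
 (.n (.n (.n (.p (nat_lit 0x1b6c1b6a1b681b6218fd18fb06) (nat_lit 0x300000a800) (nat_lit 52))
 (.p (nat_lit 0x311554f02) (nat_lit 0x54071c) (nat_lit 30)))
 (.n (.p (nat_lit 0x19644fc502) (nat_lit 0x706) (nat_lit 29))
 (.p (nat_lit 0x5ccf5e2902) (nat_lit 0x1e0020000500) (nat_lit 37))))
 (.n (.n (.p (nat_lit 0x8b81c6b02) (nat_lit 0x103) (nat_lit 4))
 (.p (nat_lit 0x43d57c902) (nat_lit 0x40032a) (nat_lit 30)))
 (.n (.p (nat_lit 0x22d7200f02) (nat_lit 0x24090e) (nat_lit 15))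
 (.p (nat_lit 0x63460eb02) (nat_lit 0x340d623a4000000040000) (nat_lit 49))))))

def c512_286 : Tr := .n c1024_286 c1024_798

def c256_30 : Tr := .n c512_30 c512_286

def c1024_158 : Tr :=
 .n (.n (.n (.n (.n (.n (.p (nat_lit 0x90008e009503) (nat_lit 0x18000500003) (nat_lit 17))
 (.p (nat_lit 0xe7c614902) (nat_lit 0x350221d84000300040000) (nat_lit 50)))
 (.p (nat_lit 0x1a581a561a541a521a50310506) (nat_lit 0x10000096410) (nat_lit 52)))
 (.n (.p (nat_lit 0x126838fb02) (nat_lit 0x240403) (nat_lit 29))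
 (.p (nat_lit 0x2042149702) (nat_lit 0x44092a) (nat_lit 4))))
 (.n (.n (.p (nat_lit 0x1bcc1dab02) (nat_lit 0x500900) (nat_lit 4))
 (.p (nat_lit 0x26be28f502) (nat_lit 0x14001d) (nat_lit 4)))
 (.n (.p (nat_lit 0x2348234423422340233e1d9d06) (nat_lit 0x8000056806) (nat_lit 51))
 (.p (nat_lit 0x5d27154702) (nat_lit 0x260060000600) (nat_lit 40)))))
 (.n (.n (.n (.p (nat_lit 0xfc90c8f02) (nat_lit 0x56300) (nat_lit 16))
 (.p (nat_lit 0xa960a940a920a900a8c2ba306) (nat_lit 0x100000a916) (nat_lit 52)))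
 (.n (.p (nat_lit 0x25ca435b02) (nat_lit 0x40b04) (nat_lit 29))
 (.p (nat_lit 0x5b2e5b2c5b2a5b285b2602fd028c07) (nat_lit 0x516915) (nat_lit 25))))
 (.n (.n (.p (nat_lit 0x21b31eeb02) (nat_lit 0x500901) (nat_lit 15))
 (.p (nat_lit 0x4068406640644062405e203106) (nat_lit 0x10000cc923) (nat_lit 52)))
 (.n (.p (nat_lit 0x38dc347902) (nat_lit 0x50040a) (nat_lit 5))
 (.p (nat_lit 0x11425f3d02) (nat_lit 0x3a2560c64000400040000) (nat_lit 49))))))
 (.n (.n (.n (.n (.p (nat_lit 0x87305bf02) (nat_lit 0x100100) (nat_lit 15))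
 (.p (nat_lit 0x9080906090209000733072d06) (nat_lit 0x12000046015) (nat_lit 51)))
 (.n (.p (nat_lit 0xbb3e1102) (nat_lit 0x300204) (nat_lit 30))
 (.p (nat_lit 0x4a5c48b902) (nat_lit 0x44072f) (nat_lit 4))))
 (.n (.n (.p (nat_lit 0x24da24d824d624d422bd22bb06) (nat_lit 0x18000c4b00) (nat_lit 51))
 (.p (nat_lit 0x4fb8566502) (nat_lit 0x40522) (nat_lit 29)))
 (.n (.p (nat_lit 0x4a1f1a6f02) (nat_lit 0x354707) (nat_lit 16))
 (.p (nat_lit 0x5e8e1d9102) (nat_lit 0x80056900) (nat_lit 47)))))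
 (.n (.n (.n (.p (nat_lit 0x172417221720171e16b316b106) (nat_lit 0x1800048600) (nat_lit 52))
 (.p (nat_lit 0x34c105d702) (nat_lit 0x11001c) (nat_lit 16)))
 (.n (.p (nat_lit 0x1d931ac702) (nat_lit 0x540705) (nat_lit 15))
 (.p (nat_lit 0x5de6423102) (nat_lit 0x40012200) (nat_lit 48))))
 (.n (.n (.p (nat_lit 0x1b441b421b401b3e205d205b06) (nat_lit 0x180000c6902) (nat_lit 52))
 (.p (nat_lit 0x4c0c4e5302) (nat_lit 0x129) (nat_lit 4)))
 (.n (.p (nat_lit 0x1aea1ae81ae61ae21ae010df06) (nat_lit 0x200001040e) (nat_lit 51))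
 (.p (nat_lit 0xe7a604302) (nat_lit 0x40a96254c800300040000) (nat_lit 50))))))

def c1024_670 : Tr :=
 .n (.n (.n (.n (.n (.n (.p (nat_lit 0x45f0453044203) (nat_lit 0x6210002a) (nat_lit 19))
 (.p (nat_lit 0x8e861c302) (nat_lit 0x3221a9c15000100040000) (nat_lit 49)))
 (.p (nat_lit 0x41fa3db502) (nat_lit 0x240512) (nat_lit 4)))
 (.n (.p (nat_lit 0x893b6102) (nat_lit 0x100b03) (nat_lit 30))
 (.p (nat_lit 0x36543652364e364c364a0495365107) (nat_lit 0x34012d) (nat_lit 7))))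
 (.n (.n (.p (nat_lit 0x214621442142213e1e911e8d06) (nat_lit 0x2800010a00) (nat_lit 51))
 (.p (nat_lit 0x438d3be902) (nat_lit 0x354b1f) (nat_lit 16)))
 (.n (.p (nat_lit 0x10d90e0b02) (nat_lit 0x500307) (nat_lit 15))
 (.p (nat_lit 0x5cdb1ae302) (nat_lit 0x120020000800) (nat_lit 40)))))
 (.n (.n (.n (.p (nat_lit 0x12f212f012ee12ea12e810c706) (nat_lit 0x2000086500) (nat_lit 51))
 (.p (nat_lit 0x423b422f02) (nat_lit 0x108619) (nat_lit 16)))
 (.n (.p (nat_lit 0xe547ef02) (nat_lit 0x140405) (nat_lit 30))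
 (.p (nat_lit 0x5cd304c502) (nat_lit 0x1a0020000000) (nat_lit 38))))
 (.n (.n (.p (nat_lit 0xa120a100a0c0a0a006e005f00590a0f0a0909) (nat_lit 0x1840102) (nat_lit 10))
 (.p (nat_lit 0x1d241d221d201d1e1d1c364906) (nat_lit 0x100000d6126) (nat_lit 52)))
 (.n (.p (nat_lit 0x47d6445b02) (nat_lit 0x50040c) (nat_lit 4))
 (.p (nat_lit 0x1da25fc902) (nat_lit 0x9582ec15800300000600) (nat_lit 49))))))
 (.n (.n (.n (.n (.p (nat_lit 0xc020c000bfc0bfa09d709d106) (nat_lit 0x120000ca200) (nat_lit 52))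
 (.p (nat_lit 0x4987164b02) (nat_lit 0x314615) (nat_lit 16)))
 (.n (.p (nat_lit 0x18121810180c180a168b168506) (nat_lit 0x1200000e604) (nat_lit 52))
 (.p (nat_lit 0xec00ea00e800e200b9000306) (nat_lit 0x1110705) (nat_lit 26))))
 (.n (.n (.p (nat_lit 0x10f815af02) (nat_lit 0x300401) (nat_lit 5))
 (.p (nat_lit 0x1db41db21db01dae1dac09ef06) (nat_lit 0x10000052123) (nat_lit 51)))
 (.n (.p (nat_lit 0x2be32b5102) (nat_lit 0x340808) (nat_lit 15))
 (.p (nat_lit 0x5da35ec302) (nat_lit 0xa00a0000b00) (nat_lit 36)))))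
 (.n (.n (.n (.p (nat_lit 0x1a581a541a521a50179d179906) (nat_lit 0x140000d6700) (nat_lit 52))
 (.p (nat_lit 0x421314eb02) (nat_lit 0x55251c) (nat_lit 16)))
 (.n (.p (nat_lit 0x113623b102) (nat_lit 0x400406) (nat_lit 5))
 (.p (nat_lit 0x5d630fe902) (nat_lit 0x1a0080000400) (nat_lit 40))))
 (.n (.n (.p (nat_lit 0x1752174e174c174a25bd25b906) (nat_lit 0x14000050b02) (nat_lit 51))
 (.p (nat_lit 0xcba0cb80cb60cb40cb2043f0cbd07) (nat_lit 0x54022a) (nat_lit 7)))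
 (.n (.p (nat_lit 0x2b0b1bdd02) (nat_lit 0x10c80e) (nat_lit 16))
 (.p (nat_lit 0xe8260cb02) (nat_lit 0x3505623a4000300040000) (nat_lit 50))))))

def c512_158 : Tr := .n c1024_158 c1024_670

def c1024_414 : Tr :=
 .n (.n (.n (.n (.n (.n (.p (nat_lit 0x20c020a021903) (nat_lit 0x180050000f) (nat_lit 17))
 (.p (nat_lit 0xe7c618302) (nat_lit 0x421a86b15000300040000) (nat_lit 50)))
 (.p (nat_lit 0x3974358302) (nat_lit 0x140411) (nat_lit 5)))
 (.n (.p (nat_lit 0x9400a100af1b8d1cf305) (nat_lit 0xa2340603) (nat_lit 9))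
 (.p (nat_lit 0x2bc42a5702) (nat_lit 0x92b) (nat_lit 5))))
 (.n (.n (.p (nat_lit 0x1f7a1f781f741f721d2f1d2906) (nat_lit 0x48000c6900) (nat_lit 52))
 (.p (nat_lit 0x33ff33f302) (nat_lit 0x30ab1e) (nat_lit 16)))
 (.n (.p (nat_lit 0x7ce07ca07c807c607c40b4306) (nat_lit 0x8000008207) (nat_lit 52))
 (.p (nat_lit 0x5d3f181d02) (nat_lit 0xe0060000700) (nat_lit 40)))))
 (.n (.n (.n (.p (nat_lit 0xf660f640f620f5e000e000500010f610f5d09) (nat_lit 0x1040400) (nat_lit 10))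
 (.p (nat_lit 0x1cf41cf21cf01cee1cec39f506) (nat_lit 0x1000008c518) (nat_lit 52)))
 (.n (.p (nat_lit 0xcf10a2f02) (nat_lit 0x140105) (nat_lit 15))
 (.p (nat_lit 0x5bec5bea5be85be45be203d503ac07) (nat_lit 0x20eb23) (nat_lit 25))))
 (.n (.n (.p (nat_lit 0x38004b00411615178705) (nat_lit 0xa5840a01) (nat_lit 9))
 (.p (nat_lit 0x28fc28fa28f828f628f2287506) (nat_lit 0x10000c0224) (nat_lit 52)))
 (.n (.p (nat_lit 0x46ef3f9902) (nat_lit 0x41630b) (nat_lit 16))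
 (.p (nat_lit 0x1da25f8102) (nat_lit 0x581a22b44000300000600) (nat_lit 49))))))
 (.n (.n (.n (.n (.p (nat_lit 0xa590a4d02) (nat_lit 0x400200) (nat_lit 34))
 (.p (nat_lit 0x79e079c079a07960794138f06) (nat_lit 0x2000002515) (nat_lit 52)))
 (.n (.p (nat_lit 0x12701e2102) (nat_lit 0x40404) (nat_lit 4))
 (.p (nat_lit 0x620060005c005a002b000706) (nat_lit 0x316a02) (nat_lit 26))))
 (.n (.n (.p (nat_lit 0x8aa156d02) (nat_lit 0x500101) (nat_lit 4))
 (.p (nat_lit 0x142414221420141c141a074506) (nat_lit 0x2000044023) (nat_lit 51)))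
 (.n (.p (nat_lit 0x2c6122cd02) (nat_lit 0x34ca07) (nat_lit 16))
 (.p (nat_lit 0x5ea6247d02) (nat_lit 0x80010a00) (nat_lit 47)))))
 (.n (.n (.n (.p (nat_lit 0x18de18da18d818d618d4162906) (nat_lit 0x8000094700) (nat_lit 51))
 (.p (nat_lit 0x4c0b088702) (nat_lit 0x51611c) (nat_lit 16)))
 (.n (.p (nat_lit 0x78e4b3702) (nat_lit 0x340006) (nat_lit 29))
 (.p (nat_lit 0x5d290d0d02) (nat_lit 0x240060000300) (nat_lit 38))))
 (.n (.n (.p (nat_lit 0xe760e740e700e6e0e6c232106) (nat_lit 0x40000c6a02) (nat_lit 52))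
 (.p (nat_lit 0x6e006de06dc06da06d6089706) (nat_lit 0x100001212a) (nat_lit 52)))
 (.n (.p (nat_lit 0x1f401f9020307eb093f05) (nat_lit 0x4294050e) (nat_lit 9))
 (.p (nat_lit 0x206a608102) (nat_lit 0x354221ca4000400000600) (nat_lit 49))))))

def c1024_926 : Tr :=
 .n (.n (.n (.n (.n (.p (nat_lit 0x66e066a066806660655064d06) (nat_lit 0x88000c4000) (nat_lit 51))
 (.p (nat_lit 0x4e2c4bad02) (nat_lit 0x340314) (nat_lit 4)))
 (.n (.p (nat_lit 0x249624942492248e248c25c306) (nat_lit 0x20000d6b03) (nat_lit 51))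
 (.p (nat_lit 0x425a425842564254425004a5425307) (nat_lit 0x10062e) (nat_lit 7))))
 (.n (.n (.p (nat_lit 0x22ef1ff702) (nat_lit 0x246a00) (nat_lit 16))
 (.p (nat_lit 0x441046a702) (nat_lit 0x100021) (nat_lit 4)))
 (.n (.p (nat_lit 0x407710cf02) (nat_lit 0x12407) (nat_lit 16))
 (.p (nat_lit 0x5d871adf02) (nat_lit 0x2600a0000800) (nat_lit 38)))))
 (.n (.n (.n (.p (nat_lit 0x1507121f02) (nat_lit 0x150500) (nat_lit 16))
 (.p (nat_lit 0x2e84a9b02) (nat_lit 0x24081a) (nat_lit 1)))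
 (.n (.p (nat_lit 0x24062402240023fe180717ff06) (nat_lit 0x8800052605) (nat_lit 51))
 (.p (nat_lit 0x5dce4a2902) (nat_lit 0x40054100) (nat_lit 48))))
 (.n (.n (.p (nat_lit 0x125c189102) (nat_lit 0x240402) (nat_lit 4))
 (.p (nat_lit 0x100e100c100a10081006424506) (nat_lit 0x800002627) (nat_lit 52)))
 (.n (.p (nat_lit 0x50e04b0702) (nat_lit 0x90d) (nat_lit 5))
 (.p (nat_lit 0x1148600102) (nat_lit 0x405aa2354800400040000) (nat_lit 50))))))
 (.n (.n (.n (.n (.p (nat_lit 0xe010b2f02) (nat_lit 0x300) (nat_lit 16))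
 (.p (nat_lit 0x20200aff02) (nat_lit 0x540915) (nat_lit 4)))
 (.n (.p (nat_lit 0x1b001afc1afa1af81957195306) (nat_lit 0x14000080704) (nat_lit 51))
 (.p (nat_lit 0x1b601b401b201ac019b00b906) (nat_lit 0xa0e30b) (nat_lit 26))))
 (.n (.n (.p (nat_lit 0x1a421a401a3e1a3a1a381c1b06) (nat_lit 0x2000094801) (nat_lit 52))
 (.p (nat_lit 0x17ce11a702) (nat_lit 0x40623) (nat_lit 5)))
 (.n (.p (nat_lit 0x32c1329502) (nat_lit 0x208909) (nat_lit 16))
 (.p (nat_lit 0x6425ef702) (nat_lit 0x3a2530344000000040000) (nat_lit 50)))))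
 (.n (.n (.n (.p (nat_lit 0x1c441c421c401c3e1c3c1c3a06) (nat_lit 0x40800) (nat_lit 2))
 (.p (nat_lit 0x3641ebf02) (nat_lit 0x10091c) (nat_lit 1)))
 (.n (.p (nat_lit 0x1612160e160c160a16081ad106) (nat_lit 0x8000054706) (nat_lit 51))
 (.p (nat_lit 0x5e30129d02) (nat_lit 0x80000500) (nat_lit 45))))
 (.n (.n (.p (nat_lit 0xa270a1b02) (nat_lit 0x354103) (nat_lit 16))
 (.p (nat_lit 0x166c144f02) (nat_lit 0x20062a) (nat_lit 5)))
 (.n (.p (nat_lit 0x257e086d02) (nat_lit 0x440b0e) (nat_lit 5))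
 (.p (nat_lit 0x648610d02) (nat_lit 0x3425219b0000000040000) (nat_lit 50))))))

def c512_414 : Tr := .n c1024_414 c1024_926

def c256_158 : Tr := .n c512_158 c512_414

def c128_30 : Tr := .n c256_30 c256_158

def c1024_94 : Tr :=
 .n (.n (.n (.n (.n (.n (.p (nat_lit 0x600058006703) (nat_lit 0x8800500002) (nat_lit 17))
 (.p (nat_lit 0x1db0613502) (nat_lit 0x342a21d84000300000600) (nat_lit 50)))
 (.p (nat_lit 0x2bf2272702) (nat_lit 0x54090f) (nat_lit 4)))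
 (.n (.p (nat_lit 0x89387902) (nat_lit 0x100403) (nat_lit 30))
 (.p (nat_lit 0x1d78581102) (nat_lit 0x44082a) (nat_lit 29))))
 (.n (.n (.p (nat_lit 0x1d491a6502) (nat_lit 0x442800) (nat_lit 16))
 (.p (nat_lit 0x24422440243c243a2438030d243f07) (nat_lit 0x300b1c) (nat_lit 7)))
 (.n (.p (nat_lit 0xe820e800e7e0e7a0e781d9906) (nat_lit 0x20000c6806) (nat_lit 51))
 (.p (nat_lit 0x5d0b153902) (nat_lit 0x120040000600) (nat_lit 38)))))
 (.n (.n (.n (.p (nat_lit 0xf420f3e0f3a0f380c970c9306) (nat_lit 0xa0000d4300) (nat_lit 51))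
 (.p (nat_lit 0x176a17681766176417622a7906) (nat_lit 0x10000012516) (nat_lit 51)))
 (.n (.p (nat_lit 0x247c247a24782476247400bf247f07) (nat_lit 0x500b04) (nat_lit 7))
 (.p (nat_lit 0x2595af902) (nat_lit 0x500b12) (nat_lit 28))))
 (.n (.n (.p (nat_lit 0xd1a0d180d160d140d121eeb06) (nat_lit 0x10000006901) (nat_lit 51))
 (.p (nat_lit 0x1ec8570102) (nat_lit 0x923) (nat_lit 29)))
 (.n (.p (nat_lit 0x1b601b5e1b5a1b581b5637d906) (nat_lit 0x400008830a) (nat_lit 52))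
 (.p (nat_lit 0x15345f3302) (nat_lit 0x3aa560c44000000000600) (nat_lit 49))))))
 (.n (.n (.n (.n (.p (nat_lit 0x7c207c007bc07ba05c305bd06) (nat_lit 0x4800086100) (nat_lit 52))
 (.p (nat_lit 0x920091e091c091a091805d306) (nat_lit 0x10000008015) (nat_lit 51)))
 (.n (.p (nat_lit 0xa261de302) (nat_lit 0x340104) (nat_lit 5))
 (.p (nat_lit 0x47a847a647a447a2479e46f506) (nat_lit 0x100008432f) (nat_lit 51))))
 (.n (.n (.p (nat_lit 0x246d215902) (nat_lit 0x210b00) (nat_lit 16))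
 (.p (nat_lit 0x4b864d7302) (nat_lit 0x140022) (nat_lit 5)))
 (.n (.p (nat_lit 0x190a190819061904016c014b0149190f190d09) (nat_lit 0x2c00707) (nat_lit 10))
 (.p (nat_lit 0x5d271da702) (nat_lit 0x260060000900) (nat_lit 38)))))
 (.n (.n (.n (.p (nat_lit 0x2a16b102) (nat_lit 0x40600) (nat_lit 1))
 (.p (nat_lit 0x13fe13fa13f813f605df05db06) (nat_lit 0x1400008a01c) (nat_lit 51)))
 (.n (.p (nat_lit 0x1150114e114c114a11461abf06) (nat_lit 0x10000c8705) (nat_lit 51))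
 (.p (nat_lit 0x5cdf0a5302) (nat_lit 0xe0020000200) (nat_lit 40))))
 (.n (.n (.p (nat_lit 0x1bb21bb01bae1bac1baa1ef706) (nat_lit 0x10000016902) (nat_lit 52))
 (.p (nat_lit 0x498e482902) (nat_lit 0x100628) (nat_lit 5)))
 (.n (.p (nat_lit 0x4cc04ca04c804c604c410db06) (nat_lit 0x80000040e) (nat_lit 52))
 (.p (nat_lit 0x180c603502) (nat_lit 0x4099a2335000100000600) (nat_lit 49))))))

def c1024_606 : Tr :=
 .n (.n (.n (.n (.n (.n (.p (nat_lit 0x3b903b303ae03) (nat_lit 0x2100023) (nat_lit 19))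
 (.p (nat_lit 0x64661b302) (nat_lit 0x522266c0d000000040000) (nat_lit 50)))
 (.p (nat_lit 0x41003d9d02) (nat_lit 0x40412) (nat_lit 4)))
 (.n (.p (nat_lit 0xba232d02) (nat_lit 0x340a03) (nat_lit 1))
 (.p (nat_lit 0x142414221420141c141a336306) (nat_lit 0x2000004a2c) (nat_lit 51))))
 (.n (.n (.p (nat_lit 0x20c420c220c020be1e971e8d06) (nat_lit 0x10800084a00) (nat_lit 51))
 (.p (nat_lit 0x3b94384902) (nat_lit 0x300b1f) (nat_lit 5)))
 (.n (.p (nat_lit 0xd1c0d1a0d180d160d140e0106) (nat_lit 0x800006307) (nat_lit 51))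
 (.p (nat_lit 0x5cb91ae102) (nat_lit 0x40000000800) (nat_lit 40)))))
 (.n (.n (.n (.p (nat_lit 0x10cc10ca10c610c400100007000110c910c309) (nat_lit 0x1800500) (nat_lit 10))
 (.p (nat_lit 0xb6420502) (nat_lit 0x140519) (nat_lit 1)))
 (.n (.p (nat_lit 0x472c47284726472447220fc506) (nat_lit 0x8000042305) (nat_lit 52))
 (.p (nat_lit 0x5cb3063502) (nat_lit 0xa0000000000) (nat_lit 39))))
 (.n (.n (.p (nat_lit 0x2da1075d02) (nat_lit 0x246002) (nat_lit 16))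
 (.p (nat_lit 0x35c2388502) (nat_lit 0x100126) (nat_lit 4)))
 (.n (.p (nat_lit 0x45444542453e453c453a467b06) (nat_lit 0x400004820c) (nat_lit 51))
 (.p (nat_lit 0x180e5fbf02) (nat_lit 0x89832955800100000600) (nat_lit 49))))))
 (.n (.n (.n (.n (.p (nat_lit 0xbc80bc40bc20bc00bbe09d506) (nat_lit 0x8000040200) (nat_lit 52))
 (.p (nat_lit 0x249624942492248e248c14d906) (nat_lit 0x20000d6515) (nat_lit 51)))
 (.n (.p (nat_lit 0x1688168616841682168000bf168b07) (nat_lit 0x500604) (nat_lit 7))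
 (.p (nat_lit 0x59925990598c598a598801b300ee07) (nat_lit 0x310005) (nat_lit 25))))
 (.n (.n (.p (nat_lit 0xe2e0e2c0e2a0e240046002f002d0e290e2709) (nat_lit 0x1100301) (nat_lit 10))
 (.p (nat_lit 0x9ee56ab02) (nat_lit 0x540123) (nat_lit 29)))
 (.n (.p (nat_lit 0x29fe267b02) (nat_lit 0x140408) (nat_lit 4))
 (.p (nat_lit 0x5eba4d5502) (nat_lit 0x6004ab00) (nat_lit 48)))))
 (.n (.n (.n (.p (nat_lit 0x1a2a1a281a261a241a20179506) (nat_lit 0x10000d2700) (nat_lit 51))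
 (.p (nat_lit 0x14e80ec902) (nat_lit 0x44051c) (nat_lit 5)))
 (.n (.p (nat_lit 0x11350e6702) (nat_lit 0x300306) (nat_lit 15))
 (.p (nat_lit 0x5e122bbd02) (nat_lit 0x4000c400) (nat_lit 48))))
 (.n (.n (.p (nat_lit 0x33e7246302) (nat_lit 0x304b02) (nat_lit 16))
 (.p (nat_lit 0x198619821980197e197c0b5b06) (nat_lit 0x800008e22a) (nat_lit 51)))
 (.n (.p (nat_lit 0x2e742e722e702e6e2e6c1a7f06) (nat_lit 0x100000ca70e) (nat_lit 52))
 (.p (nat_lit 0x16a660af02) (nat_lit 0x344589ca4000000040600) (nat_lit 50))))))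

def c512_94 : Tr := .n c1024_94 c1024_606

def c1024_350 : Tr :=
 .n (.n (.n (.n (.n (.n (.p (nat_lit 0x167015b0153015004) (nat_lit 0x54800007) (nat_lit 20))
 (.p (nat_lit 0xe76617302) (nat_lit 0x421aa6315000300040000) (nat_lit 49)))
 (.p (nat_lit 0x368a3688368636843680386706) (nat_lit 0x10000ca311) (nat_lit 51)))
 (.n (.p (nat_lit 0x18ba18b818b618b41677167506) (nat_lit 0x1800012603) (nat_lit 52))
 (.p (nat_lit 0x28862a9b02) (nat_lit 0x44022b) (nat_lit 4))))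
 (.n (.n (.p (nat_lit 0x1f101f041d2903) (nat_lit 0x40900) (nat_lit 6))
 (.p (nat_lit 0x334a2fed02) (nat_lit 0x200a1e) (nat_lit 4)))
 (.n (.p (nat_lit 0x22b822b622b422b222b0205f06) (nat_lit 0x8000d0906) (nat_lit 52))
 (.p (nat_lit 0x5e562cff02) (nat_lit 0x20006700) (nat_lit 48)))))
 (.n (.n (.n (.p (nat_lit 0x10e90df702) (nat_lit 0x104400) (nat_lit 16))
 (.p (nat_lit 0x34c934bd02) (nat_lit 0x508018) (nat_lit 16)))
 (.n (.p (nat_lit 0xa35078502) (nat_lit 0x440005) (nat_lit 15))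
 (.p (nat_lit 0x39a0396039403920311042306) (nat_lit 0x2b10522) (nat_lit 26))))
 (.n (.n (.p (nat_lit 0x21ae160f02) (nat_lit 0x300a01) (nat_lit 5))
 (.p (nat_lit 0x273a295902) (nat_lit 0x300124) (nat_lit 4)))
 (.n (.p (nat_lit 0x3c033bc702) (nat_lit 0x448b0a) (nat_lit 16))
 (.p (nat_lit 0x1ad65f7302) (nat_lit 0x1aa074b50000200000600) (nat_lit 49))))))
 (.n (.n (.n (.n (.p (nat_lit 0xa03072302) (nat_lit 0x34c100) (nat_lit 16))
 (.p (nat_lit 0xd400d3c0d3a0d361249124306) (nat_lit 0x9000042415) (nat_lit 51)))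
 (.n (.p (nat_lit 0x3ff43ff03fee3fec3fea0fb906) (nat_lit 0x80000cc304) (nat_lit 52))
 (.p (nat_lit 0x6158df02) (nat_lit 0x400002) (nat_lit 28))))
 (.n (.n (.p (nat_lit 0x2b264902) (nat_lit 0x40001) (nat_lit 30))
 (.p (nat_lit 0x12f012ee12ec12e805eb05e306) (nat_lit 0x11000086023) (nat_lit 51)))
 (.n (.p (nat_lit 0x2168059502) (nat_lit 0x400a07) (nat_lit 5))
 (.p (nat_lit 0x5d315ea302) (nat_lit 0x1c0060000a00) (nat_lit 37)))))
 (.n (.n (.n (.p (nat_lit 0x186618621860185e1629162106) (nat_lit 0x8800084700) (nat_lit 52))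
 (.p (nat_lit 0x8860880087e087c0330030f030d0885088309) (nat_lit 0x230011c) (nat_lit 10)))
 (.n (.p (nat_lit 0x1fe21fe01fde1fdc1d931d8906) (nat_lit 0x10800056805) (nat_lit 51))
 (.p (nat_lit 0x5d1d0d0b02) (nat_lit 0x40000300) (nat_lit 38))))
 (.n (.n (.p (nat_lit 0x21c321b702) (nat_lit 0x112a02) (nat_lit 16))
 (.p (nat_lit 0x442045d0453140512af05) (nat_lit 0xa990012a) (nat_lit 9)))
 (.n (.p (nat_lit 0x1388138613841380137e01eb138307) (nat_lit 0x20050e) (nat_lit 7))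
 (.p (nat_lit 0xd10607302) (nat_lit 0x570aa2344000300000000) (nat_lit 49))))))

def c1024_862 : Tr :=
 .n (.n (.n (.n (.n (.n (.p (nat_lit 0x60104e302) (nat_lit 0x40e000) (nat_lit 16))
 (.p (nat_lit 0x234461ed02) (nat_lit 0x382a31d05000500000600) (nat_lit 50)))
 (.p (nat_lit 0x49d4456902) (nat_lit 0x713) (nat_lit 5)))
 (.n (.p (nat_lit 0xa5a0a560a540a520a5025c706) (nat_lit 0x8000044b03) (nat_lit 51))
 (.p (nat_lit 0x3e82413102) (nat_lit 0x20022e) (nat_lit 4))))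
 (.n (.n (.p (nat_lit 0x229422922290228a1ff71ff506) (nat_lit 0x300004ea00) (nat_lit 51))
 (.p (nat_lit 0x42d8561502) (nat_lit 0x200720) (nat_lit 29)))
 (.n (.p (nat_lit 0x10d4515b02) (nat_lit 0x300407) (nat_lit 29))
 (.p (nat_lit 0x5d571add02) (nat_lit 0x260080000800) (nat_lit 38)))))
 (.n (.n (.n (.p (nat_lit 0x145e145c145a14581456122706) (nat_lit 0x1000004e500) (nat_lit 51))
 (.p (nat_lit 0x4980465102) (nat_lit 0x61a) (nat_lit 4)))
 (.n (.p (nat_lit 0x1959168d02) (nat_lit 0x605) (nat_lit 15))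
 (.p (nat_lit 0x5cd95dcb02) (nat_lit 0x140020000100) (nat_lit 36))))
 (.n (.n (.p (nat_lit 0x63302b02) (nat_lit 0x540302) (nat_lit 30))
 (.p (nat_lit 0x3dfc3dfa3df83df43df203ff3df707) (nat_lit 0x240127) (nat_lit 7)))
 (.n (.p (nat_lit 0x50434fd902) (nat_lit 0x50070d) (nat_lit 15))
 (.p (nat_lit 0x1da85ff502) (nat_lit 0x306a81c35000300000600) (nat_lit 49))))))
 (.n (.n (.n (.n (.p (nat_lit 0xd560d540d500d4e0b390b3306) (nat_lit 0x1200000a300) (nat_lit 52))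
 (.p (nat_lit 0x36ee36ec36ea36e836e41d4f06) (nat_lit 0x10000c0815) (nat_lit 52)))
 (.n (.p (nat_lit 0x426f17f902) (nat_lit 0x342604) (nat_lit 16))
 (.p (nat_lit 0x18e018a018801860141022b06) (nat_lit 0x414209) (nat_lit 26))))
 (.n (.n (.p (nat_lit 0x3800510049174d15db05) (nat_lit 0xa9900801) (nat_lit 9))
 (.p (nat_lit 0xf280f260f220f200cb10cab06) (nat_lit 0x120000d2223) (nat_lit 51)))
 (.n (.p (nat_lit 0x1a341a321a301a2e1a2c309506) (nat_lit 0x10000054309) (nat_lit 51))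
 (.p (nat_lit 0x233c5ee902) (nat_lit 0x4a8866344000500000600) (nat_lit 49)))))
 (.n (.n (.n (.p (nat_lit 0x1bc01bbe1bba1bb818ff18f906) (nat_lit 0x4800096800) (nat_lit 51))
 (.p (nat_lit 0x1c051bf902) (nat_lit 0x30a81c) (nat_lit 16)))
 (.n (.p (nat_lit 0x4fe5196f02) (nat_lit 0x502706) (nat_lit 16))
 (.p (nat_lit 0x5d3b5e2d02) (nat_lit 0x120060000500) (nat_lit 36))))
 (.n (.n (.p (nat_lit 0x8935d902) (nat_lit 0x140103) (nat_lit 30))
 (.p (nat_lit 0xf8412ed02) (nat_lit 0x24032a) (nat_lit 5)))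
 (.n (.p (nat_lit 0x22e122d502) (nat_lit 0x146a0e) (nat_lit 16))
 (.p (nat_lit 0x206c60f502) (nat_lit 0x440d623a4000400000600) (nat_lit 49))))))

def c512_350 : Tr := .n c1024_350 c1024_862

def c256_94 : Tr := .n c512_94 c512_350

def c1024_222 : Tr :=
 .n (.n (.n (.n (.n (.n (.p (nat_lit 0xdb00d900c900c404) (nat_lit 0x56000004) (nat_lit 20))
 (.p (nat_lit 0x2340615302) (nat_lit 0x1503a8895800500000600) (nat_lit 50)))
 (.p (nat_lit 0x3281327502) (nat_lit 0x446510) (nat_lit 16)))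
 (.n (.p (nat_lit 0x13c01ccf02) (nat_lit 0x300503) (nat_lit 5))
 (.p (nat_lit 0x245521a102) (nat_lit 0x200a2a) (nat_lit 15))))
 (.n (.n (.p (nat_lit 0x1e4e1e4c1e4a1e441bc71bc506) (nat_lit 0x300000c900) (nat_lit 52))
 (.p (nat_lit 0xd4c0d4a0d480d460d422baf06) (nat_lit 0x100008291d) (nat_lit 51)))
 (.n (.p (nat_lit 0x1200125013f2407255d05) (nat_lit 0x22500906) (nat_lit 9))
 (.p (nat_lit 0x5d9d5e4f02) (nat_lit 0x1000a0000600) (nat_lit 36)))))
 (.n (.n (.n (.p (nat_lit 0x10020ffe0ffc0ffa0ff80dfd06) (nat_lit 0x8000080400) (nat_lit 52))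
 (.p (nat_lit 0x327a2f6102) (nat_lit 0x140517) (nat_lit 4)))
 (.n (.p (nat_lit 0x22922290228e228c228a25d506) (nat_lit 0x1000004eb04) (nat_lit 51))
 (.p (nat_lit 0x2865b7502) (nat_lit 0x30071a) (nat_lit 27))))
 (.n (.n (.p (nat_lit 0x64a0648064606440640204906) (nat_lit 0x10000c0901) (nat_lit 51))
 (.p (nat_lit 0x230922fd02) (nat_lit 0x340a23) (nat_lit 16)))
 (.n (.p (nat_lit 0x2cae2caa2ca82ca62ca43a9306) (nat_lit 0x800000660a) (nat_lit 52))
 (.p (nat_lit 0x1db65f5502) (nat_lit 0x1a2522350000300000600) (nat_lit 50))))))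
 (.n (.n (.n (.n (.p (nat_lit 0x8f908ed02) (nat_lit 0x240100) (nat_lit 34))
 (.p (nat_lit 0x287541302) (nat_lit 0x300415) (nat_lit 30)))
 (.n (.p (nat_lit 0xbb3e9102) (nat_lit 0x340204) (nat_lit 30))
 (.p (nat_lit 0x1418141614121410140e507b06) (nat_lit 0x4000082830) (nat_lit 51))))
 (.n (.n (.p (nat_lit 0x255c255a2556255422c122bb06) (nat_lit 0x4800052b00) (nat_lit 52))
 (.p (nat_lit 0xe8c0e8a0e880e860e84506706) (nat_lit 0x10000000822) (nat_lit 51)))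
 (.n (.p (nat_lit 0x1c0b1bcf02) (nat_lit 0x8807) (nat_lit 16))
 (.p (nat_lit 0x5c97207702) (nat_lit 0x260000000a00) (nat_lit 40)))))
 (.n (.n (.n (.p (nat_lit 0x177817721770176e16b916b706) (nat_lit 0xc0000d2600) (nat_lit 52))
 (.p (nat_lit 0x129c129a129812961294073f06) (nat_lit 0x1000004a01c) (nat_lit 52)))
 (.n (.p (nat_lit 0x1dda1dd81dd41dd21dd01c2906) (nat_lit 0x4000002805) (nat_lit 51))
 (.p (nat_lit 0x5d610baf02) (nat_lit 0x1c0080000200) (nat_lit 39))))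
 (.n (.n (.p (nat_lit 0x5b331902) (nat_lit 0x100a02) (nat_lit 30))
 (.p (nat_lit 0x4d4b4c8d02) (nat_lit 0x340129) (nat_lit 15)))
 (.n (.p (nat_lit 0x123e092f02) (nat_lit 0x54040e) (nat_lit 4))
 (.p (nat_lit 0x207a605302) (nat_lit 0x40a962335000400000600) (nat_lit 50))))))

def c1024_734 : Tr :=
 .n (.n (.n (.n (.n (.n (.p (nat_lit 0x4ee04ec04ea04e804e604e506) (nat_lit 0x10000004000) (nat_lit 52))
 (.p (nat_lit 0x1ae461d102) (nat_lit 0x54216ac0c800200000600) (nat_lit 50)))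
 (.p (nat_lit 0x4279426d02) (nat_lit 0x246612) (nat_lit 16)))
 (.n (.p (nat_lit 0x12a812a612a412a02473246b06) (nat_lit 0x1100000ab03) (nat_lit 51))
 (.p (nat_lit 0x1c741c721c701c6e1c6c375b06) (nat_lit 0x80004222d) (nat_lit 52))))
 (.n (.n (.p (nat_lit 0x21a11e9102) (nat_lit 0x20aa00) (nat_lit 16))
 (.p (nat_lit 0x3d6c3fd102) (nat_lit 0x400120) (nat_lit 4)))
 (.n (.p (nat_lit 0xbb00bae0baa0ba80ba60f6f06) (nat_lit 0x40000c4307) (nat_lit 52))
 (.p (nat_lit 0x5d071ae502) (nat_lit 0x160040000800) (nat_lit 40)))))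
 (.n (.n (.n (.p (nat_lit 0x13a710c702) (nat_lit 0x20c500) (nat_lit 16))
 (.p (nat_lit 0x43103e5902) (nat_lit 0x140719) (nat_lit 5)))
 (.n (.p (nat_lit 0x13e113d502) (nat_lit 0x10c505) (nat_lit 16))
 (.p (nat_lit 0x5d3b5dbd02) (nat_lit 0x120060000000) (nat_lit 36))))
 (.n (.n (.p (nat_lit 0x5b2f4902) (nat_lit 0x140202) (nat_lit 30))
 (.p (nat_lit 0x3b46576102) (nat_lit 0x40a26) (nat_lit 29)))
 (.n (.p (nat_lit 0x4a0d49d302) (nat_lit 0x50870c) (nat_lit 16))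
 (.p (nat_lit 0x233a5fd302) (nat_lit 0x95a32b05000500000600) (nat_lit 49))))))
 (.n (.n (.n (.n (.p (nat_lit 0xcd109d302) (nat_lit 0x34e200) (nat_lit 16))
 (.p (nat_lit 0x19221920191e191c02ac028b02891927192509) (nat_lit 0x2c00715) (nat_lit 10)))
 (.n (.p (nat_lit 0x17f21e5102) (nat_lit 0x40604) (nat_lit 5))
 (.p (nat_lit 0x11c0118011601140009041d06) (nat_lit 0x2010406) (nat_lit 26))))
 (.n (.n (.p (nat_lit 0x14ef124f02) (nat_lit 0x140401) (nat_lit 15))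
 (.p (nat_lit 0x30e0b4f02) (nat_lit 0x400223) (nat_lit 1)))
 (.n (.p (nat_lit 0x2c5e26b502) (nat_lit 0x240a08) (nat_lit 4))
 (.p (nat_lit 0x1aea5ecf02) (nat_lit 0x4a1a34344000200000600) (nat_lit 50)))))
 (.n (.n (.n (.p (nat_lit 0x1ae31ad702) (nat_lit 0x100800) (nat_lit 34))
 (.p (nat_lit 0x19321930192e192c19280309192b07) (nat_lit 0x10071c) (nat_lit 7)))
 (.n (.p (nat_lit 0x4efc4efa4ef64ef44ef2128f06) (nat_lit 0x4000050406) (nat_lit 52))
 (.p (nat_lit 0x5e203ba502) (nat_lit 0xa0010400) (nat_lit 47))))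
 (.n (.n (.p (nat_lit 0x34c3060902) (nat_lit 0x206003) (nat_lit 16))
 (.p (nat_lit 0x1db61db41db21db01dae0cb306) (nat_lit 0x80005222a) (nat_lit 51)))
 (.n (.p (nat_lit 0x1ea6533702) (nat_lit 0x10090e) (nat_lit 29))
 (.p (nat_lit 0x63460d702) (nat_lit 0x354a623b0000000040000) (nat_lit 49))))))

def c512_222 : Tr := .n c1024_222 c1024_734

def c1024_478 : Tr :=
 .n (.n (.n (.n (.n (.n (.p (nat_lit 0x2b802b602b202bb04) (nat_lit 0x1a000400016) (nat_lit 17))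
 (.p (nat_lit 0x2336618f02) (nat_lit 0x3422a5c14800500000600) (nat_lit 49)))
 (.p (nat_lit 0x2e882e862e842e823a9b3a9706) (nat_lit 0x2800092611) (nat_lit 51)))
 (.n (.p (nat_lit 0x1a5a1a581a561a541a5017e906) (nat_lit 0x10000d6603) (nat_lit 52))
 (.p (nat_lit 0x2f3e319702) (nat_lit 0x20022c) (nat_lit 4))))
 (.n (.n (.p (nat_lit 0x1fd81fd41fd21fd01d311d2906) (nat_lit 0x88000ce900) (nat_lit 52))
 (.p (nat_lit 0x3637354d02) (nat_lit 0x24001f) (nat_lit 15)))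
 (.n (.p (nat_lit 0x14e0157015b066704f505) (nat_lit 0x81140207) (nat_lit 9))
 (.p (nat_lit 0x5d75181f02) (nat_lit 0x80080000700) (nat_lit 40)))))
 (.n (.n (.n (.p (nat_lit 0x119811961190118e0f630f6106) (nat_lit 0x60000c4400) (nat_lit 52))
 (.p (nat_lit 0x3b02369f02) (nat_lit 0x400a18) (nat_lit 4)))
 (.n (.p (nat_lit 0xcf80cf60cf40cf20cee00e50cf107) (nat_lit 0x140205) (nat_lit 7))
 (.p (nat_lit 0x43e043c0438043403a7000306) (nat_lit 0x190622a) (nat_lit 26))))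
 (.n (.n (.p (nat_lit 0x2568256625642562255e231106) (nat_lit 0x10000d2a01) (nat_lit 52))
 (.p (nat_lit 0x2da8311302) (nat_lit 0x40025) (nat_lit 5)))
 (.n (.p (nat_lit 0x50605040502050004fe421f06) (nat_lit 0x1000000660b) (nat_lit 52))
 (.p (nat_lit 0x1db05f9102) (nat_lit 0x581a303a5000300000600) (nat_lit 50))))))
 (.n (.n (.n (.n (.p (nat_lit 0xa920a900a8e0a8c087b087906) (nat_lit 0x1800000a200) (nat_lit 52))
 (.p (nat_lit 0x1f1a1f161f141f101393138d06) (nat_lit 0x9000092515) (nat_lit 51)))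
 (.n (.p (nat_lit 0x13c6411702) (nat_lit 0x504) (nat_lit 29))
 (.p (nat_lit 0x90008c008a00880009034f06) (nat_lit 0x2016303) (nat_lit 26))))
 (.n (.n (.p (nat_lit 0xa110a0502) (nat_lit 0x450101) (nat_lit 16))
 (.p (nat_lit 0x6480646064406420640089306) (nat_lit 0x10000080123) (nat_lit 51)))
 (.n (.p (nat_lit 0x14551dd02) (nat_lit 0x240b07) (nat_lit 30))
 (.p (nat_lit 0x5eae4b8502) (nat_lit 0x46b00) (nat_lit 48)))))
 (.n (.n (.n (.p (nat_lit 0x193b162702) (nat_lit 0x308700) (nat_lit 16))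
 (.p (nat_lit 0xc3a0c380c360c3409dd09db06) (nat_lit 0x300005011c) (nat_lit 51)))
 (.n (.p (nat_lit 0xba508e702) (nat_lit 0x500106) (nat_lit 15))
 (.p (nat_lit 0x5da50d1d02) (nat_lit 0x800a0000300) (nat_lit 40))))
 (.n (.n (.p (nat_lit 0x21e221de21da21d82323231f06) (nat_lit 0xa0000d4a02) (nat_lit 51))
 (.p (nat_lit 0x6620660065e065c065809f306) (nat_lit 0x100004412a) (nat_lit 51)))
 (.n (.p (nat_lit 0x14d514c902) (nat_lit 0x4650e) (nat_lit 16))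
 (.p (nat_lit 0x2076609102) (nat_lit 0x342221ca4000400000600) (nat_lit 50))))))

def c1024_990 : Tr :=
 .n (.n (.n (.n (.n (.p (nat_lit 0x6ea06e806e606e4064f064d06) (nat_lit 0x18000d2000) (nat_lit 52))
 (.p (nat_lit 0x4fa24bcd02) (nat_lit 0x140514) (nat_lit 5)))
 (.n (.p (nat_lit 0x3c263c243c223c203c1e061506) (nat_lit 0x2000086004) (nat_lit 51))
 (.p (nat_lit 0x39d039ce39ca39c839c6432906) (nat_lit 0x400005672e) (nat_lit 52))))
 (.n (.n (.p (nat_lit 0x2360235c235a2356215d215706) (nat_lit 0x9000080b00) (nat_lit 52))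
 (.p (nat_lit 0x2fc451502) (nat_lit 0x500121) (nat_lit 1)))
 (.n (.p (nat_lit 0x12c212c012bc12ba122f122906) (nat_lit 0x48000c2407) (nat_lit 52))
 (.p (nat_lit 0x5ce11f0702) (nat_lit 0xc0020000900) (nat_lit 39)))))
 (.n (.n (.n (.p (nat_lit 0x159c159a159815921551154f06) (nat_lit 0x3000006600) (nat_lit 52))
 (.p (nat_lit 0x252c252a2528252625224faf06) (nat_lit 0x100004e51b) (nat_lit 51)))
 (.n (.p (nat_lit 0x12aa12a812a612a212a0195d06) (nat_lit 0x200000a705) (nat_lit 51))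
 (.p (nat_lit 0x5d6d079d02) (nat_lit 0x100080000100) (nat_lit 38))))
 (.n (.n (.p (nat_lit 0x31b431b231b031ae31aa13b106) (nat_lit 0x1000086502) (nat_lit 51))
 (.p (nat_lit 0x439640ef02) (nat_lit 0x240b27) (nat_lit 5)))
 (.n (.p (nat_lit 0xe160e140e100e0c01fe01ed01e90e130e0f09) (nat_lit 0x190030e) (nat_lit 10))
 (.p (nat_lit 0x2495248121db21d31f151f0f1c471c431983197316af169d60140d) (nat_lit 0x405aa2335000000040600) (nat_lit 33))))))
 (.n (.n (.n (.n (.p (nat_lit 0xe7d0e7102) (nat_lit 0x240300) (nat_lit 34))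
 (.p (nat_lit 0x2437218302) (nat_lit 0x500a15) (nat_lit 15)))
 (.n (.p (nat_lit 0x42e7195302) (nat_lit 0x308704) (nat_lit 16))
 (.p (nat_lit 0x1f001ee01e801e60261000706) (nat_lit 0x131440e) (nat_lit 26))))
 (.n (.n (.p (nat_lit 0x332b4702) (nat_lit 0x440801) (nat_lit 30))
 (.p (nat_lit 0x3a956e502) (nat_lit 0x440723) (nat_lit 30)))
 (.n (.p (nat_lit 0x33802cdd02) (nat_lit 0x540a09) (nat_lit 5))
 (.p (nat_lit 0x1db65f1302) (nat_lit 0x3aa570344000300000600) (nat_lit 50)))))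
 (.n (.n (.n (.p (nat_lit 0x1c8a1c881c861c821a671a5f06) (nat_lit 0x11000044800) (nat_lit 52))
 (.p (nat_lit 0x3ff43ff23ff03fee3fec202306) (nat_lit 0x8000cc91c) (nat_lit 52)))
 (.n (.p (nat_lit 0xd100d0c0d0a0d080d061c3706) (nat_lit 0x8000006806) (nat_lit 52))
 (.p (nat_lit 0x5caf169902) (nat_lit 0xe0000000600) (nat_lit 39))))
 (.n (.n (.p (nat_lit 0x3740373e373c373a37380cdf06) (nat_lit 0x80000d6203) (nat_lit 52))
 (.p (nat_lit 0x2a542a522a502a4e2a4a17dd06) (nat_lit 0x10000d062a) (nat_lit 51)))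
 (.n (.p (nat_lit 0x15fa15f615f415f215f02a1106) (nat_lit 0x800005240f) (nat_lit 52))
 (.p (nat_lit 0x181e611902) (nat_lit 0x342521ca4000100000600) (nat_lit 50))))))

def c512_478 : Tr := .n c1024_478 c1024_990

def c256_222 : Tr := .n c512_222 c512_478

def c128_94 : Tr := .n c256_94 c256_222

def c64_30 : Tr := .n c128_30 c128_94

def c1024_62 : Tr :=
 .n (.n (.n (.n (.n (.n (.p (nat_lit 0x4d003f003803) (nat_lit 0x41800001) (nat_lit 19))
 (.p (nat_lit 0x13fc612f02) (nat_lit 0x35486a1b0000500040000) (nat_lit 50)))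
 (.p (nat_lit 0x2b9e279502) (nat_lit 0x50090f) (nat_lit 5)))
 (.n (.p (nat_lit 0x380838063804380238000fa506) (nat_lit 0x8000c0303) (nat_lit 52))
 (.p (nat_lit 0x1c12147502) (nat_lit 0x40082a) (nat_lit 4))))
 (.n (.n (.p (nat_lit 0x1d181d161d141d121d101a6706) (nat_lit 0x10000056800) (nat_lit 51))
 (.p (nat_lit 0x46ba46b846b446b246b022f106) (nat_lit 0x40000c0a1c) (nat_lit 51)))
 (.n (.p (nat_lit 0x1d9c1d9a1d981d961d94011d1d9f07) (nat_lit 0x540806) (nat_lit 7))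
 (.p (nat_lit 0x5cc316a702) (nat_lit 0x2a0020000600) (nat_lit 41)))))
 (.n (.n (.n (.p (nat_lit 0xeec0eea0ee60ee40c990c9306) (nat_lit 0x1200004e300) (nat_lit 52))
 (.p (nat_lit 0x54b254b054ae54ac54aa54a8028e258b258525830a) (nat_lit 0x10840b15) (nat_lit 31)))
 (.n (.p (nat_lit 0x247e247c247a2478247600b5247507) (nat_lit 0xb04) (nat_lit 7))
 (.p (nat_lit 0x5ada5ad85ad65ad45ad2019b022e07) (nat_lit 0x10a910) (nat_lit 25))))
 (.n (.n (.p (nat_lit 0x1eea15fb02) (nat_lit 0x500901) (nat_lit 4))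
 (.p (nat_lit 0x1d6e11d902) (nat_lit 0x540823) (nat_lit 4)))
 (.n (.p (nat_lit 0x358a3586358435823580374b06) (nat_lit 0x80000c820a) (nat_lit 51))
 (.p (nat_lit 0x11465f2302) (nat_lit 0x3a2560b44000400040000) (nat_lit 50))))))
 (.n (.n (.n (.n (.p (nat_lit 0x5c207a702) (nat_lit 0x300100) (nat_lit 5))
 (.p (nat_lit 0x5cc0a6102) (nat_lit 0x200015) (nat_lit 5)))
 (.n (.p (nat_lit 0x3d223d203d1e3d1c3d1a3d1806) (nat_lit 0x8104) (nat_lit 52))
 (.p (nat_lit 0x2116211421122110210c468f06) (nat_lit 0x100004c22f) (nat_lit 52))))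
 (.n (.n (.p (nat_lit 0x2421215502) (nat_lit 0x2b00) (nat_lit 16))
 (.p (nat_lit 0xe9a0e960e940e920e904a4506) (nat_lit 0x80000c0721) (nat_lit 52)))
 (.n (.p (nat_lit 0x3ac5179f02) (nat_lit 0x50607) (nat_lit 16))
 (.p (nat_lit 0x5e86420702) (nat_lit 0x40044900) (nat_lit 48)))))
 (.n (.n (.n (.p (nat_lit 0x165b155702) (nat_lit 0x506600) (nat_lit 16))
 (.p (nat_lit 0x4d804d204d004ce05dd05db06) (nat_lit 0xc00000001c) (nat_lit 51)))
 (.n (.p (nat_lit 0x4cc04ca04c804c604c21abf06) (nat_lit 0x1000040705) (nat_lit 52))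
 (.p (nat_lit 0x5c930a4502) (nat_lit 0x2a0000000200) (nat_lit 38))))
 (.n (.n (.p (nat_lit 0x1ef61ef41ef01eee006e005f00591ef31eed09) (nat_lit 0x1800902) (nat_lit 10))
 (.p (nat_lit 0x2146214421422140213c458906) (nat_lit 0x1000050128) (nat_lit 51)))
 (.n (.p (nat_lit 0xaa20a9e0a9c0a9a0a980f7d06) (nat_lit 0x80000ca30e) (nat_lit 51))
 (.p (nat_lit 0x1db0602d02) (nat_lit 0x406a62335000300000600) (nat_lit 50))))))

def c1024_574 : Tr :=
 .n (.n (.n (.n (.n (.n (.p (nat_lit 0x38c038a0388039104) (nat_lit 0xe000400021) (nat_lit 17))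
 (.p (nat_lit 0x1f1661a902) (nat_lit 0x340b8ac64000300040600) (nat_lit 50)))
 (.p (nat_lit 0x40843d9302) (nat_lit 0x100412) (nat_lit 5)))
 (.n (.p (nat_lit 0x1e8a1e861e841e821e8021c906) (nat_lit 0x8000096a03) (nat_lit 52))
 (.p (nat_lit 0x331431c902) (nat_lit 0x54092c) (nat_lit 5))))
 (.n (.n (.p (nat_lit 0x1e92207d02) (nat_lit 0x300a00) (nat_lit 5))
 (.p (nat_lit 0x3663b3f02) (nat_lit 0x240a1f) (nat_lit 1)))
 (.n (.p (nat_lit 0x147514f02) (nat_lit 0x300307) (nat_lit 30))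
 (.p (nat_lit 0x5d8f181502) (nat_lit 0x1e00a0000700) (nat_lit 38)))))
 (.n (.n (.n (.p (nat_lit 0x10cc10ca10c810c610c4000110c307) (nat_lit 0x500) (nat_lit 7))
 (.p (nat_lit 0xb6419502) (nat_lit 0x100519) (nat_lit 1)))
 (.n (.p (nat_lit 0xe346ff02) (nat_lit 0x40305) (nat_lit 30))
 (.p (nat_lit 0x4995c8302) (nat_lit 0x50062d) (nat_lit 28))))
 (.n (.n (.p (nat_lit 0x2d1e2d1a2d162d140761075d06) (nat_lit 0xa000044002) (nat_lit 51))
 (.p (nat_lit 0x33ac316102) (nat_lit 0x340a25) (nat_lit 5)))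
 (.n (.p (nat_lit 0x528a5288528652845282528001d007) (nat_lit 0x20c) (nat_lit 8))
 (.p (nat_lit 0xa585fa502) (nat_lit 0x588bb0344000200000000) (nat_lit 50))))))
 (.n (.n (.n (.n (.p (nat_lit 0x9cc0ba702) (nat_lit 0x40200) (nat_lit 4))
 (.p (nat_lit 0x1548154615441542154014df06) (nat_lit 0x1000004c515) (nat_lit 51)))
 (.n (.p (nat_lit 0x41e041de41dc41da1513151106) (nat_lit 0x18000cc504) (nat_lit 51))
 (.p (nat_lit 0xb7597502) (nat_lit 0x100704) (nat_lit 28))))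
 (.n (.n (.p (nat_lit 0xcfb0cbf02) (nat_lit 0x54201) (nat_lit 16))
 (.p (nat_lit 0x3d75088d02) (nat_lit 0x212123) (nat_lit 16)))
 (.n (.p (nat_lit 0x1776177417721770176e28d506) (nat_lit 0x10000092308) (nat_lit 52))
 (.p (nat_lit 0x5d2f249302) (nat_lit 0x1e0060000b00) (nat_lit 41)))))
 (.n (.n (.n (.p (nat_lit 0x19e219e019dc19da179b179706) (nat_lit 0xa0000c6700) (nat_lit 51))
 (.p (nat_lit 0x39f9139902) (nat_lit 0x11051c) (nat_lit 16)))
 (.n (.p (nat_lit 0xd04239102) (nat_lit 0x540206) (nat_lit 4))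
 (.p (nat_lit 0x5cc90fe302) (nat_lit 0x240020000400) (nat_lit 40))))
 (.n (.n (.p (nat_lit 0x15e215e015de15da15d8246106) (nat_lit 0x2000010b02) (nat_lit 52))
 (.p (nat_lit 0xe760e740e720e700e6c0b5506) (nat_lit 0x100008622a) (nat_lit 52)))
 (.n (.p (nat_lit 0x2e1a2e182e162e142e12191106) (nat_lit 0x80001670e) (nat_lit 51))
 (.p (nat_lit 0xe7260a702) (nat_lit 0x356068ca4000300040000) (nat_lit 49))))))

def c512_62 : Tr := .n c1024_62 c1024_574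

def c1024_318 : Tr :=
 .n (.n (.n (.n (.n (.n (.p (nat_lit 0x14801420140014d04) (nat_lit 0x9800400007) (nat_lit 17))
 (.p (nat_lit 0x13ec616b02) (nat_lit 0x421aa4395000500040000) (nat_lit 49)))
 (.p (nat_lit 0x33e033dc33da33d833d6022b33df07) (nat_lit 0x400b10) (nat_lit 7)))
 (.n (.p (nat_lit 0x167a1ce702) (nat_lit 0x300603) (nat_lit 4))
 (.p (nat_lit 0x281c2a2d02) (nat_lit 0x20022b) (nat_lit 4))))
 (.n (.n (.p (nat_lit 0x1ec91bc302) (nat_lit 0x8900) (nat_lit 16))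
 (.p (nat_lit 0x2f7e2f7c2f7a2f762f742e2b06) (nat_lit 0x200001411e) (nat_lit 51)))
 (.n (.p (nat_lit 0x51225120511e511c511a5118012020672061205f0a) (nat_lit 0x10840906) (nat_lit 31))
 (.p (nat_lit 0x5ce5197f02) (nat_lit 0x80020000700) (nat_lit 41)))))
 (.n (.n (.n (.p (nat_lit 0x10981096109410920dff0dfd06) (nat_lit 0x18000014400) (nat_lit 52))
 (.p (nat_lit 0xa660a640a620a600a5e338f06) (nat_lit 0x800040a17) (nat_lit 51)))
 (.n (.p (nat_lit 0xe5441d02) (nat_lit 0x140005) (nat_lit 30))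
 (.p (nat_lit 0x36c0368036603620309040306) (nat_lit 0xc0c520) (nat_lit 26))))
 (.n (.n (.p (nat_lit 0x2c0b205102) (nat_lit 0x546901) (nat_lit 16))
 (.p (nat_lit 0x4f084f064f044f004efe259f06) (nat_lit 0x20000d0b23) (nat_lit 52)))
 (.n (.p (nat_lit 0x3bc6353902) (nat_lit 0x440b0a) (nat_lit 4))
 (.p (nat_lit 0x20725f6d02) (nat_lit 0x3aa074b44000400000600) (nat_lit 49))))))
 (.n (.n (.n (.n (.p (nat_lit 0x9b209b009ae09a80721071f06) (nat_lit 0x30000d4100) (nat_lit 52))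
 (.p (nat_lit 0x124a12461244124212400289124907) (nat_lit 0x440415) (nat_lit 7)))
 (.n (.p (nat_lit 0xe5f0e5302) (nat_lit 0x516304) (nat_lit 16))
 (.p (nat_lit 0x6258c902) (nat_lit 0x500801) (nat_lit 27))))
 (.n (.n (.p (nat_lit 0x5f416c502) (nat_lit 0x400001) (nat_lit 4))
 (.p (nat_lit 0x5ea05e605e405e203b803a903a105e905e109) (nat_lit 0x2000023) (nat_lit 10)))
 (.n (.p (nat_lit 0x2008058b02) (nat_lit 0x540907) (nat_lit 5))
 (.p (nat_lit 0x5d115e9d02) (nat_lit 0xc0040000a00) (nat_lit 36)))))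
 (.n (.n (.n (.p (nat_lit 0x1626181d02) (nat_lit 0x300700) (nat_lit 5))
 (.p (nat_lit 0x314032503210d370e9d05) (nat_lit 0x6680011c) (nat_lit 9)))
 (.n (.p (nat_lit 0x1f841f821f801f7e1f7c1d9306) (nat_lit 0x10000048805) (nat_lit 51))
 (.p (nat_lit 0x5ce15dfb02) (nat_lit 0xc0020000300) (nat_lit 37))))
 (.n (.n (.p (nat_lit 0x1f181f161f141f121f1021bf06) (nat_lit 0x10000092a02) (nat_lit 51))
 (.p (nat_lit 0x100e100c100a1006100450c106) (nat_lit 0x2000042829) (nat_lit 52)))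
 (.n (.p (nat_lit 0x3173123502) (nat_lit 0x4e40e) (nat_lit 16))
 (.p (nat_lit 0x1400606902) (nat_lit 0x588172b40800500040000) (nat_lit 50))))))

def c1024_830 : Tr :=
 .n (.n (.n (.n (.n (.n (.p (nat_lit 0x5ba05b805b605b404dd04db06) (nat_lit 0x1800096000) (nat_lit 51))
 (.p (nat_lit 0x1c3c61e702) (nat_lit 0x3422b0d64000200040600) (nat_lit 49)))
 (.p (nat_lit 0x22a0229e229c229a2296484d06) (nat_lit 0x10000ce413) (nat_lit 52)))
 (.n (.p (nat_lit 0x9400a7009b1bbb1d2105) (nat_lit 0x84240b03) (nat_lit 9))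
 (.p (nat_lit 0x3c023a6302) (nat_lit 0x440b2d) (nat_lit 5))))
 (.n (.n (.p (nat_lit 0x225822562250224e1ff91ff706) (nat_lit 0x60000c8a00) (nat_lit 52))
 (.p (nat_lit 0x42863f6d02) (nat_lit 0x340620) (nat_lit 5)))
 (.n (.p (nat_lit 0x40130f6d02) (nat_lit 0x252307) (nat_lit 16))
 (.p (nat_lit 0x5d6d5e7902) (nat_lit 0x100080000800) (nat_lit 37)))))
 (.n (.n (.n (.p (nat_lit 0x1430142c142a14281426122506) (nat_lit 0x80000c4500) (nat_lit 52))
 (.p (nat_lit 0x229e229c229a2298229648c706) (nat_lit 0x1000008e51a) (nat_lit 52)))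
 (.n (.p (nat_lit 0x24ae24aa24a824a41695168f06) (nat_lit 0x9000080605) (nat_lit 51))
 (.p (nat_lit 0x5c975dc702) (nat_lit 0x260000000100) (nat_lit 36))))
 (.n (.n (.p (nat_lit 0x300d0e3302) (nat_lit 0x100302) (nat_lit 16))
 (.p (nat_lit 0x3d7840ad02) (nat_lit 0x400127) (nat_lit 5)))
 (.n (.p (nat_lit 0x4f164b5302) (nat_lit 0x14040d) (nat_lit 4))
 (.p (nat_lit 0x15385fed02) (nat_lit 0x306a81d31000000000600) (nat_lit 49))))))
 (.n (.n (.n (.n (.p (nat_lit 0xd400d3e0d3a0d380d360b3506) (nat_lit 0x4000002300) (nat_lit 51))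
 (.p (nat_lit 0x1eb91bef02) (nat_lit 0x400815) (nat_lit 15)))
 (.n (.p (nat_lit 0x198619821980197e197c17fb06) (nat_lit 0x80000ce604) (nat_lit 51))
 (.p (nat_lit 0x14b5a1b02) (nat_lit 0x500a07) (nat_lit 28))))
 (.n (.n (.p (nat_lit 0x2ad42ad22ad02ace2acc14f706) (nat_lit 0x100000d2501) (nat_lit 52))
 (.p (nat_lit 0xd280d240d220d200d1e0caf06) (nat_lit 0x8000040223) (nat_lit 52)))
 (.n (.p (nat_lit 0x1a581a561a541a521a50301506) (nat_lit 0x10000096309) (nat_lit 52))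
 (.p (nat_lit 0xa445ee102) (nat_lit 0x4a8d84344000200000000) (nat_lit 49)))))
 (.n (.n (.n (.p (nat_lit 0x1b9c1b9a1b981b9218fd18fb06) (nat_lit 0x3000014800) (nat_lit 52))
 (.p (nat_lit 0x1bf80d9d02) (nat_lit 0x30081c) (nat_lit 5)))
 (.n (.p (nat_lit 0x16e616e416e216de196f196706) (nat_lit 0x11000082706) (nat_lit 51))
 (.p (nat_lit 0x5cf713fb02) (nat_lit 0x260040000500) (nat_lit 41))))
 (.n (.n (.p (nat_lit 0x357e357c357a35783576357406) (nat_lit 0x8103) (nat_lit 52))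
 (.p (nat_lit 0x11a4119e119c119a0e210e1f06) (nat_lit 0xc00000c32a) (nat_lit 51)))
 (.n (.p (nat_lit 0x22d209a902) (nat_lit 0x40a0e) (nat_lit 4))
 (.p (nat_lit 0x13fe60ef02) (nat_lit 0x440d6a3a4000500040000) (nat_lit 50))))))

def c512_318 : Tr := .n c1024_318 c1024_830

def c256_62 : Tr := .n c512_62 c512_318

def c1024_190 : Tr :=
 .n (.n (.n (.n (.n (.n (.p (nat_lit 0xbe00bc00ba00c104) (nat_lit 0x1c000400004) (nat_lit 17))
 (.p (nat_lit 0x1986614f02) (nat_lit 0x3503a0d84000100040600) (nat_lit 50)))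
 (.p (nat_lit 0x3275317b02) (nat_lit 0x440410) (nat_lit 15)))
 (.n (.p (nat_lit 0x39643962395e395c395a126b06) (nat_lit 0x40000d6403) (nat_lit 51))
 (.p (nat_lit 0x21a0135302) (nat_lit 0x200a2a) (nat_lit 5))))
 (.n (.n (.p (nat_lit 0x1dfc1dfa1df81df61bcd1bc306) (nat_lit 0x10800084900) (nat_lit 51))
 (.p (nat_lit 0x4c07272f02) (nat_lit 0x31411d) (nat_lit 16)))
 (.n (.p (nat_lit 0x1ef850d502) (nat_lit 0x906) (nat_lit 29))
 (.p (nat_lit 0x5d6f16a102) (nat_lit 0xe0080000600) (nat_lit 39)))))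
 (.n (.n (.n (.p (nat_lit 0xfe90fdd02) (nat_lit 0x400400) (nat_lit 34))
 (.p (nat_lit 0x2cf22edb02) (nat_lit 0x17) (nat_lit 5)))
 (.n (.p (nat_lit 0x25d4436502) (nat_lit 0x540b04) (nat_lit 29))
 (.p (nat_lit 0x2f65b5502) (nat_lit 0x200b19) (nat_lit 27))))
 (.n (.n (.p (nat_lit 0x204815ff02) (nat_lit 0x140901) (nat_lit 5))
 (.p (nat_lit 0x2445219102) (nat_lit 0xa23) (nat_lit 15)))
 (.n (.p (nat_lit 0x1a3524302) (nat_lit 0x54040a) (nat_lit 30))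
 (.p (nat_lit 0x248f248b21d921d31f1b1f071c471c431983197516ad16995f440d) (nat_lit 0x1a1d22350000000040600) (nat_lit 33))))))
 (.n (.n (.n (.n (.p (nat_lit 0x8bb05bf02) (nat_lit 0x110100) (nat_lit 16))
 (.p (nat_lit 0x73d073102) (nat_lit 0x448015) (nat_lit 16)))
 (.n (.p (nat_lit 0x3e690b8302) (nat_lit 0x204) (nat_lit 16))
 (.p (nat_lit 0x252a25282526252425224d0706) (nat_lit 0x1000000e230) (nat_lit 51))))
 (.n (.n (.p (nat_lit 0x253825342532253022c322bb06) (nat_lit 0x88000ceb00) (nat_lit 51))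
 (.p (nat_lit 0x33e502902) (nat_lit 0x440722) (nat_lit 1)))
 (.n (.p (nat_lit 0x1bd806c902) (nat_lit 0x500807) (nat_lit 5))
 (.p (nat_lit 0x5d7f5e9102) (nat_lit 0x2e00a0000900) (nat_lit 36)))))
 (.n (.n (.n (.p (nat_lit 0x1760175e175c175616b516b306) (nat_lit 0x30000d0600) (nat_lit 51))
 (.p (nat_lit 0x73c073a07380736032003110307073f073509) (nat_lit 0x284001c) (nat_lit 10)))
 (.n (.p (nat_lit 0xe74a6502) (nat_lit 0x200805) (nat_lit 30))
 (.p (nat_lit 0x5de83bdd02) (nat_lit 0x60050200) (nat_lit 47))))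
 (.n (.n (.p (nat_lit 0x1bc01bbe1bbc1bba1bb8205306) (nat_lit 0x8000d6902) (nat_lit 51))
 (.p (nat_lit 0x4c864e5f02) (nat_lit 0x40129) (nat_lit 5)))
 (.n (.p (nat_lit 0x10eb10df02) (nat_lit 0x20640e) (nat_lit 16))
 (.p (nat_lit 0x1546604d02) (nat_lit 0x406a6254c800000000600) (nat_lit 50))))))

def c1024_702 : Tr :=
 .n (.n (.n (.n (.n (.n (.p (nat_lit 0x4de04c702) (nat_lit 0x200000) (nat_lit 4))
 (.p (nat_lit 0x248461c702) (nat_lit 0x340d89ca4000500040600) (nat_lit 49)))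
 (.p (nat_lit 0x422a3dc502) (nat_lit 0x500612) (nat_lit 4)))
 (.n (.p (nat_lit 0x8f208f008ee08ec08e8246b06) (nat_lit 0x1000082b03) (nat_lit 52))
 (.p (nat_lit 0x495587b02) (nat_lit 0x30022d) (nat_lit 30))))
 (.n (.n (.p (nat_lit 0x215f1e9702) (nat_lit 0x500a00) (nat_lit 15))
 (.p (nat_lit 0x3d063fc302) (nat_lit 0x340020) (nat_lit 4)))
 (.n (.p (nat_lit 0xf6c068102) (nat_lit 0x240307) (nat_lit 4))
 (.p (nat_lit 0x5e6c1ae302) (nat_lit 0x20000800) (nat_lit 46)))))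
 (.n (.n (.n (.p (nat_lit 0x135813521350134e10cb10c906) (nat_lit 0xc000014500) (nat_lit 51))
 (.p (nat_lit 0x54d654d454d254d054ce54cc02f007) (nat_lit 0x719) (nat_lit 8)))
 (.n (.p (nat_lit 0x486c486a486848664864486200ee07) (nat_lit 0x505) (nat_lit 8))
 (.p (nat_lit 0x5cff5db902) (nat_lit 0x1e0040000000) (nat_lit 36))))
 (.n (.n (.p (nat_lit 0x5b2ed102) (nat_lit 0x100202) (nat_lit 30))
 (.p (nat_lit 0x375038a702) (nat_lit 0x140226) (nat_lit 5)))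
 (.n (.p (nat_lit 0x4b824b804b7e4b7c49bb49b506) (nat_lit 0x120000d260c) (nat_lit 52))
 (.p (nat_lit 0x180a5fcf02) (nat_lit 0x9582ec05000100000600) (nat_lit 49))))))
 (.n (.n (.n (.n (.p (nat_lit 0xc8a0c880c860c8209d709cf06) (nat_lit 0x110000d6200) (nat_lit 52))
 (.p (nat_lit 0x427917bb02) (nat_lit 0x252615) (nat_lit 16)))
 (.n (.p (nat_lit 0x1951168502) (nat_lit 0x200604) (nat_lit 15))
 (.p (nat_lit 0x11759c702) (nat_lit 0x200106) (nat_lit 28))))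
 (.n (.n (.p (nat_lit 0x124c15b502) (nat_lit 0x40401) (nat_lit 5))
 (.p (nat_lit 0x364709ed02) (nat_lit 0x450123) (nat_lit 16)))
 (.n (.p (nat_lit 0x32972b8f02) (nat_lit 0x310908) (nat_lit 16))
 (.p (nat_lit 0x4c25ec502) (nat_lit 0x260b84344000000000000) (nat_lit 49)))))
 (.n (.n (.n (.p (nat_lit 0x1a9d179702) (nat_lit 0x248700) (nat_lit 16))
 (.p (nat_lit 0x17c4552f02) (nat_lit 0x14061c) (nat_lit 29)))
 (.n (.p (nat_lit 0x1154eb102) (nat_lit 0x140406) (nat_lit 30))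
 (.p (nat_lit 0x5dab0fdf02) (nat_lit 0x200a0000400) (nat_lit 38))))
 (.n (.n (.p (nat_lit 0x6061aef02) (nat_lit 0x100003) (nat_lit 5))
 (.p (nat_lit 0x12aa12a812a612a212a00cb706) (nat_lit 0x200004a22a) (nat_lit 51)))
 (.n (.p (nat_lit 0x1d4a533302) (nat_lit 0x54080e) (nat_lit 29))
 (.p (nat_lit 0xbae60d102) (nat_lit 0x35052a3a4000200040000) (nat_lit 49))))))

def c512_190 : Tr := .n c1024_190 c1024_702

def c1024_446 : Tr :=
 .n (.n (.n (.n (.n (.n (.p (nat_lit 0x28a02860282028d04) (nat_lit 0x15000400015) (nat_lit 17))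
 (.p (nat_lit 0x1984618902) (nat_lit 0x340b86c64000100040600) (nat_lit 50)))
 (.p (nat_lit 0x1bc01bbe1bbc1bba1bb8397306) (nat_lit 0x8000d6411) (nat_lit 51)))
 (.n (.p (nat_lit 0x188a188818861882188017eb06) (nat_lit 0x2000048603) (nat_lit 52))
 (.p (nat_lit 0x2c1e2ad302) (nat_lit 0x34092b) (nat_lit 4))))
 (.n (.n (.p (nat_lit 0x1fc01fbe1fbc1fba1fb61d2b06) (nat_lit 0x10000cc900) (nat_lit 52))
 (.p (nat_lit 0x354a380102) (nat_lit 0x14001f) (nat_lit 4)))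
 (.n (.p (nat_lit 0xe0b0b4502) (nat_lit 0x500207) (nat_lit 15))
 (.p (nat_lit 0x5d29181102) (nat_lit 0x240060000700) (nat_lit 38)))))
 (.n (.n (.n (.p (nat_lit 0x11721170116e116c116a0f6706) (nat_lit 0x10000042400) (nat_lit 51))
 (.p (nat_lit 0x3aa2368d02) (nat_lit 0x618) (nat_lit 5)))
 (.n (.p (nat_lit 0xb980b940b920b900b8e00eb0b9707) (nat_lit 0x400205) (nat_lit 7))
 (.p (nat_lit 0x3f15c0f02) (nat_lit 0x200226) (nat_lit 28))))
 (.n (.n (.p (nat_lit 0x2318231623142312003c002d002b2311230f09) (nat_lit 0x840a01) (nat_lit 10))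
 (.p (nat_lit 0x117411721170116e116c2bb906) (nat_lit 0x800002924) (nat_lit 51)))
 (.n (.p (nat_lit 0x40803cb102) (nat_lit 0x50040b) (nat_lit 4))
 (.p (nat_lit 0x2497248921d921d31f151f071c4f1c3b1983197b16a7169d5f8a0d) (nat_lit 0x581a303a5000000040600) (nat_lit 33))))))
 (.n (.n (.n (.n (.p (nat_lit 0xa7e0a7c0a7a0a780a74087306) (nat_lit 0x1000008200) (nat_lit 52))
 (.p (nat_lit 0x13f413f213f013ee13ec138b06) (nat_lit 0x80008a515) (nat_lit 52)))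
 (.n (.p (nat_lit 0x127a12781274127000d000bb00b71277127309) (nat_lit 0x1940404) (nat_lit 10))
 (.p (nat_lit 0x8e008a00880086000b019f06) (nat_lit 0x2b16003) (nat_lit 26))))
 (.n (.n (.p (nat_lit 0x2f274d02) (nat_lit 0x240101) (nat_lit 30))
 (.p (nat_lit 0x44af074702) (nat_lit 0x354023) (nat_lit 16)))
 (.n (.p (nat_lit 0x4b424b404b3e4b3c241b241706) (nat_lit 0x5000006b07) (nat_lit 51))
 (.p (nat_lit 0x5eaa485502) (nat_lit 0xa0042a00) (nat_lit 47)))))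
 (.n (.n (.n (.p (nat_lit 0x18f9162102) (nat_lit 0x700) (nat_lit 15))
 (.p (nat_lit 0x9e20d4d02) (nat_lit 0x54011c) (nat_lit 5)))
 (.n (.p (nat_lit 0x1154b9f02) (nat_lit 0x100106) (nat_lit 30))
 (.p (nat_lit 0x5d690e8102) (nat_lit 0x140080000300) (nat_lit 41))))
 (.n (.n (.p (nat_lit 0x197a1978197619721970231f06) (nat_lit 0x20000cea02) (nat_lit 52))
 (.p (nat_lit 0x9f412bd02) (nat_lit 0x24012a) (nat_lit 4)))
 (.n (.p (nat_lit 0x660065e065c065814d314cb06) (nat_lit 0x1100004450e) (nat_lit 51))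
 (.p (nat_lit 0x642608d02) (nat_lit 0x342221ca4000000040000) (nat_lit 50))))))

def c1024_958 : Tr :=
 .n (.n (.n (.n (.n (.p (nat_lit 0x692068e068a06880655065106) (nat_lit 0xa000048000) (nat_lit 52))
 (.p (nat_lit 0x24122410240e240a24084e9b06) (nat_lit 0x2000092414) (nat_lit 51)))
 (.n (.p (nat_lit 0x6121f1f02) (nat_lit 0x100004) (nat_lit 5))
 (.p (nat_lit 0x429c41db02) (nat_lit 0x24062e) (nat_lit 5))))
 (.n (.n (.p (nat_lit 0x2154233302) (nat_lit 0xb00) (nat_lit 4))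
 (.p (nat_lit 0x44a0471b02) (nat_lit 0x240021) (nat_lit 4)))
 (.n (.p (nat_lit 0x43c123102) (nat_lit 0x440407) (nat_lit 1))
 (.p (nat_lit 0x5cb91f0502) (nat_lit 0x40000000900) (nat_lit 39)))))
 (.n (.n (.n (.p (nat_lit 0x30155302) (nat_lit 0x300600) (nat_lit 1))
 (.p (nat_lit 0x4f304cb502) (nat_lit 0x24041b) (nat_lit 4)))
 (.n (.p (nat_lit 0x1962195e195a1958010800eb00e71961195d09) (nat_lit 0x2200705) (nat_lit 10))
 (.p (nat_lit 0x5d2d5dd302) (nat_lit 0x200060000100) (nat_lit 36))))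
 (.n (.n (.p (nat_lit 0x13ae189902) (nat_lit 0x502) (nat_lit 5))
 (.p (nat_lit 0x42e0406b02) (nat_lit 0x727) (nat_lit 5)))
 (.n (.p (nat_lit 0x1f4020701f7090107ad05) (nat_lit 0x8c80030e) (nat_lit 9))
 (.p (nat_lit 0x1812600f02) (nat_lit 0x405aa0b94800100000600) (nat_lit 49))))))
 (.n (.n (.n (.n (.p (nat_lit 0xe430b3502) (nat_lit 0x310300) (nat_lit 16))
 (.p (nat_lit 0x287549702) (nat_lit 0x300a15) (nat_lit 30)))
 (.n (.p (nat_lit 0x1d0e1d0c1d0a1d081d04194f06) (nat_lit 0x1000094704) (nat_lit 51))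
 (.p (nat_lit 0x2845a7302) (nat_lit 0x20030e) (nat_lit 27))))
 (.n (.n (.p (nat_lit 0x1c331c1b02) (nat_lit 0x214801) (nat_lit 16))
 (.p (nat_lit 0x193a11b302) (nat_lit 0x300723) (nat_lit 4)))
 (.n (.p (nat_lit 0x660065e065c065a0658332d06) (nat_lit 0x10000004a09) (nat_lit 51))
 (.p (nat_lit 0x23445f0d02) (nat_lit 0x3a2530344000500000600) (nat_lit 50)))))
 (.n (.n (.n (.p (nat_lit 0x1a661c5102) (nat_lit 0x540800) (nat_lit 5))
 (.p (nat_lit 0x1ecd1ec102) (nat_lit 0x20a91c) (nat_lit 16)))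
 (.n (.p (nat_lit 0x1c34503302) (nat_lit 0x300806) (nat_lit 29))
 (.p (nat_lit 0x5d9512ab02) (nat_lit 0x1800a0000500) (nat_lit 40))))
 (.n (.n (.p (nat_lit 0xe430b7d02) (nat_lit 0x300203) (nat_lit 15))
 (.p (nat_lit 0x2ac62ac42ac22ac01673167106) (nat_lit 0x1800001262a) (nat_lit 52)))
 (.n (.p (nat_lit 0x299226e102) (nat_lit 0x40f) (nat_lit 4))
 (.p (nat_lit 0x8f6611302) (nat_lit 0x34252a1b0000100040000) (nat_lit 50))))))

def c512_446 : Tr := .n c1024_446 c1024_958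

def c256_190 : Tr := .n c512_190 c512_446

def c128_62 : Tr := .n c256_62 c256_190

def c1024_126 : Tr :=
 .n (.n (.n (.n (.n (.n (.p (nat_lit 0x830071006603) (nat_lit 0x81800002) (nat_lit 19))
 (.p (nat_lit 0x8f0613f02) (nat_lit 0x352a21d84000100040000) (nat_lit 49)))
 (.p (nat_lit 0x2efa2ef62ef42ef22ef0309f06) (nat_lit 0x80000ca310) (nat_lit 51)))
 (.n (.p (nat_lit 0x38c438c238c038be38bc110b06) (nat_lit 0x800016403) (nat_lit 52))
 (.p (nat_lit 0x1ede148f02) (nat_lit 0x50092a) (nat_lit 4))))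
 (.n (.n (.p (nat_lit 0x1d8b1a5f02) (nat_lit 0x154800) (nat_lit 16))
 (.p (nat_lit 0x30955a702) (nat_lit 0x140b1c) (nat_lit 30)))
 (.n (.p (nat_lit 0x197a1976197419701d9d1d9706) (nat_lit 0x90000ce806) (nat_lit 52))
 (.p (nat_lit 0x5d41153b02) (nat_lit 0xc0060000600) (nat_lit 38)))))
 (.n (.n (.n (.p (nat_lit 0xf850c9302) (nat_lit 0x24a300) (nat_lit 16))
 (.p (nat_lit 0x2b1a27e102) (nat_lit 0x300816) (nat_lit 4)))
 (.n (.p (nat_lit 0x22a0229e229c22982296247906) (nat_lit 0x200008eb04) (nat_lit 52))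
 (.p (nat_lit 0x28a02880286028002d3000306) (nat_lit 0x1110515) (nat_lit 26))))
 (.n (.n (.p (nat_lit 0x1820181e181c181a18161ee306) (nat_lit 0x100000e901) (nat_lit 51))
 (.p (nat_lit 0x21931ecb02) (nat_lit 0x100923) (nat_lit 15)))
 (.n (.p (nat_lit 0x1cea1ce81ce41ce21ce0386106) (nat_lit 0x400004c30a) (nat_lit 52))
 (.p (nat_lit 0x23445f3702) (nat_lit 0x3a6560c44000500000600) (nat_lit 50))))))
 (.n (.n (.n (.n (.p (nat_lit 0x7e407e207e007dc05c705bf06) (nat_lit 0x1100000a100) (nat_lit 51))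
 (.p (nat_lit 0x72a540302) (nat_lit 0x140015) (nat_lit 29)))
 (.n (.p (nat_lit 0x3def0a2902) (nat_lit 0x446104) (nat_lit 16))
 (.p (nat_lit 0x4a0848ab02) (nat_lit 0x30072f) (nat_lit 4))))
 (.n (.n (.p (nat_lit 0x2492248622c103) (nat_lit 0x340b00) (nat_lit 6))
 (.p (nat_lit 0x4c0a4c084c064c024c0003974c0507) (nat_lit 0x200122) (nat_lit 7)))
 (.n (.p (nat_lit 0x1a6a055302) (nat_lit 0x140707) (nat_lit 4))
 (.p (nat_lit 0x5d731f0d02) (nat_lit 0xa0080000900) (nat_lit 39)))))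
 (.n (.n (.n (.p (nat_lit 0x16ba16af02) (nat_lit 0x540600) (nat_lit 5))
 (.p (nat_lit 0x1db41db21db01dae1dac05df06) (nat_lit 0x1000001201c) (nat_lit 51)))
 (.n (.p (nat_lit 0x1aea1ae81ae61ae21ae01ac106) (nat_lit 0x2000050705) (nat_lit 51))
 (.p (nat_lit 0x5de0333d02) (nat_lit 0x2000e200) (nat_lit 47))))
 (.n (.n (.p (nat_lit 0x5d32cd02) (nat_lit 0x240902) (nat_lit 30))
 (.p (nat_lit 0x3aa4a5302) (nat_lit 0x540728) (nat_lit 1)))
 (.n (.p (nat_lit 0x114411421140113e113a10dd06) (nat_lit 0x100008840e) (nat_lit 52))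
 (.p (nat_lit 0x13f4603902) (nat_lit 0x4a8162340800500040000) (nat_lit 49))))))

def c1024_638 : Tr :=
 .n (.n (.n (.n (.n (.n (.p (nat_lit 0x43e04360434044104) (nat_lit 0x1180040002a) (nat_lit 17))
 (.p (nat_lit 0xe7c61bb02) (nat_lit 0x322266c15000300040000) (nat_lit 50)))
 (.p (nat_lit 0x1fe41fe21fe01fde1fdc410106) (nat_lit 0x800056412) (nat_lit 51)))
 (.n (.p (nat_lit 0x1e661e641e621e601e5c232906) (nat_lit 0x100004ea03) (nat_lit 51))
 (.p (nat_lit 0x340631db02) (nat_lit 0x200b2c) (nat_lit 4))))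
 (.n (.n (.p (nat_lit 0x21222120211e211c1e8f1e8d06) (nat_lit 0x180008ca00) (nat_lit 52))
 (.p (nat_lit 0x30a3be702) (nat_lit 0x240b1f) (nat_lit 1)))
 (.n (.p (nat_lit 0x198619841982197c0e050e0306) (nat_lit 0x300008e307) (nat_lit 51))
 (.p (nat_lit 0x5e6635c102) (nat_lit 0x8800) (nat_lit 48)))))
 (.n (.n (.n (.p (nat_lit 0x12ce12cc12c612c410c910c706) (nat_lit 0x6000004500) (nat_lit 52))
 (.p (nat_lit 0x422c3e3902) (nat_lit 0x619) (nat_lit 5)))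
 (.n (.p (nat_lit 0x112820e502) (nat_lit 0x300405) (nat_lit 5))
 (.p (nat_lit 0x5dae49c902) (nat_lit 0x14000) (nat_lit 47))))
 (.n (.n (.p (nat_lit 0xb7308b502) (nat_lit 0x400102) (nat_lit 15))
 (.p (nat_lit 0x3640391d02) (nat_lit 0x140126) (nat_lit 4)))
 (.n (.p (nat_lit 0x4754444d02) (nat_lit 0x34030c) (nat_lit 4))
 (.p (nat_lit 0x233a5fc302) (nat_lit 0x89832915800500000600) (nat_lit 49))))))
 (.n (.n (.n (.n (.p (nat_lit 0xbde0bdc0bda0bd809d709cd06) (nat_lit 0x10800048200) (nat_lit 51))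
 (.p (nat_lit 0x1648543502) (nat_lit 0x200615) (nat_lit 29)))
 (.n (.p (nat_lit 0xbae0bac0baa0ba80ba6168b06) (nat_lit 0x10000084604) (nat_lit 52))
 (.p (nat_lit 0xec00e800e400e20009040d06) (nat_lit 0x220e405) (nat_lit 26))))
 (.n (.n (.p (nat_lit 0xf9228ed02) (nat_lit 0x340301) (nat_lit 29))
 (.p (nat_lit 0x129e129c129a1298129409e706) (nat_lit 0x100004a123) (nat_lit 52)))
 (.n (.p (nat_lit 0x2cf02cee2cec2cea2ce82afd06) (nat_lit 0x800096808) (nat_lit 51))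
 (.p (nat_lit 0x5d5d249502) (nat_lit 0x200080000b00) (nat_lit 41)))))
 (.n (.n (.n (.p (nat_lit 0x1a3e1a3c1a3a1a38179d179b06) (nat_lit 0x180000d4700) (nat_lit 52))
 (.p (nat_lit 0x10241020101e101c14eb14e706) (nat_lit 0x1400004451c) (nat_lit 51)))
 (.n (.p (nat_lit 0x4e004dfe4dfc4dfa4df84df606) (nat_lit 0x42306) (nat_lit 52))
 (.p (nat_lit 0x5e18424b02) (nat_lit 0x60012400) (nat_lit 47))))
 (.n (.n (.p (nat_lit 0x5f341502) (nat_lit 0x340b02) (nat_lit 30))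
 (.p (nat_lit 0x281d0b5702) (nat_lit 0x20c22a) (nat_lit 16)))
 (.n (.p (nat_lit 0x1be41be01bde1bdc1bda01ef1be307) (nat_lit 0x40080e) (nat_lit 7))
 (.p (nat_lit 0x21e060b302) (nat_lit 0x350521a84000400040600) (nat_lit 50))))))

def c512_126 : Tr := .n c1024_126 c1024_638

def c1024_382 : Tr :=
 .n (.n (.n (.n (.n (.n (.p (nat_lit 0x1ca01c601d303) (nat_lit 0x500050000c) (nat_lit 17))
 (.p (nat_lit 0x648617b02) (nat_lit 0x521a86b11000000040000) (nat_lit 50)))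
 (.p (nat_lit 0x1c721c701c6e1c6c38e938df06) (nat_lit 0x10800002411) (nat_lit 52)))
 (.n (.p (nat_lit 0x3aa3167502) (nat_lit 0x4603) (nat_lit 16))
 (.p (nat_lit 0x2b362ab302) (nat_lit 0x20082b) (nat_lit 4))))
 (.n (.n (.p (nat_lit 0x1d321d301d2c1d280018000700031d2f1d2b09) (nat_lit 0x1940900) (nat_lit 10))
 (.p (nat_lit 0x33a02ffb02) (nat_lit 0x340a1e) (nat_lit 4)))
 (.n (.p (nat_lit 0x147513702) (nat_lit 0x300207) (nat_lit 30))
 (.p (nat_lit 0x5d0f198102) (nat_lit 0xe0040000700) (nat_lit 41)))))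
 (.n (.n (.n (.p (nat_lit 0x112b0dfd02) (nat_lit 0x414400) (nat_lit 16))
 (.p (nat_lit 0x38f238f038ec38ea02e202d702d338f538ef09) (nat_lit 0x2a00418) (nat_lit 10)))
 (.n (.p (nat_lit 0xed44bf02) (nat_lit 0x500105) (nat_lit 30))
 (.p (nat_lit 0x3a803a603a403a203d1000b06) (nat_lit 0x50c123) (nat_lit 26))))
 (.n (.n (.p (nat_lit 0x23d623d423d223d023cc21ab06) (nat_lit 0x100000ea01) (nat_lit 52))
 (.p (nat_lit 0x27b429c902) (nat_lit 0x540124) (nat_lit 4)))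
 (.n (.p (nat_lit 0x3f903c1302) (nat_lit 0x30b) (nat_lit 4))
 (.p (nat_lit 0x4c25f7902) (nat_lit 0x560bb0344000000000000) (nat_lit 49))))))
 (.n (.n (.n (.n (.p (nat_lit 0xa43072702) (nat_lit 0x556100) (nat_lit 16))
 (.p (nat_lit 0x138a0bef02) (nat_lit 0x515) (nat_lit 5)))
 (.n (.p (nat_lit 0x111c402102) (nat_lit 0x300404) (nat_lit 29))
 (.p (nat_lit 0x47e58f102) (nat_lit 0x200502) (nat_lit 27))))
 (.n (.n (.p (nat_lit 0x9fd074d02) (nat_lit 0x40001) (nat_lit 15))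
 (.p (nat_lit 0x744116302) (nat_lit 0x240023) (nat_lit 5)))
 (.n (.p (nat_lit 0x1c822cb02) (nat_lit 0x240a07) (nat_lit 1))
 (.p (nat_lit 0x5d6f21d502) (nat_lit 0xe0080000a00) (nat_lit 39)))))
 (.n (.n (.n (.p (nat_lit 0x18ba18b618b218b01629162506) (nat_lit 0xa000012700) (nat_lit 52))
 (.p (nat_lit 0xc320c300c2c0c280883087f06) (nat_lit 0x500008e11c) (nat_lit 52)))
 (.n (.p (nat_lit 0x6304aa902) (nat_lit 0x400006) (nat_lit 29))
 (.p (nat_lit 0x5dfc506102) (nat_lit 0x40016300) (nat_lit 48))))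
 (.n (.n (.p (nat_lit 0x232423222320231c006c005d0059231f231b09) (nat_lit 0x1040a02) (nat_lit 10))
 (.p (nat_lit 0x89e089808960894045e043d043b089d089b09) (nat_lit 0x230012a) (nat_lit 10)))
 (.n (.p (nat_lit 0x67a0676067406720670138706) (nat_lit 0x800000650e) (nat_lit 51))
 (.p (nat_lit 0x642607b02) (nat_lit 0x511a22b85000000040000) (nat_lit 50))))))

def c1024_894 : Tr :=
 .n (.n (.n (.n (.n (.p (nat_lit 0x650064502) (nat_lit 0x240000) (nat_lit 5))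
 (.p (nat_lit 0x93a09380936093409324a2506) (nat_lit 0x80004a713) (nat_lit 52)))
 (.n (.p (nat_lit 0x1548154615441542154025c906) (nat_lit 0x1000004cb03) (nat_lit 51))
 (.p (nat_lit 0x1fc01fbe1fbc1fb81fb63f2906) (nat_lit 0x20000cc22e) (nat_lit 52))))
 (.n (.n (.p (nat_lit 0x22b822b622b422b222ae1ff506) (nat_lit 0x10000d0a00) (nat_lit 52))
 (.p (nat_lit 0x38a434b02) (nat_lit 0x300b20) (nat_lit 1)))
 (.n (.p (nat_lit 0x12da12d812d412d212d010d506) (nat_lit 0x4000084407) (nat_lit 51))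
 (.p (nat_lit 0x5dab1adf02) (nat_lit 0x200a0000800) (nat_lit 38)))))
 (.n (.n (.n (.p (nat_lit 0x657122702) (nat_lit 0x540500) (nat_lit 15))
 (.p (nat_lit 0x49e8466502) (nat_lit 0x40071a) (nat_lit 4)))
 (.n (.p (nat_lit 0x118180502) (nat_lit 0x340605) (nat_lit 1))
 (.p (nat_lit 0x5dc83bcd02) (nat_lit 0x20050100) (nat_lit 47))))
 (.n (.n (.p (nat_lit 0x110811061104110010fe005d110307) (nat_lit 0x200402) (nat_lit 7))
 (.p (nat_lit 0x3e78404302) (nat_lit 0x300227) (nat_lit 5)))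
 (.n (.p (nat_lit 0x6620660065c065a0658503f06) (nat_lit 0x400000480d) (nat_lit 51))
 (.p (nat_lit 0x8ec5ffb02) (nat_lit 0x16a88cd50000100040000) (nat_lit 49))))))
 (.n (.n (.n (.n (.p (nat_lit 0xdaa0da80da60da20da00b3306) (nat_lit 0x2000090300) (nat_lit 51))
 (.p (nat_lit 0x1eba0c5302) (nat_lit 0x500915) (nat_lit 5)))
 (.n (.p (nat_lit 0xc200df00c71e5f1fc505) (nat_lit 0xac100704) (nat_lit 9))
 (.p (nat_lit 0x1a201a0019a01980147008b06) (nat_lit 0x1a1630a) (nat_lit 26))))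
 (.n (.n (.p (nat_lit 0x2afa2af82af62af42af22af000381c1d1c1b1c190a) (nat_lit 0xd100801) (nat_lit 31))
 (.p (nat_lit 0x3a556c902) (nat_lit 0x200623) (nat_lit 30)))
 (.n (.p (nat_lit 0x31682cbf02) (nat_lit 0x140409) (nat_lit 5))
 (.p (nat_lit 0x1ae05ef102) (nat_lit 0x4a1d22344000200000600) (nat_lit 50)))))
 (.n (.n (.n (.p (nat_lit 0x1bf718fd02) (nat_lit 0x206800) (nat_lit 16))
 (.p (nat_lit 0x1d620f1302) (nat_lit 0x54081c) (nat_lit 4)))
 (.n (.p (nat_lit 0x1ad223e302) (nat_lit 0x540706) (nat_lit 4))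
 (.p (nat_lit 0x5d7b5e3102) (nat_lit 0x20080000500) (nat_lit 36))))
 (.n (.n (.p (nat_lit 0x35ec35ea35e835e635e40a1506) (nat_lit 0x800048103) (nat_lit 51))
 (.p (nat_lit 0x100e100c100a100610040f8506) (nat_lit 0x200004232a) (nat_lit 52)))
 (.n (.p (nat_lit 0x4bf24bee4bec4bea4be8242906) (nat_lit 0x8000010b0e) (nat_lit 52))
 (.p (nat_lit 0x13f060fb02) (nat_lit 0x460d623a4000500040000) (nat_lit 49))))))

def c512_382 : Tr := .n c1024_382 c1024_894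

def c256_126 : Tr := .n c512_126 c512_382

def c1024_254 : Tr :=
 .n (.n (.n (.n (.n (.n (.p (nat_lit 0xec00e200f103) (nat_lit 0x10800500005) (nat_lit 17))
 (.p (nat_lit 0x1f0e615b02) (nat_lit 0x3503a8d64000300040600) (nat_lit 49)))
 (.p (nat_lit 0x33302e8d02) (nat_lit 0x100a10) (nat_lit 4)))
 (.n (.p (nat_lit 0x48e150502) (nat_lit 0x40503) (nat_lit 1))
 (.p (nat_lit 0x48ba48b848b448b248b0230906) (nat_lit 0x40000cea2a) (nat_lit 52))))
 (.n (.n (.p (nat_lit 0x1e721e701e6e1e6a1e681bc706) (nat_lit 0x200008e900) (nat_lit 51))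
 (.p (nat_lit 0x2c7628c902) (nat_lit 0x540a1d) (nat_lit 4)))
 (.n (.p (nat_lit 0x213a21382136213421301efb06) (nat_lit 0x100008e906) (nat_lit 51))
 (.p (nat_lit 0x5cb9181702) (nat_lit 0x40000000700) (nat_lit 40)))))
 (.n (.n (.n (.p (nat_lit 0x10181014101210100dff0dfb06) (nat_lit 0x14000082400) (nat_lit 51))
 (.p (nat_lit 0x37123710370e370c370832a906) (nat_lit 0x100008a917) (nat_lit 52)))
 (.n (.p (nat_lit 0x439b25d302) (nat_lit 0x448b04) (nat_lit 16))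
 (.p (nat_lit 0x30b5b7f02) (nat_lit 0x20011c) (nat_lit 28))))
 (.n (.n (.p (nat_lit 0x12aa12a812a612a0204b204906) (nat_lit 0x300004a901) (nat_lit 51))
 (.p (nat_lit 0x244e572f02) (nat_lit 0x500b23) (nat_lit 29)))
 (.n (.p (nat_lit 0x3c803c7e3c7c3c7a3c783ae306) (nat_lit 0x800004a0a) (nat_lit 51))
 (.p (nat_lit 0x1db05f5b02) (nat_lit 0x1a2276350000300000600) (nat_lit 50))))))
 (.n (.n (.n (.n (.p (nat_lit 0x9220920091e091c091a091806) (nat_lit 0x48100) (nat_lit 51))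
 (.p (nat_lit 0xe9a0e960e940e920e9010ef06) (nat_lit 0x8000080415) (nat_lit 52)))
 (.n (.p (nat_lit 0x3ee03edc3eda3ed80ceb0ce306) (nat_lit 0x880004c204) (nat_lit 52))
 (.p (nat_lit 0x214589302) (nat_lit 0x500101) (nat_lit 27))))
 (.n (.n (.p (nat_lit 0x257522c502) (nat_lit 0x540b00) (nat_lit 16))
 (.p (nat_lit 0xd280d260d240d200d1e50b506) (nat_lit 0x2000040822) (nat_lit 52)))
 (.n (.p (nat_lit 0x345434523450344c344a1d3906) (nat_lit 0x20000c4807) (nat_lit 52))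
 (.p (nat_lit 0x5ce55e9902) (nat_lit 0x80020000a00) (nat_lit 36)))))
 (.n (.n (.n (.p (nat_lit 0x178e178c1788178616bb16b506) (nat_lit 0x120000d4600) (nat_lit 52))
 (.p (nat_lit 0x1aea1ae61ae41ae21ae0073d06) (nat_lit 0x800005001c) (nat_lit 51)))
 (.n (.p (nat_lit 0x1fec1fea1fe81fe61c2d1c2b06) (nat_lit 0x18000096805) (nat_lit 51))
 (.p (nat_lit 0x5dee423502) (nat_lit 0x80012200) (nat_lit 48))))
 (.n (.n (.p (nat_lit 0xa5a0a580a540a520a5021bb06) (nat_lit 0x4000004a02) (nat_lit 51))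
 (.p (nat_lit 0x29da29d829d629d44feb4fe706) (nat_lit 0x2800090729) (nat_lit 52)))
 (.n (.p (nat_lit 0xfde0fda0fd80fd60fd4123d06) (nat_lit 0x800004840e) (nat_lit 52))
 (.p (nat_lit 0x181c605d02) (nat_lit 0x506272b31000100000600) (nat_lit 50))))))

def c1024_766 : Tr :=
 .n (.n (.n (.n (.n (.n (.p (nat_lit 0x5040502050004fe04e504e306) (nat_lit 0x18000006000) (nat_lit 52))
 (.p (nat_lit 0x63661db02) (nat_lit 0x542266c0c800000040000) (nat_lit 49)))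
 (.p (nat_lit 0x262437502) (nat_lit 0x340b12) (nat_lit 1)))
 (.n (.p (nat_lit 0x1c4c1c4a1c481c462473247106) (nat_lit 0x18000090b03) (nat_lit 51))
 (.p (nat_lit 0x39243920391e391c391a387306) (nat_lit 0x80000c232d) (nat_lit 52))))
 (.n (.n (.p (nat_lit 0x21da21ce1ff503) (nat_lit 0x140a00) (nat_lit 6))
 (.p (nat_lit 0x3e9c3e9a3e983e963df13de906) (nat_lit 0x11000040120) (nat_lit 52)))
 (.n (.p (nat_lit 0x197819761974197219700f7306) (nat_lit 0x100000ce307) (nat_lit 52))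
 (.p (nat_lit 0x5d3d5e7502) (nat_lit 0x100060000800) (nat_lit 37)))))
 (.n (.n (.n (.p (nat_lit 0x434121d02) (nat_lit 0x40500) (nat_lit 1))
 (.p (nat_lit 0x25e449302) (nat_lit 0x14001a) (nat_lit 1)))
 (.n (.p (nat_lit 0x15241522151e151c010a00ed00e71527152109) (nat_lit 0x2a40505) (nat_lit 10))
 (.p (nat_lit 0x5d695dc102) (nat_lit 0x140080000000) (nat_lit 36))))
 (.n (.n (.p (nat_lit 0x2f8d0ccb02) (nat_lit 0x40202) (nat_lit 16))
 (.p (nat_lit 0x3ba4395902) (nat_lit 0x500b26) (nat_lit 5)))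
 (.n (.p (nat_lit 0x4cf2528f02) (nat_lit 0x10020d) (nat_lit 29))
 (.p (nat_lit 0x1daa5fdd02) (nat_lit 0x3842a1c35000300000600) (nat_lit 49))))))
 (.n (.n (.n (.n (.p (nat_lit 0x3080b3102) (nat_lit 0x100300) (nat_lit 1))
 (.p (nat_lit 0x1a800ac902) (nat_lit 0x40715) (nat_lit 5)))
 (.n (.p (nat_lit 0x63e063c063a0638063417f506) (nat_lit 0x10000c0604) (nat_lit 52))
 (.p (nat_lit 0x11a01180116011400e3000b06) (nat_lit 0x512806) (nat_lit 26))))
 (.n (.n (.p (nat_lit 0x332a1d02) (nat_lit 0x400501) (nat_lit 30))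
 (.p (nat_lit 0xeca0ec80ec40ec00b4d0b4906) (nat_lit 0x500008a223) (nat_lit 51)))
 (.n (.p (nat_lit 0x2f962f942f922f902f8c01872f8f07) (nat_lit 0x140209) (nat_lit 7))
 (.p (nat_lit 0x6425ed502) (nat_lit 0x4a1a22344000000040000) (nat_lit 50)))))
 (.n (.n (.n (.p (nat_lit 0x1b0e1b0c1b081b0618ff18f906) (nat_lit 0x4800002800) (nat_lit 51))
 (.p (nat_lit 0x1bf7192d02) (nat_lit 0x20071c) (nat_lit 15)))
 (.n (.p (nat_lit 0x13e813e413e213e013de011b13e707) (nat_lit 0x400506) (nat_lit 7))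
 (.p (nat_lit 0x5e2412a102) (nat_lit 0x500) (nat_lit 46))))
 (.n (.n (.p (nat_lit 0x76e1b0302) (nat_lit 0x540003) (nat_lit 5))
 (.p (nat_lit 0x375d0cb502) (nat_lit 0x15022a) (nat_lit 16)))
 (.n (.p (nat_lit 0x1ebb1eaf02) (nat_lit 0x50690e) (nat_lit 16))
 (.p (nat_lit 0x114660db02) (nat_lit 0x340a621b0000400040000) (nat_lit 50))))))

def c512_254 : Tr := .n c1024_254 c1024_766

def c1024_510 : Tr :=
 .n (.n (.n (.n (.n (.n (.p (nat_lit 0x30c030a031503) (nat_lit 0x600050001c) (nat_lit 17))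
 (.p (nat_lit 0x8fc619d02) (nat_lit 0x380aa5c14800100040000) (nat_lit 50)))
 (.p (nat_lit 0x3b7e362302) (nat_lit 0x400b11) (nat_lit 4)))
 (.n (.p (nat_lit 0x9400b3009d1cff1b9905) (nat_lit 0xb0300a03) (nat_lit 9))
 (.p (nat_lit 0x1a281a261a241a221a202faf06) (nat_lit 0x100000d222c) (nat_lit 51))))
 (.n (.n (.p (nat_lit 0x20031d2d02) (nat_lit 0x240900) (nat_lit 16))
 (.p (nat_lit 0x363c381b02) (nat_lit 0x54011f) (nat_lit 4)))
 (.n (.p (nat_lit 0x922091e091c09180ca30c9d06) (nat_lit 0x9000048207) (nat_lit 51))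
 (.p (nat_lit 0x5d595e6102) (nat_lit 0x240080000700) (nat_lit 36)))))
 (.n (.n (.n (.p (nat_lit 0x12181216121412100f670f5f06) (nat_lit 0x110000d6400) (nat_lit 51))
 (.p (nat_lit 0x3aad3b8d02) (nat_lit 0x500b18) (nat_lit 15)))
 (.n (.p (nat_lit 0x466446624660465e465c0cf906) (nat_lit 0x1000004e205) (nat_lit 52))
 (.p (nat_lit 0x5c405c3e5c3c5c3a5c380035044007) (nat_lit 0x50462a) (nat_lit 25))))
 (.n (.n (.p (nat_lit 0x612c8b02) (nat_lit 0x400002) (nat_lit 30))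
 (.p (nat_lit 0x2ec030cb02) (nat_lit 0x340125) (nat_lit 5)))
 (.n (.p (nat_lit 0x67a0678067606720670426106) (nat_lit 0x200004660b) (nat_lit 51))
 (.p (nat_lit 0x8f65f9702) (nat_lit 0x88bb0155800100040000) (nat_lit 50))))))
 (.n (.n (.n (.n (.p (nat_lit 0xb0a0b080b060b040873087106) (nat_lit 0x1800014200) (nat_lit 52))
 (.p (nat_lit 0x4199139102) (nat_lit 0x312515) (nat_lit 16)))
 (.n (.p (nat_lit 0x4136413441324130412c13c906) (nat_lit 0x1000004504) (nat_lit 52))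
 (.p (nat_lit 0x90008c008a00880001006106) (nat_lit 0x416603) (nat_lit 26))))
 (.n (.n (.p (nat_lit 0xb6827c102) (nat_lit 0x500201) (nat_lit 29))
 (.p (nat_lit 0x13fe13fc13fa13f813f6089306) (nat_lit 0x1000008a123) (nat_lit 51)))
 (.n (.p (nat_lit 0x280e265702) (nat_lit 0x100208) (nat_lit 5))
 (.p (nat_lit 0x5eb2233502) (nat_lit 0x20000b00) (nat_lit 45)))))
 (.n (.n (.n (.p (nat_lit 0x179c179a1798179617940001179307) (nat_lit 0x40700) (nat_lit 7))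
 (.p (nat_lit 0x139a0d5302) (nat_lit 0x20051c) (nat_lit 4)))
 (.n (.p (nat_lit 0x11d4c2b02) (nat_lit 0x540106) (nat_lit 30))
 (.p (nat_lit 0x5cb35e0b02) (nat_lit 0xa0000000400) (nat_lit 36))))
 (.n (.n (.p (nat_lit 0x245c18e102) (nat_lit 0xb02) (nat_lit 5))
 (.p (nat_lit 0x58a05880586058209f509f106) (nat_lit 0x28000d212a) (nat_lit 51)))
 (.n (.p (nat_lit 0x163e07f902) (nat_lit 0x30060e) (nat_lit 5))
 (.p (nat_lit 0x1c46609702) (nat_lit 0x344580ca4000200040600) (nat_lit 50))))))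

def c1024_1022 : Tr :=
 .n (.n (.n (.n (.n (.p (nat_lit 0x73d065502) (nat_lit 0x446000) (nat_lit 16))
 (.p (nat_lit 0x50124c6902) (nat_lit 0x540714) (nat_lit 5)))
 (.n (.p (nat_lit 0x77a077807760772077000b9077507) (nat_lit 0x240004) (nat_lit 7))
 (.p (nat_lit 0x4526487302) (nat_lit 0x20012f) (nat_lit 4))))
 (.n (.n (.p (nat_lit 0x23d423d223d023ce23cc215f06) (nat_lit 0x1000000eb00) (nat_lit 52))
 (.p (nat_lit 0x4960563f02) (nat_lit 0x540521) (nat_lit 29)))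
 (.n (.p (nat_lit 0x3171123302) (nat_lit 0x54e407) (nat_lit 16))
 (.p (nat_lit 0x5cc71da302) (nat_lit 0x260020000900) (nat_lit 38)))))
 (.n (.n (.n (.p (nat_lit 0x15ee15ea15e815e61555154d06) (nat_lit 0x8800090600) (nat_lit 52))
 (.p (nat_lit 0xc040c020c000bfc0bfa505506) (nat_lit 0x200008a81b) (nat_lit 52)))
 (.n (.p (nat_lit 0x21e221e021de21dc21da195906) (nat_lit 0x800094705) (nat_lit 51))
 (.p (nat_lit 0x5da35dd902) (nat_lit 0xa00a0000100) (nat_lit 37))))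
 (.n (.n (.p (nat_lit 0x15021a1302) (nat_lit 0x540502) (nat_lit 4))
 (.p (nat_lit 0x48e848e648e448e248e044ad06) (nat_lit 0x2000042028) (nat_lit 51)))
 (.n (.p (nat_lit 0x10dd0e0f02) (nat_lit 0x10030e) (nat_lit 15))
 (.p (nat_lit 0xe7a601b02) (nat_lit 0x4099a2354800300040000) (nat_lit 50))))))
 (.n (.n (.n (.n (.p (nat_lit 0xe9a0e980e940e900c950c9106) (nat_lit 0x50000c0300) (nat_lit 52))
 (.p (nat_lit 0x22e80b1702) (nat_lit 0x540a15) (nat_lit 4)))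
 (.n (.p (nat_lit 0x1ab642fd02) (nat_lit 0x340704) (nat_lit 29))
 (.p (nat_lit 0x1eb5a9502) (nat_lit 0x20070e) (nat_lit 28))))
 (.n (.n (.p (nat_lit 0x1a2a1a261a221a201d851d8106) (nat_lit 0xa0000d2801) (nat_lit 51))
 (.p (nat_lit 0x3f21c0502) (nat_lit 0x300823) (nat_lit 1)))
 (.n (.p (nat_lit 0x2668266626642662266033d506) (nat_lit 0x10000006b09) (nat_lit 51))
 (.p (nat_lit 0x181c5f1902) (nat_lit 0x1a2274b50000100000600) (nat_lit 50)))))
 (.n (.n (.n (.p (nat_lit 0x1cd01cce1ccc1cc81a671a5f06) (nat_lit 0x1100004a800) (nat_lit 51))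
 (.p (nat_lit 0x218c0f3502) (nat_lit 0x400a1c) (nat_lit 5)))
 (.n (.p (nat_lit 0x198619821980197e197c1c3706) (nat_lit 0x800008e806) (nat_lit 51))
 (.p (nat_lit 0x5c8f5e3902) (nat_lit 0x2e0000000600) (nat_lit 37))))
 (.n (.n (.p (nat_lit 0x8d376d02) (nat_lit 0x300303) (nat_lit 30))
 (.p (nat_lit 0x1948194619441942044e043f0435194b194109) (nat_lit 0x280072a) (nat_lit 10)))
 (.n (.p (nat_lit 0x215538702) (nat_lit 0x54050f) (nat_lit 30))
 (.p (nat_lit 0x2344611d02) (nat_lit 0x35486a3a4000500000600) (nat_lit 50))))))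

def c512_510 : Tr := .n c1024_510 c1024_1022

def c256_254 : Tr := .n c512_254 c512_510

def c128_126 : Tr := .n c256_126 c256_254

def c64_62 : Tr := .n c128_62 c128_126

def c32_30 : Tr := .n c64_30 c64_62

def c16_14 : Tr := .n c32_14 c32_30

def b14 : Tr := c16_14

theorem hb4_14 : allp (tst G49 true (getA DT)) b14 = true := by decide +kernel

end Vale.Agent.P032.H437.Ev2
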