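import Vale.Agent.P032.H437.Ev2.T

namespace Vale.Agent.P032.H437.Ev2
open Vale.Agent.P032.H859.Rup Vale.Agent.P032.H437

def c1024_15 : Tr :=
 .n (.n (.n (.n (.n (.n (.p (nat_lit 0x290021001b001304) (nat_lit 0x588800000) (nat_lit 21))
 (.p (nat_lit 0x634612902) (nat_lit 0x35486a3a4000000040000) (nat_lit 49)))
 (.p (nat_lit 0x2b08538902) (nat_lit 0x80f) (nat_lit 29)))
 (.n (.p (nat_lit 0x110b0e3d02) (nat_lit 0x303) (nat_lit 15))
 (.p (nat_lit 0x42f1194502) (nat_lit 0x21272a) (nat_lit 16))))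
 (.n (.n (.p (nat_lit 0x1cea1ce61ce41ce21a651a5d06) (nat_lit 0x880004c800) (nat_lit 52))
 (.p (nat_lit 0x472a472647244722218f218b06) (nat_lit 0x14000002a1c) (nat_lit 52)))
 (.n (.p (nat_lit 0x233a2338233423321c391c3306) (nat_lit 0x12000016806) (nat_lit 52))
 (.p (nat_lit 0x5ceb16a702) (nat_lit 0x20020000600) (nat_lit 41)))))
 (.n (.n (.n (.p (nat_lit 0xea40ea20ea00e9e0c990c8f06) (nat_lit 0x10800042300) (nat_lit 52))
 (.p (nat_lit 0x22ef22e302) (nat_lit 0x248a15) (nat_lit 16)))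
 (.n (.p (nat_lit 0x1c801c7e1c7c1c761ab51ab306) (nat_lit 0x30000c2704) (nat_lit 52))
 (.p (nat_lit 0x2425aa702) (nat_lit 0x50080e) (nat_lit 27))))
 (.n (.n (.p (nat_lit 0x18ea18e618e218e01d851d8106) (nat_lit 0xa000056801) (nat_lit 51))
 (.p (nat_lit 0x391839163912390e1c051c0106) (nat_lit 0x5000002823) (nat_lit 51)))
 (.n (.p (nat_lit 0x34242cf102) (nat_lit 0x540b09) (nat_lit 5))
 (.p (nat_lit 0x20725f1b02) (nat_lit 0x3a2274b50000400000600) (nat_lit 49))))))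
 (.n (.n (.n (.n (.p (nat_lit 0x761065502) (nat_lit 0x44e000) (nat_lit 16))
 (.p (nat_lit 0x504e4bf302) (nat_lit 0x500814) (nat_lit 4)))
 (.n (.p (nat_lit 0x3c8c3c8a3c883c863c84077106) (nat_lit 0x8000c4004) (nat_lit 51))
 (.p (nat_lit 0x446644644460445e445c459906) (nat_lit 0x40000c812f) (nat_lit 52))))
 (.n (.n (.p (nat_lit 0x23ee23ec23ea23e623e4215906) (nat_lit 0x2000010b00) (nat_lit 52))
 (.p (nat_lit 0x49f649f249f049ee49ec038d49f507) (nat_lit 0x400721) (nat_lit 7)))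
 (.n (.p (nat_lit 0x1634053702) (nat_lit 0x400607) (nat_lit 4))
 (.p (nat_lit 0x5e82232902) (nat_lit 0x2004e900) (nat_lit 48)))))
 (.n (.n (.n (.p (nat_lit 0x16061604160215fe1551154d06) (nat_lit 0x2800092600) (nat_lit 51))
 (.p (nat_lit 0x50fa4d3f02) (nat_lit 0x10091b) (nat_lit 5)))
 (.n (.p (nat_lit 0x49cd195d02) (nat_lit 0x200705) (nat_lit 16))
 (.p (nat_lit 0x5d895ddb02) (nat_lit 0x2400a0000100) (nat_lit 36))))
 (.n (.n (.p (nat_lit 0x32623260325e325c325a14f906) (nat_lit 0x8000d4502) (nat_lit 52))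
 (.p (nat_lit 0x451a480902) (nat_lit 0x200128) (nat_lit 5)))
 (.n (.p (nat_lit 0x2840f7902) (nat_lit 0x24030e) (nat_lit 1))
 (.p (nat_lit 0x2346601f02) (nat_lit 0x4099a2354800500000600) (nat_lit 50))))))

def c1024_527 : Tr :=
 .n (.n (.n (.n (.n (.n (.p (nat_lit 0x3290323031403) (nat_lit 0x22a0001c) (nat_lit 19))
 (.p (nat_lit 0x1146619f02) (nat_lit 0x380aa5c15000400040000) (nat_lit 50)))
 (.p (nat_lit 0x7f207f007ee07ec07e83b7906) (nat_lit 0x100008ab11) (nat_lit 51)))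
 (.n (.p (nat_lit 0x1dc21dbe1dbc1dba1db821c906) (nat_lit 0x8000000a03) (nat_lit 52))
 (.p (nat_lit 0x3018585502) (nat_lit 0x20032c) (nat_lit 29))))
 (.n (.n (.p (nat_lit 0x20271d2d02) (nat_lit 0x246900) (nat_lit 16))
 (.p (nat_lit 0x39f6379702) (nat_lit 0x51f) (nat_lit 4)))
 (.n (.p (nat_lit 0x97609740972096c0c9f0c9d06) (nat_lit 0x3000050207) (nat_lit 51))
 (.p (nat_lit 0x5e60167d02) (nat_lit 0x80012700) (nat_lit 48)))))
 (.n (.n (.n (.p (nat_lit 0x123d0f6502) (nat_lit 0x442400) (nat_lit 16))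
 (.p (nat_lit 0xa720a700a6c0a6a0a683bdd06) (nat_lit 0x40000c0b18) (nat_lit 51)))
 (.n (.p (nat_lit 0xe5420c902) (nat_lit 0x305) (nat_lit 5))
 (.p (nat_lit 0x5c565c545c525c505c4e019d044007) (nat_lit 0x20282a) (nat_lit 25))))
 (.n (.n (.p (nat_lit 0x8b7060302) (nat_lit 0x500002) (nat_lit 15))
 (.p (nat_lit 0x2f9c313702) (nat_lit 0x240225) (nat_lit 4)))
 (.n (.p (nat_lit 0x42b43c4502) (nat_lit 0x20070b) (nat_lit 4))
 (.p (nat_lit 0x1db25f9b02) (nat_lit 0x88bb0155800300000600) (nat_lit 50))))))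
 (.n (.n (.n (.n (.p (nat_lit 0xb3f087502) (nat_lit 0x200200) (nat_lit 16))
 (.p (nat_lit 0x14dc0aa102) (nat_lit 0x440515) (nat_lit 5)))
 (.n (.p (nat_lit 0x41824180417e417a13d113c906) (nat_lit 0x11000096504) (nat_lit 52))
 (.p (nat_lit 0x59525950594e594c594a014b00c007) (nat_lit 0x50c004) (nat_lit 25))))
 (.n (.n (.p (nat_lit 0x28230b6902) (nat_lit 0x50a201) (nat_lit 16))
 (.p (nat_lit 0x19781976197419721970089306) (nat_lit 0x1000008e123) (nat_lit 52)))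
 (.n (.p (nat_lit 0x281651ef02) (nat_lit 0x500208) (nat_lit 29))
 (.p (nat_lit 0x5d115eb702) (nat_lit 0xc0040000b00) (nat_lit 36)))))
 (.n (.n (.n (.p (nat_lit 0x19821976179903) (nat_lit 0x340700) (nat_lit 6))
 (.p (nat_lit 0x13a0551f02) (nat_lit 0x50051c) (nat_lit 29)))
 (.n (.p (nat_lit 0xcfd0a3b02) (nat_lit 0x140106) (nat_lit 15))
 (.p (nat_lit 0x5c8f5e0b02) (nat_lit 0x2e0000000400) (nat_lit 36))))
 (.n (.n (.p (nat_lit 0x66007b007d18e51a4905) (nat_lit 0xa5a00b02) (nat_lit 9))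
 (.p (nat_lit 0x459909f702) (nat_lit 0x35412a) (nat_lit 16)))
 (.n (.p (nat_lit 0x270e270c270827062704163f06) (nat_lit 0x400001060e) (nat_lit 52))
 (.p (nat_lit 0x1146609b02) (nat_lit 0x342529ca4000400040000) (nat_lit 50))))))

def c512_15 : Tr := .n c1024_15 c1024_527

def c1024_271 : Tr :=
 .n (.n (.n (.n (.n (.n (.p (nat_lit 0x10d010100f003) (nat_lit 0x62100005) (nat_lit 19))
 (.p (nat_lit 0x13ee615f02) (nat_lit 0x352829d84000500040000) (nat_lit 49)))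
 (.p (nat_lit 0x3343333702) (nat_lit 0x406a10) (nat_lit 16)))
 (.n (.p (nat_lit 0x150c1b7702) (nat_lit 0x440503) (nat_lit 4))
 (.p (nat_lit 0x245a2458245624520448043904352455245109) (nat_lit 0x1000b2a) (nat_lit 10))))
 (.n (.n (.p (nat_lit 0x1e7e1e7c1e781e741bc91bc506) (nat_lit 0x5000016900) (nat_lit 52))
 (.p (nat_lit 0x18de18dc18da18d618d42d0106) (nat_lit 0x200009401e) (nat_lit 51)))
 (.n (.p (nat_lit 0x51111efb02) (nat_lit 0x108906) (nat_lit 16))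
 (.p (nat_lit 0x5ca3180b02) (nat_lit 0x1a0000000700) (nat_lit 38)))))
 (.n (.n (.n (.p (nat_lit 0x10321030102c102a0dfb0df506) (nat_lit 0x4800084400) (nat_lit 51))
 (.p (nat_lit 0x333c2f0f02) (nat_lit 0x100a17) (nat_lit 4)))
 (.n (.p (nat_lit 0x62043af02) (nat_lit 0x200005) (nat_lit 29))
 (.p (nat_lit 0x30f5b9902) (nat_lit 0x40071c) (nat_lit 28))))
 (.n (.n (.p (nat_lit 0x181418121810180e180c204706) (nat_lit 0x80004e901) (nat_lit 52))
 (.p (nat_lit 0x165d244502) (nat_lit 0xb23) (nat_lit 15)))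
 (.n (.p (nat_lit 0x3b6c352702) (nat_lit 0x100b0a) (nat_lit 4))
 (.p (nat_lit 0x6345f5f02) (nat_lit 0x4a1d22344000000040000) (nat_lit 49))))))
 (.n (.n (.n (.n (.p (nat_lit 0x92e092a092809240725071f06) (nat_lit 0x90000c8100) (nat_lit 52))
 (.p (nat_lit 0xd640d620d600d5e0d5c10e706) (nat_lit 0x80008a415) (nat_lit 52)))
 (.n (.p (nat_lit 0x3f2f0ced02) (nat_lit 0x54a204) (nat_lit 16))
 (.p (nat_lit 0x320030002c002a000502b906) (nat_lit 0x1512201) (nat_lit 26))))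
 (.n (.n (.p (nat_lit 0x259922c502) (nat_lit 0x546b00) (nat_lit 16))
 (.p (nat_lit 0x50c150b502) (nat_lit 0x24a822) (nat_lit 16)))
 (.n (.p (nat_lit 0x2b4d1d3702) (nat_lit 0x14c807) (nat_lit 16))
 (.p (nat_lit 0x5cd75e9b02) (nat_lit 0x160020000a00) (nat_lit 37)))))
 (.n (.n (.n (.p (nat_lit 0x17bd16b702) (nat_lit 0x344600) (nat_lit 16))
 (.p (nat_lit 0x21d621d421d221d021ce073506) (nat_lit 0x8000d401c) (nat_lit 52)))
 (.n (.p (nat_lit 0x1d8a22b102) (nat_lit 0x140805) (nat_lit 4))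
 (.p (nat_lit 0x5d975df102) (nat_lit 0x1600a0000200) (nat_lit 37))))
 (.n (.n (.p (nat_lit 0xfea0fe80fe40fe20fe021bb06) (nat_lit 0x4000008a02) (nat_lit 51))
 (.p (nat_lit 0x506e4e8502) (nat_lit 0x300829) (nat_lit 5)))
 (.n (.p (nat_lit 0x18141810180e180c180a123d06) (nat_lit 0x800004e40e) (nat_lit 52))
 (.p (nat_lit 0x2072605f02) (nat_lit 0x506272831000400000600) (nat_lit 49))))))

def c1024_783 : Tr :=
 .n (.n (.n (.n (.n (.n (.p (nat_lit 0x520051e0518051604e104df06) (nat_lit 0x6000008000) (nat_lit 51))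
 (.p (nat_lit 0x1daa61dd02) (nat_lit 0x3302a5895000300000600) (nat_lit 49)))
 (.p (nat_lit 0x4762453702) (nat_lit 0x440313) (nat_lit 5)))
 (.n (.p (nat_lit 0x21e021dc21da21d82473246f06) (nat_lit 0x14000094b03) (nat_lit 51))
 (.p (nat_lit 0x3b5c3b583b563b543b5204973b5b07) (nat_lit 0x440a2d) (nat_lit 7))))
 (.n (.n (.p (nat_lit 0x21e021d41ffb03) (nat_lit 0x440a00) (nat_lit 6))
 (.p (nat_lit 0x36b560102) (nat_lit 0x440520) (nat_lit 30)))
 (.n (.p (nat_lit 0x1f181f161f141f121f100f7306) (nat_lit 0x100000d2307) (nat_lit 51))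
 (.p (nat_lit 0x5d2b5e7302) (nat_lit 0x220060000800) (nat_lit 36)))))
 (.n (.n (.n (.p (nat_lit 0x122413f302) (nat_lit 0x440500) (nat_lit 4))
 (.p (nat_lit 0x54e254e054de54dc54da54d802fe07) (nat_lit 0x4041a) (nat_lit 8)))
 (.n (.p (nat_lit 0x152b151f02) (nat_lit 0x14c505) (nat_lit 16))
 (.p (nat_lit 0x5d53064902) (nat_lit 0x2a0080000000) (nat_lit 41))))
 (.n (.n (.p (nat_lit 0xe3a0e380e360e340e30005b0e3307) (nat_lit 0x100302) (nat_lit 7))
 (.p (nat_lit 0x1196119411921190118e3ba506) (nat_lit 0x10000084b26) (nat_lit 52)))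
 (.n (.p (nat_lit 0x1144dc302) (nat_lit 0x10030d) (nat_lit 1))
 (.p (nat_lit 0x8fc5fe102) (nat_lit 0x3062a1c35000100040000) (nat_lit 50))))))
 (.n (.n (.n (.n (.p (nat_lit 0xd190d0d02) (nat_lit 0x300300) (nat_lit 34))
 (.p (nat_lit 0x1a880ad102) (nat_lit 0x440715) (nat_lit 5)))
 (.n (.p (nat_lit 0xbbc0bb80bb60bb40bb217fb06) (nat_lit 0x80000c4604) (nat_lit 51))
 (.p (nat_lit 0x14a014601440142000901e706) (nat_lit 0x2006207) (nat_lit 26))))
 (.n (.n (.p (nat_lit 0x13b513a902) (nat_lit 0x310501) (nat_lit 16))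
 (.p (nat_lit 0xb570b4b02) (nat_lit 0x200223) (nat_lit 16)))
 (.n (.p (nat_lit 0x2de82de62de42de22de02f8f06) (nat_lit 0x100004a209) (nat_lit 51))
 (.p (nat_lit 0xe6e5ed702) (nat_lit 0x4a1a36344000300040000) (nat_lit 49)))))
 (.n (.n (.n (.p (nat_lit 0x1b3a1b381b361b32190318fb06) (nat_lit 0x11000006800) (nat_lit 52))
 (.p (nat_lit 0x309554702) (nat_lit 0x14071c) (nat_lit 30)))
 (.n (.p (nat_lit 0x15321530152c1528012e01190115152f152b09) (nat_lit 0x1940506) (nat_lit 10))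
 (.p (nat_lit 0x5ce513ed02) (nat_lit 0x80020000500) (nat_lit 39))))
 (.n (.n (.p (nat_lit 0xa1d076d02) (nat_lit 0x440003) (nat_lit 15))
 (.p (nat_lit 0xe220e200e1e0e1c0e1804370e1b07) (nat_lit 0x10032a) (nat_lit 7)))
 (.n (.p (nat_lit 0x2010083f02) (nat_lit 0x34090e) (nat_lit 4))
 (.p (nat_lit 0x181460df02) (nat_lit 0x340d623a4000100000600) (nat_lit 49))))))

def c512_271 : Tr := .n c1024_271 c1024_783

def c256_15 : Tr := .n c512_15 c512_271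

def c1024_143 : Tr :=
 .n (.n (.n (.n (.n (.n (.p (nat_lit 0x90008c0086009304) (nat_lit 0x14800400003) (nat_lit 17))
 (.p (nat_lit 0x1db0614102) (nat_lit 0x352a21d84000300000600) (nat_lit 50)))
 (.p (nat_lit 0x31042dd302) (nat_lit 0x500410) (nat_lit 4)))
 (.n (.p (nat_lit 0x111b110f02) (nat_lit 0x214403) (nat_lit 16))
 (.p (nat_lit 0x203a149102) (nat_lit 0x4092a) (nat_lit 4))))
 (.n (.n (.p (nat_lit 0x1bc41daf02) (nat_lit 0x100900) (nat_lit 5))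
 (.p (nat_lit 0x31155af02) (nat_lit 0x540b1c) (nat_lit 30)))
 (.n (.p (nat_lit 0x1db61db41db01dae1dac1d9b06) (nat_lit 0x4000052806) (nat_lit 51))
 (.p (nat_lit 0x5d33169f02) (nat_lit 0x1a0060000600) (nat_lit 39)))))
 (.n (.n (.n (.p (nat_lit 0xfab0c9502) (nat_lit 0x350300) (nat_lit 16))
 (.p (nat_lit 0x2ba227f302) (nat_lit 0x100916) (nat_lit 4)))
 (.n (.p (nat_lit 0x2150214e214c214a2148247f06) (nat_lit 0x10000090b04) (nat_lit 51))
 (.p (nat_lit 0x2875b2102) (nat_lit 0x300715) (nat_lit 28))))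
 (.n (.n (.p (nat_lit 0x207420722070206e206a1ee306) (nat_lit 0x1000014901) (nat_lit 52))
 (.p (nat_lit 0x3fe203302) (nat_lit 0x240923) (nat_lit 1)))
 (.n (.p (nat_lit 0x38d4522f02) (nat_lit 0x10040a) (nat_lit 29))
 (.p (nat_lit 0xbb25f3b02) (nat_lit 0x3a6560c44000200040000) (nat_lit 50))))))
 (.n (.n (.n (.n (.p (nat_lit 0x82a08280822082005c305c106) (nat_lit 0x6000090100) (nat_lit 52))
 (.p (nat_lit 0x289540902) (nat_lit 0x440015) (nat_lit 30)))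
 (.n (.p (nat_lit 0xb53e0b02) (nat_lit 0x204) (nat_lit 30))
 (.p (nat_lit 0x143a14381436143414324a0d06) (nat_lit 0x1000000672f) (nat_lit 52))))
 (.n (.n (.p (nat_lit 0x22c422c222bc22ba001e0007000522c122bf09) (nat_lit 0x1a40b00) (nat_lit 10))
 (.p (nat_lit 0x4cd84cd64cd44cd04cce4c0506) (nat_lit 0x2000010122) (nat_lit 52)))
 (.n (.p (nat_lit 0x1a72055b02) (nat_lit 0x540707) (nat_lit 4))
 (.p (nat_lit 0x5d571da902) (nat_lit 0x260080000900) (nat_lit 38)))))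
 (.n (.n (.n (.p (nat_lit 0x16e816e616e416e216b316b106) (nat_lit 0x18000c2600) (nat_lit 51))
 (.p (nat_lit 0x2348234423422340233e05dd06) (nat_lit 0x800001601c) (nat_lit 51)))
 (.n (.p (nat_lit 0x21d621d421d021ce21cc1ac306) (nat_lit 0x40000d4705) (nat_lit 52))
 (.p (nat_lit 0x5d190a5502) (nat_lit 0x40040000200) (nat_lit 40))))
 (.n (.n (.p (nat_lit 0x205a205820562054007200630059205d205309) (nat_lit 0x2840902) (nat_lit 10))
 (.p (nat_lit 0x4f924f904f8c4f8a4f884b2b06) (nat_lit 0x4000010029) (nat_lit 52)))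
 (.n (.p (nat_lit 0x16a2169e169c169a169810e306) (nat_lit 0x800008c40e) (nat_lit 52))
 (.p (nat_lit 0x181c604102) (nat_lit 0x4a8176340800100000600) (nat_lit 50))))))

def c1024_655 : Tr :=
 .n (.n (.n (.n (.n (.n (.p (nat_lit 0x436044502) (nat_lit 0x100060002a) (nat_lit 17))
 (.p (nat_lit 0x153861bf02) (nat_lit 0x3221a9c15000000000600) (nat_lit 49)))
 (.p (nat_lit 0x41903daf02) (nat_lit 0x500512) (nat_lit 4)))
 (.n (.p (nat_lit 0x25c3232b02) (nat_lit 0x240a03) (nat_lit 15))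
 (.p (nat_lit 0x35d43a1702) (nat_lit 0x50012d) (nat_lit 5))))
 (.n (.n (.p (nat_lit 0x212e212a212821261e951e8d06) (nat_lit 0x880000ea00) (nat_lit 52))
 (.p (nat_lit 0xe8c0e8a0e880e860e843bed06) (nat_lit 0x10000040b1f) (nat_lit 51)))
 (.n (.p (nat_lit 0x207420722070206e206a0e0306) (nat_lit 0x1000014307) (nat_lit 52))
 (.p (nat_lit 0x5ce51ae302) (nat_lit 0x80020000800) (nat_lit 40)))))
 (.n (.n (.n (.p (nat_lit 0x12d812d412d212d010cd10c906) (nat_lit 0x14000084500) (nat_lit 51))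
 (.p (nat_lit 0x42363ee102) (nat_lit 0x500619) (nat_lit 4)))
 (.n (.p (nat_lit 0x47cf112502) (nat_lit 0x100405) (nat_lit 16))
 (.p (nat_lit 0x5cdd5db502) (nat_lit 0x100020000000) (nat_lit 36))))
 (.n (.n (.p (nat_lit 0x2260a0d02) (nat_lit 0x240102) (nat_lit 1))
 (.p (nat_lit 0x1ce81ce61ce41ce21ce0364906) (nat_lit 0x1000004c126) (nat_lit 52)))
 (.n (.p (nat_lit 0x22a0229e229c229a2296475106) (nat_lit 0x10000ce30c) (nat_lit 52))
 (.p (nat_lit 0x181c5fc702) (nat_lit 0x89832b05000100000600) (nat_lit 50))))))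
 (.n (.n (.n (.n (.p (nat_lit 0xbf80bf60bf40bf20bf009cd06) (nat_lit 0x80004a200) (nat_lit 51))
 (.p (nat_lit 0x164e164c1646164402a202870285164b164909) (nat_lit 0x1a00615) (nat_lit 10)))
 (.n (.p (nat_lit 0x12aa12a812a612a212a0168506) (nat_lit 0x200000a604) (nat_lit 51))
 (.p (nat_lit 0x11c59b502) (nat_lit 0x500605) (nat_lit 27))))
 (.n (.n (.p (nat_lit 0xfcf0f9302) (nat_lit 0x354301) (nat_lit 16))
 (.p (nat_lit 0x181e181c181a1818181609ef06) (nat_lit 0x1000004e123) (nat_lit 51)))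
 (.n (.p (nat_lit 0x17551f702) (nat_lit 0x340808) (nat_lit 30))
 (.p (nat_lit 0x5ebe233b02) (nat_lit 0x80000b00) (nat_lit 45)))))
 (.n (.n (.n (.p (nat_lit 0x1a4c1a4a1a461a44179d179706) (nat_lit 0x12000056700) (nat_lit 52))
 (.p (nat_lit 0x109a10961094109214eb14e706) (nat_lit 0x1400005451c) (nat_lit 52)))
 (.n (.p (nat_lit 0x1134e3302) (nat_lit 0x406) (nat_lit 30))
 (.p (nat_lit 0x5d750fdd02) (nat_lit 0x80080000400) (nat_lit 38))))
 (.n (.n (.p (nat_lit 0x25bc25b825b425b2007e0061005d25bb25b709) (nat_lit 0x2240b02) (nat_lit 10))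
 (.p (nat_lit 0xcbc0cba0cb80cb60cb204370cb507) (nat_lit 0x14022a) (nat_lit 7)))
 (.n (.p (nat_lit 0x361836163614361236101bdd06) (nat_lit 0x100001480e) (nat_lit 52))
 (.p (nat_lit 0xbae60c902) (nat_lit 0x3505223a4000200040000) (nat_lit 49))))))

def c512_143 : Tr := .n c1024_143 c1024_655

def c1024_399 : Tr :=
 .n (.n (.n (.n (.n (.n (.p (nat_lit 0x1ee01ec01f503) (nat_lit 0xc00050000e) (nat_lit 17))
 (.p (nat_lit 0x1da8617d02) (nat_lit 0x421a86b15000300000600) (nat_lit 49)))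
 (.p (nat_lit 0x1d261d241d221d1e1d1c38e306) (nat_lit 0x2000096411) (nat_lit 52)))
 (.n (.p (nat_lit 0x17e81cef02) (nat_lit 0x140603) (nat_lit 4))
 (.p (nat_lit 0x2b7a2b782b762b722b7004672b7507) (nat_lit 0x24082b) (nat_lit 7))))
 (.n (.n (.p (nat_lit 0x1f561f541f521f4e1f4c1d2d06) (nat_lit 0x2000044900) (nat_lit 52))
 (.p (nat_lit 0xeca0ec80ec40ec20ec033a106) (nat_lit 0x40000caa1e) (nat_lit 51)))
 (.n (.p (nat_lit 0xb420b400b3e0b3c0158014b01410b450b3b09) (nat_lit 0x2800207) (nat_lit 10))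
 (.p (nat_lit 0x5e582da102) (nat_lit 0x40046700) (nat_lit 47)))))
 (.n (.n (.n (.p (nat_lit 0xf60113f02) (nat_lit 0x240400) (nat_lit 4))
 (.p (nat_lit 0x39ee367902) (nat_lit 0x200518) (nat_lit 4)))
 (.n (.p (nat_lit 0xa2e220b02) (nat_lit 0x140105) (nat_lit 5))
 (.p (nat_lit 0x3ab5be102) (nat_lit 0x500a23) (nat_lit 28))))
 (.n (.n (.p (nat_lit 0x2c3921b102) (nat_lit 0x402a01) (nat_lit 16))
 (.p (nat_lit 0x1790178e178a1788178627b106) (nat_lit 0x40000d4124) (nat_lit 52)))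
 (.n (.p (nat_lit 0x1dc21dc01dbc1db83f973f9306) (nat_lit 0x500000030b) (nat_lit 52))
 (.p (nat_lit 0xbb25f7b02) (nat_lit 0x581a22b44000200040000) (nat_lit 50))))))
 (.n (.n (.n (.n (.p (nat_lit 0x8740a5502) (nat_lit 0x200200) (nat_lit 5))
 (.p (nat_lit 0x1392542d02) (nat_lit 0x400515) (nat_lit 29)))
 (.n (.p (nat_lit 0x4046404440424040403e111906) (nat_lit 0x1000004404) (nat_lit 51))
 (.p (nat_lit 0x6158ff02) (nat_lit 0x400902) (nat_lit 28))))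
 (.n (.n (.p (nat_lit 0x8a2156502) (nat_lit 0x100101) (nat_lit 4))
 (.p (nat_lit 0x74a100302) (nat_lit 0x540023) (nat_lit 4)))
 (.n (.p (nat_lit 0x14e015d015905a3070305) (nat_lit 0x64540a07) (nat_lit 9))
 (.p (nat_lit 0x5d6121e102) (nat_lit 0x1c0080000a00) (nat_lit 41)))))
 (.n (.n (.n (.p (nat_lit 0x18c418c018be18bc162b162706) (nat_lit 0x14000092700) (nat_lit 52))
 (.p (nat_lit 0x2731088502) (nat_lit 0x40c11c) (nat_lit 16)))
 (.n (.p (nat_lit 0x4b29062d02) (nat_lit 0x208006) (nat_lit 16))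
 (.p (nat_lit 0x5d390d1902) (nat_lit 0x140060000300) (nat_lit 40))))
 (.n (.n (.p (nat_lit 0xa4e0a4c0a4a0a480a46231b06) (nat_lit 0x800044a02) (nat_lit 52))
 (.p (nat_lit 0x6920690068e068c0688089706) (nat_lit 0x100000812a) (nat_lit 52)))
 (.n (.p (nat_lit 0x31e5138302) (nat_lit 0x20e50e) (nat_lit 16))
 (.p (nat_lit 0x1ae0607f02) (nat_lit 0x511a22b85000200000600) (nat_lit 50))))))

def c1024_911 : Tr :=
 .n (.n (.n (.n (.n (.p (nat_lit 0x6560652064e064c0020000900050655065109) (nat_lit 0x2240000) (nat_lit 10))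
 (.p (nat_lit 0x3d2e3d2a3d283d263d244a9506) (nat_lit 0x80000c8813) (nat_lit 51)))
 (.n (.p (nat_lit 0x1daa1da81da61da41da025c106) (nat_lit 0x1000052b03) (nat_lit 52))
 (.p (nat_lit 0x3fa4414502) (nat_lit 0x32e) (nat_lit 5))))
 (.n (.n (.p (nat_lit 0x22cf1ffb02) (nat_lit 0x440a00) (nat_lit 16))
 (.p (nat_lit 0x43883f8902) (nat_lit 0x140b20) (nat_lit 4)))
 (.n (.p (nat_lit 0x14a414a214a0149c10d310cf06) (nat_lit 0x2800014407) (nat_lit 52))
 (.p (nat_lit 0x5d975e7d02) (nat_lit 0x1600a0000800) (nat_lit 37)))))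
 (.n (.n (.n (.p (nat_lit 0x14e9122502) (nat_lit 0x446500) (nat_lit 16))
 (.p (nat_lit 0x49f349e702) (nat_lit 0x30871a) (nat_lit 16)))
 (.n (.p (nat_lit 0x23a623a223a0239e180717ff06) (nat_lit 0x88000c6605) (nat_lit 51))
 (.p (nat_lit 0x5cfd079902) (nat_lit 0x200040000100) (nat_lit 38))))
 (.n (.n (.p (nat_lit 0x30f3110302) (nat_lit 0x200402) (nat_lit 16))
 (.p (nat_lit 0x424e424c424a4248424603fb424507) (nat_lit 0x627) (nat_lit 7)))
 (.n (.p (nat_lit 0x50924b0102) (nat_lit 0x34080d) (nat_lit 4))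
 (.p (nat_lit 0x1da85fff02) (nat_lit 0x16a88cd50000300000600) (nat_lit 49))))))
 (.n (.n (.n (.n (.p (nat_lit 0xdca0dc80dc60dc40b390b3706) (nat_lit 0x18000014300) (nat_lit 52))
 (.p (nat_lit 0x20180c5702) (nat_lit 0x140915) (nat_lit 5)))
 (.n (.p (nat_lit 0x195442ad02) (nat_lit 0x400704) (nat_lit 29))
 (.p (nat_lit 0x1a201a0019c01980143018b06) (nat_lit 0xb1660a) (nat_lit 26))))
 (.n (.n (.p (nat_lit 0x1a061a041a0019fc1c1d1c1906) (nat_lit 0x500000a801) (nat_lit 52))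
 (.p (nat_lit 0x1939166102) (nat_lit 0x200623) (nat_lit 15)))
 (.n (.p (nat_lit 0x396d316d02) (nat_lit 0x352409) (nat_lit 16))
 (.p (nat_lit 0x129e5ef302) (nat_lit 0x4a9d84344000500000000) (nat_lit 49)))))
 (.n (.n (.n (.p (nat_lit 0x1c1d18ff02) (nat_lit 0x30c800) (nat_lit 16))
 (.p (nat_lit 0x20251d5b02) (nat_lit 0x14081c) (nat_lit 15)))
 (.n (.p (nat_lit 0x176c176a1768176417621acd06) (nat_lit 0x2000052706) (nat_lit 51))
 (.p (nat_lit 0x5d635e3302) (nat_lit 0x1a0080000500) (nat_lit 37))))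
 (.n (.n (.p (nat_lit 0xcd70a1502) (nat_lit 0x40103) (nat_lit 15))
 (.p (nat_lit 0x29330f8502) (nat_lit 0x24c32a) (nat_lit 16)))
 (.n (.p (nat_lit 0x2576536502) (nat_lit 0x40b0e) (nat_lit 29))
 (.p (nat_lit 0x1ada60ff02) (nat_lit 0x3425219b0000200000600) (nat_lit 49))))))

def c512_399 : Tr := .n c1024_399 c1024_911

def c256_143 : Tr := .n c512_143 c512_399

def c128_15 : Tr := .n c256_15 c256_143

def c1024_79 : Tr :=
 .n (.n (.n (.n (.n (.n (.p (nat_lit 0x60005a0058006504) (nat_lit 0x9800400002) (nat_lit 17))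
 (.p (nat_lit 0x1adc613302) (nat_lit 0x35486a3b0000200000600) (nat_lit 49)))
 (.p (nat_lit 0x32a72b9f02) (nat_lit 0x51090f) (nat_lit 16)))
 (.n (.p (nat_lit 0xfb30fa702) (nat_lit 0x154303) (nat_lit 16))
 (.p (nat_lit 0x1d7a1d781d761d741d7204351d7107) (nat_lit 0x4082a) (nat_lit 7))))
 (.n (.n (.p (nat_lit 0x1d291a5d02) (nat_lit 0x40800) (nat_lit 15))
 (.p (nat_lit 0x3b3f22ef02) (nat_lit 0x250a1c) (nat_lit 16)))
 (.n (.p (nat_lit 0xa4e0a4c0a480a460a441d9b06) (nat_lit 0x4000044806) (nat_lit 52))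
 (.p (nat_lit 0x5d1d5e4102) (nat_lit 0x40000600) (nat_lit 37)))))
 (.n (.n (.n (.p (nat_lit 0xf100f0e0f0c0f080c990c9106) (nat_lit 0x110000d0300) (nat_lit 52))
 (.p (nat_lit 0x2a6e283102) (nat_lit 0x516) (nat_lit 5)))
 (.n (.p (nat_lit 0xc200cd00cf1fdf1e7905) (nat_lit 0xa0a00b04) (nat_lit 9))
 (.p (nat_lit 0x2435aef02) (nat_lit 0x500611) (nat_lit 28))))
 (.n (.n (.p (nat_lit 0x7aa07a807a407a207a01ee706) (nat_lit 0x4000002901) (nat_lit 51))
 (.p (nat_lit 0x38d038ce38cc38ca38c61d6706) (nat_lit 0x10000d6823) (nat_lit 52)))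
 (.n (.p (nat_lit 0x37d634e702) (nat_lit 0x20030a) (nat_lit 5))
 (.p (nat_lit 0x20765f2f02) (nat_lit 0x3a2560b44000400000600) (nat_lit 50))))))
 (.n (.n (.n (.n (.p (nat_lit 0x5c405c205c005be0014000b000105c705bd09) (nat_lit 0x2800100) (nat_lit 10))
 (.p (nat_lit 0x5d253ff02) (nat_lit 0x500015) (nat_lit 29)))
 (.n (.p (nat_lit 0x8d508c902) (nat_lit 0x216104) (nat_lit 16))
 (.p (nat_lit 0x46f4489102) (nat_lit 0x10032f) (nat_lit 5))))
 (.n (.n (.p (nat_lit 0x2449215902) (nat_lit 0x208b00) (nat_lit 16))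
 (.p (nat_lit 0x4b244b204b1e4b1c4b1a039b4b2307) (nat_lit 0x400022) (nat_lit 7)))
 (.n (.p (nat_lit 0x190a517f02) (nat_lit 0x300707) (nat_lit 29))
 (.p (nat_lit 0x5d3b1f1702) (nat_lit 0x120060000900) (nat_lit 41)))))
 (.n (.n (.n (.p (nat_lit 0x167f155702) (nat_lit 0x510600) (nat_lit 16))
 (.p (nat_lit 0xd100d0a0d080d0605dd05db06) (nat_lit 0xc00000601c) (nat_lit 52)))
 (.n (.p (nat_lit 0xbbc0bb80bb60bb40bb21ac506) (nat_lit 0x80000c4705) (nat_lit 51))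
 (.p (nat_lit 0x5dde0ba702) (nat_lit 0x40200) (nat_lit 45))))
 (.n (.n (.p (nat_lit 0x1cea1ce61ce41ce21ef51eed06) (nat_lit 0x880000c902) (nat_lit 52))
 (.p (nat_lit 0x4686482302) (nat_lit 0x340228) (nat_lit 4)))
 (.n (.p (nat_lit 0x10da091902) (nat_lit 0x40e) (nat_lit 5))
 (.p (nat_lit 0x638603102) (nat_lit 0x4099a2335000000040000) (nat_lit 49))))))

def c1024_591 : Tr :=
 .n (.n (.n (.n (.n (.n (.p (nat_lit 0x3aa03a603a403ad04) (nat_lit 0x16000400023) (nat_lit 17))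
 (.p (nat_lit 0x13fc61ad02) (nat_lit 0x3421a9c14800500040000) (nat_lit 50)))
 (.p (nat_lit 0x1fc01fbe1fbc1fb81fb6408706) (nat_lit 0x200008c412) (nat_lit 52)))
 (.n (.p (nat_lit 0x3b2e3b2c3b2a3b283b263b24009207) (nat_lit 0x40a03) (nat_lit 8))
 (.p (nat_lit 0x336431d102) (nat_lit 0x300a2c) (nat_lit 5))))
 (.n (.n (.p (nat_lit 0x208a2088208620841e971e8d06) (nat_lit 0x10800000a00) (nat_lit 52))
 (.p (nat_lit 0x3beb3b4302) (nat_lit 0x440a1f) (nat_lit 15)))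
 (.n (.p (nat_lit 0x4c804c604c404c20e0b0e0906) (nat_lit 0x18000000307) (nat_lit 52))
 (.p (nat_lit 0x5e62310502) (nat_lit 0xa0002700) (nat_lit 47)))))
 (.n (.n (.n (.p (nat_lit 0x12a6129a10c903) (nat_lit 0x300500) (nat_lit 6))
 (.p (nat_lit 0x1e4e1e4a1e481e461e44419b06) (nat_lit 0x800000c519) (nat_lit 52)))
 (.n (.p (nat_lit 0xfc420dd02) (nat_lit 0x440305) (nat_lit 5))
 (.p (nat_lit 0x5d1c5d1a5d185d165d145d125d105d0e5d0c5d0a5d085d065d045d025d005cfe5cfc5cfa5cf85cf65cf45cf25cf05cee18) (nat_lit 0x40000000) (nat_lit 35))))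
 (.n (.n (.p (nat_lit 0x2d7a2d782d762d742d70075b06) (nat_lit 0x1000054002) (nat_lit 52))
 (.p (nat_lit 0x33fe574f02) (nat_lit 0x300b25) (nat_lit 29)))
 (.n (.p (nat_lit 0x266460102) (nat_lit 0x50020c) (nat_lit 1))
 (.p (nat_lit 0x13f25fa702) (nat_lit 0x89832955800500040000) (nat_lit 49))))))
 (.n (.n (.n (.n (.p (nat_lit 0x9d40bbb02) (nat_lit 0x440200) (nat_lit 5))
 (.p (nat_lit 0x1daa1da81da41da21da014db06) (nat_lit 0x4000052515) (nat_lit 52)))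
 (.n (.p (nat_lit 0x16841faf02) (nat_lit 0x200604) (nat_lit 5))
 (.p (nat_lit 0xe3598902) (nat_lit 0x5) (nat_lit 28))))
 (.n (.n (.p (nat_lit 0xe28288f02) (nat_lit 0x200301) (nat_lit 29))
 (.p (nat_lit 0x9e8117b02) (nat_lit 0x240123) (nat_lit 4)))
 (.n (.p (nat_lit 0x15ee15ea15e815e615e4292b06) (nat_lit 0x80000d0308) (nat_lit 52))
 (.p (nat_lit 0x5d21249302) (nat_lit 0x2c0060000b00) (nat_lit 41)))))
 (.n (.n (.n (.p (nat_lit 0x1a1e1a1c1a1a1a181a16179306) (nat_lit 0x800052700) (nat_lit 51))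
 (.p (nat_lit 0x314032103250ec30d5d05) (nat_lit 0xa194051c) (nat_lit 9)))
 (.n (.p (nat_lit 0xe6624e102) (nat_lit 0x300306) (nat_lit 4))
 (.p (nat_lit 0x5d1b0fd902) (nat_lit 0x20040000400) (nat_lit 38))))
 (.n (.n (.p (nat_lit 0x160616041602160015fe245d06) (nat_lit 0x800092b02) (nat_lit 51))
 (.p (nat_lit 0x154a15481546154415420b5306) (nat_lit 0x80000c22a) (nat_lit 51)))
 (.n (.p (nat_lit 0x1a76096302) (nat_lit 0x14070e) (nat_lit 5))
 (.p (nat_lit 0x249260a902) (nat_lit 0x344581ca4000500040600) (nat_lit 50))))))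

def c512_79 : Tr := .n c1024_79 c1024_591

def c1024_335 : Tr :=
 .n (.n (.n (.n (.n (.n (.p (nat_lit 0x14a0140014f03) (nat_lit 0x10800500007) (nat_lit 17))
 (.p (nat_lit 0x1adc616f02) (nat_lit 0x421aa6315000200000600) (nat_lit 49)))
 (.p (nat_lit 0x34282e1f02) (nat_lit 0x140b10) (nat_lit 5)))
 (.n (.p (nat_lit 0x94009f00a91b851ceb05) (nat_lit 0x80d00603) (nat_lit 9))
 (.p (nat_lit 0x178417821780177c177a281d06) (nat_lit 0x200001422b) (nat_lit 52))))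
 (.n (.n (.p (nat_lit 0x1eef1bc502) (nat_lit 0x10e900) (nat_lit 16))
 (.p (nat_lit 0x32fa2fe502) (nat_lit 0x44091e) (nat_lit 4)))
 (.n (.p (nat_lit 0x227a2278227622722069206106) (nat_lit 0x1100004c906) (nat_lit 51))
 (.p (nat_lit 0x5cd5197302) (nat_lit 0x180020000700) (nat_lit 39)))))
 (.n (.n (.n (.p (nat_lit 0x10cb0dfd02) (nat_lit 0x400400) (nat_lit 15))
 (.p (nat_lit 0x33ea2f2d02) (nat_lit 0x500b17) (nat_lit 5)))
 (.n (.p (nat_lit 0xed442502) (nat_lit 0x540005) (nat_lit 30))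
 (.p (nat_lit 0x38e038803860384030f040f06) (nat_lit 0x230e521) (nat_lit 26))))
 (.n (.n (.p (nat_lit 0x21a8160902) (nat_lit 0xa01) (nat_lit 5))
 (.p (nat_lit 0x26cc294b02) (nat_lit 0x240024) (nat_lit 4)))
 (.n (.p (nat_lit 0x68606820680067e067c3bc706) (nat_lit 0x80000c6b0a) (nat_lit 52))
 (.p (nat_lit 0x15425f7102) (nat_lit 0x3aa074c44000000000600) (nat_lit 50))))))
 (.n (.n (.n (.n (.p (nat_lit 0x9e3072702) (nat_lit 0x546100) (nat_lit 16))
 (.p (nat_lit 0x54225420541e541c541a5418028e1247124512430a) (nat_lit 0xd140415) (nat_lit 31)))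
 (.n (.p (nat_lit 0xfba1e1302) (nat_lit 0x540304) (nat_lit 5))
 (.p (nat_lit 0x2d58cd02) (nat_lit 0x100a01) (nat_lit 28))))
 (.n (.n (.p (nat_lit 0x8a905f502) (nat_lit 0x400001) (nat_lit 15))
 (.p (nat_lit 0x12cc12ca12c812c612c405eb06) (nat_lit 0x10000004023) (nat_lit 52)))
 (.n (.p (nat_lit 0x216006ed02) (nat_lit 0xa07) (nat_lit 4))
 (.p (nat_lit 0x5e9e247902) (nat_lit 0x40010a00) (nat_lit 47)))))
 (.n (.n (.n (.p (nat_lit 0x182c182a182618241822162706) (nat_lit 0x4000000700) (nat_lit 51))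
 (.p (nat_lit 0x8840d3f02) (nat_lit 0x40011c) (nat_lit 5)))
 (.n (.p (nat_lit 0x1fcc1fca1fc81fc61fc21d8b06) (nat_lit 0x100004e805) (nat_lit 52))
 (.p (nat_lit 0x5ccd0d0902) (nat_lit 0x200020000300) (nat_lit 38))))
 (.n (.n (.p (nat_lit 0x332d21bf02) (nat_lit 0x500a02) (nat_lit 16))
 (.p (nat_lit 0x51144f1102) (nat_lit 0x300929) (nat_lit 4)))
 (.n (.p (nat_lit 0x52ea52e852e652e452e252e001f207) (nat_lit 0x50e) (nat_lit 8))
 (.p (nat_lit 0x181c607102) (nat_lit 0x588162b40800100000600) (nat_lit 50))))))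

def c1024_847 : Tr :=
 .n (.n (.n (.n (.n (.n (.p (nat_lit 0x5dd04e302) (nat_lit 0x406000) (nat_lit 16))
 (.p (nat_lit 0x114261eb02) (nat_lit 0x14e0a8c74000400040000) (nat_lit 49)))
 (.p (nat_lit 0x494844dd02) (nat_lit 0x540513) (nat_lit 5)))
 (.n (.p (nat_lit 0x4d604d404d204d004ce25c906) (nat_lit 0x10000040b03) (nat_lit 51))
 (.p (nat_lit 0x3e02412702) (nat_lit 0x24012e) (nat_lit 4))))
 (.n (.n (.p (nat_lit 0x227c2276227422721ffb1ff906) (nat_lit 0xc00004ca00) (nat_lit 51))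
 (.p (nat_lit 0x561a56185616561456125610036e07) (nat_lit 0x720) (nat_lit 8)))
 (.n (.p (nat_lit 0x14e015b01570517068905) (nat_lit 0x46000407) (nat_lit 9))
 (.p (nat_lit 0x5d611add02) (nat_lit 0x1c0080000800) (nat_lit 38)))))
 (.n (.n (.n (.p (nat_lit 0x1448144614421440143e122306) (nat_lit 0x40000c6500) (nat_lit 52))
 (.p (nat_lit 0x495245d302) (nat_lit 0x44051a) (nat_lit 5)))
 (.n (.p (nat_lit 0x254e254c254a25482546169706) (nat_lit 0x10000090605) (nat_lit 52))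
 (.p (nat_lit 0x5dc60c9b02) (nat_lit 0x4a100) (nat_lit 48))))
 (.n (.n (.p (nat_lit 0xf9a302302) (nat_lit 0x140302) (nat_lit 29))
 (.p (nat_lit 0x1fe41fe21fe01fde1fdc3d7106) (nat_lit 0x800016127) (nat_lit 51)))
 (.n (.p (nat_lit 0x4f1e4b5b02) (nat_lit 0x54040d) (nat_lit 4))
 (.p (nat_lit 0xbb25fef02) (nat_lit 0x306a81c35000200040000) (nat_lit 50))))))
 (.n (.n (.n (.n (.p (nat_lit 0xd4c0d480d460d420b370b3106) (nat_lit 0x9000082300) (nat_lit 51))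
 (.p (nat_lit 0x1d52547302) (nat_lit 0x340815) (nat_lit 29)))
 (.n (.p (nat_lit 0x207420722070206e206a17f506) (nat_lit 0x1000054604) (nat_lit 52))
 (.p (nat_lit 0x1795a2f02) (nat_lit 0x500408) (nat_lit 28))))
 (.n (.n (.p (nat_lit 0x1c1615d902) (nat_lit 0x801) (nat_lit 4))
 (.p (nat_lit 0xebe0eba0eb60eb40caf0cab06) (nat_lit 0xa00004a223) (nat_lit 51)))
 (.n (.p (nat_lit 0x30902d3d02) (nat_lit 0x340309) (nat_lit 4))
 (.p (nat_lit 0x114a5ee302) (nat_lit 0x4a8866344000400040000) (nat_lit 50)))))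
 (.n (.n (.n (.p (nat_lit 0x1bb41bb21bb01bae1bac1baa06) (nat_lit 0x16800) (nat_lit 52))
 (.p (nat_lit 0x37943790378e378c378a1bfb06) (nat_lit 0x800008281c) (nat_lit 51)))
 (.n (.p (nat_lit 0x178417821780177e177a196706) (nat_lit 0x1000014706) (nat_lit 52))
 (.p (nat_lit 0x5e2a13fb02) (nat_lit 0x40040500) (nat_lit 46))))
 (.n (.n (.p (nat_lit 0x35c908c102) (nat_lit 0x408103) (nat_lit 16))
 (.p (nat_lit 0x4dd90e1f02) (nat_lit 0x31632a) (nat_lit 16)))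
 (.n (.p (nat_lit 0x22da535502) (nat_lit 0x440a0e) (nat_lit 29))
 (.p (nat_lit 0xbb460f302) (nat_lit 0x440d663a4000200040000) (nat_lit 50))))))

def c512_335 : Tr := .n c1024_335 c1024_847

def c256_79 : Tr := .n c512_79 c512_335

def c1024_207 : Tr :=
 .n (.n (.n (.n (.n (.n (.p (nat_lit 0xcd00cb00c700c404) (nat_lit 0x16100004) (nat_lit 20))
 (.p (nat_lit 0x113a615102) (nat_lit 0x2b0221d84000400040000) (nat_lit 49)))
 (.p (nat_lit 0x32702e7102) (nat_lit 0x240510) (nat_lit 4)))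
 (.n (.p (nat_lit 0x127b126f02) (nat_lit 0x554403) (nat_lit 16))
 (.p (nat_lit 0x21a421a2219e219c045c043f043921a721a109) (nat_lit 0x2a00a2a) (nat_lit 10))))
 (.n (.n (.p (nat_lit 0x1e281e261e221e201bcd1bc706) (nat_lit 0x12000088900) (nat_lit 52))
 (.p (nat_lit 0x2bac290b02) (nat_lit 0x91d) (nat_lit 5)))
 (.n (.p (nat_lit 0x1200125013b2403255905) (nat_lit 0x22300906) (nat_lit 9))
 (.p (nat_lit 0x5e4a16a102) (nat_lit 0x80040600) (nat_lit 45)))))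
 (.n (.n (.n (.p (nat_lit 0xff60ff40ff00fee0fec0dfb06) (nat_lit 0x4000000400) (nat_lit 52))
 (.p (nat_lit 0x31f42f5b02) (nat_lit 0x400517) (nat_lit 5)))
 (.n (.p (nat_lit 0x224c22482246224425d325cb06) (nat_lit 0x8800048b04) (nat_lit 52))
 (.p (nat_lit 0x2fa02f802f602f4028b038506) (nat_lit 0x280e41a) (nat_lit 26))))
 (.n (.n (.p (nat_lit 0x38004500531605177705) (nat_lit 0xa1c40901) (nat_lit 9))
 (.p (nat_lit 0x22fa11ff02) (nat_lit 0x240a23) (nat_lit 5)))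
 (.n (.p (nat_lit 0x3a8c347d02) (nat_lit 0x10060a) (nat_lit 4))
 (.p (nat_lit 0x180e5f5302) (nat_lit 0x1a9d22350000100000600) (nat_lit 49))))))
 (.n (.n (.n (.n (.p (nat_lit 0x8dd05bd02) (nat_lit 0x16100) (nat_lit 16))
 (.p (nat_lit 0x10e80bd902) (nat_lit 0x100415) (nat_lit 5)))
 (.n (.p (nat_lit 0xb53e8b02) (nat_lit 0x40204) (nat_lit 30))
 (.p (nat_lit 0x50744f5702) (nat_lit 0x830) (nat_lit 5))))
 (.n (.n (.p (nat_lit 0x2550254e254a2548254622c106) (nat_lit 0x40000d0b00) (nat_lit 52))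
 (.p (nat_lit 0x50604e0702) (nat_lit 0x200822) (nat_lit 4)))
 (.n (.p (nat_lit 0x352e352c352a35241bd31bd106) (nat_lit 0x3000016807) (nat_lit 52))
 (.p (nat_lit 0x5cb921cd02) (nat_lit 0x40000000a00) (nat_lit 39)))))
 (.n (.n (.n (.p (nat_lit 0x176a176817661764176216bb06) (nat_lit 0x10000052600) (nat_lit 51))
 (.p (nat_lit 0xbbc0bba0bb80bb60bb4073506) (nat_lit 0x8000c401c) (nat_lit 51)))
 (.n (.p (nat_lit 0x1c2c214702) (nat_lit 0x500805) (nat_lit 5))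
 (.p (nat_lit 0x5d6d5ded02) (nat_lit 0x100080000200) (nat_lit 37))))
 (.n (.n (.p (nat_lit 0x32f9205902) (nat_lit 0x346902) (nat_lit 16))
 (.p (nat_lit 0x4c904edd02) (nat_lit 0x540129) (nat_lit 4)))
 (.n (.p (nat_lit 0x47e310e502) (nat_lit 0x51440e) (nat_lit 16))
 (.p (nat_lit 0xe72604f02) (nat_lit 0x40a962335000300040000) (nat_lit 49))))))

def c1024_719 : Tr :=
 .n (.n (.n (.n (.n (.n (.p (nat_lit 0x4d804cc04e503) (nat_lit 0x500000) (nat_lit 6))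
 (.p (nat_lit 0x8f261cf02) (nat_lit 0x3561684a0800100040000) (nat_lit 49)))
 (.p (nat_lit 0x42683d4702) (nat_lit 0x40612) (nat_lit 5)))
 (.n (.p (nat_lit 0xe820e800e7e0e7c0e7a246906) (nat_lit 0x800086b03) (nat_lit 51))
 (.p (nat_lit 0x1d1a1d181d141d121d1036d506) (nat_lit 0x400001622d) (nat_lit 51))))
 (.n (.n (.p (nat_lit 0x21831e9702) (nat_lit 0x504a00) (nat_lit 16))
 (.p (nat_lit 0x1e721e701e6e1e6c1e6a3d0106) (nat_lit 0x8000ce020) (nat_lit 51)))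
 (.n (.p (nat_lit 0x4d804d604d204ce0f6f0f6b06) (nat_lit 0x5000040307) (nat_lit 51))
 (.p (nat_lit 0x5d191ae502) (nat_lit 0x40040000800) (nat_lit 40)))))
 (.n (.n (.n (.p (nat_lit 0x138110c502) (nat_lit 0x102500) (nat_lit 16))
 (.p (nat_lit 0x42d23e5702) (nat_lit 0x500719) (nat_lit 5)))
 (.n (.p (nat_lit 0x13da486b02) (nat_lit 0x400505) (nat_lit 29))
 (.p (nat_lit 0x5db62be102) (nat_lit 0x4004c000) (nat_lit 47))))
 (.n (.n (.p (nat_lit 0x2f162f142f122f102f0e2f0c06) (nat_lit 0x14202) (nat_lit 52))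
 (.p (nat_lit 0x3ace393d02) (nat_lit 0x240626) (nat_lit 5)))
 (.n (.p (nat_lit 0x49d049ce49cc49ca49c801cf49d307) (nat_lit 0x50070c) (nat_lit 7))
 (.p (nat_lit 0x1db05fd102) (nat_lit 0x95a2ec05000300000600) (nat_lit 50))))))
 (.n (.n (.n (.n (.p (nat_lit 0xcaf09d502) (nat_lit 0x448200) (nat_lit 16))
 (.p (nat_lit 0x192619241920191e191c0287192307) (nat_lit 0x300715) (nat_lit 7)))
 (.n (.p (nat_lit 0x4247168302) (nat_lit 0x108604) (nat_lit 16))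
 (.p (nat_lit 0x11c0118011601140001039b06) (nat_lit 0x410306) (nat_lit 26))))
 (.n (.n (.p (nat_lit 0x1254172f02) (nat_lit 0x440401) (nat_lit 4))
 (.p (nat_lit 0x3080b4902) (nat_lit 0x100223) (nat_lit 1)))
 (.n (.p (nat_lit 0x50805060504050004fe2be106) (nat_lit 0x2000046908) (nat_lit 52))
 (.p (nat_lit 0xbbc5ec702) (nat_lit 0x4a1a34344000200040000) (nat_lit 50)))))
 (.n (.n (.n (.p (nat_lit 0x1ac5179b02) (nat_lit 0x454700) (nat_lit 16))
 (.p (nat_lit 0x1a8d17c302) (nat_lit 0x4061c) (nat_lit 15)))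
 (.n (.p (nat_lit 0x1292250902) (nat_lit 0x540406) (nat_lit 4))
 (.p (nat_lit 0x5d930feb02) (nat_lit 0x1a00a0000400) (nat_lit 40))))
 (.n (.n (.p (nat_lit 0x34483446344434423440060506) (nat_lit 0x800004003) (nat_lit 52))
 (.p (nat_lit 0x181418121810180e180c0cb306) (nat_lit 0x80004e22a) (nat_lit 52)))
 (.n (.p (nat_lit 0x20111d4702) (nat_lit 0x34080e) (nat_lit 15))
 (.p (nat_lit 0x114660d302) (nat_lit 0x340a623b0000400040000) (nat_lit 50))))))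

def c512_207 : Tr := .n c1024_207 c1024_719

def c1024_463 : Tr :=
 .n (.n (.n (.n (.n (.n (.p (nat_lit 0x29f029b028e03) (nat_lit 0x22200015) (nat_lit 19))
 (.p (nat_lit 0xe78618d02) (nat_lit 0x54c88a970000300040000) (nat_lit 50)))
 (.p (nat_lit 0x353a35343532353039e739e506) (nat_lit 0xc000096511) (nat_lit 52)))
 (.n (.p (nat_lit 0x18c418c218c018be18bc17f106) (nat_lit 0x100000d2603) (nat_lit 52))
 (.p (nat_lit 0x33112c1f02) (nat_lit 0x35092b) (nat_lit 16))))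
 (.n (.n (.p (nat_lit 0x1fcc1fc81fc61fc41fc21d3106) (nat_lit 0x800004e900) (nat_lit 52))
 (.p (nat_lit 0x1b481b461b441b401b3e354d06) (nat_lit 0x20000c601f) (nat_lit 52)))
 (.n (.p (nat_lit 0x45f90b3d02) (nat_lit 0x114207) (nat_lit 16))
 (.p (nat_lit 0x5e5c309102) (nat_lit 0x60040700) (nat_lit 48)))))
 (.n (.n (.n (.p (nat_lit 0x118c118a1188118611820f5f06) (nat_lit 0x1000044400) (nat_lit 52))
 (.p (nat_lit 0x3aac54cb02) (nat_lit 0x500618) (nat_lit 29)))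
 (.n (.p (nat_lit 0x460b0b9702) (nat_lit 0x40a205) (nat_lit 16))
 (.p (nat_lit 0x5c1e5c1c5c1a5c185c160001042807) (nat_lit 0x2829) (nat_lit 25))))
 (.n (.n (.p (nat_lit 0x23e223e023dc23da2315230f06) (nat_lit 0x48000cea01) (nat_lit 52))
 (.p (nat_lit 0x100e100a1008100610042c1506) (nat_lit 0x8000042924) (nat_lit 52)))
 (.n (.p (nat_lit 0x42183cc302) (nat_lit 0x20060b) (nat_lit 5))
 (.p (nat_lit 0x1ad45f8f02) (nat_lit 0x581a303a4000200000600) (nat_lit 49))))))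
 (.n (.n (.n (.n (.p (nat_lit 0xa880a860a840a80087b087306) (nat_lit 0x11000088200) (nat_lit 52))
 (.p (nat_lit 0x197a1976197419721970139306) (nat_lit 0x800008e515) (nat_lit 52)))
 (.n (.p (nat_lit 0x1515127502) (nat_lit 0x240404) (nat_lit 15))
 (.p (nat_lit 0x592459225920591e591a01e9009207) (nat_lit 0x116103) (nat_lit 25))))
 (.n (.n (.p (nat_lit 0xa040a020a0009fc004a0035002d0a0709ff09) (nat_lit 0x2940101) (nat_lit 10))
 (.p (nat_lit 0x88e100b02) (nat_lit 0x300123) (nat_lit 4)))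
 (.n (.p (nat_lit 0x2455241902) (nat_lit 0x208b07) (nat_lit 16))
 (.p (nat_lit 0x5c95248d02) (nat_lit 0x280000000b00) (nat_lit 41)))))
 (.n (.n (.n (.p (nat_lit 0x191b162b02) (nat_lit 0x502700) (nat_lit 16))
 (.p (nat_lit 0xa8a0a880a820a8009df09dd06) (nat_lit 0x60000c811c) (nat_lit 52)))
 (.n (.p (nat_lit 0x8e624bb02) (nat_lit 0x500106) (nat_lit 5))
 (.p (nat_lit 0x5d550d0f02) (nat_lit 0x280080000300) (nat_lit 38))))
 (.n (.n (.p (nat_lit 0x1daa1da81da41da21da0232106) (nat_lit 0x4000052a02) (nat_lit 52))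
 (.p (nat_lit 0x14a09fb02) (nat_lit 0x54012a) (nat_lit 1)))
 (.n (.p (nat_lit 0x686068406820680067c14cb06) (nat_lit 0x10000c650e) (nat_lit 52))
 (.p (nat_lit 0xe6e608f02) (nat_lit 0x356221ca4000300040000) (nat_lit 49))))))

def c1024_975 : Tr :=
 .n (.n (.n (.n (.n (.p (nat_lit 0x69c0698069606940657065306) (nat_lit 0x140000c8000) (nat_lit 52))
 (.p (nat_lit 0x4f2a4bc902) (nat_lit 0x540414) (nat_lit 5)))
 (.n (.p (nat_lit 0x6183c0f02) (nat_lit 0x400004) (nat_lit 29))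
 (.p (nat_lit 0x42ee41e502) (nat_lit 0x10072e) (nat_lit 5))))
 (.n (.n (.p (nat_lit 0x2347233b02) (nat_lit 0x400b00) (nat_lit 34))
 (.p (nat_lit 0x22922290228e228c228a44a706) (nat_lit 0x1000004e021) (nat_lit 51)))
 (.n (.p (nat_lit 0x12321230122a1228016201470145122f122d09) (nat_lit 0x1a40407) (nat_lit 10))
 (.p (nat_lit 0x5e7e3f9102) (nat_lit 0x900) (nat_lit 48)))))
 (.n (.n (.n (.p (nat_lit 0x156a1568156615641557154d06) (nat_lit 0x10800002600) (nat_lit 52))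
 (.p (nat_lit 0x254425422540253c253a4f6306) (nat_lit 0x200001051b) (nat_lit 51)))
 (.n (.p (nat_lit 0xbb00bae0baa0ba80ba6195f06) (nat_lit 0x4000084705) (nat_lit 52))
 (.p (nat_lit 0x5dd23b7d02) (nat_lit 0x60010100) (nat_lit 48))))
 (.n (.n (.p (nat_lit 0x48213b702) (nat_lit 0x400502) (nat_lit 1))
 (.p (nat_lit 0x396439623960395e395a42e306) (nat_lit 0x1000096727) (nat_lit 51)))
 (.n (.p (nat_lit 0x1ed52cf02) (nat_lit 0x30030e) (nat_lit 30))
 (.p (nat_lit 0x2078601102) (nat_lit 0x405aa0b95000400000600) (nat_lit 50))))))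
 (.n (.n (.n (.n (.p (nat_lit 0xe650b3302) (nat_lit 0x216300) (nat_lit 16))
 (.p (nat_lit 0x4620461e461c461a2181217b06) (nat_lit 0x9000000a15) (nat_lit 52)))
 (.n (.p (nat_lit 0x42b7195302) (nat_lit 0x300704) (nat_lit 16))
 (.p (nat_lit 0x1f001ec01ea01e8020b000906) (nat_lit 0x40c40e) (nat_lit 26))))
 (.n (.n (.p (nat_lit 0x1d80175b02) (nat_lit 0x240801) (nat_lit 5))
 (.p (nat_lit 0x56e656e456e256e056de56dc03ac07) (nat_lit 0x40723) (nat_lit 8)))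
 (.n (.p (nat_lit 0x3aeb332b02) (nat_lit 0x412a09) (nat_lit 16))
 (.p (nat_lit 0x1ad45f1102) (nat_lit 0x3a2270350000200000600) (nat_lit 49)))))
 (.n (.n (.n (.p (nat_lit 0x1c661c641c601c5e1a671a6106) (nat_lit 0x120000c0800) (nat_lit 52))
 (.p (nat_lit 0x30b557902) (nat_lit 0x24091c) (nat_lit 30)))
 (.n (.p (nat_lit 0x7aa07a807a407a207a01c3506) (nat_lit 0x4000002806) (nat_lit 51))
 (.p (nat_lit 0x5e343c0502) (nat_lit 0xa0050500) (nat_lit 48))))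
 (.n (.n (.p (nat_lit 0x2d40cdf02) (nat_lit 0x440203) (nat_lit 1))
 (.p (nat_lit 0x43957e902) (nat_lit 0x24062a) (nat_lit 30)))
 (.n (.p (nat_lit 0x2a0826ed02) (nat_lit 0x4040f) (nat_lit 5))
 (.p (nat_lit 0x13fc611502) (nat_lit 0x3422621b0000500040000) (nat_lit 50))))))

def c512_463 : Tr := .n c1024_463 c1024_975

def c256_207 : Tr := .n c512_207 c512_463

def c128_79 : Tr := .n c256_79 c256_207

def c64_15 : Tr := .n c128_15 c128_79

def c1024_47 : Tr :=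
 .n (.n (.n (.n (.n (.n (.p (nat_lit 0x320030003903) (nat_lit 0xc000500001) (nat_lit 17))
 (.p (nat_lit 0x113c612d02) (nat_lit 0x45486a3a4000400040000) (nat_lit 49)))
 (.p (nat_lit 0x2b94271102) (nat_lit 0x90f) (nat_lit 4)))
 (.n (.p (nat_lit 0xfac1cad02) (nat_lit 0x440303) (nat_lit 5))
 (.p (nat_lit 0x1d711aa502) (nat_lit 0x4072a) (nat_lit 15))))
 (.n (.n (.p (nat_lit 0x1d0e1d0c1d081d041a631a5f06) (nat_lit 0x50000d4800) (nat_lit 51))
 (.p (nat_lit 0x22f0559302) (nat_lit 0x340a1c) (nat_lit 29)))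
 (.n (.p (nat_lit 0x1d98254b02) (nat_lit 0x240806) (nat_lit 4))
 (.p (nat_lit 0x5cd3169b02) (nat_lit 0x1a0020000600) (nat_lit 39)))))
 (.n (.n (.n (.p (nat_lit 0xeca0ec60ec40ec20c970c8f06) (nat_lit 0x88000ca300) (nat_lit 51))
 (.p (nat_lit 0x25860b2702) (nat_lit 0x240b15) (nat_lit 5)))
 (.n (.p (nat_lit 0x430b1ab902) (nat_lit 0x440704) (nat_lit 16))
 (.p (nat_lit 0x22c5ac702) (nat_lit 0x50080f) (nat_lit 27))))
 (.n (.n (.p (nat_lit 0x1ee22b7f02) (nat_lit 0x100901) (nat_lit 29))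
 (.p (nat_lit 0x1d6656f702) (nat_lit 0x140823) (nat_lit 29)))
 (.n (.p (nat_lit 0x23c374702) (nat_lit 0x24020a) (nat_lit 1))
 (.p (nat_lit 0xe725f2102) (nat_lit 0x3a2570344000300040000) (nat_lit 49))))))
 (.n (.n (.n (.n (.p (nat_lit 0x5c605c405c205c005be000105bd07) (nat_lit 0x100) (nat_lit 7))
 (.p (nat_lit 0x457a457845764574457250f106) (nat_lit 0x200008e914) (nat_lit 51)))
 (.n (.p (nat_lit 0x8ce08cc08ca08c808c400b708c707) (nat_lit 0x100104) (nat_lit 7))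
 (.p (nat_lit 0x468c490302) (nat_lit 0x4022f) (nat_lit 4))))
 (.n (.n (.p (nat_lit 0x2412240c240a2408215d215b06) (nat_lit 0xc000092b00) (nat_lit 51))
 (.p (nat_lit 0x4a42564702) (nat_lit 0x340721) (nat_lit 29)))
 (.n (.p (nat_lit 0x147517302) (nat_lit 0x340607) (nat_lit 30))
 (.p (nat_lit 0x5cfb1f1502) (nat_lit 0x220040000900) (nat_lit 41)))))
 (.n (.n (.n (.p (nat_lit 0x1639154d02) (nat_lit 0x2600) (nat_lit 16))
 (.p (nat_lit 0x5dc05da05d805d605d4031105df07) (nat_lit 0x50001c) (nat_lit 7)))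
 (.n (.p (nat_lit 0x1ac4213902) (nat_lit 0x440705) (nat_lit 5))
 (.p (nat_lit 0x5cb15ddd02) (nat_lit 0xc0000000200) (nat_lit 37))))
 (.n (.n (.p (nat_lit 0x1ef21a1b02) (nat_lit 0x300902) (nat_lit 5))
 (.p (nat_lit 0x458e479b02) (nat_lit 0x440128) (nat_lit 5)))
 (.n (.p (nat_lit 0xa640a620a600a5e0f7f0f7506) (nat_lit 0x1080004030e) (nat_lit 51))
 (.p (nat_lit 0xe72602702) (nat_lit 0x406a62335000300040000) (nat_lit 49))))))

def c1024_559 : Tr :=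
 .n (.n (.n (.n (.n (.n (.p (nat_lit 0x3660362037103) (nat_lit 0x2800500020) (nat_lit 17))
 (.p (nat_lit 0x1ada61a702) (nat_lit 0x3421a9c14800200000600) (nat_lit 49)))
 (.p (nat_lit 0x97409720970096e096c3bd506) (nat_lit 0x10000050b11) (nat_lit 51)))
 (.n (.p (nat_lit 0x1fcc1fc81fc61fc221c921c306) (nat_lit 0x900000ea03) (nat_lit 52))
 (.p (nat_lit 0x32c6324302) (nat_lit 0x50092c) (nat_lit 4))))
 (.n (.n (.p (nat_lit 0x20671d3102) (nat_lit 0x456900) (nat_lit 16))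
 (.p (nat_lit 0x307a30783076307430723ab706) (nat_lit 0x1000009461f) (nat_lit 51)))
 (.n (.p (nat_lit 0xe0a0e080e060e040e0201410e0107) (nat_lit 0x307) (nat_lit 7))
 (.p (nat_lit 0x5d9b198702) (nat_lit 0x1200a0000700) (nat_lit 41)))))
 (.n (.n (.n (.p (nat_lit 0x127d0f5d02) (nat_lit 0x54400) (nat_lit 16))
 (.p (nat_lit 0x40923eaf02) (nat_lit 0x200419) (nat_lit 5)))
 (.n (.p (nat_lit 0x46d646d446d246d046ce0e5f06) (nat_lit 0x1000000e305) (nat_lit 51))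
 (.p (nat_lit 0x4935c7302) (nat_lit 0x20012d) (nat_lit 28))))
 (.n (.n (.p (nat_lit 0x762075e075c075a07580061076107) (nat_lit 0x440002) (nat_lit 7))
 (.p (nat_lit 0x3356315902) (nat_lit 0x200a25) (nat_lit 5)))
 (.n (.p (nat_lit 0x1ca433f02) (nat_lit 0x300b0b) (nat_lit 1))
 (.p (nat_lit 0x180e5fa302) (nat_lit 0x589832b44000100000600) (nat_lit 49))))))
 (.n (.n (.n (.n (.p (nat_lit 0xb83087102) (nat_lit 0x12200) (nat_lit 16))
 (.p (nat_lit 0xe760e740e700e6e0e6c14db06) (nat_lit 0x40000c6515) (nat_lit 52)))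
 (.n (.p (nat_lit 0x151a151615141512151000bd151907) (nat_lit 0x440504) (nat_lit 7))
 (.p (nat_lit 0xbe00bc00b800b4000704a506) (nat_lit 0x190c504) (nat_lit 26))))
 (.n (.n (.p (nat_lit 0x33282d02) (nat_lit 0x440201) (nat_lit 30))
 (.p (nat_lit 0x895088902) (nat_lit 0x123) (nat_lit 16)))
 (.n (.p (nat_lit 0x3028d102) (nat_lit 0x300308) (nat_lit 1))
 (.p (nat_lit 0x5d395ebb02) (nat_lit 0x140060000b00) (nat_lit 36)))))
 (.n (.n (.n (.p (nat_lit 0x19b419b219b019ae19ac179d06) (nat_lit 0x100000c2700) (nat_lit 52))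
 (.p (nat_lit 0x11c011be11bc11ba1399139706) (nat_lit 0x180008e51c) (nat_lit 52)))
 (.n (.p (nat_lit 0xe610b9b02) (nat_lit 0x206) (nat_lit 15))
 (.p (nat_lit 0x5cd75e1102) (nat_lit 0x160020000400) (nat_lit 37))))
 (.n (.n (.p (nat_lit 0x16d216d016ca16c82463246106) (nat_lit 0x6000080b02) (nat_lit 52))
 (.p (nat_lit 0xa5a0a580a560a540a520b5306) (nat_lit 0x80000422a) (nat_lit 51)))
 (.n (.p (nat_lit 0x226191502) (nat_lit 0x20070e) (nat_lit 1))
 (.p (nat_lit 0x8fc60a502) (nat_lit 0x346068ca4000100040000) (nat_lit 50))))))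

def c512_47 : Tr := .n c1024_47 c1024_559

def c1024_303 : Tr :=
 .n (.n (.n (.n (.n (.n (.p (nat_lit 0x131012f012003) (nat_lit 0x22300006) (nat_lit 19))
 (.p (nat_lit 0x1f0a616502) (nat_lit 0x340c62b84000300040600) (nat_lit 49)))
 (.p (nat_lit 0x53aa53a853a653a453a253a0022e07) (nat_lit 0xb10) (nat_lit 8)))
 (.n (.p (nat_lit 0x16741b7b02) (nat_lit 0x603) (nat_lit 5))
 (.p (nat_lit 0x17e325af02) (nat_lit 0x440b2a) (nat_lit 15))))
 (.n (.n (.p (nat_lit 0x1ea71bc502) (nat_lit 0x102900) (nat_lit 16))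
 (.p (nat_lit 0x2e26304502) (nat_lit 0x11e) (nat_lit 4)))
 (.n (.p (nat_lit 0x2066512102) (nat_lit 0x440906) (nat_lit 29))
 (.p (nat_lit 0x5e52167502) (nat_lit 0x12700) (nat_lit 48)))))
 (.n (.n (.n (.p (nat_lit 0x10781076107210700dff0df906) (nat_lit 0x12000090400) (nat_lit 51))
 (.p (nat_lit 0x33902f1b02) (nat_lit 0x140a17) (nat_lit 4)))
 (.n (.p (nat_lit 0x440b062502) (nat_lit 0x404005) (nat_lit 16))
 (.p (nat_lit 0x36c03680364036202ed00b906) (nat_lit 0x2202020) (nat_lit 26))))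
 (.n (.n (.p (nat_lit 0x230f204702) (nat_lit 0x40901) (nat_lit 15))
 (.p (nat_lit 0x3a7573702) (nat_lit 0x340b23) (nat_lit 30)))
 (.n (.p (nat_lit 0x3a8b3b6b02) (nat_lit 0xb0a) (nat_lit 15))
 (.p (nat_lit 0x114a5f6302) (nat_lit 0x3aa074b44000400040000) (nat_lit 50))))))
 (.n (.n (.n (.n (.p (nat_lit 0x95e095c095809560954072306) (nat_lit 0x40000cc100) (nat_lit 52))
 (.p (nat_lit 0x12440a8502) (nat_lit 0x240415) (nat_lit 4)))
 (.n (.p (nat_lit 0x3f5a3f583f543f523f500e4f06) (nat_lit 0x4000082304) (nat_lit 51))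
 (.p (nat_lit 0x58bc58b858b658b458b2043d003607) (nat_lit 0x412501) (nat_lit 25))))
 (.n (.n (.p (nat_lit 0x5ec155902) (nat_lit 0x1) (nat_lit 5))
 (.p (nat_lit 0x3ae03bb03cb11590ff305) (nat_lit 0xa2300023) (nat_lit 9)))
 (.n (.p (nat_lit 0x14151a902) (nat_lit 0x40907) (nat_lit 30))
 (.p (nat_lit 0x5e9a475102) (nat_lit 0x20040a00) (nat_lit 47)))))
 (.n (.n (.n (.p (nat_lit 0x180916bb02) (nat_lit 0x554600) (nat_lit 16))
 (.p (nat_lit 0x3d03073702) (nat_lit 0x15201c) (nat_lit 16)))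
 (.n (.p (nat_lit 0x1d921d901d8c1d88010000e900e51d8f1d8b09) (nat_lit 0x1940805) (nat_lit 10))
 (.p (nat_lit 0x5c8f5df502) (nat_lit 0x2e0000000300) (nat_lit 36))))
 (.n (.n (.p (nat_lit 0x198419821980197e197c21bf06) (nat_lit 0x1000008ea02) (nat_lit 51))
 (.p (nat_lit 0x3a650c302) (nat_lit 0x340829) (nat_lit 1)))
 (.n (.p (nat_lit 0x2348234423422340233e123d06) (nat_lit 0x800005640e) (nat_lit 51))
 (.p (nat_lit 0xfda606702) (nat_lit 0x5898b0b44000400000000) (nat_lit 49))))))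

def c1024_815 : Tr :=
 .n (.n (.n (.n (.n (.n (.p (nat_lit 0x5720570056e056c056a04db06) (nat_lit 0x800090000) (nat_lit 52))
 (.p (nat_lit 0x154a61e502) (nat_lit 0x14e0a8c74000000000600) (nat_lit 50)))
 (.p (nat_lit 0x484e454b02) (nat_lit 0x240413) (nat_lit 4)))
 (.n (.p (nat_lit 0x247b246f02) (nat_lit 0x314b03) (nat_lit 16))
 (.p (nat_lit 0x12f212f012ee12ec12e83ba906) (nat_lit 0x1000086b2d) (nat_lit 51))))
 (.n (.n (.p (nat_lit 0x222a22282226222222201ff706) (nat_lit 0x20000c4a00) (nat_lit 52))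
 (.p (nat_lit 0xebe0ebc0eba0eb80eb6423906) (nat_lit 0x80000a620) (nat_lit 51)))
 (.n (.p (nat_lit 0xf890f7102) (nat_lit 0x448307) (nat_lit 16))
 (.p (nat_lit 0x5d791c4302) (nat_lit 0x40080000800) (nat_lit 39)))))
 (.n (.n (.n (.p (nat_lit 0x142414221420141e141c121d06) (nat_lit 0x800044500) (nat_lit 51))
 (.p (nat_lit 0x48c445c702) (nat_lit 0x40051a) (nat_lit 4)))
 (.n (.p (nat_lit 0xf000f90111227b211505) (nat_lit 0x62c00605) (nat_lit 9))
 (.p (nat_lit 0x5d83064b02) (nat_lit 0x2a00a0000000) (nat_lit 41))))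
 (.n (.n (.p (nat_lit 0x2fc62fc42fc22fc02fbe2fbc06) (nat_lit 0x302) (nat_lit 52))
 (.p (nat_lit 0x1030102e102c102a10283bf906) (nat_lit 0x100000c4b26) (nat_lit 51)))
 (.n (.p (nat_lit 0x4e204b4b02) (nat_lit 0x34030d) (nat_lit 4))
 (.p (nat_lit 0x129c5fe702) (nat_lit 0x38ac60b44000500000000) (nat_lit 49))))))
 (.n (.n (.n (.n (.p (nat_lit 0xd340d320d300d2e0b310b2f06) (nat_lit 0x1800080300) (nat_lit 51))
 (.p (nat_lit 0x1bec0c3702) (nat_lit 0x300815) (nat_lit 5)))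
 (.n (.p (nat_lit 0x16ae16ac16aa16a616a417f706) (nat_lit 0x20000cc604) (nat_lit 51))
 (.p (nat_lit 0x1415a0702) (nat_lit 0x707) (nat_lit 28))))
 (.n (.n (.p (nat_lit 0x46c14f702) (nat_lit 0x540501) (nat_lit 1))
 (.p (nat_lit 0x3a956c102) (nat_lit 0x440223) (nat_lit 30)))
 (.n (.p (nat_lit 0x3014300e300c300a0196018d018b3013301109) (nat_lit 0x2300309) (nat_lit 10))
 (.p (nat_lit 0x15425edf02) (nat_lit 0x4a9d22344000000000600) (nat_lit 50)))))
 (.n (.n (.n (.p (nat_lit 0x1b821b801b7e1b7a190318fb06) (nat_lit 0x1100000c800) (nat_lit 51))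
 (.p (nat_lit 0x1bf20efd02) (nat_lit 0x81c) (nat_lit 4)))
 (.n (.p (nat_lit 0x196c23d502) (nat_lit 0x400706) (nat_lit 4))
 (.p (nat_lit 0x5d1d13fb02) (nat_lit 0x40000500) (nat_lit 41))))
 (.n (.n (.p (nat_lit 0x8d356702) (nat_lit 0x300103) (nat_lit 30))
 (.p (nat_lit 0x116811661162115e0e1f0e1b06) (nat_lit 0x500008032a) (nat_lit 51)))
 (.n (.p (nat_lit 0x217609a702) (nat_lit 0x500a0e) (nat_lit 4))
 (.p (nat_lit 0xe8260ed02) (nat_lit 0x340d6a3a4000300040000) (nat_lit 50))))))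

def c512_303 : Tr := .n c1024_303 c1024_815

def c256_47 : Tr := .n c512_47 c512_303

def c1024_175 : Tr :=
 .n (.n (.n (.n (.n (.n (.p (nat_lit 0xaf00a7009403) (nat_lit 0x81900003) (nat_lit 19))
 (.p (nat_lit 0x638614d02) (nat_lit 0x3b0221d85000000040000) (nat_lit 49)))
 (.p (nat_lit 0x317a2ddd02) (nat_lit 0x440410) (nat_lit 5)))
 (.n (.p (nat_lit 0x126a12681266126400b20091008f126f126d09) (nat_lit 0x2c40403) (nat_lit 10))
 (.p (nat_lit 0x2307203f02) (nat_lit 0x24092a) (nat_lit 15))))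
 (.n (.n (.p (nat_lit 0x1de61de41de21de01ddc1bc506) (nat_lit 0x1000082900) (nat_lit 51))
 (.p (nat_lit 0x1790178e178a1788178626c306) (nat_lit 0x40000d401d) (nat_lit 52)))
 (.n (.p (nat_lit 0x50a11d9d02) (nat_lit 0x442806) (nat_lit 16))
 (.p (nat_lit 0x5d7d5e4902) (nat_lit 0x80000600) (nat_lit 37)))))
 (.n (.n (.n (.p (nat_lit 0xfe30fd702) (nat_lit 0x100400) (nat_lit 34))
 (.p (nat_lit 0xbf80bf60bf20bf00bee2bfb06) (nat_lit 0x400004a916) (nat_lit 51)))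
 (.n (.p (nat_lit 0xbb436102) (nat_lit 0x340b04) (nat_lit 30))
 (.p (nat_lit 0x2b802b602b202b00301028106) (nat_lit 0x1814916) (nat_lit 26))))
 (.n (.n (.p (nat_lit 0x1eef1ee302) (nat_lit 0x110901) (nat_lit 16))
 (.p (nat_lit 0x3a5571d02) (nat_lit 0x200a23) (nat_lit 30)))
 (.n (.p (nat_lit 0x3968523b02) (nat_lit 0x14040a) (nat_lit 29))
 (.p (nat_lit 0x11425f4102) (nat_lit 0x3a2260b50000400040000) (nat_lit 49))))))
 (.n (.n (.n (.n (.p (nat_lit 0x89705bf02) (nat_lit 0x10a100) (nat_lit 16))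
 (.p (nat_lit 0x93a0938093609340932072906) (nat_lit 0x80004a015) (nat_lit 52)))
 (.n (.p (nat_lit 0x3e1e3e1c3e1a3e183e160b8906) (nat_lit 0x4000080204) (nat_lit 51))
 (.p (nat_lit 0x4b044b024b004afe4afc4c1906) (nat_lit 0x800090130) (nat_lit 52))))
 (.n (.n (.p (nat_lit 0x2520251e251c251a251622bd06) (nat_lit 0x10000cab00) (nat_lit 52))
 (.p (nat_lit 0x4ed04ecc4eca4ec84ec64fc106) (nat_lit 0x8000042522) (nat_lit 51)))
 (.n (.p (nat_lit 0x1bd2519502) (nat_lit 0x200807) (nat_lit 29))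
 (.p (nat_lit 0x5d991f1b02) (nat_lit 0x1400a0000900) (nat_lit 41)))))
 (.n (.n (.n (.p (nat_lit 0x17541752174e174c16b716b106) (nat_lit 0x4800050600) (nat_lit 51))
 (.p (nat_lit 0x314033303230d2d0e9305) (nat_lit 0xad14001c) (nat_lit 9)))
 (.n (.p (nat_lit 0xb41c2302) (nat_lit 0x805) (nat_lit 1))
 (.p (nat_lit 0x5d3b0a5702) (nat_lit 0x120060000200) (nat_lit 40))))
 (.n (.n (.p (nat_lit 0x1cf61cf41cf01cec2059205506) (nat_lit 0x50000cc902) (nat_lit 52))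
 (.p (nat_lit 0x4c164e5d02) (nat_lit 0x500129) (nat_lit 4)))
 (.n (.p (nat_lit 0x21d621d421d221d021cc10dd06) (nat_lit 0x100009440e) (nat_lit 52))
 (.p (nat_lit 0x2346604702) (nat_lit 0x40a96254c800500000600) (nat_lit 50))))))

def c1024_687 : Tr :=
 .n (.n (.n (.n (.n (.n (.p (nat_lit 0x4b204b004ae04b704) (nat_lit 0xe00040002f) (nat_lit 17))
 (.p (nat_lit 0x1dae61c502) (nat_lit 0x3421684a0800300000600) (nat_lit 50)))
 (.p (nat_lit 0x42203d3b02) (nat_lit 0x612) (nat_lit 5)))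
 (.n (.p (nat_lit 0x24721d1b02) (nat_lit 0x500b03) (nat_lit 5))
 (.p (nat_lit 0x587e587c587a587858765874049a07) (nat_lit 0x22d) (nat_lit 8))))
 (.n (.n (.p (nat_lit 0x21522150214e214a1e911e8d06) (nat_lit 0x2800090a00) (nat_lit 51))
 (.p (nat_lit 0x1fcc1fc81fc61fc41fc23c6706) (nat_lit 0x800000e020) (nat_lit 52)))
 (.n (.p (nat_lit 0x3f930e0302) (nat_lit 0x112307) (nat_lit 16))
 (.p (nat_lit 0x5ccf1ad702) (nat_lit 0x1e0020000800) (nat_lit 38)))))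
 (.n (.n (.n (.p (nat_lit 0x13161312130e130c10cb10c706) (nat_lit 0xa00000e500) (nat_lit 52))
 (.p (nat_lit 0xbd40bd20bce0bcc0bca427b06) (nat_lit 0x40000c0619) (nat_lit 52)))
 (.n (.p (nat_lit 0x481a4818481648144812481006) (nat_lit 0xc2405) (nat_lit 52))
 (.p (nat_lit 0x5db404c502) (nat_lit 0x20000000) (nat_lit 45))))
 (.n (.n (.p (nat_lit 0x2eb90a1302) (nat_lit 0x546102) (nat_lit 16))
 (.p (nat_lit 0x3f1575902) (nat_lit 0x200226) (nat_lit 30)))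
 (.n (.p (nat_lit 0x487e487c487a48784876484906) (nat_lit 0x1000004440c) (nat_lit 52))
 (.p (nat_lit 0x233e5fcb02) (nat_lit 0x9582ec05800500000600) (nat_lit 50))))))
 (.n (.n (.n (.n (.p (nat_lit 0xc520c4e0c4a0c4809d509d106) (nat_lit 0xa000052200) (nat_lit 51))
 (.p (nat_lit 0x287544302) (nat_lit 0x340615) (nat_lit 30)))
 (.n (.p (nat_lit 0x1f181f161f121f10168b168506) (nat_lit 0x12000092604) (nat_lit 51))
 (.p (nat_lit 0xe959bd02) (nat_lit 0x300805) (nat_lit 28))))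
 (.n (.n (.p (nat_lit 0x2968296629642960295e10f706) (nat_lit 0x2000082401) (nat_lit 51))
 (.p (nat_lit 0xcad09eb02) (nat_lit 0x340123) (nat_lit 15)))
 (.n (.p (nat_lit 0x2b90263302) (nat_lit 0x400908) (nat_lit 5))
 (.p (nat_lit 0x5ec0234902) (nat_lit 0xa0000b00) (nat_lit 46)))))
 (.n (.n (.n (.p (nat_lit 0x1a7d179b02) (nat_lit 0x442700) (nat_lit 16))
 (.p (nat_lit 0x314032303330d710ed705) (nat_lit 0x45d0061c) (nat_lit 9)))
 (.n (.p (nat_lit 0x4e944e924e904e8c4e8a113306) (nat_lit 0x2000090406) (nat_lit 51))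
 (.p (nat_lit 0x5d51114302) (nat_lit 0x2c0080000400) (nat_lit 39))))
 (.n (.n (.p (nat_lit 0x178417821780177e177c25b306) (nat_lit 0x800054b02) (nat_lit 52))
 (.p (nat_lit 0xa4e0a4c0a480a460a440cb906) (nat_lit 0x400004422a) (nat_lit 52)))
 (.n (.p (nat_lit 0x1d44097d02) (nat_lit 0x24080e) (nat_lit 5))
 (.p (nat_lit 0x64260cf02) (nat_lit 0x35056a3a4000000040000) (nat_lit 50))))))

def c512_175 : Tr := .n c1024_175 c1024_687

def c1024_431 : Tr :=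
 .n (.n (.n (.n (.n (.n (.p (nat_lit 0x25802560252025b04) (nat_lit 0x1a000400012) (nat_lit 17))
 (.p (nat_lit 0x1534618702) (nat_lit 0x54c88a970000000000600) (nat_lit 49)))
 (.p (nat_lit 0x397a39783976397439720243397d07) (nat_lit 0x540411) (nat_lit 7)))
 (.n (.p (nat_lit 0x94009900b31b911cf705) (nat_lit 0x22540603) (nat_lit 9))
 (.p (nat_lit 0x140c140a1408140614022bc706) (nat_lit 0x100000292b) (nat_lit 51))))
 (.n (.n (.p (nat_lit 0x1fb41fb21fb01fac1faa1d2d06) (nat_lit 0x200004c900) (nat_lit 51))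
 (.p (nat_lit 0x1c801c7e1c7c1c781c7634c306) (nat_lit 0x200008201f) (nat_lit 52)))
 (.n (.p (nat_lit 0x96a09680964096209600b4106) (nat_lit 0x400008e207) (nat_lit 51))
 (.p (nat_lit 0x5d33181102) (nat_lit 0x1a0060000700) (nat_lit 38)))))
 (.n (.n (.n (.p (nat_lit 0x115a1158115611540f670f5d06) (nat_lit 0x10800040400) (nat_lit 51))
 (.p (nat_lit 0x8c3a6d02) (nat_lit 0x340518) (nat_lit 1)))
 (.n (.p (nat_lit 0xb90221702) (nat_lit 0x100205) (nat_lit 4))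
 (.p (nat_lit 0x3d75bfd02) (nat_lit 0x300824) (nat_lit 28))))
 (.n (.n (.p (nat_lit 0x2318231623122310230e0031231507) (nat_lit 0x340a01) (nat_lit 7))
 (.p (nat_lit 0x50c52b6d02) (nat_lit 0x454824) (nat_lit 16)))
 (.n (.p (nat_lit 0x1fc01fbe1fba1fb81fb6401506) (nat_lit 0x40000cc30b) (nat_lit 52))
 (.p (nat_lit 0x23485f8302) (nat_lit 0x581a32b44000500000600) (nat_lit 50))))))
 (.n (.n (.n (.n (.p (nat_lit 0xa660a620a600a5c0879087306) (nat_lit 0x9000000200) (nat_lit 51))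
 (.p (nat_lit 0xd1a0d180d160d140d12139506) (nat_lit 0x10000006515) (nat_lit 51)))
 (.n (.p (nat_lit 0x127a127812741272127000bb127707) (nat_lit 0x340404) (nat_lit 7))
 (.p (nat_lit 0x87590f02) (nat_lit 0x3) (nat_lit 28))))
 (.n (.n (.p (nat_lit 0x8df08a302) (nat_lit 0x114101) (nat_lit 16))
 (.p (nat_lit 0x14541450144c144a0749074506) (nat_lit 0xa00004c023) (nat_lit 51)))
 (.n (.p (nat_lit 0x1de241b02) (nat_lit 0x300b07) (nat_lit 1))
 (.p (nat_lit 0x5d935eab02) (nat_lit 0x1a00a0000a00) (nat_lit 37)))))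
 (.n (.n (.n (.p (nat_lit 0x18e818e618e418e218e0162b06) (nat_lit 0x10000016700) (nat_lit 51))
 (.p (nat_lit 0x9e209e009de09da09d8030b09dd07) (nat_lit 0x24011c) (nat_lit 7)))
 (.n (.p (nat_lit 0x4b7a4b784b764b744b72078b06) (nat_lit 0x1000052006) (nat_lit 52))
 (.p (nat_lit 0x5e024a4302) (nat_lit 0x60054300) (nat_lit 47))))
 (.n (.n (.p (nat_lit 0x154a1548154615441540231d06) (nat_lit 0x100004ca02) (nat_lit 51))
 (.p (nat_lit 0x57b257b057ae57ac57aa57a8044007) (nat_lit 0x4012a) (nat_lit 8)))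
 (.n (.p (nat_lit 0x1f401f7020707f1094505) (nat_lit 0x21c4050e) (nat_lit 9))
 (.p (nat_lit 0x12a712990fe10fdd0d170d090a510a4b07a9079f04d104c360860d) (nat_lit 0x342221ca4000000000000) (nat_lit 33))))))

def c1024_943 : Tr :=
 .n (.n (.n (.n (.n (.p (nat_lit 0x686068406820680064f064d06) (nat_lit 0x18000c6000) (nat_lit 52))
 (.p (nat_lit 0x4e9a4c4702) (nat_lit 0x200414) (nat_lit 5)))
 (.n (.p (nat_lit 0x3bf325c302) (nat_lit 0x248b03) (nat_lit 16))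
 (.p (nat_lit 0x12cc12ca12c812c612c4425b06) (nat_lit 0x1000000462e) (nat_lit 52))))
 (.n (.n (.p (nat_lit 0x23151ff902) (nat_lit 0x34ca00) (nat_lit 16))
 (.p (nat_lit 0x211621122110210e210c441706) (nat_lit 0x800000c021) (nat_lit 52)))
 (.n (.p (nat_lit 0x143516302) (nat_lit 0x140407) (nat_lit 30))
 (.p (nat_lit 0x5e7c1ef702) (nat_lit 0xa000c800) (nat_lit 47)))))
 (.n (.n (.n (.p (nat_lit 0x152b121f02) (nat_lit 0x156500) (nat_lit 16))
 (.p (nat_lit 0x4ea84d0d02) (nat_lit 0x30041b) (nat_lit 5)))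
 (.n (.p (nat_lit 0x195c212902) (nat_lit 0x200705) (nat_lit 4))
 (.p (nat_lit 0x5d3b08ef02) (nat_lit 0x120060000100) (nat_lit 39))))
 (.n (.n (.p (nat_lit 0x3130312e312c31283126125d06) (nat_lit 0x20000c2402) (nat_lit 52))
 (.p (nat_lit 0x429040cd02) (nat_lit 0x240627) (nat_lit 5)))
 (.n (.p (nat_lit 0x1db52bf02) (nat_lit 0x14090d) (nat_lit 30))
 (.p (nat_lit 0x2332600b02) (nat_lit 0x405aa2354800500000600) (nat_lit 49))))))
 (.n (.n (.n (.n (.p (nat_lit 0xe230b3902) (nat_lit 0x50a300) (nat_lit 16))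
 (.p (nat_lit 0x2178549102) (nat_lit 0xa15) (nat_lit 29)))
 (.n (.p (nat_lit 0x1b5e1b5a1b581b561957195306) (nat_lit 0x14000088704) (nat_lit 52))
 (.p (nat_lit 0x1db5a6702) (nat_lit 0x10040d) (nat_lit 28))))
 (.n (.n (.p (nat_lit 0x1ee51c1b02) (nat_lit 0x200801) (nat_lit 15))
 (.p (nat_lit 0x29722970296e296c296a17d506) (nat_lit 0x40000c4623) (nat_lit 51)))
 (.n (.p (nat_lit 0x144332702) (nat_lit 0x200a09) (nat_lit 1))
 (.p (nat_lit 0x248f248b21d921d51f151f0b1c511c3d1983197516ad16995f040d) (nat_lit 0x1a2274b50000000040600) (nat_lit 33)))))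
 (.n (.n (.n (.p (nat_lit 0x1a661a641a621a5e1a5c00051a6107) (nat_lit 0x240800) (nat_lit 7))
 (.p (nat_lit 0x1ec60db702) (nat_lit 0x50091c) (nat_lit 4)))
 (.n (.p (nat_lit 0x5036503450325030502e502c011e07) (nat_lit 0x806) (nat_lit 8))
 (.p (nat_lit 0x5dab13f502) (nat_lit 0x200a0000500) (nat_lit 39))))
 (.n (.n (.p (nat_lit 0xb7e1c8b02) (nat_lit 0x400203) (nat_lit 4))
 (.p (nat_lit 0x167212ff02) (nat_lit 0x50062a) (nat_lit 4)))
 (.n (.p (nat_lit 0x2583257702) (nat_lit 0x46b0e) (nat_lit 16))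
 (.p (nat_lit 0x1146610f02) (nat_lit 0x3425299b0000400040000) (nat_lit 50))))))

def c512_431 : Tr := .n c1024_431 c1024_943

def c256_175 : Tr := .n c512_175 c512_431

def c128_47 : Tr := .n c256_47 c256_175

def c1024_111 : Tr :=
 .n (.n (.n (.n (.n (.n (.p (nat_lit 0x73006f006603) (nat_lit 0x2b00002) (nat_lit 19))
 (.p (nat_lit 0x12a712990fe90fdf0d170d090a510a4b07ab079d04d104c3613a0d) (nat_lit 0x352a21d84000000000000) (nat_lit 33)))
 (.p (nat_lit 0x2c3627a702) (nat_lit 0x300a0f) (nat_lit 4)))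
 (.n (.p (nat_lit 0x11141cbb02) (nat_lit 0x500403) (nat_lit 5))
 (.p (nat_lit 0x1ed6148702) (nat_lit 0x10092a) (nat_lit 4))))
 (.n (.n (.p (nat_lit 0x1d6b1a6302) (nat_lit 0x348800) (nat_lit 16))
 (.p (nat_lit 0x2447243b02) (nat_lit 0x10ab1c) (nat_lit 16)))
 (.n (.p (nat_lit 0x13fe13fc13fa13f813f61d9f06) (nat_lit 0x100000ca806) (nat_lit 51))
 (.p (nat_lit 0x5e4028cf02) (nat_lit 0x40000600) (nat_lit 47)))))
 (.n (.n (.n (.p (nat_lit 0xf670c9902) (nat_lit 0x540300) (nat_lit 15))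
 (.p (nat_lit 0x2aee27d902) (nat_lit 0x540516) (nat_lit 5)))
 (.n (.p (nat_lit 0x22282226222422222220247f06) (nat_lit 0x10000084b04) (nat_lit 52))
 (.p (nat_lit 0x2815b0702) (nat_lit 0x415) (nat_lit 28))))
 (.n (.n (.p (nat_lit 0x13f413f213f013ee13ec1ee106) (nat_lit 0x80008a901) (nat_lit 52))
 (.p (nat_lit 0x1ed011e302) (nat_lit 0x400923) (nat_lit 4)))
 (.n (.p (nat_lit 0x385c346502) (nat_lit 0x14030a) (nat_lit 5))
 (.p (nat_lit 0x1db65f3502) (nat_lit 0x3a2560c44000300000600) (nat_lit 50))))))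
 (.n (.n (.n (.n (.p (nat_lit 0x7cc07ca07c807c607c405c706) (nat_lit 0x10000008100) (nat_lit 52))
 (.p (nat_lit 0x2cf305c902) (nat_lit 0xe015) (nat_lit 16)))
 (.n (.p (nat_lit 0x3da63da43da03d9e3d9c0a2706) (nat_lit 0x40000c8104) (nat_lit 52))
 (.p (nat_lit 0x49a048a102) (nat_lit 0x40062f) (nat_lit 4))))
 (.n (.n (.p (nat_lit 0x248d248102) (nat_lit 0x40b00) (nat_lit 34))
 (.p (nat_lit 0x25442540253e253c253a4b8d06) (nat_lit 0x8000050022) (nat_lit 51)))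
 (.n (.p (nat_lit 0x191b190f02) (nat_lit 0x504707) (nat_lit 16))
 (.p (nat_lit 0x5e8a410702) (nat_lit 0x60042900) (nat_lit 48)))))
 (.n (.n (.n (.p (nat_lit 0x16a9169d02) (nat_lit 0x240600) (nat_lit 34))
 (.p (nat_lit 0x197819741972197005df05db06) (nat_lit 0x1400008e01c) (nat_lit 52)))
 (.n (.p (nat_lit 0x16a2169e169c169a16981ac506) (nat_lit 0x80000cc705) (nat_lit 52))
 (.p (nat_lit 0x5cd10a4702) (nat_lit 0x1c0020000200) (nat_lit 38))))
 (.n (.n (.p (nat_lit 0x32d232d032ce32cc32ca32c8006407) (nat_lit 0x40902) (nat_lit 8))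
 (.p (nat_lit 0x4a0047bf02) (nat_lit 0x400728) (nat_lit 5)))
 (.n (.p (nat_lit 0xbbc0bba0bb80bb60bb410db06) (nat_lit 0x80008440e) (nat_lit 51))
 (.p (nat_lit 0xd1c603702) (nat_lit 0x4a9d80b44000300000000) (nat_lit 50))))))

def c1024_623 : Tr :=
 .n (.n (.n (.n (.n (.n (.p (nat_lit 0x40203fc03fa040704) (nat_lit 0x9800400027) (nat_lit 17))
 (.p (nat_lit 0x1da661b502) (nat_lit 0x322266c15000300000600) (nat_lit 49)))
 (.p (nat_lit 0x1f621f601f5e1f5c1f58410306) (nat_lit 0x10000c4412) (nat_lit 52)))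
 (.n (.p (nat_lit 0x232e232a2328232600b00091008d2331232d09) (nat_lit 0x2b40a03) (nat_lit 10))
 (.p (nat_lit 0x47f586d02) (nat_lit 0x240a2c) (nat_lit 30))))
 (.n (.n (.p (nat_lit 0x2116211421122110210e210c06) (nat_lit 0xca00) (nat_lit 52))
 (.p (nat_lit 0xeca0ec80ec40ec20ec03b9506) (nat_lit 0x400008ab1f) (nat_lit 51)))
 (.n (.p (nat_lit 0x154a15481546154415400e0306) (nat_lit 0x100000c307) (nat_lit 51))
 (.p (nat_lit 0x5c975e6702) (nat_lit 0x260000000800) (nat_lit 36)))))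
 (.n (.n (.n (.p (nat_lit 0x12c212c012be12bc12b810c506) (nat_lit 0x1000082500) (nat_lit 52))
 (.p (nat_lit 0x1fb41fb21fb01fac1faa420706) (nat_lit 0x200004c519) (nat_lit 51)))
 (.n (.p (nat_lit 0xfcd0fc102) (nat_lit 0x24c305) (nat_lit 16))
 (.p (nat_lit 0x5c97064102) (nat_lit 0x260000000000) (nat_lit 41))))
 (.n (.n (.p (nat_lit 0x8b2183f02) (nat_lit 0x300102) (nat_lit 5))
 (.p (nat_lit 0x1d001cfe1cfc1cfa1cf835cb06) (nat_lit 0x10000014126) (nat_lit 51)))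
 (.n (.p (nat_lit 0x2288228622842280227e46eb06) (nat_lit 0x200008c30c) (nat_lit 51))
 (.p (nat_lit 0x1dac5fc102) (nat_lit 0x8982e955800300000600) (nat_lit 50))))))
 (.n (.n (.n (.n (.p (nat_lit 0xbd20bd00bce0bcc0bca09d706) (nat_lit 0x100000c0200) (nat_lit 52))
 (.p (nat_lit 0x420714d902) (nat_lit 0x252515) (nat_lit 16)))
 (.n (.p (nat_lit 0x79c079a07960794168b168506) (nat_lit 0x12000002604) (nat_lit 52))
 (.p (nat_lit 0xed599f02) (nat_lit 0x500305) (nat_lit 28))))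
 (.n (.n (.p (nat_lit 0xe650e2902) (nat_lit 0x214301) (nat_lit 16))
 (.p (nat_lit 0xbbc0bb80bb60bb40bb209ed06) (nat_lit 0x80000c4123) (nat_lit 51)))
 (.n (.p (nat_lit 0x2afe261702) (nat_lit 0x100808) (nat_lit 4))
 (.p (nat_lit 0x5d6b5ebf02) (nat_lit 0x120080000b00) (nat_lit 36)))))
 (.n (.n (.n (.p (nat_lit 0x1a341a321a301a2c179d179506) (nat_lit 0x11000054700) (nat_lit 51))
 (.p (nat_lit 0x117411721170116e116c14e106) (nat_lit 0x80004251c) (nat_lit 51)))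
 (.n (.p (nat_lit 0x1194de502) (nat_lit 0x340306) (nat_lit 30))
 (.p (nat_lit 0x5d390fe702) (nat_lit 0x140060000400) (nat_lit 40))))
 (.n (.n (.p (nat_lit 0x25b41a5302) (nat_lit 0x140b02) (nat_lit 4))
 (.p (nat_lit 0x20742070206e206c206a0b5b06) (nat_lit 0x800001422a) (nat_lit 52)))
 (.n (.p (nat_lit 0x23a1bdd02) (nat_lit 0x10080e) (nat_lit 1))
 (.p (nat_lit 0x1da260b102) (nat_lit 0x3505223a4000300000600) (nat_lit 49))))))

def c512_111 : Tr := .n c1024_111 c1024_623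

def c1024_367 : Tr :=
 .n (.n (.n (.n (.n (.n (.p (nat_lit 0x1880186019303) (nat_lit 0x3000500009) (nat_lit 17))
 (.p (nat_lit 0x2348617502) (nat_lit 0x521a86b11000500000600) (nat_lit 50)))
 (.p (nat_lit 0x38e453b302) (nat_lit 0x300411) (nat_lit 29)))
 (.n (.p (nat_lit 0x1a341a321a301a2e1a2c167f06) (nat_lit 0x10000014603) (nat_lit 51))
 (.p (nat_lit 0x28e42aa502) (nat_lit 0x50032b) (nat_lit 4))))
 (.n (.n (.p (nat_lit 0x1d2e1f1702) (nat_lit 0x340900) (nat_lit 5))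
 (.p (nat_lit 0xeb20eb00eae0eac0eaa334706) (nat_lit 0x800082a1e) (nat_lit 52)))
 (.n (.p (nat_lit 0xb3c04e902) (nat_lit 0x100207) (nat_lit 4))
 (.p (nat_lit 0x5d1b198102) (nat_lit 0x20040000700) (nat_lit 41)))))
 (.n (.n (.n (.p (nat_lit 0x110d0df702) (nat_lit 0x110400) (nat_lit 16))
 (.p (nat_lit 0x3546366b02) (nat_lit 0x540018) (nat_lit 5)))
 (.n (.p (nat_lit 0xe544b702) (nat_lit 0x100105) (nat_lit 30))
 (.p (nat_lit 0x3aa03a603a403a20009043506) (nat_lit 0x2002023) (nat_lit 26))))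
 (.n (.n (.p (nat_lit 0x21b021ae21ac21aa00440035002b21b321a909) (nat_lit 0x2800a01) (nat_lit 10))
 (.p (nat_lit 0x161e161c161a16181614273706) (nat_lit 0x1000094124) (nat_lit 51)))
 (.n (.p (nat_lit 0x3d443d423d403d3c3d3a3e6d06) (nat_lit 0x200000c20b) (nat_lit 51))
 (.p (nat_lit 0x114a5f7502) (nat_lit 0x1aa074b50000400040000) (nat_lit 50))))))
 (.n (.n (.n (.n (.p (nat_lit 0xa25072102) (nat_lit 0x252100) (nat_lit 16))
 (.p (nat_lit 0xf360f320f300f2c1249124306) (nat_lit 0x9000054415) (nat_lit 51)))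
 (.n (.p (nat_lit 0x11161f7d02) (nat_lit 0x404) (nat_lit 5))
 (.p (nat_lit 0x620060005e005c0001022506) (nat_lit 0x114102) (nat_lit 26))))
 (.n (.n (.p (nat_lit 0x75607540752074e003e002f002b0751074d09) (nat_lit 0x1040001) (nat_lit 10))
 (.p (nat_lit 0x56925690568e568c568a568803ac07) (nat_lit 0x40023) (nat_lit 8)))
 (.n (.p (nat_lit 0x219f216302) (nat_lit 0x108a07) (nat_lit 16))
 (.p (nat_lit 0x5d7d5ea502) (nat_lit 0x80000a00) (nat_lit 36)))))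
 (.n (.n (.n (.p (nat_lit 0x18a2189c189a18981629162706) (nat_lit 0xc00000a700) (nat_lit 51))
 (.p (nat_lit 0xbec0be60be40be20885088306) (nat_lit 0xc00008811c) (nat_lit 51)))
 (.n (.p (nat_lit 0x6284aa102) (nat_lit 0x6) (nat_lit 29))
 (.p (nat_lit 0x5cff0e7d02) (nat_lit 0x1e0040000300) (nat_lit 41))))
 (.n (.n (.p (nat_lit 0x5d336f02) (nat_lit 0x240a02) (nat_lit 30))
 (.p (nat_lit 0x89c57a502) (nat_lit 0x40012a) (nat_lit 29)))
 (.n (.p (nat_lit 0x138813861384138001f801eb01e71383137f09) (nat_lit 0x100050e) (nat_lit 10))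
 (.p (nat_lit 0x13fe607502) (nat_lit 0x4688ae154000500040000) (nat_lit 50))))))

def c1024_879 : Tr :=
 .n (.n (.n (.n (.n (.p (nat_lit 0x62704e502) (nat_lit 0x514000) (nat_lit 16))
 (.p (nat_lit 0x4a2444eb02) (nat_lit 0x40713) (nat_lit 4)))
 (.n (.p (nat_lit 0x114411421140113e113c25bf06) (nat_lit 0x8000c8b03) (nat_lit 52))
 (.p (nat_lit 0x3f2841c302) (nat_lit 0x24022e) (nat_lit 4))))
 (.n (.n (.p (nat_lit 0x229e229c229a22961ffd1ff506) (nat_lit 0x110000cea00) (nat_lit 52))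
 (.p (nat_lit 0x384c384a38483846384442d506) (nat_lit 0x800016720) (nat_lit 51)))
 (.n (.p (nat_lit 0x12b612b412b212ac10d310d106) (nat_lit 0x3000002407) (nat_lit 52))
 (.p (nat_lit 0x5e7635c902) (nat_lit 0x80008800) (nat_lit 48)))))
 (.n (.n (.n (.p (nat_lit 0x14a414a0149c149a1225122106) (nat_lit 0xa000054500) (nat_lit 52))
 (.p (nat_lit 0x498a54ef02) (nat_lit 0x50061a) (nat_lit 29)))
 (.n (.p (nat_lit 0x17fe227f02) (nat_lit 0x40605) (nat_lit 5))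
 (.p (nat_lit 0x5ccb079702) (nat_lit 0x220020000100) (nat_lit 38))))
 (.n (.n (.p (nat_lit 0xfa50f9902) (nat_lit 0x52302) (nat_lit 16))
 (.p (nat_lit 0x1e661e641e601e5e1e5c3df906) (nat_lit 0x400004e127) (nat_lit 51)))
 (.n (.p (nat_lit 0x50384b5d02) (nat_lit 0x80d) (nat_lit 5))
 (.p (nat_lit 0x23445ff702) (nat_lit 0x386a81c35000500000600) (nat_lit 50))))))
 (.n (.n (.n (.n (.p (nat_lit 0xd7c0d7a0d740d720b350b3306) (nat_lit 0x600008c300) (nat_lit 51))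
 (.p (nat_lit 0x283547b02) (nat_lit 0x100915) (nat_lit 30)))
 (.n (.p (nat_lit 0x180917fd02) (nat_lit 0x556604) (nat_lit 16))
 (.p (nat_lit 0x18c018a018601840179014506) (nat_lit 0x2a16a09) (nat_lit 26))))
 (.n (.n (.p (nat_lit 0x1c1e2af902) (nat_lit 0x400801) (nat_lit 29))
 (.p (nat_lit 0x37590cb102) (nat_lit 0x550223) (nat_lit 16)))
 (.n (.p (nat_lit 0x30f82d4d02) (nat_lit 0x500409) (nat_lit 4))
 (.p (nat_lit 0x7a65eed02) (nat_lit 0x4a1d84344000100000000) (nat_lit 50)))))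
 (.n (.n (.n (.p (nat_lit 0x1bd9190302) (nat_lit 0x500800) (nat_lit 16))
 (.p (nat_lit 0x1d5c0da502) (nat_lit 0x24081c) (nat_lit 5)))
 (.n (.p (nat_lit 0x1ad21ad01ace1aca1ac801171acd07) (nat_lit 0x240706) (nat_lit 7))
 (.p (nat_lit 0x5d2b13fd02) (nat_lit 0x220060000500) (nat_lit 41))))
 (.n (.n (.p (nat_lit 0x8f35df02) (nat_lit 0x440103) (nat_lit 30))
 (.p (nat_lit 0xf880f860f840f82044e043f04350f8b0f8109) (nat_lit 0x284032a) (nat_lit 10)))
 (.n (.p (nat_lit 0x2426085f02) (nat_lit 0x300b0e) (nat_lit 5))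
 (.p (nat_lit 0x154260f902) (nat_lit 0x460d623a4000000000600) (nat_lit 50))))))

def c512_367 : Tr := .n c1024_367 c1024_879

def c256_111 : Tr := .n c512_111 c512_367

def c1024_239 : Tr :=
 .n (.n (.n (.n (.n (.n (.p (nat_lit 0xec00e600e200ef04) (nat_lit 0x12800400005) (nat_lit 17))
 (.p (nat_lit 0x1820615902) (nat_lit 0x352829d84000100000600) (nat_lit 50)))
 (.p (nat_lit 0x32e02df702) (nat_lit 0x140910) (nat_lit 4)))
 (.n (.p (nat_lit 0x39d039ce39ca39c839c613c106) (nat_lit 0x4000016503) (nat_lit 52))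
 (.p (nat_lit 0x2308136102) (nat_lit 0x340a2a) (nat_lit 5))))
 (.n (.n (.p (nat_lit 0x1e581e561e521e501bcd1bc706) (nat_lit 0x1200008c900) (nat_lit 51))
 (.p (nat_lit 0x2c082c062c042c022c0003412c0b07) (nat_lit 0x54091d) (nat_lit 7)))
 (.n (.p (nat_lit 0x21122110210e210c1f031f0106) (nat_lit 0x1800000c906) (nat_lit 52))
 (.p (nat_lit 0x5d81154b02) (nat_lit 0x2c00a0000600) (nat_lit 40)))))
 (.n (.n (.n (.p (nat_lit 0x100e100a100810040dfd0df706) (nat_lit 0x9000002400) (nat_lit 52))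
 (.p (nat_lit 0x18c618c218c018be18bc328106) (nat_lit 0x80000d2517) (nat_lit 52)))
 (.n (.p (nat_lit 0x17f925d102) (nat_lit 0x340b04) (nat_lit 15))
 (.p (nat_lit 0x310030e030803060353000706) (nat_lit 0x131001c) (nat_lit 26))))
 (.n (.n (.p (nat_lit 0xd100d0e0d0c0d0a0d06204906) (nat_lit 0x1000046901) (nat_lit 52))
 (.p (nat_lit 0x2448120902) (nat_lit 0x200b23) (nat_lit 5)))
 (.n (.p (nat_lit 0x3ae2348702) (nat_lit 0xa0a) (nat_lit 5))
 (.p (nat_lit 0x1adc5f5902) (nat_lit 0x1a2262350000200000600) (nat_lit 49))))))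
 (.n (.n (.n (.n (.p (nat_lit 0x90a0908090609040900071f06) (nat_lit 0x1000046100) (nat_lit 51))
 (.p (nat_lit 0x10ee10ec10ea10e602a0028b028310f110e909) (nat_lit 0x2900415) (nat_lit 10)))
 (.n (.p (nat_lit 0x3e943e923e903e8e3e8c3e8a00c20ceb0ce90ce30a) (nat_lit 0x11840204) (nat_lit 31))
 (.p (nat_lit 0x2d588302) (nat_lit 0x100001) (nat_lit 28))))
 (.n (.n (.p (nat_lit 0x2566256425622560255e22c506) (nat_lit 0x100000d2b00) (nat_lit 52))
 (.p (nat_lit 0x50b04e0f02) (nat_lit 0x40822) (nat_lit 4)))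
 (.n (.p (nat_lit 0x14e0159015d06cd056b05) (nat_lit 0xa1940807) (nat_lit 9))
 (.p (nat_lit 0x5e941ef902) (nat_lit 0xca00) (nat_lit 48)))))
 (.n (.n (.n (.p (nat_lit 0x17821780177e177c177a16bb06) (nat_lit 0x10000054600) (nat_lit 52))
 (.p (nat_lit 0x1820181e181c181a1818073506) (nat_lit 0x80004e01c) (nat_lit 51)))
 (.n (.p (nat_lit 0x1e5a1e561e541e521e501c2b06) (nat_lit 0x800008c805) (nat_lit 51))
 (.p (nat_lit 0x5d550a4d02) (nat_lit 0x280080000200) (nat_lit 38))))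
 (.n (.n (.p (nat_lit 0x21be21bc21b821b40076005f005b21bb21b709) (nat_lit 0x1900a02) (nat_lit 10))
 (.p (nat_lit 0x427578f02) (nat_lit 0x540229) (nat_lit 30)))
 (.n (.p (nat_lit 0xa4e0a4c0a4a0a480a44123706) (nat_lit 0x100004440e) (nat_lit 52))
 (.p (nat_lit 0x8ea605702) (nat_lit 0x506272b31000100040000) (nat_lit 49))))))

def c1024_751 : Tr :=
 .n (.n (.n (.n (.n (.n (.p (nat_lit 0x4fa04f804f404f204e504df06) (nat_lit 0x12000084000) (nat_lit 52))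
 (.p (nat_lit 0x13ee61d502) (nat_lit 0x54216ac0c800500040000) (nat_lit 49)))
 (.p (nat_lit 0x35b635b235b035ae35ac42c506) (nat_lit 0x8000096712) (nat_lit 51)))
 (.n (.p (nat_lit 0x18121810180e180c180a247306) (nat_lit 0x1000000eb03) (nat_lit 52))
 (.p (nat_lit 0x37de3a3b02) (nat_lit 0x32d) (nat_lit 4))))
 (.n (.n (.p (nat_lit 0x21c31e8f02) (nat_lit 0x110a00) (nat_lit 16))
 (.p (nat_lit 0x3dec55f302) (nat_lit 0x340120) (nat_lit 29)))
 (.n (.p (nat_lit 0x153e153c153a153815360f6906) (nat_lit 0x80004c307) (nat_lit 52))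
 (.p (nat_lit 0x5e701ef102) (nat_lit 0x4000c800) (nat_lit 47)))))
 (.n (.n (.n (.p (nat_lit 0x13c910c502) (nat_lit 0x112500) (nat_lit 16))
 (.p (nat_lit 0x43843f0d02) (nat_lit 0x540b19) (nat_lit 4)))
 (.n (.p (nat_lit 0x1522210702) (nat_lit 0x340505) (nat_lit 4))
 (.p (nat_lit 0x5dbc2b8f02) (nat_lit 0x6000c000) (nat_lit 48))))
 (.n (.n (.p (nat_lit 0x632f5102) (nat_lit 0x540202) (nat_lit 30))
 (.p (nat_lit 0x3b9a38bb02) (nat_lit 0xb26) (nat_lit 4)))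
 (.n (.p (nat_lit 0x5140512050e050c050a4a1f06) (nat_lit 0x40000c670c) (nat_lit 51))
 (.p (nat_lit 0x8fc5fd702) (nat_lit 0x3842a1c35000100040000) (nat_lit 50))))))
 (.n (.n (.n (.n (.p (nat_lit 0xcf309d102) (nat_lit 0x254200) (nat_lit 16))
 (.p (nat_lit 0x1bf1192702) (nat_lit 0x500715) (nat_lit 15)))
 (.n (.p (nat_lit 0x17fa17f817f617f417f200bf17fd07) (nat_lit 0x540604) (nat_lit 7))
 (.p (nat_lit 0x11d59e502) (nat_lit 0x500706) (nat_lit 28))))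
 (.n (.n (.p (nat_lit 0x13a415c302) (nat_lit 0x100501) (nat_lit 5))
 (.p (nat_lit 0xe8e0e8a0e880e860e840b4f06) (nat_lit 0x8000000223) (nat_lit 51)))
 (.n (.p (nat_lit 0x2f362d1d02) (nat_lit 0x400209) (nat_lit 5))
 (.p (nat_lit 0x233c5ed102) (nat_lit 0x4a1a22344000500000600) (nat_lit 49)))))
 (.n (.n (.n (.p (nat_lit 0x1902190018fc18fa00100007000118ff18f909) (nat_lit 0x1800800) (nat_lit 10))
 (.p (nat_lit 0x19320d8902) (nat_lit 0x50071c) (nat_lit 5)))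
 (.n (.p (nat_lit 0x13de23c102) (nat_lit 0x506) (nat_lit 5))
 (.p (nat_lit 0x5cb713eb02) (nat_lit 0x60000000500) (nat_lit 39))))
 (.n (.n (.p (nat_lit 0x7681afd02) (nat_lit 0x240003) (nat_lit 5))
 (.p (nat_lit 0x233c23382336233423320cbb06) (nat_lit 0x800005622a) (nat_lit 52)))
 (.n (.p (nat_lit 0x1eae098f02) (nat_lit 0x50090e) (nat_lit 5))
 (.p (nat_lit 0xe7260d902) (nat_lit 0x3542623b0000300040000) (nat_lit 49))))))

def c512_239 : Tr := .n c1024_239 c1024_751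

def c1024_495 : Tr :=
 .n (.n (.n (.n (.n (.n (.p (nat_lit 0x30e030c0306031304) (nat_lit 0xc80040001c) (nat_lit 17))
 (.p (nat_lit 0x13fc619902) (nat_lit 0x3422a5c14800500040000) (nat_lit 50)))
 (.p (nat_lit 0x3b7635a102) (nat_lit 0xb11) (nat_lit 5)))
 (.n (.p (nat_lit 0x21c21b9502) (nat_lit 0x100a03) (nat_lit 4))
 (.p (nat_lit 0x2fa631a102) (nat_lit 0x14022c) (nat_lit 5))))
 (.n (.n (.p (nat_lit 0x1ff01fee1fec1fea1fe61d2b06) (nat_lit 0x10000d6900) (nat_lit 51))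
 (.p (nat_lit 0x55d255d055ce55cc55ca55c8035a07) (nat_lit 0x4011f) (nat_lit 8)))
 (.n (.p (nat_lit 0xca404fd02) (nat_lit 0x540207) (nat_lit 4))
 (.p (nat_lit 0x5d67197902) (nat_lit 0x160080000700) (nat_lit 39)))))
 (.n (.n (.n (.p (nat_lit 0x11e411e211de11dc0f630f5d06) (nat_lit 0x4800052400) (nat_lit 52))
 (.p (nat_lit 0x3b88373302) (nat_lit 0x300b18) (nat_lit 4)))
 (.n (.p (nat_lit 0xcf60cf40cf20cf00cee00ed0cf907) (nat_lit 0x540205) (nat_lit 7))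
 (.p (nat_lit 0x43b5c3302) (nat_lit 0x30032a) (nat_lit 28))))
 (.n (.n (.p (nat_lit 0x5fa198b02) (nat_lit 0x100002) (nat_lit 4))
 (.p (nat_lit 0x2e3c312502) (nat_lit 0x500125) (nat_lit 5)))
 (.n (.p (nat_lit 0x42603ccf02) (nat_lit 0x24060b) (nat_lit 5))
 (.p (nat_lit 0x15345f9502) (nat_lit 0x581a302a4000000000600) (nat_lit 49))))))
 (.n (.n (.n (.n (.p (nat_lit 0xaba0ab40ab20ab00879087706) (nat_lit 0xc00008c200) (nat_lit 51))
 (.p (nat_lit 0x248a2488248424822480139106) (nat_lit 0x4000096515) (nat_lit 52)))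
 (.n (.p (nat_lit 0x13ce1f9d02) (nat_lit 0x400504) (nat_lit 5))
 (.p (nat_lit 0x8c008a00880086000b049706) (nat_lit 0x2c16503) (nat_lit 26))))
 (.n (.n (.p (nat_lit 0x2d27b902) (nat_lit 0x100201) (nat_lit 30))
 (.p (nat_lit 0xd0e0d0c0d0a0d080d06089306) (nat_lit 0x10000006123) (nat_lit 52)))
 (.n (.p (nat_lit 0x4b044b024b004afe4afc256b06) (nat_lit 0x8000d0b07) (nat_lit 52))
 (.p (nat_lit 0x5cdd248302) (nat_lit 0x100020000b00) (nat_lit 39)))))
 (.n (.n (.n (.p (nat_lit 0x195d162502) (nat_lit 0x214700) (nat_lit 16))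
 (.p (nat_lit 0x4c8109d902) (nat_lit 0x5611c) (nat_lit 16)))
 (.n (.p (nat_lit 0x26e0a3f02) (nat_lit 0x340106) (nat_lit 1))
 (.p (nat_lit 0x5d8b0d1102) (nat_lit 0x2200a0000300) (nat_lit 38))))
 (.n (.n (.p (nat_lit 0x338d232502) (nat_lit 0x542a02) (nat_lit 16))
 (.p (nat_lit 0x520051e051c051609f509f306) (nat_lit 0x300004812a) (nat_lit 51)))
 (.n (.p (nat_lit 0x5302530052fe52fc52fa52f801f207) (nat_lit 0x60e) (nat_lit 8))
 (.p (nat_lit 0x1814609502) (nat_lit 0x342529ca4000100000600) (nat_lit 49))))))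

def c1024_1007 : Tr :=
 .n (.n (.n (.n (.n (.p (nat_lit 0x71f064f02) (nat_lit 0x140000) (nat_lit 15))
 (.p (nat_lit 0x4fe44bdd02) (nat_lit 0x500714) (nat_lit 4)))
 (.n (.p (nat_lit 0x623061702) (nat_lit 0x316004) (nat_lit 16))
 (.p (nat_lit 0x43a0417d02) (nat_lit 0x140b2e) (nat_lit 4))))
 (.n (.n (.p (nat_lit 0x23a623a223a0239e239c215d06) (nat_lit 0x8000086b00) (nat_lit 51))
 (.p (nat_lit 0x478447824780477e477c48c906) (nat_lit 0x800080521) (nat_lit 52)))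
 (.n (.p (nat_lit 0x131613141312130c122d122b06) (nat_lit 0x300004e407) (nat_lit 52))
 (.p (nat_lit 0x5cd51daf02) (nat_lit 0x180020000900) (nat_lit 40)))))
 (.n (.n (.n (.p (nat_lit 0x15e215de15dc15da15d8155506) (nat_lit 0x8000010600) (nat_lit 52))
 (.p (nat_lit 0x501e4ccd02) (nat_lit 0x54071b) (nat_lit 5)))
 (.n (.p (nat_lit 0x19781976197419721970196306) (nat_lit 0x1000008e705) (nat_lit 52))
 (.p (nat_lit 0x5d5107a902) (nat_lit 0x2c0080000100) (nat_lit 40))))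
 (.n (.n (.p (nat_lit 0x5b31fb02) (nat_lit 0x140502) (nat_lit 30))
 (.p (nat_lit 0x44aa577b02) (nat_lit 0x140028) (nat_lit 29)))
 (.n (.p (nat_lit 0xa960a940a920a900a8c0e0f06) (nat_lit 0x100000a30e) (nat_lit 52))
 (.p (nat_lit 0xa46601902) (nat_lit 0x46ab80b44000200000000) (nat_lit 49))))))
 (.n (.n (.n (.n (.p (nat_lit 0xe8e0e8c0e8a0e840c930c9106) (nat_lit 0x3000040300) (nat_lit 51))
 (.p (nat_lit 0x281549d02) (nat_lit 0x40a15) (nat_lit 30)))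
 (.n (.p (nat_lit 0xc200db00c71e691fcf05) (nat_lit 0xa8840704) (nat_lit 9))
 (.p (nat_lit 0x20c5a8702) (nat_lit 0x10060e) (nat_lit 27))))
 (.n (.n (.p (nat_lit 0x186618641862185e1d811d7d06) (nat_lit 0x28000c4801) (nat_lit 52))
 (.p (nat_lit 0x43211aa302) (nat_lit 0x552723) (nat_lit 16)))
 (.n (.p (nat_lit 0x33ca2cdf02) (nat_lit 0xb09) (nat_lit 5))
 (.p (nat_lit 0x15345f1702) (nat_lit 0x3a2260b50000000000600) (nat_lit 49)))))
 (.n (.n (.n (.p (nat_lit 0x1cba1cb81cb21cb01a631a6106) (nat_lit 0x6000048800) (nat_lit 51))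
 (.p (nat_lit 0x21860f2f02) (nat_lit 0x100a1c) (nat_lit 5)))
 (.n (.p (nat_lit 0x13f413f213f013ee13ec1c2f06) (nat_lit 0x80008a806) (nat_lit 52))
 (.p (nat_lit 0x5c9d5e3b02) (nat_lit 0x200000000600) (nat_lit 36))))
 (.n (.n (.p (nat_lit 0xced0ce102) (nat_lit 0x554203) (nat_lit 16))
 (.p (nat_lit 0x194a19481946194219400439194507) (nat_lit 0x20072a) (nat_lit 7)))
 (.n (.p (nat_lit 0x2adc276f02) (nat_lit 0x24050f) (nat_lit 4))
 (.p (nat_lit 0x21cc611b02) (nat_lit 0x350522264000400040600) (nat_lit 49))))))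

def c512_495 : Tr := .n c1024_495 c1024_1007

def c256_239 : Tr := .n c512_239 c512_495

def c128_111 : Tr := .n c256_111 c256_239

def c64_47 : Tr := .n c128_47 c128_111

def c32_15 : Tr := .n c64_15 c64_47

def c1024_31 : Tr :=
 .n (.n (.n (.n (.n (.n (.p (nat_lit 0x32002e002c003704) (nat_lit 0xb000400001) (nat_lit 17))
 (.p (nat_lit 0xbae612b02) (nat_lit 0x35486a3b0000200040000) (nat_lit 49)))
 (.p (nat_lit 0x2b12270f02) (nat_lit 0x50080f) (nat_lit 4)))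
 (.n (.p (nat_lit 0xfa61b4102) (nat_lit 0x140303) (nat_lit 4))
 (.p (nat_lit 0x439580102) (nat_lit 0x24072a) (nat_lit 30))))
 (.n (.n (.p (nat_lit 0x1cf21cf01cee1cec1a671a6506) (nat_lit 0x180000cc800) (nat_lit 52))
 (.p (nat_lit 0x38422eb02) (nat_lit 0x40a1c) (nat_lit 1)))
 (.n (.p (nat_lit 0x50651c3702) (nat_lit 0x406806) (nat_lit 16))
 (.p (nat_lit 0x5cdd153702) (nat_lit 0x100020000600) (nat_lit 38)))))
 (.n (.n (.n (.p (nat_lit 0xebe0ebc0eba0eb80eb60c8f06) (nat_lit 0x80004a300) (nat_lit 51))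
 (.p (nat_lit 0x24360b2302) (nat_lit 0x500b15) (nat_lit 5)))
 (.n (.p (nat_lit 0x1d021d001cfe1cfc1cfa1ab106) (nat_lit 0x800054704) (nat_lit 51))
 (.p (nat_lit 0x5ab05aae5aac5aaa5aa8026701f207) (nat_lit 0x512b0e) (nat_lit 25))))
 (.n (.n (.p (nat_lit 0x2b651d8502) (nat_lit 0x444801) (nat_lit 16))
 (.p (nat_lit 0x1c0f1c0302) (nat_lit 0x200823) (nat_lit 16)))
 (.n (.p (nat_lit 0x36be344702) (nat_lit 0x40020a) (nat_lit 4))
 (.p (nat_lit 0x180e5f1f02) (nat_lit 0x1a2260b50000100000600) (nat_lit 49))))))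
 (.n (.n (.n (.n (.p (nat_lit 0x781065102) (nat_lit 0x254000) (nat_lit 16))
 (.p (nat_lit 0x50a04bfd02) (nat_lit 0x440814) (nat_lit 4)))
 (.n (.p (nat_lit 0xa27077702) (nat_lit 0x340004) (nat_lit 15))
 (.p (nat_lit 0x460c460846064604460204b3460b07) (nat_lit 0x40022f) (nat_lit 7))))
 (.n (.n (.p (nat_lit 0x23f823f623f423f223f0215f06) (nat_lit 0x10000090b00) (nat_lit 51))
 (.p (nat_lit 0xd780d760d740d7249f749f506) (nat_lit 0x1800008c721) (nat_lit 51)))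
 (.n (.p (nat_lit 0x1671163502) (nat_lit 0x408607) (nat_lit 16))
 (.p (nat_lit 0x5d0d1db102) (nat_lit 0x100040000900) (nat_lit 40)))))
 (.n (.n (.n (.p (nat_lit 0x161e161c161a16141551154f06) (nat_lit 0x3000094600) (nat_lit 51))
 (.p (nat_lit 0x5d80d2302) (nat_lit 0x20001c) (nat_lit 4)))
 (.n (.p (nat_lit 0x1abc213102) (nat_lit 0x40705) (nat_lit 5))
 (.p (nat_lit 0x5dda0ca502) (nat_lit 0xa004a100) (nat_lit 48))))
 (.n (.n (.p (nat_lit 0x1ef61ef41ef21ef01eee00591eed07) (nat_lit 0x902) (nat_lit 7))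
 (.p (nat_lit 0x212e212c212a21262124451b06) (nat_lit 0x200000e128) (nat_lit 52)))
 (.n (.p (nat_lit 0x1f401f70209091507c105) (nat_lit 0x22c4030e) (nat_lit 9))
 (.p (nat_lit 0x180c602502) (nat_lit 0x406a6252d000100000600) (nat_lit 49))))))

def c1024_543 : Tr :=
 .n (.n (.n (.n (.n (.n (.p (nat_lit 0x331032d0327031604) (nat_lit 0x8d10001c) (nat_lit 20))
 (.p (nat_lit 0x63861a502) (nat_lit 0x3222a5c15000000040000) (nat_lit 49)))
 (.p (nat_lit 0x3bd2362f02) (nat_lit 0x440b11) (nat_lit 4)))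
 (.n (.p (nat_lit 0x1e4e1e4c1e4a1e461e4421c506) (nat_lit 0x200000ca03) (nat_lit 52))
 (.p (nat_lit 0x30a831b102) (nat_lit 0x34032c) (nat_lit 5))))
 (.n (.n (.p (nat_lit 0x20471d2902) (nat_lit 0x4c900) (nat_lit 16))
 (.p (nat_lit 0x3ee3a7502) (nat_lit 0x14051f) (nat_lit 1)))
 (.n (.p (nat_lit 0x286b0c9f02) (nat_lit 0x24c207) (nat_lit 16))
 (.p (nat_lit 0x5da75e6302) (nat_lit 0x600a0000700) (nat_lit 37)))))
 (.n (.n (.n (.p (nat_lit 0x125d0f6102) (nat_lit 0x24e400) (nat_lit 16))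
 (.p (nat_lit 0x3cf63ea102) (nat_lit 0x140019) (nat_lit 4)))
 (.n (.p (nat_lit 0xe9469f02) (nat_lit 0x300305) (nat_lit 30))
 (.p (nat_lit 0x43f5c6f02) (nat_lit 0x500a2a) (nat_lit 28))))
 (.n (.n (.p (nat_lit 0x75a2d0b02) (nat_lit 0x140002) (nat_lit 29))
 (.p (nat_lit 0x32bd32b102) (nat_lit 0x925) (nat_lit 16)))
 (.n (.p (nat_lit 0x43023cd702) (nat_lit 0x4070b) (nat_lit 5))
 (.p (nat_lit 0x12aa5f9d02) (nat_lit 0x568bb0344000500000000) (nat_lit 50))))))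
 (.n (.n (.n (.n (.p (nat_lit 0xb5f087102) (nat_lit 0xc200) (nat_lit 16))
 (.p (nat_lit 0x8fc08fa08f808f608f414df06) (nat_lit 0x100000c2515) (nat_lit 51)))
 (.n (.p (nat_lit 0x15121e3b02) (nat_lit 0x140504) (nat_lit 4))
 (.p (nat_lit 0xb5595f02) (nat_lit 0x404) (nat_lit 28))))
 (.n (.n (.p (nat_lit 0xcc016f902) (nat_lit 0x140201) (nat_lit 5))
 (.p (nat_lit 0x1f0c1f0a1f081f061f04089306) (nat_lit 0x10000092123) (nat_lit 52)))
 (.n (.p (nat_lit 0x286a25f302) (nat_lit 0x240208) (nat_lit 4))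
 (.p (nat_lit 0x5cf15eb502) (nat_lit 0x2c0040000b00) (nat_lit 37)))))
 (.n (.n (.n (.p (nat_lit 0x179c179817941792002000090005179b179709) (nat_lit 0x2240700) (nat_lit 10))
 (.p (nat_lit 0x100c100a10081006100413a106) (nat_lit 0x1000000251c) (nat_lit 52)))
 (.n (.p (nat_lit 0x1174c9702) (nat_lit 0x200206) (nat_lit 30))
 (.p (nat_lit 0x5ce50fd702) (nat_lit 0x80020000400) (nat_lit 38))))
 (.n (.n (.p (nat_lit 0x34246702) (nat_lit 0x500b02) (nat_lit 1))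
 (.p (nat_lit 0xb5c12cf02) (nat_lit 0x50022a) (nat_lit 4)))
 (.n (.p (nat_lit 0x17ac095702) (nat_lit 0x14060e) (nat_lit 4))
 (.p (nat_lit 0x16a6609f02) (nat_lit 0x344588ca4000000040600) (nat_lit 50))))))

def c512_31 : Tr := .n c1024_31 c1024_543

def c1024_287 : Tr :=
 .n (.n (.n (.n (.n (.n (.p (nat_lit 0x11c01180116011f04) (nat_lit 0x16000400006) (nat_lit 17))
 (.p (nat_lit 0x1812616302) (nat_lit 0x421aa4395000100000600) (nat_lit 49)))
 (.p (nat_lit 0x338c2ea102) (nat_lit 0x540a10) (nat_lit 4)))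
 (.n (.p (nat_lit 0x3a583a563a543a503a4e150906) (nat_lit 0x2000056503) (nat_lit 51))
 (.p (nat_lit 0x25a8584702) (nat_lit 0x140b2a) (nat_lit 29))))
 (.n (.n (.p (nat_lit 0x1e881e861e841e801bcd1bc506) (nat_lit 0x11000096900) (nat_lit 52))
 (.p (nat_lit 0x602da502) (nat_lit 0x44001e) (nat_lit 1)))
 (.n (.p (nat_lit 0x120013f0125240b256105) (nat_lit 0xb0140906) (nat_lit 9))
 (.p (nat_lit 0x5c95197102) (nat_lit 0x280000000700) (nat_lit 39)))))
 (.n (.n (.n (.p (nat_lit 0x10541052104e104c0dff0df906) (nat_lit 0x1200000e400) (nat_lit 51))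
 (.p (nat_lit 0xbd40bd20bd00bce0bcc333b06) (nat_lit 0x800080a17) (nat_lit 52)))
 (.n (.p (nat_lit 0x43b443b243b043ae43ac43aa00f00627061f061d0a) (nat_lit 0x14800005) (nat_lit 31))
 (.p (nat_lit 0x340033e033c033a0309034506) (nat_lit 0x81281d) (nat_lit 26))))
 (.n (.n (.p (nat_lit 0x1f1a1f181f161f141f12204706) (nat_lit 0x8000d2901) (nat_lit 51))
 (.p (nat_lit 0x41c259b02) (nat_lit 0x40b23) (nat_lit 1)))
 (.n (.p (nat_lit 0x4fc04fa04f804f604f43b6b06) (nat_lit 0x800084b0a) (nat_lit 52))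
 (.p (nat_lit 0xa585f6102) (nat_lit 0x3aa570344000200000000) (nat_lit 50))))))
 (.n (.n (.n (.n (.p (nat_lit 0x9460944093e093c0723072106) (nat_lit 0x60000ca100) (nat_lit 52))
 (.p (nat_lit 0x38f510f102) (nat_lit 0x510415) (nat_lit 16)))
 (.n (.p (nat_lit 0xe4c1f6902) (nat_lit 0x200304) (nat_lit 4))
 (.p (nat_lit 0x3400320030002e000103d306) (nat_lit 0x112401) (nat_lit 26))))
 (.n (.n (.p (nat_lit 0x25b922c102) (nat_lit 0x34eb00) (nat_lit 16))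
 (.p (nat_lit 0x43605e302) (nat_lit 0x100023) (nat_lit 1)))
 (.n (.p (nat_lit 0x3c323c303c2e3c2c3c281e9b06) (nat_lit 0x100000c907) (nat_lit 52))
 (.p (nat_lit 0x5ccb21db02) (nat_lit 0x220020000a00) (nat_lit 41)))))
 (.n (.n (.n (.p (nat_lit 0x17e916b302) (nat_lit 0x150600) (nat_lit 16))
 (.p (nat_lit 0x9e3073f02) (nat_lit 0x54001c) (nat_lit 15)))
 (.n (.p (nat_lit 0xf001050107214f22b505) (nat_lit 0xa5340805) (nat_lit 9))
 (.p (nat_lit 0x5df009e302) (nat_lit 0xa0048200) (nat_lit 47))))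
 (.n (.n (.p (nat_lit 0x153e153c153a1536153421b906) (nat_lit 0x200000ca02) (nat_lit 52))
 (.p (nat_lit 0x117411721170116c116a506d06) (nat_lit 0x2000002829) (nat_lit 51)))
 (.n (.p (nat_lit 0x1daa1da61da41da21da0123d06) (nat_lit 0x800005240e) (nat_lit 52))
 (.p (nat_lit 0x180c606502) (nat_lit 0x85ab0335000100000600) (nat_lit 49))))))

def c1024_799 : Tr :=
 .n (.n (.n (.n (.n (.n (.p (nat_lit 0x52805260524052204e504e306) (nat_lit 0x18000088000) (nat_lit 51))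
 (.p (nat_lit 0x248461df02) (nat_lit 0x3508a5d84000500040600) (nat_lit 49)))
 (.p (nat_lit 0x47e044c702) (nat_lit 0x400413) (nat_lit 4)))
 (.n (.p (nat_lit 0x3b7d246f02) (nat_lit 0x302b03) (nat_lit 16))
 (.p (nat_lit 0x43a3bad02) (nat_lit 0x300b2d) (nat_lit 1))))
 (.n (.n (.p (nat_lit 0x21ee21ec21ea21e81ff51ff306) (nat_lit 0x1800040a00) (nat_lit 51))
 (.p (nat_lit 0x369560b02) (nat_lit 0x300620) (nat_lit 30)))
 (.n (.p (nat_lit 0x249624922490248e248c0f7106) (nat_lit 0x80000d6307) (nat_lit 51))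
 (.p (nat_lit 0x5e7235c702) (nat_lit 0x60008800) (nat_lit 48)))))
 (.n (.n (.n (.p (nat_lit 0x140a1408140614041402122706) (nat_lit 0x10000042500) (nat_lit 51))
 (.p (nat_lit 0x485e54e102) (nat_lit 0x44041a) (nat_lit 29)))
 (.n (.p (nat_lit 0xf0010f01032275210f05) (nat_lit 0xae100605) (nat_lit 9))
 (.p (nat_lit 0x5d9b04cd02) (nat_lit 0x1200a0000000) (nat_lit 38))))
 (.n (.n (.p (nat_lit 0xe3819d702) (nat_lit 0x400302) (nat_lit 5))
 (.p (nat_lit 0x3bf8396502) (nat_lit 0x540b26) (nat_lit 5)))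
 (.n (.p (nat_lit 0x24ee24ec24ea24e824e64dcb06) (nat_lit 0x1000008630d) (nat_lit 52))
 (.p (nat_lit 0x1daa5fe502) (nat_lit 0x3062a1c35000300000600) (nat_lit 49))))))
 (.n (.n (.n (.n (.p (nat_lit 0xb340b320b300b2e0028000b00090b390b3709) (nat_lit 0x2c00300) (nat_lit 10))
 (.p (nat_lit 0x1a931a8702) (nat_lit 0x348715) (nat_lit 16)))
 (.n (.p (nat_lit 0xfda0fd80fd60fd417fd17fb06) (nat_lit 0x18000048604) (nat_lit 52))
 (.p (nat_lit 0x148014401420140019f000b06) (nat_lit 0x1d10307) (nat_lit 26))))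
 (.n (.n (.p (nat_lit 0x2d2a7d02) (nat_lit 0x140501) (nat_lit 30))
 (.p (nat_lit 0xcb00cae0cac0caa0ca603a30ca907) (nat_lit 0x140223) (nat_lit 7)))
 (.n (.p (nat_lit 0x301430123010300e300c0185300b07) (nat_lit 0x309) (nat_lit 7))
 (.p (nat_lit 0x129e5ed902) (nat_lit 0x4a0d84344000500000000) (nat_lit 49)))))
 (.n (.n (.n (.p (nat_lit 0x1b6c1b681b661b64190118f906) (nat_lit 0x880000a800) (nat_lit 52))
 (.p (nat_lit 0x1a961a941a921a900318030903071a8f1a8d09) (nat_lit 0x84071c) (nat_lit 10)))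
 (.n (.p (nat_lit 0x1134fc502) (nat_lit 0x706) (nat_lit 30))
 (.p (nat_lit 0x5ccf13f902) (nat_lit 0x1e0020000500) (nat_lit 41))))
 (.n (.n (.p (nat_lit 0x8b81b0502) (nat_lit 0x103) (nat_lit 5))
 (.p (nat_lit 0x442045d045f12e5143b05) (nat_lit 0xa9c0032a) (nat_lit 9)))
 (.n (.p (nat_lit 0x22d9201102) (nat_lit 0x34090e) (nat_lit 15))
 (.p (nat_lit 0x64260eb02) (nat_lit 0x340d623a4000000040000) (nat_lit 50))))))

def c512_287 : Tr := .n c1024_287 c1024_799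

def c256_31 : Tr := .n c512_31 c512_287

def c1024_159 : Tr :=
 .n (.n (.n (.n (.n (.n (.p (nat_lit 0x8a009702) (nat_lit 0x2000600003) (nat_lit 17))
 (.p (nat_lit 0x113a614902) (nat_lit 0x350221d84000400040000) (nat_lit 49)))
 (.p (nat_lit 0x31e9310302) (nat_lit 0x400410) (nat_lit 15)))
 (.n (.p (nat_lit 0x126a1b5d02) (nat_lit 0x340403) (nat_lit 4))
 (.p (nat_lit 0x2042134b02) (nat_lit 0x44092a) (nat_lit 5))))
 (.n (.n (.p (nat_lit 0x1bcc1db702) (nat_lit 0x500900) (nat_lit 5))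
 (.p (nat_lit 0x26c626c426c226c026bc033926bf07) (nat_lit 0x14001d) (nat_lit 7)))
 (.n (.p (nat_lit 0x2346234423422340233e1d9f06) (nat_lit 0x10000056806) (nat_lit 51))
 (.p (nat_lit 0x5d2716ab02) (nat_lit 0x260060000600) (nat_lit 41)))))
 (.n (.n (.n (.p (nat_lit 0xfcb0c9102) (nat_lit 0x156300) (nat_lit 16))
 (.p (nat_lit 0xa940a920a900a8e0a8c2bab06) (nat_lit 0x1000000a916) (nat_lit 52)))
 (.n (.p (nat_lit 0xb5435b02) (nat_lit 0x40b04) (nat_lit 30))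
 (.p (nat_lit 0x2f25b3102) (nat_lit 0xa15) (nat_lit 27))))
 (.n (.n (.p (nat_lit 0x2b911ee902) (nat_lit 0x400901) (nat_lit 16))
 (.p (nat_lit 0x40f240f040ee40ec40ea203906) (nat_lit 0x100000d6923) (nat_lit 51)))
 (.n (.p (nat_lit 0x38da38d838d638d438d201a338dd07) (nat_lit 0x50040a) (nat_lit 7))
 (.p (nat_lit 0x13f45f3d02) (nat_lit 0x3a2560c64000500040000) (nat_lit 49))))))
 (.n (.n (.n (.n (.p (nat_lit 0x87505c102) (nat_lit 0x200100) (nat_lit 15))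
 (.p (nat_lit 0x9060904090209000733073106) (nat_lit 0x18000046015) (nat_lit 51)))
 (.n (.p (nat_lit 0xb8a1f5502) (nat_lit 0x400204) (nat_lit 4))
 (.p (nat_lit 0x4a5c493b02) (nat_lit 0x44072f) (nat_lit 5))))
 (.n (.n (.p (nat_lit 0x24da24d824d224d022c122bf06) (nat_lit 0x60000c4b00) (nat_lit 51))
 (.p (nat_lit 0x393566502) (nat_lit 0x40522) (nat_lit 30)))
 (.n (.p (nat_lit 0x519a51985196519451925190014c07) (nat_lit 0x807) (nat_lit 8))
 (.p (nat_lit 0x5dad5e9102) (nat_lit 0xa0000900) (nat_lit 36)))))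
 (.n (.n (.n (.p (nat_lit 0x17241722171c171a16b716b506) (nat_lit 0x6000048600) (nat_lit 52))
 (.p (nat_lit 0x34c505db02) (nat_lit 0x31001c) (nat_lit 16)))
 (.n (.p (nat_lit 0x4a1b1abf02) (nat_lit 0x140705) (nat_lit 16))
 (.p (nat_lit 0x5de60f7902) (nat_lit 0x40040200) (nat_lit 48))))
 (.n (.n (.p (nat_lit 0x1cba1cb41cb21cb0205b205906) (nat_lit 0xc000048902) (nat_lit 51))
 (.p (nat_lit 0x4c0c4ec702) (nat_lit 0x129) (nat_lit 5)))
 (.n (.p (nat_lit 0x1c501c4e1c4c1c4a1c4810db06) (nat_lit 0x80009040e) (nat_lit 51))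
 (.p (nat_lit 0x1144604302) (nat_lit 0x40a96254c800400040000) (nat_lit 49))))))

def c1024_671 : Tr :=
 .n (.n (.n (.n (.n (.n (.p (nat_lit 0x461045f0455044404) (nat_lit 0x9590002a) (nat_lit 20))
 (.p (nat_lit 0x8fc61c302) (nat_lit 0x3221a9c15000100040000) (nat_lit 50)))
 (.p (nat_lit 0x41fa3d3502) (nat_lit 0x240512) (nat_lit 5)))
 (.n (.p (nat_lit 0x9400a100a71d131bad05) (nat_lit 0xa2100b03) (nat_lit 9))
 (.p (nat_lit 0x365239a302) (nat_lit 0x44012d) (nat_lit 4))))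
 (.n (.n (.p (nat_lit 0x214621442142213c1e911e8f06) (nat_lit 0x3000010a00) (nat_lit 51))
 (.p (nat_lit 0x43913bed02) (nat_lit 0x554b1f) (nat_lit 16)))
 (.n (.p (nat_lit 0xe0d0e0102) (nat_lit 0x4307) (nat_lit 16))
 (.p (nat_lit 0x5cdb1c4902) (nat_lit 0x120020000800) (nat_lit 41)))))
 (.n (.n (.n (.p (nat_lit 0x12f212f012ec12ea12e810c906) (nat_lit 0x4000086500) (nat_lit 51))
 (.p (nat_lit 0x4241423502) (nat_lit 0x408619) (nat_lit 16)))
 (.n (.p (nat_lit 0x1280225302) (nat_lit 0x240405) (nat_lit 4))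
 (.p (nat_lit 0x5cd15db502) (nat_lit 0x1c0020000000) (nat_lit 36))))
 (.n (.n (.p (nat_lit 0x2e522e502e4e2e4c2e4a0a1306) (nat_lit 0x100000c6102) (nat_lit 51))
 (.p (nat_lit 0x374f363f02) (nat_lit 0x40126) (nat_lit 15)))
 (.n (.p (nat_lit 0x47d447d247d047ce47cc01cf47d707) (nat_lit 0x50040c) (nat_lit 7))
 (.p (nat_lit 0x1dac5fc902) (nat_lit 0x9582ec15800300000600) (nat_lit 50))))))
 (.n (.n (.n (.n (.p (nat_lit 0xc100c0e0c0a0c0809d309cd06) (nat_lit 0x480004c200) (nat_lit 52))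
 (.p (nat_lit 0x5446544454425440543e543c028c07) (nat_lit 0x40615) (nat_lit 8)))
 (.n (.p (nat_lit 0x197a1976197419721970168906) (nat_lit 0x800008e604) (nat_lit 52))
 (.p (nat_lit 0xec00e800e600e200bd000306) (nat_lit 0x2110705) (nat_lit 26))))
 (.n (.n (.p (nat_lit 0x10f8294102) (nat_lit 0x300401) (nat_lit 29))
 (.p (nat_lit 0x1f1a1f181f141f121f1009eb06) (nat_lit 0x40000d2123) (nat_lit 51)))
 (.n (.p (nat_lit 0x2be72b5502) (nat_lit 0x540808) (nat_lit 15))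
 (.p (nat_lit 0x5da15ec302) (nat_lit 0xc00a0000b00) (nat_lit 36)))))
 (.n (.n (.n (.p (nat_lit 0x1a561a541a521a50179d179b06) (nat_lit 0x180000d6700) (nat_lit 52))
 (.p (nat_lit 0x496114eb02) (nat_lit 0x55451c) (nat_lit 16)))
 (.n (.p (nat_lit 0x11364e3b02) (nat_lit 0x400406) (nat_lit 29))
 (.p (nat_lit 0x5d615e1d02) (nat_lit 0x1c0080000400) (nat_lit 37))))
 (.n (.n (.p (nat_lit 0x1750174e174c174a25bd25bb06) (nat_lit 0x18000050b02) (nat_lit 51))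
 (.p (nat_lit 0xcbc57bf02) (nat_lit 0x54022a) (nat_lit 29)))
 (.n (.p (nat_lit 0x50451bdb02) (nat_lit 0x1680e) (nat_lit 16))
 (.p (nat_lit 0x113a60cb02) (nat_lit 0x3505623a4000400040000) (nat_lit 49))))))

def c512_159 : Tr := .n c1024_159 c1024_671

def c1024_415 : Tr :=
 .n (.n (.n (.n (.n (.n (.p (nat_lit 0x20e020c021903) (nat_lit 0x300050000f) (nat_lit 17))
 (.p (nat_lit 0x1140618302) (nat_lit 0x421a86b15000400040000) (nat_lit 49)))
 (.p (nat_lit 0x397c397a397839763972023b397507) (nat_lit 0x140411) (nat_lit 7)))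
 (.n (.p (nat_lit 0x6017ef02) (nat_lit 0x440603) (nat_lit 1))
 (.p (nat_lit 0x4362bc702) (nat_lit 0x10092b) (nat_lit 1))))
 (.n (.n (.p (nat_lit 0x1f7a1f761f741f701d311d2b06) (nat_lit 0x90000c6900) (nat_lit 52))
 (.p (nat_lit 0x340133f502) (nat_lit 0x40ab1e) (nat_lit 16)))
 (.n (.p (nat_lit 0x7cc07ca07c807c607c40b4506) (nat_lit 0x10000008207) (nat_lit 52))
 (.p (nat_lit 0x5d3f198302) (nat_lit 0xe0060000700) (nat_lit 41)))))
 (.n (.n (.n (.p (nat_lit 0xf660f640f600f5e0010000700010f630f5d09) (nat_lit 0x1840400) (nat_lit 10))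
 (.p (nat_lit 0x1bb41bb21bae1bac1baa39f106) (nat_lit 0x4000016518) (nat_lit 52)))
 (.n (.p (nat_lit 0xcf30a3102) (nat_lit 0x240105) (nat_lit 15))
 (.p (nat_lit 0x5bec5bea5be85be65be4040903ac07) (nat_lit 0x12b23) (nat_lit 25))))
 (.n (.n (.p (nat_lit 0x38004900451615178705) (nat_lit 0x66840a01) (nat_lit 9))
 (.p (nat_lit 0x2f9f287902) (nat_lit 0x350224) (nat_lit 16)))
 (.n (.p (nat_lit 0x400e3c9b02) (nat_lit 0x4030b) (nat_lit 4))
 (.p (nat_lit 0x1db05f8102) (nat_lit 0x581a22b44000300000600) (nat_lit 50))))))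
 (.n (.n (.n (.n (.p (nat_lit 0x28a087b02) (nat_lit 0x500200) (nat_lit 1))
 (.p (nat_lit 0x79e079c079807960794139106) (nat_lit 0x4000002515) (nat_lit 52)))
 (.n (.p (nat_lit 0x12701f8902) (nat_lit 0x40404) (nat_lit 5))
 (.p (nat_lit 0x620060005a0058002f000706) (nat_lit 0x1316a02) (nat_lit 26))))
 (.n (.n (.p (nat_lit 0x8aa16dd02) (nat_lit 0x500101) (nat_lit 5))
 (.p (nat_lit 0x142414221420141c0745074106) (nat_lit 0x2800044023) (nat_lit 51)))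
 (.n (.p (nat_lit 0x338122d102) (nat_lit 0x54ea07) (nat_lit 16))
 (.p (nat_lit 0x5ea421d502) (nat_lit 0x80040a00) (nat_lit 45)))))
 (.n (.n (.n (.p (nat_lit 0x18de18da18d618d41629162506) (nat_lit 0xa000094700) (nat_lit 51))
 (.p (nat_lit 0x55125510550e550c550a5508031207) (nat_lit 0x4011c) (nat_lit 8)))
 (.n (.p (nat_lit 0x1194b3702) (nat_lit 0x340006) (nat_lit 30))
 (.p (nat_lit 0x5d290e7302) (nat_lit 0x240060000300) (nat_lit 39))))
 (.n (.n (.p (nat_lit 0xe740e720e700e6e0e6c232506) (nat_lit 0x100000c6a02) (nat_lit 52))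
 (.p (nat_lit 0x6e006dc06da06d806d6089d06) (nat_lit 0x800001212a) (nat_lit 52)))
 (.n (.p (nat_lit 0x14cc094102) (nat_lit 0x24050e) (nat_lit 4))
 (.p (nat_lit 0x2080608102) (nat_lit 0x354221ca4000400000600) (nat_lit 50))))))

def c1024_927 : Tr :=
 .n (.n (.n (.n (.n (.p (nat_lit 0x66c066a066806660657064d06) (nat_lit 0x108000c4000) (nat_lit 51))
 (.p (nat_lit 0x4e2c4c3d02) (nat_lit 0x340314) (nat_lit 5)))
 (.n (.p (nat_lit 0x249624922490248e248c25c706) (nat_lit 0x80000d6b03) (nat_lit 51))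
 (.p (nat_lit 0x4254415502) (nat_lit 0x20062e) (nat_lit 4))))
 (.n (.n (.p (nat_lit 0x22f11ff902) (nat_lit 0x346a00) (nat_lit 16))
 (.p (nat_lit 0x4410470d02) (nat_lit 0x100021) (nat_lit 5)))
 (.n (.p (nat_lit 0x407f10d702) (nat_lit 0x412407) (nat_lit 16))
 (.p (nat_lit 0x5d871c4502) (nat_lit 0x2600a0000800) (nat_lit 39)))))
 (.n (.n (.n (.p (nat_lit 0x1509122102) (nat_lit 0x250500) (nat_lit 16))
 (.p (nat_lit 0x4a9a45f102) (nat_lit 0x24081a) (nat_lit 4)))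
 (.n (.p (nat_lit 0x2406240023fe23fc1807180506) (nat_lit 0xc000052605) (nat_lit 51))
 (.p (nat_lit 0x5d4d07a702) (nat_lit 0x60000100) (nat_lit 40))))
 (.n (.n (.p (nat_lit 0x125c19f502) (nat_lit 0x240402) (nat_lit 5))
 (.p (nat_lit 0x100e100c100a10061004424906) (nat_lit 0x2000002627) (nat_lit 52)))
 (.n (.p (nat_lit 0x50e24b0902) (nat_lit 0x10090d) (nat_lit 5))
 (.p (nat_lit 0x13ea600102) (nat_lit 0x405aa2354800500040000) (nat_lit 49))))))
 (.n (.n (.n (.n (.p (nat_lit 0xe030b3102) (nat_lit 0x100300) (nat_lit 16))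
 (.p (nat_lit 0x20200c5f02) (nat_lit 0x540915) (nat_lit 5)))
 (.n (.p (nat_lit 0x1b0e1b0c1b0a1b081b04194f06) (nat_lit 0x1000002704) (nat_lit 51))
 (.p (nat_lit 0x1b401b201ae01ac019d014b06) (nat_lit 0x150e60b) (nat_lit 26))))
 (.n (.n (.p (nat_lit 0x1a421a3e1a3c1a3a1a381c1f06) (nat_lit 0x8000094801) (nat_lit 52))
 (.p (nat_lit 0x17ce56d102) (nat_lit 0x40623) (nat_lit 29)))
 (.n (.p (nat_lit 0x32d42d6702) (nat_lit 0x40909) (nat_lit 4))
 (.p (nat_lit 0x8ec5ef702) (nat_lit 0x3a2530344000100040000) (nat_lit 49)))))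
 (.n (.n (.n (.p (nat_lit 0x1c501c4e1c4c1c4a1c481c4606) (nat_lit 0x40800) (nat_lit 3))
 (.p (nat_lit 0x1ebe0daf02) (nat_lit 0x10091c) (nat_lit 4)))
 (.n (.p (nat_lit 0x1610160e160c160a16081ad306) (nat_lit 0x10000054706) (nat_lit 51))
 (.p (nat_lit 0x5e3212a902) (nat_lit 0x80000500) (nat_lit 46))))
 (.n (.n (.p (nat_lit 0xa290a1d02) (nat_lit 0x454103) (nat_lit 16))
 (.p (nat_lit 0x16721670166e166a16680439166d07) (nat_lit 0x20062a) (nat_lit 7)))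
 (.n (.p (nat_lit 0x257e536d02) (nat_lit 0x440b0e) (nat_lit 29))
 (.p (nat_lit 0x8f6610d02) (nat_lit 0x3425219b0000100040000) (nat_lit 50))))))

def c512_415 : Tr := .n c1024_415 c1024_927

def c256_159 : Tr := .n c512_159 c512_415

def c128_31 : Tr := .n c256_31 c256_159

def c1024_95 : Tr :=
 .n (.n (.n (.n (.n (.n (.p (nat_lit 0x60005a006703) (nat_lit 0x9000500002) (nat_lit 17))
 (.p (nat_lit 0x2074613502) (nat_lit 0x342a21d84000400000600) (nat_lit 49)))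
 (.p (nat_lit 0x2bf2279f02) (nat_lit 0x54090f) (nat_lit 5)))
 (.n (.p (nat_lit 0x110e1b4f02) (nat_lit 0x200403) (nat_lit 4))
 (.p (nat_lit 0x1d7a148302) (nat_lit 0x54082a) (nat_lit 4))))
 (.n (.n (.p (nat_lit 0x1d4b1a6702) (nat_lit 0x542800) (nat_lit 16))
 (.p (nat_lit 0x243e559f02) (nat_lit 0x300b1c) (nat_lit 29)))
 (.n (.p (nat_lit 0xe820e800e7c0e7a0e781d9b06) (nat_lit 0x40000c6806) (nat_lit 51))
 (.p (nat_lit 0x5d09153902) (nat_lit 0x140040000600) (nat_lit 38)))))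
 (.n (.n (.n (.p (nat_lit 0xf400f3e0f3c0f380c990c9106) (nat_lit 0x110000d4300) (nat_lit 51))
 (.p (nat_lit 0x160616041602160015fe2a6f06) (nat_lit 0x800092516) (nat_lit 51)))
 (.n (.p (nat_lit 0x247e433702) (nat_lit 0x500b04) (nat_lit 29))
 (.p (nat_lit 0x5af85af65af45af25af001ed025a07) (nat_lit 0x30eb12) (nat_lit 25))))
 (.n (.n (.p (nat_lit 0xd1a0d180d160d141eeb1ee106) (nat_lit 0x10800006901) (nat_lit 51))
 (.p (nat_lit 0x3a1570102) (nat_lit 0x923) (nat_lit 30)))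
 (.n (.p (nat_lit 0x1b821b801b7e1b7c1b7a37dd06) (nat_lit 0x1000000c30a) (nat_lit 51))
 (.p (nat_lit 0x15425f3302) (nat_lit 0x3aa560c44000000000600) (nat_lit 50))))))
 (.n (.n (.n (.n (.p (nat_lit 0x7c207c007ba07b805c305c106) (nat_lit 0x6000086100) (nat_lit 52))
 (.p (nat_lit 0x7da07d807d607d207d005cd06) (nat_lit 0x2000088015) (nat_lit 51)))
 (.n (.p (nat_lit 0xa2a0a280a240a220a2000bb0a2707) (nat_lit 0x340104) (nat_lit 7))
 (.p (nat_lit 0x47ca47c647c447c247c046fb06) (nat_lit 0x800008e32f) (nat_lit 51))))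
 (.n (.n (.p (nat_lit 0x246f215b02) (nat_lit 0x310b00) (nat_lit 16))
 (.p (nat_lit 0x4b884def02) (nat_lit 0x240022) (nat_lit 4)))
 (.n (.p (nat_lit 0x51825180517e517c517a5178014e1909190719050a) (nat_lit 0x8800707) (nat_lit 31))
 (.p (nat_lit 0x5d271f0b02) (nat_lit 0x260060000900) (nat_lit 39)))))
 (.n (.n (.n (.p (nat_lit 0x16b0169902) (nat_lit 0x40600) (nat_lit 4))
 (.p (nat_lit 0x153e153c153a1538153605d506) (nat_lit 0x80000c01c) (nat_lit 52)))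
 (.n (.p (nat_lit 0x1150114e114c114811461ac106) (nat_lit 0x20000c8705) (nat_lit 51))
 (.p (nat_lit 0x5cdd5de102) (nat_lit 0x100020000200) (nat_lit 37))))
 (.n (.n (.p (nat_lit 0x1d261d241d221d201d1e1eed06) (nat_lit 0x800096902) (nat_lit 52))
 (.p (nat_lit 0x499047af02) (nat_lit 0x200628) (nat_lit 4)))
 (.n (.p (nat_lit 0x4cc04ca04c804c604c210dd06) (nat_lit 0x100000040e) (nat_lit 52))
 (.p (nat_lit 0x181c603502) (nat_lit 0x4099a2335000100000600) (nat_lit 50))))))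

def c1024_607 : Tr :=
 .n (.n (.n (.n (.n (.n (.p (nat_lit 0x3bb03b303ae03) (nat_lit 0x2900023) (nat_lit 19))
 (.p (nat_lit 0x8e861b302) (nat_lit 0x522266c0d000100040000) (nat_lit 49)))
 (.p (nat_lit 0x41003d2502) (nat_lit 0x40412) (nat_lit 5)))
 (.n (.p (nat_lit 0x232c1ba502) (nat_lit 0x340a03) (nat_lit 4))
 (.p (nat_lit 0x14221420141e141c141a336906) (nat_lit 0x10000004a2c) (nat_lit 51))))
 (.n (.n (.p (nat_lit 0x20c420c220be20bc1e971e9106) (nat_lit 0x12000084a00) (nat_lit 51))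
 (.p (nat_lit 0x3b9637c302) (nat_lit 0x400b1f) (nat_lit 4)))
 (.n (.p (nat_lit 0xd1c0d1a0d180d140d120e0506) (nat_lit 0x2000006307) (nat_lit 51))
 (.p (nat_lit 0x5cb75e6902) (nat_lit 0x60000000800) (nat_lit 37)))))
 (.n (.n (.n (.p (nat_lit 0x10cc10c810c410c200200009000510cb10c709) (nat_lit 0x2200500) (nat_lit 10))
 (.p (nat_lit 0x42043ecd02) (nat_lit 0x140519) (nat_lit 4)))
 (.n (.p (nat_lit 0x4740473e473c473a4738473606) (nat_lit 0x4e305) (nat_lit 52))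
 (.p (nat_lit 0x5cb15db102) (nat_lit 0xc0000000000) (nat_lit 36))))
 (.n (.n (.p (nat_lit 0x2da3075f02) (nat_lit 0x346002) (nat_lit 16))
 (.p (nat_lit 0x35c2391102) (nat_lit 0x100126) (nat_lit 5)))
 (.n (.p (nat_lit 0x45444540453e453c453a467d06) (nat_lit 0x800004820c) (nat_lit 51))
 (.p (nat_lit 0x18185fbf02) (nat_lit 0x89832955800100000600) (nat_lit 50))))))
 (.n (.n (.n (.n (.p (nat_lit 0xbc80bc40bc20bc009d509cd06) (nat_lit 0x8800040200) (nat_lit 52))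
 (.p (nat_lit 0x249624942490248e248c14db06) (nat_lit 0x40000d6515) (nat_lit 51)))
 (.n (.p (nat_lit 0x168a16881686168000ce00b900b71685168309) (nat_lit 0x1100604) (nat_lit 10))
 (.p (nat_lit 0x5992598e598c598a598801b500ee07) (nat_lit 0x410005) (nat_lit 25))))
 (.n (.n (.p (nat_lit 0x289c289a289828960e2b0e2706) (nat_lit 0x5000080301) (nat_lit 51))
 (.p (nat_lit 0x9ee09ea09e809e403c003a903a309ed09e709) (nat_lit 0x2140123) (nat_lit 10)))
 (.n (.p (nat_lit 0x2a00267d02) (nat_lit 0x240408) (nat_lit 4))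
 (.p (nat_lit 0x5eb8231502) (nat_lit 0x6004eb00) (nat_lit 47)))))
 (.n (.n (.n (.p (nat_lit 0x1a2a1a281a261a201797179506) (nat_lit 0x30000d2700) (nat_lit 51))
 (.p (nat_lit 0x14ea14e614e414e214e0030f14e907) (nat_lit 0x44051c) (nat_lit 7)))
 (.n (.p (nat_lit 0x4dd50e6b02) (nat_lit 0x502306) (nat_lit 16))
 (.p (nat_lit 0x5e143b9f02) (nat_lit 0x40010400) (nat_lit 47))))
 (.n (.n (.p (nat_lit 0x33ed245d02) (nat_lit 0x6b02) (nat_lit 16))
 (.p (nat_lit 0x1ade1adc1ada1ad81ad60b5306) (nat_lit 0x80001022a) (nat_lit 52)))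
 (.n (.p (nat_lit 0x2eaa2ea82ea62ea42ea21a7f06) (nat_lit 0x1000005670e) (nat_lit 52))
 (.p (nat_lit 0x197a60af02) (nat_lit 0x344589ca4000100040600) (nat_lit 49))))))

def c512_95 : Tr := .n c1024_95 c1024_607

def c1024_351 : Tr :=
 .n (.n (.n (.n (.n (.n (.p (nat_lit 0x16501630153015004) (nat_lit 0x51800007) (nat_lit 20))
 (.p (nat_lit 0xe7c617302) (nat_lit 0x421aa6315000300040000) (nat_lit 50)))
 (.p (nat_lit 0x53b653b453b253b053ae53ac024407) (nat_lit 0x411) (nat_lit 8)))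
 (.n (.p (nat_lit 0x18ba18b618b418b2167d167506) (nat_lit 0x8800012603) (nat_lit 52))
 (.p (nat_lit 0x28862a3d02) (nat_lit 0x44022b) (nat_lit 5))))
 (.n (.n (.p (nat_lit 0x1d321d301d2e1d2c1d2a00011d2907) (nat_lit 0x40900) (nat_lit 7))
 (.p (nat_lit 0x334a306b02) (nat_lit 0x200a1e) (nat_lit 5)))
 (.n (.p (nat_lit 0x22b822b622b422b022ae206306) (nat_lit 0x20000d0906) (nat_lit 52))
 (.p (nat_lit 0x5e542f3d02) (nat_lit 0x2000a700) (nat_lit 47)))))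
 (.n (.n (.n (.p (nat_lit 0x10eb0df902) (nat_lit 0x204400) (nat_lit 16))
 (.p (nat_lit 0x54be54bc54ba54b854b654b402d807) (nat_lit 0x40018) (nat_lit 8)))
 (.n (.p (nat_lit 0x4497078302) (nat_lit 0x344005) (nat_lit 16))
 (.p (nat_lit 0x39a0398039603940307042706) (nat_lit 0x510522) (nat_lit 26))))
 (.n (.n (.p (nat_lit 0x21b221b021ac21aa21a8003121af07) (nat_lit 0x300a01) (nat_lit 7))
 (.p (nat_lit 0x273a29b902) (nat_lit 0x300124) (nat_lit 5)))
 (.n (.p (nat_lit 0x3c053bc902) (nat_lit 0x548b0a) (nat_lit 16))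
 (.p (nat_lit 0x1aea5f7302) (nat_lit 0x1aa074b50000200000600) (nat_lit 50))))))
 (.n (.n (.n (.n (.p (nat_lit 0xa05072502) (nat_lit 0x44c100) (nat_lit 16))
 (.p (nat_lit 0xd400d3a0d380d361249124706) (nat_lit 0xc000042415) (nat_lit 51)))
 (.n (.p (nat_lit 0x40003ffe3ffc3ffa3ff83ff606) (nat_lit 0x4e304) (nat_lit 52))
 (.p (nat_lit 0x18e58e102) (nat_lit 0x500002) (nat_lit 27))))
 (.n (.n (.p (nat_lit 0x74e16cb02) (nat_lit 0x140001) (nat_lit 4))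
 (.p (nat_lit 0x12f012ec12ea12e805eb05e706) (nat_lit 0x14000086023) (nat_lit 51)))
 (.n (.p (nat_lit 0x216851bd02) (nat_lit 0x400a07) (nat_lit 29))
 (.p (nat_lit 0x5d2f5ea302) (nat_lit 0x1e0060000a00) (nat_lit 37)))))
 (.n (.n (.n (.p (nat_lit 0x18661860185e185c1629162706) (nat_lit 0xc000084700) (nat_lit 52))
 (.p (nat_lit 0x8840880087e087c03320311030d0887088309) (nat_lit 0x2b0011c) (nat_lit 10)))
 (.n (.p (nat_lit 0x1e8a1e881e841e821e801d8f06) (nat_lit 0x40000d6805) (nat_lit 52))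
 (.p (nat_lit 0x5d1b5dfd02) (nat_lit 0x20040000300) (nat_lit 36))))
 (.n (.n (.p (nat_lit 0x21c721bb02) (nat_lit 0x312a02) (nat_lit 16))
 (.p (nat_lit 0x44204590455140512af05) (nat_lit 0x6a10012a) (nat_lit 9)))
 (.n (.p (nat_lit 0x138252e502) (nat_lit 0x20050e) (nat_lit 29))
 (.p (nat_lit 0xd16607302) (nat_lit 0x570aa2344000300000000) (nat_lit 50))))))

def c1024_863 : Tr :=
 .n (.n (.n (.n (.n (.n (.p (nat_lit 0x60304e502) (nat_lit 0x50e000) (nat_lit 16))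
 (.p (nat_lit 0x12a7129d0fe10fdf0d170d090a590a4b07ab079504d104c761ee0d) (nat_lit 0x382a31d05000000000000) (nat_lit 33)))
 (.p (nat_lit 0x49d644e102) (nat_lit 0x100713) (nat_lit 4)))
 (.n (.p (nat_lit 0xa5a0a560a540a5225c725bf06) (nat_lit 0x8800044b03) (nat_lit 51))
 (.p (nat_lit 0x3e8241b902) (nat_lit 0x20022e) (nat_lit 5))))
 (.n (.n (.p (nat_lit 0x22942290228e228c228a1ffb06) (nat_lit 0x800004ea00) (nat_lit 51))
 (.p (nat_lit 0x367561502) (nat_lit 0x200720) (nat_lit 30)))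
 (.n (.p (nat_lit 0x14e01650155051d068f05) (nat_lit 0x88300407) (nat_lit 9))
 (.p (nat_lit 0x5d571c4302) (nat_lit 0x260080000800) (nat_lit 39)))))
 (.n (.n (.n (.p (nat_lit 0x146a1468146614641462121d06) (nat_lit 0x8000ce500) (nat_lit 51))
 (.p (nat_lit 0x498045d702) (nat_lit 0x61a) (nat_lit 5)))
 (.n (.p (nat_lit 0x195d169102) (nat_lit 0x200605) (nat_lit 15))
 (.p (nat_lit 0x5cd9079702) (nat_lit 0x140020000100) (nat_lit 38))))
 (.n (.n (.p (nat_lit 0xfa20f9e0f9c0f9a0070006100590fa10f9909) (nat_lit 0x2040302) (nat_lit 10))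
 (.p (nat_lit 0x3df840b702) (nat_lit 0x340127) (nat_lit 4)))
 (.n (.p (nat_lit 0x52ba52b852b652b452b252b001e407) (nat_lit 0x4070d) (nat_lit 8))
 (.p (nat_lit 0x1db05ff502) (nat_lit 0x306a81c35000300000600) (nat_lit 50))))))
 (.n (.n (.n (.n (.p (nat_lit 0xd560d520d500d4e0b390b3506) (nat_lit 0x1400000a300) (nat_lit 52))
 (.p (nat_lit 0x372a37263724372237201d5506) (nat_lit 0x8000054815) (nat_lit 51)))
 (.n (.p (nat_lit 0x427317fd02) (nat_lit 0x542604) (nat_lit 16))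
 (.p (nat_lit 0x18e018a018801840143022b06) (nat_lit 0xc14209) (nat_lit 26))))
 (.n (.n (.p (nat_lit 0x1c1a15dd02) (nat_lit 0x200801) (nat_lit 4))
 (.p (nat_lit 0xde40de20de00dde0cb10ca706) (nat_lit 0x10800056223) (nat_lit 52)))
 (.n (.p (nat_lit 0x18de18dc18da18d818d6308b06) (nat_lit 0x8000d4309) (nat_lit 51))
 (.p (nat_lit 0x23465ee902) (nat_lit 0x4a8866344000500000600) (nat_lit 50)))))
 (.n (.n (.n (.p (nat_lit 0x1bc01bbc1bba1bb81bb6190106) (nat_lit 0x8000096800) (nat_lit 51))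
 (.p (nat_lit 0x1c091bfd02) (nat_lit 0x50a81c) (nat_lit 16)))
 (.n (.p (nat_lit 0x4fe9196702) (nat_lit 0x108706) (nat_lit 16))
 (.p (nat_lit 0x5d3b129b02) (nat_lit 0x120060000500) (nat_lit 38))))
 (.n (.n (.p (nat_lit 0x94009d00a31b131c7905) (nat_lit 0x61140103) (nat_lit 9))
 (.p (nat_lit 0xf8457d102) (nat_lit 0x24032a) (nat_lit 29)))
 (.n (.p (nat_lit 0x22e322d702) (nat_lit 0x246a0e) (nat_lit 16))
 (.p (nat_lit 0x207660f502) (nat_lit 0x440d623a4000400000600) (nat_lit 50))))))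

def c512_351 : Tr := .n c1024_351 c1024_863

def c256_95 : Tr := .n c512_95 c512_351

def c1024_223 : Tr :=
 .n (.n (.n (.n (.n (.n (.p (nat_lit 0xdf00dd00c203) (nat_lit 0x62c00004) (nat_lit 19))
 (.p (nat_lit 0x12a312990fe90fd50d190d110a550a4707a1079d04d904c961540d) (nat_lit 0x1503a8895800000000000) (nat_lit 33)))
 (.p (nat_lit 0x539e539c539a539853965394022e07) (nat_lit 0x910) (nat_lit 8)))
 (.n (.p (nat_lit 0x13c413c213be13bc13ba008d13c107) (nat_lit 0x300503) (nat_lit 7))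
 (.p (nat_lit 0x245721a302) (nat_lit 0x300a2a) (nat_lit 15))))
 (.n (.n (.p (nat_lit 0x1e4e1e4c1e481e461e441bc906) (nat_lit 0x400000c900) (nat_lit 52))
 (.p (nat_lit 0xd580d560d540d520d502bad06) (nat_lit 0x80000a91d) (nat_lit 52)))
 (.n (.p (nat_lit 0x1f021f001efc1ef8012e011901151eff1efb09) (nat_lit 0x1900906) (nat_lit 10))
 (.p (nat_lit 0x5d9b5e4f02) (nat_lit 0x1200a0000600) (nat_lit 36)))))
 (.n (.n (.n (.p (nat_lit 0x10020ffe0ffc0ffa0dfd0df506) (nat_lit 0x8800080400) (nat_lit 52))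
 (.p (nat_lit 0x327a2ef302) (nat_lit 0x140517) (nat_lit 5)))
 (.n (.p (nat_lit 0x213a213821362134213025cd06) (nat_lit 0x10000ceb04) (nat_lit 51))
 (.p (nat_lit 0x2fb5b7702) (nat_lit 0x40071a) (nat_lit 28))))
 (.n (.n (.p (nat_lit 0x64a0646064406420640204f06) (nat_lit 0x80000c0901) (nat_lit 51))
 (.p (nat_lit 0x230d230102) (nat_lit 0x540a23) (nat_lit 16)))
 (.n (.p (nat_lit 0x2cd02cce2ccc2cc82cc63a8f06) (nat_lit 0x200001460a) (nat_lit 51))
 (.p (nat_lit 0x20765f5502) (nat_lit 0x1a2522350000400000600) (nat_lit 50))))))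
 (.n (.n (.n (.n (.p (nat_lit 0x1ec072302) (nat_lit 0x340100) (nat_lit 1))
 (.p (nat_lit 0x30e10ef02) (nat_lit 0x400415) (nat_lit 1)))
 (.n (.p (nat_lit 0x2ec0ceb02) (nat_lit 0x440204) (nat_lit 1))
 (.p (nat_lit 0x142414221420141c141a507906) (nat_lit 0x2000004830) (nat_lit 51))))
 (.n (.n (.p (nat_lit 0x255c255a2554255222c122bf06) (nat_lit 0x6000052b00) (nat_lit 52))
 (.p (nat_lit 0xd340d320d300d2e0d2a505f06) (nat_lit 0x1000080822) (nat_lit 51)))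
 (.n (.p (nat_lit 0x1c0d1bd102) (nat_lit 0x108807) (nat_lit 16))
 (.p (nat_lit 0x5c9721d902) (nat_lit 0x260000000a00) (nat_lit 41)))))
 (.n (.n (.n (.p (nat_lit 0x1776177417721770176e16bb06) (nat_lit 0x100000d2600) (nat_lit 52))
 (.p (nat_lit 0x129c129812961294073f073b06) (nat_lit 0x1400004a01c) (nat_lit 52)))
 (.n (.p (nat_lit 0x1df21dee1dec1de81c2b1c2506) (nat_lit 0x9000004805) (nat_lit 51))
 (.p (nat_lit 0x5d5f5def02) (nat_lit 0x1e0080000200) (nat_lit 36))))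
 (.n (.n (.p (nat_lit 0x66008300751a2f18cb05) (nat_lit 0x8d100a02) (nat_lit 9))
 (.p (nat_lit 0x578e578c578a578857865784042807) (nat_lit 0x40229) (nat_lit 8)))
 (.n (.p (nat_lit 0x123e07db02) (nat_lit 0x54040e) (nat_lit 5))
 (.p (nat_lit 0x2332605302) (nat_lit 0x40a962335000500000600) (nat_lit 49))))))

def c1024_735 : Tr :=
 .n (.n (.n (.n (.n (.n (.p (nat_lit 0x4ee04ec04e804e604e504df06) (nat_lit 0x12000004000) (nat_lit 52))
 (.p (nat_lit 0x1da661d102) (nat_lit 0x54216ac0c800300000600) (nat_lit 49)))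
 (.p (nat_lit 0x427d427102) (nat_lit 0x446612) (nat_lit 16)))
 (.n (.p (nat_lit 0x140013fe13fc13fa13f6246b06) (nat_lit 0x100008ab03) (nat_lit 51))
 (.p (nat_lit 0x1cea1ce81ce61ce21ce0375f06) (nat_lit 0x200004c22d) (nat_lit 52))))
 (.n (.n (.p (nat_lit 0x21a31e9302) (nat_lit 0x30aa00) (nat_lit 16))
 (.p (nat_lit 0x3d6e3d6a3d683d663d64036b3d6d07) (nat_lit 0x400120) (nat_lit 7)))
 (.n (.p (nat_lit 0xbb00bac0baa0ba80ba60f7106) (nat_lit 0x80000c4307) (nat_lit 52))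
 (.p (nat_lit 0x5d051ae502) (nat_lit 0x180040000800) (nat_lit 40)))))
 (.n (.n (.n (.p (nat_lit 0x13a910c902) (nat_lit 0x30c500) (nat_lit 16))
 (.p (nat_lit 0x43123eff02) (nat_lit 0x240719) (nat_lit 4)))
 (.n (.p (nat_lit 0x13e713db02) (nat_lit 0x40c505) (nat_lit 16))
 (.p (nat_lit 0x5d3b04c902) (nat_lit 0x120060000000) (nat_lit 38))))
 (.n (.n (.p (nat_lit 0xcce186102) (nat_lit 0x240202) (nat_lit 4))
 (.p (nat_lit 0x3b4838b302) (nat_lit 0x140a26) (nat_lit 4)))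
 (.n (.p (nat_lit 0x4a1a43f902) (nat_lit 0x14070c) (nat_lit 4))
 (.p (nat_lit 0x233e5fd302) (nat_lit 0x95a32b05000500000600) (nat_lit 50))))))
 (.n (.n (.n (.n (.p (nat_lit 0xcd309d502) (nat_lit 0x44e200) (nat_lit 16))
 (.p (nat_lit 0x54525450544e544c544a5448028e19271925191f0a) (nat_lit 0x16100715) (nat_lit 31)))
 (.n (.p (nat_lit 0x17f41fb902) (nat_lit 0x140604) (nat_lit 4))
 (.p (nat_lit 0x11a011801160112000b041f06) (nat_lit 0x2910406) (nat_lit 26))))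
 (.n (.n (.p (nat_lit 0x29fd124d02) (nat_lit 0x40401) (nat_lit 16))
 (.p (nat_lit 0xb4e118b02) (nat_lit 0x400223) (nat_lit 4)))
 (.n (.p (nat_lit 0x1de2c6102) (nat_lit 0x340a08) (nat_lit 1))
 (.p (nat_lit 0x1da25ecf02) (nat_lit 0x4a1a34344000300000600) (nat_lit 49)))))
 (.n (.n (.n (.p (nat_lit 0x8a18fd02) (nat_lit 0x200800) (nat_lit 1))
 (.p (nat_lit 0x192a553b02) (nat_lit 0x10071c) (nat_lit 29)))
 (.n (.p (nat_lit 0x4efa4ef84ef64ef44ef2129306) (nat_lit 0x10000050406) (nat_lit 52))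
 (.p (nat_lit 0x5e20424f02) (nat_lit 0xa0012400) (nat_lit 47))))
 (.n (.n (.p (nat_lit 0x34c9060f02) (nat_lit 0x506003) (nat_lit 16))
 (.p (nat_lit 0x1db61db41db21dae1dac0cb706) (nat_lit 0x200005222a) (nat_lit 51)))
 (.n (.p (nat_lit 0x1e9533702) (nat_lit 0x10090e) (nat_lit 30))
 (.p (nat_lit 0x64860d702) (nat_lit 0x354a623b0000000040000) (nat_lit 50))))))

def c512_223 : Tr := .n c1024_223 c1024_735

def c1024_479 : Tr :=
 .n (.n (.n (.n (.n (.n (.p (nat_lit 0x2c402c002c903) (nat_lit 0xa000500017) (nat_lit 17))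
 (.p (nat_lit 0x2344618f02) (nat_lit 0x3422a5c14800500000600) (nat_lit 50)))
 (.p (nat_lit 0x2e022e002dfe2dfc3a9b3a9706) (nat_lit 0x2800014611) (nat_lit 51)))
 (.n (.p (nat_lit 0x1a5a1a581a541a521a5017ed06) (nat_lit 0x40000d6603) (nat_lit 52))
 (.p (nat_lit 0x2f3e321302) (nat_lit 0x20022c) (nat_lit 5))))
 (.n (.n (.p (nat_lit 0x1fd61fd41fd21fd01fce1d3306) (nat_lit 0x100000ce900) (nat_lit 52))
 (.p (nat_lit 0x363b355102) (nat_lit 0x44001f) (nat_lit 15)))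
 (.n (.p (nat_lit 0xc9e04f702) (nat_lit 0x240207) (nat_lit 4))
 (.p (nat_lit 0x5d735e5f02) (nat_lit 0xa0080000700) (nat_lit 37)))))
 (.n (.n (.n (.p (nat_lit 0x1198119411921190118e0f6506) (nat_lit 0x80000c4400) (nat_lit 52))
 (.p (nat_lit 0x3b02372902) (nat_lit 0x400a18) (nat_lit 5)))
 (.n (.p (nat_lit 0xcf0461102) (nat_lit 0x140205) (nat_lit 29))
 (.p (nat_lit 0x43e043a0438043403a9000306) (nat_lit 0x210622a) (nat_lit 26))))
 (.n (.n (.p (nat_lit 0x2c6b231702) (nat_lit 0x444a01) (nat_lit 16))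
 (.p (nat_lit 0x2daa311502) (nat_lit 0x140025) (nat_lit 5)))
 (.n (.p (nat_lit 0x68606820680067e067c421d06) (nat_lit 0x800008660b) (nat_lit 52))
 (.p (nat_lit 0x20705f9102) (nat_lit 0x581a303a5000400000600) (nat_lit 49))))))
 (.n (.n (.n (.n (.p (nat_lit 0xaa20aa00a9e0a9c0a9a087106) (nat_lit 0x80008a200) (nat_lit 51))
 (.p (nat_lit 0x1f181f161f141f121f10139506) (nat_lit 0x10000092515) (nat_lit 51)))
 (.n (.p (nat_lit 0xb5411702) (nat_lit 0x504) (nat_lit 30))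
 (.p (nat_lit 0x8e008a00880086000b035506) (nat_lit 0x2b16303) (nat_lit 26))))
 (.n (.n (.p (nat_lit 0xa130a0702) (nat_lit 0x550101) (nat_lit 16))
 (.p (nat_lit 0x6480646064406420893088906) (nat_lit 0x10800080123) (nat_lit 51)))
 (.n (.p (nat_lit 0x1de257102) (nat_lit 0x340b07) (nat_lit 1))
 (.p (nat_lit 0x5eae4c8702) (nat_lit 0x48b00) (nat_lit 48)))))
 (.n (.n (.n (.p (nat_lit 0x193d162902) (nat_lit 0x408700) (nat_lit 16))
 (.p (nat_lit 0xc5e0c5c0c5a0c5409dd09db06) (nat_lit 0x30000d211c) (nat_lit 51)))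
 (.n (.p (nat_lit 0x4c0308df02) (nat_lit 0x106106) (nat_lit 16))
 (.p (nat_lit 0x5da30d1d02) (nat_lit 0xa00a0000300) (nat_lit 40))))
 (.n (.n (.p (nat_lit 0x2348234623442342233e231d06) (nat_lit 0x1000056a02) (nat_lit 51))
 (.p (nat_lit 0x6620660065e065a09f509f106) (nat_lit 0x280004412a) (nat_lit 51)))
 (.n (.p (nat_lit 0x14d914cd02) (nat_lit 0x24650e) (nat_lit 16))
 (.p (nat_lit 0x2336609102) (nat_lit 0x342221ca4000500000600) (nat_lit 49))))))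

def c1024_991 : Tr :=
 .n (.n (.n (.n (.n (.p (nat_lit 0x6f606f406f206f0064f064d06) (nat_lit 0x1800054000) (nat_lit 52))
 (.p (nat_lit 0x4fa44bcf02) (nat_lit 0x240514) (nat_lit 5)))
 (.n (.p (nat_lit 0x3c243c223c203c1e061b061506) (nat_lit 0x12000086004) (nat_lit 51))
 (.p (nat_lit 0x4350417302) (nat_lit 0x100b2e) (nat_lit 4))))
 (.n (.n (.p (nat_lit 0x236c236a23662362215b215706) (nat_lit 0x5000002b00) (nat_lit 52))
 (.p (nat_lit 0x4514472d02) (nat_lit 0x500121) (nat_lit 4)))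
 (.n (.p (nat_lit 0x12c212c012bc12b8122f122b06) (nat_lit 0x50000c2407) (nat_lit 52))
 (.p (nat_lit 0x5ce11daf02) (nat_lit 0xc0020000900) (nat_lit 40)))))
 (.n (.n (.n (.p (nat_lit 0x15a615a215a0159e1557155306) (nat_lit 0x14000086600) (nat_lit 52))
 (.p (nat_lit 0x2550254e254c254a25464faf06) (nat_lit 0x10000d051b) (nat_lit 52)))
 (.n (.p (nat_lit 0x12aa12a812a412a212a0195f06) (nat_lit 0x400000a705) (nat_lit 51))
 (.p (nat_lit 0x5d6b08f102) (nat_lit 0x120080000100) (nat_lit 39))))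
 (.n (.n (.p (nat_lit 0x31d431d231d031ce31ca13b106) (nat_lit 0x1000014502) (nat_lit 51))
 (.p (nat_lit 0x3ff577102) (nat_lit 0x240b27) (nat_lit 30)))
 (.n (.p (nat_lit 0xe160e120e100e0c020001ef01e90e150e0f09) (nat_lit 0x210030e) (nat_lit 10))
 (.p (nat_lit 0x1538601702) (nat_lit 0x405aa2335000000000600) (nat_lit 49))))))
 (.n (.n (.n (.n (.p (nat_lit 0x30c0c9502) (nat_lit 0x340300) (nat_lit 1))
 (.p (nat_lit 0x2185217902) (nat_lit 0x8a15) (nat_lit 16)))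
 (.n (.p (nat_lit 0x42e9195502) (nat_lit 0x408704) (nat_lit 16))
 (.p (nat_lit 0x1f001ea01e801e60265000706) (nat_lit 0x231440e) (nat_lit 26))))
 (.n (.n (.p (nat_lit 0x380049004f175f15ed05) (nat_lit 0x65440801) (nat_lit 9))
 (.p (nat_lit 0x1aa211c102) (nat_lit 0x540723) (nat_lit 4)))
 (.n (.p (nat_lit 0x4f004ee04ec04ea04e6337906) (nat_lit 0x1000044a09) (nat_lit 52))
 (.p (nat_lit 0x20725f1302) (nat_lit 0x3aa570344000400000600) (nat_lit 49)))))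
 (.n (.n (.n (.p (nat_lit 0x1c8a1c881c841c821a671a6106) (nat_lit 0x12000044800) (nat_lit 52))
 (.p (nat_lit 0x22eb202302) (nat_lit 0x4091c) (nat_lit 15)))
 (.n (.p (nat_lit 0xd100d0c0d080d061c371c3306) (nat_lit 0xa000006806) (nat_lit 52))
 (.p (nat_lit 0x5cad153502) (nat_lit 0x100000000600) (nat_lit 38))))
 (.n (.n (.p (nat_lit 0xfa70cd902) (nat_lit 0x140203) (nat_lit 15))
 (.p (nat_lit 0x2a602a5c2a5a2a582a5617e306) (nat_lit 0x800005262a) (nat_lit 51)))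
 (.n (.p (nat_lit 0x15f815f615f415f215f02a1306) (nat_lit 0x1000005240f) (nat_lit 52))
 (.p (nat_lit 0x1ada611902) (nat_lit 0x342521ca4000200000600) (nat_lit 49))))))

def c512_479 : Tr := .n c1024_479 c1024_991

def c256_223 : Tr := .n c512_223 c512_479

def c128_95 : Tr := .n c256_95 c256_223

def c64_31 : Tr := .n c128_31 c128_95

def c1024_63 : Tr :=
 .n (.n (.n (.n (.n (.n (.p (nat_lit 0x51003f003803) (nat_lit 0x42800001) (nat_lit 19))
 (.p (nat_lit 0x1534613102) (nat_lit 0x35486a1b0000000000600) (nat_lit 49)))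
 (.p (nat_lit 0x2b9c2b9a2b982b962b9402152b9f07) (nat_lit 0x50090f) (nat_lit 7)))
 (.n (.p (nat_lit 0x380838063804380037fe0fa906) (nat_lit 0x20000c0303) (nat_lit 52))
 (.p (nat_lit 0x1c12132b02) (nat_lit 0x40082a) (nat_lit 5))))
 (.n (.n (.p (nat_lit 0x1d181d161d141d101a671a5f06) (nat_lit 0x11000056800) (nat_lit 51))
 (.p (nat_lit 0x46b846b646b446b246b022f506) (nat_lit 0x100000c0a1c) (nat_lit 51)))
 (.n (.p (nat_lit 0x1d9e508b02) (nat_lit 0x540806) (nat_lit 29))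
 (.p (nat_lit 0x5cc1154302) (nat_lit 0x2c0020000600) (nat_lit 40)))))
 (.n (.n (.n (.p (nat_lit 0xefa0ef80ef60ef00c930c9106) (nat_lit 0x30000ce300) (nat_lit 52))
 (.p (nat_lit 0x4ca64ca44ca24ca04c9e258d06) (nat_lit 0x10000040b15) (nat_lit 51)))
 (.n (.p (nat_lit 0x2474432d02) (nat_lit 0xb04) (nat_lit 29))
 (.p (nat_lit 0x2235add02) (nat_lit 0xb10) (nat_lit 28))))
 (.n (.n (.p (nat_lit 0x1eea176d02) (nat_lit 0x500901) (nat_lit 5))
 (.p (nat_lit 0x1d6e107b02) (nat_lit 0x540823) (nat_lit 5)))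
 (.n (.p (nat_lit 0x35883586358435823580374d06) (nat_lit 0x100000c820a) (nat_lit 51))
 (.p (nat_lit 0x13f45f2302) (nat_lit 0x3a2560b44000500040000) (nat_lit 49))))))
 (.n (.n (.n (.n (.p (nat_lit 0x7a6079a05c303) (nat_lit 0x300100) (nat_lit 6))
 (.p (nat_lit 0x5d205d005ce05ca05c8028505cd07) (nat_lit 0x200015) (nat_lit 7)))
 (.n (.p (nat_lit 0x3d223d203d1c3d1a3d1808cb06) (nat_lit 0x4000008104) (nat_lit 52))
 (.p (nat_lit 0x211621142110210e210c469306) (nat_lit 0x400004c22f) (nat_lit 52))))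
 (.n (.n (.p (nat_lit 0x2425215902) (nat_lit 0x202b00) (nat_lit 16))
 (.p (nat_lit 0xe980e960e940e920e904a4706) (nat_lit 0x100000c0721) (nat_lit 52)))
 (.n (.p (nat_lit 0x49b917a702) (nat_lit 0x454607) (nat_lit 16))
 (.p (nat_lit 0x5e863d0502) (nat_lit 0x40046900) (nat_lit 48)))))
 (.n (.n (.n (.p (nat_lit 0x165d154d02) (nat_lit 0x8600) (nat_lit 16))
 (.p (nat_lit 0x4d604d404d204d004ce05df06) (nat_lit 0x1000000001c) (nat_lit 51)))
 (.n (.p (nat_lit 0x4cc04ca04c604c404c21ac306) (nat_lit 0x4000040705) (nat_lit 52))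
 (.p (nat_lit 0x5c930ba702) (nat_lit 0x2a0000000200) (nat_lit 39))))
 (.n (.n (.p (nat_lit 0x1ef61ef21ef01eee0070006100591ef51eed09) (nat_lit 0x2000902) (nat_lit 10))
 (.p (nat_lit 0x214421422140213e213c459106) (nat_lit 0x10000050128) (nat_lit 51)))
 (.n (.p (nat_lit 0xaa00a9e0a9c0a9a0a980f7f06) (nat_lit 0x100000ca30e) (nat_lit 51))
 (.p (nat_lit 0x2074602d02) (nat_lit 0x406a62335000400000600) (nat_lit 49))))))

def c1024_575 : Tr :=
 .n (.n (.n (.n (.n (.n (.p (nat_lit 0x38e038c0388039104) (nat_lit 0x1a000400021) (nat_lit 17))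
 (.p (nat_lit 0x21ce61a902) (nat_lit 0x340b8ac64000400040600) (nat_lit 49)))
 (.p (nat_lit 0x408c408a4088408640820251408507) (nat_lit 0x100412) (nat_lit 7)))
 (.n (.p (nat_lit 0x246b21c302) (nat_lit 0x100a03) (nat_lit 15))
 (.p (nat_lit 0x3a383a363a343a323a30330b06) (nat_lit 0x8000c492c) (nat_lit 52))))
 (.n (.n (.p (nat_lit 0x207d207102) (nat_lit 0x300a00) (nat_lit 34))
 (.p (nat_lit 0x3b3e55d902) (nat_lit 0x240a1f) (nat_lit 29)))
 (.n (.p (nat_lit 0xe08050702) (nat_lit 0x400307) (nat_lit 4))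
 (.p (nat_lit 0x5d8d5e6502) (nat_lit 0x2000a0000700) (nat_lit 36)))))
 (.n (.n (.n (.p (nat_lit 0x12a1129502) (nat_lit 0x500) (nat_lit 34))
 (.p (nat_lit 0x41943e2302) (nat_lit 0x100519) (nat_lit 4)))
 (.n (.p (nat_lit 0x3860fbf02) (nat_lit 0x140305) (nat_lit 1))
 (.p (nat_lit 0x5c825c805c7e5c7c5c7a0061049a07) (nat_lit 0x40462d) (nat_lit 25))))
 (.n (.n (.p (nat_lit 0x2d282d262d242d222d20076106) (nat_lit 0x80000c4002) (nat_lit 51))
 (.p (nat_lit 0x33ae30e102) (nat_lit 0x440a25) (nat_lit 4)))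
 (.n (.p (nat_lit 0x45f643b702) (nat_lit 0x20c) (nat_lit 4))
 (.p (nat_lit 0xd105fa502) (nat_lit 0x588bb0344000300000000) (nat_lit 49))))))
 (.n (.n (.n (.n (.p (nat_lit 0x9cc0bb302) (nat_lit 0x40200) (nat_lit 5))
 (.p (nat_lit 0x16ae16ac16aa16a816a414d706) (nat_lit 0x10000cc515) (nat_lit 51)))
 (.n (.p (nat_lit 0x41ea41e841e641e441e2151906) (nat_lit 0x800004e504) (nat_lit 51))
 (.p (nat_lit 0x8a597702) (nat_lit 0x200704) (nat_lit 27))))
 (.n (.n (.p (nat_lit 0xcff0cc302) (nat_lit 0x254201) (nat_lit 16))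
 (.p (nat_lit 0x3d7b089302) (nat_lit 0x512123) (nat_lit 16)))
 (.n (.p (nat_lit 0x178417821780177e177c28cb06) (nat_lit 0x800014308) (nat_lit 52))
 (.p (nat_lit 0x5d2d5eb902) (nat_lit 0x200060000b00) (nat_lit 37)))))
 (.n (.n (.n (.p (nat_lit 0x19ee19ea19e819e6179b179306) (nat_lit 0x8800048700) (nat_lit 51))
 (.p (nat_lit 0x39fb139b02) (nat_lit 0x21051c) (nat_lit 16)))
 (.n (.p (nat_lit 0xd0424db02) (nat_lit 0x540206) (nat_lit 5))
 (.p (nat_lit 0x5e0e0fd702) (nat_lit 0x20000400) (nat_lit 45))))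
 (.n (.n (.p (nat_lit 0x15e215e015dc15da15d8246306) (nat_lit 0x4000010b02) (nat_lit 52))
 (.p (nat_lit 0xe760e740e700e6e0e6c0b5906) (nat_lit 0x400008622a) (nat_lit 52)))
 (.n (.p (nat_lit 0x2e1a2e182e162e122e10191506) (nat_lit 0x200001670e) (nat_lit 51))
 (.p (nat_lit 0xe7860a702) (nat_lit 0x356068ca4000300040000) (nat_lit 50))))))

def c512_63 : Tr := .n c1024_63 c1024_575

def c1024_319 : Tr :=
 .n (.n (.n (.n (.n (.n (.p (nat_lit 0x14801440142014d04) (nat_lit 0xb000400007) (nat_lit 17))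
 (.p (nat_lit 0x13fe616b02) (nat_lit 0x421aa4395000500040000) (nat_lit 50)))
 (.p (nat_lit 0x33de53a902) (nat_lit 0x400b10) (nat_lit 29)))
 (.n (.p (nat_lit 0x167a1b8102) (nat_lit 0x300603) (nat_lit 5))
 (.p (nat_lit 0x281c2a8b02) (nat_lit 0x20022b) (nat_lit 5))))
 (.n (.n (.p (nat_lit 0x1ecb1bc502) (nat_lit 0x108900) (nat_lit 16))
 (.p (nat_lit 0x2eae305102) (nat_lit 0x4011e) (nat_lit 4)))
 (.n (.p (nat_lit 0x51225120511e511c511a5118012020692067205f0a) (nat_lit 0x16040906) (nat_lit 31))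
 (.p (nat_lit 0x5ce35e5502) (nat_lit 0xa0020000700) (nat_lit 37)))))
 (.n (.n (.n (.p (nat_lit 0x10a810a610a0109e0dfb0df906) (nat_lit 0x6000094400) (nat_lit 52))
 (.p (nat_lit 0xa660a640a620a5e0a5c339306) (nat_lit 0x2000040a17) (nat_lit 51)))
 (.n (.p (nat_lit 0x780209302) (nat_lit 0x240005) (nat_lit 4))
 (.p (nat_lit 0x36c036a03680366035103fb06) (nat_lit 0x80e520) (nat_lit 26))))
 (.n (.n (.p (nat_lit 0x2c11204b02) (nat_lit 0x248901) (nat_lit 16))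
 (.p (nat_lit 0x4f084f064f044efe259f259d06) (nat_lit 0x30000d0b23) (nat_lit 52)))
 (.n (.p (nat_lit 0x3bc634af02) (nat_lit 0x440b0a) (nat_lit 5))
 (.p (nat_lit 0x207a5f6d02) (nat_lit 0x3aa074b44000400000600) (nat_lit 50))))))
 (.n (.n (.n (.n (.p (nat_lit 0x9b209ae09ac09aa09a8072506) (nat_lit 0x80000d4100) (nat_lit 52))
 (.p (nat_lit 0x1248542102) (nat_lit 0x440415) (nat_lit 29)))
 (.n (.p (nat_lit 0xfb01f7102) (nat_lit 0x40304) (nat_lit 4))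
 (.p (nat_lit 0x3558c902) (nat_lit 0x500801) (nat_lit 28))))
 (.n (.n (.p (nat_lit 0x5f4156102) (nat_lit 0x400001) (nat_lit 5))
 (.p (nat_lit 0x5e805e605e405e203ba03ab03a105eb05e109) (nat_lit 0x2800023) (nat_lit 10)))
 (.n (.p (nat_lit 0x200851b302) (nat_lit 0x540907) (nat_lit 29))
 (.p (nat_lit 0x5d1121d102) (nat_lit 0xc0040000a00) (nat_lit 39)))))
 (.n (.n (.n (.p (nat_lit 0x181d181102) (nat_lit 0x300700) (nat_lit 34))
 (.p (nat_lit 0x282087f02) (nat_lit 0x10011c) (nat_lit 1)))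
 (.n (.p (nat_lit 0x1f921f901f8e1f8c1f8a1d8906) (nat_lit 0x8000c8805) (nat_lit 51))
 (.p (nat_lit 0x5ce10e7b02) (nat_lit 0xc0020000300) (nat_lit 41))))
 (.n (.n (.p (nat_lit 0x1f181f141f121f1021bf21bb06) (nat_lit 0x14000092a02) (nat_lit 51))
 (.p (nat_lit 0x100e100a10081006100450c506) (nat_lit 0x8000042829) (nat_lit 52)))
 (.n (.p (nat_lit 0x317b123d02) (nat_lit 0x44e40e) (nat_lit 16))
 (.p (nat_lit 0x2497248921dd21cd1f131f0b1c4f1c451983197516a5169b606a0d) (nat_lit 0x588172b40800000040600) (nat_lit 33))))))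

def c1024_831 : Tr :=
 .n (.n (.n (.n (.n (.n (.p (nat_lit 0x5bd04db02) (nat_lit 0x0) (nat_lit 15))
 (.p (nat_lit 0x1c4e61e702) (nat_lit 0x3422b0d64000200040600) (nat_lit 50)))
 (.p (nat_lit 0x229e229c229a22982296485506) (nat_lit 0x100000ce413) (nat_lit 52)))
 (.n (.p (nat_lit 0x25c41d2302) (nat_lit 0x340b03) (nat_lit 4))
 (.p (nat_lit 0x3c043c003bfe3bfc3bfa04973c0307) (nat_lit 0x440b2d) (nat_lit 7))))
 (.n (.n (.p (nat_lit 0x22582254225222501ffb1ff306) (nat_lit 0x88000c8a00) (nat_lit 52))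
 (.p (nat_lit 0x428a42884284428242800369428707) (nat_lit 0x340620) (nat_lit 7)))
 (.n (.p (nat_lit 0x40150f6f02) (nat_lit 0x352307) (nat_lit 16))
 (.p (nat_lit 0x5d6d1ae902) (nat_lit 0x100080000800) (nat_lit 40)))))
 (.n (.n (.n (.p (nat_lit 0x142e142c142a14281426122706) (nat_lit 0x100000c4500) (nat_lit 52))
 (.p (nat_lit 0x2146214421422140213c48bf06) (nat_lit 0x100001051a) (nat_lit 51)))
 (.n (.p (nat_lit 0x236c2368236623642362169506) (nat_lit 0x8000002605) (nat_lit 52))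
 (.p (nat_lit 0x5c97079502) (nat_lit 0x260000000100) (nat_lit 38))))
 (.n (.n (.p (nat_lit 0x30110e3702) (nat_lit 0x300302) (nat_lit 16))
 (.p (nat_lit 0x3d7a3d763d743d723d7004033d7907) (nat_lit 0x400127) (nat_lit 7)))
 (.n (.p (nat_lit 0x4f164ad302) (nat_lit 0x14040d) (nat_lit 5))
 (.p (nat_lit 0x15485fed02) (nat_lit 0x306a81d31000000000600) (nat_lit 50))))))
 (.n (.n (.n (.n (.p (nat_lit 0xd400d3e0d3a0d360b350b3106) (nat_lit 0x5000002300) (nat_lit 51))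
 (.p (nat_lit 0x1bfb1bef02) (nat_lit 0x408815) (nat_lit 16)))
 (.n (.p (nat_lit 0x198419821980197e197c17fd06) (nat_lit 0x100000ce604) (nat_lit 51))
 (.p (nat_lit 0x5a1a5a185a165a145a1204b1014c07) (nat_lit 0x308a07) (nat_lit 25))))
 (.n (.n (.p (nat_lit 0x74f14ef02) (nat_lit 0x140501) (nat_lit 15))
 (.p (nat_lit 0xd260d240d220d200d1e0cb106) (nat_lit 0x10000040223) (nat_lit 52)))
 (.n (.p (nat_lit 0x30f1300d02) (nat_lit 0x100309) (nat_lit 15))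
 (.p (nat_lit 0xa525ee102) (nat_lit 0x4a8d84344000200000000) (nat_lit 50)))))
 (.n (.n (.n (.p (nat_lit 0x1b9c1b9a1b961b9218ff18fb06) (nat_lit 0x5000014800) (nat_lit 52))
 (.p (nat_lit 0x1bfc1bfa1bf61bf41bf2030d1bf907) (nat_lit 0x30081c) (nat_lit 7)))
 (.n (.p (nat_lit 0x15841582157e157a196b196706) (nat_lit 0x5000004706) (nat_lit 52))
 (.p (nat_lit 0x5cf55e2b02) (nat_lit 0x280040000500) (nat_lit 37))))
 (.n (.n (.p (nat_lit 0x357e357c357a357608bd08b906) (nat_lit 0x2800008103) (nat_lit 52))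
 (.p (nat_lit 0x107a1076107410700e210e1b06) (nat_lit 0x900009032a) (nat_lit 51)))
 (.n (.p (nat_lit 0x22d2084d02) (nat_lit 0x40a0e) (nat_lit 5))
 (.p (nat_lit 0x63460f102) (nat_lit 0x440d623a4000000040000) (nat_lit 49))))))

def c512_319 : Tr := .n c1024_319 c1024_831

def c256_63 : Tr := .n c512_63 c512_319

def c1024_191 : Tr :=
 .n (.n (.n (.n (.n (.n (.p (nat_lit 0xb600b400c303) (nat_lit 0x1800500004) (nat_lit 17))
 (.p (nat_lit 0x1c3c614f02) (nat_lit 0x3503a0d84000200040600) (nat_lit 49)))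
 (.p (nat_lit 0x3973317302) (nat_lit 0x52410) (nat_lit 16)))
 (.n (.p (nat_lit 0x1505126502) (nat_lit 0x40403) (nat_lit 15))
 (.p (nat_lit 0x21a621a421a2219e219c043921a107) (nat_lit 0x200a2a) (nat_lit 7))))
 (.n (.n (.p (nat_lit 0x1dfc1dfa1df81df41bcd1bc506) (nat_lit 0x11000084900) (nat_lit 51))
 (.p (nat_lit 0x55ba55b855b655b455b255b0034207) (nat_lit 0x81d) (nat_lit 8)))
 (.n (.p (nat_lit 0x11350d502) (nat_lit 0x906) (nat_lit 30))
 (.p (nat_lit 0x5d655e4b02) (nat_lit 0x180080000600) (nat_lit 36)))))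
 (.n (.n (.n (.p (nat_lit 0x3aa0dff02) (nat_lit 0x500400) (nat_lit 1))
 (.p (nat_lit 0x2cf42edd02) (nat_lit 0x100017) (nat_lit 5)))
 (.n (.p (nat_lit 0xbf436502) (nat_lit 0x540b04) (nat_lit 30))
 (.p (nat_lit 0x2eb5b5702) (nat_lit 0x300b19) (nat_lit 28))))
 (.n (.n (.p (nat_lit 0x2050204e204c204a2046002d204907) (nat_lit 0x140901) (nat_lit 7))
 (.p (nat_lit 0x2449219502) (nat_lit 0x200a23) (nat_lit 15)))
 (.n (.p (nat_lit 0x3a383a363a343a323a30396706) (nat_lit 0x8000c440a) (nat_lit 52))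
 (.p (nat_lit 0x248f248b21dd21d31f1b1f071c471c431983197516ad16995f460d) (nat_lit 0x1a9d22350000000040600) (nat_lit 33))))))
 (.n (.n (.n (.n (.p (nat_lit 0x8bd05c102) (nat_lit 0x210100) (nat_lit 16))
 (.p (nat_lit 0x73f073302) (nat_lit 0x548015) (nat_lit 16)))
 (.n (.p (nat_lit 0x3e6f0b8902) (nat_lit 0x300204) (nat_lit 16))
 (.p (nat_lit 0x2550254e254a254825464d0306) (nat_lit 0x4000090230) (nat_lit 52))))
 (.n (.n (.p (nat_lit 0x2536253425322530252e22c506) (nat_lit 0x100000ceb00) (nat_lit 51))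
 (.p (nat_lit 0x5028567902) (nat_lit 0x440722) (nat_lit 29)))
 (.n (.p (nat_lit 0x1bd61bd41bd21bd01bce014b1bd907) (nat_lit 0x500807) (nat_lit 7))
 (.p (nat_lit 0x5e901dab02) (nat_lit 0xa0000900) (nat_lit 45)))))
 (.n (.n (.n (.p (nat_lit 0x1760175e1758175616b716b506) (nat_lit 0x60000d0600) (nat_lit 51))
 (.p (nat_lit 0x73e073c073a07340322030b03090739073709) (nat_lit 0x114001c) (nat_lit 10)))
 (.n (.p (nat_lit 0xba1c2902) (nat_lit 0x300805) (nat_lit 1))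
 (.p (nat_lit 0x5dea50ab02) (nat_lit 0x60056200) (nat_lit 48))))
 (.n (.n (.p (nat_lit 0x1bc01bbe1bbc1bba1bb6205506) (nat_lit 0x10000d6902) (nat_lit 51))
 (.p (nat_lit 0x4c904c8e4c8c4c8a4c88041d4c8707) (nat_lit 0x40129) (nat_lit 7)))
 (.n (.p (nat_lit 0x10ed10e102) (nat_lit 0x30640e) (nat_lit 16))
 (.p (nat_lit 0x180e604d02) (nat_lit 0x406a6254c800100000600) (nat_lit 49))))))

def c1024_703 : Tr :=
 .n (.n (.n (.n (.n (.n (.p (nat_lit 0x4de04d302) (nat_lit 0x200000) (nat_lit 5))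
 (.p (nat_lit 0x249261c702) (nat_lit 0x340d89ca4000500040600) (nat_lit 50)))
 (.p (nat_lit 0x422a3d4502) (nat_lit 0x500612) (nat_lit 5)))
 (.n (.p (nat_lit 0x8f208f008ee08ea08e8246d06) (nat_lit 0x2000082b03) (nat_lit 52))
 (.p (nat_lit 0x36d639af02) (nat_lit 0x40022d) (nat_lit 4))))
 (.n (.n (.p (nat_lit 0x21611e8d02) (nat_lit 0xa00) (nat_lit 16))
 (.p (nat_lit 0x3d0a3d083d043d023d0003693d0707) (nat_lit 0x340020) (nat_lit 7)))
 (.n (.p (nat_lit 0xf6c050f02) (nat_lit 0x240307) (nat_lit 5))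
 (.p (nat_lit 0x5e6c37d502) (nat_lit 0x20000800) (nat_lit 47)))))
 (.n (.n (.n (.p (nat_lit 0x1370136e136a1368136610c906) (nat_lit 0x4000016500) (nat_lit 52))
 (.p (nat_lit 0x2ce42c902) (nat_lit 0x719) (nat_lit 1)))
 (.n (.p (nat_lit 0x13d220f502) (nat_lit 0x505) (nat_lit 4))
 (.p (nat_lit 0x5cff04c702) (nat_lit 0x1e0040000000) (nat_lit 38))))
 (.n (.n (.p (nat_lit 0xb6e185502) (nat_lit 0x200202) (nat_lit 4))
 (.p (nat_lit 0x375238a902) (nat_lit 0x240226) (nat_lit 5)))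
 (.n (.p (nat_lit 0x4a1d49b502) (nat_lit 0x24060c) (nat_lit 15))
 (.p (nat_lit 0x181e5fcf02) (nat_lit 0x9582ec05000100000600) (nat_lit 50))))))
 (.n (.n (.n (.n (.p (nat_lit 0xc8f09cd02) (nat_lit 0x40200) (nat_lit 15))
 (.p (nat_lit 0x54525450544e544c544a5448028c07) (nat_lit 0x715) (nat_lit 8)))
 (.n (.p (nat_lit 0x1953168702) (nat_lit 0x300604) (nat_lit 15))
 (.p (nat_lit 0x26e59c902) (nat_lit 0x300106) (nat_lit 27))))
 (.n (.n (.p (nat_lit 0x124c299f02) (nat_lit 0x40401) (nat_lit 29))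
 (.p (nat_lit 0x364909ef02) (nat_lit 0x550123) (nat_lit 16)))
 (.n (.p (nat_lit 0x50e72b8f02) (nat_lit 0x314908) (nat_lit 16))
 (.p (nat_lit 0x4d05ec502) (nat_lit 0x260b84344000000000000) (nat_lit 50)))))
 (.n (.n (.n (.p (nat_lit 0x1a9f179902) (nat_lit 0x348700) (nat_lit 16))
 (.p (nat_lit 0x17c60edd02) (nat_lit 0x24061c) (nat_lit 4)))
 (.n (.p (nat_lit 0x420128d02) (nat_lit 0x240406) (nat_lit 1))
 (.p (nat_lit 0x5da95e1f02) (nat_lit 0x400a0000400) (nat_lit 36))))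
 (.n (.n (.p (nat_lit 0x606343502) (nat_lit 0x100003) (nat_lit 29))
 (.p (nat_lit 0x12aa12a812a412a212a00cb906) (nat_lit 0x400004a22a) (nat_lit 51)))
 (.n (.p (nat_lit 0x1f1533302) (nat_lit 0x54080e) (nat_lit 30))
 (.p (nat_lit 0xbb660d102) (nat_lit 0x35052a3a4000200040000) (nat_lit 50))))))

def c512_191 : Tr := .n c1024_191 c1024_703

def c1024_447 : Tr :=
 .n (.n (.n (.n (.n (.n (.p (nat_lit 0x28a02860284028d04) (nat_lit 0x16000400015) (nat_lit 17))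
 (.p (nat_lit 0x1c44618902) (nat_lit 0x340b86c64000200040600) (nat_lit 49)))
 (.p (nat_lit 0x1bc01bbe1bbc1bb81bb6397706) (nat_lit 0x20000d6411) (nat_lit 51)))
 (.n (.p (nat_lit 0x188a18881882188017ed17eb06) (nat_lit 0x6000048603) (nat_lit 52))
 (.p (nat_lit 0x2c1e2a6902) (nat_lit 0x34092b) (nat_lit 5))))
 (.n (.n (.p (nat_lit 0x1fc01fbe1fbc1fb81fb61d2d06) (nat_lit 0x20000cc900) (nat_lit 52))
 (.p (nat_lit 0x354a378102) (nat_lit 0x14001f) (nat_lit 5)))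
 (.n (.p (nat_lit 0xb530b3b02) (nat_lit 0x8207) (nat_lit 16))
 (.p (nat_lit 0x5d29197702) (nat_lit 0x240060000700) (nat_lit 39)))))
 (.n (.n (.n (.p (nat_lit 0x11721170116e116c0f670f5d06) (nat_lit 0x10800042400) (nat_lit 51))
 (.p (nat_lit 0x3aac3aaa3aa83aa63aa402cf3aa307) (nat_lit 0x618) (nat_lit 7)))
 (.n (.p (nat_lit 0xb9645a702) (nat_lit 0x400205) (nat_lit 29))
 (.p (nat_lit 0x3545c1102) (nat_lit 0x300226) (nat_lit 27))))
 (.n (.n (.p (nat_lit 0x231823162312231000400031002b2315230f09) (nat_lit 0x1840a01) (nat_lit 10))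
 (.p (nat_lit 0x117411721170116c116a2bbd06) (nat_lit 0x2000002924) (nat_lit 51)))
 (.n (.p (nat_lit 0x41584156415441524150408106) (nat_lit 0x1000000c40b) (nat_lit 52))
 (.p (nat_lit 0x15345f8d02) (nat_lit 0x581a30344000000000600) (nat_lit 49))))))
 (.n (.n (.n (.n (.p (nat_lit 0xa7e0a7c0a7a0a780873087106) (nat_lit 0x1800008200) (nat_lit 52))
 (.p (nat_lit 0x13f413f013ee13ec13ea139306) (nat_lit 0x800008a515) (nat_lit 52)))
 (.n (.p (nat_lit 0x127812761274127000d400bf00b7127b127309) (nat_lit 0x2940404) (nat_lit 10))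
 (.p (nat_lit 0x8c008a00880086000b01a106) (nat_lit 0x2c16003) (nat_lit 26))))
 (.n (.n (.p (nat_lit 0xa02157502) (nat_lit 0x340101) (nat_lit 4))
 (.p (nat_lit 0x4b91074102) (nat_lit 0x56023) (nat_lit 16)))
 (.n (.p (nat_lit 0x4ace4acc4aca4ac84ac4241706) (nat_lit 0x1000086b07) (nat_lit 51))
 (.p (nat_lit 0x5eaa206902) (nat_lit 0xa004ca00) (nat_lit 47)))))
 (.n (.n (.n (.p (nat_lit 0x18fb162302) (nat_lit 0x100700) (nat_lit 15))
 (.p (nat_lit 0x9e2551302) (nat_lit 0x54011c) (nat_lit 29)))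
 (.n (.p (nat_lit 0x8e0236702) (nat_lit 0x200106) (nat_lit 4))
 (.p (nat_lit 0x5d670d1b02) (nat_lit 0x160080000300) (nat_lit 40))))
 (.n (.n (.p (nat_lit 0x197a197819761972231f231b06) (nat_lit 0x28000cea02) (nat_lit 52))
 (.p (nat_lit 0x9f4141302) (nat_lit 0x24012a) (nat_lit 5)))
 (.n (.p (nat_lit 0x65e065c065a065814d314d106) (nat_lit 0x1800004450e) (nat_lit 51))
 (.p (nat_lit 0x8f2608d02) (nat_lit 0x342221ca4000100040000) (nat_lit 49))))))

def c1024_959 : Tr :=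
 .n (.n (.n (.n (.n (.p (nat_lit 0x690068e068c068a0688065706) (nat_lit 0x10000048000) (nat_lit 52))
 (.p (nat_lit 0x4eab4e9f02) (nat_lit 0x406414) (nat_lit 16)))
 (.n (.p (nat_lit 0x61a061806160614061000b7061307) (nat_lit 0x100004) (nat_lit 7))
 (.p (nat_lit 0x429e416302) (nat_lit 0x34062e) (nat_lit 4))))
 (.n (.n (.p (nat_lit 0x2154233f02) (nat_lit 0xb00) (nat_lit 5))
 (.p (nat_lit 0x44a046b502) (nat_lit 0x240021) (nat_lit 5)))
 (.n (.p (nat_lit 0x1230069d02) (nat_lit 0x440407) (nat_lit 4))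
 (.p (nat_lit 0x5cb75e7f02) (nat_lit 0x60000000900) (nat_lit 36)))))
 (.n (.n (.n (.p (nat_lit 0x1552153b02) (nat_lit 0x300600) (nat_lit 4))
 (.p (nat_lit 0x4f324cb702) (nat_lit 0x34041b) (nat_lit 4)))
 (.n (.p (nat_lit 0x4d804d604d404d204ce195b06) (nat_lit 0x1000000705) (nat_lit 51))
 (.p (nat_lit 0x5d2d08ef02) (nat_lit 0x200060000100) (nat_lit 39))))
 (.n (.n (.p (nat_lit 0x13ae317f02) (nat_lit 0x502) (nat_lit 29))
 (.p (nat_lit 0x3ee42e302) (nat_lit 0x100727) (nat_lit 1)))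
 (.n (.p (nat_lit 0xe0e07af02) (nat_lit 0x10030e) (nat_lit 4))
 (.p (nat_lit 0x181c600f02) (nat_lit 0x405aa0b94800100000600) (nat_lit 50))))))
 (.n (.n (.n (.n (.p (nat_lit 0xe450b3702) (nat_lit 0x410300) (nat_lit 16))
 (.p (nat_lit 0x2fa218102) (nat_lit 0x400a15) (nat_lit 1)))
 (.n (.p (nat_lit 0x1d0e1d0c1d081d041953194f06) (nat_lit 0x5000094704) (nat_lit 51))
 (.p (nat_lit 0x1ef5a7502) (nat_lit 0x40030e) (nat_lit 28))))
 (.n (.n (.p (nat_lit 0x1c371c1f02) (nat_lit 0x414801) (nat_lit 16))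
 (.p (nat_lit 0x193a105302) (nat_lit 0x300723) (nat_lit 5)))
 (.n (.p (nat_lit 0x66e066c066a06680666332306) (nat_lit 0x800084a09) (nat_lit 51))
 (.p (nat_lit 0x15345f0f02) (nat_lit 0x3a2570344000000000600) (nat_lit 49)))))
 (.n (.n (.n (.p (nat_lit 0x1c501c441a6703) (nat_lit 0x540800) (nat_lit 6))
 (.p (nat_lit 0x1ecf1ec302) (nat_lit 0x30a91c) (nat_lit 16)))
 (.n (.p (nat_lit 0x1c3623ed02) (nat_lit 0x400806) (nat_lit 4))
 (.p (nat_lit 0x5d935e3702) (nat_lit 0x1a00a0000500) (nat_lit 37))))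
 (.n (.n (.p (nat_lit 0xe470b8102) (nat_lit 0x500203) (nat_lit 15))
 (.p (nat_lit 0x194b167302) (nat_lit 0x50062a) (nat_lit 15)))
 (.n (.p (nat_lit 0x299426e302) (nat_lit 0x10040f) (nat_lit 4))
 (.p (nat_lit 0xbb6611302) (nat_lit 0x34252a1b0000200040000) (nat_lit 50))))))

def c512_447 : Tr := .n c1024_447 c1024_959

def c256_191 : Tr := .n c512_191 c512_447

def c128_63 : Tr := .n c256_63 c256_191

def c1024_127 : Tr :=
 .n (.n (.n (.n (.n (.n (.p (nat_lit 0x7f0079006603) (nat_lit 0x81100002) (nat_lit 19))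
 (.p (nat_lit 0x8fe613f02) (nat_lit 0x352a21d84000100040000) (nat_lit 50)))
 (.p (nat_lit 0x3173309702) (nat_lit 0x40310) (nat_lit 15)))
 (.n (.p (nat_lit 0x38c438c238be38bc38ba111106) (nat_lit 0x4000016403) (nat_lit 52))
 (.p (nat_lit 0x1ede134102) (nat_lit 0x50092a) (nat_lit 5))))
 (.n (.n (.p (nat_lit 0x1d8d1a6102) (nat_lit 0x254800) (nat_lit 16))
 (.p (nat_lit 0x25920ded02) (nat_lit 0x240b1c) (nat_lit 4)))
 (.n (.p (nat_lit 0x197819761974197219701d9f06) (nat_lit 0x100000ce806) (nat_lit 52))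
 (.p (nat_lit 0x5d3f153b02) (nat_lit 0xe0060000600) (nat_lit 38)))))
 (.n (.n (.n (.p (nat_lit 0xf870c9502) (nat_lit 0x34a300) (nat_lit 16))
 (.p (nat_lit 0x2b1c27e302) (nat_lit 0x400816) (nat_lit 4)))
 (.n (.p (nat_lit 0x22a0229e229a22982296247b06) (nat_lit 0x400008eb04) (nat_lit 52))
 (.p (nat_lit 0x28a02880286028002d1000506) (nat_lit 0xa10515) (nat_lit 26))))
 (.n (.n (.p (nat_lit 0x1820181e181a181818161ee706) (nat_lit 0x400000e901) (nat_lit 51))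
 (.p (nat_lit 0x21971ecf02) (nat_lit 0x300923) (nat_lit 15)))
 (.n (.p (nat_lit 0x1ce81ce61ce41ce03865385d06) (nat_lit 0x1100004c30a) (nat_lit 52))
 (.p (nat_lit 0x6345f3902) (nat_lit 0x3a2560c44000000040000) (nat_lit 49))))))
 (.n (.n (.n (.n (.p (nat_lit 0x7e407e207de07dc05c705c106) (nat_lit 0x1200000a100) (nat_lit 51))
 (.p (nat_lit 0x283540302) (nat_lit 0x140015) (nat_lit 30)))
 (.n (.p (nat_lit 0x3df10a2b02) (nat_lit 0x546104) (nat_lit 16))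
 (.p (nat_lit 0x4a08492d02) (nat_lit 0x30072f) (nat_lit 5))))
 (.n (.n (.p (nat_lit 0x22c422c222be22bc22ba000722c107) (nat_lit 0x340b00) (nat_lit 7))
 (.p (nat_lit 0x4c04565102) (nat_lit 0x200122) (nat_lit 29)))
 (.n (.p (nat_lit 0x1a6a06b702) (nat_lit 0x140707) (nat_lit 5))
 (.p (nat_lit 0x5d711f0d02) (nat_lit 0xc0080000900) (nat_lit 39)))))
 (.n (.n (.n (.p (nat_lit 0x16b816b616b416b216b0000b16bb07) (nat_lit 0x540600) (nat_lit 7))
 (.p (nat_lit 0x1db21db01dae1dac05df05dd06) (nat_lit 0x1800001201c) (nat_lit 51)))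
 (.n (.p (nat_lit 0x1c501c4e1c4c1c4a1c481abd06) (nat_lit 0x8000d0705) (nat_lit 51))
 (.p (nat_lit 0x5de23b8502) (nat_lit 0x20010200) (nat_lit 48))))
 (.n (.n (.p (nat_lit 0x8c205902) (nat_lit 0x340902) (nat_lit 1))
 (.p (nat_lit 0x4a52483d02) (nat_lit 0x540728) (nat_lit 4)))
 (.n (.p (nat_lit 0x11441142113e113c113a10e106) (nat_lit 0x400008840e) (nat_lit 52))
 (.p (nat_lit 0x13fe603902) (nat_lit 0x4a8162340800500040000) (nat_lit 50))))))

def c1024_639 : Tr :=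
 .n (.n (.n (.n (.n (.n (.p (nat_lit 0x43e04380434044104) (nat_lit 0x1280040002a) (nat_lit 17))
 (.p (nat_lit 0x114261bb02) (nat_lit 0x322266c15000400040000) (nat_lit 49)))
 (.p (nat_lit 0x1fe41fe21fe01fdc1fda410506) (nat_lit 0x2000056412) (nat_lit 51)))
 (.n (.p (nat_lit 0x1e661e641e601e5c232d232906) (nat_lit 0x500004ea03) (nat_lit 51))
 (.p (nat_lit 0x340831dd02) (nat_lit 0x300b2c) (nat_lit 4))))
 (.n (.n (.p (nat_lit 0x21222120211e211a21181e9106) (nat_lit 0x200008ca00) (nat_lit 52))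
 (.p (nat_lit 0x3be637cb02) (nat_lit 0x240b1f) (nat_lit 4)))
 (.n (.p (nat_lit 0x198619841980197e197c0e0706) (nat_lit 0x400008e307) (nat_lit 51))
 (.p (nat_lit 0x5e6636cf02) (nat_lit 0xa800) (nat_lit 48)))))
 (.n (.n (.n (.p (nat_lit 0x12ce12ca12c812c612c410cb06) (nat_lit 0x8000004500) (nat_lit 52))
 (.p (nat_lit 0x282422f02) (nat_lit 0x100619) (nat_lit 1)))
 (.n (.p (nat_lit 0x1128477502) (nat_lit 0x300405) (nat_lit 29))
 (.p (nat_lit 0x5dae064102) (nat_lit 0x40000) (nat_lit 46))))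
 (.n (.n (.p (nat_lit 0xb7508b702) (nat_lit 0x500102) (nat_lit 15))
 (.p (nat_lit 0x3640389102) (nat_lit 0x140126) (nat_lit 5)))
 (.n (.p (nat_lit 0x475443d302) (nat_lit 0x34030c) (nat_lit 5))
 (.p (nat_lit 0x233e5fc302) (nat_lit 0x89832915800500000600) (nat_lit 50))))))
 (.n (.n (.n (.n (.p (nat_lit 0xbde0bdc0bda0bd609d709cf06) (nat_lit 0x11000048200) (nat_lit 51))
 (.p (nat_lit 0x285543502) (nat_lit 0x200615) (nat_lit 30)))
 (.n (.p (nat_lit 0xd100d0e0d0c0d0a0d06168306) (nat_lit 0x1000006604) (nat_lit 52))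
 (.p (nat_lit 0xec00ea00e400e20005040f06) (nat_lit 0x130e405) (nat_lit 26))))
 (.n (.n (.p (nat_lit 0xf9415a702) (nat_lit 0x440301) (nat_lit 4))
 (.p (nat_lit 0x129c129a12981296129409ef06) (nat_lit 0x1000004a123) (nat_lit 52)))
 (.n (.p (nat_lit 0x2cf02cee2cec2ce82b012afd06) (nat_lit 0x2800096808) (nat_lit 51))
 (.p (nat_lit 0x5d5b5ebd02) (nat_lit 0x220080000b00) (nat_lit 37)))))
 (.n (.n (.n (.p (nat_lit 0x1a4e1a4c1a4a1a481a461a4406) (nat_lit 0x56700) (nat_lit 52))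
 (.p (nat_lit 0x10221020101e101c14eb14e906) (nat_lit 0x1800004451c) (nat_lit 51)))
 (.n (.p (nat_lit 0x4e004dfe4dfc4df84df60fcd06) (nat_lit 0x2000042306) (nat_lit 52))
 (.p (nat_lit 0x5e16506f02) (nat_lit 0x60016400) (nat_lit 48))))
 (.n (.n (.p (nat_lit 0x3225bb02) (nat_lit 0x440b02) (nat_lit 1))
 (.p (nat_lit 0x28230b5d02) (nat_lit 0x50c22a) (nat_lit 16)))
 (.n (.p (nat_lit 0x1be2532502) (nat_lit 0x40080e) (nat_lit 29))
 (.p (nat_lit 0x248460b302) (nat_lit 0x350521a84000500040600) (nat_lit 49))))))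

def c512_127 : Tr := .n c1024_127 c1024_639

def c1024_383 : Tr :=
 .n (.n (.n (.n (.n (.n (.p (nat_lit 0x1e201dc01d801e504) (nat_lit 0x1280040000d) (nat_lit 17))
 (.p (nat_lit 0x8e8617b02) (nat_lit 0x521a86b11000100040000) (nat_lit 49)))
 (.p (nat_lit 0x1b1a1b181b161b141b1038e106) (nat_lit 0x1000082411) (nat_lit 51)))
 (.n (.p (nat_lit 0x3aa9167b02) (nat_lit 0x304603) (nat_lit 16))
 (.p (nat_lit 0x2b382ab502) (nat_lit 0x30082b) (nat_lit 4))))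
 (.n (.n (.p (nat_lit 0x1d301d2e1d2c1d28001c000b00031d331d2b09) (nat_lit 0x2940900) (nat_lit 10))
 (.p (nat_lit 0x33a0307902) (nat_lit 0x340a1e) (nat_lit 5)))
 (.n (.p (nat_lit 0x14e0159015d065f04ed05) (nat_lit 0xa0b00207) (nat_lit 9))
 (.p (nat_lit 0x5d0d198102) (nat_lit 0x100040000700) (nat_lit 41)))))
 (.n (.n (.n (.p (nat_lit 0x112d0dff02) (nat_lit 0x514400) (nat_lit 16))
 (.p (nat_lit 0x377c377a37783776377238ed06) (nat_lit 0x1000000418) (nat_lit 52)))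
 (.n (.p (nat_lit 0x44be44bc44ba44b844b644b400f008d908d308d10a) (nat_lit 0x10800105) (nat_lit 31))
 (.p (nat_lit 0x3a803a603a403a203e9000106) (nat_lit 0x280e123) (nat_lit 26))))
 (.n (.n (.p (nat_lit 0x23d623d223d023ce23cc21b106) (nat_lit 0x800000ea01) (nat_lit 52))
 (.p (nat_lit 0x27b4296902) (nat_lit 0x540124) (nat_lit 5)))
 (.n (.p (nat_lit 0x3f903c8f02) (nat_lit 0x30b) (nat_lit 5))
 (.p (nat_lit 0x4d05f7902) (nat_lit 0x560bb0344000000000000) (nat_lit 50))))))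
 (.n (.n (.n (.n (.p (nat_lit 0xa4e0a4c0a4a0a480a460a4406) (nat_lit 0x200) (nat_lit 2))
 (.p (nat_lit 0x138a542502) (nat_lit 0x515) (nat_lit 29)))
 (.n (.p (nat_lit 0xbb402102) (nat_lit 0x300404) (nat_lit 30))
 (.p (nat_lit 0x5f58f302) (nat_lit 0x300502) (nat_lit 28))))
 (.n (.n (.p (nat_lit 0xa03075302) (nat_lit 0x340001) (nat_lit 15))
 (.p (nat_lit 0x74a074807460742074003a5074507) (nat_lit 0x240023) (nat_lit 7)))
 (.n (.p (nat_lit 0x22ca06fd02) (nat_lit 0x240a07) (nat_lit 4))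
 (.p (nat_lit 0x5d6d5ea502) (nat_lit 0x100080000a00) (nat_lit 36)))))
 (.n (.n (.n (.p (nat_lit 0x18ba18b418b218b01629162706) (nat_lit 0xc000012700) (nat_lit 52))
 (.p (nat_lit 0xc320c2e0c2c0c280885087f06) (nat_lit 0x900008e11c) (nat_lit 52)))
 (.n (.p (nat_lit 0x11b4aa902) (nat_lit 0x400006) (nat_lit 30))
 (.p (nat_lit 0x5dfc124502) (nat_lit 0x40042300) (nat_lit 48))))
 (.n (.n (.p (nat_lit 0x23242320231c231a007e0061005d2323231f09) (nat_lit 0x2240a02) (nat_lit 10))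
 (.p (nat_lit 0x4f004ee04ec04ea04e6089706) (nat_lit 0x100000412a) (nat_lit 52)))
 (.n (.p (nat_lit 0x67a0674067206701387138506) (nat_lit 0xc00000650e) (nat_lit 51))
 (.p (nat_lit 0x8f0607b02) (nat_lit 0x511a22b85000100040000) (nat_lit 49))))))

def c1024_895 : Tr :=
 .n (.n (.n (.n (.n (.p (nat_lit 0x645063902) (nat_lit 0x240000) (nat_lit 34))
 (.p (nat_lit 0x946094409420940093c4a2706) (nat_lit 0x10000ca713) (nat_lit 52)))
 (.n (.p (nat_lit 0x16ae16ac16aa16a816a425c106) (nat_lit 0x10000ccb03) (nat_lit 51))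
 (.p (nat_lit 0x1fc01fbe1fba1fb81fb63f2b06) (nat_lit 0x40000cc22e) (nat_lit 52))))
 (.n (.n (.p (nat_lit 0x22b822b622b422b21ff51ff306) (nat_lit 0x18000d0a00) (nat_lit 52))
 (.p (nat_lit 0x434a3f8302) (nat_lit 0x300b20) (nat_lit 4)))
 (.n (.p (nat_lit 0x12da12d612d412d212d010d706) (nat_lit 0x8000084407) (nat_lit 51))
 (.p (nat_lit 0x5da91c4502) (nat_lit 0x400a0000800) (nat_lit 39)))))
 (.n (.n (.n (.p (nat_lit 0x14c9121d02) (nat_lit 0x42500) (nat_lit 16))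
 (.p (nat_lit 0x49e845e902) (nat_lit 0x40071a) (nat_lit 5)))
 (.n (.p (nat_lit 0x1804211f02) (nat_lit 0x340605) (nat_lit 4))
 (.p (nat_lit 0x5dc8426b02) (nat_lit 0x20052100) (nat_lit 47))))
 (.n (.n (.p (nat_lit 0x110230b302) (nat_lit 0x200402) (nat_lit 29))
 (.p (nat_lit 0x3e7a404502) (nat_lit 0x400227) (nat_lit 5)))
 (.n (.p (nat_lit 0x50805060504050004fe503d06) (nat_lit 0x200000680d) (nat_lit 52))
 (.p (nat_lit 0x8fe5ffb02) (nat_lit 0x16a88cd50000100040000) (nat_lit 50))))))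
 (.n (.n (.n (.n (.p (nat_lit 0xda80da60da40da00b390b3106) (nat_lit 0x11000090300) (nat_lit 51))
 (.p (nat_lit 0x1eba548302) (nat_lit 0x500915) (nat_lit 29)))
 (.n (.p (nat_lit 0xc200cd00d11e5f1fc505) (nat_lit 0xa1900704) (nat_lit 9))
 (.p (nat_lit 0x1a2019e019c01980143008f06) (nat_lit 0xc1630a) (nat_lit 26))))
 (.n (.n (.p (nat_lit 0x2afa2af82af62af42af22af000381c1f1c1d1c1b0a) (nat_lit 0x11a00801) (nat_lit 31))
 (.p (nat_lit 0x1662103b02) (nat_lit 0x300623) (nat_lit 4)))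
 (.n (.p (nat_lit 0x187520b02) (nat_lit 0x140409) (nat_lit 30))
 (.p (nat_lit 0x1da25ef102) (nat_lit 0x4a1d22344000300000600) (nat_lit 49)))))
 (.n (.n (.n (.p (nat_lit 0x1bf918ff02) (nat_lit 0x306800) (nat_lit 16))
 (.p (nat_lit 0x1d620dab02) (nat_lit 0x54081c) (nat_lit 5)))
 (.n (.p (nat_lit 0x1ad2253902) (nat_lit 0x540706) (nat_lit 5))
 (.p (nat_lit 0x5d7b129d02) (nat_lit 0x20080000500) (nat_lit 38))))
 (.n (.n (.p (nat_lit 0x35ec35ea35e835e635e20a1706) (nat_lit 0x1000048103) (nat_lit 51))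
 (.p (nat_lit 0x100e100a1008100610040f8906) (nat_lit 0x800004232a) (nat_lit 52)))
 (.n (.p (nat_lit 0x4bf24bee4bec4be82429242306) (nat_lit 0x9000010b0e) (nat_lit 52))
 (.p (nat_lit 0x153460fd02) (nat_lit 0x340a623b0000000000600) (nat_lit 49))))))

def c512_383 : Tr := .n c1024_383 c1024_895

def c256_127 : Tr := .n c512_127 c512_383

def c1024_255 : Tr :=
 .n (.n (.n (.n (.n (.n (.p (nat_lit 0xec00e400f103) (nat_lit 0x11000500005) (nat_lit 17))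
 (.p (nat_lit 0x1f16615b02) (nat_lit 0x3503a8d64000300040600) (nat_lit 50)))
 (.p (nat_lit 0x33302dfd02) (nat_lit 0x100a10) (nat_lit 5)))
 (.n (.p (nat_lit 0x15041b6f02) (nat_lit 0x40503) (nat_lit 4))
 (.p (nat_lit 0x25a9230502) (nat_lit 0x140a2a) (nat_lit 15))))
 (.n (.n (.p (nat_lit 0x1e721e701e6e1e681bc71bc506) (nat_lit 0x300008e900) (nat_lit 51))
 (.p (nat_lit 0x2c7d2c7502) (nat_lit 0x34aa1d) (nat_lit 16)))
 (.n (.p (nat_lit 0x213a21382134213221301eff06) (nat_lit 0x400008e906) (nat_lit 51))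
 (.p (nat_lit 0x5cb9197d02) (nat_lit 0x40000000700) (nat_lit 41)))))
 (.n (.n (.n (.p (nat_lit 0x1026102410221020101c0df706) (nat_lit 0x1000004400) (nat_lit 51))
 (.p (nat_lit 0x373637343730372e372c32ad06) (nat_lit 0x4000016917) (nat_lit 52)))
 (.n (.p (nat_lit 0x439f25cb02) (nat_lit 0x4ab04) (nat_lit 16))
 (.p (nat_lit 0x30d5b8102) (nat_lit 0x30011c) (nat_lit 28))))
 (.n (.n (.p (nat_lit 0x12aa12a812a412a212a0204d06) (nat_lit 0x400004a901) (nat_lit 51))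
 (.p (nat_lit 0x3ab572f02) (nat_lit 0x500b23) (nat_lit 30)))
 (.n (.p (nat_lit 0x3c323c303c2e3c2c3c283ae506) (nat_lit 0x100000ca0a) (nat_lit 52))
 (.p (nat_lit 0x20725f5b02) (nat_lit 0x1a2276350000400000600) (nat_lit 49))))))
 (.n (.n (.n (.n (.p (nat_lit 0x9220920091e091c0918071f06) (nat_lit 0x1000048100) (nat_lit 51))
 (.p (nat_lit 0xe980e960e940e920e9010f106) (nat_lit 0x10000080415) (nat_lit 52)))
 (.n (.p (nat_lit 0x3ee03eda3ed83ed60ceb0ce906) (nat_lit 0xc00004c204) (nat_lit 52))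
 (.p (nat_lit 0x35589302) (nat_lit 0x500101) (nat_lit 28))))
 (.n (.n (.p (nat_lit 0x257722bb02) (nat_lit 0x42b00) (nat_lit 16))
 (.p (nat_lit 0xd280d260d220d200d1e50b706) (nat_lit 0x4000040822) (nat_lit 52)))
 (.n (.p (nat_lit 0x346c34683466346434621d3d06) (nat_lit 0x80000c6807) (nat_lit 51))
 (.p (nat_lit 0x5ce5206d02) (nat_lit 0x80020000a00) (nat_lit 38)))))
 (.n (.n (.n (.p (nat_lit 0x179316b102) (nat_lit 0x40600) (nat_lit 15))
 (.p (nat_lit 0x1c501c4e1c4c1c4a1c48073506) (nat_lit 0x8000d001c) (nat_lit 51)))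
 (.n (.p (nat_lit 0x4a6f1c2502) (nat_lit 0x100805) (nat_lit 16))
 (.p (nat_lit 0x5dee49e902) (nat_lit 0x80014200) (nat_lit 48))))
 (.n (.n (.p (nat_lit 0xa5a0a560a540a520a5021bd06) (nat_lit 0x8000004a02) (nat_lit 51))
 (.p (nat_lit 0x506f4fed02) (nat_lit 0x300729) (nat_lit 15)))
 (.n (.p (nat_lit 0x12aa12a812a612a212a0123906) (nat_lit 0x200004a40e) (nat_lit 51))
 (.p (nat_lit 0x1ade605d02) (nat_lit 0x506272b31000200000600) (nat_lit 49))))))

def c1024_767 : Tr :=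
 .n (.n (.n (.n (.n (.n (.p (nat_lit 0x51405120510050e050a04dd06) (nat_lit 0x1000086000) (nat_lit 51))
 (.p (nat_lit 0x64661db02) (nat_lit 0x542266c0c800000040000) (nat_lit 50)))
 (.p (nat_lit 0x43743d6102) (nat_lit 0x340b12) (nat_lit 5)))
 (.n (.p (nat_lit 0x1db61db41db21db01dae246906) (nat_lit 0x800012b03) (nat_lit 51))
 (.p (nat_lit 0x3b1a3a4502) (nat_lit 0xa2d) (nat_lit 4))))
 (.n (.n (.p (nat_lit 0x1ffc1ffa1ff81ff61ff200031ff507) (nat_lit 0x140a00) (nat_lit 7))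
 (.p (nat_lit 0x3ea63ea43ea23ea03e9e3df106) (nat_lit 0x100000c0120) (nat_lit 52)))
 (.n (.p (nat_lit 0x1ade1adc1ada1ad81ad40f6b06) (nat_lit 0x1000050307) (nat_lit 52))
 (.p (nat_lit 0x5d3b5e7502) (nat_lit 0x120060000800) (nat_lit 37)))))
 (.n (.n (.n (.p (nat_lit 0x121c13eb02) (nat_lit 0x40500) (nat_lit 4))
 (.p (nat_lit 0x4492462502) (nat_lit 0x14001a) (nat_lit 4)))
 (.n (.p (nat_lit 0x48de48dc48da48d848d648d400f01525151f151d0a) (nat_lit 0x10840505) (nat_lit 31))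
 (.p (nat_lit 0x5d6904cb02) (nat_lit 0x140080000000) (nat_lit 38))))
 (.n (.n (.p (nat_lit 0x2f910ccf02) (nat_lit 0x240202) (nat_lit 16))
 (.p (nat_lit 0xff60ff40ff20ff00fec3b9d06) (nat_lit 0x1000000b26) (nat_lit 52)))
 (.n (.p (nat_lit 0x4cf44ab102) (nat_lit 0x20020d) (nat_lit 4))
 (.p (nat_lit 0x206a5fdd02) (nat_lit 0x3842a1c35000400000600) (nat_lit 49))))))
 (.n (.n (.n (.n (.p (nat_lit 0xb300d0902) (nat_lit 0x100300) (nat_lit 4))
 (.p (nat_lit 0x1a80545502) (nat_lit 0x40715) (nat_lit 29)))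
 (.n (.p (nat_lit 0x63e063c063a0636063417f706) (nat_lit 0x20000c0604) (nat_lit 52))
 (.p (nat_lit 0x11359e702) (nat_lit 0x906) (nat_lit 28))))
 (.n (.n (.p (nat_lit 0x13ac173d02) (nat_lit 0x500501) (nat_lit 4))
 (.p (nat_lit 0xeca0ec60ec40ec20ec00b4f06) (nat_lit 0x800008a223) (nat_lit 51)))
 (.n (.p (nat_lit 0x18751ff02) (nat_lit 0x140209) (nat_lit 30))
 (.p (nat_lit 0x8ec5ed502) (nat_lit 0x4a1a22344000100040000) (nat_lit 49)))))
 (.n (.n (.n (.p (nat_lit 0x1b0e1b0a1b081b06190118f906) (nat_lit 0x8800002800) (nat_lit 51))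
 (.p (nat_lit 0x1bfd193302) (nat_lit 0x50071c) (nat_lit 15)))
 (.n (.p (nat_lit 0x13e64f4102) (nat_lit 0x400506) (nat_lit 29))
 (.p (nat_lit 0x5e2210cf02) (nat_lit 0x2500) (nat_lit 48))))
 (.n (.n (.p (nat_lit 0x76e34d502) (nat_lit 0x540003) (nat_lit 29))
 (.p (nat_lit 0x3f270cb502) (nat_lit 0x15222a) (nat_lit 16)))
 (.n (.p (nat_lit 0x2b9d1ead02) (nat_lit 0x40c90e) (nat_lit 16))
 (.p (nat_lit 0x13ee60db02) (nat_lit 0x340a621b0000500040000) (nat_lit 49))))))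

def c512_255 : Tr := .n c1024_255 c1024_767

def c1024_511 : Tr :=
 .n (.n (.n (.n (.n (.n (.p (nat_lit 0x30e0306031503) (nat_lit 0x880050001c) (nat_lit 17))
 (.p (nat_lit 0xbac619d02) (nat_lit 0x380aa5c14800200040000) (nat_lit 49)))
 (.p (nat_lit 0x3b7e35a902) (nat_lit 0x400b11) (nat_lit 5)))
 (.n (.p (nat_lit 0x21c81b9b02) (nat_lit 0x400a03) (nat_lit 4))
 (.p (nat_lit 0x1a361a321a301a2e1a2c2fad06) (nat_lit 0x800005422c) (nat_lit 51))))
 (.n (.n (.p (nat_lit 0x20071d3102) (nat_lit 0x440900) (nat_lit 16))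
 (.p (nat_lit 0x363c379502) (nat_lit 0x54011f) (nat_lit 5)))
 (.n (.p (nat_lit 0x920091e091c091a09180ca506) (nat_lit 0x10000048207) (nat_lit 51))
 (.p (nat_lit 0x5d59181302) (nat_lit 0x240080000700) (nat_lit 38)))))
 (.n (.n (.n (.p (nat_lit 0x121d0f5d02) (nat_lit 0x40400) (nat_lit 15))
 (.p (nat_lit 0x3b8f3b8302) (nat_lit 0x8b18) (nat_lit 16)))
 (.n (.p (nat_lit 0x46724670466e466c46680cf106) (nat_lit 0x10000ce205) (nat_lit 52))
 (.p (nat_lit 0x5c425c405c3e5c3c5c3803d3044007) (nat_lit 0x10662a) (nat_lit 25))))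
 (.n (.n (.p (nat_lit 0x18e060302) (nat_lit 0x500002) (nat_lit 1))
 (.p (nat_lit 0x2ec42ec22ebe2ebc2eba03e52ec107) (nat_lit 0x340125) (nat_lit 7)))
 (.n (.p (nat_lit 0x5140510050e050c050a426506) (nat_lit 0x80000c660b) (nat_lit 51))
 (.p (nat_lit 0xba65f9702) (nat_lit 0x88bb0155800200040000) (nat_lit 49))))))
 (.n (.n (.n (.n (.p (nat_lit 0xb0a0b080b020b000877087506) (nat_lit 0x6000014200) (nat_lit 52))
 (.p (nat_lit 0x419b139302) (nat_lit 0x412515) (nat_lit 16)))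
 (.n (.p (nat_lit 0x413641344130412e412c13cd06) (nat_lit 0x4000004504) (nat_lit 52))
 (.p (nat_lit 0x90008a008800860007006106) (nat_lit 0x1c16603) (nat_lit 26))))
 (.n (.n (.p (nat_lit 0x3527c102) (nat_lit 0x500201) (nat_lit 30))
 (.p (nat_lit 0x154a1548154615441542088906) (nat_lit 0x80000c123) (nat_lit 51)))
 (.n (.p (nat_lit 0x280e51e702) (nat_lit 0x100208) (nat_lit 29))
 (.p (nat_lit 0x5eb24dc302) (nat_lit 0x20000b00) (nat_lit 48)))))
 (.n (.n (.n (.p (nat_lit 0x197d197102) (nat_lit 0x40700) (nat_lit 34))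
 (.p (nat_lit 0x139a0eb902) (nat_lit 0x20051c) (nat_lit 5)))
 (.n (.p (nat_lit 0x1200131012b24c7237905) (nat_lit 0x84540106) (nat_lit 9))
 (.p (nat_lit 0x5cb15e0b02) (nat_lit 0xc0000000400) (nat_lit 36))))
 (.n (.n (.p (nat_lit 0x2466246424622460245e0059245d07) (nat_lit 0xb02) (nat_lit 7))
 (.p (nat_lit 0x6f606f406f206ee06ec09f506) (nat_lit 0x200005412a) (nat_lit 52)))
 (.n (.p (nat_lit 0x16421640163c163a163801ed163f07) (nat_lit 0x30060e) (nat_lit 7))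
 (.p (nat_lit 0x1f0c609702) (nat_lit 0x344580ca4000300040600) (nat_lit 49))))))

def c1024_1023 : Tr :=
 .n (.n (.n (.n (.n (.p (nat_lit 0x73f065702) (nat_lit 0x546000) (nat_lit 16))
 (.p (nat_lit 0x50125010500c500a0278026f0269500f500909) (nat_lit 0x1840714) (nat_lit 10)))
 (.n (.p (nat_lit 0x7743c6f02) (nat_lit 0x240004) (nat_lit 29))
 (.p (nat_lit 0x452848e502) (nat_lit 0x30012f) (nat_lit 5))))
 (.n (.n (.p (nat_lit 0x23d423d223d023ce215f215506) (nat_lit 0x1080000eb00) (nat_lit 52))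
 (.p (nat_lit 0x480e480c480a48064804495b06) (nat_lit 0x2000042521) (nat_lit 51)))
 (.n (.p (nat_lit 0x3967122902) (nat_lit 0x50407) (nat_lit 16))
 (.p (nat_lit 0x5cc51da302) (nat_lit 0x280020000900) (nat_lit 38)))))
 (.n (.n (.n (.p (nat_lit 0x15ee15ea15e615e41555155106) (nat_lit 0xa000090600) (nat_lit 52))
 (.p (nat_lit 0x505f505302) (nat_lit 0x10881b) (nat_lit 16)))
 (.n (.p (nat_lit 0x21e221e021de21da21d8195d06) (nat_lit 0x2000094705) (nat_lit 51))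
 (.p (nat_lit 0x5da15dd902) (nat_lit 0xc00a0000100) (nat_lit 37))))
 (.n (.n (.p (nat_lit 0x150218af02) (nat_lit 0x540502) (nat_lit 5))
 (.p (nat_lit 0x488c488a48884886488444a906) (nat_lit 0x8000c4028) (nat_lit 51)))
 (.n (.p (nat_lit 0x10e10e1302) (nat_lit 0x30030e) (nat_lit 15))
 (.p (nat_lit 0x1140601b02) (nat_lit 0x4099a2354800400040000) (nat_lit 49))))))
 (.n (.n (.n (.n (.p (nat_lit 0xe9a0e980e920e900c950c9306) (nat_lit 0x60000c0300) (nat_lit 52))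
 (.p (nat_lit 0x22e80c7702) (nat_lit 0x540a15) (nat_lit 5)))
 (.n (.p (nat_lit 0xc200c700df1e6f1fd505) (nat_lit 0x22b40704) (nat_lit 9))
 (.p (nat_lit 0x1ed5a9702) (nat_lit 0x30070e) (nat_lit 28))))
 (.n (.n (.p (nat_lit 0x1a281a261a241a221a201d8706) (nat_lit 0x100000d2801) (nat_lit 51))
 (.p (nat_lit 0x1c0411c902) (nat_lit 0x300823) (nat_lit 4)))
 (.n (.p (nat_lit 0x261426122610260e33d133cf06) (nat_lit 0x6000008b09) (nat_lit 51))
 (.p (nat_lit 0x1ad65f1902) (nat_lit 0x1a2274b50000200000600) (nat_lit 49)))))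
 (.n (.n (.n (.p (nat_lit 0x1cde1cdc1cda1cd81cd61a5d06) (nat_lit 0x8000ca800) (nat_lit 51))
 (.p (nat_lit 0x218e218a218821862184030f218d07) (nat_lit 0x400a1c) (nat_lit 7)))
 (.n (.p (nat_lit 0x19841982197e197c1c391c3306) (nat_lit 0x1200008e806) (nat_lit 51))
 (.p (nat_lit 0x5c8f154102) (nat_lit 0x2e0000000600) (nat_lit 40))))
 (.n (.n (.p (nat_lit 0xe441b3b02) (nat_lit 0x400303) (nat_lit 4))
 (.p (nat_lit 0x194a1948194619400450043904371945194309) (nat_lit 0x110072a) (nat_lit 10)))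
 (.n (.p (nat_lit 0x2ae22ade2adc2ada021a0213020b2ae12ad909) (nat_lit 0x204050f) (nat_lit 10))
 (.p (nat_lit 0x1698611f02) (nat_lit 0x35056a3a4000000040600) (nat_lit 49))))))

def c512_511 : Tr := .n c1024_511 c1024_1023

def c256_255 : Tr := .n c512_255 c512_511

def c128_127 : Tr := .n c256_127 c256_255

def c64_63 : Tr := .n c128_63 c128_127

def c32_31 : Tr := .n c64_31 c64_63

def c16_15 : Tr := .n c32_15 c32_31

def b15 : Tr := c16_15

theorem hb4_15 : allp (tst G49 true (getA DT)) b15 = true := by decide +kernel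

end Vale.Agent.P032.H437.Ev2
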