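import Vale.Agent.P032.H437.Ev2.T

namespace Vale.Agent.P032.H437.Ev2
open Vale.Agent.P032.H859.Rup Vale.Agent.P032.H437

def c1024_2 : Tr :=
 .n (.n (.n (.n (.n (.n (.p (nat_lit 0x401) (nat_lit 0x200000) (nat_lit 0))
 (.p (nat_lit 0x1982611f02) (nat_lit 0x35056a3a4000100040600) (nat_lit 50)))
 (.p (nat_lit 0x26822680267e267a26782add06) (nat_lit 0x20000c850f) (nat_lit 52)))
 (.n (.p (nat_lit 0xe461b3d02) (nat_lit 0x500303) (nat_lit 4))
 (.p (nat_lit 0x1948194619421940045c043f0439194b194509) (nat_lit 0x2a0072a) (nat_lit 10))))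
 (.n (.n (.p (nat_lit 0x1cde1cdc1cd61cd41a631a6106) (nat_lit 0x60000ca800) (nat_lit 51))
 (.p (nat_lit 0x3140333031f0f350dcd05) (nat_lit 0xac400a1c) (nat_lit 9)))
 (.n (.p (nat_lit 0x1daa1da81da61da41da01c3106) (nat_lit 0x1000012806) (nat_lit 52))
 (.p (nat_lit 0x5e38273502) (nat_lit 0x8600) (nat_lit 47)))))
 (.n (.n (.n (.p (nat_lit 0xe980e960e940e920c990c8f06) (nat_lit 0x108000c0300) (nat_lit 52))
 (.p (nat_lit 0x22e622e422e022de02a6028b028522e922e309) (nat_lit 0x2a40a15) (nat_lit 10)))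
 (.n (.p (nat_lit 0x1aba1ab61ab41ab21ab000bd1ab907) (nat_lit 0x440704) (nat_lit 7))
 (.p (nat_lit 0x5a985a965a945a925a90018f01f207) (nat_lit 0x50a70e) (nat_lit 25))))
 (.n (.n (.p (nat_lit 0x1a361a341a301a2e1a2c1d8306) (nat_lit 0x4000054801) (nat_lit 51))
 (.p (nat_lit 0x1c0611cb02) (nat_lit 0x400823) (nat_lit 4)))
 (.n (.p (nat_lit 0x26342632262e262c262a33d106) (nat_lit 0x4000012b09) (nat_lit 51))
 (.p (nat_lit 0x1db05f1902) (nat_lit 0x1a2274b50000300000600) (nat_lit 50))))))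
 (.n (.n (.n (.n (.p (nat_lit 0x745065102) (nat_lit 0x248000) (nat_lit 16))
 (.p (nat_lit 0x509f500f02) (nat_lit 0x340714) (nat_lit 15)))
 (.n (.p (nat_lit 0x7761f2f02) (nat_lit 0x340004) (nat_lit 5))
 (.p (nat_lit 0x452a48e702) (nat_lit 0x40012f) (nat_lit 5))))
 (.n (.n (.p (nat_lit 0x23d223d023ce23cc215f215d06) (nat_lit 0x1800000eb00) (nat_lit 52))
 (.p (nat_lit 0x49ec473702) (nat_lit 0x721) (nat_lit 4)))
 (.n (.p (nat_lit 0x3971123302) (nat_lit 0x550407) (nat_lit 16))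
 (.p (nat_lit 0x5e84408502) (nat_lit 0x20002900) (nat_lit 47)))))
 (.n (.n (.n (.p (nat_lit 0x15fa15f815f615f415f2154d06) (nat_lit 0x800012600) (nat_lit 52))
 (.p (nat_lit 0x50a64cdd02) (nat_lit 0x14081b) (nat_lit 4)))
 (.n (.p (nat_lit 0x21e221de21da21d81961195d06) (nat_lit 0xa000094705) (nat_lit 51))
 (.p (nat_lit 0x5d97079f02) (nat_lit 0x1600a0000100) (nat_lit 38))))
 (.n (.n (.p (nat_lit 0x1502150014fc14f80076005f005b14ff14fb09) (nat_lit 0x1940502) (nat_lit 10))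
 (.p (nat_lit 0x489648944892489044b344a906) (nat_lit 0x10800046028) (nat_lit 51)))
 (.n (.p (nat_lit 0x3f9d0e0d02) (nat_lit 0x1230e) (nat_lit 16))
 (.p (nat_lit 0x13fe601b02) (nat_lit 0x4099a2354800500040000) (nat_lit 50))))))

def c1024_514 : Tr :=
 .n (.n (.n (.n (.n (.n (.p (nat_lit 0x30e030c031503) (nat_lit 0xc00050001c) (nat_lit 17))
 (.p (nat_lit 0xe7c619d02) (nat_lit 0x380aa5c14800300040000) (nat_lit 50)))
 (.p (nat_lit 0x3b80362502) (nat_lit 0x500b11) (nat_lit 4)))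
 (.n (.p (nat_lit 0x8f3adf02) (nat_lit 0x400a03) (nat_lit 30))
 (.p (nat_lit 0x18de18dc18da18d618d42fa906) (nat_lit 0x20000d422c) (nat_lit 51))))
 (.n (.n (.p (nat_lit 0x200d1d2b02) (nat_lit 0x142900) (nat_lit 16))
 (.p (nat_lit 0x35c035f03613795381b05) (nat_lit 0x89d4011f) (nat_lit 9)))
 (.n (.p (nat_lit 0x7da07d807d607d20c9f0c9b06) (nat_lit 0x28000c8207) (nat_lit 51))
 (.p (nat_lit 0x5d57197902) (nat_lit 0x260080000700) (nat_lit 39)))))
 (.n (.n (.n (.p (nat_lit 0x12230f6302) (nat_lit 0x340400) (nat_lit 15))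
 (.p (nat_lit 0x3bd636ab02) (nat_lit 0x40b18) (nat_lit 5)))
 (.n (.p (nat_lit 0xfc70cf902) (nat_lit 0x540205) (nat_lit 15))
 (.p (nat_lit 0x47c5c4702) (nat_lit 0x10072a) (nat_lit 27))))
 (.n (.n (.p (nat_lit 0x6022c8d02) (nat_lit 0x500002) (nat_lit 29))
 (.p (nat_lit 0x2ec230cd02) (nat_lit 0x440125) (nat_lit 5)))
 (.n (.p (nat_lit 0x6920690068e068c0688425f06) (nat_lit 0x100004860b) (nat_lit 52))
 (.p (nat_lit 0xe7e5f9702) (nat_lit 0x88bb0155800300040000) (nat_lit 50))))))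
 (.n (.n (.n (.n (.p (nat_lit 0xb140b100b0e0b0c087b087706) (nat_lit 0x14000094200) (nat_lit 52))
 (.p (nat_lit 0x48c7139502) (nat_lit 0x514515) (nat_lit 16)))
 (.n (.p (nat_lit 0x41424140413e413c13c913c706) (nat_lit 0x1800084504) (nat_lit 51))
 (.p (nat_lit 0x8c008a008800860009006306) (nat_lit 0x2516603) (nat_lit 26))))
 (.n (.n (.p (nat_lit 0x27c027be27bc27ba27b827b600380b690b630b610a) (nat_lit 0x15100201) (nat_lit 31))
 (.p (nat_lit 0x154a1546154415421540089106) (nat_lit 0x800000c123) (nat_lit 51)))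
 (.n (.p (nat_lit 0x2810265902) (nat_lit 0x200208) (nat_lit 5))
 (.p (nat_lit 0x5eb221ab02) (nat_lit 0x2000eb00) (nat_lit 48)))))
 (.n (.n (.n (.p (nat_lit 0x1794197f02) (nat_lit 0x140700) (nat_lit 5))
 (.p (nat_lit 0x3a6139d02) (nat_lit 0x30051c) (nat_lit 1)))
 (.n (.p (nat_lit 0xa3e0a3c0a3a0a38013e011d011b0a430a4109) (nat_lit 0x2c40106) (nat_lit 10))
 (.p (nat_lit 0x5c9b0fe102) (nat_lit 0x220000000400) (nat_lit 40))))
 (.n (.n (.p (nat_lit 0x660075006f18e11a4505) (nat_lit 0x45800b02) (nat_lit 9))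
 (.p (nat_lit 0x6f406f206f006ee09fb09f106) (nat_lit 0x1080005412a) (nat_lit 52)))
 (.n (.p (nat_lit 0x1640095102) (nat_lit 0x40060e) (nat_lit 4))
 (.p (nat_lit 0x21da609702) (nat_lit 0x344580ca4000400040600) (nat_lit 50))))))

def c512_2 : Tr := .n c1024_2 c1024_514

def c1024_258 : Tr :=
 .n (.n (.n (.n (.n (.n (.p (nat_lit 0xec00ea00f103) (nat_lit 0x18000500005) (nat_lit 17))
 (.p (nat_lit 0x2484615b02) (nat_lit 0x3503a8d64000500040600) (nat_lit 49)))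
 (.p (nat_lit 0x33342dff02) (nat_lit 0x300a10) (nat_lit 5)))
 (.n (.p (nat_lit 0x490150702) (nat_lit 0x140503) (nat_lit 1))
 (.p (nat_lit 0x4b8245102) (nat_lit 0xb2a) (nat_lit 1))))
 (.n (.n (.p (nat_lit 0x1e721e701e6a1e681bc91bc706) (nat_lit 0x600008e900) (nat_lit 51))
 (.p (nat_lit 0x2cfe2fbf02) (nat_lit 0x10001e) (nat_lit 4)))
 (.n (.p (nat_lit 0x214621442140213e213c1eff06) (nat_lit 0x4000010906) (nat_lit 51))
 (.p (nat_lit 0x5cb7197d02) (nat_lit 0x60000000700) (nat_lit 41)))))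
 (.n (.n (.n (.p (nat_lit 0x102610241020101c0dfb0df706) (nat_lit 0x5000004400) (nat_lit 51))
 (.p (nat_lit 0x32ea2f0702) (nat_lit 0x240917) (nat_lit 4)))
 (.n (.p (nat_lit 0x43a725d302) (nat_lit 0x44ab04) (nat_lit 16))
 (.p (nat_lit 0x28a5b8502) (nat_lit 0x50011c) (nat_lit 27))))
 (.n (.n (.p (nat_lit 0x140013fe13fa13f813f6204d06) (nat_lit 0x40000ca901) (nat_lit 51))
 (.p (nat_lit 0x572e572c572a57285726572403ae244f244724450a) (nat_lit 0x14800b23) (nat_lit 31)))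
 (.n (.p (nat_lit 0x3af73aeb02) (nat_lit 0x404a0a) (nat_lit 16))
 (.p (nat_lit 0x23405f5b02) (nat_lit 0x1a2276350000500000600) (nat_lit 50))))))
 (.n (.n (.n (.n (.p (nat_lit 0x922091e091c091a0918072506) (nat_lit 0x8000048100) (nat_lit 51))
 (.p (nat_lit 0xea60ea40e9e0e9c10ed10eb06) (nat_lit 0x6000002415) (nat_lit 52)))
 (.n (.p (nat_lit 0x3eec3ee83ee63ee40ceb0ce306) (nat_lit 0x88000cc204) (nat_lit 52))
 (.p (nat_lit 0x3400320030002a0003020f06) (nat_lit 0xa12101) (nat_lit 26))))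
 (.n (.n (.p (nat_lit 0x257d22c102) (nat_lit 0x342b00) (nat_lit 16))
 (.p (nat_lit 0xe9a0e980e960e920e9050b506) (nat_lit 0x20000c0822) (nat_lit 52)))
 (.n (.p (nat_lit 0x34843482347e347c347a1d3b06) (nat_lit 0x400004c807) (nat_lit 52))
 (.p (nat_lit 0x5ce3206d02) (nat_lit 0xa0020000a00) (nat_lit 38)))))
 (.n (.n (.n (.p (nat_lit 0x179916b702) (nat_lit 0x340600) (nat_lit 15))
 (.p (nat_lit 0x1c501c4c1c4a1c481c46073d06) (nat_lit 0x80000d001c) (nat_lit 51)))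
 (.n (.p (nat_lit 0x1c2f1c2302) (nat_lit 0xc805) (nat_lit 16))
 (.p (nat_lit 0x5dec09e102) (nat_lit 0x80048200) (nat_lit 47))))
 (.n (.n (.p (nat_lit 0xbbc0bb80bb60bb40bb221bd06) (nat_lit 0x8000084a02) (nat_lit 51))
 (.p (nat_lit 0x50684e7f02) (nat_lit 0x829) (nat_lit 5)))
 (.n (.p (nat_lit 0x140013fc13fa13f813f6123d06) (nat_lit 0x80000ca40e) (nat_lit 51))
 (.p (nat_lit 0x1db0605d02) (nat_lit 0x506272b31000300000600) (nat_lit 50))))))

def c1024_770 : Tr :=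
 .n (.n (.n (.n (.n (.n (.p (nat_lit 0x51405120510050a04df04dd06) (nat_lit 0x3000086000) (nat_lit 51))
 (.p (nat_lit 0xbb061db02) (nat_lit 0x542266c0c800200040000) (nat_lit 49)))
 (.p (nat_lit 0x43763de502) (nat_lit 0x440b12) (nat_lit 4)))
 (.n (.p (nat_lit 0x1db41db21db01dae1dac247306) (nat_lit 0x10000012b03) (nat_lit 51))
 (.p (nat_lit 0x3b203a4b02) (nat_lit 0x300a2d) (nat_lit 4))))
 (.n (.n (.p (nat_lit 0x1ff621d102) (nat_lit 0x240a00) (nat_lit 4))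
 (.p (nat_lit 0x3ed43ece3ecc3eca3def3ded06) (nat_lit 0xc0000ca120) (nat_lit 52)))
 (.n (.p (nat_lit 0x1c441c421c401c3e1c3a0f6b06) (nat_lit 0x10000d0307) (nat_lit 52))
 (.p (nat_lit 0x5d375e7502) (nat_lit 0x160060000800) (nat_lit 37)))))
 (.n (.n (.n (.p (nat_lit 0x436121f02) (nat_lit 0x140500) (nat_lit 1))
 (.p (nat_lit 0x262449702) (nat_lit 0x34001a) (nat_lit 1)))
 (.n (.p (nat_lit 0x48f448f048ee48ec48ea152506) (nat_lit 0x80000c2505) (nat_lit 51))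
 (.p (nat_lit 0x5d6504cb02) (nat_lit 0x180080000000) (nat_lit 38))))
 (.n (.n (.p (nat_lit 0x2fa90ccf02) (nat_lit 0x24a202) (nat_lit 16))
 (.p (nat_lit 0xff40ff20ff00fee0fec3ba506) (nat_lit 0x10000000b26) (nat_lit 52)))
 (.n (.p (nat_lit 0x4cf6529302) (nat_lit 0x30020d) (nat_lit 29))
 (.p (nat_lit 0x23445fdd02) (nat_lit 0x3842a1c35000500000600) (nat_lit 50))))))
 (.n (.n (.n (.n (.p (nat_lit 0xb380b360b340b320b2e00030b3107) (nat_lit 0x100300) (nat_lit 7))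
 (.p (nat_lit 0x1a820acb02) (nat_lit 0x140715) (nat_lit 5)))
 (.n (.p (nat_lit 0x7a807a607a407a207a017fd06) (nat_lit 0x10000042604) (nat_lit 51))
 (.p (nat_lit 0xe659eb02) (nat_lit 0x200906) (nat_lit 27))))
 (.n (.n (.p (nat_lit 0x352a1f02) (nat_lit 0x500501) (nat_lit 30))
 (.p (nat_lit 0xec60ec40ec20ec00b510b4f06) (nat_lit 0x1800008a223) (nat_lit 51)))
 (.n (.p (nat_lit 0x2f90520102) (nat_lit 0x240209) (nat_lit 29))
 (.p (nat_lit 0xbb25ed502) (nat_lit 0x4a1a22344000200040000) (nat_lit 50)))))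
 (.n (.n (.n (.p (nat_lit 0x1b0c1b0a1b061b04190318fd06) (nat_lit 0x12000002800) (nat_lit 51))
 (.p (nat_lit 0x193b192f02) (nat_lit 0x30a71c) (nat_lit 16)))
 (.n (.p (nat_lit 0x13e823cb02) (nat_lit 0x500506) (nat_lit 5))
 (.p (nat_lit 0x5e22335f02) (nat_lit 0xe500) (nat_lit 48))))
 (.n (.n (.p (nat_lit 0x34f634f434f234f034ec076706) (nat_lit 0x10000c6003) (nat_lit 52))
 (.p (nat_lit 0x3f2f0cbd02) (nat_lit 0x55222a) (nat_lit 16)))
 (.n (.p (nat_lit 0x50f71eaf02) (nat_lit 0x51690e) (nat_lit 16))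
 (.p (nat_lit 0x154260dd02) (nat_lit 0x3505623a4000000000600) (nat_lit 50))))))

def c512_258 : Tr := .n c1024_258 c1024_770

def c256_2 : Tr := .n c512_2 c512_258

def c1024_130 : Tr :=
 .n (.n (.n (.n (.n (.n (.p (nat_lit 0x83007f0079006804) (nat_lit 0x8d100002) (nat_lit 20))
 (.p (nat_lit 0xe6e613f02) (nat_lit 0x352a21d84000300040000) (nat_lit 49)))
 (.p (nat_lit 0x30fa2e5502) (nat_lit 0x410) (nat_lit 5)))
 (.n (.p (nat_lit 0x38d038ce38ca38c838c6111106) (nat_lit 0x4000096403) (nat_lit 52))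
 (.p (nat_lit 0x1ede1eda1ed81ed6044c043d04351edd1ed509) (nat_lit 0x200092a) (nat_lit 10))))
 (.n (.n (.p (nat_lit 0x1d931a6702) (nat_lit 0x554800) (nat_lit 16))
 (.p (nat_lit 0x25940def02) (nat_lit 0x340b1c) (nat_lit 4)))
 (.n (.p (nat_lit 0x1ade1adc1ad81ad61ad41d9b06) (nat_lit 0x4000050806) (nat_lit 52))
 (.p (nat_lit 0x5d3b153b02) (nat_lit 0x120060000600) (nat_lit 38)))))
 (.n (.n (.n (.p (nat_lit 0xf8d0c8f02) (nat_lit 0x4c300) (nat_lit 16))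
 (.p (nat_lit 0x2f162f142f122f0e2f0c2b1906) (nat_lit 0x2000014816) (nat_lit 52)))
 (.n (.p (nat_lit 0x229e229c229a22982296247f06) (nat_lit 0x1000008eb04) (nat_lit 52))
 (.p (nat_lit 0x28a02880286028002e7000506) (nat_lit 0xa12515) (nat_lit 26))))
 (.n (.n (.p (nat_lit 0x198619841982197e197c1ee506) (nat_lit 0x200008e901) (nat_lit 51))
 (.p (nat_lit 0x1ed71ecb02) (nat_lit 0x100923) (nat_lit 16)))
 (.n (.p (nat_lit 0x1d1a1d181d161d141d10385d06) (nat_lit 0x100005630a) (nat_lit 51))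
 (.p (nat_lit 0x8fc5f3902) (nat_lit 0x3a2560c44000100040000) (nat_lit 50))))))
 (.n (.n (.n (.n (.p (nat_lit 0x7f207f007ea07e805c305c106) (nat_lit 0x600008a100) (nat_lit 51))
 (.p (nat_lit 0x72c0a6d02) (nat_lit 0x240015) (nat_lit 5)))
 (.n (.p (nat_lit 0x3dfd0a2b02) (nat_lit 0x548104) (nat_lit 16))
 (.p (nat_lit 0x4a0a48ad02) (nat_lit 0x40072f) (nat_lit 4))))
 (.n (.n (.p (nat_lit 0x22c2248902) (nat_lit 0x440b00) (nat_lit 4))
 (.p (nat_lit 0x4c064d8102) (nat_lit 0x300122) (nat_lit 5)))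
 (.n (.p (nat_lit 0x1a6c055502) (nat_lit 0x240707) (nat_lit 4))
 (.p (nat_lit 0x5d6b1f1902) (nat_lit 0x120080000900) (nat_lit 41)))))
 (.n (.n (.n (.p (nat_lit 0x16ba16b816b416b200100007000116b716b109) (nat_lit 0x1840600) (nat_lit 10))
 (.p (nat_lit 0x1f1a1f161f141f121f1005dd06) (nat_lit 0x800009201c) (nat_lit 51)))
 (.n (.p (nat_lit 0x1db61db41db21db01dae1abd06) (nat_lit 0x800052705) (nat_lit 51))
 (.p (nat_lit 0x5de0505302) (nat_lit 0x20016200) (nat_lit 47))))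
 (.n (.n (.p (nat_lit 0x205c205a205620542052005f205907) (nat_lit 0x340902) (nat_lit 7))
 (.p (nat_lit 0xff60ff20ff00fee0fec4a5106) (nat_lit 0x8000040728) (nat_lit 52)))
 (.n (.p (nat_lit 0x129e129c1298129410e110dd06) (nat_lit 0x500000a40e) (nat_lit 52))
 (.p (nat_lit 0x1536603f02) (nat_lit 0x4a8162340800000000600) (nat_lit 49))))))

def c1024_642 : Tr :=
 .n (.n (.n (.n (.n (.n (.p (nat_lit 0x43e043a0438044104) (nat_lit 0x1600040002a) (nat_lit 17))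
 (.p (nat_lit 0x13fc61bb02) (nat_lit 0x322266c15000500040000) (nat_lit 50)))
 (.p (nat_lit 0x53da53d853d653d453d253d0025a07) (nat_lit 0x512) (nat_lit 8)))
 (.n (.p (nat_lit 0x1e641e621e601e5e1e5c233106) (nat_lit 0x1000004ea03) (nat_lit 51))
 (.p (nat_lit 0x340c31df02) (nat_lit 0x500b2c) (nat_lit 4))))
 (.n (.n (.p (nat_lit 0x21222120211c21181e931e8f06) (nat_lit 0x500008ca00) (nat_lit 52))
 (.p (nat_lit 0x3be837cd02) (nat_lit 0x340b1f) (nat_lit 4)))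
 (.n (.p (nat_lit 0x1aea1ae81ae61ae21ae00e0506) (nat_lit 0x2000010307) (nat_lit 51))
 (.p (nat_lit 0x5e661c3b02) (nat_lit 0x40800) (nat_lit 45)))))
 (.n (.n (.n (.p (nat_lit 0x12cc12ca12c812c612c410cd06) (nat_lit 0x10000004500) (nat_lit 52))
 (.p (nat_lit 0x4236423442324230422c02e7422f07) (nat_lit 0x100619) (nat_lit 7)))
 (.n (.p (nat_lit 0x112a224b02) (nat_lit 0x400405) (nat_lit 4))
 (.p (nat_lit 0x5dae2bdd02) (nat_lit 0x4c000) (nat_lit 47))))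
 (.n (.n (.p (nat_lit 0x8bb08af02) (nat_lit 0x112102) (nat_lit 16))
 (.p (nat_lit 0x3642389302) (nat_lit 0x240126) (nat_lit 5)))
 (.n (.p (nat_lit 0xec475902) (nat_lit 0x54030c) (nat_lit 1))
 (.p (nat_lit 0x180a5fc502) (nat_lit 0x8982e915800100000600) (nat_lit 49))))))
 (.n (.n (.n (.n (.p (nat_lit 0xbec0bea0be80be609cf09cd06) (nat_lit 0x18000c8200) (nat_lit 51))
 (.p (nat_lit 0x164a0aab02) (nat_lit 0x300615) (nat_lit 5)))
 (.n (.p (nat_lit 0xd100d0c0d080d061689168506) (nat_lit 0xa000006604) (nat_lit 52))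
 (.p (nat_lit 0x4b059a502) (nat_lit 0x300505) (nat_lit 27))))
 (.n (.n (.p (nat_lit 0xf9615a902) (nat_lit 0x540301) (nat_lit 4))
 (.p (nat_lit 0x13f413f013ee13ec13ea09ed06) (nat_lit 0x80000ca123) (nat_lit 52)))
 (.n (.p (nat_lit 0x50432b0702) (nat_lit 0x514808) (nat_lit 16))
 (.p (nat_lit 0x5d595ebd02) (nat_lit 0x240080000b00) (nat_lit 37)))))
 (.n (.n (.n (.p (nat_lit 0x1a4e1a4c1a4a1a481795179306) (nat_lit 0x1800056700) (nat_lit 52))
 (.p (nat_lit 0x119811961192119014e714e106) (nat_lit 0x48000c451c) (nat_lit 52)))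
 (.n (.p (nat_lit 0x4e0c4e084e064e044e020fd106) (nat_lit 0x8000050306) (nat_lit 52))
 (.p (nat_lit 0x5e182c1302) (nat_lit 0x6004c400) (nat_lit 47))))
 (.n (.n (.p (nat_lit 0x25bc25b825b625b425b2006125bb07) (nat_lit 0x440b02) (nat_lit 7))
 (.p (nat_lit 0x36d30b5702) (nat_lit 0x21022a) (nat_lit 16)))
 (.n (.p (nat_lit 0x1be4081f02) (nat_lit 0x50080e) (nat_lit 4))
 (.p (nat_lit 0x12a712990fe90fd50d1d0d0d0a510a4d07a7079f04d104c360b60d) (nat_lit 0x3505623a4000000000000) (nat_lit 33))))))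

def c512_130 : Tr := .n c1024_130 c1024_642

def c1024_386 : Tr :=
 .n (.n (.n (.n (.n (.n (.p (nat_lit 0x1ec01ea01e801f304) (nat_lit 0x700040000e) (nat_lit 17))
 (.p (nat_lit 0xbb4617b02) (nat_lit 0x521a86b11000200040000) (nat_lit 50)))
 (.p (nat_lit 0x1b601b5e1b5c1b5a1b5838df06) (nat_lit 0x800088411) (nat_lit 52)))
 (.n (.p (nat_lit 0x3ab5167d02) (nat_lit 0x406603) (nat_lit 16))
 (.p (nat_lit 0x2b3a2a4702) (nat_lit 0x40082b) (nat_lit 5))))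
 (.n (.n (.p (nat_lit 0x1f261f241f221f1c1d2d1d2b06) (nat_lit 0x3000040900) (nat_lit 51))
 (.p (nat_lit 0x31033a502) (nat_lit 0x540a1e) (nat_lit 1)))
 (.n (.p (nat_lit 0xb440b400b3e0b3c0b3a01490b4307) (nat_lit 0x400207) (nat_lit 7))
 (.p (nat_lit 0x5cf5197502) (nat_lit 0x280040000700) (nat_lit 39)))))
 (.n (.n (.n (.p (nat_lit 0x11330df902) (nat_lit 0x216400) (nat_lit 16))
 (.p (nat_lit 0x39f338f302) (nat_lit 0x400418) (nat_lit 15)))
 (.n (.p (nat_lit 0x44f444f244f044ee44ec44ea06) (nat_lit 0x8e105) (nat_lit 52))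
 (.p (nat_lit 0x3aa03a803a403a203ed000706) (nat_lit 0x310123) (nat_lit 26))))
 (.n (.n (.p (nat_lit 0x253825362532253021af21a906) (nat_lit 0x480008ea01) (nat_lit 51))
 (.p (nat_lit 0x17541752174e174c174a27b106) (nat_lit 0x4000050124) (nat_lit 51)))
 (.n (.p (nat_lit 0x3f923c9102) (nat_lit 0x10030b) (nat_lit 5))
 (.p (nat_lit 0xa445f7902) (nat_lit 0x560bb0344000200000000) (nat_lit 49))))))
 (.n (.n (.n (.n (.p (nat_lit 0x8700a4502) (nat_lit 0x200) (nat_lit 4))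
 (.p (nat_lit 0x139413921390138e138a0283138d07) (nat_lit 0x100515) (nat_lit 7)))
 (.n (.p (nat_lit 0x111e402302) (nat_lit 0x400404) (nat_lit 29))
 (.p (nat_lit 0x62005e005c005a0009047b06) (nat_lit 0x2014502) (nat_lit 26))))
 (.n (.n (.p (nat_lit 0x759074d02) (nat_lit 0x50001) (nat_lit 16))
 (.p (nat_lit 0x3ae03cb03c911630ffd05) (nat_lit 0x8ea40023) (nat_lit 9)))
 (.n (.p (nat_lit 0x14551c502) (nat_lit 0x240a07) (nat_lit 30))
 (.p (nat_lit 0x5d6b207302) (nat_lit 0x120080000a00) (nat_lit 38)))))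
 (.n (.n (.n (.p (nat_lit 0x18b818b618b418b0162b162306) (nat_lit 0x11000012700) (nat_lit 52))
 (.p (nat_lit 0xafc0afa0af80af60887087d06) (nat_lit 0x1080009211c) (nat_lit 52)))
 (.n (.p (nat_lit 0x6324aab02) (nat_lit 0x500006) (nat_lit 29))
 (.p (nat_lit 0x5d475e0102) (nat_lit 0x60060000300) (nat_lit 36))))
 (.n (.n (.p (nat_lit 0x4d604d404d204d004ce232506) (nat_lit 0x10000040a02) (nat_lit 51))
 (.p (nat_lit 0x4ee04ec04ea04e804e6089f06) (nat_lit 0x1000000412a) (nat_lit 52)))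
 (.n (.p (nat_lit 0x5140512050e050c050a138506) (nat_lit 0x400008650e) (nat_lit 51))
 (.p (nat_lit 0xbb2607b02) (nat_lit 0x511a22b85000200040000) (nat_lit 50))))))

def c1024_898 : Tr :=
 .n (.n (.n (.n (.n (.p (nat_lit 0x652064702) (nat_lit 0x340000) (nat_lit 5))
 (.p (nat_lit 0x4a7844f902) (nat_lit 0x100813) (nat_lit 4)))
 (.n (.p (nat_lit 0x1820181e181c181a181625c106) (nat_lit 0x100004eb03) (nat_lit 51))
 (.p (nat_lit 0x1fcc1fca1fc61fc41fc23f2b06) (nat_lit 0x400004e22e) (nat_lit 52))))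
 (.n (.n (.p (nat_lit 0x22b822b622b222b01ff91ff306) (nat_lit 0x48000d0a00) (nat_lit 52))
 (.p (nat_lit 0x434c400b02) (nat_lit 0x400b20) (nat_lit 5)))
 (.n (.p (nat_lit 0x12e612e212e012de12dc10d706) (nat_lit 0x8000006407) (nat_lit 51))
 (.p (nat_lit 0x5da51c5102) (nat_lit 0x800a0000800) (nat_lit 41)))))
 (.n (.n (.n (.p (nat_lit 0x14cf122302) (nat_lit 0x342500) (nat_lit 16))
 (.p (nat_lit 0x49ea466702) (nat_lit 0x50071a) (nat_lit 4)))
 (.n (.p (nat_lit 0x11a180702) (nat_lit 0x440605) (nat_lit 1))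
 (.p (nat_lit 0x5d1b5dcd02) (nat_lit 0x20040000100) (nat_lit 37))))
 (.n (.n (.p (nat_lit 0x110811061102110010fe005f110507) (nat_lit 0x300402) (nat_lit 7))
 (.p (nat_lit 0x3f4e3f4c3f4a3f483f463e7906) (nat_lit 0x4000080227) (nat_lit 51)))
 (.n (.p (nat_lit 0x68606820680067e067c504106) (nat_lit 0x800008680d) (nat_lit 52))
 (.p (nat_lit 0xe745ffb02) (nat_lit 0x16a88cd50000300040000) (nat_lit 49))))))
 (.n (.n (.n (.n (.p (nat_lit 0xdb60db40db20db00dac0b3106) (nat_lit 0x1000012300) (nat_lit 52))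
 (.p (nat_lit 0x3f0c3f0a3f063f043f021eb706) (nat_lit 0x4000096915) (nat_lit 52)))
 (.n (.p (nat_lit 0x195042a902) (nat_lit 0x200704) (nat_lit 29))
 (.p (nat_lit 0x19b5a4902) (nat_lit 0x10040a) (nat_lit 28))))
 (.n (.n (.p (nat_lit 0x1838183618341832182e1c1906) (nat_lit 0x1000080801) (nat_lit 51))
 (.p (nat_lit 0x166256cb02) (nat_lit 0x300623) (nat_lit 29)))
 (.n (.p (nat_lit 0x189520d02) (nat_lit 0x240409) (nat_lit 30))
 (.p (nat_lit 0x20765ef102) (nat_lit 0x4a1d22344000400000600) (nat_lit 50)))))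
 (.n (.n (.n (.p (nat_lit 0x1bff18f902) (nat_lit 0x8800) (nat_lit 16))
 (.p (nat_lit 0x1d621d601d5c1d580324030d03091d5f1d5b09) (nat_lit 0x194081c) (nat_lit 10)))
 (.n (.p (nat_lit 0x1ad21ad01ace1acc0124011501131acb1ac909) (nat_lit 0x840706) (nat_lit 10))
 (.p (nat_lit 0x5d775e3102) (nat_lit 0x60080000500) (nat_lit 36))))
 (.n (.n (.p (nat_lit 0x35ec35ea35e835e20a190a1706) (nat_lit 0x3000048103) (nat_lit 51))
 (.p (nat_lit 0x1180117e117a11780f870f8106) (nat_lit 0x48000c232a) (nat_lit 52)))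
 (.n (.p (nat_lit 0x242d242102) (nat_lit 0x6b0e) (nat_lit 16))
 (.p (nat_lit 0x181c60fd02) (nat_lit 0x340a623b0000100000600) (nat_lit 50))))))

def c512_386 : Tr := .n c1024_386 c1024_898

def c256_130 : Tr := .n c512_130 c512_386

def c128_2 : Tr := .n c256_2 c256_130

def c1024_66 : Tr :=
 .n (.n (.n (.n (.n (.n (.p (nat_lit 0x510047003f003a04) (nat_lit 0x54800001) (nat_lit 20))
 (.p (nat_lit 0x1818613102) (nat_lit 0x35486a1b0000100000600) (nat_lit 50)))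
 (.p (nat_lit 0x90a09080906090409022b9506) (nat_lit 0x80000690f) (nat_lit 51)))
 (.n (.p (nat_lit 0x381a38183816381438120fab06) (nat_lit 0x40000c2303) (nat_lit 52))
 (.p (nat_lit 0x1c141c121c0c1c0a0458043b04391c111c0f09) (nat_lit 0x1a0082a) (nat_lit 10))))
 (.n (.n (.p (nat_lit 0x1d261d241d221d201d1c1a5f06) (nat_lit 0x10000d6800) (nat_lit 52))
 (.p (nat_lit 0x258f22eb02) (nat_lit 0x40a1c) (nat_lit 15)))
 (.n (.p (nat_lit 0x4cc04ca04c804c604c21d9706) (nat_lit 0x1000040806) (nat_lit 52))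
 (.p (nat_lit 0x5cbf16a702) (nat_lit 0x2e0020000600) (nat_lit 41)))))
 (.n (.n (.n (.p (nat_lit 0xf060f040f020f000efc0c9106) (nat_lit 0x1000050300) (nat_lit 52))
 (.p (nat_lit 0x4cee4cec4cea4ce84ce6258b06) (nat_lit 0x8000052b15) (nat_lit 52)))
 (.n (.p (nat_lit 0x24761e7702) (nat_lit 0x100b04) (nat_lit 4))
 (.p (nat_lit 0x2105ae302) (nat_lit 0x300b10) (nat_lit 27))))
 (.n (.n (.p (nat_lit 0x352b8702) (nat_lit 0x500901) (nat_lit 30))
 (.p (nat_lit 0x1d6a1d681d661d6403ce03ab03a91d6f1d6d09) (nat_lit 0x2c40823) (nat_lit 10)))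
 (.n (.p (nat_lit 0x3630362e362a36283749374306) (nat_lit 0x48000d620a) (nat_lit 52))
 (.p (nat_lit 0x2493248b21dd21d51f1b1f0b1c471c3d1983197516a716995f260d) (nat_lit 0x3aa560b44000000040600) (nat_lit 33))))))
 (.n (.n (.n (.n (.p (nat_lit 0x1ee05c502) (nat_lit 0x400100) (nat_lit 1))
 (.p (nat_lit 0x5ce0bc502) (nat_lit 0x300015) (nat_lit 4)))
 (.n (.p (nat_lit 0x3d383d363d343d323d3008cd06) (nat_lit 0x800008a104) (nat_lit 51))
 (.p (nat_lit 0x21222120211e211c211a468d06) (nat_lit 0x8000cc22f) (nat_lit 52))))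
 (.n (.n (.p (nat_lit 0x242b215f02) (nat_lit 0x502b00) (nat_lit 16))
 (.p (nat_lit 0xeb20eb00eae0eaa0ea84a4106) (nat_lit 0x20000c2721) (nat_lit 52)))
 (.n (.p (nat_lit 0x190406ab02) (nat_lit 0x707) (nat_lit 5))
 (.p (nat_lit 0x5e881d8d02) (nat_lit 0x40056900) (nat_lit 47)))))
 (.n (.n (.n (.p (nat_lit 0x1665155502) (nat_lit 0x408600) (nat_lit 16))
 (.p (nat_lit 0x63e063c063a0636063405d906) (nat_lit 0x200008001c) (nat_lit 52)))
 (.n (.p (nat_lit 0x63e063c063a063806341abf06) (nat_lit 0x10000c0705) (nat_lit 52))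
 (.p (nat_lit 0x5c910ba702) (nat_lit 0x2c0000000200) (nat_lit 39))))
 (.n (.n (.p (nat_lit 0x1c681c641c621c601c5e1ef506) (nat_lit 0x8000080902) (nat_lit 52))
 (.p (nat_lit 0x459b458f02) (nat_lit 0x440128) (nat_lit 16)))
 (.n (.p (nat_lit 0xade0ada0ad80ad60ad40f7d06) (nat_lit 0x800005030e) (nat_lit 52))
 (.p (nat_lit 0x2346602d02) (nat_lit 0x406a62335000500000600) (nat_lit 50))))))

def c1024_578 : Tr :=
 .n (.n (.n (.n (.n (.n (.p (nat_lit 0x39a03980392039f04) (nat_lit 0xc800400022) (nat_lit 17))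
 (.p (nat_lit 0x249261a902) (nat_lit 0x340b8ac64000500040600) (nat_lit 50)))
 (.p (nat_lit 0x408c408a4088408440820253408707) (nat_lit 0x200412) (nat_lit 7)))
 (.n (.p (nat_lit 0x247321cb02) (nat_lit 0x500a03) (nat_lit 15))
 (.p (nat_lit 0x335e324d02) (nat_lit 0xa2c) (nat_lit 4))))
 (.n (.n (.p (nat_lit 0x1e94207f02) (nat_lit 0x400a00) (nat_lit 5))
 (.p (nat_lit 0x3b4055db02) (nat_lit 0x340a1f) (nat_lit 29)))
 (.n (.p (nat_lit 0x149515102) (nat_lit 0x400307) (nat_lit 30))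
 (.p (nat_lit 0x5d8b5e6502) (nat_lit 0x2200a0000700) (nat_lit 36)))))
 (.n (.n (.n (.p (nat_lit 0x10c412a302) (nat_lit 0x100500) (nat_lit 5))
 (.p (nat_lit 0x41963e2502) (nat_lit 0x200519) (nat_lit 4)))
 (.n (.p (nat_lit 0xfbe470102) (nat_lit 0x140305) (nat_lit 29))
 (.p (nat_lit 0x4ad5c8702) (nat_lit 0x10032f) (nat_lit 28))))
 (.n (.n (.p (nat_lit 0x2d402d3e2d3c2d3a2d382d3606) (nat_lit 0xc6002) (nat_lit 52))
 (.p (nat_lit 0x33b0316502) (nat_lit 0x540a25) (nat_lit 5)))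
 (.n (.p (nat_lit 0x45f8442702) (nat_lit 0x10020c) (nat_lit 5))
 (.p (nat_lit 0xfe45fa502) (nat_lit 0x588bb0344000400000000) (nat_lit 50))))))
 (.n (.n (.n (.n (.p (nat_lit 0x9ce0ba902) (nat_lit 0x140200) (nat_lit 4))
 (.p (nat_lit 0x1820181e181c181a181614d706) (nat_lit 0x100004e515) (nat_lit 51)))
 (.n (.p (nat_lit 0x775151502) (nat_lit 0x240504) (nat_lit 15))
 (.p (nat_lit 0x597a5978597659745972000900c007) (nat_lit 0x416704) (nat_lit 25))))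
 (.n (.n (.p (nat_lit 0xd050cc902) (nat_lit 0x554201) (nat_lit 16))
 (.p (nat_lit 0x4c0d088902) (nat_lit 0x16123) (nat_lit 16)))
 (.n (.p (nat_lit 0x2922266d02) (nat_lit 0x40308) (nat_lit 4))
 (.p (nat_lit 0x5d2b5eb902) (nat_lit 0x220060000b00) (nat_lit 37)))))
 (.n (.n (.n (.p (nat_lit 0x19fa19f619f419f219f0179b06) (nat_lit 0x80000c8700) (nat_lit 51))
 (.p (nat_lit 0x552a55285526552455225520031207) (nat_lit 0x4051c) (nat_lit 8)))
 (.n (.p (nat_lit 0xfcf0d0102) (nat_lit 0x340206) (nat_lit 15))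
 (.p (nat_lit 0x5e103b9d02) (nat_lit 0x20010400) (nat_lit 47))))
 (.n (.n (.p (nat_lit 0x15e015de15dc15d82467245f06) (nat_lit 0x11000010b02) (nat_lit 52))
 (.p (nat_lit 0x11441142113e113c113a0b5906) (nat_lit 0x400008822a) (nat_lit 52)))
 (.n (.p (nat_lit 0x1bdd191302) (nat_lit 0x10070e) (nat_lit 15))
 (.p (nat_lit 0x13ee60a702) (nat_lit 0x356068ca4000500040000) (nat_lit 49))))))

def c512_66 : Tr := .n c1024_66 c1024_578

def c1024_322 : Tr :=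
 .n (.n (.n (.n (.n (.n (.p (nat_lit 0x14801460144014d04) (nat_lit 0xe000400007) (nat_lit 17))
 (.p (nat_lit 0x8fa616d02) (nat_lit 0x421aa4394000100040000) (nat_lit 50)))
 (.p (nat_lit 0x33de33dc33da33d833d6022d33e107) (nat_lit 0x500b10) (nat_lit 7)))
 (.n (.p (nat_lit 0x8d3a8502) (nat_lit 0x300603) (nat_lit 30))
 (.p (nat_lit 0x281e2a8d02) (nat_lit 0x30022b) (nat_lit 5))))
 (.n (.n (.p (nat_lit 0x1ed11bcb02) (nat_lit 0x408900) (nat_lit 16))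
 (.p (nat_lit 0x2eb4305702) (nat_lit 0x34011e) (nat_lit 4)))
 (.n (.p (nat_lit 0x223422322230222e222c206306) (nat_lit 0x2000046906) (nat_lit 52))
 (.p (nat_lit 0x5ce1181902) (nat_lit 0xc0020000700) (nat_lit 40)))))
 (.n (.n (.n (.p (nat_lit 0x10a610a410a0109e0dff0df906) (nat_lit 0x12000094400) (nat_lit 52))
 (.p (nat_lit 0xbf80bf60bf40bf20bee339106) (nat_lit 0x100004aa17) (nat_lit 51)))
 (.n (.p (nat_lit 0xe7441f02) (nat_lit 0x240005) (nat_lit 30))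
 (.p (nat_lit 0x36c0368036603620357030906) (nat_lit 0x210e620) (nat_lit 26))))
 (.n (.n (.p (nat_lit 0x2053204702) (nat_lit 0x50901) (nat_lit 16))
 (.p (nat_lit 0x17d925a502) (nat_lit 0x540b23) (nat_lit 15)))
 (.n (.p (nat_lit 0x3bc8353b02) (nat_lit 0x540b0a) (nat_lit 4))
 (.p (nat_lit 0x15345f6f02) (nat_lit 0x3aa074b50000000000600) (nat_lit 49))))))
 (.n (.n (.n (.n (.p (nat_lit 0x9be09ba09b809b40725071f06) (nat_lit 0x9000056100) (nat_lit 52))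
 (.p (nat_lit 0x124a0a8b02) (nat_lit 0x540415) (nat_lit 4)))
 (.n (.p (nat_lit 0xfb21f7302) (nat_lit 0x140304) (nat_lit 4))
 (.p (nat_lit 0x3400320030002a0003005d06) (nat_lit 0xa12801) (nat_lit 26))))
 (.n (.n (.p (nat_lit 0x17805f702) (nat_lit 0x500001) (nat_lit 1))
 (.p (nat_lit 0x5e805e405e205e003cc03ab03a705eb05e709) (nat_lit 0x2b00023) (nat_lit 10)))
 (.n (.p (nat_lit 0x3c1c3c1a3c163c143c12200506) (nat_lit 0x4000046907) (nat_lit 52))
 (.p (nat_lit 0x5cf55e9f02) (nat_lit 0x280040000a00) (nat_lit 37)))))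
 (.n (.n (.n (.p (nat_lit 0x1628181f02) (nat_lit 0x400700) (nat_lit 5))
 (.p (nat_lit 0x886088408820880087c0309087f07) (nat_lit 0x10011c) (nat_lit 7)))
 (.n (.p (nat_lit 0x1e4e1e4c1e4a1e481e461d8906) (nat_lit 0x80004c805) (nat_lit 52))
 (.p (nat_lit 0x5cdd5dfb02) (nat_lit 0x100020000300) (nat_lit 37))))
 (.n (.n (.p (nat_lit 0x21d621d421d021ce21cc21bb06) (nat_lit 0x4000094a02) (nat_lit 52))
 (.p (nat_lit 0x1180117e117a1178117650c306) (nat_lit 0x40000c2829) (nat_lit 52)))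
 (.n (.p (nat_lit 0x397b123d02) (nat_lit 0x45040e) (nat_lit 16))
 (.p (nat_lit 0x1540606f02) (nat_lit 0x588172b40800000000600) (nat_lit 50))))))

def c1024_834 : Tr :=
 .n (.n (.n (.n (.n (.n (.p (nat_lit 0x5c304e102) (nat_lit 0x300000) (nat_lit 15))
 (.p (nat_lit 0x21d461e702) (nat_lit 0x3422b0d64000400040600) (nat_lit 49)))
 (.p (nat_lit 0x22b822b422b222b022ae485306) (nat_lit 0x80000d0413) (nat_lit 52)))
 (.n (.p (nat_lit 0x25c61d2502) (nat_lit 0x440b03) (nat_lit 4))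
 (.p (nat_lit 0x140c140a1408140614023bfd06) (nat_lit 0x1000042b2d) (nat_lit 51))))
 (.n (.n (.p (nat_lit 0x2270226e226c226a1ff51ff306) (nat_lit 0x18000caa00) (nat_lit 51))
 (.p (nat_lit 0x428a4286428442824280036b428907) (nat_lit 0x440620) (nat_lit 7)))
 (.n (.p (nat_lit 0x47530f6d02) (nat_lit 0x254307) (nat_lit 16))
 (.p (nat_lit 0x5d6b1ae902) (nat_lit 0x120080000800) (nat_lit 40)))))
 (.n (.n (.n (.p (nat_lit 0x143c143a143814361432121f06) (nat_lit 0x1000046500) (nat_lit 52))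
 (.p (nat_lit 0x2152214e214c214a214848c506) (nat_lit 0x800009051a) (nat_lit 51)))
 (.n (.p (nat_lit 0x24f024ec24ea24e61695168f06) (nat_lit 0x9000086605) (nat_lit 52))
 (.p (nat_lit 0x5c9307a102) (nat_lit 0x2a0000000100) (nat_lit 40))))
 (.n (.n (.p (nat_lit 0xe3f0e3302) (nat_lit 0x112302) (nat_lit 16))
 (.p (nat_lit 0x1fb41fb21fb01fac1faa3d7506) (nat_lit 0x200000c127) (nat_lit 51)))
 (.n (.p (nat_lit 0x4f184b5502) (nat_lit 0x24040d) (nat_lit 4))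
 (.p (nat_lit 0x1ada5fed02) (nat_lit 0x306a81d31000200000600) (nat_lit 49))))))
 (.n (.n (.n (.n (.p (nat_lit 0xd400d3a0d380d360b370b3506) (nat_lit 0xc000002300) (nat_lit 51))
 (.p (nat_lit 0x1d4c0ae102) (nat_lit 0x40815) (nat_lit 4)))
 (.n (.p (nat_lit 0x1aea1ae81ae61ae21ae017f706) (nat_lit 0x2000050604) (nat_lit 51))
 (.p (nat_lit 0x20e5a2102) (nat_lit 0x200208) (nat_lit 27))))
 (.n (.n (.p (nat_lit 0x75514f502) (nat_lit 0x440501) (nat_lit 15))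
 (.p (nat_lit 0xe9a0e980e960e900cab0ca906) (nat_lit 0x30000c0223) (nat_lit 52)))
 (.n (.p (nat_lit 0x37db301302) (nat_lit 0x412309) (nat_lit 16))
 (.p (nat_lit 0xfd65ee102) (nat_lit 0x4a8d84344000400000000) (nat_lit 49)))))
 (.n (.n (.n (.p (nat_lit 0x1b9c1b981b941b92190118fd06) (nat_lit 0xa000014800) (nat_lit 52))
 (.p (nat_lit 0x3561bfb02) (nat_lit 0x40081c) (nat_lit 1)))
 (.n (.p (nat_lit 0x1590158e158a15881586196b06) (nat_lit 0x4000084706) (nat_lit 52))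
 (.p (nat_lit 0x5cf35e2b02) (nat_lit 0x2a0040000500) (nat_lit 37))))
 (.n (.n (.p (nat_lit 0x358a358835863584358008bb06) (nat_lit 0x1000088103) (nat_lit 51))
 (.p (nat_lit 0x10b410b010ae10ac10aa0e2106) (nat_lit 0x800001632a) (nat_lit 52)))
 (.n (.p (nat_lit 0x22d4084f02) (nat_lit 0x140a0e) (nat_lit 5))
 (.p (nat_lit 0x8fa60f102) (nat_lit 0x440d623a4000100040000) (nat_lit 50))))))

def c512_322 : Tr := .n c1024_322 c1024_834

def c256_66 : Tr := .n c512_66 c512_322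

def c1024_194 : Tr :=
 .n (.n (.n (.n (.n (.n (.p (nat_lit 0xba00b400c303) (nat_lit 0x4800500004) (nat_lit 17))
 (.p (nat_lit 0x1f16614f02) (nat_lit 0x3503a0d84000300040600) (nat_lit 50)))
 (.p (nat_lit 0x31e02de102) (nat_lit 0x510) (nat_lit 5)))
 (.n (.p (nat_lit 0x150f126f02) (nat_lit 0x540403) (nat_lit 15))
 (.p (nat_lit 0x21a214a102) (nat_lit 0x300a2a) (nat_lit 4))))
 (.n (.n (.p (nat_lit 0x1e101e0c1e0a1e081bcd1bc906) (nat_lit 0x14000086900) (nat_lit 51))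
 (.p (nat_lit 0x2b2228a102) (nat_lit 0x10081d) (nat_lit 5)))
 (.n (.p (nat_lit 0x1efa23ff02) (nat_lit 0x100906) (nat_lit 5))
 (.p (nat_lit 0x5d5f5e4b02) (nat_lit 0x1e0080000600) (nat_lit 36)))))
 (.n (.n (.n (.p (nat_lit 0xfea0fde0dff03) (nat_lit 0x500400) (nat_lit 6))
 (.p (nat_lit 0x2cfa2ee302) (nat_lit 0x400017) (nat_lit 5)))
 (.n (.p (nat_lit 0x25d425d225ce25ca00d000bb00b725d125cd09) (nat_lit 0x1940b04) (nat_lit 10))
 (.p (nat_lit 0x3845b5b02) (nat_lit 0x41a) (nat_lit 27))))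
 (.n (.n (.p (nat_lit 0x204a160102) (nat_lit 0x240901) (nat_lit 5))
 (.p (nat_lit 0x219d219102) (nat_lit 0xa23) (nat_lit 16)))
 (.n (.p (nat_lit 0x39c439c039be39bc39ba396f06) (nat_lit 0x80000d440a) (nat_lit 51))
 (.p (nat_lit 0x248f248b21d921d51f151f0b1c471c431983197516ad16995f4c0d) (nat_lit 0x1a2262350000000040600) (nat_lit 33))))))
 (.n (.n (.n (.n (.p (nat_lit 0x8c305c702) (nat_lit 0x510100) (nat_lit 16))
 (.p (nat_lit 0x3cff073302) (nat_lit 0x552015) (nat_lit 16)))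
 (.n (.p (nat_lit 0x3e850b8902) (nat_lit 0x30a204) (nat_lit 16))
 (.p (nat_lit 0x4d504f7f02) (nat_lit 0x140230) (nat_lit 4))))
 (.n (.n (.p (nat_lit 0x253625322530252e22c522c106) (nat_lit 0x140000ceb00) (nat_lit 51))
 (.p (nat_lit 0x502a567b02) (nat_lit 0x540722) (nat_lit 29)))
 (.n (.p (nat_lit 0x34e034de34da34d834d61bd506) (nat_lit 0x4000084807) (nat_lit 51))
 (.p (nat_lit 0x5e901f0f02) (nat_lit 0xa0040900) (nat_lit 45)))))
 (.n (.n (.n (.p (nat_lit 0x176c176a176817661764176206) (nat_lit 0x52600) (nat_lit 51))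
 (.p (nat_lit 0x4cc04ca04c804c604c4073506) (nat_lit 0x80004001c) (nat_lit 52)))
 (.n (.p (nat_lit 0x1c2c1c2a1c261c241c2200e91c2907) (nat_lit 0x300805) (nat_lit 7))
 (.p (nat_lit 0x5d7b0a5902) (nat_lit 0x20080000200) (nat_lit 40))))
 (.n (.n (.p (nat_lit 0x1bbc1bba1bb81bb6205d205b06) (nat_lit 0x180000d6902) (nat_lit 51))
 (.p (nat_lit 0x4c884e6102) (nat_lit 0x140129) (nat_lit 5)))
 (.n (.p (nat_lit 0x299910e102) (nat_lit 0x30c40e) (nat_lit 16))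
 (.p (nat_lit 0x1ae0604d02) (nat_lit 0x406a6254c800200000600) (nat_lit 50))))))

def c1024_706 : Tr :=
 .n (.n (.n (.n (.n (.n (.p (nat_lit 0x14604e102) (nat_lit 0x300000) (nat_lit 1))
 (.p (nat_lit 0x63661cd02) (nat_lit 0x3421684a0800000040000) (nat_lit 49)))
 (.p (nat_lit 0x9220920091e091c0918422306) (nat_lit 0x1000008612) (nat_lit 51)))
 (.n (.p (nat_lit 0xa4e0a4c0a4a0a480a44246b06) (nat_lit 0x1000004b03) (nat_lit 52))
 (.p (nat_lit 0x497587d02) (nat_lit 0x40022d) (nat_lit 30))))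
 (.n (.n (.p (nat_lit 0x21671e9302) (nat_lit 0x300a00) (nat_lit 16))
 (.p (nat_lit 0x3d0a3d063d043d023d00036b3d0907) (nat_lit 0x440020) (nat_lit 7)))
 (.n (.p (nat_lit 0xf6e051102) (nat_lit 0x340307) (nat_lit 5))
 (.p (nat_lit 0x5e6a34c102) (nat_lit 0x20006800) (nat_lit 48)))))
 (.n (.n (.n (.p (nat_lit 0x136c136a1368136610cd10cb06) (nat_lit 0x18000016500) (nat_lit 52))
 (.p (nat_lit 0x42ca3ef102) (nat_lit 0x100719) (nat_lit 4)))
 (.n (.p (nat_lit 0x13d420f702) (nat_lit 0x100505) (nat_lit 4))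
 (.p (nat_lit 0x5cf75db702) (nat_lit 0x260040000000) (nat_lit 37))))
 (.n (.n (.p (nat_lit 0xb70185702) (nat_lit 0x300202) (nat_lit 4))
 (.p (nat_lit 0x375638ad02) (nat_lit 0x440226) (nat_lit 5)))
 (.n (.p (nat_lit 0x49ca43ef02) (nat_lit 0x10070c) (nat_lit 4))
 (.p (nat_lit 0x1da25fcf02) (nat_lit 0x9582ec05000300000600) (nat_lit 49))))))
 (.n (.n (.n (.n (.p (nat_lit 0xc9509d302) (nat_lit 0x340200) (nat_lit 15))
 (.p (nat_lit 0x1926192419221920191e0281191d07) (nat_lit 0x715) (nat_lit 7)))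
 (.n (.p (nat_lit 0x4215168102) (nat_lit 0x604) (nat_lit 16))
 (.p (nat_lit 0x11b59cb02) (nat_lit 0x400106) (nat_lit 28))))
 (.n (.n (.p (nat_lit 0x124e15b702) (nat_lit 0x140401) (nat_lit 5))
 (.p (nat_lit 0x3dfb09ed02) (nat_lit 0x452123) (nat_lit 16)))
 (.n (.p (nat_lit 0x2bde26a702) (nat_lit 0x140908) (nat_lit 4))
 (.p (nat_lit 0xa445ec502) (nat_lit 0x260b84344000200000000) (nat_lit 49)))))
 (.n (.n (.n (.p (nat_lit 0x1aa9179702) (nat_lit 0x24a700) (nat_lit 16))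
 (.p (nat_lit 0x17c80edf02) (nat_lit 0x34061c) (nat_lit 4)))
 (.n (.p (nat_lit 0x128c4eb302) (nat_lit 0x240406) (nat_lit 29))
 (.p (nat_lit 0x5da70fdf02) (nat_lit 0x600a0000400) (nat_lit 38))))
 (.n (.n (.p (nat_lit 0x6081af102) (nat_lit 0x200003) (nat_lit 5))
 (.p (nat_lit 0x12aa12a412a212a00cbb0cb906) (nat_lit 0xc00004a22a) (nat_lit 51)))
 (.n (.p (nat_lit 0x35ec35ea35e835e635e21d4306) (nat_lit 0x100004880e) (nat_lit 51))
 (.p (nat_lit 0x113a60d102) (nat_lit 0x35052a3a4000400040000) (nat_lit 49))))))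

def c512_194 : Tr := .n c1024_194 c1024_706

def c1024_450 : Tr :=
 .n (.n (.n (.n (.n (.n (.p (nat_lit 0x28a02880284028d04) (nat_lit 0x1a000400015) (nat_lit 17))
 (.p (nat_lit 0x1f16618902) (nat_lit 0x340b86c64000300040600) (nat_lit 50)))
 (.p (nat_lit 0x39de35fb02) (nat_lit 0x511) (nat_lit 4)))
 (.n (.p (nat_lit 0x1a061a041a021a0019fc17e906) (nat_lit 0x100004a603) (nat_lit 52))
 (.p (nat_lit 0x43c2c2102) (nat_lit 0x44092b) (nat_lit 1))))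
 (.n (.n (.p (nat_lit 0x1fc01fbe1fba1fb61d2f1d2b06) (nat_lit 0x50000cc900) (nat_lit 52))
 (.p (nat_lit 0x354c378302) (nat_lit 0x24001f) (nat_lit 5)))
 (.n (.p (nat_lit 0xb5d0b4502) (nat_lit 0x508207) (nat_lit 16))
 (.p (nat_lit 0x5d27197702) (nat_lit 0x260060000700) (nat_lit 39)))))
 (.n (.n (.n (.p (nat_lit 0x1180117e117c117a1178117606) (nat_lit 0xc2400) (nat_lit 52))
 (.p (nat_lit 0x3aa4368f02) (nat_lit 0x100618) (nat_lit 5)))
 (.n (.p (nat_lit 0xb9820bb02) (nat_lit 0x500205) (nat_lit 5))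
 (.p (nat_lit 0x5c145c125c105c0e5c0c030903f807) (nat_lit 0x116226) (nat_lit 25))))
 (.n (.n (.p (nat_lit 0x231623142312230e004a0035002d2319231109) (nat_lit 0x2940a01) (nat_lit 10))
 (.p (nat_lit 0x101810161014101210102bc306) (nat_lit 0x10000082924) (nat_lit 51)))
 (.n (.p (nat_lit 0x40f63cb502) (nat_lit 0x14040b) (nat_lit 4))
 (.p (nat_lit 0x181c5f8d02) (nat_lit 0x581a30344000100000600) (nat_lit 50))))))
 (.n (.n (.n (.n (.p (nat_lit 0xa7e0a7c0a780a760a74087706) (nat_lit 0x4000008200) (nat_lit 52))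
 (.p (nat_lit 0x153e153c153a15381534138d06) (nat_lit 0x100000c515) (nat_lit 52)))
 (.n (.p (nat_lit 0x40ae40ac40a840a640a4127706) (nat_lit 0x4000042404) (nat_lit 51))
 (.p (nat_lit 0x23a591d02) (nat_lit 0x100103) (nat_lit 27))))
 (.n (.n (.p (nat_lit 0x31274f02) (nat_lit 0x340101) (nat_lit 30))
 (.p (nat_lit 0x569e569c569a56985696569403ac07) (nat_lit 0x123) (nat_lit 8)))
 (.n (.p (nat_lit 0x4aec4aea4ae84ae6241b241706) (nat_lit 0x500008eb07) (nat_lit 52))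
 (.p (nat_lit 0x5cbd248d02) (nat_lit 0xb00) (nat_lit 41)))))
 (.n (.n (.n (.p (nat_lit 0x1901162902) (nat_lit 0x400700) (nat_lit 15))
 (.p (nat_lit 0x9e209e009de09d80322030b030909dd09db09) (nat_lit 0x114011c) (nat_lit 10)))
 (.n (.p (nat_lit 0x1174ba102) (nat_lit 0x200106) (nat_lit 30))
 (.p (nat_lit 0x5d630d1b02) (nat_lit 0x1a0080000300) (nat_lit 40))))
 (.n (.n (.p (nat_lit 0x197a1976197219702323231f06) (nat_lit 0xa0000cea02) (nat_lit 52))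
 (.p (nat_lit 0x44204550459141312bd05) (nat_lit 0x85a4012a) (nat_lit 9)))
 (.n (.p (nat_lit 0x4fc04fa04f804f614cb14c906) (nat_lit 0x18000c450e) (nat_lit 52))
 (.p (nat_lit 0xbb2608d02) (nat_lit 0x342221ca4000200040000) (nat_lit 50))))))

def c1024_962 : Tr :=
 .n (.n (.n (.n (.n (.p (nat_lit 0x69e069c069a06980696064d06) (nat_lit 0x8000c8000) (nat_lit 52))
 (.p (nat_lit 0x4f2a4f284f264f244f2202694f2107) (nat_lit 0x40414) (nat_lit 7)))
 (.n (.p (nat_lit 0xc200df00cf1f1f1dbb05) (nat_lit 0xad100004) (nat_lit 9))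
 (.p (nat_lit 0x42a041df02) (nat_lit 0x44062e) (nat_lit 5))))
 (.n (.n (.p (nat_lit 0x2156234102) (nat_lit 0x100b00) (nat_lit 5))
 (.p (nat_lit 0x44a246b702) (nat_lit 0x340021) (nat_lit 5)))
 (.n (.p (nat_lit 0x1230516902) (nat_lit 0x440407) (nat_lit 29))
 (.p (nat_lit 0x5c9d5e8102) (nat_lit 0x200000000900) (nat_lit 37)))))
 (.n (.n (.n (.p (nat_lit 0x32155502) (nat_lit 0x400600) (nat_lit 1))
 (.p (nat_lit 0x4f344cb902) (nat_lit 0x44041b) (nat_lit 4)))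
 (.n (.p (nat_lit 0x6480646064406420640196306) (nat_lit 0x10000080705) (nat_lit 51))
 (.p (nat_lit 0x5d295dd302) (nat_lit 0x240060000100) (nat_lit 36))))
 (.n (.n (.p (nat_lit 0x13b0189b02) (nat_lit 0x100502) (nat_lit 5))
 (.p (nat_lit 0x42e440d902) (nat_lit 0x200727) (nat_lit 4)))
 (.n (.p (nat_lit 0xe0e52cb02) (nat_lit 0x10030e) (nat_lit 29))
 (.p (nat_lit 0x1db0600f02) (nat_lit 0x405aa0b94800300000600) (nat_lit 50))))))
 (.n (.n (.n (.n (.p (nat_lit 0xe4b0b3102) (nat_lit 0x112300) (nat_lit 16))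
 (.p (nat_lit 0x2182217e217c217a21780289218107) (nat_lit 0x400a15) (nat_lit 7)))
 (.n (.p (nat_lit 0x1d0c1d081d061d041957195306) (nat_lit 0x14000094704) (nat_lit 51))
 (.p (nat_lit 0x1f001ec01ea01e80009028106) (nat_lit 0x200830e) (nat_lit 26))))
 (.n (.n (.p (nat_lit 0x1d7c15e502) (nat_lit 0x40801) (nat_lit 4))
 (.p (nat_lit 0x193c105502) (nat_lit 0x400723) (nat_lit 5)))
 (.n (.p (nat_lit 0x67a0678067606740672332306) (nat_lit 0x800006a09) (nat_lit 51))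
 (.p (nat_lit 0x181c5f0f02) (nat_lit 0x3a2570344000100000600) (nat_lit 50)))))
 (.n (.n (.n (.p (nat_lit 0x1a661a641a601a5e0010000700011a631a5d09) (nat_lit 0x1840800) (nat_lit 10))
 (.p (nat_lit 0x557e557c557a557855765574031207) (nat_lit 0x4091c) (nat_lit 8)))
 (.n (.p (nat_lit 0x1c36503502) (nat_lit 0x400806) (nat_lit 29))
 (.p (nat_lit 0x5d9112ab02) (nat_lit 0x1c00a0000500) (nat_lit 40))))
 (.n (.n (.p (nat_lit 0xb830b7702) (nat_lit 0x14203) (nat_lit 16))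
 (.p (nat_lit 0x4257166f02) (nat_lit 0x31262a) (nat_lit 16)))
 (.n (.p (nat_lit 0x2996275702) (nat_lit 0x20040f) (nat_lit 5))
 (.p (nat_lit 0x1146611302) (nat_lit 0x34252a1b0000400040000) (nat_lit 50))))))

def c512_450 : Tr := .n c1024_450 c1024_962

def c256_194 : Tr := .n c512_194 c512_450

def c128_66 : Tr := .n c256_66 c256_194

def c64_2 : Tr := .n c128_2 c128_66

def c1024_34 : Tr :=
 .n (.n (.n (.n (.n (.n (.p (nat_lit 0x34002c002a003704) (nat_lit 0x11800400001) (nat_lit 17))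
 (.p (nat_lit 0xe78612b02) (nat_lit 0x35486a3b0000300040000) (nat_lit 50)))
 (.p (nat_lit 0x218021b021f2781270f05) (nat_lit 0x81d0080f) (nat_lit 9)))
 (.n (.p (nat_lit 0x8937eb02) (nat_lit 0x140303) (nat_lit 30))
 (.p (nat_lit 0x43b580302) (nat_lit 0x34072a) (nat_lit 30))))
 (.n (.n (.p (nat_lit 0x1d021d001cfe1cfc1a5f1a5d06) (nat_lit 0x1800054800) (nat_lit 51))
 (.p (nat_lit 0x22ea558d02) (nat_lit 0x40a1c) (nat_lit 29)))
 (.n (.p (nat_lit 0x50711c3702) (nat_lit 0x408806) (nat_lit 16))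
 (.p (nat_lit 0x5cdb153702) (nat_lit 0x120020000600) (nat_lit 38)))))
 (.n (.n (.n (.p (nat_lit 0xebe0ebc0eb80eb60c950c8f06) (nat_lit 0x480004a300) (nat_lit 51))
 (.p (nat_lit 0x164d243502) (nat_lit 0x400b15) (nat_lit 15)))
 (.n (.p (nat_lit 0x1d021cfe1cfa1cf81ab91ab506) (nat_lit 0xa000054704) (nat_lit 51))
 (.p (nat_lit 0x2b25ab902) (nat_lit 0x20030f) (nat_lit 27))))
 (.n (.n (.p (nat_lit 0x2b751d8102) (nat_lit 0x24a801) (nat_lit 16))
 (.p (nat_lit 0x2b2b1bff02) (nat_lit 0xc823) (nat_lit 16)))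
 (.n (.p (nat_lit 0x1a3521f02) (nat_lit 0x50020a) (nat_lit 30))
 (.p (nat_lit 0x1ae05f1f02) (nat_lit 0x1a2260b50000200000600) (nat_lit 50))))))
 (.n (.n (.n (.n (.p (nat_lit 0x787065702) (nat_lit 0x554000) (nat_lit 16))
 (.p (nat_lit 0x920091e091c091a091850a306) (nat_lit 0x10000048814) (nat_lit 51)))
 (.n (.p (nat_lit 0x3cf9077502) (nat_lit 0x244004) (nat_lit 16))
 (.p (nat_lit 0x227c227a227622742272460906) (nat_lit 0x400000c22f) (nat_lit 51))))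
 (.n (.n (.p (nat_lit 0x24062404240223fc2159215706) (nat_lit 0x3000012b00) (nat_lit 51))
 (.p (nat_lit 0x564a56485646564456425640039007) (nat_lit 0x40721) (nat_lit 8)))
 (.n (.p (nat_lit 0x4975163702) (nat_lit 0x514607) (nat_lit 16))
 (.p (nat_lit 0x5d071db102) (nat_lit 0x160040000900) (nat_lit 40)))))
 (.n (.n (.n (.p (nat_lit 0x161c1618161616141557155306) (nat_lit 0x14000094600) (nat_lit 51))
 (.p (nat_lit 0x5d854f502) (nat_lit 0x20001c) (nat_lit 29)))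
 (.n (.p (nat_lit 0x1abe213302) (nat_lit 0x140705) (nat_lit 5))
 (.p (nat_lit 0x5cbd0ba702) (nat_lit 0x200) (nat_lit 39))))
 (.n (.n (.p (nat_lit 0x66007f006f1a1518b105) (nat_lit 0x89800902) (nat_lit 9))
 (.p (nat_lit 0x229e229c229a22982296452106) (nat_lit 0x1000008e128) (nat_lit 52)))
 (.n (.p (nat_lit 0xf7e091702) (nat_lit 0x54030e) (nat_lit 5))
 (.p (nat_lit 0x1ae0602502) (nat_lit 0x406a6252d000200000600) (nat_lit 50))))))

def c1024_546 : Tr :=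
 .n (.n (.n (.n (.n (.n (.p (nat_lit 0x340033c033a034304) (nat_lit 0x1600040001d) (nat_lit 17))
 (.p (nat_lit 0x8fc61a502) (nat_lit 0x3222a5c15000100040000) (nat_lit 50)))
 (.p (nat_lit 0x1f03bd502) (nat_lit 0x540b11) (nat_lit 1)))
 (.n (.p (nat_lit 0x1e4e1e4c1e481e461e4421c706) (nat_lit 0x400000ca03) (nat_lit 52))
 (.p (nat_lit 0x30ac323702) (nat_lit 0x54032c) (nat_lit 4))))
 (.n (.n (.p (nat_lit 0x204d1d2f02) (nat_lit 0x34c900) (nat_lit 16))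
 (.p (nat_lit 0x3a7837a102) (nat_lit 0x34051f) (nat_lit 4)))
 (.n (.p (nat_lit 0x2f910c9f02) (nat_lit 0x24e207) (nat_lit 16))
 (.p (nat_lit 0x5da5182102) (nat_lit 0x800a0000700) (nat_lit 40)))))
 (.n (.n (.n (.p (nat_lit 0x12630f6702) (nat_lit 0x54e400) (nat_lit 16))
 (.p (nat_lit 0x3cf83e1b02) (nat_lit 0x240019) (nat_lit 5)))
 (.n (.p (nat_lit 0xe5c46a102) (nat_lit 0x400305) (nat_lit 29))
 (.p (nat_lit 0x5c6e5c6c5c6a5c685c64040b044007) (nat_lit 0x106a2a) (nat_lit 25))))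
 (.n (.n (.p (nat_lit 0x75c199902) (nat_lit 0x240002) (nat_lit 4))
 (.p (nat_lit 0x330030d102) (nat_lit 0x140925) (nat_lit 5)))
 (.n (.p (nat_lit 0x43063c5102) (nat_lit 0x24070b) (nat_lit 4))
 (.p (nat_lit 0x8ec5f9f02) (nat_lit 0x589832b44000100040000) (nat_lit 49))))))
 (.n (.n (.n (.n (.p (nat_lit 0xb65087702) (nat_lit 0x30c200) (nat_lit 16))
 (.p (nat_lit 0xa5a0a580a560a520a5014d906) (nat_lit 0x2000044515) (nat_lit 51)))
 (.n (.p (nat_lit 0x151241a102) (nat_lit 0x140504) (nat_lit 29))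
 (.p (nat_lit 0xbb596302) (nat_lit 0x300404) (nat_lit 28))))
 (.n (.n (.p (nat_lit 0x2d282702) (nat_lit 0x140201) (nat_lit 30))
 (.p (nat_lit 0x207e207c207a20782076089306) (nat_lit 0x10000014123) (nat_lit 51)))
 (.n (.p (nat_lit 0x286e25f702) (nat_lit 0x440208) (nat_lit 4))
 (.p (nat_lit 0x5eb4169102) (nat_lit 0x40012b00) (nat_lit 47)))))
 (.n (.n (.n (.p (nat_lit 0x17981796179417920028000b0009179d179b09) (nat_lit 0x2c40700) (nat_lit 10))
 (.p (nat_lit 0x1180117e117a1178139d139706) (nat_lit 0x480008251c) (nat_lit 52)))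
 (.n (.p (nat_lit 0xba40ba20b9e0b9c0b9a01190ba107) (nat_lit 0x300206) (nat_lit 7))
 (.p (nat_lit 0x5ce30fd702) (nat_lit 0xa0020000400) (nat_lit 38))))
 (.n (.n (.p (nat_lit 0x246633c902) (nat_lit 0x500b02) (nat_lit 29))
 (.p (nat_lit 0xb5c0b5a0b580b540448043904350b570b5309) (nat_lit 0x100022a) (nat_lit 10)))
 (.n (.p (nat_lit 0x17b2095d02) (nat_lit 0x44060e) (nat_lit 4))
 (.p (nat_lit 0x1c3c609f02) (nat_lit 0x344588ca4000200040600) (nat_lit 49))))))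

def c512_34 : Tr := .n c1024_34 c1024_546

def c1024_290 : Tr :=
 .n (.n (.n (.n (.n (.n (.p (nat_lit 0x1160114012103) (nat_lit 0x3000500006) (nat_lit 17))
 (.p (nat_lit 0x1ae2616302) (nat_lit 0x421aa4395000200000600) (nat_lit 50)))
 (.p (nat_lit 0x7b607b207b007ae07ac338b06) (nat_lit 0x8000046a10) (nat_lit 52)))
 (.n (.p (nat_lit 0x767150702) (nat_lit 0x140503) (nat_lit 15))
 (.p (nat_lit 0x25aa584902) (nat_lit 0x240b2a) (nat_lit 29))))
 (.n (.n (.p (nat_lit 0x1e8d1bc302) (nat_lit 0x900) (nat_lit 15))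
 (.p (nat_lit 0x622da702) (nat_lit 0x54001e) (nat_lit 1)))
 (.n (.p (nat_lit 0x2062240d02) (nat_lit 0x240906) (nat_lit 5))
 (.p (nat_lit 0x5c93197102) (nat_lit 0x2a0000000700) (nat_lit 39)))))
 (.n (.n (.n (.p (nat_lit 0x1060105e105c10580dff0df706) (nat_lit 0x1100008e400) (nat_lit 51))
 (.p (nat_lit 0xbd40bd00bce0bcc0bca334306) (nat_lit 0x8000080a17) (nat_lit 52)))
 (.n (.p (nat_lit 0x43ca43c843c643c443c2061d06) (nat_lit 0x800006005) (nat_lit 52))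
 (.p (nat_lit 0x340033e033c033a0395034506) (nat_lit 0x81481d) (nat_lit 26))))
 (.n (.n (.p (nat_lit 0x1f181f161f141f121f10205106) (nat_lit 0x100000d2901) (nat_lit 51))
 (.p (nat_lit 0x259a573102) (nat_lit 0x40b23) (nat_lit 29)))
 (.n (.p (nat_lit 0x67a06780676067406703b6d06) (nat_lit 0x1000006b0a) (nat_lit 51))
 (.p (nat_lit 0xfdc5f6102) (nat_lit 0x3aa570344000400000000) (nat_lit 49))))))
 (.n (.n (.n (.n (.p (nat_lit 0x94609420940093c0725071f06) (nat_lit 0x90000ca100) (nat_lit 52))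
 (.p (nat_lit 0x4ea910ed02) (nat_lit 0x316415) (nat_lit 16)))
 (.n (.p (nat_lit 0xb93f3502) (nat_lit 0x200304) (nat_lit 30))
 (.p (nat_lit 0x46258b302) (nat_lit 0x501) (nat_lit 27))))
 (.n (.n (.p (nat_lit 0x25bf22bb02) (nat_lit 0x50b00) (nat_lit 16))
 (.p (nat_lit 0x5e2567f02) (nat_lit 0x100023) (nat_lit 29)))
 (.n (.p (nat_lit 0x3cea3ce83ce43ce23ce01e9f06) (nat_lit 0x4000016907) (nat_lit 52))
 (.p (nat_lit 0x5cbf206d02) (nat_lit 0x2e0020000a00) (nat_lit 38)))))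
 (.n (.n (.n (.p (nat_lit 0x17ef16b902) (nat_lit 0x450600) (nat_lit 16))
 (.p (nat_lit 0x745073902) (nat_lit 0x24a01c) (nat_lit 16)))
 (.n (.p (nat_lit 0x1d90215102) (nat_lit 0x440805) (nat_lit 5))
 (.p (nat_lit 0x5cb95df502) (nat_lit 0x40000000300) (nat_lit 36))))
 (.n (.n (.p (nat_lit 0x16a2169e169c169a169821bd06) (nat_lit 0x800008ca02) (nat_lit 52))
 (.p (nat_lit 0x101a1016101410121010507106) (nat_lit 0x8000082829) (nat_lit 51)))
 (.n (.p (nat_lit 0x1f0e1f0c1f0a1f081f04123706) (nat_lit 0x10000d240e) (nat_lit 52))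
 (.p (nat_lit 0x1ae8606502) (nat_lit 0x85ab0335000200000600) (nat_lit 50))))))

def c1024_802 : Tr :=
 .n (.n (.n (.n (.n (.n (.p (nat_lit 0x53805360530052e04e104df06) (nat_lit 0x600000c000) (nat_lit 52))
 (.p (nat_lit 0x63861e302) (nat_lit 0x3302a5895000000040000) (nat_lit 49)))
 (.p (nat_lit 0x47e2454502) (nat_lit 0x500413) (nat_lit 5)))
 (.n (.p (nat_lit 0x3b8b247102) (nat_lit 0x404b03) (nat_lit 16))
 (.p (nat_lit 0x3bb03bae3baa3ba83ba604953bad07) (nat_lit 0x300b2d) (nat_lit 7))))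
 (.n (.n (.p (nat_lit 0x21fa21f821f621f41ff51ff306) (nat_lit 0x18000c0a00) (nat_lit 51))
 (.p (nat_lit 0x42403f6302) (nat_lit 0x400620) (nat_lit 5)))
 (.n (.p (nat_lit 0x122b0f6b02) (nat_lit 0x140307) (nat_lit 15))
 (.p (nat_lit 0x5e72195302) (nat_lit 0x60014800) (nat_lit 48)))))
 (.n (.n (.n (.p (nat_lit 0x14181416141414121410121d06) (nat_lit 0x8000c2500) (nat_lit 51))
 (.p (nat_lit 0x486054e302) (nat_lit 0x54041a) (nat_lit 29)))
 (.n (.p (nat_lit 0x1690496702) (nat_lit 0x200605) (nat_lit 29))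
 (.p (nat_lit 0x5d9504cd02) (nat_lit 0x1800a0000000) (nat_lit 38))))
 (.n (.n (.p (nat_lit 0xe3a187302) (nat_lit 0x500302) (nat_lit 4))
 (.p (nat_lit 0x1168116611641162115e3bf106) (nat_lit 0x10000c0b26) (nat_lit 51)))
 (.n (.p (nat_lit 0x23fa23f823f423f223f04dc706) (nat_lit 0x400009030d) (nat_lit 51))
 (.p (nat_lit 0x20785fe502) (nat_lit 0x3062a1c35000400000600) (nat_lit 50))))))
 (.n (.n (.n (.n (.p (nat_lit 0xd280d260d240d200d1e0b3306) (nat_lit 0x2000000300) (nat_lit 52))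
 (.p (nat_lit 0x4a331a8302) (nat_lit 0x154715) (nat_lit 16)))
 (.n (.p (nat_lit 0x129e129c12981296129417f906) (nat_lit 0x400004a604) (nat_lit 52))
 (.p (nat_lit 0x14801460142014001b1000b06) (nat_lit 0x1512307) (nat_lit 26))))
 (.n (.n (.p (nat_lit 0x14f0174302) (nat_lit 0x240501) (nat_lit 4))
 (.p (nat_lit 0x3ae03cb03b3102b119105) (nat_lit 0x8c140223) (nat_lit 9)))
 (.n (.p (nat_lit 0x300c2d2d02) (nat_lit 0x100309) (nat_lit 5))
 (.p (nat_lit 0x6425edb02) (nat_lit 0x4a9d22344000000040000) (nat_lit 50)))))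
 (.n (.n (.n (.p (nat_lit 0x1b6a1b681b641b62190318fd06) (nat_lit 0x1200000a800) (nat_lit 52))
 (.p (nat_lit 0x2ffe2ffc2ff82ff62ff41a9306) (nat_lit 0x40000d471c) (nat_lit 52)))
 (.n (.p (nat_lit 0x1966252502) (nat_lit 0x100706) (nat_lit 5))
 (.p (nat_lit 0x5cc95e2902) (nat_lit 0x240020000500) (nat_lit 37))))
 (.n (.n (.p (nat_lit 0x9400a700a11b051c6b05) (nat_lit 0x86800103) (nat_lit 9))
 (.p (nat_lit 0xe200e1e0e1c0e1a0e18043f0e2307) (nat_lit 0x50032a) (nat_lit 7)))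
 (.n (.p (nat_lit 0x2019200d02) (nat_lit 0x14690e) (nat_lit 16))
 (.p (nat_lit 0xbae60eb02) (nat_lit 0x340d623a4000200040000) (nat_lit 49))))))

def c512_290 : Tr := .n c1024_290 c1024_802

def c256_34 : Tr := .n c512_34 c512_290

def c1024_162 : Tr :=
 .n (.n (.n (.n (.n (.n (.p (nat_lit 0x9f0099009403) (nat_lit 0x2100003) (nat_lit 19))
 (.p (nat_lit 0x13fc614902) (nat_lit 0x350221d84000500040000) (nat_lit 50)))
 (.p (nat_lit 0x38e5310102) (nat_lit 0x312410) (nat_lit 16)))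
 (.n (.p (nat_lit 0x126a38fd02) (nat_lit 0x340403) (nat_lit 29))
 (.p (nat_lit 0x2044149902) (nat_lit 0x54092a) (nat_lit 4))))
 (.n (.n (.p (nat_lit 0x1bca1bc81bc61bc40014000b00011bcd1bc309) (nat_lit 0x2800900) (nat_lit 10))
 (.p (nat_lit 0x26c228f902) (nat_lit 0x34001d) (nat_lit 4)))
 (.n (.p (nat_lit 0x248a24882484248224801d9b06) (nat_lit 0x40000d6806) (nat_lit 52))
 (.p (nat_lit 0x5d21154702) (nat_lit 0x2c0060000600) (nat_lit 40)))))
 (.n (.n (.n (.p (nat_lit 0xfd30c9902) (nat_lit 0x556300) (nat_lit 16))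
 (.p (nat_lit 0x2bb32ba702) (nat_lit 0x308916) (nat_lit 16)))
 (.n (.p (nat_lit 0xe425cd02) (nat_lit 0x140b04) (nat_lit 1))
 (.p (nat_lit 0x2f65b3502) (nat_lit 0x200a15) (nat_lit 27))))
 (.n (.n (.p (nat_lit 0x2b9b1ee702) (nat_lit 0x302901) (nat_lit 16))
 (.p (nat_lit 0x22fd203502) (nat_lit 0x340923) (nat_lit 15)))
 (.n (.p (nat_lit 0x399839963994399238d938d706) (nat_lit 0x600000240a) (nat_lit 52))
 (.p (nat_lit 0x15425f3f02) (nat_lit 0x3a2560c64000000000600) (nat_lit 50))))))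
 (.n (.n (.n (.n (.p (nat_lit 0x87b05c702) (nat_lit 0x500100) (nat_lit 15))
 (.p (nat_lit 0x7c207bc07ba07b80731072f06) (nat_lit 0xc0000c6015) (nat_lit 52)))
 (.n (.p (nat_lit 0xb8a3e1302) (nat_lit 0x400204) (nat_lit 29))
 (.p (nat_lit 0x4a5e493d02) (nat_lit 0x54072f) (nat_lit 5))))
 (.n (.n (.p (nat_lit 0x24f024ee24ea24e622c122bd06) (nat_lit 0x50000c6b00) (nat_lit 52))
 (.p (nat_lit 0x395566702) (nat_lit 0x140522) (nat_lit 30)))
 (.n (.p (nat_lit 0x1bce519102) (nat_lit 0x807) (nat_lit 29))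
 (.p (nat_lit 0x5da75e9102) (nat_lit 0x600a0000900) (nat_lit 36)))))
 (.n (.n (.n (.p (nat_lit 0x1730172e1728172616b716b506) (nat_lit 0x60000c8600) (nat_lit 52))
 (.p (nat_lit 0x3c6705dd02) (nat_lit 0x41201c) (nat_lit 16)))
 (.n (.p (nat_lit 0x4a2d1ac502) (nat_lit 0x442705) (nat_lit 16))
 (.p (nat_lit 0x5d475de902) (nat_lit 0x60060000200) (nat_lit 37))))
 (.n (.n (.p (nat_lit 0x1cde1cdc1cda1cd81cd4205506) (nat_lit 0x10000ca902) (nat_lit 51))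
 (.p (nat_lit 0x4c0e4ec902) (nat_lit 0x100129) (nat_lit 5)))
 (.n (.p (nat_lit 0x1c4e1c4c1c4a1c481c4610e506) (nat_lit 0x1000009040e) (nat_lit 51))
 (.p (nat_lit 0x13fe604302) (nat_lit 0x40a96254c800500040000) (nat_lit 50))))))

def c1024_674 : Tr :=
 .n (.n (.n (.n (.n (.n (.p (nat_lit 0x4660464046f03) (nat_lit 0x300050002b) (nat_lit 17))
 (.p (nat_lit 0xe7661c302) (nat_lit 0x3221a9c15000300040000) (nat_lit 49)))
 (.p (nat_lit 0x41fc3d3702) (nat_lit 0x340512) (nat_lit 5)))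
 (.n (.p (nat_lit 0x246c3b6302) (nat_lit 0x200b03) (nat_lit 29))
 (.p (nat_lit 0x36543a2102) (nat_lit 0x54012d) (nat_lit 5))))
 (.n (.n (.p (nat_lit 0x214621442140213c1e931e8f06) (nat_lit 0x5000010a00) (nat_lit 51))
 (.p (nat_lit 0x3c603fb302) (nat_lit 0x100020) (nat_lit 5)))
 (.n (.p (nat_lit 0xe130e0702) (nat_lit 0x304307) (nat_lit 16))
 (.p (nat_lit 0x5cd91c4902) (nat_lit 0x140020000800) (nat_lit 41)))))
 (.n (.n (.n (.p (nat_lit 0x12f212ee12ec12ea12e810cb06) (nat_lit 0x8000086500) (nat_lit 51))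
 (.p (nat_lit 0x282427702) (nat_lit 0x140619) (nat_lit 1)))
 (.n (.p (nat_lit 0xe747f102) (nat_lit 0x240405) (nat_lit 30))
 (.p (nat_lit 0x5ccf04c502) (nat_lit 0x1e0020000000) (nat_lit 38))))
 (.n (.n (.p (nat_lit 0x2e762e722e702e6e2e6c0a1106) (nat_lit 0x80000ca102) (nat_lit 52))
 (.p (nat_lit 0x364b363f02) (nat_lit 0x40126) (nat_lit 16)))
 (.n (.p (nat_lit 0x483e445d02) (nat_lit 0x4040c) (nat_lit 4))
 (.p (nat_lit 0x233a5fc902) (nat_lit 0x9582ec15800500000600) (nat_lit 49))))))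
 (.n (.n (.n (.n (.p (nat_lit 0xc260c240c200c1c09d309cf06) (nat_lit 0x500004e200) (nat_lit 52))
 (.p (nat_lit 0x17b60ab102) (nat_lit 0x40615) (nat_lit 5)))
 (.n (.p (nat_lit 0x1ade1adc1ada1ad81ad4168306) (nat_lit 0x1000010604) (nat_lit 52))
 (.p (nat_lit 0xec00e800e400e200bd000506) (nat_lit 0x2210705) (nat_lit 26))))
 (.n (.n (.p (nat_lit 0x10fa15b102) (nat_lit 0x400401) (nat_lit 5))
 (.p (nat_lit 0x207420722070206e206c09e506) (nat_lit 0x800054123) (nat_lit 52)))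
 (.n (.p (nat_lit 0x50912b4f02) (nat_lit 0x254808) (nat_lit 16))
 (.p (nat_lit 0x5d9b5ec302) (nat_lit 0x1200a0000b00) (nat_lit 36)))))
 (.n (.n (.n (.p (nat_lit 0x1a61179702) (nat_lit 0x240700) (nat_lit 15))
 (.p (nat_lit 0x4fc314eb02) (nat_lit 0x55651c) (nat_lit 16)))
 (.n (.p (nat_lit 0x113824fd02) (nat_lit 0x500406) (nat_lit 4))
 (.p (nat_lit 0x5d5f0fe902) (nat_lit 0x1e0080000400) (nat_lit 40))))
 (.n (.n (.p (nat_lit 0x15fa15f815f615f415f025b506) (nat_lit 0x1000052b02) (nat_lit 52))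
 (.p (nat_lit 0x4cc04ca04c804c604c40cb306) (nat_lit 0x80004022a) (nat_lit 52)))
 (.n (.p (nat_lit 0x504d1be302) (nat_lit 0x41680e) (nat_lit 16))
 (.p (nat_lit 0x13fc60cb02) (nat_lit 0x3505623a4000500040000) (nat_lit 50))))))

def c512_162 : Tr := .n c1024_162 c1024_674

def c1024_418 : Tr :=
 .n (.n (.n (.n (.n (.n (.p (nat_lit 0x22c02280224022f04) (nat_lit 0x15000400010) (nat_lit 17))
 (.p (nat_lit 0x13fe618302) (nat_lit 0x421a86b15000500040000) (nat_lit 50)))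
 (.p (nat_lit 0x397635f302) (nat_lit 0x240411) (nat_lit 4)))
 (.n (.p (nat_lit 0x17f017ec17ea17e817e6008f17ef07) (nat_lit 0x440603) (nat_lit 7))
 (.p (nat_lit 0x2bc82ac502) (nat_lit 0x20092b) (nat_lit 4))))
 (.n (.n (.p (nat_lit 0x1f781f761f721f701d331d2d06) (nat_lit 0x120000c6900) (nat_lit 52))
 (.p (nat_lit 0x34be377302) (nat_lit 0x1f) (nat_lit 4)))
 (.n (.p (nat_lit 0x92e092c0928092609240b4106) (nat_lit 0x4000088207) (nat_lit 52))
 (.p (nat_lit 0x5d3d198302) (nat_lit 0x100060000700) (nat_lit 41)))))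
 (.n (.n (.n (.p (nat_lit 0xf660f640f620f5c0016000500030f610f5f09) (nat_lit 0x1140400) (nat_lit 10))
 (.p (nat_lit 0x1d261d241d221d201d1e39eb06) (nat_lit 0x800096518) (nat_lit 52)))
 (.n (.p (nat_lit 0x45810a3102) (nat_lit 0x246105) (nat_lit 16))
 (.p (nat_lit 0x3d803d603d403d2041d003506) (nat_lit 0x514124) (nat_lit 26))))
 (.n (.n (.p (nat_lit 0x2310161702) (nat_lit 0x140a01) (nat_lit 5))
 (.p (nat_lit 0x2b2a573d02) (nat_lit 0x824) (nat_lit 29)))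
 (.n (.p (nat_lit 0x40103c9d02) (nat_lit 0x14030b) (nat_lit 4))
 (.p (nat_lit 0x233a5f8102) (nat_lit 0x581a22b44000500000600) (nat_lit 49))))))
 (.n (.n (.n (.n (.p (nat_lit 0xa5a0a4e087b03) (nat_lit 0x500200) (nat_lit 6))
 (.p (nat_lit 0x8f208f008ec08ea08e8139106) (nat_lit 0x4000082515) (nat_lit 52)))
 (.n (.p (nat_lit 0xc200cf00cd1f891e2105) (nat_lit 0x46840404) (nat_lit 9))
 (.p (nat_lit 0x2a590302) (nat_lit 0xb02) (nat_lit 27))))
 (.n (.n (.p (nat_lit 0x26ea26e826e626e426e226e006) (nat_lit 0x8101) (nat_lit 52))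
 (.p (nat_lit 0x14221420141c141a074b074506) (nat_lit 0x12000044023) (nat_lit 51)))
 (.n (.p (nat_lit 0x2414070502) (nat_lit 0xb07) (nat_lit 4))
 (.p (nat_lit 0x5ea6485302) (nat_lit 0x80042a00) (nat_lit 47)))))
 (.n (.n (.n (.p (nat_lit 0x18dc18da18d618d4162b162506) (nat_lit 0x12000094700) (nat_lit 51))
 (.p (nat_lit 0x9e209e009de09dc09da030709d907) (nat_lit 0x4011c) (nat_lit 7)))
 (.n (.p (nat_lit 0x79024ad02) (nat_lit 0x440006) (nat_lit 5))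
 (.p (nat_lit 0x5d270e7302) (nat_lit 0x260060000300) (nat_lit 39))))
 (.n (.n (.p (nat_lit 0xfde0fda0fd80fd60fd4232306) (nat_lit 0x8000048a02) (nat_lit 52))
 (.p (nat_lit 0x5ae05ac05aa05a805a4089706) (nat_lit 0x100001612a) (nat_lit 51)))
 (.n (.p (nat_lit 0x14614cf02) (nat_lit 0x34050e) (nat_lit 1))
 (.p (nat_lit 0x1698608302) (nat_lit 0x344380a64000000040600) (nat_lit 49))))))

def c1024_930 : Tr :=
 .n (.n (.n (.n (.n (.p (nat_lit 0x67a0678067606720670065106) (nat_lit 0x2000046000) (nat_lit 51))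
 (.p (nat_lit 0x4e304bb102) (nat_lit 0x540314) (nat_lit 4)))
 (.n (.p (nat_lit 0x17f125c902) (nat_lit 0x540b03) (nat_lit 15))
 (.p (nat_lit 0x43a425702) (nat_lit 0x30062e) (nat_lit 1))))
 (.n (.n (.p (nat_lit 0x22f91ff502) (nat_lit 0x148a00) (nat_lit 16))
 (.p (nat_lit 0x4418441644144410440e0389441307) (nat_lit 0x200021) (nat_lit 7)))
 (.n (.p (nat_lit 0x516a51685166516451625160014c07) (nat_lit 0x40407) (nat_lit 8))
 (.p (nat_lit 0x5d851c4502) (nat_lit 0x2800a0000800) (nat_lit 39)))))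
 (.n (.n (.n (.p (nat_lit 0x150f122702) (nat_lit 0x550500) (nat_lit 16))
 (.p (nat_lit 0x4a9e45f502) (nat_lit 0x54081a) (nat_lit 4)))
 (.n (.p (nat_lit 0x2568256425622560180717ff06) (nat_lit 0x88000d2605) (nat_lit 52))
 (.p (nat_lit 0x5d475dd102) (nat_lit 0x60060000100) (nat_lit 37))))
 (.n (.n (.p (nat_lit 0x125e19f702) (nat_lit 0x340402) (nat_lit 5))
 (.p (nat_lit 0x117e117c117a11781176424f06) (nat_lit 0x10000082627) (nat_lit 52)))
 (.n (.p (nat_lit 0x50e44b0b02) (nat_lit 0x20090d) (nat_lit 5))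
 (.p (nat_lit 0x2495248121db21d31f151f0f1c471c3d1983197516af169b60040d) (nat_lit 0x405aa0b54800000040600) (nat_lit 33))))))
 (.n (.n (.n (.n (.p (nat_lit 0xe090b3702) (nat_lit 0x400300) (nat_lit 16))
 (.p (nat_lit 0x2020201e201a2018029402870281201d201709) (nat_lit 0x1840915) (nat_lit 10)))
 (.n (.p (nat_lit 0x1b1a1b181b161b14194f194d06) (nat_lit 0x1800082704) (nat_lit 51))
 (.p (nat_lit 0x19a5a5d02) (nat_lit 0x10070b) (nat_lit 27))))
 (.n (.n (.p (nat_lit 0x1a4e1a4c1a481a461a441c1d06) (nat_lit 0x4000016801) (nat_lit 52))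
 (.p (nat_lit 0x3a356d302) (nat_lit 0x140623) (nat_lit 30)))
 (.n (.p (nat_lit 0x32d82d6b02) (nat_lit 0x340909) (nat_lit 4))
 (.p (nat_lit 0xbba5ef702) (nat_lit 0x3a2530344000200040000) (nat_lit 50)))))
 (.n (.n (.n (.p (nat_lit 0x1a5c1c4702) (nat_lit 0x40800) (nat_lit 5))
 (.p (nat_lit 0x1ebe556b02) (nat_lit 0x10091c) (nat_lit 29)))
 (.n (.p (nat_lit 0x1d971acb02) (nat_lit 0x140706) (nat_lit 15))
 (.p (nat_lit 0x5e323baf02) (nat_lit 0x80010500) (nat_lit 47))))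
 (.n (.n (.p (nat_lit 0x2ce0b7702) (nat_lit 0x203) (nat_lit 1))
 (.p (nat_lit 0x468166f02) (nat_lit 0x30062a) (nat_lit 1)))
 (.n (.p (nat_lit 0x2580086f02) (nat_lit 0x540b0e) (nat_lit 5))
 (.p (nat_lit 0xe6e610d02) (nat_lit 0x3425219b0000300040000) (nat_lit 49))))))

def c512_418 : Tr := .n c1024_418 c1024_930

def c256_162 : Tr := .n c512_162 c512_418

def c128_34 : Tr := .n c256_34 c256_162

def c1024_98 : Tr :=
 .n (.n (.n (.n (.n (.n (.p (nat_lit 0x62005a006703) (nat_lit 0x11000500002) (nat_lit 17))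
 (.p (nat_lit 0x2344613502) (nat_lit 0x342a21d84000500000600) (nat_lit 50)))
 (.p (nat_lit 0x7c207c007bc07ba07b82bef06) (nat_lit 0x40000c690f) (nat_lit 52)))
 (.n (.p (nat_lit 0x110e387b02) (nat_lit 0x200403) (nat_lit 29))
 (.p (nat_lit 0x39a439a0399e399c399a1d7906) (nat_lit 0x80000c282a) (nat_lit 52))))
 (.n (.n (.p (nat_lit 0x1d511a6102) (nat_lit 0x244800) (nat_lit 16))
 (.p (nat_lit 0x244055a102) (nat_lit 0x400b1c) (nat_lit 29)))
 (.n (.p (nat_lit 0x1150114e114c114a11481d9506) (nat_lit 0x8000c8806) (nat_lit 51))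
 (.p (nat_lit 0x5d03153902) (nat_lit 0x1a0040000600) (nat_lit 38)))))
 (.n (.n (.n (.p (nat_lit 0xf4e0f4c0f4a0f460f440c9306) (nat_lit 0x2000056300) (nat_lit 51))
 (.p (nat_lit 0x2ae6283d02) (nat_lit 0x140516) (nat_lit 4)))
 (.n (.p (nat_lit 0x247e247c247a247600c800b900b52479247509) (nat_lit 0x1000b04) (nat_lit 10))
 (.p (nat_lit 0x2835afd02) (nat_lit 0x100015) (nat_lit 28))))
 (.n (.n (.p (nat_lit 0xe820e800e7e0e7a0e781ee506) (nat_lit 0x2000086901) (nat_lit 51))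
 (.p (nat_lit 0x1eca570302) (nat_lit 0x100923) (nat_lit 29)))
 (.n (.p (nat_lit 0x1b9c1b9a1b981b961b9437d306) (nat_lit 0x80001430a) (nat_lit 52))
 (.p (nat_lit 0x1ae05f3302) (nat_lit 0x3aa560c44000200000600) (nat_lit 50))))))
 (.n (.n (.n (.n (.p (nat_lit 0x7c007be07bc07ba07b805c706) (nat_lit 0x10000086100) (nat_lit 52))
 (.p (nat_lit 0x7f207ee07ec07ea07e805d106) (nat_lit 0x800008a015) (nat_lit 51)))
 (.n (.p (nat_lit 0xa281f4902) (nat_lit 0x440104) (nat_lit 4))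
 (.p (nat_lit 0x4768491902) (nat_lit 0x24032f) (nat_lit 4))))
 (.n (.n (.p (nat_lit 0x2475215502) (nat_lit 0x12b00) (nat_lit 16))
 (.p (nat_lit 0x1184b8b02) (nat_lit 0x340022) (nat_lit 1)))
 (.n (.p (nat_lit 0x2ca02c9e2c9c2c9a2c98190f06) (nat_lit 0x10000084707) (nat_lit 52))
 (.p (nat_lit 0x5d231da702) (nat_lit 0x2a0060000900) (nat_lit 38)))))
 (.n (.n (.n (.p (nat_lit 0x16ba16b816b616b416b2000116b107) (nat_lit 0x40600) (nat_lit 7))
 (.p (nat_lit 0x16a216a0169e169c169a05d506) (nat_lit 0x80008c01c) (nat_lit 52)))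
 (.n (.p (nat_lit 0x129e129a1298129612941ac506) (nat_lit 0x800004a705) (nat_lit 52))
 (.p (nat_lit 0x5cdb0a5302) (nat_lit 0x120020000200) (nat_lit 40))))
 (.n (.n (.p (nat_lit 0x1d261d221d1e1d1c1ef51ef106) (nat_lit 0xa000096902) (nat_lit 52))
 (.p (nat_lit 0x4992482d02) (nat_lit 0x300628) (nat_lit 5)))
 (.n (.p (nat_lit 0x79e079c079a079410df10dd06) (nat_lit 0x300000240e) (nat_lit 52))
 (.p (nat_lit 0x1daa603502) (nat_lit 0x4099a2335000300000600) (nat_lit 49))))))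

def c1024_610 : Tr :=
 .n (.n (.n (.n (.n (.n (.p (nat_lit 0x3c303c103bf03b004) (nat_lit 0x36300023) (nat_lit 20))
 (.p (nat_lit 0xbb461b302) (nat_lit 0x522266c0d000200040000) (nat_lit 50)))
 (.p (nat_lit 0x410a41084106410441000251410307) (nat_lit 0x140412) (nat_lit 7)))
 (.n (.p (nat_lit 0x232c3b2b02) (nat_lit 0x340a03) (nat_lit 29))
 (.p (nat_lit 0x12da12d612d412d212d0336706) (nat_lit 0x8000084a2c) (nat_lit 51))))
 (.n (.n (.p (nat_lit 0x20d220ce20cc20c81e951e8f06) (nat_lit 0x9000006a00) (nat_lit 51))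
 (.p (nat_lit 0x3b98384d02) (nat_lit 0x500b1f) (nat_lit 5)))
 (.n (.p (nat_lit 0xe760e740e700e6e0e6c0e0706) (nat_lit 0x4000086307) (nat_lit 52))
 (.p (nat_lit 0x5cb51ae102) (nat_lit 0x80000000800) (nat_lit 40)))))
 (.n (.n (.n (.p (nat_lit 0x10c810c610c410c20028000b000910cd10cb09) (nat_lit 0x2c00500) (nat_lit 10))
 (.p (nat_lit 0x42063e3102) (nat_lit 0x240519) (nat_lit 5)))
 (.n (.p (nat_lit 0x474c474a474847464744474206) (nat_lit 0xce305) (nat_lit 52))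
 (.p (nat_lit 0x5cad04c302) (nat_lit 0x100000000000) (nat_lit 38))))
 (.n (.n (.p (nat_lit 0x76d076102) (nat_lit 0x452002) (nat_lit 16))
 (.p (nat_lit 0x8c35c702) (nat_lit 0x300126) (nat_lit 1)))
 (.n (.p (nat_lit 0x46e843c302) (nat_lit 0x10030c) (nat_lit 4))
 (.p (nat_lit 0x1da25fbf02) (nat_lit 0x89832955800300000600) (nat_lit 49))))))
 (.n (.n (.n (.n (.p (nat_lit 0xbc80bc20bc00bbe09d509d306) (nat_lit 0xc000040200) (nat_lit 52))
 (.p (nat_lit 0x73114dd02) (nat_lit 0x440515) (nat_lit 15)))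
 (.n (.p (nat_lit 0x4d804d604d404d204ce168306) (nat_lit 0x1000000604) (nat_lit 51))
 (.p (nat_lit 0xec00e800e600e4000902f306) (nat_lit 0x200e205) (nat_lit 26))))
 (.n (.n (.p (nat_lit 0x28be28bc28ba28b828b40e2706) (nat_lit 0x1000092301) (nat_lit 52))
 (.p (nat_lit 0x63e063c063a0638063609e506) (nat_lit 0x8000c0123) (nat_lit 52)))
 (.n (.p (nat_lit 0x2a04268102) (nat_lit 0x440408) (nat_lit 4))
 (.p (nat_lit 0x5d7d234702) (nat_lit 0x80000b00) (nat_lit 40)))))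
 (.n (.n (.n (.p (nat_lit 0x1a2a1a261a241a22179b179306) (nat_lit 0x88000d2700) (nat_lit 51))
 (.p (nat_lit 0x3aa14eb02) (nat_lit 0x54051c) (nat_lit 1)))
 (.n (.p (nat_lit 0xfc8239d02) (nat_lit 0x40306) (nat_lit 5))
 (.p (nat_lit 0x5d475e1702) (nat_lit 0x60060000400) (nat_lit 36))))
 (.n (.n (.p (nat_lit 0x33f9245d02) (nat_lit 0x8b02) (nat_lit 16))
 (.p (nat_lit 0x1ade1ada1ad81ad61ad40b5b06) (nat_lit 0x800001022a) (nat_lit 52)))
 (.n (.p (nat_lit 0x1d451a7902) (nat_lit 0x24070e) (nat_lit 15))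
 (.p (nat_lit 0x1c4a60af02) (nat_lit 0x344589ca4000200040600) (nat_lit 50))))))

def c512_98 : Tr := .n c1024_98 c1024_610

def c1024_354 : Tr :=
 .n (.n (.n (.n (.n (.n (.p (nat_lit 0x169015d0155015004) (nat_lit 0x70800007) (nat_lit 20))
 (.p (nat_lit 0x13ec617302) (nat_lit 0x421aa6315000500040000) (nat_lit 49)))
 (.p (nat_lit 0x38e838e638e438e238e0023938df07) (nat_lit 0x411) (nat_lit 7)))
 (.n (.p (nat_lit 0x1a2a1a281a261a201679167706) (nat_lit 0x3000092603) (nat_lit 51))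
 (.p (nat_lit 0x28862884288228800470046d04632889287f09) (nat_lit 0x284022b) (nat_lit 10))))
 (.n (.n (.p (nat_lit 0x1d2a1f0702) (nat_lit 0x140900) (nat_lit 4))
 (.p (nat_lit 0x334e2ff102) (nat_lit 0x400a1e) (nat_lit 4)))
 (.n (.p (nat_lit 0x5129206302) (nat_lit 0x240906) (nat_lit 16))
 (.p (nat_lit 0x5e56197302) (nat_lit 0x20040700) (nat_lit 45)))))
 (.n (.n (.n (.p (nat_lit 0x10f10dff02) (nat_lit 0x504400) (nat_lit 16))
 (.p (nat_lit 0x353e36e702) (nat_lit 0x140018) (nat_lit 4)))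
 (.n (.p (nat_lit 0x44af078302) (nat_lit 0x348005) (nat_lit 16))
 (.p (nat_lit 0x39c039a03980392030b033906) (nat_lit 0x1110722) (nat_lit 26))))
 (.n (.n (.p (nat_lit 0x3800510041160f178105) (nat_lit 0xa8300a01) (nat_lit 9))
 (.p (nat_lit 0x273e273a27382736273403d9273d07) (nat_lit 0x400124) (nat_lit 7)))
 (.n (.p (nat_lit 0x3e683c7702) (nat_lit 0x20b) (nat_lit 5))
 (.p (nat_lit 0x20725f7302) (nat_lit 0x1aa074b50000400000600) (nat_lit 49))))))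
 (.n (.n (.n (.n (.p (nat_lit 0xa0b071f02) (nat_lit 0x14e100) (nat_lit 16))
 (.p (nat_lit 0xd3c0d3a0d380d36124b124906) (nat_lit 0x18000042415) (nat_lit 51)))
 (.n (.p (nat_lit 0x400a4008400640020fbb0fb306) (nat_lit 0x11000056304) (nat_lit 51))
 (.p (nat_lit 0x58e058dc58da58d858d60149006407) (nat_lit 0x414002) (nat_lit 25))))
 (.n (.n (.p (nat_lit 0x172075102) (nat_lit 0x240001) (nat_lit 1))
 (.p (nat_lit 0x12fe12f812f612f405e905e706) (nat_lit 0xc00000c023) (nat_lit 52)))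
 (.n (.p (nat_lit 0x216a059702) (nat_lit 0x500a07) (nat_lit 5))
 (.p (nat_lit 0x5d295ea302) (nat_lit 0x240060000a00) (nat_lit 37)))))
 (.n (.n (.n (.p (nat_lit 0x18641860185e185c162b162706) (nat_lit 0x14000084700) (nat_lit 52))
 (.p (nat_lit 0xa660a620a600a5e0a5c088506) (nat_lit 0x800000011c) (nat_lit 51)))
 (.n (.p (nat_lit 0x1e8a1e861e841e801d911d8b06) (nat_lit 0x90000d6805) (nat_lit 52))
 (.p (nat_lit 0x5d190d0b02) (nat_lit 0x40040000300) (nat_lit 38))))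
 (.n (.n (.p (nat_lit 0x337433723370336e336c336a006407) (nat_lit 0x40a02) (nat_lit 8))
 (.p (nat_lit 0x89e089c089a089608940439089907) (nat_lit 0x20012a) (nat_lit 7)))
 (.n (.p (nat_lit 0x138407e302) (nat_lit 0x30050e) (nat_lit 5))
 (.p (nat_lit 0x129a607302) (nat_lit 0x570aa2344000500000000) (nat_lit 49))))))

def c1024_866 : Tr :=
 .n (.n (.n (.n (.n (.n (.p (nat_lit 0x60904df02) (nat_lit 0x210000) (nat_lit 16))
 (.p (nat_lit 0x8e861f102) (nat_lit 0x382a31d05000100040000) (nat_lit 49)))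
 (.p (nat_lit 0x49d8456d02) (nat_lit 0x200713) (nat_lit 5)))
 (.n (.p (nat_lit 0xbbc0bb80bb60bb40bb225c706) (nat_lit 0x80000c4b03) (nat_lit 51))
 (.p (nat_lit 0x3e8641bb02) (nat_lit 0x40022e) (nat_lit 5))))
 (.n (.n (.p (nat_lit 0x22922290228e228c228a1ffd06) (nat_lit 0x1000004ea00) (nat_lit 51))
 (.p (nat_lit 0x42de42dc42d842d642d4036942db07) (nat_lit 0x300720) (nat_lit 7)))
 (.n (.p (nat_lit 0x10d6051f02) (nat_lit 0x400407) (nat_lit 5))
 (.p (nat_lit 0x5d551c4302) (nat_lit 0x280080000800) (nat_lit 39)))))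
 (.n (.n (.n (.p (nat_lit 0x147414721470146e1227121d06) (nat_lit 0x10800050500) (nat_lit 52))
 (.p (nat_lit 0x498245d902) (nat_lit 0x10061a) (nat_lit 5)))
 (.n (.p (nat_lit 0x4973169502) (nat_lit 0x400605) (nat_lit 16))
 (.p (nat_lit 0x5cd7079702) (nat_lit 0x160020000100) (nat_lit 38))))
 (.n (.n (.p (nat_lit 0x3042303c303a30380fa10f9f06) (nat_lit 0xc0000c0302) (nat_lit 52))
 (.p (nat_lit 0x3dfa403b02) (nat_lit 0x440127) (nat_lit 5)))
 (.n (.p (nat_lit 0x1db52b302) (nat_lit 0x14070d) (nat_lit 30))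
 (.p (nat_lit 0x23325ff502) (nat_lit 0x306a81c35000500000600) (nat_lit 49))))))
 (.n (.n (.n (.n (.p (nat_lit 0xd640d620d600d5e0b310b2f06) (nat_lit 0x180008a300) (nat_lit 52))
 (.p (nat_lit 0x201b1d5102) (nat_lit 0x240815) (nat_lit 15)))
 (.n (.p (nat_lit 0x427f17fd02) (nat_lit 0x544604) (nat_lit 16))
 (.p (nat_lit 0x18c0188018601840485005f06) (nat_lit 0x2b08309) (nat_lit 26))))
 (.n (.n (.p (nat_lit 0x2f2af502) (nat_lit 0x200801) (nat_lit 30))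
 (.p (nat_lit 0xcb50ca902) (nat_lit 0x140223) (nat_lit 16)))
 (.n (.p (nat_lit 0x18ea18e818e618e418e2308b06) (nat_lit 0x800056309) (nat_lit 51))
 (.p (nat_lit 0x180e5eeb02) (nat_lit 0x4a8876344000100000600) (nat_lit 49)))))
 (.n (.n (.n (.p (nat_lit 0x1bbe1bbc1bba1bb8190318f906) (nat_lit 0x10800096800) (nat_lit 51))
 (.p (nat_lit 0x50671bfd02) (nat_lit 0x51681c) (nat_lit 16)))
 (.n (.p (nat_lit 0x1ac823d902) (nat_lit 0x40706) (nat_lit 4))
 (.p (nat_lit 0x5d375e2d02) (nat_lit 0x160060000500) (nat_lit 36))))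
 (.n (.n (.p (nat_lit 0xa181b1502) (nat_lit 0x240103) (nat_lit 5))
 (.p (nat_lit 0xf8612ef02) (nat_lit 0x34032a) (nat_lit 5)))
 (.n (.p (nat_lit 0x242009b502) (nat_lit 0xb0e) (nat_lit 4))
 (.p (nat_lit 0x153460f702) (nat_lit 0x440d663a4000000000600) (nat_lit 49))))))

def c512_354 : Tr := .n c1024_354 c1024_866

def c256_98 : Tr := .n c512_98 c512_354

def c1024_226 : Tr :=
 .n (.n (.n (.n (.n (.n (.p (nat_lit 0xdd00d900cb00c404) (nat_lit 0x8d000004) (nat_lit 20))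
 (.p (nat_lit 0x8f0615702) (nat_lit 0x1503a8895800100040000) (nat_lit 49)))
 (.p (nat_lit 0x225539702) (nat_lit 0x100910) (nat_lit 30)))
 (.n (.p (nat_lit 0x13c21b6b02) (nat_lit 0x400503) (nat_lit 4))
 (.p (nat_lit 0x336721a502) (nat_lit 0x40ea2a) (nat_lit 16))))
 (.n (.n (.p (nat_lit 0x1e4c1e4a1e481e461e441bcd06) (nat_lit 0x1000000c900) (nat_lit 52))
 (.p (nat_lit 0x2bbf2bb302) (nat_lit 0x30a91d) (nat_lit 16)))
 (.n (.p (nat_lit 0x50de50dc50da50d850d650d401201f031eff1ef90a) (nat_lit 0x15800906) (nat_lit 31))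
 (.p (nat_lit 0x5d975e4f02) (nat_lit 0x1600a0000600) (nat_lit 36)))))
 (.n (.n (.n (.p (nat_lit 0x10000ffe0ffc0ffa0ff80dff06) (nat_lit 0x10000080400) (nat_lit 52))
 (.p (nat_lit 0x327e2f6502) (nat_lit 0x340517) (nat_lit 4)))
 (.n (.p (nat_lit 0x2138213621342132213025d506) (nat_lit 0x100000ceb04) (nat_lit 51))
 (.p (nat_lit 0x310030e030a03060283000706) (nat_lit 0xb0201c) (nat_lit 26))))
 (.n (.n (.p (nat_lit 0x8f208f008ee08ec08e8204906) (nat_lit 0x10000c2901) (nat_lit 52))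
 (.p (nat_lit 0x41c244502) (nat_lit 0xb23) (nat_lit 1)))
 (.n (.p (nat_lit 0x3a9d3a9102) (nat_lit 0x30460a) (nat_lit 16))
 (.p (nat_lit 0x15485f5702) (nat_lit 0x1aa522350000000000600) (nat_lit 50))))))
 (.n (.n (.n (.n (.p (nat_lit 0x8fb08ef02) (nat_lit 0x340100) (nat_lit 34))
 (.p (nat_lit 0x10f010ec10ea10e810e6028910ef07) (nat_lit 0x400415) (nat_lit 7)))
 (.n (.p (nat_lit 0xcea3e9302) (nat_lit 0x440204) (nat_lit 29))
 (.p (nat_lit 0x50ca4f9702) (nat_lit 0x140830) (nat_lit 4))))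
 (.n (.n (.p (nat_lit 0x255c25582556255222c322bd06) (nat_lit 0x9000052b00) (nat_lit 52))
 (.p (nat_lit 0xd340d300d2e0d2c0d2a506506) (nat_lit 0x8000080822) (nat_lit 51)))
 (.n (.p (nat_lit 0x1c151bd902) (nat_lit 0x508807) (nat_lit 16))
 (.p (nat_lit 0x5c9521d902) (nat_lit 0x280000000a00) (nat_lit 41)))))
 (.n (.n (.n (.p (nat_lit 0x177417721770176e16bb16b906) (nat_lit 0x180000d2600) (nat_lit 52))
 (.p (nat_lit 0x13f413f013ee13ec13ea073d06) (nat_lit 0x80000ca01c) (nat_lit 52)))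
 (.n (.p (nat_lit 0x1dfa1df81df61df41c2d1c2b06) (nat_lit 0x18000084805) (nat_lit 51))
 (.p (nat_lit 0x5d5d5def02) (nat_lit 0x200080000200) (nat_lit 36))))
 (.n (.n (.p (nat_lit 0x21b8331b02) (nat_lit 0x200a02) (nat_lit 29))
 (.p (nat_lit 0x4d44578502) (nat_lit 0x40229) (nat_lit 29)))
 (.n (.p (nat_lit 0x4d804d604d404d004ce123906) (nat_lit 0x200004040e) (nat_lit 51))
 (.p (nat_lit 0x4d0605502) (nat_lit 0x5858b0b44000000000000) (nat_lit 50))))))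

def c1024_738 : Tr :=
 .n (.n (.n (.n (.n (.n (.p (nat_lit 0x4fc04fa04f804f604f404db06) (nat_lit 0x800084000) (nat_lit 52))
 (.p (nat_lit 0x207661d102) (nat_lit 0x54216ac0c800400000600) (nat_lit 50)))
 (.p (nat_lit 0x42be3d5102) (nat_lit 0x100712) (nat_lit 4)))
 (.n (.p (nat_lit 0x140013fc13fa13f813f6247106) (nat_lit 0x800008ab03) (nat_lit 51))
 (.p (nat_lit 0x1cf61cf41cf01cee1cec376106) (nat_lit 0x40000cc22d) (nat_lit 52))))
 (.n (.n (.p (nat_lit 0x21a91e8d02) (nat_lit 0xca00) (nat_lit 16))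
 (.p (nat_lit 0x55f655f455f255f055ee55ec036e07) (nat_lit 0x40120) (nat_lit 8)))
 (.n (.p (nat_lit 0xd100d0e0d0c0d060f6d0f6b06) (nat_lit 0x3000046307) (nat_lit 52))
 (.p (nat_lit 0x5cff5e6f02) (nat_lit 0x1e0040000800) (nat_lit 36)))))
 (.n (.n (.n (.p (nat_lit 0x13af10c302) (nat_lit 0xe500) (nat_lit 16))
 (.p (nat_lit 0x43143e5d02) (nat_lit 0x340719) (nat_lit 5)))
 (.n (.p (nat_lit 0x151c210102) (nat_lit 0x40505) (nat_lit 4))
 (.p (nat_lit 0x5d375dbd02) (nat_lit 0x160060000000) (nat_lit 36))))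
 (.n (.n (.p (nat_lit 0x5d2f4b02) (nat_lit 0x240202) (nat_lit 30))
 (.p (nat_lit 0x3b4c38b502) (nat_lit 0x340a26) (nat_lit 4)))
 (.n (.p (nat_lit 0x4a1c447f02) (nat_lit 0x24070c) (nat_lit 5))
 (.p (nat_lit 0x7985fd502) (nat_lit 0x382c60b44000100000000) (nat_lit 49))))))
 (.n (.n (.n (.n (.p (nat_lit 0xcd909cf02) (nat_lit 0x150200) (nat_lit 16))
 (.p (nat_lit 0x2efa2ef82ef62ef42ef0191f06) (nat_lit 0x100008a715) (nat_lit 51)))
 (.n (.p (nat_lit 0x17f61fbb02) (nat_lit 0x240604) (nat_lit 4))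
 (.p (nat_lit 0x11c0118011601140001042506) (nat_lit 0x410406) (nat_lit 26))))
 (.n (.n (.p (nat_lit 0x125d125102) (nat_lit 0x250401) (nat_lit 16))
 (.p (nat_lit 0x3a956b502) (nat_lit 0x400223) (nat_lit 30)))
 (.n (.p (nat_lit 0x2c6426bb02) (nat_lit 0x540a08) (nat_lit 4))
 (.p (nat_lit 0x20765ecf02) (nat_lit 0x4a1a34344000400000600) (nat_lit 50)))))
 (.n (.n (.n (.p (nat_lit 0x1ae51ad902) (nat_lit 0x200800) (nat_lit 34))
 (.p (nat_lit 0x192c0ee902) (nat_lit 0x20071c) (nat_lit 4)))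
 (.n (.p (nat_lit 0x4f084f064f044f004efe128d06) (nat_lit 0x20000d0406) (nat_lit 52))
 (.p (nat_lit 0x5e1e3bf902) (nat_lit 0xa0050400) (nat_lit 48))))
 (.n (.n (.p (nat_lit 0x615060902) (nat_lit 0x214003) (nat_lit 16))
 (.p (nat_lit 0x1f1a1f181f161f141f100cb506) (nat_lit 0x10000d222a) (nat_lit 51)))
 (.n (.p (nat_lit 0x1ea8533902) (nat_lit 0x20090e) (nat_lit 29))
 (.p (nat_lit 0xbae60d702) (nat_lit 0x354a623b0000200040000) (nat_lit 49))))))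

def c512_226 : Tr := .n c1024_226 c1024_738

def c1024_482 : Tr :=
 .n (.n (.n (.n (.n (.n (.p (nat_lit 0x2d402d002db03) (nat_lit 0x9000500018) (nat_lit 17))
 (.p (nat_lit 0x12a7129d0fe10fd70d170d110a530a4b07a9079504d904c561940d) (nat_lit 0x380aa5c14800000000000) (nat_lit 33)))
 (.p (nat_lit 0x2e0e2e0c2e082e062e043a9d06) (nat_lit 0x4000094611) (nat_lit 51)))
 (.n (.p (nat_lit 0x1a581a561a541a521a5017f106) (nat_lit 0x100000d6603) (nat_lit 52))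
 (.p (nat_lit 0x2f42319b02) (nat_lit 0x40022c) (nat_lit 4))))
 (.n (.n (.p (nat_lit 0x1fe41fe21fe01fde1fdc1d2906) (nat_lit 0x800056900) (nat_lit 51))
 (.p (nat_lit 0x55c655c455c255c055be55bc035a07) (nat_lit 0x11f) (nat_lit 8)))
 (.n (.p (nat_lit 0xc9e514102) (nat_lit 0x240207) (nat_lit 29))
 (.p (nat_lit 0x5d71181f02) (nat_lit 0xc0080000700) (nat_lit 40)))))
 (.n (.n (.n (.p (nat_lit 0x11961194119211900f670f5d06) (nat_lit 0x108000c4400) (nat_lit 52))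
 (.p (nat_lit 0x3ee03ede3eda3ed83ed63b0106) (nat_lit 0x400000ca18) (nat_lit 52)))
 (.n (.p (nat_lit 0xcf220c102) (nat_lit 0x240205) (nat_lit 5))
 (.p (nat_lit 0x43e043c043604340469000506) (nat_lit 0x1a0c22a) (nat_lit 26))))
 (.n (.n (.p (nat_lit 0x2c77231902) (nat_lit 0x546a01) (nat_lit 16))
 (.p (nat_lit 0x2db0311b02) (nat_lit 0x540025) (nat_lit 5)))
 (.n (.p (nat_lit 0x52c052a052605240522421b06) (nat_lit 0x400008860b) (nat_lit 51))
 (.p (nat_lit 0x23485f9102) (nat_lit 0x581a303a5000500000600) (nat_lit 50))))))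
 (.n (.n (.n (.n (.p (nat_lit 0xaa20aa00a9e0a9a0875087106) (nat_lit 0x280008a200) (nat_lit 51))
 (.p (nat_lit 0x207e207c207a20782076139506) (nat_lit 0x10000014515) (nat_lit 51)))
 (.n (.p (nat_lit 0x13c81f9702) (nat_lit 0x100504) (nat_lit 5))
 (.p (nat_lit 0x87593302) (nat_lit 0x403) (nat_lit 28))))
 (.n (.n (.p (nat_lit 0xa3d0a0102) (nat_lit 0x254101) (nat_lit 16))
 (.p (nat_lit 0x8f208ee08ec08ea08e8089106) (nat_lit 0x8000082123) (nat_lit 52)))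
 (.n (.p (nat_lit 0x257051df02) (nat_lit 0x340b07) (nat_lit 29))
 (.p (nat_lit 0x5ce9233502) (nat_lit 0x40020000b00) (nat_lit 38)))))
 (.n (.n (.n (.p (nat_lit 0x1943162302) (nat_lit 0x10a700) (nat_lit 16))
 (.p (nat_lit 0xc8c0c8a0c880c860c8209db06) (nat_lit 0x10000d611c) (nat_lit 52)))
 (.n (.p (nat_lit 0x4c2a4c284c264c244c224c20011e07) (nat_lit 0x40106) (nat_lit 8))
 (.p (nat_lit 0x5da10e8302) (nat_lit 0xc00a0000300) (nat_lit 41))))
 (.n (.n (.p (nat_lit 0x2346234423422340233e232506) (nat_lit 0x10000056a02) (nat_lit 51))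
 (.p (nat_lit 0x67a067806760674067209f106) (nat_lit 0x80004612a) (nat_lit 51)))
 (.n (.p (nat_lit 0x2adb14cb02) (nat_lit 0x14c50e) (nat_lit 16))
 (.p (nat_lit 0x1542609302) (nat_lit 0x356221ca4000000000600) (nat_lit 50))))))

def c1024_994 : Tr :=
 .n (.n (.n (.n (.n (.p (nat_lit 0x702070006fe06f80651064f06) (nat_lit 0x30000d4000) (nat_lit 52))
 (.p (nat_lit 0x4faa4bd502) (nat_lit 0x540514) (nat_lit 5)))
 (.n (.p (nat_lit 0x3c3e3c3c3c3a3c383c363c3406) (nat_lit 0x8c004) (nat_lit 52))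
 (.p (nat_lit 0x4352417502) (nat_lit 0x200b2e) (nat_lit 4))))
 (.n (.n (.p (nat_lit 0x236a236823642362215f215906) (nat_lit 0x12000002b00) (nat_lit 52))
 (.p (nat_lit 0x457c46bd02) (nat_lit 0x40121) (nat_lit 5)))
 (.n (.p (nat_lit 0x12c012be12bc12ba1233122906) (nat_lit 0x108000c2407) (nat_lit 52))
 (.p (nat_lit 0x5cdf1f1302) (nat_lit 0xe0020000900) (nat_lit 41)))))
 (.n (.n (.n (.p (nat_lit 0x15be15bc15ba15b615b4155106) (nat_lit 0x2000088600) (nat_lit 51))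
 (.p (nat_lit 0x256825662564256225604fad06) (nat_lit 0x8000d251b) (nat_lit 52)))
 (.n (.p (nat_lit 0x13fe13fc13fa13f813f6196306) (nat_lit 0x1000008a705) (nat_lit 51))
 (.p (nat_lit 0x5d675dd702) (nat_lit 0x160080000100) (nat_lit 36))))
 (.n (.n (.p (nat_lit 0x5ff13b502) (nat_lit 0x300502) (nat_lit 15))
 (.p (nat_lit 0x439a40f302) (nat_lit 0x440b27) (nat_lit 5)))
 (.n (.p (nat_lit 0x52d252d052ce52cc52ca52c801f40e150e0f0e0d0a) (nat_lit 0x1080030e) (nat_lit 31))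
 (.p (nat_lit 0x181c601702) (nat_lit 0x405aa2335000100000600) (nat_lit 50))))))
 (.n (.n (.n (.n (.p (nat_lit 0xe7f0e7302) (nat_lit 0x340300) (nat_lit 34))
 (.p (nat_lit 0x218d218102) (nat_lit 0x408a15) (nat_lit 16)))
 (.n (.p (nat_lit 0x42f3195302) (nat_lit 0x30a704) (nat_lit 16))
 (.p (nat_lit 0x1f001ec01ea01e80271000106) (nat_lit 0x201640e) (nat_lit 26))))
 (.n (.n (.p (nat_lit 0x1d86176102) (nat_lit 0x540801) (nat_lit 5))
 (.p (nat_lit 0x1aa256e702) (nat_lit 0x540723) (nat_lit 29)))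
 (.n (.p (nat_lit 0x4fc04fa04f804f404f2337b06) (nat_lit 0x20000c4a09) (nat_lit 52))
 (.p (nat_lit 0x23445f1302) (nat_lit 0x3aa570344000500000600) (nat_lit 50)))))
 (.n (.n (.n (.p (nat_lit 0x1c981c961c941c901c8e1a6106) (nat_lit 0x20000c4800) (nat_lit 52))
 (.p (nat_lit 0x2031202502) (nat_lit 0x14a91c) (nat_lit 16)))
 (.n (.p (nat_lit 0xe760e740e700e6e0e6c1c3506) (nat_lit 0x4000086806) (nat_lit 52))
 (.p (nat_lit 0x5cab169902) (nat_lit 0x120000000600) (nat_lit 39))))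
 (.n (.n (.p (nat_lit 0xfad0cdf02) (nat_lit 0x440203) (nat_lit 15))
 (.p (nat_lit 0x1940130d02) (nat_lit 0x72a) (nat_lit 4)))
 (.n (.p (nat_lit 0x2adb2a0b02) (nat_lit 0x14040f) (nat_lit 15))
 (.p (nat_lit 0x1db6611902) (nat_lit 0x342521ca4000300000600) (nat_lit 50))))))

def c512_482 : Tr := .n c1024_482 c1024_994

def c256_226 : Tr := .n c512_226 c512_482

def c128_98 : Tr := .n c256_98 c256_226

def c64_34 : Tr := .n c128_34 c128_98

def c32_2 : Tr := .n c64_2 c64_34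

def c1024_18 : Tr :=
 .n (.n (.n (.n (.n (.n (.p (nat_lit 0x290023001d001504) (nat_lit 0x4a8800000) (nat_lit 21))
 (.p (nat_lit 0x8fa612902) (nat_lit 0x35486a3a4000100040000) (nat_lit 50)))
 (.p (nat_lit 0x2b0a538b02) (nat_lit 0x10080f) (nat_lit 29)))
 (.n (.p (nat_lit 0x11130e4502) (nat_lit 0x400303) (nat_lit 15))
 (.p (nat_lit 0x4a0d194b02) (nat_lit 0x51472a) (nat_lit 16))))
 (.n (.n (.p (nat_lit 0x1ce81ce61ce41ce01a671a5f06) (nat_lit 0x1100004c800) (nat_lit 52))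
 (.p (nat_lit 0x243b218702) (nat_lit 0x100a1c) (nat_lit 15)))
 (.n (.p (nat_lit 0x249624942490248e248c1c3506) (nat_lit 0x4000096806) (nat_lit 51))
 (.p (nat_lit 0x5ce7154302) (nat_lit 0x60020000600) (nat_lit 40)))))
 (.n (.n (.n (.p (nat_lit 0xea40ea00e9e0e9c0c990c9506) (nat_lit 0x14000042300) (nat_lit 52))
 (.p (nat_lit 0x22f522e902) (nat_lit 0x548a15) (nat_lit 16)))
 (.n (.p (nat_lit 0x1ca21ca01c9e1c9c1c9a1ab906) (nat_lit 0x8000046704) (nat_lit 51))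
 (.p (nat_lit 0x5aa65aa45aa05a9e5a9c008d01f207) (nat_lit 0x30880e) (nat_lit 25))))
 (.n (.n (.p (nat_lit 0x1a5a1a561a541a521a501d8506) (nat_lit 0x80000d6801) (nat_lit 52))
 (.p (nat_lit 0x389638943890388e1c091c0306) (nat_lit 0x12000082823) (nat_lit 51)))
 (.n (.p (nat_lit 0x26a226a0269c269a2698342106) (nat_lit 0x4000052b09) (nat_lit 52))
 (.p (nat_lit 0x23445f1b02) (nat_lit 0x3a2274b50000500000600) (nat_lit 50))))))
 (.n (.n (.n (.n (.p (nat_lit 0x767064f02) (nat_lit 0x150000) (nat_lit 16))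
 (.p (nat_lit 0x7b607b407b207b007ae504506) (nat_lit 0x800006814) (nat_lit 52)))
 (.n (.p (nat_lit 0x3c983c963c923c903c8e077706) (nat_lit 0x4000046004) (nat_lit 51))
 (.p (nat_lit 0x4602487702) (nat_lit 0x22f) (nat_lit 4))))
 (.n (.n (.p (nat_lit 0x23ee23ea23e823e623e4215d06) (nat_lit 0x8000010b00) (nat_lit 52))
 (.p (nat_lit 0x49f646d902) (nat_lit 0x500721) (nat_lit 5)))
 (.n (.p (nat_lit 0x2602260025fc25fa25f8163306) (nat_lit 0x4000006607) (nat_lit 52))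
 (.p (nat_lit 0x5d1d1f0902) (nat_lit 0x40000900) (nat_lit 39)))))
 (.n (.n (.n (.p (nat_lit 0x16061602160015fe15fc155506) (nat_lit 0x8000092600) (nat_lit 51))
 (.p (nat_lit 0x50fe4d4102) (nat_lit 0x30091b) (nat_lit 5)))
 (.n (.p (nat_lit 0x49e1195902) (nat_lit 0x4705) (nat_lit 16))
 (.p (nat_lit 0x5d815dd902) (nat_lit 0x2c00a0000100) (nat_lit 37))))
 (.n (.n (.p (nat_lit 0x327114fd02) (nat_lit 0x242502) (nat_lit 16))
 (.p (nat_lit 0x451c478d02) (nat_lit 0x300128) (nat_lit 4)))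
 (.n (.p (nat_lit 0xf7852d902) (nat_lit 0x24030e) (nat_lit 29))
 (.p (nat_lit 0x8ea602102) (nat_lit 0x406a6252d000100040000) (nat_lit 49))))))

def c1024_530 : Tr :=
 .n (.n (.n (.n (.n (.n (.p (nat_lit 0x32703250323031604) (nat_lit 0x31a0001c) (nat_lit 20))
 (.p (nat_lit 0x153861a102) (nat_lit 0x3222a5c15000000000600) (nat_lit 49)))
 (.p (nat_lit 0x3a9b3b7b02) (nat_lit 0x200b11) (nat_lit 15)))
 (.n (.p (nat_lit 0x1f3e1f3a1f381f3621c921c106) (nat_lit 0x8800002a03) (nat_lit 52))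
 (.p (nat_lit 0x301c322b02) (nat_lit 0x40032c) (nat_lit 4))))
 (.n (.n (.p (nat_lit 0x202d1d3302) (nat_lit 0x546900) (nat_lit 16))
 (.p (nat_lit 0x39f8381f02) (nat_lit 0x10051f) (nat_lit 5)))
 (.n (.p (nat_lit 0x98e098a0988098609840ca306) (nat_lit 0x8000052207) (nat_lit 51))
 (.p (nat_lit 0x5e5e198502) (nat_lit 0x80040700) (nat_lit 46)))))
 (.n (.n (.n (.p (nat_lit 0x12430f5f02) (nat_lit 0x144400) (nat_lit 16))
 (.p (nat_lit 0xa960a920a900a8e0a8c3bdf06) (nat_lit 0x800004ab18) (nat_lit 52)))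
 (.n (.p (nat_lit 0x3860e5702) (nat_lit 0x100305) (nat_lit 1))
 (.p (nat_lit 0x4a45c5b02) (nat_lit 0x10092a) (nat_lit 27))))
 (.n (.n (.p (nat_lit 0x60505f902) (nat_lit 0x12002) (nat_lit 16))
 (.p (nat_lit 0x2fa2313d02) (nat_lit 0x540225) (nat_lit 4)))
 (.n (.p (nat_lit 0x42b63c4702) (nat_lit 0x30070b) (nat_lit 4))
 (.p (nat_lit 0x233a5f9b02) (nat_lit 0x88bb0155800500000600) (nat_lit 49))))))
 (.n (.n (.n (.n (.p (nat_lit 0xb45087b02) (nat_lit 0x500200) (nat_lit 16))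
 (.p (nat_lit 0x14de0aa302) (nat_lit 0x540515) (nat_lit 5)))
 (.n (.p (nat_lit 0x61b13d102) (nat_lit 0x500504) (nat_lit 15))
 (.p (nat_lit 0xbe00bc00ba00b80003024f06) (nat_lit 0x80c104) (nat_lit 26))))
 (.n (.n (.p (nat_lit 0xb750b6902) (nat_lit 0x510201) (nat_lit 16))
 (.p (nat_lit 0x1ade1adc1ad81ad61ad4088f06) (nat_lit 0x4000010123) (nat_lit 52)))
 (.n (.p (nat_lit 0x26ea26e826e626e226e0281106) (nat_lit 0x2000008208) (nat_lit 52))
 (.p (nat_lit 0x5d0d233702) (nat_lit 0x100040000b00) (nat_lit 38)))))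
 (.n (.n (.n (.p (nat_lit 0x60179b02) (nat_lit 0x440700) (nat_lit 1))
 (.p (nat_lit 0x13a0139e139a1398031c030d0307139d139709) (nat_lit 0x180051c) (nat_lit 10)))
 (.n (.p (nat_lit 0x4c8b0a3d02) (nat_lit 0x248106) (nat_lit 16))
 (.p (nat_lit 0x5e0a0e1902) (nat_lit 0x400) (nat_lit 48))))
 (.n (.n (.p (nat_lit 0x24621a4b02) (nat_lit 0x300b02) (nat_lit 4))
 (.p (nat_lit 0xb52141b02) (nat_lit 0x22a) (nat_lit 5)))
 (.n (.p (nat_lit 0x279e279c279a27982796163d06) (nat_lit 0x200009260e) (nat_lit 51))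
 (.p (nat_lit 0x1534609d02) (nat_lit 0x346068ca4000000000600) (nat_lit 49))))))

def c512_18 : Tr := .n c1024_18 c1024_530

def c1024_274 : Tr :=
 .n (.n (.n (.n (.n (.n (.p (nat_lit 0x111010300f003) (nat_lit 0x82900005) (nat_lit 19))
 (.p (nat_lit 0x16a6616102) (nat_lit 0x3503a8d84000000040600) (nat_lit 50)))
 (.p (nat_lit 0x33842e9902) (nat_lit 0x140a10) (nat_lit 4)))
 (.n (.p (nat_lit 0x150e1b7902) (nat_lit 0x540503) (nat_lit 4))
 (.p (nat_lit 0x166b245302) (nat_lit 0x100b2a) (nat_lit 15))))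
 (.n (.n (.p (nat_lit 0x1e7e1e7a1e761e741bcb1bc706) (nat_lit 0xa000016900) (nat_lit 52))
 (.p (nat_lit 0x2e272cfd02) (nat_lit 0x1e) (nat_lit 15)))
 (.n (.p (nat_lit 0xe2205f02) (nat_lit 0x40906) (nat_lit 1))
 (.p (nat_lit 0x5c9d5e5302) (nat_lit 0x200000000700) (nat_lit 36)))))
 (.n (.n (.n (.p (nat_lit 0x1032102e102c10280dfd0df706) (nat_lit 0x9000084400) (nat_lit 51))
 (.p (nat_lit 0x333e2f7902) (nat_lit 0x200a17) (nat_lit 5)))
 (.n (.p (nat_lit 0x62221eb02) (nat_lit 0x300005) (nat_lit 5))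
 (.p (nat_lit 0x30b5b9d02) (nat_lit 0x20081c) (nat_lit 28))))
 (.n (.n (.p (nat_lit 0x18121810180e180c180a205106) (nat_lit 0x1000004e901) (nat_lit 52))
 (.p (nat_lit 0x2453244702) (nat_lit 0x100b23) (nat_lit 16)))
 (.n (.p (nat_lit 0x3b6e352902) (nat_lit 0x200b0a) (nat_lit 4))
 (.p (nat_lit 0x8fa5f5f02) (nat_lit 0x4a1d22344000100040000) (nat_lit 50))))))
 (.n (.n (.n (.n (.p (nat_lit 0x92c092a092609240727072106) (nat_lit 0x120000c8100) (nat_lit 52))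
 (.p (nat_lit 0xed60ed40ed20ece0ecc10eb06) (nat_lit 0x200000c415) (nat_lit 52)))
 (.n (.p (nat_lit 0xcf30ce702) (nat_lit 0x256204) (nat_lit 16))
 (.p (nat_lit 0x33a58a302) (nat_lit 0x200301) (nat_lit 27))))
 (.n (.n (.p (nat_lit 0x259f22bf02) (nat_lit 0x248b00) (nat_lit 16))
 (.p (nat_lit 0x51044db702) (nat_lit 0x100922) (nat_lit 4)))
 (.n (.p (nat_lit 0x1e9a06d902) (nat_lit 0x100907) (nat_lit 4))
 (.p (nat_lit 0x5cd55e9b02) (nat_lit 0x180020000a00) (nat_lit 37)))))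
 (.n (.n (.n (.p (nat_lit 0x17c516b302) (nat_lit 0x146600) (nat_lit 16))
 (.p (nat_lit 0x21d621d221ce21cc073d073906) (nat_lit 0xa0000d401c) (nat_lit 52)))
 (.n (.p (nat_lit 0xe54a8502) (nat_lit 0x140805) (nat_lit 30))
 (.p (nat_lit 0x5d930a4f02) (nat_lit 0x1a00a0000200) (nat_lit 38))))
 (.n (.n (.p (nat_lit 0x1150114e114c114a114621b706) (nat_lit 0x1000088a02) (nat_lit 51))
 (.p (nat_lit 0x50704efb02) (nat_lit 0x400829) (nat_lit 4)))
 (.n (.p (nat_lit 0x19781976197419721970123f06) (nat_lit 0x100000ce40e) (nat_lit 52))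
 (.p (nat_lit 0x2348605f02) (nat_lit 0x506272831000500000600) (nat_lit 50))))))

def c1024_786 : Tr :=
 .n (.n (.n (.n (.n (.n (.p (nat_lit 0x51e051c0518051604e504df06) (nat_lit 0x12000008000) (nat_lit 51))
 (.p (nat_lit 0x207e61dd02) (nat_lit 0x3302a5895000400000600) (nat_lit 50)))
 (.p (nat_lit 0x45d445d245ce45cc45ca476106) (nat_lit 0x40000ca313) (nat_lit 51)))
 (.n (.p (nat_lit 0x248a2488248424822480246f06) (nat_lit 0x4000096b03) (nat_lit 52))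
 (.p (nat_lit 0x41c841c641c441c041be3b5706) (nat_lit 0x20000c4a2d) (nat_lit 52))))
 (.n (.n (.p (nat_lit 0xec1ffd02) (nat_lit 0x540a00) (nat_lit 1))
 (.p (nat_lit 0x42383fdf02) (nat_lit 0x620) (nat_lit 4)))
 (.n (.p (nat_lit 0x2080207c207a207820760f7106) (nat_lit 0x8000054307) (nat_lit 51))
 (.p (nat_lit 0x5d295e7302) (nat_lit 0x240060000800) (nat_lit 36)))))
 (.n (.n (.n (.p (nat_lit 0x43e122702) (nat_lit 0x540500) (nat_lit 1))
 (.p (nat_lit 0x4860485e485c485a485802f3485707) (nat_lit 0x4041a) (nat_lit 7)))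
 (.n (.p (nat_lit 0x1533152702) (nat_lit 0x54c505) (nat_lit 16))
 (.p (nat_lit 0x5d4f064902) (nat_lit 0x2e0080000000) (nat_lit 41))))
 (.n (.n (.p (nat_lit 0x66007f006b19d1186b05) (nat_lit 0x88100302) (nat_lit 9))
 (.p (nat_lit 0x3bee395b02) (nat_lit 0x40b26) (nat_lit 5)))
 (.n (.p (nat_lit 0x4dc44abd02) (nat_lit 0x20030d) (nat_lit 4))
 (.p (nat_lit 0xe765fe102) (nat_lit 0x3062a1c35000300040000) (nat_lit 49))))))
 (.n (.n (.n (.n (.p (nat_lit 0xb360d1b02) (nat_lit 0x400300) (nat_lit 5))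
 (.p (nat_lit 0x1a8a0c3302) (nat_lit 0x540715) (nat_lit 4)))
 (.n (.p (nat_lit 0xd1c0d180d160d140d1217fb06) (nat_lit 0x8000046604) (nat_lit 51))
 (.p (nat_lit 0x148014601420140000501f106) (nat_lit 0x1506207) (nat_lit 26))))
 (.n (.n (.p (nat_lit 0x13e113a502) (nat_lit 0x114501) (nat_lit 16))
 (.p (nat_lit 0x36c50b4902) (nat_lit 0x110223) (nat_lit 16)))
 (.n (.p (nat_lit 0x2e0e2e0c2e082e062e042f9306) (nat_lit 0x40000d4209) (nat_lit 51))
 (.p (nat_lit 0x11465ed702) (nat_lit 0x4a1a36344000400040000) (nat_lit 50)))))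
 (.n (.n (.n (.p (nat_lit 0x1b481b421b401b3e190118ff06) (nat_lit 0xc000086800) (nat_lit 52))
 (.p (nat_lit 0x1a900ef502) (nat_lit 0x24071c) (nat_lit 4)))
 (.n (.p (nat_lit 0x4f9c4f9a4f984f964f94153306) (nat_lit 0x100000d0506) (nat_lit 52))
 (.p (nat_lit 0x5cdf5e2702) (nat_lit 0xe0020000500) (nat_lit 36))))
 (.n (.n (.p (nat_lit 0x3545076d02) (nat_lit 0x444003) (nat_lit 16))
 (.p (nat_lit 0xe1c12e102) (nat_lit 0x20032a) (nat_lit 5)))
 (.n (.p (nat_lit 0x2012084102) (nat_lit 0x44090e) (nat_lit 4))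
 (.p (nat_lit 0x1ae060df02) (nat_lit 0x340d623a4000200000600) (nat_lit 50))))))

def c512_274 : Tr := .n c1024_274 c1024_786

def c256_18 : Tr := .n c512_18 c512_274

def c1024_146 : Tr :=
 .n (.n (.n (.n (.n (.n (.p (nat_lit 0x90008e008a009304) (nat_lit 0x1a000400003) (nat_lit 17))
 (.p (nat_lit 0x2336614102) (nat_lit 0x352a21d84000500000600) (nat_lit 49)))
 (.p (nat_lit 0x1a1e1a1c1a1a1a181a1430fd06) (nat_lit 0x1000012410) (nat_lit 51)))
 (.n (.p (nat_lit 0x390038fe38fc38fa38f838f6009207) (nat_lit 0x40403) (nat_lit 8))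
 (.p (nat_lit 0x435582102) (nat_lit 0x4092a) (nat_lit 30))))
 (.n (.n (.p (nat_lit 0x1bc61da502) (nat_lit 0x200900) (nat_lit 4))
 (.p (nat_lit 0x4da64da44da24da04d9c259106) (nat_lit 0x1000050b1c) (nat_lit 51)))
 (.n (.p (nat_lit 0x1f1a1f181f141f121f101d9b06) (nat_lit 0x40000d2806) (nat_lit 51))
 (.p (nat_lit 0x5d31169f02) (nat_lit 0x1c0060000600) (nat_lit 39)))))
 (.n (.n (.n (.p (nat_lit 0xfb10c8f02) (nat_lit 0x52300) (nat_lit 16))
 (.p (nat_lit 0x2ba4284b02) (nat_lit 0x200916) (nat_lit 5)))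
 (.n (.p (nat_lit 0x168b247f02) (nat_lit 0x500b04) (nat_lit 15))
 (.p (nat_lit 0x5b245b225b205b1e5b1c0059028c07) (nat_lit 0xa715) (nat_lit 25))))
 (.n (.n (.p (nat_lit 0x21d621d221ce21cc1ee91ee506) (nat_lit 0xa000094901) (nat_lit 52))
 (.p (nat_lit 0x2032571102) (nat_lit 0x240923) (nat_lit 29)))
 (.n (.p (nat_lit 0x38d634fd02) (nat_lit 0x20040a) (nat_lit 4))
 (.p (nat_lit 0x11425f3b02) (nat_lit 0x3a6560c44000400040000) (nat_lit 49))))))
 (.n (.n (.n (.n (.p (nat_lit 0x8360834082e082c05c305c106) (nat_lit 0x6000012100) (nat_lit 52))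
 (.p (nat_lit 0x7320a7302) (nat_lit 0x540015) (nat_lit 5)))
 (.n (.p (nat_lit 0xb841f4f02) (nat_lit 0x100204) (nat_lit 4))
 (.p (nat_lit 0x14a414a2149e149a4a094a0506) (nat_lit 0x500001472f) (nat_lit 52))))
 (.n (.n (.p (nat_lit 0x24ae24ac24aa24a824a422bd06) (nat_lit 0x10000c0b00) (nat_lit 51))
 (.p (nat_lit 0x56625660565e565c565a5658039e07) (nat_lit 0x40122) (nat_lit 8)))
 (.n (.p (nat_lit 0x2d342d322d2e2d2c2d2a1a6f06) (nat_lit 0x4000046707) (nat_lit 51))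
 (.p (nat_lit 0x5d551f0d02) (nat_lit 0x280080000900) (nat_lit 39)))))
 (.n (.n (.n (.p (nat_lit 0x16e616e416e216e016bb16b106) (nat_lit 0x108000c2600) (nat_lit 51))
 (.p (nat_lit 0x249624922490248e248c05dd06) (nat_lit 0x800009601c) (nat_lit 51)))
 (.n (.p (nat_lit 0x21d621d021ce21cc1ac51ac306) (nat_lit 0xc0000d4705) (nat_lit 52))
 (.p (nat_lit 0x5cfd5de702) (nat_lit 0x200040000200) (nat_lit 36))))
 (.n (.n (.p (nat_lit 0x205c205820542052007e0061005d205b205709) (nat_lit 0x2240902) (nat_lit 10))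
 (.p (nat_lit 0x4b924e4b02) (nat_lit 0x140029) (nat_lit 4)))
 (.n (.p (nat_lit 0x1820181e181c181a181610dd06) (nat_lit 0x100000e40e) (nat_lit 51))
 (.p (nat_lit 0x1da6604102) (nat_lit 0x4a8176340800300000600) (nat_lit 49))))))

def c1024_658 : Tr :=
 .n (.n (.n (.n (.n (.n (.p (nat_lit 0x44f0449044203) (nat_lit 0x2a0002a) (nat_lit 19))
 (.p (nat_lit 0x181e61bf02) (nat_lit 0x3221a9c15000100000600) (nat_lit 50)))
 (.p (nat_lit 0x3c963c943c923c903c8e419106) (nat_lit 0x10000006512) (nat_lit 51)))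
 (.n (.p (nat_lit 0x3b41232d02) (nat_lit 0x346a03) (nat_lit 16))
 (.p (nat_lit 0x34f634f234f034ee34ec35d306) (nat_lit 0x800008612d) (nat_lit 52))))
 (.n (.n (.p (nat_lit 0x212a2128212621241e971e9506) (nat_lit 0x1800000ea00) (nat_lit 52))
 (.p (nat_lit 0xd320d300d2e0d2c0d2a3bed06) (nat_lit 0x100000c0b1f) (nat_lit 51)))
 (.n (.p (nat_lit 0x21d621d421d221ce21cc0e0506) (nat_lit 0x2000094307) (nat_lit 52))
 (.p (nat_lit 0x5ce31ae302) (nat_lit 0xa0020000800) (nat_lit 40)))))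
 (.n (.n (.n (.p (nat_lit 0x12e612e412e212e012dc10c506) (nat_lit 0x1000006500) (nat_lit 51))
 (.p (nat_lit 0xa720a700a6c0a6a0a68423306) (nat_lit 0x4000080619) (nat_lit 51)))
 (.n (.p (nat_lit 0x1133112702) (nat_lit 0x20c405) (nat_lit 16))
 (.p (nat_lit 0x5cdb5db502) (nat_lit 0x120020000000) (nat_lit 36))))
 (.n (.n (.p (nat_lit 0xa0c2e4302) (nat_lit 0x240102) (nat_lit 29))
 (.p (nat_lit 0x1cf41cf21cf01cee1cec364906) (nat_lit 0x100000cc126) (nat_lit 52)))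
 (.n (.p (nat_lit 0x22ac22aa22a822a622a2475106) (nat_lit 0x100005030c) (nat_lit 52))
 (.p (nat_lit 0x1da25fc702) (nat_lit 0x89832b05000300000600) (nat_lit 49))))))
 (.n (.n (.n (.n (.p (nat_lit 0xbf80bf60bf20bee09d309cf06) (nat_lit 0x500004a200) (nat_lit 51))
 (.p (nat_lit 0x27d827d627d227d027ce164b06) (nat_lit 0x400008a615) (nat_lit 51)))
 (.n (.p (nat_lit 0x12a812a612a212a0168b168506) (nat_lit 0x1200000a604) (nat_lit 51))
 (.p (nat_lit 0xec00e800e600e40009011306) (nat_lit 0x200e605) (nat_lit 26))))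
 (.n (.n (.p (nat_lit 0x294429422940293e293c293a003607) (nat_lit 0x401) (nat_lit 8))
 (.p (nat_lit 0x198619841980197e197c09eb06) (nat_lit 0x40000ce123) (nat_lit 51)))
 (.n (.p (nat_lit 0x2b542b502b4e2b4c2b4a01772b5307) (nat_lit 0x440808) (nat_lit 7))
 (.p (nat_lit 0x5ebc4d0502) (nat_lit 0x8000ab00) (nat_lit 47)))))
 (.n (.n (.n (.p (nat_lit 0x1a5a1a581a561a541a50179506) (nat_lit 0x10000d6700) (nat_lit 52))
 (.p (nat_lit 0x120c12081206120414eb14e706) (nat_lit 0x1400005651c) (nat_lit 51)))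
 (.n (.p (nat_lit 0x11304e3502) (nat_lit 0x100406) (nat_lit 29))
 (.p (nat_lit 0x5d715e1b02) (nat_lit 0xc0080000400) (nat_lit 36))))
 (.n (.n (.p (nat_lit 0x1560155e155c155a155825bd06) (nat_lit 0x10000040b02) (nat_lit 51))
 (.p (nat_lit 0xcb612d502) (nat_lit 0x24022a) (nat_lit 5)))
 (.n (.p (nat_lit 0x362436223620361c361a1bdf06) (nat_lit 0x200001680e) (nat_lit 52))
 (.p (nat_lit 0xe8260c902) (nat_lit 0x3505223a4000300040000) (nat_lit 50))))))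

def c512_146 : Tr := .n c1024_146 c1024_658

def c1024_402 : Tr :=
 .n (.n (.n (.n (.n (.n (.p (nat_lit 0x1fb01f701f403) (nat_lit 0x190000e) (nat_lit 19))
 (.p (nat_lit 0x2076617d02) (nat_lit 0x421a86b15000400000600) (nat_lit 50)))
 (.p (nat_lit 0x39e138e102) (nat_lit 0x100411) (nat_lit 15)))
 (.n (.p (nat_lit 0x17e83abb02) (nat_lit 0x140603) (nat_lit 29))
 (.p (nat_lit 0x2b782abd02) (nat_lit 0x44082b) (nat_lit 4))))
 (.n (.n (.p (nat_lit 0x1f621f601f5e1f5c1f581d2b06) (nat_lit 0x10000c4900) (nat_lit 52))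
 (.p (nat_lit 0x33ec307f02) (nat_lit 0xb1e) (nat_lit 5)))
 (.n (.p (nat_lit 0xb440b3e0b3c0b3a0168014901470b430b4109) (nat_lit 0x2300207) (nat_lit 10))
 (.p (nat_lit 0x5d4d181d02) (nat_lit 0x60000700) (nat_lit 40)))))
 (.n (.n (.n (.p (nat_lit 0x3a60f6302) (nat_lit 0x340400) (nat_lit 1))
 (.p (nat_lit 0x39f0367b02) (nat_lit 0x300518) (nat_lit 4)))
 (.n (.p (nat_lit 0xa3220ab02) (nat_lit 0x340105) (nat_lit 4))
 (.p (nat_lit 0x41e5be502) (nat_lit 0x100b23) (nat_lit 27))))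
 (.n (.n (.p (nat_lit 0x2c4721ad02) (nat_lit 0x208a01) (nat_lit 16))
 (.p (nat_lit 0x4c8b27af02) (nat_lit 0x254124) (nat_lit 16)))
 (.n (.p (nat_lit 0x1fb41fb21fb01fac1faa3f9506) (nat_lit 0x200000c30b) (nat_lit 51))
 (.p (nat_lit 0x11405f7b02) (nat_lit 0x581a22b44000400040000) (nat_lit 49))))))
 (.n (.n (.n (.n (.p (nat_lit 0xa550a4902) (nat_lit 0x200200) (nat_lit 34))
 (.p (nat_lit 0x13921390138e138c138a028b139507) (nat_lit 0x500515) (nat_lit 7)))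
 (.n (.p (nat_lit 0x405c405a405840564054111706) (nat_lit 0x80000c404) (nat_lit 52))
 (.p (nat_lit 0x62005e005c005a0009008706) (nat_lit 0x2014902) (nat_lit 26))))
 (.n (.n (.p (nat_lit 0x2d26d702) (nat_lit 0x100101) (nat_lit 30))
 (.p (nat_lit 0x74a569302) (nat_lit 0x540023) (nat_lit 29)))
 (.n (.p (nat_lit 0x446e446c446a446822cb22c906) (nat_lit 0x300004ca07) (nat_lit 51))
 (.p (nat_lit 0x5d5d21e102) (nat_lit 0x200080000a00) (nat_lit 41)))))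
 (.n (.n (.n (.p (nat_lit 0x18d218d018ce18cc1623162106) (nat_lit 0x1800014700) (nat_lit 52))
 (.p (nat_lit 0x2e29087f02) (nat_lit 0x10e11c) (nat_lit 16)))
 (.n (.p (nat_lit 0x78824a502) (nat_lit 0x40006) (nat_lit 5))
 (.p (nat_lit 0x5d355e0302) (nat_lit 0x180060000300) (nat_lit 37))))
 (.n (.n (.p (nat_lit 0xa4e0a4a0a480a460a44232306) (nat_lit 0x8000044a02) (nat_lit 52))
 (.p (nat_lit 0x692068e068c0688089d089706) (nat_lit 0x900000812a) (nat_lit 52)))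
 (.n (.p (nat_lit 0x418d138502) (nat_lit 0x31250e) (nat_lit 16))
 (.p (nat_lit 0x2070607f02) (nat_lit 0x511a22b85000400000600) (nat_lit 49))))))

def c1024_914 : Tr :=
 .n (.n (.n (.n (.n (.p (nat_lit 0x6620660065e065c064f064d06) (nat_lit 0x1800044000) (nat_lit 51))
 (.p (nat_lit 0x4dce4c2f02) (nat_lit 0x200314) (nat_lit 5)))
 (.n (.p (nat_lit 0x1da81da61da41da21da025c906) (nat_lit 0x10000052b03) (nat_lit 52))
 (.p (nat_lit 0x3faa414b02) (nat_lit 0x30032e) (nat_lit 5))))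
 (.n (.n (.p (nat_lit 0x22d51ff502) (nat_lit 0x142a00) (nat_lit 16))
 (.p (nat_lit 0x367562d02) (nat_lit 0x240b20) (nat_lit 30)))
 (.n (.p (nat_lit 0x10dd10d102) (nat_lit 0x104407) (nat_lit 16))
 (.p (nat_lit 0x5d8f1adf02) (nat_lit 0x1e00a0000800) (nat_lit 38)))))
 (.n (.n (.n (.p (nat_lit 0x14ef121f02) (nat_lit 0x14c500) (nat_lit 16))
 (.p (nat_lit 0x4a32466b02) (nat_lit 0x14071a) (nat_lit 4)))
 (.n (.p (nat_lit 0x252a2528252625242522180906) (nat_lit 0x1000004e605) (nat_lit 51))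
 (.p (nat_lit 0x5cf75dcf02) (nat_lit 0x260040000100) (nat_lit 36))))
 (.n (.n (.p (nat_lit 0x110f110302) (nat_lit 0x212402) (nat_lit 16))
 (.p (nat_lit 0x4248405702) (nat_lit 0x200627) (nat_lit 4)))
 (.n (.p (nat_lit 0x50944b6f02) (nat_lit 0x44080d) (nat_lit 5))
 (.p (nat_lit 0x207a5fff02) (nat_lit 0x16a88cd50000400000600) (nat_lit 50))))))
 (.n (.n (.n (.n (.p (nat_lit 0xdd80dd60dd40dd20dd00b3906) (nat_lit 0x10000094300) (nat_lit 52))
 (.p (nat_lit 0x201a0af902) (nat_lit 0x240915) (nat_lit 4)))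
 (.n (.p (nat_lit 0x19561e6702) (nat_lit 0x500704) (nat_lit 5))
 (.p (nat_lit 0x1b05a5302) (nat_lit 0x200a0a) (nat_lit 27))))
 (.n (.n (.p (nat_lit 0x1a101a0c1a0a1a081c211c1d06) (nat_lit 0x1400008a801) (nat_lit 52))
 (.p (nat_lit 0x1669165d02) (nat_lit 0x623) (nat_lit 16)))
 (.n (.p (nat_lit 0x32922d5d02) (nat_lit 0x100909) (nat_lit 4))
 (.p (nat_lit 0x4d05ef502) (nat_lit 0x281d30344000000000000) (nat_lit 50)))))
 (.n (.n (.n (.p (nat_lit 0x1c2318f902) (nat_lit 0x14800) (nat_lit 16))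
 (.p (nat_lit 0x1d651d5902) (nat_lit 0x4a81c) (nat_lit 16)))
 (.n (.p (nat_lit 0x176a1768176417621ad31acd06) (nat_lit 0x12000052706) (nat_lit 51))
 (.p (nat_lit 0x5d6112a902) (nat_lit 0x1c0080000500) (nat_lit 40))))
 (.n (.n (.p (nat_lit 0xce10a1f02) (nat_lit 0x540103) (nat_lit 15))
 (.p (nat_lit 0x38710f8502) (nat_lit 0x25032a) (nat_lit 16)))
 (.n (.p (nat_lit 0x2578086702) (nat_lit 0x140b0e) (nat_lit 5))
 (.p (nat_lit 0x1db660ff02) (nat_lit 0x3425219b0000300000600) (nat_lit 50))))))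

def c512_402 : Tr := .n c1024_402 c1024_914

def c256_146 : Tr := .n c512_146 c512_402

def c128_18 : Tr := .n c256_18 c256_146

def c1024_82 : Tr :=
 .n (.n (.n (.n (.n (.n (.p (nat_lit 0x60005e0058006504) (nat_lit 0xc800400002) (nat_lit 17))
 (.p (nat_lit 0x1dac613302) (nat_lit 0x35486a3b0000300000600) (nat_lit 50)))
 (.p (nat_lit 0x2be8279702) (nat_lit 0x4090f) (nat_lit 5)))
 (.n (.p (nat_lit 0xfb90fad02) (nat_lit 0x454303) (nat_lit 16))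
 (.p (nat_lit 0x1d72133102) (nat_lit 0x14082a) (nat_lit 5))))
 (.n (.n (.p (nat_lit 0x1d2f1a6302) (nat_lit 0x340800) (nat_lit 15))
 (.p (nat_lit 0x24380ddd02) (nat_lit 0xb1c) (nat_lit 4)))
 (.n (.p (nat_lit 0xbb00bae0bac0baa0ba61d9706) (nat_lit 0x10000c4806) (nat_lit 52))
 (.p (nat_lit 0x5d1b16a902) (nat_lit 0x20040000600) (nat_lit 41)))))
 (.n (.n (.n (.p (nat_lit 0xf2a0f280f260f240f220c8f06) (nat_lit 0x8000d2300) (nat_lit 51))
 (.p (nat_lit 0x2a7227c702) (nat_lit 0x200516) (nat_lit 4)))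
 (.n (.p (nat_lit 0x247a1fe102) (nat_lit 0x300b04) (nat_lit 5))
 (.p (nat_lit 0x25802540252024e01b502e706) (nat_lit 0x210a312) (nat_lit 26))))
 (.n (.n (.p (nat_lit 0x8fe08fa08f808f608f41ee906) (nat_lit 0x8000082901) (nat_lit 51))
 (.p (nat_lit 0x20331d6902) (nat_lit 0x240823) (nat_lit 15)))
 (.n (.p (nat_lit 0x37d8345d02) (nat_lit 0x30030a) (nat_lit 4))
 (.p (nat_lit 0x15345f3102) (nat_lit 0x3aa560b44000000000600) (nat_lit 49))))))
 (.n (.n (.n (.n (.p (nat_lit 0x7b607b407b207b007ae07ac06) (nat_lit 0x6100) (nat_lit 52))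
 (.p (nat_lit 0x7b607b207b007ae07ac05d106) (nat_lit 0x8000006015) (nat_lit 52)))
 (.n (.p (nat_lit 0xa201f4102) (nat_lit 0x40104) (nat_lit 4))
 (.p (nat_lit 0x46f6489302) (nat_lit 0x20032f) (nat_lit 5))))
 (.n (.n (.p (nat_lit 0x244f215f02) (nat_lit 0x508b00) (nat_lit 16))
 (.p (nat_lit 0x236c2368236623624b234b1d06) (nat_lit 0x9000002022) (nat_lit 52)))
 (.n (.p (nat_lit 0x190c06b302) (nat_lit 0x400707) (nat_lit 5))
 (.p (nat_lit 0x5d375e8d02) (nat_lit 0x160060000900) (nat_lit 37)))))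
 (.n (.n (.n (.p (nat_lit 0x1685155102) (nat_lit 0x212600) (nat_lit 16))
 (.p (nat_lit 0xe820e800e7e0e7a0e7805d906) (nat_lit 0x200008601c) (nat_lit 51)))
 (.n (.p (nat_lit 0xd1c0d1a0d160d140d121ac306) (nat_lit 0x4000046705) (nat_lit 51))
 (.p (nat_lit 0x5ddc09d902) (nat_lit 0x48200) (nat_lit 47))))
 (.n (.n (.p (nat_lit 0x1b901b8e1b8a1b881ef31eed06) (nat_lit 0x480008c902) (nat_lit 51))
 (.p (nat_lit 0x468847a702) (nat_lit 0x440228) (nat_lit 5)))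
 (.n (.p (nat_lit 0x10e410e210e010de10da01e910dd07) (nat_lit 0x10040e) (nat_lit 7))
 (.p (nat_lit 0x8fa603102) (nat_lit 0x4099a2335000100040000) (nat_lit 50))))))

def c1024_594 : Tr :=
 .n (.n (.n (.n (.n (.n (.p (nat_lit 0x3a203a003af03) (nat_lit 0x1800500023) (nat_lit 17))
 (.p (nat_lit 0x180a61af02) (nat_lit 0x522266c0d000100000600) (nat_lit 49)))
 (.p (nat_lit 0x1e661e641e621e601e5e408306) (nat_lit 0x80000e412) (nat_lit 51)))
 (.n (.p (nat_lit 0x23263b2502) (nat_lit 0x40a03) (nat_lit 29))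
 (.p (nat_lit 0x43c336702) (nat_lit 0x400a2c) (nat_lit 1))))
 (.n (.n (.p (nat_lit 0x209820942092208e1e951e8f06) (nat_lit 0x9000080a00) (nat_lit 52))
 (.p (nat_lit 0x3063b8f02) (nat_lit 0xb1f) (nat_lit 1)))
 (.n (.p (nat_lit 0x7aa07a807a407a207a00e0706) (nat_lit 0x4000002307) (nat_lit 51))
 (.p (nat_lit 0x5e64197b02) (nat_lit 0xa0040700) (nat_lit 45)))))
 (.n (.n (.n (.p (nat_lit 0x43c10cb02) (nat_lit 0x400500) (nat_lit 1))
 (.p (nat_lit 0x1fcc1fc81fc61fc41fc2419b06) (nat_lit 0x800000e519) (nat_lit 52)))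
 (.n (.p (nat_lit 0xfc6224102) (nat_lit 0x540305) (nat_lit 4))
 (.p (nat_lit 0x5dac5daa5da85da65da45da25da05d9e5d9c5d9a5d985d965d945d925d905d8e5d8c5d8a5d885d865d845d825d805d7e18) (nat_lit 0xa0000000) (nat_lit 35))))
 (.n (.n (.p (nat_lit 0x2d862d842d822d802d7c075b06) (nat_lit 0x10000d4002) (nat_lit 52))
 (.p (nat_lit 0x3e9575302) (nat_lit 0x500b25) (nat_lit 30)))
 (.n (.p (nat_lit 0x4600528b02) (nat_lit 0x50020c) (nat_lit 29))
 (.p (nat_lit 0x248d248921dd21d31f111f071c4d1c45197f197516af169f5faa0d) (nat_lit 0x8982e955800000040600) (nat_lit 33))))))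
 (.n (.n (.n (.n (.p (nat_lit 0x9d60bb102) (nat_lit 0x540200) (nat_lit 4))
 (.p (nat_lit 0x1f0e1f0c1f0a1f081f0414d706) (nat_lit 0x10000d2515) (nat_lit 52)))
 (.n (.p (nat_lit 0xc200d500d91faf1e4905) (nat_lit 0xa6200604) (nat_lit 9))
 (.p (nat_lit 0x1c8598d02) (nat_lit 0x200005) (nat_lit 27))))
 (.n (.n (.p (nat_lit 0xe2a170902) (nat_lit 0x300301) (nat_lit 5))
 (.p (nat_lit 0x9ea117d02) (nat_lit 0x340123) (nat_lit 4)))
 (.n (.p (nat_lit 0x16121610160e160c160a292306) (nat_lit 0x800054308) (nat_lit 51))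
 (.p (nat_lit 0x5eba4f6502) (nat_lit 0x60004b00) (nat_lit 48)))))
 (.n (.n (.n (.p (nat_lit 0x1a1e1a1c1a1a1a161a14179706) (nat_lit 0x2000052700) (nat_lit 51))
 (.p (nat_lit 0x14e4552502) (nat_lit 0x24051c) (nat_lit 29)))
 (.n (.p (nat_lit 0xe6824e302) (nat_lit 0x400306) (nat_lit 4))
 (.p (nat_lit 0x5d170fd902) (nat_lit 0x60040000400) (nat_lit 38))))
 (.n (.n (.p (nat_lit 0x1606160215fe15fc2465246106) (nat_lit 0xa000092b02) (nat_lit 51))
 (.p (nat_lit 0x154a15461544154215400b5b06) (nat_lit 0x800000c22a) (nat_lit 51)))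
 (.n (.p (nat_lit 0x1a78096502) (nat_lit 0x24070e) (nat_lit 5))
 (.p (nat_lit 0x64260ad02) (nat_lit 0x342521ca4000000040000) (nat_lit 50))))))

def c512_82 : Tr := .n c1024_82 c1024_594

def c1024_338 : Tr :=
 .n (.n (.n (.n (.n (.n (.p (nat_lit 0x14a0146014f03) (nat_lit 0x14000500007) (nat_lit 17))
 (.p (nat_lit 0x1db0616f02) (nat_lit 0x421aa6315000300000600) (nat_lit 50)))
 (.p (nat_lit 0x34302e2502) (nat_lit 0x540b10) (nat_lit 5)))
 (.n (.p (nat_lit 0x167c167a1678167400a800910089167f167709) (nat_lit 0x2900603) (nat_lit 10))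
 (.p (nat_lit 0x287e2a9302) (nat_lit 0x4022b) (nat_lit 4))))
 (.n (.n (.p (nat_lit 0x1ef51bcb02) (nat_lit 0x40e900) (nat_lit 16))
 (.p (nat_lit 0x32fc306502) (nat_lit 0x54091e) (nat_lit 5)))
 (.n (.p (nat_lit 0x212e212c212a21282126205f06) (nat_lit 0x80004e906) (nat_lit 52))
 (.p (nat_lit 0x5cd15e5702) (nat_lit 0x1c0020000700) (nat_lit 36)))))
 (.n (.n (.n (.p (nat_lit 0x10d10df702) (nat_lit 0x100400) (nat_lit 16))
 (.p (nat_lit 0x34b236db02) (nat_lit 0x18) (nat_lit 4)))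
 (.n (.p (nat_lit 0x443a4438443444324430078306) (nat_lit 0x40000c4005) (nat_lit 51))
 (.p (nat_lit 0x38e038803860384030f039906) (nat_lit 0x230e621) (nat_lit 26))))
 (.n (.n (.p (nat_lit 0x11421ab02) (nat_lit 0x100a01) (nat_lit 1))
 (.p (nat_lit 0x26d2295102) (nat_lit 0x540024) (nat_lit 4)))
 (.n (.p (nat_lit 0x69e069c069a069806943bc106) (nat_lit 0x10000c8b0a) (nat_lit 52))
 (.p (nat_lit 0x1ad65f7102) (nat_lit 0x3aa074c44000200000600) (nat_lit 49))))))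
 (.n (.n (.n (.n (.p (nat_lit 0x9eb072302) (nat_lit 0x348100) (nat_lit 16))
 (.p (nat_lit 0xe8e0e8c0e880e860e84124706) (nat_lit 0x4000040415) (nat_lit 51)))
 (.n (.p (nat_lit 0x3fc63fc43fc23fc03fbe3fbc06) (nat_lit 0xc0304) (nat_lit 52))
 (.p (nat_lit 0x11a58d302) (nat_lit 0x400a01) (nat_lit 27))))
 (.n (.n (.p (nat_lit 0x5ff05f302) (nat_lit 0x310001) (nat_lit 16))
 (.p (nat_lit 0x1430142e142a142605e705e306) (nat_lit 0x5000084023) (nat_lit 52)))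
 (.n (.p (nat_lit 0x14151b502) (nat_lit 0xa07) (nat_lit 30))
 (.p (nat_lit 0x5e9c458b02) (nat_lit 0x40048a00) (nat_lit 48)))))
 (.n (.n (.n (.p (nat_lit 0x18381836183418321623162106) (nat_lit 0x1800080700) (nat_lit 51))
 (.p (nat_lit 0x314033303270d3f0ea505) (nat_lit 0xacc0011c) (nat_lit 9)))
 (.n (.p (nat_lit 0x1fca1fc81fc61fc41fc21d9306) (nat_lit 0x1000004e805) (nat_lit 52))
 (.p (nat_lit 0x5dfa0d1502) (nat_lit 0x20000300) (nat_lit 46))))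
 (.n (.n (.p (nat_lit 0x333d21b702) (nat_lit 0x104a02) (nat_lit 16))
 (.p (nat_lit 0x47ca47c647c447c247c0511706) (nat_lit 0x800008e929) (nat_lit 51)))
 (.n (.p (nat_lit 0x137e07dd02) (nat_lit 0x50e) (nat_lit 5))
 (.p (nat_lit 0x1da6607102) (nat_lit 0x588162b40800300000600) (nat_lit 49))))))

def c1024_850 : Tr :=
 .n (.n (.n (.n (.n (.n (.p (nat_lit 0x5e304dd02) (nat_lit 0x108000) (nat_lit 16))
 (.p (nat_lit 0x13f861eb02) (nat_lit 0x14e0a8c74000500040000) (nat_lit 50)))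
 (.p (nat_lit 0x4450444e444c44484446494306) (nat_lit 0x20000c6513) (nat_lit 52)))
 (.n (.p (nat_lit 0x64a064606440642064025c706) (nat_lit 0x80000c0b03) (nat_lit 51))
 (.p (nat_lit 0x3e0641b102) (nat_lit 0x44012e) (nat_lit 5))))
 (.n (.n (.p (nat_lit 0x227a2276227422721ffd1ff906) (nat_lit 0x1400004ca00) (nat_lit 51))
 (.p (nat_lit 0x42d43f7302) (nat_lit 0x720) (nat_lit 5)))
 (.n (.p (nat_lit 0x10d0051902) (nat_lit 0x100407) (nat_lit 5))
 (.p (nat_lit 0x5d5f1add02) (nat_lit 0x1e0080000800) (nat_lit 38)))))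
 (.n (.n (.n (.p (nat_lit 0x1448144414421440143e122506) (nat_lit 0x80000c6500) (nat_lit 52))
 (.p (nat_lit 0x222a2228222422204951494d06) (nat_lit 0x50000c451a) (nat_lit 52)))
 (.n (.p (nat_lit 0x255c2558255625542552169506) (nat_lit 0x8000012605) (nat_lit 52))
 (.p (nat_lit 0x5dc4426902) (nat_lit 0x52100) (nat_lit 47))))
 (.n (.n (.p (nat_lit 0xf9c19df02) (nat_lit 0x240302) (nat_lit 5))
 (.p (nat_lit 0x1ff01fee1fea1fe81fe63d7706) (nat_lit 0x4000096127) (nat_lit 51)))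
 (.n (.p (nat_lit 0x4f704f6e4f6c4f6a4f1b4f1906) (nat_lit 0x600004240d) (nat_lit 51))
 (.p (nat_lit 0x11445fef02) (nat_lit 0x306a81c35000400040000) (nat_lit 49))))))
 (.n (.n (.n (.n (.p (nat_lit 0xd4a0d480d440d420b390b3306) (nat_lit 0x12000082300) (nat_lit 51))
 (.p (nat_lit 0x1d540c4502) (nat_lit 0x440815) (nat_lit 5)))
 (.n (.p (nat_lit 0x21d421d221d021ce21cc17fd06) (nat_lit 0x100000d4604) (nat_lit 52))
 (.p (nat_lit 0x176017401720170014b046306) (nat_lit 0x2812408) (nat_lit 26))))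
 (.n (.n (.p (nat_lit 0x1c162af102) (nat_lit 0x801) (nat_lit 29))
 (.p (nat_lit 0xd640d620d600d5e0d5a0ca906) (nat_lit 0x10000ca223) (nat_lit 52)))
 (.n (.p (nat_lit 0x30922cb902) (nat_lit 0x440309) (nat_lit 5))
 (.p (nat_lit 0x2495248b21dd21cf1f111f0b1c491c431983197516a716995ee40d) (nat_lit 0x4a8866344000000040600) (nat_lit 33)))))
 (.n (.n (.n (.p (nat_lit 0x1bb41bb21bb01bac1baa18fd06) (nat_lit 0x2000016800) (nat_lit 52))
 (.p (nat_lit 0x37ae37ac37aa37a837a61bf906) (nat_lit 0x400000c81c) (nat_lit 51)))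
 (.n (.p (nat_lit 0x17841782177e177c196b196506) (nat_lit 0x4800014706) (nat_lit 52))
 (.p (nat_lit 0x5d475e2d02) (nat_lit 0x60060000500) (nat_lit 36))))
 (.n (.n (.p (nat_lit 0x8cb08bf02) (nat_lit 0x314103) (nat_lit 16))
 (.p (nat_lit 0x3a00f8102) (nat_lit 0x4032a) (nat_lit 1)))
 (.n (.p (nat_lit 0x22dc085702) (nat_lit 0x540a0e) (nat_lit 5))
 (.p (nat_lit 0x113c60f302) (nat_lit 0x440d663a4000400040000) (nat_lit 49))))))

def c512_338 : Tr := .n c1024_338 c1024_850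

def c256_82 : Tr := .n c512_82 c512_338

def c1024_210 : Tr :=
 .n (.n (.n (.n (.n (.n (.p (nat_lit 0xd500c700c203) (nat_lit 0x22800004) (nat_lit 19))
 (.p (nat_lit 0x13fa615102) (nat_lit 0x2b0221d84000500040000) (nat_lit 50)))
 (.p (nat_lit 0x18a327302) (nat_lit 0x340510) (nat_lit 1)))
 (.n (.p (nat_lit 0x13ba1cc902) (nat_lit 0x503) (nat_lit 5))
 (.p (nat_lit 0x490048fe48fa48f848f621a306) (nat_lit 0x4000004a2a) (nat_lit 51))))
 (.n (.n (.p (nat_lit 0x1e361e341e2e1e2c1bc91bc706) (nat_lit 0x600000a900) (nat_lit 52))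
 (.p (nat_lit 0x2bb028ad02) (nat_lit 0x20091d) (nat_lit 4)))
 (.n (.p (nat_lit 0x1f00255b02) (nat_lit 0x400906) (nat_lit 4))
 (.p (nat_lit 0x5dad154b02) (nat_lit 0xa0000600) (nat_lit 40)))))
 (.n (.n (.n (.p (nat_lit 0xff60ff20ff00fec0dfd0df706) (nat_lit 0x9000000400) (nat_lit 52))
 (.p (nat_lit 0x31f62f5d02) (nat_lit 0x500517) (nat_lit 5)))
 (.n (.p (nat_lit 0x20fe20fa20f820f625d325cb06) (nat_lit 0x880004ab04) (nat_lit 52))
 (.p (nat_lit 0x2fa02f602f402f2028b038b06) (nat_lit 0x2b0e41a) (nat_lit 26))))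
 (.n (.n (.p (nat_lit 0x2050160702) (nat_lit 0x540901) (nat_lit 5))
 (.p (nat_lit 0x22fe10a702) (nat_lit 0x440a23) (nat_lit 4)))
 (.n (.p (nat_lit 0x3a8e347f02) (nat_lit 0x20060a) (nat_lit 4))
 (.p (nat_lit 0x1ae05f5302) (nat_lit 0x1a9d22350000200000600) (nat_lit 50))))))
 (.n (.n (.n (.n (.p (nat_lit 0x8e305c302) (nat_lit 0x316100) (nat_lit 16))
 (.p (nat_lit 0x30a10eb02) (nat_lit 0x200415) (nat_lit 1)))
 (.n (.p (nat_lit 0xce43e8d02) (nat_lit 0x140204) (nat_lit 29))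
 (.p (nat_lit 0x438507902) (nat_lit 0x200830) (nat_lit 1))))
 (.n (.n (.p (nat_lit 0x2550254c254a2548254622c306) (nat_lit 0x80000d0b00) (nat_lit 52))
 (.p (nat_lit 0x50624da302) (nat_lit 0x300822) (nat_lit 5)))
 (.n (.p (nat_lit 0x34b034ac34aa34a834a61bd706) (nat_lit 0x8000096807) (nat_lit 51))
 (.p (nat_lit 0x5cb521cd02) (nat_lit 0x80000000a00) (nat_lit 39)))))
 (.n (.n (.n (.p (nat_lit 0x176a17681764176216bb16b506) (nat_lit 0x12000052600) (nat_lit 51))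
 (.p (nat_lit 0xd1c0d1a0d180d140d12073906) (nat_lit 0x200004601c) (nat_lit 51)))
 (.n (.p (nat_lit 0xed4a6b02) (nat_lit 0x500805) (nat_lit 30))
 (.p (nat_lit 0x5d6b0a5902) (nat_lit 0x120080000200) (nat_lit 40))))
 (.n (.n (.p (nat_lit 0x3305205902) (nat_lit 0x348902) (nat_lit 16))
 (.p (nat_lit 0x252c252a2528252625224c8906) (nat_lit 0x100004e129) (nat_lit 51)))
 (.n (.p (nat_lit 0x123407d102) (nat_lit 0x4040e) (nat_lit 5))
 (.p (nat_lit 0x114a604f02) (nat_lit 0x40a962335000400040000) (nat_lit 50))))))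

def c1024_722 : Tr :=
 .n (.n (.n (.n (.n (.n (.p (nat_lit 0x4e404e204e004de000c0003000104dd04db09) (nat_lit 0x800000) (nat_lit 10))
 (.p (nat_lit 0xbb661cf02) (nat_lit 0x3561684a0800200040000) (nat_lit 50)))
 (.p (nat_lit 0x426c3d4902) (nat_lit 0x240612) (nat_lit 5)))
 (.n (.p (nat_lit 0xe820e800e7c0e7a0e78246f06) (nat_lit 0x4000086b03) (nat_lit 51))
 (.p (nat_lit 0x1bc01bbe1bbc1bb81bb636d306) (nat_lit 0x200009622d) (nat_lit 51))))
 (.n (.n (.p (nat_lit 0x21891e9102) (nat_lit 0x206a00) (nat_lit 16))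
 (.p (nat_lit 0x1e8a1e861e841e821e803d0906) (nat_lit 0x80000d6020) (nat_lit 52)))
 (.n (.p (nat_lit 0x4d604d404d004ce0f730f6d06) (nat_lit 0x12000040307) (nat_lit 51))
 (.p (nat_lit 0x5d171c4b02) (nat_lit 0x60040000800) (nat_lit 41)))))
 (.n (.n (.n (.p (nat_lit 0x138710cb02) (nat_lit 0x402500) (nat_lit 16))
 (.p (nat_lit 0x36723670366e366c42d342d106) (nat_lit 0x18000088719) (nat_lit 52)))
 (.n (.p (nat_lit 0x13dc226502) (nat_lit 0x500505) (nat_lit 5))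
 (.p (nat_lit 0x5d475dbb02) (nat_lit 0x60060000000) (nat_lit 37))))
 (.n (.n (.p (nat_lit 0x2f330b6f02) (nat_lit 0x200202) (nat_lit 16))
 (.p (nat_lit 0x3ad4394302) (nat_lit 0x540626) (nat_lit 5)))
 (.n (.p (nat_lit 0x4f004ec04ea04e804e649d106) (nat_lit 0x800000470c) (nat_lit 52))
 (.p (nat_lit 0x233a5fd102) (nat_lit 0x95a2ec05000500000600) (nat_lit 49))))))
 (.n (.n (.n (.n (.p (nat_lit 0xcb509cf02) (nat_lit 0x14a200) (nat_lit 16))
 (.p (nat_lit 0x19240c2502) (nat_lit 0x400715) (nat_lit 4)))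
 (.n (.p (nat_lit 0x424d168902) (nat_lit 0x408604) (nat_lit 16))
 (.p (nat_lit 0x1180116011401120009039d06) (nat_lit 0x2510306) (nat_lit 26))))
 (.n (.n (.p (nat_lit 0x3329a702) (nat_lit 0x440401) (nat_lit 30))
 (.p (nat_lit 0xb500b4e0b4c0b4a0b4603a30b4907) (nat_lit 0x100223) (nat_lit 7)))
 (.n (.p (nat_lit 0x50605040502050004fe2be706) (nat_lit 0x10000046908) (nat_lit 52))
 (.p (nat_lit 0x11405ec702) (nat_lit 0x4a1a34344000400040000) (nat_lit 49)))))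
 (.n (.n (.n (.p (nat_lit 0x1acb179502) (nat_lit 0x156700) (nat_lit 16))
 (.p (nat_lit 0x17cf17c302) (nat_lit 0x4a61c) (nat_lit 16)))
 (.n (.p (nat_lit 0x12924eb902) (nat_lit 0x540406) (nat_lit 29))
 (.p (nat_lit 0x5d8f5e2102) (nat_lit 0x1e00a0000400) (nat_lit 37))))
 (.n (.n (.p (nat_lit 0x345434523450344e344c060506) (nat_lit 0x800084003) (nat_lit 52))
 (.p (nat_lit 0x18121810180e180c180a0cbd06) (nat_lit 0x1000004e22a) (nat_lit 52)))
 (.n (.p (nat_lit 0x1d531d4702) (nat_lit 0x34680e) (nat_lit 16))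
 (.p (nat_lit 0x63460d502) (nat_lit 0x354a621b0000000040000) (nat_lit 49))))))

def c512_210 : Tr := .n c1024_210 c1024_722

def c1024_466 : Tr :=
 .n (.n (.n (.n (.n (.n (.p (nat_lit 0x2a90295028e03) (nat_lit 0x62000015) (nat_lit 19))
 (.p (nat_lit 0x13ee618d02) (nat_lit 0x54c88a970000500040000) (nat_lit 49)))
 (.p (nat_lit 0x3a98360702) (nat_lit 0x100611) (nat_lit 4)))
 (.n (.p (nat_lit 0x18d218d018ce18cc18c817e906) (nat_lit 0x1000054603) (nat_lit 52))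
 (.p (nat_lit 0x2ec6318d02) (nat_lit 0x14012c) (nat_lit 4))))
 (.n (.n (.p (nat_lit 0x1fca1fc81fc61fc41fc21d3306) (nat_lit 0x1000004e900) (nat_lit 52))
 (.p (nat_lit 0x1b821b801b7e1b7c1b7a355306) (nat_lit 0x1000004c01f) (nat_lit 51)))
 (.n (.p (nat_lit 0x4cf70b4102) (nat_lit 0x316207) (nat_lit 16))
 (.p (nat_lit 0x5e5c2fab02) (nat_lit 0x6004a700) (nat_lit 48)))))
 (.n (.n (.n (.p (nat_lit 0x118c1188118611840f650f5d06) (nat_lit 0x8800044400) (nat_lit 52))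
 (.p (nat_lit 0x2f7e2f7c2f7a2f762f743aa706) (nat_lit 0x2000014618) (nat_lit 51)))
 (.n (.p (nat_lit 0xb9f0b9302) (nat_lit 0x20c205) (nat_lit 16))
 (.p (nat_lit 0x4395c2502) (nat_lit 0x20012a) (nat_lit 28))))
 (.n (.n (.p (nat_lit 0x23e023de23dc23da2319230f06) (nat_lit 0x108000cea01) (nat_lit 52))
 (.p (nat_lit 0x11cc11ca11c611c411c22c1306) (nat_lit 0x4000050924) (nat_lit 52)))
 (.n (.p (nat_lit 0x148421d02) (nat_lit 0x40060b) (nat_lit 1))
 (.p (nat_lit 0x1db05f8f02) (nat_lit 0x581a303a4000300000600) (nat_lit 50))))))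
 (.n (.n (.n (.n (.p (nat_lit 0xa960a940a920a900a8e087106) (nat_lit 0x80000a200) (nat_lit 52))
 (.p (nat_lit 0x1aea1ae81ae61ae41ae2138b06) (nat_lit 0x800010515) (nat_lit 51)))
 (.n (.p (nat_lit 0x4109127902) (nat_lit 0x442404) (nat_lit 16))
 (.p (nat_lit 0x8c008a008800860009024306) (nat_lit 0x2516103) (nat_lit 26))))
 (.n (.n (.p (nat_lit 0x277427722770276e276c276a06) (nat_lit 0xca101) (nat_lit 52))
 (.p (nat_lit 0x890100d02) (nat_lit 0x400123) (nat_lit 4)))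
 (.n (.p (nat_lit 0x433d241902) (nat_lit 0x212b07) (nat_lit 16))
 (.p (nat_lit 0x5c8f5ead02) (nat_lit 0x2e0000000b00) (nat_lit 37)))))
 (.n (.n (.n (.p (nat_lit 0x1921162502) (nat_lit 0x204700) (nat_lit 16))
 (.p (nat_lit 0xa960a940a920a900a8c09db06) (nat_lit 0x100004a11c) (nat_lit 52)))
 (.n (.p (nat_lit 0x8e608e208e008de0128011b011308e508dd09) (nat_lit 0x2000106) (nat_lit 10))
 (.p (nat_lit 0x5d510d0f02) (nat_lit 0x2c0080000300) (nat_lit 38))))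
 (.n (.n (.p (nat_lit 0x1f0e1f0c1f0a1f081f04231d06) (nat_lit 0x10000d2a02) (nat_lit 52))
 (.p (nat_lit 0x9fa57b302) (nat_lit 0x54012a) (nat_lit 29)))
 (.n (.p (nat_lit 0x68406820680067e067c14d306) (nat_lit 0x100000c650e) (nat_lit 52))
 (.p (nat_lit 0x1150608f02) (nat_lit 0x356221ca4000400040000) (nat_lit 50))))))

def c1024_978 : Tr :=
 .n (.n (.n (.n (.n (.p (nat_lit 0x6b406b206ac06aa0653065106) (nat_lit 0x600004e000) (nat_lit 51))
 (.p (nat_lit 0x23d623d223d023ce23cc4f2906) (nat_lit 0x800004e414) (nat_lit 52)))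
 (.n (.p (nat_lit 0x61a1f2702) (nat_lit 0x500004) (nat_lit 5))
 (.p (nat_lit 0x42f441eb02) (nat_lit 0x50072e) (nat_lit 5))))
 (.n (.n (.p (nat_lit 0x215e234902) (nat_lit 0x500b00) (nat_lit 5))
 (.p (nat_lit 0x2146214421422140213c449f06) (nat_lit 0x1000050021) (nat_lit 51)))
 (.n (.p (nat_lit 0x516a51685166516451625160014e122f122d122b0a) (nat_lit 0xd140407) (nat_lit 31))
 (.p (nat_lit 0x5e8021c102) (nat_lit 0xe900) (nat_lit 47)))))
 (.n (.n (.n (.p (nat_lit 0x1578157615721570156e155306) (nat_lit 0x4000082600) (nat_lit 52))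
 (.p (nat_lit 0x24062402240023fe23fc4f6706) (nat_lit 0x800001251b) (nat_lit 51)))
 (.n (.p (nat_lit 0xd100d0e0d0c0d0a0d06195b06) (nat_lit 0x1000006705) (nat_lit 52))
 (.p (nat_lit 0x5dd0504b02) (nat_lit 0x60016100) (nat_lit 47))))
 (.n (.n (.p (nat_lit 0x13b6318702) (nat_lit 0x400502) (nat_lit 29))
 (.p (nat_lit 0x431840e102) (nat_lit 0x40727) (nat_lit 4)))
 (.n (.p (nat_lit 0xe14090902) (nat_lit 0x40030e) (nat_lit 5))
 (.p (nat_lit 0x638601302) (nat_lit 0x405aa2335000000040000) (nat_lit 49))))))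
 (.n (.n (.n (.n (.p (nat_lit 0xe6b0b3902) (nat_lit 0x516300) (nat_lit 16))
 (.p (nat_lit 0x46384636463446324630217906) (nat_lit 0x800088a15) (nat_lit 51)))
 (.n (.p (nat_lit 0x42c3195302) (nat_lit 0x302704) (nat_lit 16))
 (.p (nat_lit 0x1f001ee01e801e60227000706) (nat_lit 0x130e40e) (nat_lit 26))))
 (.n (.n (.p (nat_lit 0x2f2b4302) (nat_lit 0x240801) (nat_lit 30))
 (.p (nat_lit 0x1a9a11b902) (nat_lit 0x140723) (nat_lit 4)))
 (.n (.p (nat_lit 0x33782d7f02) (nat_lit 0x140a09) (nat_lit 4))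
 (.p (nat_lit 0x1db05f1102) (nat_lit 0x3a2270350000300000600) (nat_lit 50)))))
 (.n (.n (.n (.p (nat_lit 0x1c741c721c701c6a1a611a5f06) (nat_lit 0x3000042800) (nat_lit 52))
 (.p (nat_lit 0x2028557b02) (nat_lit 0x34091c) (nat_lit 29)))
 (.n (.p (nat_lit 0x8fe08fc08f808f608f41c3506) (nat_lit 0x4000082806) (nat_lit 51))
 (.p (nat_lit 0x5cbd5e3902) (nat_lit 0x600) (nat_lit 37))))
 (.n (.n (.p (nat_lit 0x2d60ce102) (nat_lit 0x540203) (nat_lit 1))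
 (.p (nat_lit 0x43b57eb02) (nat_lit 0x34062a) (nat_lit 30)))
 (.n (.p (nat_lit 0x2a122a102a0e2a0c2a08020d2a0b07) (nat_lit 0x14040f) (nat_lit 7))
 (.p (nat_lit 0x8f2611702) (nat_lit 0x3562621b0000100040000) (nat_lit 49))))))

def c512_466 : Tr := .n c1024_466 c1024_978

def c256_210 : Tr := .n c512_210 c512_466

def c128_82 : Tr := .n c256_82 c256_210

def c64_18 : Tr := .n c128_18 c128_82

def c1024_50 : Tr :=
 .n (.n (.n (.n (.n (.n (.p (nat_lit 0x340032003903) (nat_lit 0x18000500001) (nat_lit 17))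
 (.p (nat_lit 0x13fe612d02) (nat_lit 0x45486a3a4000500040000) (nat_lit 50)))
 (.p (nat_lit 0x2b96278d02) (nat_lit 0x10090f) (nat_lit 5)))
 (.n (.p (nat_lit 0x3580faf02) (nat_lit 0x540303) (nat_lit 1))
 (.p (nat_lit 0x1c0a146d02) (nat_lit 0x82a) (nat_lit 4))))
 (.n (.n (.p (nat_lit 0x1d0c1d0a1d081d061d041a6706) (nat_lit 0x100000d4800) (nat_lit 51))
 (.p (nat_lit 0x22f20f4102) (nat_lit 0x440a1c) (nat_lit 5)))
 (.n (.p (nat_lit 0x1d9a254d02) (nat_lit 0x340806) (nat_lit 4))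
 (.p (nat_lit 0x5cd1169b02) (nat_lit 0x1c0020000600) (nat_lit 39)))))
 (.n (.n (.n (.p (nat_lit 0xec80ec60ec40ec00c990c9106) (nat_lit 0x110000ca300) (nat_lit 51))
 (.p (nat_lit 0x25880b2902) (nat_lit 0x340b15) (nat_lit 5)))
 (.n (.p (nat_lit 0x43191ab102) (nat_lit 0x48704) (nat_lit 16))
 (.p (nat_lit 0x1865acb02) (nat_lit 0x100510) (nat_lit 27))))
 (.n (.n (.p (nat_lit 0x1ee4176702) (nat_lit 0x200901) (nat_lit 5))
 (.p (nat_lit 0x1d68107502) (nat_lit 0x240823) (nat_lit 5)))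
 (.n (.p (nat_lit 0x374c374a374837443742019d374707) (nat_lit 0x24020a) (nat_lit 7))
 (.p (nat_lit 0x11465f2102) (nat_lit 0x3a2570344000400040000) (nat_lit 50))))))
 (.n (.n (.n (.n (.p (nat_lit 0x5be079702) (nat_lit 0x100100) (nat_lit 4))
 (.p (nat_lit 0x1e605c902) (nat_lit 0x15) (nat_lit 1)))
 (.n (.p (nat_lit 0x8c81dd502) (nat_lit 0x200104) (nat_lit 5))
 (.p (nat_lit 0x468e488502) (nat_lit 0x14022f) (nat_lit 5))))
 (.n (.n (.p (nat_lit 0x154d215502) (nat_lit 0xb00) (nat_lit 15))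
 (.p (nat_lit 0x4a44474b02) (nat_lit 0x440721) (nat_lit 4)))
 (.n (.p (nat_lit 0x149517502) (nat_lit 0x440607) (nat_lit 30))
 (.p (nat_lit 0x5cf51f0902) (nat_lit 0x280040000900) (nat_lit 39)))))
 (.n (.n (.n (.p (nat_lit 0x163f155302) (nat_lit 0x302600) (nat_lit 16))
 (.p (nat_lit 0x314032303330e8f0d2905) (nat_lit 0x45d0001c) (nat_lit 9)))
 (.n (.p (nat_lit 0xf000fd01032139229f05) (nat_lit 0xa0c40705) (nat_lit 9))
 (.p (nat_lit 0x5c9d0ba702) (nat_lit 0x200000000200) (nat_lit 39))))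
 (.n (.n (.p (nat_lit 0x660085006f1a1b18b705) (nat_lit 0xb0300902) (nat_lit 9))
 (.p (nat_lit 0x4590481b02) (nat_lit 0x540128) (nat_lit 4)))
 (.n (.p (nat_lit 0xbd40bd00bce0bcc0bca0f7d06) (nat_lit 0x80000c030e) (nat_lit 52))
 (.p (nat_lit 0x1148602702) (nat_lit 0x406a62335000400040000) (nat_lit 50))))))

def c1024_562 : Tr :=
 .n (.n (.n (.n (.n (.n (.p (nat_lit 0x36c0364037103) (nat_lit 0x11000500020) (nat_lit 17))
 (.p (nat_lit 0x1dae61a702) (nat_lit 0x3421a9c14800300000600) (nat_lit 50)))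
 (.p (nat_lit 0x3bd93bcd02) (nat_lit 0x146b11) (nat_lit 16)))
 (.n (.p (nat_lit 0x1e721e701e6e1e6c1e6a21c106) (nat_lit 0x80008ea03) (nat_lit 51))
 (.p (nat_lit 0x3a2a3a283a263a243a2232c706) (nat_lit 0x1000000492c) (nat_lit 51))))
 (.n (.n (.p (nat_lit 0x1e8c206b02) (nat_lit 0xa00) (nat_lit 4))
 (.p (nat_lit 0x3b0a383302) (nat_lit 0x200a1f) (nat_lit 5)))
 (.n (.p (nat_lit 0xe02067302) (nat_lit 0x100307) (nat_lit 5))
 (.p (nat_lit 0x5d975e6502) (nat_lit 0x1600a0000700) (nat_lit 36)))))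
 (.n (.n (.n (.p (nat_lit 0x12830f6302) (nat_lit 0x354400) (nat_lit 16))
 (.p (nat_lit 0x3fc63fc43fc03fbe3fbc409506) (nat_lit 0x4000080419) (nat_lit 52)))
 (.n (.p (nat_lit 0x11250e5702) (nat_lit 0x100305) (nat_lit 15))
 (.p (nat_lit 0x1a25c7902) (nat_lit 0x50012d) (nat_lit 27))))
 (.n (.n (.p (nat_lit 0x18e076302) (nat_lit 0x540002) (nat_lit 1))
 (.p (nat_lit 0x335a315d02) (nat_lit 0x400a25) (nat_lit 5)))
 (.n (.p (nat_lit 0x43423ceb02) (nat_lit 0x500b0b) (nat_lit 4))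
 (.p (nat_lit 0x1ae85fa302) (nat_lit 0x589832b44000200000600) (nat_lit 50))))))
 (.n (.n (.n (.n (.p (nat_lit 0xb89087702) (nat_lit 0x312200) (nat_lit 16))
 (.p (nat_lit 0x11441142113e113c113a14db06) (nat_lit 0x40000c8515) (nat_lit 52)))
 (.n (.p (nat_lit 0x151a1e4302) (nat_lit 0x540504) (nat_lit 4))
 (.p (nat_lit 0xbe00bc00b600b4000504a906) (nat_lit 0x130c504) (nat_lit 26))))
 (.n (.n (.p (nat_lit 0xcc8282f02) (nat_lit 0x540201) (nat_lit 29))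
 (.p (nat_lit 0x89f089302) (nat_lit 0x500123) (nat_lit 16)))
 (.n (.p (nat_lit 0x3228d302) (nat_lit 0x400308) (nat_lit 1))
 (.p (nat_lit 0x5d375ebb02) (nat_lit 0x160060000b00) (nat_lit 36)))))
 (.n (.n (.n (.p (nat_lit 0x19cc19ca19c619c41799179306) (nat_lit 0x48000c4700) (nat_lit 51))
 (.p (nat_lit 0x1090108e108c108a1088139f06) (nat_lit 0x800009251c) (nat_lit 51)))
 (.n (.p (nat_lit 0xcfa238702) (nat_lit 0x40206) (nat_lit 4))
 (.p (nat_lit 0x5cd50fe302) (nat_lit 0x180020000400) (nat_lit 40))))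
 (.n (.n (.p (nat_lit 0x1590158e158a15881586246306) (nat_lit 0x4000084b02) (nat_lit 52))
 (.p (nat_lit 0xbb00bae0bac0baa0ba60b5506) (nat_lit 0x100008422a) (nat_lit 52)))
 (.n (.p (nat_lit 0x1916080302) (nat_lit 0x30070e) (nat_lit 4))
 (.p (nat_lit 0xe7260a502) (nat_lit 0x346068ca4000300040000) (nat_lit 49))))))

def c512_50 : Tr := .n c1024_50 c1024_562

def c1024_306 : Tr :=
 .n (.n (.n (.n (.n (.n (.p (nat_lit 0x1370127012003) (nat_lit 0x42000006) (nat_lit 19))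
 (.p (nat_lit 0x21d8616502) (nat_lit 0x340c62b84000400040600) (nat_lit 50)))
 (.p (nat_lit 0x33d653a102) (nat_lit 0xb10) (nat_lit 29)))
 (.n (.p (nat_lit 0x16761ce302) (nat_lit 0x100603) (nat_lit 4))
 (.p (nat_lit 0x27402a2102) (nat_lit 0x12b) (nat_lit 4))))
 (.n (.n (.p (nat_lit 0x1eaf1bcd02) (nat_lit 0x502900) (nat_lit 16))
 (.p (nat_lit 0x2e2a304902) (nat_lit 0x20011e) (nat_lit 4)))
 (.n (.p (nat_lit 0x2068256902) (nat_lit 0x540906) (nat_lit 4))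
 (.p (nat_lit 0x5e52308b02) (nat_lit 0x40700) (nat_lit 48)))))
 (.n (.n (.n (.p (nat_lit 0x108610841080107e0dfb0df506) (nat_lit 0x4800012400) (nat_lit 51))
 (.p (nat_lit 0x2c802cb02cd2f832f1b05) (nat_lit 0xa1940a17) (nat_lit 9)))
 (.n (.p (nat_lit 0x629061d02) (nat_lit 0xc005) (nat_lit 16))
 (.p (nat_lit 0x36c03680366036203fd00bd06) (nat_lit 0xc0a020) (nat_lit 26))))
 (.n (.n (.p (nat_lit 0x2317204f02) (nat_lit 0x440901) (nat_lit 15))
 (.p (nat_lit 0x25a2573902) (nat_lit 0x440b23) (nat_lit 29)))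
 (.n (.p (nat_lit 0x3b7b3b6f02) (nat_lit 0x204b0a) (nat_lit 16))
 (.p (nat_lit 0x2493248b21dd21d51f111f0b1c511c3d1983197516a716995f640d) (nat_lit 0x3aa074b44000000040600) (nat_lit 33))))))
 (.n (.n (.n (.n (.p (nat_lit 0x97609740970096c0723071f06) (nat_lit 0x5000050100) (nat_lit 51))
 (.p (nat_lit 0x285541d02) (nat_lit 0x240415) (nat_lit 30)))
 (.n (.p (nat_lit 0x3f843f823f803f7e3f7c0e5106) (nat_lit 0x8000016304) (nat_lit 52))
 (.p (nat_lit 0x3400320030002a0005046506) (nat_lit 0x1112501) (nat_lit 26))))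
 (.n (.n (.p (nat_lit 0x5ee16bf02) (nat_lit 0x100001) (nat_lit 4))
 (.p (nat_lit 0x5e8115b02) (nat_lit 0x400023) (nat_lit 5)))
 (.n (.p (nat_lit 0x200206e502) (nat_lit 0x240907) (nat_lit 4))
 (.p (nat_lit 0x5e98449f02) (nat_lit 0x20046a00) (nat_lit 48)))))
 (.n (.n (.n (.p (nat_lit 0x1620181702) (nat_lit 0x700) (nat_lit 5))
 (.p (nat_lit 0x3d0b073f02) (nat_lit 0x55201c) (nat_lit 16)))
 (.n (.p (nat_lit 0x4a8c4a8a4a884a864a844a8200f01d8d1d8b1d890a) (nat_lit 0x8840805) (nat_lit 31))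
 (.p (nat_lit 0x5df40b4702) (nat_lit 0xa300) (nat_lit 48))))
 (.n (.n (.p (nat_lit 0x1aea1ae81ae61ae41ae221b506) (nat_lit 0x800010a02) (nat_lit 51))
 (.p (nat_lit 0x50c44f0702) (nat_lit 0x440829) (nat_lit 4)))
 (.n (.p (nat_lit 0x249624942492248e248c123906) (nat_lit 0x20000d640e) (nat_lit 51))
 (.p (nat_lit 0x12aa606702) (nat_lit 0x5898b0b44000500000000) (nat_lit 50))))))

def c1024_818 : Tr :=
 .n (.n (.n (.n (.n (.n (.p (nat_lit 0x57e057c057a057804dd04db06) (nat_lit 0x1800012000) (nat_lit 51))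
 (.p (nat_lit 0x1ad661e502) (nat_lit 0x14e0a8c74000200000600) (nat_lit 49)))
 (.p (nat_lit 0x4850454d02) (nat_lit 0x340413) (nat_lit 4)))
 (.n (.p (nat_lit 0x3bbc3bba3bb83bb63bb43bb2009207) (nat_lit 0x40b03) (nat_lit 8))
 (.p (nat_lit 0x3bfa3a5b02) (nat_lit 0x40b2d) (nat_lit 5))))
 (.n (.n (.p (nat_lit 0x22342232222e222c1ff91ff706) (nat_lit 0x6000046a00) (nat_lit 52))
 (.p (nat_lit 0xeca0ec60ec40ec04241423b06) (nat_lit 0x900008a620) (nat_lit 51)))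
 (.n (.p (nat_lit 0x29290f6f02) (nat_lit 0x34c307) (nat_lit 16))
 (.p (nat_lit 0x5d755e7902) (nat_lit 0x80080000800) (nat_lit 37)))))
 (.n (.n (.n (.p (nat_lit 0x14241420141e141c141a122506) (nat_lit 0x8000044500) (nat_lit 51))
 (.p (nat_lit 0x48c645c902) (nat_lit 0x50051a) (nat_lit 4)))
 (.n (.p (nat_lit 0x1696227d02) (nat_lit 0x500605) (nat_lit 5))
 (.p (nat_lit 0x5dc2089f02) (nat_lit 0xa0008000) (nat_lit 47))))
 (.n (.n (.p (nat_lit 0x2fd22fce2fcc2fc80e390e3306) (nat_lit 0x9000080302) (nat_lit 51))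
 (.p (nat_lit 0x3d70402702) (nat_lit 0x127) (nat_lit 4)))
 (.n (.p (nat_lit 0x4e224acd02) (nat_lit 0x44030d) (nat_lit 5))
 (.p (nat_lit 0x6485fe902) (nat_lit 0x306a81d31000000040000) (nat_lit 50))))))
 (.n (.n (.n (.n (.p (nat_lit 0xd340d320d2e0d2c0b350b2f06) (nat_lit 0x4800080300) (nat_lit 51))
 (.p (nat_lit 0x1bee0c3902) (nat_lit 0x400815) (nat_lit 5)))
 (.n (.p (nat_lit 0x16ae16aa16a816a616a417fb06) (nat_lit 0x80000cc604) (nat_lit 51))
 (.p (nat_lit 0x18a5a0d02) (nat_lit 0x300707) (nat_lit 27))))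
 (.n (.n (.p (nat_lit 0x14f62a8502) (nat_lit 0x540501) (nat_lit 29))
 (.p (nat_lit 0xcae0cac0caa0ca80ca603ab0cb107) (nat_lit 0x540223) (nat_lit 7)))
 (.n (.p (nat_lit 0x18ba18b618b418b218b0301306) (nat_lit 0x8000012309) (nat_lit 52))
 (.p (nat_lit 0x1adc5edf02) (nat_lit 0x4a9d22344000200000600) (nat_lit 49)))))
 (.n (.n (.n (.p (nat_lit 0x1b901b8e1b8c1b8a1b8818f906) (nat_lit 0x80008c800) (nat_lit 51))
 (.p (nat_lit 0x1bf2555102) (nat_lit 0x81c) (nat_lit 29)))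
 (.n (.p (nat_lit 0x11b4fcd02) (nat_lit 0x400706) (nat_lit 30))
 (.p (nat_lit 0x5d19129902) (nat_lit 0x40040000500) (nat_lit 38))))
 (.n (.n (.p (nat_lit 0x8c01b0d02) (nat_lit 0x400103) (nat_lit 5))
 (.p (nat_lit 0x116411621160115e0e230e2106) (nat_lit 0x1800008032a) (nat_lit 51)))
 (.n (.p (nat_lit 0x44d444d044ce44cc44ca217506) (nat_lit 0x8000088a0e) (nat_lit 51))
 (.p (nat_lit 0x13ee60ed02) (nat_lit 0x340d6a3a4000500040000) (nat_lit 49))))))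

def c512_306 : Tr := .n c1024_306 c1024_818

def c256_50 : Tr := .n c512_50 c512_306

def c1024_178 : Tr :=
 .n (.n (.n (.n (.n (.n (.p (nat_lit 0xba00b600b400c104) (nat_lit 0x5800400004) (nat_lit 17))
 (.p (nat_lit 0x8fe614d02) (nat_lit 0x3b0221d85000100040000) (nat_lit 50)))
 (.p (nat_lit 0x18ba18b818b618b418b0317506) (nat_lit 0x1000052410) (nat_lit 52)))
 (.n (.p (nat_lit 0x3918391639123910390e126b06) (nat_lit 0x4000042403) (nat_lit 51))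
 (.p (nat_lit 0x219c149b02) (nat_lit 0xa2a) (nat_lit 4))))
 (.n (.n (.p (nat_lit 0x1de61de41de01dde1bc91bc306) (nat_lit 0x4800082900) (nat_lit 51))
 (.p (nat_lit 0x4b8f26c702) (nat_lit 0x55401d) (nat_lit 16)))
 (.n (.p (nat_lit 0x50b31d9702) (nat_lit 0x146806) (nat_lit 16))
 (.p (nat_lit 0x5d7b154902) (nat_lit 0x20080000600) (nat_lit 40)))))
 (.n (.n (.n (.p (nat_lit 0xdf80fe502) (nat_lit 0x200400) (nat_lit 5))
 (.p (nat_lit 0x2c3e285f02) (nat_lit 0x100a16) (nat_lit 5)))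
 (.n (.p (nat_lit 0xea25d302) (nat_lit 0x440b04) (nat_lit 1))
 (.p (nat_lit 0x2e75b4902) (nat_lit 0x100019) (nat_lit 28))))
 (.n (.n (.p (nat_lit 0x1ef71eeb02) (nat_lit 0x510901) (nat_lit 16))
 (.p (nat_lit 0x2196571f02) (nat_lit 0x300a23) (nat_lit 29)))
 (.n (.p (nat_lit 0x396a523d02) (nat_lit 0x24040a) (nat_lit 29))
 (.p (nat_lit 0x13fc5f4102) (nat_lit 0x3a2260b50000500040000) (nat_lit 50))))))
 (.n (.n (.n (.n (.p (nat_lit 0x89d05c502) (nat_lit 0x40a100) (nat_lit 16))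
 (.p (nat_lit 0x7fa07f807f607f40731072b06) (nat_lit 0x900004c015) (nat_lit 51)))
 (.n (.p (nat_lit 0x3e343e323e303e2e3e2c0b8d06) (nat_lit 0x1000008a204) (nat_lit 51))
 (.p (nat_lit 0x4cfe4f7502) (nat_lit 0x100230) (nat_lit 5))))
 (.n (.n (.p (nat_lit 0x252c252a25282526252222bd06) (nat_lit 0x100004eb00) (nat_lit 51))
 (.p (nat_lit 0x4f084f064f044f004efe4fbd06) (nat_lit 0x20000d0522) (nat_lit 52)))
 (.n (.p (nat_lit 0x19e1bd502) (nat_lit 0x300807) (nat_lit 1))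
 (.p (nat_lit 0x5d935e9302) (nat_lit 0x1a00a0000900) (nat_lit 37)))))
 (.n (.n (.n (.p (nat_lit 0x17541750174e174c174a16b906) (nat_lit 0x8000050600) (nat_lit 51))
 (.p (nat_lit 0x73e073c073a07360734030b073907) (nat_lit 0x24001c) (nat_lit 7)))
 (.n (.p (nat_lit 0x1c224a6102) (nat_lit 0x805) (nat_lit 29))
 (.p (nat_lit 0x5d375de902) (nat_lit 0x160060000200) (nat_lit 37))))
 (.n (.n (.p (nat_lit 0x1cf61cf01cee1cec205b205906) (nat_lit 0xc0000cc902) (nat_lit 52))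
 (.p (nat_lit 0x2378237423722370236e4c1506) (nat_lit 0x8000082129) (nat_lit 52)))
 (.n (.p (nat_lit 0x21d421d221d021ce21cc10e506) (nat_lit 0x1000009440e) (nat_lit 52))
 (.p (nat_lit 0x8ec604902) (nat_lit 0x406a6254c800100040000) (nat_lit 49))))))

def c1024_690 : Tr :=
 .n (.n (.n (.n (.n (.n (.p (nat_lit 0x4da04c302) (nat_lit 0x0) (nat_lit 4))
 (.p (nat_lit 0x233661c502) (nat_lit 0x3421684a0800500000600) (nat_lit 49)))
 (.p (nat_lit 0x42223d3d02) (nat_lit 0x100612) (nat_lit 5)))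
 (.n (.p (nat_lit 0x2472246e246c246800a6008f00892471246b09) (nat_lit 0x2100b03) (nat_lit 10))
 (.p (nat_lit 0x36ce587502) (nat_lit 0x22d) (nat_lit 29))))
 (.n (.n (.p (nat_lit 0x21522150214c21481e931e8f06) (nat_lit 0x5000090a00) (nat_lit 51))
 (.p (nat_lit 0x1fe41fe21fe01fde1fdc3c5f06) (nat_lit 0x800016020) (nat_lit 51)))
 (.n (.p (nat_lit 0x3f9b0e0b02) (nat_lit 0x512307) (nat_lit 16))
 (.p (nat_lit 0x5ccd1ad702) (nat_lit 0x200020000800) (nat_lit 38)))))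
 (.n (.n (.n (.p (nat_lit 0x132c132a13261324132210c906) (nat_lit 0x4000010500) (nat_lit 51))
 (.p (nat_lit 0xa7e0a7c0a7a0a764279427506) (nat_lit 0x2800048619) (nat_lit 52)))
 (.n (.p (nat_lit 0x483c483a483848364834127d06) (nat_lit 0x8000ce405) (nat_lit 52))
 (.p (nat_lit 0x5db42b8b02) (nat_lit 0x2000c000) (nat_lit 48))))
 (.n (.n (.p (nat_lit 0xa190a0d02) (nat_lit 0x252102) (nat_lit 16))
 (.p (nat_lit 0x36ca392d02) (nat_lit 0x400226) (nat_lit 4)))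
 (.n (.p (nat_lit 0x4970446b02) (nat_lit 0x30060c) (nat_lit 5))
 (.p (nat_lit 0x180a5fcd02) (nat_lit 0x95832b05000100000600) (nat_lit 49))))))
 (.n (.n (.n (.n (.p (nat_lit 0xc6a0c680c640c6209d309cd06) (nat_lit 0x4800054200) (nat_lit 51))
 (.p (nat_lit 0x289544502) (nat_lit 0x440615) (nat_lit 30)))
 (.n (.p (nat_lit 0x2080207e207c207a2078168106) (nat_lit 0x800014604) (nat_lit 51))
 (.p (nat_lit 0xbe59c102) (nat_lit 0x500805) (nat_lit 27))))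
 (.n (.n (.p (nat_lit 0x13ab10fb02) (nat_lit 0x400401) (nat_lit 15))
 (.p (nat_lit 0x9f309e702) (nat_lit 0x140123) (nat_lit 16)))
 (.n (.p (nat_lit 0x2b92263502) (nat_lit 0x500908) (nat_lit 5))
 (.p (nat_lit 0x5ec04c1702) (nat_lit 0xa0008b00) (nat_lit 47)))))
 (.n (.n (.n (.p (nat_lit 0x1a83179502) (nat_lit 0x144700) (nat_lit 16))
 (.p (nat_lit 0x2920291e291a29161657165306) (nat_lit 0x500009261c) (nat_lit 51)))
 (.n (.p (nat_lit 0x13e3113302) (nat_lit 0x200406) (nat_lit 15))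
 (.p (nat_lit 0x5e1a0fdd02) (nat_lit 0x80000400) (nat_lit 45))))
 (.n (.n (.p (nat_lit 0x1790178c178a1788178625bb06) (nat_lit 0x80000d4b02) (nat_lit 52))
 (.p (nat_lit 0xd1c0d1a0d180d160d140cb306) (nat_lit 0x80004622a) (nat_lit 51)))
 (.n (.p (nat_lit 0x1d46082702) (nat_lit 0x34080e) (nat_lit 4))
 (.p (nat_lit 0xbae60cf02) (nat_lit 0x35056a3a4000200040000) (nat_lit 49))))))

def c512_178 : Tr := .n c1024_178 c1024_690

def c1024_434 : Tr :=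
 .n (.n (.n (.n (.n (.n (.p (nat_lit 0x27d027b0279027604) (nat_lit 0x16300014) (nat_lit 20))
 (.p (nat_lit 0x1818618702) (nat_lit 0x54c88a970000100000600) (nat_lit 50)))
 (.p (nat_lit 0x1b841b821b801b7e1b7a397506) (nat_lit 0x100004c411) (nat_lit 51)))
 (.n (.p (nat_lit 0x17ee17ec17ea17e800a00091008717f117e709) (nat_lit 0x2840603) (nat_lit 10))
 (.p (nat_lit 0x142414221420141c141a2bc906) (nat_lit 0x200000492b) (nat_lit 51))))
 (.n (.n (.p (nat_lit 0x1fb41fb21fae1faa1d2f1d2b06) (nat_lit 0x500004c900) (nat_lit 51))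
 (.p (nat_lit 0x1cea1ce81ce41ce21ce034c506) (nat_lit 0x400000c01f) (nat_lit 52)))
 (.n (.p (nat_lit 0x81e081c081808160b410b3b06) (nat_lit 0x4800010207) (nat_lit 52))
 (.p (nat_lit 0x5d31181102) (nat_lit 0x1c0060000700) (nat_lit 38)))))
 (.n (.n (.n (.p (nat_lit 0x11681166116211600f630f5d06) (nat_lit 0x48000c0400) (nat_lit 51))
 (.p (nat_lit 0x3a6e371102) (nat_lit 0x440518) (nat_lit 4)))
 (.n (.p (nat_lit 0x2f60b9302) (nat_lit 0x200205) (nat_lit 1))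
 (.p (nat_lit 0x5c005bfe5bfc5bfa5bf8047d03dc07) (nat_lit 0x100824) (nat_lit 25))))
 (.n (.n (.p (nat_lit 0x3800450049161b178d05) (nat_lit 0xa0b40a01) (nat_lit 9))
 (.p (nat_lit 0x2bba29df02) (nat_lit 0x100924) (nat_lit 4)))
 (.n (.p (nat_lit 0x1fcc1fc81fc61fc41fc2401706) (nat_lit 0x800004e30b) (nat_lit 52))
 (.p (nat_lit 0x8ec5f8502) (nat_lit 0x581a32b44000100040000) (nat_lit 49))))))
 (.n (.n (.n (.n (.p (nat_lit 0xa720a700a6e0a6c0a68087306) (nat_lit 0x1000080200) (nat_lit 51))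
 (.p (nat_lit 0xe820e800e7e0e7c0e78138d06) (nat_lit 0x1000086515) (nat_lit 51)))
 (.n (.p (nat_lit 0xc200c700df1f8f1e2705) (nat_lit 0x22b40404) (nat_lit 9))
 (.p (nat_lit 0x19c591302) (nat_lit 0x200003) (nat_lit 27))))
 (.n (.n (.p (nat_lit 0x9fc156f02) (nat_lit 0x40101) (nat_lit 4))
 (.p (nat_lit 0x14a414a214a0149e0743074106) (nat_lit 0x1800054023) (nat_lit 52)))
 (.n (.p (nat_lit 0x241a51d302) (nat_lit 0x300b07) (nat_lit 29))
 (.p (nat_lit 0x5d8d5eab02) (nat_lit 0x2000a0000a00) (nat_lit 37)))))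
 (.n (.n (.n (.p (nat_lit 0x18e618e418e218e0162b162906) (nat_lit 0x18000016700) (nat_lit 51))
 (.p (nat_lit 0x9de0eaf02) (nat_lit 0x34011c) (nat_lit 4)))
 (.n (.p (nat_lit 0x4b9b079302) (nat_lit 0x548006) (nat_lit 16))
 (.p (nat_lit 0x5d790d0f02) (nat_lit 0x40080000300) (nat_lit 38))))
 (.n (.n (.p (nat_lit 0x15481546154415421540232506) (nat_lit 0x1000004ca02) (nat_lit 51))
 (.p (nat_lit 0x9fa09f809f609f409f2043509f107) (nat_lit 0x4012a) (nat_lit 7)))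
 (.n (.p (nat_lit 0x14d207f302) (nat_lit 0x54050e) (nat_lit 5))
 (.p (nat_lit 0x642608b02) (nat_lit 0x354221ca4000000040000) (nat_lit 50))))))

def c1024_946 : Tr :=
 .n (.n (.n (.n (.n (.p (nat_lit 0x68606820680067e067c065506) (nat_lit 0x80000c6000) (nat_lit 52))
 (.p (nat_lit 0x4e9e4bbb02) (nat_lit 0x400414) (nat_lit 4)))
 (.n (.p (nat_lit 0x3bfb25bf02) (nat_lit 0x4ab03) (nat_lit 16))
 (.p (nat_lit 0x142e142c142a14281426425b06) (nat_lit 0x1000008462e) (nat_lit 52))))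
 (.n (.n (.p (nat_lit 0x231b1ff302) (nat_lit 0x4ea00) (nat_lit 16))
 (.p (nat_lit 0x212e212c212a21262124441306) (nat_lit 0x200000e021) (nat_lit 52)))
 (.n (.p (nat_lit 0x122c069902) (nat_lit 0x240407) (nat_lit 4))
 (.p (nat_lit 0x5e7a386502) (nat_lit 0xa0040800) (nat_lit 48)))))
 (.n (.n (.n (.p (nat_lit 0x2a154d02) (nat_lit 0x600) (nat_lit 1))
 (.p (nat_lit 0x4eac4d1102) (nat_lit 0x50041b) (nat_lit 5)))
 (.n (.p (nat_lit 0xe749c102) (nat_lit 0x200705) (nat_lit 30))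
 (.p (nat_lit 0x5d3908ef02) (nat_lit 0x140060000100) (nat_lit 39))))
 (.n (.n (.p (nat_lit 0x31483146314431423140313e06) (nat_lit 0x52402) (nat_lit 52))
 (.p (nat_lit 0x4294406702) (nat_lit 0x440627) (nat_lit 4)))
 (.n (.p (nat_lit 0x1df52c302) (nat_lit 0x34090d) (nat_lit 30))
 (.p (nat_lit 0x154a600d02) (nat_lit 0x405aa0b54800000000600) (nat_lit 50))))))
 (.n (.n (.n (.n (.p (nat_lit 0xe2b0b3502) (nat_lit 0x30c300) (nat_lit 16))
 (.p (nat_lit 0x217a0b0302) (nat_lit 0x100a15) (nat_lit 4)))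
 (.n (.p (nat_lit 0x1cde1cdc1cda1cd8194f194d06) (nat_lit 0x180008a704) (nat_lit 51))
 (.p (nat_lit 0x4c05a6d02) (nat_lit 0x50040d) (nat_lit 27))))
 (.n (.n (.p (nat_lit 0x2aff1c1902) (nat_lit 0x100801) (nat_lit 16))
 (.p (nat_lit 0x17df17d302) (nat_lit 0x240623) (nat_lit 16)))
 (.n (.p (nat_lit 0x332c332a3328332433220189332707) (nat_lit 0x200a09) (nat_lit 7))
 (.p (nat_lit 0x248f248b21d921d51f151f0b1c471c3d1983197516ad16995f0a0d) (nat_lit 0x1a2260b50000000040600) (nat_lit 33)))))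
 (.n (.n (.n (.p (nat_lit 0x1a621c4102) (nat_lit 0x340800) (nat_lit 4))
 (.p (nat_lit 0x311557302) (nat_lit 0x50091c) (nat_lit 30)))
 (.n (.p (nat_lit 0x1c381c361c341c321c3001131c2f07) (nat_lit 0x806) (nat_lit 7))
 (.p (nat_lit 0x5da913f502) (nat_lit 0x400a0000500) (nat_lit 39))))
 (.n (.n (.p (nat_lit 0x8f365f02) (nat_lit 0x400203) (nat_lit 30))
 (.p (nat_lit 0x43f57e302) (nat_lit 0x50062a) (nat_lit 30)))
 (.n (.p (nat_lit 0x258d258102) (nat_lit 0x546b0e) (nat_lit 16))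
 (.p (nat_lit 0x634611102) (nat_lit 0x3425221b0000000040000) (nat_lit 49))))))

def c512_434 : Tr := .n c1024_434 c1024_946

def c256_178 : Tr := .n c512_178 c512_434

def c128_50 : Tr := .n c256_50 c256_178

def c1024_114 : Tr :=
 .n (.n (.n (.n (.n (.n (.p (nat_lit 0x79006b006603) (nat_lit 0x22000002) (nat_lit 19))
 (.p (nat_lit 0x8f0613d02) (nat_lit 0x342a21d84000100040000) (nat_lit 49)))
 (.p (nat_lit 0x332f2c3102) (nat_lit 0x10a0f) (nat_lit 16)))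
 (.n (.p (nat_lit 0x3880387e387c387a38783876009411151111110b0a) (nat_lit 0x15800403) (nat_lit 31))
 (.p (nat_lit 0x437581702) (nat_lit 0x10092a) (nat_lit 30))))
 (.n (.n (.p (nat_lit 0x1d711a5d02) (nat_lit 0x4a800) (nat_lit 16))
 (.p (nat_lit 0x244f244302) (nat_lit 0x50ab1c) (nat_lit 16)))
 (.n (.p (nat_lit 0x153e153c153a153615341d9906) (nat_lit 0x200004c806) (nat_lit 52))
 (.p (nat_lit 0x5e40196902) (nat_lit 0x40014600) (nat_lit 47)))))
 (.n (.n (.n (.p (nat_lit 0xf6d0c9302) (nat_lit 0x240300) (nat_lit 16))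
 (.p (nat_lit 0x15e215e015dc15da15d82aeb06) (nat_lit 0x4000050516) (nat_lit 52)))
 (.n (.p (nat_lit 0x22622260225e225a247f247706) (nat_lit 0x1100000ab04) (nat_lit 51))
 (.p (nat_lit 0x2895b0d02) (nat_lit 0x400415) (nat_lit 28))))
 (.n (.n (.p (nat_lit 0x13f213f013ee13ec13ea1eeb06) (nat_lit 0x1000008a901) (nat_lit 52))
 (.p (nat_lit 0x3a9570902) (nat_lit 0x400923) (nat_lit 30)))
 (.n (.p (nat_lit 0x8c386102) (nat_lit 0x34030a) (nat_lit 1))
 (.p (nat_lit 0x233c5f3502) (nat_lit 0x3a2560c44000500000600) (nat_lit 49))))))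
 (.n (.n (.n (.n (.p (nat_lit 0x7da07d807d607d207d005c106) (nat_lit 0x2000088100) (nat_lit 51))
 (.p (nat_lit 0x3c5905cd02) (nat_lit 0x212015) (nat_lit 16)))
 (.n (.p (nat_lit 0x3db83db63db43db23db00a2706) (nat_lit 0x40000ca104) (nat_lit 52))
 (.p (nat_lit 0x4f924f904f8c4f8a4f88499f06) (nat_lit 0x400001062f) (nat_lit 52))))
 (.n (.n (.p (nat_lit 0x22bc248f02) (nat_lit 0x140b00) (nat_lit 5))
 (.p (nat_lit 0x23f823f623f423f223f04b8f06) (nat_lit 0x100000d0022) (nat_lit 51)))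
 (.n (.p (nat_lit 0x1947190b02) (nat_lit 0x308707) (nat_lit 16))
 (.p (nat_lit 0x5e8c1d8f02) (nat_lit 0x60056900) (nat_lit 47)))))
 (.n (.n (.n (.p (nat_lit 0x16b616ab02) (nat_lit 0x340600) (nat_lit 5))
 (.p (nat_lit 0x1ade1ada1ad81ad61ad405dd06) (nat_lit 0x800001001c) (nat_lit 52)))
 (.n (.p (nat_lit 0x181418121810180e180c1abd06) (nat_lit 0x80004e705) (nat_lit 52))
 (.p (nat_lit 0x5ccf0a4702) (nat_lit 0x1e0020000200) (nat_lit 38))))
 (.n (.n (.p (nat_lit 0x205232c902) (nat_lit 0x40902) (nat_lit 29))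
 (.p (nat_lit 0x4a0949ff02) (nat_lit 0x300728) (nat_lit 16)))
 (.n (.p (nat_lit 0xd1c0d1a0d160d140d1210e106) (nat_lit 0x400000640e) (nat_lit 51))
 (.p (nat_lit 0x129e603702) (nat_lit 0x4a9d80b44000500000000) (nat_lit 49))))))

def c1024_626 : Tr :=
 .n (.n (.n (.n (.n (.n (.p (nat_lit 0x4220420041e042904) (nat_lit 0x7000400029) (nat_lit 17))
 (.p (nat_lit 0x207661b502) (nat_lit 0x322266c15000400000600) (nat_lit 50)))
 (.p (nat_lit 0x1fb41fb21fae1fac1faa410706) (nat_lit 0x400004c412) (nat_lit 51)))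
 (.n (.p (nat_lit 0x1f781f761f741f721f70233106) (nat_lit 0x100000c6a03) (nat_lit 52))
 (.p (nat_lit 0x33b8586f02) (nat_lit 0x340a2c) (nat_lit 29))))
 (.n (.n (.p (nat_lit 0x211621142112210e210c1e9106) (nat_lit 0x200000ca00) (nat_lit 52))
 (.p (nat_lit 0x3b9b3b8f02) (nat_lit 0xab1f) (nat_lit 16)))
 (.n (.p (nat_lit 0x154815461544154215400e0b06) (nat_lit 0x1000000c307) (nat_lit 51))
 (.p (nat_lit 0x5c951ad502) (nat_lit 0x280000000800) (nat_lit 38)))))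
 (.n (.n (.n (.p (nat_lit 0x12c212c012bc12ba12b810c906) (nat_lit 0x4000082500) (nat_lit 52))
 (.p (nat_lit 0x1e5a1e561e541e521e50420b06) (nat_lit 0x80000cc519) (nat_lit 51)))
 (.n (.p (nat_lit 0x47784776477447724770476e00ee07) (nat_lit 0x405) (nat_lit 8))
 (.p (nat_lit 0x5c95064102) (nat_lit 0x280000000000) (nat_lit 41))))
 (.n (.n (.p (nat_lit 0x8b4184102) (nat_lit 0x400102) (nat_lit 5))
 (.p (nat_lit 0x1d1a1d181d141d121d1035c706) (nat_lit 0x4000016126) (nat_lit 51)))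
 (.n (.p (nat_lit 0x213a213621342132213046ef06) (nat_lit 0x800008e30c) (nat_lit 51))
 (.p (nat_lit 0x233a5fc102) (nat_lit 0x8982e955800500000600) (nat_lit 49))))))
 (.n (.n (.n (.n (.p (nat_lit 0xbd20bd00bcc0bca09d709d106) (nat_lit 0x120000c0200) (nat_lit 52))
 (.p (nat_lit 0x4fb114d902) (nat_lit 0x256515) (nat_lit 16)))
 (.n (.p (nat_lit 0x8f208ee08ec08ea08e8168906) (nat_lit 0x8000082604) (nat_lit 52))
 (.p (nat_lit 0x599c599a599859965994041300ee07) (nat_lit 0x50a305) (nat_lit 25))))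
 (.n (.n (.p (nat_lit 0x28f028ee28ec28ea28e828e6003607) (nat_lit 0x40301) (nat_lit 8))
 (.p (nat_lit 0xd1c0d180d160d140d1209ed06) (nat_lit 0x8000046123) (nat_lit 51)))
 (.n (.p (nat_lit 0x2b00268702) (nat_lit 0x200808) (nat_lit 5))
 (.p (nat_lit 0x5d675ebf02) (nat_lit 0x160080000b00) (nat_lit 36)))))
 (.n (.n (.n (.p (nat_lit 0x1a421a401a3e1a3c1a3a1a3806) (nat_lit 0xd4700) (nat_lit 52))
 (.p (nat_lit 0x11721170116e116c14eb14e106) (nat_lit 0x1080004251c) (nat_lit 51)))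
 (.n (.p (nat_lit 0xfd20fce0fcc0fca0fc8011b0fd107) (nat_lit 0x440306) (nat_lit 7))
 (.p (nat_lit 0x5d335e1902) (nat_lit 0x1a0060000400) (nat_lit 37))))
 (.n (.n (.p (nat_lit 0x25b4341102) (nat_lit 0x140b02) (nat_lit 29))
 (.p (nat_lit 0x21d621d421d221ce21cc0b5706) (nat_lit 0x200009422a) (nat_lit 52)))
 (.n (.p (nat_lit 0x1bdc531f02) (nat_lit 0x10080e) (nat_lit 29))
 (.p (nat_lit 0x207e60b102) (nat_lit 0x3505223a4000400000600) (nat_lit 50))))))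

def c512_114 : Tr := .n c1024_114 c1024_626

def c1024_370 : Tr :=
 .n (.n (.n (.n (.n (.n (.p (nat_lit 0x1a2019c019801a504) (nat_lit 0x1280040000a) (nat_lit 17))
 (.p (nat_lit 0x1978617702) (nat_lit 0x340c6ab84000100040600) (nat_lit 49)))
 (.p (nat_lit 0x38e838e438e238e038de024138e707) (nat_lit 0x400411) (nat_lit 7)))
 (.n (.p (nat_lit 0x18de18da18d818d618d4167d06) (nat_lit 0x8000094603) (nat_lit 51))
 (.p (nat_lit 0x3d2293102) (nat_lit 0x14032b) (nat_lit 1))))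
 (.n (.n (.p (nat_lit 0x1f171f0b02) (nat_lit 0x340900) (nat_lit 34))
 (.p (nat_lit 0xd640d620d600d5e0d5a334906) (nat_lit 0x100008aa1e) (nat_lit 52)))
 (.n (.p (nat_lit 0xb3c513302) (nat_lit 0x100207) (nat_lit 29))
 (.p (nat_lit 0x5d19198102) (nat_lit 0x40040000700) (nat_lit 41)))))
 (.n (.n (.n (.p (nat_lit 0x11130dfd02) (nat_lit 0x410400) (nat_lit 16))
 (.p (nat_lit 0x35723570356e356c3547353d06) (nat_lit 0x108000c6018) (nat_lit 52)))
 (.n (.p (nat_lit 0x8d444b902) (nat_lit 0x200105) (nat_lit 29))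
 (.p (nat_lit 0x3aa03a403a203a00009043b06) (nat_lit 0x2302023) (nat_lit 26))))
 (.n (.n (.p (nat_lit 0x21b021ae21aa21a800500035002f21b321ad09) (nat_lit 0x2a00a01) (nat_lit 10))
 (.p (nat_lit 0x27aa29bf02) (nat_lit 0x40124) (nat_lit 4)))
 (.n (.p (nat_lit 0x3f103c8502) (nat_lit 0x14020b) (nat_lit 5))
 (.p (nat_lit 0x6345f7702) (nat_lit 0x3aa074b50000000040000) (nat_lit 49))))))
 (.n (.n (.n (.n (.p (nat_lit 0xa2b072702) (nat_lit 0x552100) (nat_lit 16))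
 (.p (nat_lit 0x14d5124102) (nat_lit 0x40415) (nat_lit 15)))
 (.n (.p (nat_lit 0x11181e1702) (nat_lit 0x100404) (nat_lit 4))
 (.p (nat_lit 0x60005e005c00580003022d06) (nat_lit 0xd14102) (nat_lit 26))))
 (.n (.n (.p (nat_lit 0x2676267426722670266e074d06) (nat_lit 0x8000c6001) (nat_lit 52))
 (.p (nat_lit 0x740115f02) (nat_lit 0x40023) (nat_lit 5)))
 (.n (.p (nat_lit 0x21a7216b02) (nat_lit 0x508a07) (nat_lit 16))
 (.p (nat_lit 0x5d7b21d502) (nat_lit 0x20080000a00) (nat_lit 39)))))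
 (.n (.n (.n (.p (nat_lit 0x18ac18aa18a818a6162b162106) (nat_lit 0x1080008a700) (nat_lit 51))
 (.p (nat_lit 0xbf80bf60bf20bf00bee088306) (nat_lit 0x400000a11c) (nat_lit 51)))
 (.n (.p (nat_lit 0x62a4aa302) (nat_lit 0x100006) (nat_lit 29))
 (.p (nat_lit 0x5cfb5dfd02) (nat_lit 0x220040000300) (nat_lit 36))))
 (.n (.n (.p (nat_lit 0x232018db02) (nat_lit 0x340a02) (nat_lit 5))
 (.p (nat_lit 0x89e12b702) (nat_lit 0x50012a) (nat_lit 4)))
 (.n (.p (nat_lit 0x4f004ee04ea04e804e6138506) (nat_lit 0x400000450e) (nat_lit 52))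
 (.p (nat_lit 0x154a607902) (nat_lit 0x4688ae154000000000600) (nat_lit 50))))))

def c1024_882 : Tr :=
 .n (.n (.n (.n (.n (.p (nat_lit 0x62d04df02) (nat_lit 0x216000) (nat_lit 16))
 (.p (nat_lit 0x4a26457502) (nat_lit 0x140713) (nat_lit 5)))
 (.n (.p (nat_lit 0x11421140113e113c113a25c906) (nat_lit 0x100000c8b03) (nat_lit 52))
 (.p (nat_lit 0xba3f2b02) (nat_lit 0x34022e) (nat_lit 1))))
 (.n (.n (.p (nat_lit 0x22ac22aa22a822a622a21ff506) (nat_lit 0x1000050a00) (nat_lit 52))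
 (.p (nat_lit 0x42e942dd02) (nat_lit 0x40a720) (nat_lit 16)))
 (.n (.p (nat_lit 0x12b612b212b012ac10d710d106) (nat_lit 0x9000002407) (nat_lit 52))
 (.p (nat_lit 0x5e76195502) (nat_lit 0x80014800) (nat_lit 48)))))
 (.n (.n (.n (.p (nat_lit 0x14b014ae14ac14a814a6122106) (nat_lit 0x20000d4500) (nat_lit 52))
 (.p (nat_lit 0x49e1498102) (nat_lit 0x61a) (nat_lit 15)))
 (.n (.p (nat_lit 0xe349a502) (nat_lit 0x40605) (nat_lit 30))
 (.p (nat_lit 0x5dca079702) (nat_lit 0x20000100) (nat_lit 45))))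
 (.n (.n (.p (nat_lit 0xfab0f9f02) (nat_lit 0x352302) (nat_lit 16))
 (.p (nat_lit 0x1e721e701e6e1e6c1e6a3df306) (nat_lit 0x8000ce127) (nat_lit 51)))
 (.n (.p (nat_lit 0x503c4af302) (nat_lit 0x20080d) (nat_lit 4))
 (.p (nat_lit 0x7985ff902) (nat_lit 0x466b80b44000100000000) (nat_lit 49))))))
 (.n (.n (.n (.n (.p (nat_lit 0xd880d820d800d7e0b370b3506) (nat_lit 0xc00000e300) (nat_lit 51))
 (.p (nat_lit 0x1eb4547d02) (nat_lit 0x200915) (nat_lit 29)))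
 (.n (.p (nat_lit 0x194c1fc302) (nat_lit 0x704) (nat_lit 4))
 (.p (nat_lit 0x18c018a018601840173014b06) (nat_lit 0x1516a09) (nat_lit 26))))
 (.n (.n (.p (nat_lit 0x1c2015e302) (nat_lit 0x500801) (nat_lit 4))
 (.p (nat_lit 0x46850cab02) (nat_lit 0x254223) (nat_lit 16)))
 (.n (.p (nat_lit 0x31a831a431a231a0319e30f706) (nat_lit 0x8000084409) (nat_lit 51))
 (.p (nat_lit 0xd0e5eed02) (nat_lit 0x4a1d84344000300000000) (nat_lit 49)))))
 (.n (.n (.n (.p (nat_lit 0x1bdf18fd02) (nat_lit 0x202800) (nat_lit 16))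
 (.p (nat_lit 0x314033303230da50f0d05) (nat_lit 0xaca4081c) (nat_lit 9)))
 (.n (.p (nat_lit 0x1ace23df02) (nat_lit 0x340706) (nat_lit 4))
 (.p (nat_lit 0x5d2713fd02) (nat_lit 0x260060000500) (nat_lit 41))))
 (.n (.n (.p (nat_lit 0xa1e35e102) (nat_lit 0x540103) (nat_lit 29))
 (.p (nat_lit 0x115c115a115611540f870f8106) (nat_lit 0x480004032a) (nat_lit 51)))
 (.n (.p (nat_lit 0x2428086102) (nat_lit 0x400b0e) (nat_lit 5))
 (.p (nat_lit 0x1adc60f902) (nat_lit 0x460d623a4000200000600) (nat_lit 49))))))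

def c512_370 : Tr := .n c1024_370 c1024_882

def c256_114 : Tr := .n c512_114 c512_370

def c1024_242 : Tr :=
 .n (.n (.n (.n (.n (.n (.p (nat_lit 0xec00e800e400ef04) (nat_lit 0x15000400005) (nat_lit 17))
 (.p (nat_lit 0x1da2615902) (nat_lit 0x352829d84000300000600) (nat_lit 49)))
 (.p (nat_lit 0x32e42df902) (nat_lit 0x440910) (nat_lit 4)))
 (.n (.p (nat_lit 0x60913bf02) (nat_lit 0x200503) (nat_lit 15))
 (.p (nat_lit 0x230a14af02) (nat_lit 0x440a2a) (nat_lit 4))))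
 (.n (.n (.p (nat_lit 0x1e661e641e621e601bc51bc306) (nat_lit 0x180000e900) (nat_lit 51))
 (.p (nat_lit 0xd340d300d2e0d2c0d2a2c0906) (nat_lit 0x80000c091d) (nat_lit 51)))
 (.n (.p (nat_lit 0x228822862282227e1eff1efb06) (nat_lit 0x500008c906) (nat_lit 51))
 (.p (nat_lit 0x5e4e246702) (nat_lit 0xa0010600) (nat_lit 48)))))
 (.n (.n (.n (.p (nat_lit 0x100c100a100810060dff0df506) (nat_lit 0x10800002400) (nat_lit 52))
 (.p (nat_lit 0x18d018ce18cc18ca18c8328306) (nat_lit 0x10000054517) (nat_lit 52)))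
 (.n (.p (nat_lit 0x436725cb02) (nat_lit 0x40b04) (nat_lit 16))
 (.p (nat_lit 0x30e030c030a0306036d000306) (nat_lit 0x291201c) (nat_lit 26))))
 (.n (.n (.p (nat_lit 0xd100d0e0d0a0d080d06204d06) (nat_lit 0x4000046901) (nat_lit 52))
 (.p (nat_lit 0x422244b02) (nat_lit 0x300b23) (nat_lit 1)))
 (.n (.p (nat_lit 0x3ae4348902) (nat_lit 0x100a0a) (nat_lit 5))
 (.p (nat_lit 0x1db05f5902) (nat_lit 0x1a2262350000300000600) (nat_lit 50))))))
 (.n (.n (.n (.n (.p (nat_lit 0x90a0906090409020725071d06) (nat_lit 0x8800046100) (nat_lit 51))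
 (.p (nat_lit 0x5416541454125410540e540c028e10ed10eb10e70a) (nat_lit 0xd000415) (nat_lit 31)))
 (.n (.p (nat_lit 0x3eb23eb03eae3eac3eaa0ceb06) (nat_lit 0x8000048204) (nat_lit 51))
 (.p (nat_lit 0x31588702) (nat_lit 0x300001) (nat_lit 28))))
 (.n (.n (.p (nat_lit 0x256425622560255e22c522c306) (nat_lit 0x180000d2b00) (nat_lit 52))
 (.p (nat_lit 0x50b24e1102) (nat_lit 0x140822) (nat_lit 4)))
 (.n (.p (nat_lit 0x14551a102) (nat_lit 0x240807) (nat_lit 30))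
 (.p (nat_lit 0x5e96474f02) (nat_lit 0x40a00) (nat_lit 47)))))
 (.n (.n (.n (.p (nat_lit 0x1782177e177c177a16bb16b706) (nat_lit 0x14000054600) (nat_lit 52))
 (.p (nat_lit 0x1820181c181a18181816073d06) (nat_lit 0x800004e01c) (nat_lit 51)))
 (.n (.p (nat_lit 0x1e721e701e6c1e6a1e681c2906) (nat_lit 0x400008e805) (nat_lit 51))
 (.p (nat_lit 0x5d530a4d02) (nat_lit 0x2a0080000200) (nat_lit 38))))
 (.n (.n (.p (nat_lit 0x4cc04ca04c804c604c221b706) (nat_lit 0x1000000a02) (nat_lit 52))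
 (.p (nat_lit 0x4d704d6e4d6c4d6a4d664d4706) (nat_lit 0x1000040229) (nat_lit 52)))
 (.n (.p (nat_lit 0xbb00bac0baa0ba80ba6123d06) (nat_lit 0x80000c440e) (nat_lit 52))
 (.p (nat_lit 0xbba605702) (nat_lit 0x506272b31000200040000) (nat_lit 50))))))

def c1024_754 : Tr :=
 .n (.n (.n (.n (.n (.n (.p (nat_lit 0x50805060504050204fe04dd06) (nat_lit 0x1000006000) (nat_lit 52))
 (.p (nat_lit 0x154661d702) (nat_lit 0x542266c0c800000000600) (nat_lit 50)))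
 (.p (nat_lit 0x49dd42c502) (nat_lit 0x416712) (nat_lit 16)))
 (.n (.p (nat_lit 0x197a1976197419721970247106) (nat_lit 0x800008eb03) (nat_lit 52))
 (.p (nat_lit 0x37e43a4102) (nat_lit 0x40032d) (nat_lit 4))))
 (.n (.n (.p (nat_lit 0x21c91e9502) (nat_lit 0x410a00) (nat_lit 16))
 (.p (nat_lit 0x3df03dec3dea3de83de6036b3def07) (nat_lit 0x440120) (nat_lit 7)))
 (.n (.p (nat_lit 0x16a216a0169e169c169a0f6906) (nat_lit 0x8000cc307) (nat_lit 52))
 (.p (nat_lit 0x5e6e385f02) (nat_lit 0x40040800) (nat_lit 48)))))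
 (.n (.n (.n (.p (nat_lit 0x13cf10cb02) (nat_lit 0x412500) (nat_lit 16))
 (.p (nat_lit 0x45ea45e845e645e445e0437d06) (nat_lit 0x100004eb19) (nat_lit 51)))
 (.n (.p (nat_lit 0xe948db02) (nat_lit 0x340505) (nat_lit 30))
 (.p (nat_lit 0x5dba421b02) (nat_lit 0x60012000) (nat_lit 47))))
 (.n (.n (.p (nat_lit 0xcd40cd20cce0cca0076005f005b0cd10ccd09) (nat_lit 0x1940202) (nat_lit 10))
 (.p (nat_lit 0x3b9c395102) (nat_lit 0x100b26) (nat_lit 5)))
 (.n (.p (nat_lit 0x4a2b4a1f02) (nat_lit 0x34470c) (nat_lit 16))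
 (.p (nat_lit 0xe765fd702) (nat_lit 0x3842a1c35000300040000) (nat_lit 49))))))
 (.n (.n (.n (.n (.p (nat_lit 0xcf909d702) (nat_lit 0x554200) (nat_lit 16))
 (.p (nat_lit 0x192f192302) (nat_lit 0x308715) (nat_lit 16)))
 (.n (.p (nat_lit 0xc200d900df1e5b1fc105) (nat_lit 0x89d40604) (nat_lit 9))
 (.p (nat_lit 0x11c0118011601140001003306) (nat_lit 0x410706) (nat_lit 26))))
 (.n (.n (.p (nat_lit 0x13a6173702) (nat_lit 0x200501) (nat_lit 4))
 (.p (nat_lit 0xd340d320d300d2c0d2a0b4b06) (nat_lit 0x2000080223) (nat_lit 51)))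
 (.n (.p (nat_lit 0x2e6a2e662e642e622e602f3706) (nat_lit 0x8000088209) (nat_lit 52))
 (.p (nat_lit 0x15425ed302) (nat_lit 0x4a1a36344000000000600) (nat_lit 50)))))
 (.n (.n (.n (.p (nat_lit 0x1902190018fe18f800160005000318fd18fb09) (nat_lit 0x1100800) (nat_lit 10))
 (.p (nat_lit 0x311554302) (nat_lit 0x50071c) (nat_lit 30)))
 (.n (.p (nat_lit 0x13e0250d02) (nat_lit 0x100506) (nat_lit 4))
 (.p (nat_lit 0x5cb15e2302) (nat_lit 0xc0000000500) (nat_lit 36))))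
 (.n (.n (.p (nat_lit 0x19e076b02) (nat_lit 0x340003) (nat_lit 1))
 (.p (nat_lit 0x248a24882484248224800cb906) (nat_lit 0x40000d622a) (nat_lit 52)))
 (.n (.p (nat_lit 0x1eae1eac1ea81ea401fe01ed01e91eab1ea709) (nat_lit 0x190090e) (nat_lit 10))
 (.p (nat_lit 0x115060d902) (nat_lit 0x3542623b0000400040000) (nat_lit 50))))))

def c512_242 : Tr := .n c1024_242 c1024_754

def c1024_498 : Tr :=
 .n (.n (.n (.n (.n (.n (.p (nat_lit 0x31003080306031304) (nat_lit 0x1180040001c) (nat_lit 17))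
 (.p (nat_lit 0x8e8619b02) (nat_lit 0x340aa5c14800100040000) (nat_lit 49)))
 (.p (nat_lit 0x3b7835a302) (nat_lit 0x100b11) (nat_lit 5)))
 (.n (.p (nat_lit 0x21c23ad902) (nat_lit 0x100a03) (nat_lit 29))
 (.p (nat_lit 0x2fa831a302) (nat_lit 0x24022c) (nat_lit 5))))
 (.n (.n (.p (nat_lit 0x1ff01fee1fea1fe61d2f1d2b06) (nat_lit 0x50000d6900) (nat_lit 51))
 (.p (nat_lit 0x363255c902) (nat_lit 0x4011f) (nat_lit 29)))
 (.n (.p (nat_lit 0xca4514702) (nat_lit 0x540207) (nat_lit 29))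
 (.p (nat_lit 0x5d65197902) (nat_lit 0x180080000700) (nat_lit 39)))))
 (.n (.n (.n (.p (nat_lit 0x11e411de11dc11da0f650f6306) (nat_lit 0xc000052400) (nat_lit 52))
 (.p (nat_lit 0x3b8a36a702) (nat_lit 0x400b18) (nat_lit 5)))
 (.n (.p (nat_lit 0xcf60cf40cf20cee010400ed00e50cf90cf109) (nat_lit 0x2940205) (nat_lit 10))
 (.p (nat_lit 0x5c365c345c325c305c2e0001044007) (nat_lit 0x232a) (nat_lit 25))))
 (.n (.n (.p (nat_lit 0x18805fd02) (nat_lit 0x200002) (nat_lit 1))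
 (.p (nat_lit 0x1a361a341a321a301a2c2e3506) (nat_lit 0x1000014125) (nat_lit 51)))
 (.n (.p (nat_lit 0x42623cd102) (nat_lit 0x34060b) (nat_lit 5))
 (.p (nat_lit 0x181a5f9502) (nat_lit 0x581a302a4000100000600) (nat_lit 50))))))
 (.n (.n (.n (.n (.p (nat_lit 0xade0adc0ada0ad80ad4087306) (nat_lit 0x1000010200) (nat_lit 52))
 (.p (nat_lit 0x5d1139302) (nat_lit 0x400515) (nat_lit 15)))
 (.n (.p (nat_lit 0x13ce13cc13ca13c813c600bf13d107) (nat_lit 0x500504) (nat_lit 7))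
 (.p (nat_lit 0x5c594302) (nat_lit 0x200603) (nat_lit 27))))
 (.n (.n (.p (nat_lit 0x2f27bb02) (nat_lit 0x200201) (nat_lit 30))
 (.p (nat_lit 0xe740e720e700e6e0e6c089306) (nat_lit 0x10000086123) (nat_lit 52)))
 (.n (.p (nat_lit 0x2581257502) (nat_lit 0x544b07) (nat_lit 16))
 (.p (nat_lit 0x5cd95eb302) (nat_lit 0x140020000b00) (nat_lit 36)))))
 (.n (.n (.n (.p (nat_lit 0x1963162b02) (nat_lit 0x514700) (nat_lit 16))
 (.p (nat_lit 0x13960d4f02) (nat_lit 0x51c) (nat_lit 4)))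
 (.n (.p (nat_lit 0xa420a400a3c0a3a0a3801190a3f07) (nat_lit 0x340106) (nat_lit 7))
 (.p (nat_lit 0x5d850d1102) (nat_lit 0x2800a0000300) (nat_lit 38))))
 (.n (.n (.p (nat_lit 0x3399232502) (nat_lit 0x544a02) (nat_lit 16))
 (.p (nat_lit 0x51e051c051a0518051609fb06) (nat_lit 0x1000004812a) (nat_lit 51)))
 (.n (.p (nat_lit 0x163807f502) (nat_lit 0x60e) (nat_lit 5))
 (.p (nat_lit 0x1ae4609502) (nat_lit 0x342529ca4000200000600) (nat_lit 50))))))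

def c1024_1010 : Tr :=
 .n (.n (.n (.n (.n (.p (nat_lit 0x725065502) (nat_lit 0x440000) (nat_lit 15))
 (.p (nat_lit 0x271a27182716271427104fdd06) (nat_lit 0x1000012714) (nat_lit 52)))
 (.n (.p (nat_lit 0x3c743c723c703c6e3c6c3c6a00c007) (nat_lit 0x40004) (nat_lit 8))
 (.p (nat_lit 0x4b043a502) (nat_lit 0x340b2e) (nat_lit 1))))
 (.n (.n (.p (nat_lit 0x23be23bc23ba23b823b6215506) (nat_lit 0x800088b00) (nat_lit 51))
 (.p (nat_lit 0x441348cd02) (nat_lit 0x200521) (nat_lit 15)))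
 (.n (.p (nat_lit 0x1320131e131c131a1318122f06) (nat_lit 0x40000ce407) (nat_lit 52))
 (.p (nat_lit 0x5cd31daf02) (nat_lit 0x1a0020000900) (nat_lit 40)))))
 (.n (.n (.n (.p (nat_lit 0x15e015de15dc15da15d8155706) (nat_lit 0x10000010600) (nat_lit 52))
 (.p (nat_lit 0x50504ccf02) (nat_lit 0x81b) (nat_lit 4)))
 (.n (.p (nat_lit 0x1ade1ada1ad81ad61ad4196106) (nat_lit 0x8000010705) (nat_lit 52))
 (.p (nat_lit 0x5dd6079d02) (nat_lit 0x80000100) (nat_lit 45))))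
 (.n (.n (.p (nat_lit 0x1502150014fe14fa14f8005d14fd07) (nat_lit 0x240502) (nat_lit 7))
 (.p (nat_lit 0x44ac577d02) (nat_lit 0x240028) (nat_lit 29)))
 (.n (.p (nat_lit 0xa960a920a900a8e0a8c0e1506) (nat_lit 0x800000a30e) (nat_lit 52))
 (.p (nat_lit 0xd18601902) (nat_lit 0x46ab80b44000300000000) (nat_lit 50))))))
 (.n (.n (.n (.n (.p (nat_lit 0xe8e0e8c0e860e840c950c9306) (nat_lit 0x6000040300) (nat_lit 51))
 (.p (nat_lit 0x22e0549f02) (nat_lit 0x140a15) (nat_lit 29)))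
 (.n (.p (nat_lit 0x1ab21e6b02) (nat_lit 0x140704) (nat_lit 5))
 (.p (nat_lit 0x1eb5a8902) (nat_lit 0x20060e) (nat_lit 28))))
 (.n (.n (.p (nat_lit 0x19fa19f819f419f219f01d8306) (nat_lit 0x40000c8801) (nat_lit 51))
 (.p (nat_lit 0x3ec1bff02) (nat_lit 0x823) (nat_lit 1)))
 (.n (.p (nat_lit 0x33cc2ce102) (nat_lit 0x100b09) (nat_lit 5))
 (.p (nat_lit 0x181c5f1702) (nat_lit 0x3a2260b50000100000600) (nat_lit 50)))))
 (.n (.n (.n (.p (nat_lit 0x1cb81cb61cb21cb01a671a6106) (nat_lit 0x12000048800) (nat_lit 51))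
 (.p (nat_lit 0x388218902) (nat_lit 0x200a1c) (nat_lit 1)))
 (.n (.p (nat_lit 0x13f213f013ee13ec13ea1c3906) (nat_lit 0x1000008a806) (nat_lit 52))
 (.p (nat_lit 0x5c9b153502) (nat_lit 0x220000000600) (nat_lit 38))))
 (.n (.n (.p (nat_lit 0xe3c1b3302) (nat_lit 0x303) (nat_lit 4))
 (.p (nat_lit 0x1946145d02) (nat_lit 0x30072a) (nat_lit 5)))
 (.n (.p (nat_lit 0x2ade277102) (nat_lit 0x34050f) (nat_lit 4))
 (.p (nat_lit 0x2492611b02) (nat_lit 0x350522264000500040600) (nat_lit 50))))))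

def c512_498 : Tr := .n c1024_498 c1024_1010

def c256_242 : Tr := .n c512_242 c512_498

def c128_114 : Tr := .n c256_114 c256_242

def c64_50 : Tr := .n c128_50 c128_114

def c32_18 : Tr := .n c64_18 c64_50

def c16_2 : Tr := .n c32_2 c32_18

def b2 : Tr := c16_2

theorem hb4_2 : allp (tst G49 true (getA DT)) b2 = true := by decide +kernel

end Vale.Agent.P032.H437.Ev2
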