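import Vale.Agent.P032.H437.Ev2.T

namespace Vale.Agent.P032.H437.Ev2
open Vale.Agent.P032.H859.Rup Vale.Agent.P032.H437

def c1024_3 : Tr :=
 .n (.n (.n (.n (.n (.n (.p (nat_lit 0x601) (nat_lit 0x300000) (nat_lit 0))
 (.p (nat_lit 0x1c42611f02) (nat_lit 0x35056a3a4000200040600) (nat_lit 49)))
 (.p (nat_lit 0x261e261c261a261826162ad906) (nat_lit 0x80005050f) (nat_lit 52)))
 (.n (.p (nat_lit 0xe461ca302) (nat_lit 0x500303) (nat_lit 5))
 (.p (nat_lit 0x319c319a319631943192194706) (nat_lit 0x400000472a) (nat_lit 52))))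
 (.n (.n (.p (nat_lit 0x1cde1cda1cd81cd61cd41a6506) (nat_lit 0x80000ca800) (nat_lit 51))
 (.p (nat_lit 0x3140333032d0f350dcd05) (nat_lit 0xad400a1c) (nat_lit 9)))
 (.n (.p (nat_lit 0x1daa1da81da41da21da01c3506) (nat_lit 0x4000012806) (nat_lit 52))
 (.p (nat_lit 0x5e38281902) (nat_lit 0xa600) (nat_lit 47)))))
 (.n (.n (.n (.p (nat_lit 0xe980e960e920e900c990c9306) (nat_lit 0x120000c0300) (nat_lit 52))
 (.p (nat_lit 0x45b045ae45ac45aa22e722e106) (nat_lit 0x9000048a15) (nat_lit 52)))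
 (.n (.p (nat_lit 0x1ab842ff02) (nat_lit 0x440704) (nat_lit 29))
 (.p (nat_lit 0x5a9a5a985a965a925a90023d01f207) (nat_lit 0x21270e) (nat_lit 25))))
 (.n (.n (.p (nat_lit 0x1a361a321a301a2e1a2c1d8506) (nat_lit 0x8000054801) (nat_lit 51))
 (.p (nat_lit 0x1c06106d02) (nat_lit 0x400823) (nat_lit 5)))
 (.n (.p (nat_lit 0x263e263c263a2638263633cd06) (nat_lit 0x1000092b09) (nat_lit 51))
 (.p (nat_lit 0x20725f1902) (nat_lit 0x1a2274b50000400000600) (nat_lit 49))))))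
 (.n (.n (.n (.n (.p (nat_lit 0x747065302) (nat_lit 0x348000) (nat_lit 16))
 (.p (nat_lit 0x50444be902) (nat_lit 0x814) (nat_lit 4)))
 (.n (.p (nat_lit 0x7763c7102) (nat_lit 0x340004) (nat_lit 29))
 (.p (nat_lit 0x452c48e902) (nat_lit 0x50012f) (nat_lit 5))))
 (.n (.n (.p (nat_lit 0x23e223e023dc23da23d8215b06) (nat_lit 0x400008eb00) (nat_lit 52))
 (.p (nat_lit 0x49ec46cf02) (nat_lit 0x721) (nat_lit 5)))
 (.n (.p (nat_lit 0x40f7122b02) (nat_lit 0x152407) (nat_lit 16))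
 (.p (nat_lit 0x5e84419502) (nat_lit 0x20004900) (nat_lit 47)))))
 (.n (.n (.n (.p (nat_lit 0x15fa15f815f615f415f0154f06) (nat_lit 0x1000012600) (nat_lit 52))
 (.p (nat_lit 0x50a84cdf02) (nat_lit 0x24081b) (nat_lit 4)))
 (.n (.p (nat_lit 0x21e021de21dc21da21d8196306) (nat_lit 0x10000094705) (nat_lit 51))
 (.p (nat_lit 0x5d955ddb02) (nat_lit 0x1800a0000100) (nat_lit 36))))
 (.n (.n (.p (nat_lit 0x1502150014fa14f8007c005f005d14ff14fd09) (nat_lit 0x1a40502) (nat_lit 10))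
 (.p (nat_lit 0x491c491a4918491644b144a906) (nat_lit 0x88000c6028) (nat_lit 52)))
 (.n (.p (nat_lit 0x4dcd0e0d02) (nat_lit 0x1630e) (nat_lit 16))
 (.p (nat_lit 0x2495248121dd21d31f131f0f1c471c431983197516af169b601c0d) (nat_lit 0x4099a2354800000040600) (nat_lit 33))))))

def c1024_515 : Tr :=
 .n (.n (.n (.n (.n (.n (.p (nat_lit 0x3100306031503) (nat_lit 0x1080050001c) (nat_lit 17))
 (.p (nat_lit 0x1146619d02) (nat_lit 0x380aa5c14800400040000) (nat_lit 50)))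
 (.p (nat_lit 0x3b8035ab02) (nat_lit 0x500b11) (nat_lit 5)))
 (.n (.p (nat_lit 0x21ca1b9d02) (nat_lit 0x500a03) (nat_lit 4))
 (.p (nat_lit 0x18de18da18d818d618d42fad06) (nat_lit 0x80000d422c) (nat_lit 51))))
 (.n (.n (.p (nat_lit 0x200f1d2d02) (nat_lit 0x242900) (nat_lit 16))
 (.p (nat_lit 0x363a363636343632036003590355363d363909) (nat_lit 0x2b4011f) (nat_lit 10)))
 (.n (.p (nat_lit 0x7d807d607d407d207d00ca506) (nat_lit 0x100000c8207) (nat_lit 51))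
 (.p (nat_lit 0x5d555e6102) (nat_lit 0x280080000700) (nat_lit 36)))))
 (.n (.n (.n (.p (nat_lit 0x12250f6502) (nat_lit 0x440400) (nat_lit 15))
 (.p (nat_lit 0x3bd8373b02) (nat_lit 0x140b18) (nat_lit 4)))
 (.n (.p (nat_lit 0x467f0cf902) (nat_lit 0x540205) (nat_lit 16))
 (.p (nat_lit 0x4805c4902) (nat_lit 0x30072a) (nat_lit 27))))
 (.n (.n (.p (nat_lit 0x632c8d02) (nat_lit 0x500002) (nat_lit 30))
 (.p (nat_lit 0x2ec4313102) (nat_lit 0x540125) (nat_lit 4)))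
 (.n (.p (nat_lit 0x69e069c069a06980696425d06) (nat_lit 0x8000c860b) (nat_lit 52))
 (.p (nat_lit 0x113c5f9702) (nat_lit 0x88bb0155800400040000) (nat_lit 49))))))
 (.n (.n (.n (.n (.p (nat_lit 0xb220b200b1e0b1c0873087106) (nat_lit 0x1800016200) (nat_lit 51))
 (.p (nat_lit 0x4f69139502) (nat_lit 0x516515) (nat_lit 16)))
 (.n (.p (nat_lit 0x41424140413e413a413813cb06) (nat_lit 0x2000084504) (nat_lit 51))
 (.p (nat_lit 0x90008e008c008a000300b506) (nat_lit 0x816a03) (nat_lit 26))))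
 (.n (.n (.p (nat_lit 0x27c027be27bc27ba27b827b600380b690b650b630a) (nat_lit 0x15a00201) (nat_lit 31))
 (.p (nat_lit 0x15481546154415421540089306) (nat_lit 0x1000000c123) (nat_lit 51)))
 (.n (.p (nat_lit 0x281051e902) (nat_lit 0x200208) (nat_lit 29))
 (.p (nat_lit 0x5eb0168f02) (nat_lit 0x20012b00) (nat_lit 47)))))
 (.n (.n (.n (.p (nat_lit 0x197e1972179503) (nat_lit 0x140700) (nat_lit 6))
 (.p (nat_lit 0x139c0d5502) (nat_lit 0x30051c) (nat_lit 4)))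
 (.n (.p (nat_lit 0x4c2a4c284c264c244c224c2001200a430a410a390a) (nat_lit 0x16040106) (nat_lit 31))
 (.p (nat_lit 0x5c990fe102) (nat_lit 0x240000000400) (nat_lit 40))))
 (.n (.n (.p (nat_lit 0x2c245f02) (nat_lit 0x100b02) (nat_lit 1))
 (.p (nat_lit 0x70e070c07080706070409f706) (nat_lit 0x400005612a) (nat_lit 52)))
 (.n (.p (nat_lit 0x1640530102) (nat_lit 0x40060e) (nat_lit 29))
 (.p (nat_lit 0x2484609702) (nat_lit 0x344580ca4000500040600) (nat_lit 49))))))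

def c512_3 : Tr := .n c1024_3 c1024_515

def c1024_259 : Tr :=
 .n (.n (.n (.n (.n (.n (.p (nat_lit 0xe400f302) (nat_lit 0x1000600005) (nat_lit 17))
 (.p (nat_lit 0x2492615b02) (nat_lit 0x3503a8d64000500040600) (nat_lit 50)))
 (.p (nat_lit 0x3338333633323330332e0229333507) (nat_lit 0x300a10) (nat_lit 7)))
 (.n (.p (nat_lit 0x15061b7102) (nat_lit 0x140503) (nat_lit 4))
 (.p (nat_lit 0x2450136702) (nat_lit 0xb2a) (nat_lit 4))))
 (.n (.n (.p (nat_lit 0x1e721e6e1e6c1e6a1bcb1bc306) (nat_lit 0x880008e900) (nat_lit 51))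
 (.p (nat_lit 0x2cfe302f02) (nat_lit 0x10001e) (nat_lit 5)))
 (.n (.p (nat_lit 0x21522150214e214c214a1ef906) (nat_lit 0x800090906) (nat_lit 51))
 (.p (nat_lit 0x5cb55e5102) (nat_lit 0x80000000700) (nat_lit 37)))))
 (.n (.n (.n (.p (nat_lit 0x10261024101e101c0dfb0df906) (nat_lit 0x6000004400) (nat_lit 51))
 (.p (nat_lit 0x32ea2f6d02) (nat_lit 0x240917) (nat_lit 5)))
 (.n (.p (nat_lit 0x43b443b243b043ae43ac43aa00ee07) (nat_lit 0x5) (nat_lit 8))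
 (.p (nat_lit 0x5b845b825b805b7c5b7a0005031207) (nat_lit 0x20a11c) (nat_lit 25))))
 (.n (.n (.p (nat_lit 0x140013fc13fa13f813f6204f06) (nat_lit 0x80000ca901) (nat_lit 51))
 (.p (nat_lit 0x572e572c572a57285726572403ae244f244b24470a) (nat_lit 0x15900b23) (nat_lit 31)))
 (.n (.p (nat_lit 0x1ac3b3102) (nat_lit 0x40a0a) (nat_lit 1))
 (.p (nat_lit 0x4c25f5d02) (nat_lit 0x262530344000000000000) (nat_lit 49))))))
 (.n (.n (.n (.n (.p (nat_lit 0x922091e091c09180725071f06) (nat_lit 0x9000048100) (nat_lit 51))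
 (.p (nat_lit 0xea60ea20ea00e9e0e9c10ef06) (nat_lit 0x8000002415) (nat_lit 52)))
 (.n (.p (nat_lit 0x3ef83ef63ef43eee0ce70ce506) (nat_lit 0x300004e204) (nat_lit 52))
 (.p (nat_lit 0x320030002c002a000b020f06) (nat_lit 0x2a12101) (nat_lit 26))))
 (.n (.n (.p (nat_lit 0x257f22c302) (nat_lit 0x442b00) (nat_lit 16))
 (.p (nat_lit 0xe9a0e960e940e920e9050b906) (nat_lit 0x80000c0822) (nat_lit 52)))
 (.n (.p (nat_lit 0x34a434a234a0349e349c1d3506) (nat_lit 0x800056807) (nat_lit 51))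
 (.p (nat_lit 0x5ce15e9902) (nat_lit 0xc0020000a00) (nat_lit 36)))))
 (.n (.n (.n (.p (nat_lit 0x179b16b902) (nat_lit 0x440600) (nat_lit 15))
 (.p (nat_lit 0x1c501c4c1c481c46073d073906) (nat_lit 0xa0000d001c) (nat_lit 51)))
 (.n (.p (nat_lit 0x1c331c2702) (nat_lit 0x20c805) (nat_lit 16))
 (.p (nat_lit 0x5dee2bfd02) (nat_lit 0x8004c200) (nat_lit 48))))
 (.n (.n (.p (nat_lit 0xd1c0d1a0d180d160d1421b506) (nat_lit 0x800006a02) (nat_lit 51))
 (.p (nat_lit 0x5068579102) (nat_lit 0x829) (nat_lit 29)))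
 (.n (.p (nat_lit 0x13fe13fc13fa13f813f6123f06) (nat_lit 0x100000ca40e) (nat_lit 51))
 (.p (nat_lit 0x2072605d02) (nat_lit 0x506272b31000400000600) (nat_lit 49))))))

def c1024_771 : Tr :=
 .n (.n (.n (.n (.n (.n (.p (nat_lit 0x5140512050e050a04e104dd06) (nat_lit 0x5000086000) (nat_lit 51))
 (.p (nat_lit 0xbb461db02) (nat_lit 0x542266c0c800200040000) (nat_lit 50)))
 (.p (nat_lit 0x43763d6302) (nat_lit 0x440b12) (nat_lit 5)))
 (.n (.p (nat_lit 0x1f1a1f181f161f141f10246b06) (nat_lit 0x1000092b03) (nat_lit 51))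
 (.p (nat_lit 0x3b223a4d02) (nat_lit 0x500a2d) (nat_lit 4))))
 (.n (.n (.p (nat_lit 0x1ff621dd02) (nat_lit 0x240a00) (nat_lit 5))
 (.p (nat_lit 0x3ed23ed03ece3ecc3eca3df106) (nat_lit 0x100000ca120) (nat_lit 52)))
 (.n (.p (nat_lit 0x1c441c421c3e1c3c1c3a0f6f06) (nat_lit 0x40000d0307) (nat_lit 52))
 (.p (nat_lit 0x5d371c4d02) (nat_lit 0x160060000800) (nat_lit 41)))))
 (.n (.n (.n (.p (nat_lit 0x121e13ed02) (nat_lit 0x140500) (nat_lit 4))
 (.p (nat_lit 0x4496462902) (nat_lit 0x34001a) (nat_lit 4)))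
 (.n (.p (nat_lit 0x490c490a490849064904490206) (nat_lit 0xc4505) (nat_lit 52))
 (.p (nat_lit 0x5d65063d02) (nat_lit 0x180080000000) (nat_lit 39))))
 (.n (.n (.p (nat_lit 0x2fad0cd302) (nat_lit 0x44a202) (nat_lit 16))
 (.p (nat_lit 0x100210000ffe0ffa0ff83b9f06) (nat_lit 0x2000080b26) (nat_lit 52)))
 (.n (.p (nat_lit 0x4cf84ab502) (nat_lit 0x40020d) (nat_lit 4))
 (.p (nat_lit 0x180c5fdf02) (nat_lit 0x3842a1c34000100000600) (nat_lit 49))))))
 (.n (.n (.n (.n (.p (nat_lit 0xd150d0902) (nat_lit 0x100300) (nat_lit 34))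
 (.p (nat_lit 0x1a82545702) (nat_lit 0x140715) (nat_lit 29)))
 (.n (.p (nat_lit 0x7a807a407a207a017fd17f906) (nat_lit 0x14000042604) (nat_lit 51))
 (.p (nat_lit 0x11959ed02) (nat_lit 0x300906) (nat_lit 28))))
 (.n (.n (.p (nat_lit 0x13ac13aa13a813a6003c002d002b13a513a309) (nat_lit 0x800501) (nat_lit 10))
 (.p (nat_lit 0xd6e0d6c0d6a0d680d660b5106) (nat_lit 0x1000000c223) (nat_lit 51)))
 (.n (.p (nat_lit 0x2f922c9f02) (nat_lit 0x340209) (nat_lit 4))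
 (.p (nat_lit 0xe6e5ed502) (nat_lit 0x4a1a22344000300040000) (nat_lit 49)))))
 (.n (.n (.n (.p (nat_lit 0x1b1a1b181b161b121b1018fd06) (nat_lit 0x2000082800) (nat_lit 51))
 (.p (nat_lit 0x193d193102) (nat_lit 0x40a71c) (nat_lit 16)))
 (.n (.p (nat_lit 0x13e84f4302) (nat_lit 0x500506) (nat_lit 29))
 (.p (nat_lit 0x5e243ba702) (nat_lit 0x10500) (nat_lit 47))))
 (.n (.n (.p (nat_lit 0x34f634f434f034ee34ec076b06) (nat_lit 0x40000c6003) (nat_lit 52))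
 (.p (nat_lit 0x468f0cb502) (nat_lit 0x15422a) (nat_lit 16)))
 (.n (.p (nat_lit 0x534a5348534653445342534001f207) (nat_lit 0x4090e) (nat_lit 8))
 (.p (nat_lit 0x181460dd02) (nat_lit 0x3505623a4000100000600) (nat_lit 49))))))

def c512_259 : Tr := .n c1024_259 c1024_771

def c256_3 : Tr := .n c512_3 c512_259

def c1024_131 : Tr :=
 .n (.n (.n (.n (.n (.n (.p (nat_lit 0x8500830079006804) (nat_lit 0x95900002) (nat_lit 20))
 (.p (nat_lit 0xe7c613f02) (nat_lit 0x352a21d84000300040000) (nat_lit 50)))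
 (.p (nat_lit 0x31043102310030fe30fc022330fb07) (nat_lit 0x410) (nat_lit 7)))
 (.n (.p (nat_lit 0x38d038cc38ca38c838c6111306) (nat_lit 0x8000096403) (nat_lit 52))
 (.p (nat_lit 0x1ede1ed81ed61ed4045e043d043b1edd1edb09) (nat_lit 0x230092a) (nat_lit 10))))
 (.n (.n (.p (nat_lit 0x1d951a5d02) (nat_lit 0x56800) (nat_lit 16))
 (.p (nat_lit 0x25940f5702) (nat_lit 0x340b1c) (nat_lit 5)))
 (.n (.p (nat_lit 0x1ade1ada1ad81ad61ad41d9d06) (nat_lit 0x8000050806) (nat_lit 52))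
 (.p (nat_lit 0x5d3b169f02) (nat_lit 0x120060000600) (nat_lit 39)))))
 (.n (.n (.n (.p (nat_lit 0xf8f0c9102) (nat_lit 0x14c300) (nat_lit 16))
 (.p (nat_lit 0x2f222f202f1c2f1a2f182b1b06) (nat_lit 0x4000094816) (nat_lit 52)))
 (.n (.p (nat_lit 0x22ac22aa22a822a622a2247706) (nat_lit 0x1000010b04) (nat_lit 52))
 (.p (nat_lit 0x28a02880286028002f7000306) (nat_lit 0x1114515) (nat_lit 26))))
 (.n (.n (.p (nat_lit 0x198619841980197e197c1ee706) (nat_lit 0x400008e901) (nat_lit 51))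
 (.p (nat_lit 0x1ed91ecd02) (nat_lit 0x200923) (nat_lit 16)))
 (.n (.p (nat_lit 0x1d1a1d181d141d121d10386106) (nat_lit 0x400005630a) (nat_lit 51))
 (.p (nat_lit 0xba85f3902) (nat_lit 0x3a2560c44000200040000) (nat_lit 49))))))
 (.n (.n (.n (.n (.p (nat_lit 0x7f207ee07ec07ea07e805c506) (nat_lit 0x800008a100) (nat_lit 51))
 (.p (nat_lit 0x72c540502) (nat_lit 0x240015) (nat_lit 29)))
 (.n (.p (nat_lit 0x3e010a2302) (nat_lit 0x14a104) (nat_lit 16))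
 (.p (nat_lit 0x4a0a492f02) (nat_lit 0x40072f) (nat_lit 5))))
 (.n (.n (.p (nat_lit 0x22c2249502) (nat_lit 0x440b00) (nat_lit 5))
 (.p (nat_lit 0x4c0a4c084c044c024c0003994c0707) (nat_lit 0x300122) (nat_lit 7)))
 (.n (.p (nat_lit 0x1a6c06b902) (nat_lit 0x240707) (nat_lit 5))
 (.p (nat_lit 0x5d695e8f02) (nat_lit 0x140080000900) (nat_lit 37)))))
 (.n (.n (.n (.p (nat_lit 0x16ba16b816b416b000180007000316b716b309) (nat_lit 0x1940600) (nat_lit 10))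
 (.p (nat_lit 0x1f181f161f141f121f1005df06) (nat_lit 0x1000009201c) (nat_lit 51)))
 (.n (.p (nat_lit 0x1db61db41db21dae1dac1ac106) (nat_lit 0x2000052705) (nat_lit 51))
 (.p (nat_lit 0x5de20ba902) (nat_lit 0x20040200) (nat_lit 45))))
 (.n (.n (.p (nat_lit 0x205832cf02) (nat_lit 0x340902) (nat_lit 29))
 (.p (nat_lit 0x100210000ffc0ffa0ff84a4f06) (nat_lit 0x40000c0728) (nat_lit 52)))
 (.n (.p (nat_lit 0x129c129a12981296129410e506) (nat_lit 0x1000000a40e) (nat_lit 52))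
 (.p (nat_lit 0x180e603f02) (nat_lit 0x4a8162340800100000600) (nat_lit 49))))))

def c1024_643 : Tr :=
 .n (.n (.n (.n (.n (.n (.p (nat_lit 0x43e043c0434044104) (nat_lit 0x1880040002a) (nat_lit 17))
 (.p (nat_lit 0x63861bd02) (nat_lit 0x322266c75000000040000) (nat_lit 49)))
 (.p (nat_lit 0x418653d102) (nat_lit 0x512) (nat_lit 29)))
 (.n (.p (nat_lit 0x1e641e621e601e5c2331232906) (nat_lit 0x1100004ea03) (nat_lit 51))
 (.p (nat_lit 0x340c326b02) (nat_lit 0x500b2c) (nat_lit 5))))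
 (.n (.n (.p (nat_lit 0x21222120211a21181e931e9106) (nat_lit 0x600008ca00) (nat_lit 52))
 (.p (nat_lit 0x3be8385502) (nat_lit 0x340b1f) (nat_lit 5)))
 (.n (.p (nat_lit 0x1c501c4e1c4c1c4a1c480e0106) (nat_lit 0x800090307) (nat_lit 51))
 (.p (nat_lit 0x5e66385b02) (nat_lit 0x40800) (nat_lit 48)))))
 (.n (.n (.n (.p (nat_lit 0x12cc12ca12c612c410cd10c706) (nat_lit 0x12000004500) (nat_lit 52))
 (.p (nat_lit 0x284423102) (nat_lit 0x200619) (nat_lit 1)))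
 (.n (.p (nat_lit 0xeb477702) (nat_lit 0x400405) (nat_lit 30))
 (.p (nat_lit 0x5dae337702) (nat_lit 0x4e000) (nat_lit 47))))
 (.n (.n (.p (nat_lit 0x8bd08b102) (nat_lit 0x212102) (nat_lit 16))
 (.p (nat_lit 0x8c364502) (nat_lit 0x340126) (nat_lit 1)))
 (.n (.p (nat_lit 0x4758445102) (nat_lit 0x54030c) (nat_lit 4))
 (.p (nat_lit 0x18185fc502) (nat_lit 0x8982e915800100000600) (nat_lit 50))))))
 (.n (.n (.n (.n (.p (nat_lit 0xbec0bea0be80be209d109cf06) (nat_lit 0x30000c8200) (nat_lit 51))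
 (.p (nat_lit 0x164a543702) (nat_lit 0x300615) (nat_lit 29)))
 (.n (.p (nat_lit 0xd0e0d0c0d0a0d080d06168b06) (nat_lit 0x10000006604) (nat_lit 52))
 (.p (nat_lit 0xeb59a702) (nat_lit 0x400505) (nat_lit 28))))
 (.n (.n (.p (nat_lit 0xf96171902) (nat_lit 0x540301) (nat_lit 5))
 (.p (nat_lit 0x13f213f013ee13ec13ea09ef06) (nat_lit 0x100000ca123) (nat_lit 52)))
 (.n (.p (nat_lit 0x51fa51f851f651f451f251f0017a07) (nat_lit 0x40808) (nat_lit 8))
 (.p (nat_lit 0x5d59249502) (nat_lit 0x240080000b00) (nat_lit 41)))))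
 (.n (.n (.n (.p (nat_lit 0x1a4e1a4c1a4a1a461a44179706) (nat_lit 0x2000056700) (nat_lit 52))
 (.p (nat_lit 0x119811941192118e14e914e306) (nat_lit 0x90000c451c) (nat_lit 52)))
 (.n (.p (nat_lit 0x4e0c4e064e044e020fd10fcf06) (nat_lit 0xc000050306) (nat_lit 52))
 (.p (nat_lit 0x5e163bf502) (nat_lit 0x60050400) (nat_lit 48))))
 (.n (.n (.p (nat_lit 0x25ba341702) (nat_lit 0x440b02) (nat_lit 29))
 (.p (nat_lit 0x36d90b5d02) (nat_lit 0x51022a) (nat_lit 16)))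
 (.n (.p (nat_lit 0x1be4097702) (nat_lit 0x50080e) (nat_lit 5))
 (.p (nat_lit 0x12a712990fe90fd50d170d0d0a510a4d07a7079f04d704c360b80d) (nat_lit 0x3502623b0000000000000) (nat_lit 33))))))

def c512_131 : Tr := .n c1024_131 c1024_643

def c1024_387 : Tr :=
 .n (.n (.n (.n (.n (.n (.p (nat_lit 0x1ee01e801e601f304) (nat_lit 0x980040000e) (nat_lit 17))
 (.p (nat_lit 0xe74617b02) (nat_lit 0x521a86b11000300040000) (nat_lit 49)))
 (.p (nat_lit 0x1b601b5e1b5c1b581b5638e306) (nat_lit 0x2000088411) (nat_lit 52)))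
 (.n (.p (nat_lit 0x1681167502) (nat_lit 0x14603) (nat_lit 16))
 (.p (nat_lit 0x2b3c2ab702) (nat_lit 0x50082b) (nat_lit 4))))
 (.n (.n (.p (nat_lit 0x1f241f221f201f1c1d331d2b06) (nat_lit 0x11000040900) (nat_lit 51))
 (.p (nat_lit 0x33a42fff02) (nat_lit 0x540a1e) (nat_lit 4)))
 (.n (.p (nat_lit 0xb42513902) (nat_lit 0x400207) (nat_lit 29))
 (.p (nat_lit 0x5cf3180f02) (nat_lit 0x2a0040000700) (nat_lit 38)))))
 (.n (.n (.n (.p (nat_lit 0x11350dfb02) (nat_lit 0x316400) (nat_lit 16))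
 (.p (nat_lit 0x397e366d02) (nat_lit 0x40418) (nat_lit 4)))
 (.n (.p (nat_lit 0x450044fe44fc44f844f608d506) (nat_lit 0x2000010105) (nat_lit 52))
 (.p (nat_lit 0x3aa03a603a403a203ed000906) (nat_lit 0x410123) (nat_lit 26))))
 (.n (.n (.p (nat_lit 0x253625342532253021b321a906) (nat_lit 0x1080008ea01) (nat_lit 51))
 (.p (nat_lit 0x17521750174e174c174a27b506) (nat_lit 0x10000050124) (nat_lit 51)))
 (.n (.p (nat_lit 0xb83f9502) (nat_lit 0x20030b) (nat_lit 1))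
 (.p (nat_lit 0xa585f7902) (nat_lit 0x560bb0344000200000000) (nat_lit 50))))))
 (.n (.n (.n (.n (.p (nat_lit 0x8700a5102) (nat_lit 0x200) (nat_lit 5))
 (.p (nat_lit 0x283542702) (nat_lit 0x100515) (nat_lit 30)))
 (.n (.p (nat_lit 0x404112102) (nat_lit 0x500404) (nat_lit 1))
 (.p (nat_lit 0x620060005c00580007047d06) (nat_lit 0x1914502) (nat_lit 26))))
 (.n (.n (.p (nat_lit 0x75b074f02) (nat_lit 0x150001) (nat_lit 16))
 (.p (nat_lit 0x7460fff02) (nat_lit 0x340023) (nat_lit 4)))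
 (.n (.p (nat_lit 0x1ca22cd02) (nat_lit 0x340a07) (nat_lit 1))
 (.p (nat_lit 0x5d6b21d502) (nat_lit 0x120080000a00) (nat_lit 39)))))
 (.n (.n (.n (.p (nat_lit 0x18b818b618b218b0162b162506) (nat_lit 0x12000012700) (nat_lit 52))
 (.p (nat_lit 0xc6a0c660c640c620885087d06) (nat_lit 0x880001411c) (nat_lit 51)))
 (.n (.p (nat_lit 0x632062c062a0628013a011b01190631062f09) (nat_lit 0x2300006) (nat_lit 10))
 (.p (nat_lit 0x5d470d0d02) (nat_lit 0x60060000300) (nat_lit 38))))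
 (.n (.n (.p (nat_lit 0x4d604d404d004ce2325231f06) (nat_lit 0x12000040a02) (nat_lit 51))
 (.p (nat_lit 0x4fc04fa04f804f604f4089506) (nat_lit 0x80008412a) (nat_lit 52)))
 (.n (.p (nat_lit 0x5140510050e050c050a138706) (nat_lit 0x800008650e) (nat_lit 51))
 (.p (nat_lit 0xe6e607b02) (nat_lit 0x511a22b85000300040000) (nat_lit 49))))))

def c1024_899 : Tr :=
 .n (.n (.n (.n (.n (.p (nat_lit 0x647063b02) (nat_lit 0x340000) (nat_lit 34))
 (.p (nat_lit 0x4a7a44fb02) (nat_lit 0x200813) (nat_lit 4)))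
 (.n (.p (nat_lit 0x1820181e181a1818181625c506) (nat_lit 0x400004eb03) (nat_lit 51))
 (.p (nat_lit 0x1fcc1fc81fc61fc41fc23f2d06) (nat_lit 0x800004e22e) (nat_lit 52))))
 (.n (.n (.p (nat_lit 0x22b822b622b022ae1ff91ff706) (nat_lit 0x60000d0a00) (nat_lit 52))
 (.p (nat_lit 0x36b562502) (nat_lit 0x400b20) (nat_lit 30)))
 (.n (.p (nat_lit 0x12f212f012ee12ec12ea10cf06) (nat_lit 0x800086407) (nat_lit 51))
 (.p (nat_lit 0x5da35e7d02) (nat_lit 0xa00a0000800) (nat_lit 37)))))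
 (.n (.n (.n (.p (nat_lit 0x14d1122502) (nat_lit 0x442500) (nat_lit 16))
 (.p (nat_lit 0x49ea45eb02) (nat_lit 0x50071a) (nat_lit 5)))
 (.n (.p (nat_lit 0x1806212102) (nat_lit 0x440605) (nat_lit 4))
 (.p (nat_lit 0x5d195dcd02) (nat_lit 0x40040000100) (nat_lit 37))))
 (.n (.n (.p (nat_lit 0x5f30b502) (nat_lit 0x300402) (nat_lit 30))
 (.p (nat_lit 0x3f703f6e3f6c3f6a3f683e7506) (nat_lit 0x80008c227) (nat_lit 51)))
 (.n (.p (nat_lit 0x69e069c069a06980696503906) (nat_lit 0x80008880d) (nat_lit 52))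
 (.p (nat_lit 0xe785ffb02) (nat_lit 0x16a88cd50000300040000) (nat_lit 50))))))
 (.n (.n (.n (.n (.p (nat_lit 0xdb60db40db00dae0b350b2f06) (nat_lit 0x4800012300) (nat_lit 52))
 (.p (nat_lit 0x1ebd1eb102) (nat_lit 0x8915) (nat_lit 16)))
 (.n (.p (nat_lit 0xb942a902) (nat_lit 0x200704) (nat_lit 30))
 (.p (nat_lit 0x19d5a4b02) (nat_lit 0x20040a) (nat_lit 28))))
 (.n (.n (.p (nat_lit 0x18421840183e183c183a1c1906) (nat_lit 0x1000002801) (nat_lit 51))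
 (.p (nat_lit 0x1664103d02) (nat_lit 0x400623) (nat_lit 4)))
 (.n (.p (nat_lit 0x316c2d5502) (nat_lit 0x340409) (nat_lit 4))
 (.p (nat_lit 0x233c5ef102) (nat_lit 0x4a1d22344000500000600) (nat_lit 49)))))
 (.n (.n (.n (.p (nat_lit 0x1c0118fb02) (nat_lit 0x108800) (nat_lit 16))
 (.p (nat_lit 0x1d621d5c1d5a1d580330030f030d1d611d5f09) (nat_lit 0x234081c) (nat_lit 10)))
 (.n (.p (nat_lit 0x1ad21ad01ace1aca0126011701131acd1ac909) (nat_lit 0x1040706) (nat_lit 10))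
 (.p (nat_lit 0x5d77129d02) (nat_lit 0x60080000500) (nat_lit 38))))
 (.n (.n (.p (nat_lit 0x35ec35e835e635e40a1d0a1506) (nat_lit 0x8800048103) (nat_lit 51))
 (.p (nat_lit 0x1180117c117a117811760f8906) (nat_lit 0x80000c232a) (nat_lit 52)))
 (.n (.p (nat_lit 0x242f242302) (nat_lit 0x106b0e) (nat_lit 16))
 (.p (nat_lit 0x1adc60fd02) (nat_lit 0x340a623b0000200000600) (nat_lit 49))))))

def c512_387 : Tr := .n c1024_387 c1024_899

def c256_131 : Tr := .n c512_131 c512_387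

def c128_3 : Tr := .n c256_3 c256_131

def c1024_67 : Tr :=
 .n (.n (.n (.n (.n (.n (.p (nat_lit 0x4f004d003f003a04) (nat_lit 0x51800001) (nat_lit 20))
 (.p (nat_lit 0x1adc613102) (nat_lit 0x35486a1b0000200000600) (nat_lit 49)))
 (.p (nat_lit 0x7ce07cc07ca07c807c42b9706) (nat_lit 0x100000890f) (nat_lit 52)))
 (.n (.p (nat_lit 0x381a3818381638140fab0fa506) (nat_lit 0x48000c2303) (nat_lit 52))
 (.p (nat_lit 0x3a2c3a2a3a283a263a221c0d06) (nat_lit 0x100000482a) (nat_lit 51))))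
 (.n (.n (.p (nat_lit 0x1d261d241d221d201a5f1a5d06) (nat_lit 0x18000d6800) (nat_lit 52))
 (.p (nat_lit 0x259122ed02) (nat_lit 0x140a1c) (nat_lit 15)))
 (.n (.p (nat_lit 0x4cc04ca04c604c404c21d9b06) (nat_lit 0x4000040806) (nat_lit 52))
 (.p (nat_lit 0x5e3e153702) (nat_lit 0x20000600) (nat_lit 45)))))
 (.n (.n (.n (.p (nat_lit 0xf060f040f020efc0c930c9106) (nat_lit 0x3000050300) (nat_lit 52))
 (.p (nat_lit 0x17bd258902) (nat_lit 0x340b15) (nat_lit 15)))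
 (.n (.p (nat_lit 0x24761fdd02) (nat_lit 0x100b04) (nat_lit 5))
 (.p (nat_lit 0x2145ae502) (nat_lit 0x500b10) (nat_lit 27))))
 (.n (.n (.p (nat_lit 0x3800490051176d15fb05) (nat_lit 0x65500901) (nat_lit 9))
 (.p (nat_lit 0x56fe56fc56fa56f856f656f403ae1d6f1d6d1d650a) (nat_lit 0x16040823) (nat_lit 31)))
 (.n (.p (nat_lit 0x3865374d02) (nat_lit 0x54020a) (nat_lit 15))
 (.p (nat_lit 0x2493248b21dd21d51f1b1f0b1c471c3d1985197516a716995f280d) (nat_lit 0x3aa560c44000000040600) (nat_lit 33))))))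
 (.n (.n (.n (.n (.p (nat_lit 0x5c4079d02) (nat_lit 0x400100) (nat_lit 4))
 (.p (nat_lit 0x5ce0a6302) (nat_lit 0x300015) (nat_lit 5)))
 (.n (.p (nat_lit 0x3d443d423d403d3e3d3c08c506) (nat_lit 0x80000c104) (nat_lit 51))
 (.p (nat_lit 0x21222120211e211a2118469106) (nat_lit 0x20000cc22f) (nat_lit 52))))
 (.n (.n (.p (nat_lit 0x242d215502) (nat_lit 0x4b00) (nat_lit 16))
 (.p (nat_lit 0xd580d560d540d500d4e4a4106) (nat_lit 0x200004a721) (nat_lit 52)))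
 (.n (.p (nat_lit 0x190e190c190a190819060141190507) (nat_lit 0x707) (nat_lit 7))
 (.p (nat_lit 0x5d4d1da702) (nat_lit 0x60000900) (nat_lit 38)))))
 (.n (.n (.n (.p (nat_lit 0x1667155702) (nat_lit 0x508600) (nat_lit 16))
 (.p (nat_lit 0x63e063c06380636063405db06) (nat_lit 0x400008001c) (nat_lit 52)))
 (.n (.p (nat_lit 0x63e063c063a063606341ac106) (nat_lit 0x20000c0705) (nat_lit 52))
 (.p (nat_lit 0x5c8f5ddf02) (nat_lit 0x2e0000000200) (nat_lit 36))))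
 (.n (.n (.p (nat_lit 0x1b0c1b0a1b081b061ef71eed06) (nat_lit 0x10800002902) (nat_lit 51))
 (.p (nat_lit 0x459d459102) (nat_lit 0x540128) (nat_lit 16)))
 (.n (.p (nat_lit 0xaea0ae80ae40ae20ae00f7b06) (nat_lit 0x40000d030e) (nat_lit 52))
 (.p (nat_lit 0x1538602f02) (nat_lit 0x466a62335000000000600) (nat_lit 49))))))

def c1024_579 : Tr :=
 .n (.n (.n (.n (.n (.n (.p (nat_lit 0x39c039a0392039f04) (nat_lit 0x18800400022) (nat_lit 17))
 (.p (nat_lit 0x12a712990fe10fdd0d150d110a550a4b07a9079504d904c561aa0d) (nat_lit 0x3421a9c14800000000000) (nat_lit 33)))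
 (.p (nat_lit 0x40883d1f02) (nat_lit 0x300412) (nat_lit 4)))
 (.n (.p (nat_lit 0x3ae321c102) (nat_lit 0xa03) (nat_lit 16))
 (.p (nat_lit 0x335e31cb02) (nat_lit 0xa2c) (nat_lit 5))))
 (.n (.n (.p (nat_lit 0x207f207302) (nat_lit 0x400a00) (nat_lit 34))
 (.p (nat_lit 0x3b4237b702) (nat_lit 0x440a1f) (nat_lit 4)))
 (.n (.p (nat_lit 0x14e015901690679050705) (nat_lit 0xa1c00307) (nat_lit 9))
 (.p (nat_lit 0x5d8b181502) (nat_lit 0x2200a0000700) (nat_lit 38)))))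
 (.n (.n (.n (.p (nat_lit 0x12a2129610c503) (nat_lit 0x100500) (nat_lit 6))
 (.p (nat_lit 0x41963ec302) (nat_lit 0x200519) (nat_lit 5)))
 (.n (.p (nat_lit 0xe5470102) (nat_lit 0x140305) (nat_lit 30))
 (.p (nat_lit 0x40c5c8902) (nat_lit 0x20032f) (nat_lit 27))))
 (.n (.n (.p (nat_lit 0x2d402d3e2d3c2d3a075b075906) (nat_lit 0x18000c6002) (nat_lit 52))
 (.p (nat_lit 0x115c115a11561154115233ad06) (nat_lit 0x4000040a25) (nat_lit 51)))
 (.n (.p (nat_lit 0x45f8528302) (nat_lit 0x10020c) (nat_lit 29))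
 (.p (nat_lit 0x129c5fa502) (nat_lit 0x588bb0344000500000000) (nat_lit 49))))))
 (.n (.n (.n (.n (.p (nat_lit 0x9ce0bb502) (nat_lit 0x140200) (nat_lit 5))
 (.p (nat_lit 0x1820181e181a1818181614db06) (nat_lit 0x400004e515) (nat_lit 51)))
 (.n (.p (nat_lit 0x779151902) (nat_lit 0x440504) (nat_lit 15))
 (.p (nat_lit 0xe2597d02) (nat_lit 0xb04) (nat_lit 27))))
 (.n (.n (.p (nat_lit 0x289428922890288e288c288a003607) (nat_lit 0x301) (nat_lit 8))
 (.p (nat_lit 0x4c11088d02) (nat_lit 0x216123) (nat_lit 16)))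
 (.n (.p (nat_lit 0x2922260502) (nat_lit 0x40308) (nat_lit 5))
 (.p (nat_lit 0x5d2b234502) (nat_lit 0x220060000b00) (nat_lit 40)))))
 (.n (.n (.n (.p (nat_lit 0x19fa19f619f419f2179b179306) (nat_lit 0x88000c8700) (nat_lit 51))
 (.p (nat_lit 0x14e00d5b02) (nat_lit 0x4051c) (nat_lit 4)))
 (.n (.p (nat_lit 0xfd10d0302) (nat_lit 0x440206) (nat_lit 15))
 (.p (nat_lit 0x5e10424702) (nat_lit 0x20012400) (nat_lit 47))))
 (.n (.n (.p (nat_lit 0x1760175e175c175a1758245d06) (nat_lit 0x800090b02) (nat_lit 51))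
 (.p (nat_lit 0x11421140113e113c113a0b5d06) (nat_lit 0x1000008822a) (nat_lit 52)))
 (.n (.p (nat_lit 0x1bdf191502) (nat_lit 0x20070e) (nat_lit 15))
 (.p (nat_lit 0x13fc60a702) (nat_lit 0x356068ca4000500040000) (nat_lit 50))))))

def c512_67 : Tr := .n c1024_67 c1024_579

def c1024_323 : Tr :=
 .n (.n (.n (.n (.n (.n (.p (nat_lit 0x14a01420140014d04) (nat_lit 0x11800400007) (nat_lit 17))
 (.p (nat_lit 0xba6616d02) (nat_lit 0x421aa4394000200040000) (nat_lit 49)))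
 (.p (nat_lit 0x22d53ab02) (nat_lit 0x500b10) (nat_lit 30)))
 (.n (.p (nat_lit 0x60167d02) (nat_lit 0x400603) (nat_lit 1))
 (.p (nat_lit 0x46e047104732a8d2a2f05) (nat_lit 0xa0b0022b) (nat_lit 9))))
 (.n (.n (.p (nat_lit 0x1ed31bcd02) (nat_lit 0x508900) (nat_lit 16))
 (.p (nat_lit 0x2eb6305902) (nat_lit 0x44011e) (nat_lit 4)))
 (.n (.p (nat_lit 0x20f220f020ee20ea20e8206306) (nat_lit 0x20000c8906) (nat_lit 51))
 (.p (nat_lit 0x5cdf5e5502) (nat_lit 0xe0020000700) (nat_lit 37)))))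
 (.n (.n (.n (.p (nat_lit 0x10b410b210b010ae0df70df506) (nat_lit 0x1800016400) (nat_lit 52))
 (.p (nat_lit 0xbf80bf40bf20bf00bee339706) (nat_lit 0x800004aa17) (nat_lit 51)))
 (.n (.p (nat_lit 0x782209502) (nat_lit 0x340005) (nat_lit 4))
 (.p (nat_lit 0x36c0368036603620351030f06) (nat_lit 0xc0e620) (nat_lit 26))))
 (.n (.n (.p (nat_lit 0x2055204902) (nat_lit 0x150901) (nat_lit 16))
 (.p (nat_lit 0x25a7259b02) (nat_lit 0x40b23) (nat_lit 16)))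
 (.n (.p (nat_lit 0x3bc834b102) (nat_lit 0x540b0a) (nat_lit 5))
 (.p (nat_lit 0x15485f6f02) (nat_lit 0x3aa074b50000000000600) (nat_lit 50))))))
 (.n (.n (.n (.n (.p (nat_lit 0x9c809c609c409c20727071d06) (nat_lit 0x108000d6100) (nat_lit 52))
 (.p (nat_lit 0x124a0bed02) (nat_lit 0x540415) (nat_lit 5)))
 (.n (.p (nat_lit 0xfb21e0b02) (nat_lit 0x140304) (nat_lit 5))
 (.p (nat_lit 0x32002e002c002a000b005f06) (nat_lit 0x2b12801) (nat_lit 26))))
 (.n (.n (.p (nat_lit 0x5f616c702) (nat_lit 0x500001) (nat_lit 4))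
 (.p (nat_lit 0x5e605e405e205e003ce03ab03a905eb05e909) (nat_lit 0x2c00023) (nat_lit 10)))
 (.n (.p (nat_lit 0x3cc83cc63cc43cc23cbe200106) (nat_lit 0x100004c907) (nat_lit 51))
 (.p (nat_lit 0x5cf521dd02) (nat_lit 0x280040000a00) (nat_lit 41)))))
 (.n (.n (.n (.p (nat_lit 0x181f181302) (nat_lit 0x400700) (nat_lit 34))
 (.p (nat_lit 0x87e54ff02) (nat_lit 0x10011c) (nat_lit 29)))
 (.n (.p (nat_lit 0x1e4e1e4c1e4a1e481e441d8b06) (nat_lit 0x100004c805) (nat_lit 52))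
 (.p (nat_lit 0x5cdd0d1502) (nat_lit 0x100020000300) (nat_lit 40))))
 (.n (.n (.p (nat_lit 0x21d621d421d021cc21bb21b706) (nat_lit 0x5000094a02) (nat_lit 52))
 (.p (nat_lit 0x1180117c117a1178117650c506) (nat_lit 0x80000c2829) (nat_lit 52)))
 (.n (.p (nat_lit 0x397d123f02) (nat_lit 0x55040e) (nat_lit 16))
 (.p (nat_lit 0x180e606f02) (nat_lit 0x588172b40800100000600) (nat_lit 49))))))

def c1024_835 : Tr :=
 .n (.n (.n (.n (.n (.n (.p (nat_lit 0x5c504e302) (nat_lit 0x400000) (nat_lit 15))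
 (.p (nat_lit 0x21d861e702) (nat_lit 0x3422b0d64000400040600) (nat_lit 50)))
 (.p (nat_lit 0x22b622b422b222b022ae485506) (nat_lit 0x100000d0413) (nat_lit 52)))
 (.n (.p (nat_lit 0x25c61bbf02) (nat_lit 0x440b03) (nat_lit 5))
 (.p (nat_lit 0x141814161414141214103bfb06) (nat_lit 0x8000c2b2d) (nat_lit 51))))
 (.n (.n (.p (nat_lit 0x2270226c226a226822661ffb06) (nat_lit 0x80000caa00) (nat_lit 51))
 (.p (nat_lit 0x428a3ff502) (nat_lit 0x540620) (nat_lit 4)))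
 (.n (.p (nat_lit 0x47570f7102) (nat_lit 0x454307) (nat_lit 16))
 (.p (nat_lit 0x5d6b1c4f02) (nat_lit 0x120080000800) (nat_lit 41)))))
 (.n (.n (.n (.p (nat_lit 0x143c143a143814341432122106) (nat_lit 0x2000046500) (nat_lit 52))
 (.p (nat_lit 0x440348bd02) (nat_lit 0x51a) (nat_lit 15)))
 (.n (.p (nat_lit 0x23be23ba23b823b623b4169506) (nat_lit 0x8000088605) (nat_lit 51))
 (.p (nat_lit 0x5c9308f502) (nat_lit 0x2a0000000100) (nat_lit 41))))
 (.n (.n (.p (nat_lit 0xe410e3502) (nat_lit 0x212302) (nat_lit 16))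
 (.p (nat_lit 0x1fb41fb21fae1fac1faa3d7706) (nat_lit 0x400000c127) (nat_lit 51)))
 (.n (.p (nat_lit 0x4f184ad502) (nat_lit 0x24040d) (nat_lit 5))
 (.p (nat_lit 0x1ae05fed02) (nat_lit 0x306a81d31000200000600) (nat_lit 50))))))
 (.n (.n (.n (.n (.p (nat_lit 0xd3e0d3c0d3a0d380d360b3906) (nat_lit 0x10000002300) (nat_lit 51))
 (.p (nat_lit 0x1d4c0c3d02) (nat_lit 0x40815) (nat_lit 5)))
 (.n (.p (nat_lit 0x1db61db41db21db01dae17f306) (nat_lit 0x800052604) (nat_lit 51))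
 (.p (nat_lit 0x1775a2302) (nat_lit 0x400208) (nat_lit 28))))
 (.n (.n (.p (nat_lit 0x75714f702) (nat_lit 0x540501) (nat_lit 15))
 (.p (nat_lit 0xe9a0e980e940e920e900cad06) (nat_lit 0x40000c0223) (nat_lit 52)))
 (.n (.p (nat_lit 0x58308b02) (nat_lit 0x40309) (nat_lit 1))
 (.p (nat_lit 0xfe45ee102) (nat_lit 0x4a8d84344000400000000) (nat_lit 50)))))
 (.n (.n (.n (.p (nat_lit 0x1b9c1b961b941b92190118ff06) (nat_lit 0xc000014800) (nat_lit 52))
 (.p (nat_lit 0x1bfa0f0502) (nat_lit 0x40081c) (nat_lit 4)))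
 (.n (.p (nat_lit 0x17241722171e171a196b196706) (nat_lit 0x5000008706) (nat_lit 52))
 (.p (nat_lit 0x5cf312a502) (nat_lit 0x2a0040000500) (nat_lit 40))))
 (.n (.n (.p (nat_lit 0x358a358635843582358008c106) (nat_lit 0x8000088103) (nat_lit 51))
 (.p (nat_lit 0x10b410ae10ac10aa0e210e1f06) (nat_lit 0xc00001632a) (nat_lit 52)))
 (.n (.p (nat_lit 0x22dc22da22d822d622d201e922d507) (nat_lit 0x140a0e) (nat_lit 7))
 (.p (nat_lit 0xbae60f102) (nat_lit 0x440d623a4000200040000) (nat_lit 49))))))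

def c512_323 : Tr := .n c1024_323 c1024_835

def c256_67 : Tr := .n c512_67 c512_323

def c1024_195 : Tr :=
 .n (.n (.n (.n (.n (.n (.p (nat_lit 0xba00b600c303) (nat_lit 0x5000500004) (nat_lit 17))
 (.p (nat_lit 0x21cc614f02) (nat_lit 0x3503a0d84000400040600) (nat_lit 49)))
 (.p (nat_lit 0x18631e302) (nat_lit 0x100510) (nat_lit 1)))
 (.n (.p (nat_lit 0x3967126502) (nat_lit 0x40403) (nat_lit 16))
 (.p (nat_lit 0x21a2135502) (nat_lit 0x300a2a) (nat_lit 5))))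
 (.n (.n (.p (nat_lit 0x1e1e1e1c1e1a1e141bc71bc506) (nat_lit 0x3000008900) (nat_lit 52))
 (.p (nat_lit 0x2b2255b302) (nat_lit 0x10081d) (nat_lit 29)))
 (.n (.p (nat_lit 0x1f021f001efe1efc1ef801151efb07) (nat_lit 0x100906) (nat_lit 7))
 (.p (nat_lit 0x5d5d5e4b02) (nat_lit 0x200080000600) (nat_lit 36)))))
 (.n (.n (.n (.p (nat_lit 0xdfc0dfa0df80df60df4000b0dff07) (nat_lit 0x500400) (nat_lit 7))
 (.p (nat_lit 0x2e5e2e5a2e582e562e542cfb06) (nat_lit 0x8000008017) (nat_lit 51)))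
 (.n (.p (nat_lit 0x25d425d025ce25ca00d200bd00b725d325cd09) (nat_lit 0x2140b04) (nat_lit 10))
 (.p (nat_lit 0x2f35b5b02) (nat_lit 0x41a) (nat_lit 28))))
 (.n (.n (.p (nat_lit 0x2050204e204c20482046002f204b07) (nat_lit 0x240901) (nat_lit 7))
 (.p (nat_lit 0x219f219302) (nat_lit 0x100a23) (nat_lit 16)))
 (.n (.p (nat_lit 0x3a643a623a603a5e3a5c396706) (nat_lit 0x8000d640a) (nat_lit 51))
 (.p (nat_lit 0x248f248b21d921d51f151f0b1c511c431983197516ad16995f4e0d) (nat_lit 0x1a2276350000000040600) (nat_lit 33))))))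
 (.n (.n (.n (.n (.p (nat_lit 0x8c505bd02) (nat_lit 0x12100) (nat_lit 16))
 (.p (nat_lit 0x4499073102) (nat_lit 0x454015) (nat_lit 16)))
 (.n (.p (nat_lit 0x3e870b8b02) (nat_lit 0x40a204) (nat_lit 16))
 (.p (nat_lit 0x4d524f8102) (nat_lit 0x240230) (nat_lit 4))))
 (.n (.n (.p (nat_lit 0x253425322530252e22c522c306) (nat_lit 0x180000ceb00) (nat_lit 51))
 (.p (nat_lit 0x28fc28fa28f828f628f2502306) (nat_lit 0x10000c0722) (nat_lit 52)))
 (.n (.p (nat_lit 0x3460345e345c345a34581bcf06) (nat_lit 0x800006807) (nat_lit 52))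
 (.p (nat_lit 0x5e90410b02) (nat_lit 0xa0042900) (nat_lit 48)))))
 (.n (.n (.n (.p (nat_lit 0x176c176a17681766176416b106) (nat_lit 0x800052600) (nat_lit 51))
 (.p (nat_lit 0x4cc04ca04c604c404c2073b06) (nat_lit 0x400004001c) (nat_lit 52)))
 (.n (.p (nat_lit 0x1c284a6702) (nat_lit 0x300805) (nat_lit 29))
 (.p (nat_lit 0x5d795ded02) (nat_lit 0x40080000200) (nat_lit 37))))
 (.n (.n (.p (nat_lit 0x231b205302) (nat_lit 0x40902) (nat_lit 15))
 (.p (nat_lit 0x1164c8b02) (nat_lit 0x240129) (nat_lit 1)))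
 (.n (.p (nat_lit 0x299d10e502) (nat_lit 0x50c40e) (nat_lit 16))
 (.p (nat_lit 0x1da6604d02) (nat_lit 0x406a6254c800300000600) (nat_lit 49))))))

def c1024_707 : Tr :=
 .n (.n (.n (.n (.n (.n (.p (nat_lit 0x4e004c902) (nat_lit 0x300000) (nat_lit 4))
 (.p (nat_lit 0x64061cd02) (nat_lit 0x3421684a0800000040000) (nat_lit 50)))
 (.p (nat_lit 0x9220920091c091a0918422706) (nat_lit 0x4000008612) (nat_lit 51)))
 (.n (.p (nat_lit 0xa4e0a4c0a480a44246f246b06) (nat_lit 0x5000004b03) (nat_lit 52))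
 (.p (nat_lit 0x36d839b102) (nat_lit 0x50022d) (nat_lit 4))))
 (.n (.n (.p (nat_lit 0x21691e9502) (nat_lit 0x400a00) (nat_lit 16))
 (.p (nat_lit 0x3d0a3fc702) (nat_lit 0x540020) (nat_lit 4)))
 (.n (.p (nat_lit 0xf720f700f6c0f6a0f6801470f6f07) (nat_lit 0x340307) (nat_lit 7))
 (.p (nat_lit 0x5e6c1eef02) (nat_lit 0x2000c800) (nat_lit 47)))))
 (.n (.n (.n (.p (nat_lit 0x137c137a13781376137410c306) (nat_lit 0x800096500) (nat_lit 52))
 (.p (nat_lit 0x42ca3e5102) (nat_lit 0x100719) (nat_lit 5)))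
 (.n (.p (nat_lit 0x13d4225d02) (nat_lit 0x100505) (nat_lit 5))
 (.p (nat_lit 0x5cf55db702) (nat_lit 0x280040000000) (nat_lit 37))))
 (.n (.n (.p (nat_lit 0xb702ed502) (nat_lit 0x300202) (nat_lit 29))
 (.p (nat_lit 0x3758393702) (nat_lit 0x540226) (nat_lit 4)))
 (.n (.p (nat_lit 0x49ca447302) (nat_lit 0x10070c) (nat_lit 5))
 (.p (nat_lit 0x1dac5fcf02) (nat_lit 0x9582ec05000300000600) (nat_lit 50))))))
 (.n (.n (.n (.n (.p (nat_lit 0xc9709d502) (nat_lit 0x440200) (nat_lit 15))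
 (.p (nat_lit 0x191c544902) (nat_lit 0x715) (nat_lit 29)))
 (.n (.p (nat_lit 0x4217168302) (nat_lit 0x100604) (nat_lit 16))
 (.p (nat_lit 0x11d59cd02) (nat_lit 0x500106) (nat_lit 28))))
 (.n (.n (.p (nat_lit 0x1256125412521250124c002d124f07) (nat_lit 0x140401) (nat_lit 7))
 (.p (nat_lit 0x3dfd09ef02) (nat_lit 0x552123) (nat_lit 16)))
 (.n (.p (nat_lit 0x2be62be42be22be02bdc01712bdf07) (nat_lit 0x140908) (nat_lit 7))
 (.p (nat_lit 0xa525ec502) (nat_lit 0x260b84344000200000000) (nat_lit 50)))))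
 (.n (.n (.n (.p (nat_lit 0x1aab179902) (nat_lit 0x34a700) (nat_lit 16))
 (.p (nat_lit 0x17c80d7902) (nat_lit 0x34061c) (nat_lit 5)))
 (.n (.p (nat_lit 0x1174eb302) (nat_lit 0x240406) (nat_lit 30))
 (.p (nat_lit 0x5da55e1f02) (nat_lit 0x800a0000400) (nat_lit 36))))
 (.n (.n (.p (nat_lit 0x608343702) (nat_lit 0x200003) (nat_lit 29))
 (.p (nat_lit 0x12a812a612a412a212a00cbd06) (nat_lit 0x1000004a22a) (nat_lit 51)))
 (.n (.p (nat_lit 0x35ec35e835e635e435e21d4906) (nat_lit 0x800004880e) (nat_lit 51))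
 (.p (nat_lit 0x114e60d102) (nat_lit 0x35052a3a4000400040000) (nat_lit 50))))))

def c512_195 : Tr := .n c1024_195 c1024_707

def c1024_451 : Tr :=
 .n (.n (.n (.n (.n (.n (.p (nat_lit 0x28a02880286028d04) (nat_lit 0x1c000400015) (nat_lit 17))
 (.p (nat_lit 0x21ce618902) (nat_lit 0x340b86c64000400040600) (nat_lit 49)))
 (.p (nat_lit 0x39de358d02) (nat_lit 0x511) (nat_lit 5)))
 (.n (.p (nat_lit 0x1a121a101a0e1a0c1a0817e906) (nat_lit 0x10000ca603) (nat_lit 52))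
 (.p (nat_lit 0x2c202ad502) (nat_lit 0x44092b) (nat_lit 4))))
 (.n (.n (.p (nat_lit 0x1fc01fbe1fb81fb61d2f1d2d06) (nat_lit 0x60000cc900) (nat_lit 52))
 (.p (nat_lit 0x35523550354e354a35480353354d07) (nat_lit 0x24001f) (nat_lit 7)))
 (.n (.p (nat_lit 0x280f0b3d02) (nat_lit 0x10c207) (nat_lit 16))
 (.p (nat_lit 0x5d25181102) (nat_lit 0x280060000700) (nat_lit 38)))))
 (.n (.n (.n (.p (nat_lit 0x1180117e117c117a11780f5d06) (nat_lit 0x8000c2400) (nat_lit 52))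
 (.p (nat_lit 0x3aa454c302) (nat_lit 0x100618) (nat_lit 29)))
 (.n (.p (nat_lit 0xed45a902) (nat_lit 0x500205) (nat_lit 30))
 (.p (nat_lit 0x402040003fc03fa03f700b906) (nat_lit 0x2a0e127) (nat_lit 26))))
 (.n (.n (.p (nat_lit 0x2c582c562c542c522c502c4e00382319231323110a) (nat_lit 0x15140a01) (nat_lit 31))
 (.p (nat_lit 0x103a1038103610342bc32bc106) (nat_lit 0x1800000c924) (nat_lit 52)))
 (.n (.p (nat_lit 0x40f83cb702) (nat_lit 0x24040b) (nat_lit 4))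
 (.p (nat_lit 0x1ad45f8d02) (nat_lit 0x581a30344000200000600) (nat_lit 49))))))
 (.n (.n (.n (.n (.p (nat_lit 0xa7e0a7c0a780a760877087106) (nat_lit 0x4800008200) (nat_lit 52))
 (.p (nat_lit 0x153e153c153a15361534138f06) (nat_lit 0x200000c515) (nat_lit 52)))
 (.n (.p (nat_lit 0x40ae40ac40a840a41277127306) (nat_lit 0x5000042404) (nat_lit 51))
 (.p (nat_lit 0x89591d02) (nat_lit 0x100103) (nat_lit 28))))
 (.n (.n (.p (nat_lit 0x2120a0502) (nat_lit 0x440101) (nat_lit 1))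
 (.p (nat_lit 0x888100502) (nat_lit 0x123) (nat_lit 4)))
 (.n (.p (nat_lit 0x4af84af64af24af04aee241b06) (nat_lit 0x4000010b07) (nat_lit 52))
 (.p (nat_lit 0x5cbb5ead02) (nat_lit 0x20000000b00) (nat_lit 37)))))
 (.n (.n (.n (.p (nat_lit 0x1903162b02) (nat_lit 0x500700) (nat_lit 15))
 (.p (nat_lit 0x9e209e009da09d8032a030d030b09df09dd09) (nat_lit 0x1a4011c) (nat_lit 10)))
 (.n (.p (nat_lit 0x8e2236902) (nat_lit 0x300106) (nat_lit 4))
 (.p (nat_lit 0x5d615e0702) (nat_lit 0x1c0080000300) (nat_lit 37))))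
 (.n (.n (.p (nat_lit 0x19781976197419721970232506) (nat_lit 0x100000cea02) (nat_lit 52))
 (.p (nat_lit 0x14609f702) (nat_lit 0x34012a) (nat_lit 1)))
 (.n (.p (nat_lit 0x4fc04fa04f604f414cf14c906) (nat_lit 0x48000c450e) (nat_lit 52))
 (.p (nat_lit 0xe6e608d02) (nat_lit 0x342221ca4000300040000) (nat_lit 49))))))

def c1024_963 : Tr :=
 .n (.n (.n (.n (.n (.p (nat_lit 0x69e069c069a06980694064f06) (nat_lit 0x10000c8000) (nat_lit 52))
 (.p (nat_lit 0x274027f027d4bbf4c4d05) (nat_lit 0x66840414) (nat_lit 9)))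
 (.n (.p (nat_lit 0x6141dbd02) (nat_lit 0x200004) (nat_lit 4))
 (.p (nat_lit 0x42a2416702) (nat_lit 0x54062e) (nat_lit 4))))
 (.n (.n (.p (nat_lit 0x2341233502) (nat_lit 0x100b00) (nat_lit 34))
 (.p (nat_lit 0x44a644a444a0449e449c038b44a307) (nat_lit 0x340021) (nat_lit 7)))
 (.n (.p (nat_lit 0x149516902) (nat_lit 0x440407) (nat_lit 30))
 (.p (nat_lit 0x5c9d1f1102) (nat_lit 0x200000000900) (nat_lit 41)))))
 (.n (.n (.n (.p (nat_lit 0x1554153d02) (nat_lit 0x400600) (nat_lit 4))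
 (.p (nat_lit 0x4f344d1902) (nat_lit 0x44041b) (nat_lit 5)))
 (.n (.p (nat_lit 0x7aa07a807a607a207a0195d06) (nat_lit 0x2000002705) (nat_lit 51))
 (.p (nat_lit 0x5d2908ef02) (nat_lit 0x240060000100) (nat_lit 39))))
 (.n (.n (.p (nat_lit 0x13b0318102) (nat_lit 0x100502) (nat_lit 29))
 (.p (nat_lit 0x42e4406f02) (nat_lit 0x200727) (nat_lit 5)))
 (.n (.p (nat_lit 0x1e952cb02) (nat_lit 0x10030e) (nat_lit 30))
 (.p (nat_lit 0x2070600f02) (nat_lit 0x405aa0b94800400000600) (nat_lit 49))))))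
 (.n (.n (.n (.n (.p (nat_lit 0xe4d0b3302) (nat_lit 0x212300) (nat_lit 16))
 (.p (nat_lit 0x2180549902) (nat_lit 0x400a15) (nat_lit 29)))
 (.n (.p (nat_lit 0x1d0a1d081d061d041957195506) (nat_lit 0x18000094704) (nat_lit 51))
 (.p (nat_lit 0x1f001ee01e801e60007028506) (nat_lit 0x1a0830e) (nat_lit 26))))
 (.n (.n (.p (nat_lit 0x1d7c175702) (nat_lit 0x40801) (nat_lit 5))
 (.p (nat_lit 0x193e11b702) (nat_lit 0x500723) (nat_lit 4)))
 (.n (.p (nat_lit 0x67a0678067606720670332706) (nat_lit 0x2000006a09) (nat_lit 51))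
 (.p (nat_lit 0x1ad45f0f02) (nat_lit 0x3a2570344000200000600) (nat_lit 49)))))
 (.n (.n (.n (.p (nat_lit 0x1a661a621a601a5e0012000900011a651a5d09) (nat_lit 0x2040800) (nat_lit 10))
 (.p (nat_lit 0x20220db902) (nat_lit 0x4091c) (nat_lit 4)))
 (.n (.p (nat_lit 0x1c3823ef02) (nat_lit 0x500806) (nat_lit 4))
 (.p (nat_lit 0x5d8f12ab02) (nat_lit 0x1e00a0000500) (nat_lit 40))))
 (.n (.n (.p (nat_lit 0xb870b7b02) (nat_lit 0x214203) (nat_lit 16))
 (.p (nat_lit 0x4259167102) (nat_lit 0x41262a) (nat_lit 16)))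
 (.n (.p (nat_lit 0x299c299a299829942992020f299707) (nat_lit 0x20040f) (nat_lit 7))
 (.p (nat_lit 0x13ee611302) (nat_lit 0x34252a1b0000500040000) (nat_lit 49))))))

def c512_451 : Tr := .n c1024_451 c1024_963

def c256_195 : Tr := .n c512_195 c512_451

def c128_67 : Tr := .n c256_67 c256_195

def c64_3 : Tr := .n c128_3 c128_67

def c1024_35 : Tr :=
 .n (.n (.n (.n (.n (.n (.p (nat_lit 0x34002e002c003704) (nat_lit 0x13000400001) (nat_lit 17))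
 (.p (nat_lit 0x113c612b02) (nat_lit 0x35486a3b0000400040000) (nat_lit 49)))
 (.p (nat_lit 0x2b122b102b0a2b08021c0211020f2b0f2b0d09) (nat_lit 0x1a0080f) (nat_lit 10)))
 (.n (.p (nat_lit 0xfa81b4302) (nat_lit 0x240303) (nat_lit 4))
 (.p (nat_lit 0x1aac131f02) (nat_lit 0x44072a) (nat_lit 4))))
 (.n (.n (.p (nat_lit 0x1d021d001cfe1cfa1cf81a6106) (nat_lit 0x2000054800) (nat_lit 51))
 (.p (nat_lit 0x307558d02) (nat_lit 0x40a1c) (nat_lit 30)))
 (.n (.p (nat_lit 0x50731c3902) (nat_lit 0x508806) (nat_lit 16))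
 (.p (nat_lit 0x5cdb169b02) (nat_lit 0x120020000600) (nat_lit 39)))))
 (.n (.n (.n (.p (nat_lit 0xebe0ebc0eb60eb40c950c9306) (nat_lit 0x600004a300) (nat_lit 51))
 (.p (nat_lit 0x2439242d02) (nat_lit 0x8b15) (nat_lit 16)))
 (.n (.p (nat_lit 0x1d001cfe1cfc1cfa1cf81abb06) (nat_lit 0x10000054704) (nat_lit 51))
 (.p (nat_lit 0x2b65abb02) (nat_lit 0x40030f) (nat_lit 27))))
 (.n (.n (.p (nat_lit 0x2b7b1d8702) (nat_lit 0x54a801) (nat_lit 16))
 (.p (nat_lit 0x50691bff02) (nat_lit 0x16823) (nat_lit 16)))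
 (.n (.p (nat_lit 0x357e357c357a3578357636b706) (nat_lit 0x80000820a) (nat_lit 52))
 (.p (nat_lit 0x1da65f1f02) (nat_lit 0x1a2260b50000300000600) (nat_lit 49))))))
 (.n (.n (.n (.n (.p (nat_lit 0x789064d02) (nat_lit 0x56000) (nat_lit 16))
 (.p (nat_lit 0x7da07d807d607d207d0509d06) (nat_lit 0x20000c8814) (nat_lit 51)))
 (.n (.p (nat_lit 0x3cfd077902) (nat_lit 0x444004) (nat_lit 16))
 (.p (nat_lit 0x227c2278227622742272460b06) (nat_lit 0x800000c22f) (nat_lit 51))))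
 (.n (.n (.p (nat_lit 0x24062404240023fe23fc215b06) (nat_lit 0x4000012b00) (nat_lit 51))
 (.p (nat_lit 0x4a3c474302) (nat_lit 0x40721) (nat_lit 4)))
 (.n (.p (nat_lit 0x5176517451725170516e516c014c07) (nat_lit 0x40607) (nat_lit 8))
 (.p (nat_lit 0x5d051db102) (nat_lit 0x180040000900) (nat_lit 40)))))
 (.n (.n (.n (.p (nat_lit 0x1621154d02) (nat_lit 0x600) (nat_lit 15))
 (.p (nat_lit 0x5da0d2502) (nat_lit 0x30001c) (nat_lit 4)))
 (.n (.p (nat_lit 0x1ac61ac41ac21ac01abc00e51abf07) (nat_lit 0x140705) (nat_lit 7))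
 (.p (nat_lit 0x5cbd0a5102) (nat_lit 0x200) (nat_lit 40))))
 (.n (.n (.p (nat_lit 0x660085006f1a1518b105) (nat_lit 0xb1800902) (nat_lit 9))
 (.p (nat_lit 0x22b622b422b222b022ae452106) (nat_lit 0x10000090128) (nat_lit 52)))
 (.n (.p (nat_lit 0xf7c0f7a0f780f760f7401f10f7f07) (nat_lit 0x54030e) (nat_lit 7))
 (.p (nat_lit 0x1da6602502) (nat_lit 0x406a6252d000300000600) (nat_lit 49))))))

def c1024_547 : Tr :=
 .n (.n (.n (.n (.n (.n (.p (nat_lit 0x340033e0338034304) (nat_lit 0x1900040001d) (nat_lit 17))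
 (.p (nat_lit 0xbac61a502) (nat_lit 0x3222a5c15000200040000) (nat_lit 49)))
 (.p (nat_lit 0x3bd4363102) (nat_lit 0x540b11) (nat_lit 4)))
 (.n (.p (nat_lit 0x1e4e1e4a1e481e461e4421c906) (nat_lit 0x800000ca03) (nat_lit 52))
 (.p (nat_lit 0x30ac31b502) (nat_lit 0x54032c) (nat_lit 5))))
 (.n (.n (.p (nat_lit 0x204f1d3102) (nat_lit 0x44c900) (nat_lit 16))
 (.p (nat_lit 0x3a7a37a302) (nat_lit 0x44051f) (nat_lit 4)))
 (.n (.p (nat_lit 0x2f930ca102) (nat_lit 0x34e207) (nat_lit 16))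
 (.p (nat_lit 0x5da5198702) (nat_lit 0x800a0000700) (nat_lit 41)))))
 (.n (.n (.n (.p (nat_lit 0x12650f5d02) (nat_lit 0x50400) (nat_lit 16))
 (.p (nat_lit 0x3cfa3ea502) (nat_lit 0x340019) (nat_lit 4)))
 (.n (.p (nat_lit 0xeb46a102) (nat_lit 0x400305) (nat_lit 30))
 (.p (nat_lit 0x5c6e5c6c5c6a5c685c6404bb044007) (nat_lit 0x10ca2a) (nat_lit 25))))
 (.n (.n (.p (nat_lit 0x75c183302) (nat_lit 0x240002) (nat_lit 5))
 (.p (nat_lit 0x330230d302) (nat_lit 0x240925) (nat_lit 5)))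
 (.n (.p (nat_lit 0x43063cdb02) (nat_lit 0x24070b) (nat_lit 5))
 (.p (nat_lit 0x8fa5f9f02) (nat_lit 0x589832b44000100040000) (nat_lit 50))))))
 (.n (.n (.n (.n (.p (nat_lit 0xb67087902) (nat_lit 0x40c200) (nat_lit 16))
 (.p (nat_lit 0xa5a0a580a560a5214d914d506) (nat_lit 0x2800044515) (nat_lit 51)))
 (.n (.p (nat_lit 0xb741a102) (nat_lit 0x140504) (nat_lit 30))
 (.p (nat_lit 0x402596502) (nat_lit 0x400404) (nat_lit 27))))
 (.n (.n (.p (nat_lit 0x380051004916f9158905) (nat_lit 0xa9940201) (nat_lit 9))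
 (.p (nat_lit 0x21e221e021de21dc21da088906) (nat_lit 0x800094123) (nat_lit 51)))
 (.n (.p (nat_lit 0x27942792278e278c278a286d06) (nat_lit 0x4000052208) (nat_lit 51))
 (.p (nat_lit 0x5eb64c8b02) (nat_lit 0x40048b00) (nat_lit 48)))))
 (.n (.n (.n (.p (nat_lit 0x1992198e198c198a179b179306) (nat_lit 0x8800040700) (nat_lit 52))
 (.p (nat_lit 0x1180117e117a1176139d139906) (nat_lit 0x500008251c) (nat_lit 52)))
 (.n (.p (nat_lit 0x1194c9902) (nat_lit 0x300206) (nat_lit 30))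
 (.p (nat_lit 0x5ce15e0f02) (nat_lit 0xc0020000400) (nat_lit 36))))
 (.n (.n (.p (nat_lit 0x6333c902) (nat_lit 0x500b02) (nat_lit 30))
 (.p (nat_lit 0xb5c0b580b540b52045a043d04390b5b0b5709) (nat_lit 0x220022a) (nat_lit 10)))
 (.n (.p (nat_lit 0x17b4095f02) (nat_lit 0x54060e) (nat_lit 4))
 (.p (nat_lit 0x1c4a609f02) (nat_lit 0x344588ca4000200040600) (nat_lit 50))))))

def c512_35 : Tr := .n c1024_35 c1024_547

def c1024_291 : Tr :=
 .n (.n (.n (.n (.n (.n (.p (nat_lit 0x1180114012103) (nat_lit 0x5000500006) (nat_lit 17))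
 (.p (nat_lit 0x1daa616302) (nat_lit 0x421aa4395000300000600) (nat_lit 49)))
 (.p (nat_lit 0x7c207c007bc07ba07b8338906) (nat_lit 0x40000c6a10) (nat_lit 52)))
 (.n (.p (nat_lit 0x769150902) (nat_lit 0x240503) (nat_lit 15))
 (.p (nat_lit 0x25ac137902) (nat_lit 0x340b2a) (nat_lit 4))))
 (.n (.n (.p (nat_lit 0x1e8f1bc502) (nat_lit 0x100900) (nat_lit 15))
 (.p (nat_lit 0x2da6304302) (nat_lit 0x54001e) (nat_lit 4)))
 (.n (.p (nat_lit 0x2068206620642060205e0117206307) (nat_lit 0x240906) (nat_lit 7))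
 (.p (nat_lit 0x5c91197102) (nat_lit 0x2c0000000700) (nat_lit 39)))))
 (.n (.n (.n (.p (nat_lit 0x106e106c106810660dfb0df506) (nat_lit 0x4800010400) (nat_lit 51))
 (.p (nat_lit 0xbe00bde0bdc0bd80bd6333f06) (nat_lit 0x2000008a17) (nat_lit 51)))
 (.n (.p (nat_lit 0x43ca43c643c443c20625061d06) (nat_lit 0x8800006005) (nat_lit 52))
 (.p (nat_lit 0x340033c033a03360395030f06) (nat_lit 0xc1491d) (nat_lit 26))))
 (.n (.n (.p (nat_lit 0x2080207e207c207a2078204706) (nat_lit 0x800054901) (nat_lit 51))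
 (.p (nat_lit 0x3a1573102) (nat_lit 0x40b23) (nat_lit 30)))
 (.n (.p (nat_lit 0x67a06780676067206703b6f06) (nat_lit 0x2000006b0a) (nat_lit 51))
 (.p (nat_lit 0xfe45f6102) (nat_lit 0x3aa570344000400000000) (nat_lit 50))))))
 (.n (.n (.n (.n (.p (nat_lit 0x9460940093e093c0725072306) (nat_lit 0xc0000ca100) (nat_lit 52))
 (.p (nat_lit 0x54225420541e541c541a5418028c07) (nat_lit 0x40415) (nat_lit 8)))
 (.n (.p (nat_lit 0x3680e4f02) (nat_lit 0x300304) (nat_lit 1))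
 (.p (nat_lit 0x2b58b302) (nat_lit 0x501) (nat_lit 28))))
 (.n (.n (.p (nat_lit 0x25c322bf02) (nat_lit 0x250b00) (nat_lit 16))
 (.p (nat_lit 0x43805e502) (nat_lit 0x200023) (nat_lit 1)))
 (.n (.p (nat_lit 0x21671e9f02) (nat_lit 0x300907) (nat_lit 15))
 (.p (nat_lit 0x5e98206d02) (nat_lit 0x20000a00) (nat_lit 45)))))
 (.n (.n (.n (.p (nat_lit 0x17f116bb02) (nat_lit 0x550600) (nat_lit 16))
 (.p (nat_lit 0x747073b02) (nat_lit 0x34a01c) (nat_lit 16)))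
 (.n (.p (nat_lit 0x1d921d8e1d8c1d8a1d8800eb1d9107) (nat_lit 0x440805) (nat_lit 7))
 (.p (nat_lit 0x5cb90d0702) (nat_lit 0x40000000300) (nat_lit 38))))
 (.n (.n (.p (nat_lit 0x16a0169e169c169a169821bf06) (nat_lit 0x1000008ca02) (nat_lit 52))
 (.p (nat_lit 0x10181016101410121010507306) (nat_lit 0x10000082829) (nat_lit 51)))
 (.n (.p (nat_lit 0x1f0e1f0c1f081f061f04123b06) (nat_lit 0x40000d240e) (nat_lit 52))
 (.p (nat_lit 0x1daa606502) (nat_lit 0x85ab0335000300000600) (nat_lit 49))))))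

def c1024_803 : Tr :=
 .n (.n (.n (.n (.n (.n (.p (nat_lit 0x538053405320530052e04e306) (nat_lit 0x800000c000) (nat_lit 52))
 (.p (nat_lit 0x64a61e302) (nat_lit 0x3302a5895000000040000) (nat_lit 50)))
 (.p (nat_lit 0x208a208820862084208247e306) (nat_lit 0x10000000413) (nat_lit 52)))
 (.n (.p (nat_lit 0x3b8d247302) (nat_lit 0x504b03) (nat_lit 16))
 (.p (nat_lit 0x43c3baf02) (nat_lit 0x400b2d) (nat_lit 1))))
 (.n (.n (.p (nat_lit 0x21fa21f821f221f01ff91ff706) (nat_lit 0x60000c0a00) (nat_lit 51))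
 (.p (nat_lit 0x4242423e423c423a4238036b424107) (nat_lit 0x400620) (nat_lit 7)))
 (.n (.p (nat_lit 0x122d0f6d02) (nat_lit 0x240307) (nat_lit 15))
 (.p (nat_lit 0x5e721c4102) (nat_lit 0x60040800) (nat_lit 45)))))
 (.n (.n (.n (.p (nat_lit 0x1418141614141412140e121f06) (nat_lit 0x10000c2500) (nat_lit 51))
 (.p (nat_lit 0x471447124710470e470c485706) (nat_lit 0x80004041a) (nat_lit 51)))
 (.n (.p (nat_lit 0xe7496702) (nat_lit 0x200605) (nat_lit 30))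
 (.p (nat_lit 0x5d9304cd02) (nat_lit 0x1a00a0000000) (nat_lit 38))))
 (.n (.n (.p (nat_lit 0xe3a19d902) (nat_lit 0x500302) (nat_lit 5))
 (.p (nat_lit 0x1168116611641160115e3bf306) (nat_lit 0x20000c0b26) (nat_lit 51)))
 (.n (.p (nat_lit 0x23f823f623f423f223f04dcb06) (nat_lit 0x1000009030d) (nat_lit 51))
 (.p (nat_lit 0x23325fe502) (nat_lit 0x3062a1c35000500000600) (nat_lit 49))))))
 (.n (.n (.n (.n (.p (nat_lit 0xd280d260d240d1e0b330b3106) (nat_lit 0x3000000300) (nat_lit 52))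
 (.p (nat_lit 0x4a3b1a8b02) (nat_lit 0x554715) (nat_lit 16)))
 (.n (.p (nat_lit 0x129e129a12981296129417fb06) (nat_lit 0x800004a604) (nat_lit 52))
 (.p (nat_lit 0x14801460142014001cf000506) (nat_lit 0x2a14307) (nat_lit 26))))
 (.n (.n (.p (nat_lit 0x14f015d102) (nat_lit 0x240501) (nat_lit 5))
 (.p (nat_lit 0x30a0cab02) (nat_lit 0x240223) (nat_lit 1)))
 (.n (.p (nat_lit 0x301430123010300e300a0187300d07) (nat_lit 0x100309) (nat_lit 7))
 (.p (nat_lit 0x8ec5edb02) (nat_lit 0x4a9d22344000100040000) (nat_lit 49)))))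
 (.n (.n (.n (.p (nat_lit 0x1b781b741b721b70190118f906) (nat_lit 0x880008a800) (nat_lit 52))
 (.p (nat_lit 0x300830063004300230001a9506) (nat_lit 0x800005671c) (nat_lit 52)))
 (.n (.p (nat_lit 0x196e196c196a196819640115196707) (nat_lit 0x100706) (nat_lit 7))
 (.p (nat_lit 0x5cc912a302) (nat_lit 0x240020000500) (nat_lit 40))))
 (.n (.n (.p (nat_lit 0x23a08bb02) (nat_lit 0x100103) (nat_lit 1))
 (.p (nat_lit 0xe2257cb02) (nat_lit 0x50032a) (nat_lit 29)))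
 (.n (.p (nat_lit 0x201b200f02) (nat_lit 0x24690e) (nat_lit 16))
 (.p (nat_lit 0xbb260eb02) (nat_lit 0x340d623a4000200040000) (nat_lit 50))))))

def c512_291 : Tr := .n c1024_291 c1024_803

def c256_35 : Tr := .n c512_35 c512_291

def c1024_163 : Tr :=
 .n (.n (.n (.n (.n (.n (.p (nat_lit 0x9d009b009403) (nat_lit 0x1a00003) (nat_lit 19))
 (.p (nat_lit 0x634614b02) (nat_lit 0x3b0221d84000000040000) (nat_lit 49)))
 (.p (nat_lit 0x38e7310302) (nat_lit 0x412410) (nat_lit 16)))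
 (.n (.p (nat_lit 0x8d38fd02) (nat_lit 0x340403) (nat_lit 30))
 (.p (nat_lit 0x2044134d02) (nat_lit 0x54092a) (nat_lit 5))))
 (.n (.n (.p (nat_lit 0x1bca1bc61bc41bc20026000b00071bcd1bc909) (nat_lit 0x2b00900) (nat_lit 10))
 (.p (nat_lit 0x3226c502) (nat_lit 0x44001d) (nat_lit 1)))
 (.n (.p (nat_lit 0x248a2488248424801d9b1d9706) (nat_lit 0x50000d6806) (nat_lit 52))
 (.p (nat_lit 0x5d1f154702) (nat_lit 0x2e0060000600) (nat_lit 40)))))
 (.n (.n (.n (.p (nat_lit 0xfea0fe80fe60fe40fe20fe006) (nat_lit 0x400) (nat_lit 3))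
 (.p (nat_lit 0x2bf427fd02) (nat_lit 0x40916) (nat_lit 4)))
 (.n (.p (nat_lit 0x25cc1e8302) (nat_lit 0x140b04) (nat_lit 4))
 (.p (nat_lit 0x2855b3502) (nat_lit 0x200a15) (nat_lit 28))))
 (.n (.n (.p (nat_lit 0x2b9d1ee902) (nat_lit 0x402901) (nat_lit 16))
 (.p (nat_lit 0x2301203902) (nat_lit 0x540923) (nat_lit 15)))
 (.n (.p (nat_lit 0x3a203a1e3a1c3a1838d938d506) (nat_lit 0x500008240a) (nat_lit 51))
 (.p (nat_lit 0x18105f3f02) (nat_lit 0x3a2560c64000100000600) (nat_lit 49))))))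
 (.n (.n (.n (.n (.p (nat_lit 0x87d05bd02) (nat_lit 0x6100) (nat_lit 16))
 (.p (nat_lit 0x7c007be07bc07ba07b8073306) (nat_lit 0x100000c6015) (nat_lit 52)))
 (.n (.p (nat_lit 0xbd3e1302) (nat_lit 0x400204) (nat_lit 30))
 (.p (nat_lit 0x12c212c012be12bc12ba4a5506) (nat_lit 0x8000c272f) (nat_lit 52))))
 (.n (.n (.p (nat_lit 0x24f024ec24ea24e824e622c306) (nat_lit 0x80000c6b00) (nat_lit 52))
 (.p (nat_lit 0x4fbc4d8b02) (nat_lit 0x240522) (nat_lit 4)))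
 (.n (.p (nat_lit 0x141519102) (nat_lit 0x807) (nat_lit 30))
 (.p (nat_lit 0x5da55e9102) (nat_lit 0x800a0000900) (nat_lit 36)))))
 (.n (.n (.n (.p (nat_lit 0x173c173a17381736173216b306) (nat_lit 0x100004a600) (nat_lit 52))
 (.p (nat_lit 0x3c6905df02) (nat_lit 0x51201c) (nat_lit 16)))
 (.n (.p (nat_lit 0x4a391ac502) (nat_lit 0x444705) (nat_lit 16))
 (.p (nat_lit 0x5d470a5702) (nat_lit 0x60060000200) (nat_lit 40))))
 (.n (.n (.p (nat_lit 0x1cde1cda1cd81cd61cd4205b06) (nat_lit 0x80000ca902) (nat_lit 51))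
 (.p (nat_lit 0x4c164c144c124c104c0c041f4c0f07) (nat_lit 0x100129) (nat_lit 7)))
 (.n (.p (nat_lit 0x1db61db41db21db01dae10db06) (nat_lit 0x80001240e) (nat_lit 51))
 (.p (nat_lit 0x2495248121dd21d71f131f0b1c471c431987197516ab169b60440d) (nat_lit 0x40a96254c800000040600) (nat_lit 33))))))

def c1024_675 : Tr :=
 .n (.n (.n (.n (.n (.n (.p (nat_lit 0x46a0466046f03) (nat_lit 0xa00050002b) (nat_lit 17))
 (.p (nat_lit 0xe7a61c302) (nat_lit 0x3221a9c15000300040000) (nat_lit 50)))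
 (.p (nat_lit 0x25553e302) (nat_lit 0x340512) (nat_lit 30)))
 (.n (.p (nat_lit 0x246e1bb102) (nat_lit 0x300b03) (nat_lit 4))
 (.p (nat_lit 0x34e034de34dc34d834d6364f06) (nat_lit 0x20000c412d) (nat_lit 51))))
 (.n (.n (.p (nat_lit 0x21462144213e213c1e931e9106) (nat_lit 0x6000010a00) (nat_lit 51))
 (.p (nat_lit 0xb83c6302) (nat_lit 0x200020) (nat_lit 1)))
 (.n (.p (nat_lit 0xe150e0902) (nat_lit 0x404307) (nat_lit 16))
 (.p (nat_lit 0x5cd75e6d02) (nat_lit 0x160020000800) (nat_lit 37)))))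
 (.n (.n (.n (.p (nat_lit 0x12f212ee12ec12ea10cb10c306) (nat_lit 0x8800086500) (nat_lit 51))
 (.p (nat_lit 0x42763ee502) (nat_lit 0x140619) (nat_lit 4)))
 (.n (.p (nat_lit 0x1282225502) (nat_lit 0x340405) (nat_lit 4))
 (.p (nat_lit 0x5ccd04d102) (nat_lit 0x200020000000) (nat_lit 40))))
 (.n (.n (.p (nat_lit 0x2e742e722e702e6e2e6c0a1306) (nat_lit 0x100000ca102) (nat_lit 52))
 (.p (nat_lit 0x3df3363f02) (nat_lit 0x54126) (nat_lit 16)))
 (.n (.p (nat_lit 0x483e43d902) (nat_lit 0x4040c) (nat_lit 5))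
 (.p (nat_lit 0x233e5fc902) (nat_lit 0x9582ec15800500000600) (nat_lit 50))))))
 (.n (.n (.n (.n (.p (nat_lit 0xc260c220c200c1e09d509cd06) (nat_lit 0x880004e200) (nat_lit 52))
 (.p (nat_lit 0x17b6543d02) (nat_lit 0x40615) (nat_lit 29)))
 (.n (.p (nat_lit 0x1ade1adc1ad81ad61ad4168706) (nat_lit 0x4000010604) (nat_lit 52))
 (.p (nat_lit 0xea00e800e400e200bf000506) (nat_lit 0x2a10705) (nat_lit 26))))
 (.n (.n (.p (nat_lit 0x10fa294302) (nat_lit 0x400401) (nat_lit 29))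
 (.p (nat_lit 0x207420722070206e206a09e706) (nat_lit 0x1000054123) (nat_lit 52)))
 (.n (.p (nat_lit 0x2b88269902) (nat_lit 0x908) (nat_lit 4))
 (.p (nat_lit 0x5d995ec302) (nat_lit 0x1400a0000b00) (nat_lit 36)))))
 (.n (.n (.n (.p (nat_lit 0x1a63179902) (nat_lit 0x340700) (nat_lit 15))
 (.p (nat_lit 0x16500ecd02) (nat_lit 0x61c) (nat_lit 4)))
 (.n (.p (nat_lit 0x113823b302) (nat_lit 0x500406) (nat_lit 5))
 (.p (nat_lit 0x5d5d5e1d02) (nat_lit 0x200080000400) (nat_lit 37))))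
 (.n (.n (.p (nat_lit 0x15fa15f815f615f215f025b706) (nat_lit 0x2000052b02) (nat_lit 52))
 (.p (nat_lit 0x4cc04ca04c804c604c20cb506) (nat_lit 0x100004022a) (nat_lit 52)))
 (.n (.p (nat_lit 0x504f1be502) (nat_lit 0x51680e) (nat_lit 16))
 (.p (nat_lit 0x63460cd02) (nat_lit 0x3502623b0000000040000) (nat_lit 49))))))

def c512_163 : Tr := .n c1024_163 c1024_675

def c1024_419 : Tr :=
 .n (.n (.n (.n (.n (.n (.p (nat_lit 0x22c022a0222022f04) (nat_lit 0x18800400010) (nat_lit 17))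
 (.p (nat_lit 0x638618502) (nat_lit 0x421a86b95000000040000) (nat_lit 49)))
 (.p (nat_lit 0x3976358502) (nat_lit 0x240411) (nat_lit 5)))
 (.n (.p (nat_lit 0x17ee3ac102) (nat_lit 0x440603) (nat_lit 29))
 (.p (nat_lit 0x2bc82a5b02) (nat_lit 0x20092b) (nat_lit 5))))
 (.n (.n (.p (nat_lit 0x1f761f741f721f701d331d3106) (nat_lit 0x180000c6900) (nat_lit 52))
 (.p (nat_lit 0x34be37f502) (nat_lit 0x1f) (nat_lit 5)))
 (.n (.p (nat_lit 0x93a09380936093409320b3b06) (nat_lit 0x80000a207) (nat_lit 52))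
 (.p (nat_lit 0x5d3b5e5b02) (nat_lit 0x120060000700) (nat_lit 37)))))
 (.n (.n (.n (.p (nat_lit 0xf660f620f600f5c001a000900030f650f5f09) (nat_lit 0x2140400) (nat_lit 10))
 (.p (nat_lit 0x1d261d241d221d1e1d1c39ef06) (nat_lit 0x2000096518) (nat_lit 52)))
 (.n (.p (nat_lit 0x45970a3102) (nat_lit 0x24a105) (nat_lit 16))
 (.p (nat_lit 0x3d15bef02) (nat_lit 0x224) (nat_lit 28))))
 (.n (.n (.p (nat_lit 0x2318231623142312230e002d231107) (nat_lit 0x140a01) (nat_lit 7))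
 (.p (nat_lit 0x2b2c573f02) (nat_lit 0x100824) (nat_lit 29)))
 (.n (.p (nat_lit 0x40103c2102) (nat_lit 0x14030b) (nat_lit 5))
 (.p (nat_lit 0x23485f8102) (nat_lit 0x581a22b44000500000600) (nat_lit 50))))))
 (.n (.n (.n (.n (.p (nat_lit 0x8780876087408720870000b087b07) (nat_lit 0x500200) (nat_lit 7))
 (.p (nat_lit 0x8f208ee08ec08ea08e8139306) (nat_lit 0x8000082515) (nat_lit 52)))
 (.n (.p (nat_lit 0x12721e2302) (nat_lit 0x140404) (nat_lit 4))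
 (.p (nat_lit 0x59590302) (nat_lit 0xb02) (nat_lit 28))))
 (.n (.n (.p (nat_lit 0x26f626f426f226f026ec08a306) (nat_lit 0x1000088101) (nat_lit 51))
 (.p (nat_lit 0x12da12d812d612d412d0074306) (nat_lit 0x10000c4023) (nat_lit 51)))
 (.n (.p (nat_lit 0x241405a502) (nat_lit 0xb07) (nat_lit 5))
 (.p (nat_lit 0x5ea4495302) (nat_lit 0x80044a00) (nat_lit 48)))))
 (.n (.n (.n (.p (nat_lit 0x18dc18d818d618d4162b162706) (nat_lit 0x14000094700) (nat_lit 51))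
 (.p (nat_lit 0x9d8550902) (nat_lit 0x4011c) (nat_lit 29)))
 (.n (.p (nat_lit 0x792078e078c078a0788011b079107) (nat_lit 0x440006) (nat_lit 7))
 (.p (nat_lit 0x5e020d1902) (nat_lit 0x60000300) (nat_lit 46))))
 (.n (.n (.p (nat_lit 0xfdc0fda0fd80fd60fd4232506) (nat_lit 0x10000048a02) (nat_lit 52))
 (.p (nat_lit 0x5ba05b805b605b405b0089706) (nat_lit 0x100009612a) (nat_lit 51)))
 (.n (.p (nat_lit 0x14ce094302) (nat_lit 0x34050e) (nat_lit 4))
 (.p (nat_lit 0x16a6608302) (nat_lit 0x344380a64000000040600) (nat_lit 50))))))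

def c1024_931 : Tr :=
 .n (.n (.n (.n (.n (.p (nat_lit 0x67a0678067606720651064d06) (nat_lit 0x2800046000) (nat_lit 51))
 (.p (nat_lit 0x4e304c4102) (nat_lit 0x540314) (nat_lit 5)))
 (.n (.p (nat_lit 0x3bbf25bf02) (nat_lit 0x40b03) (nat_lit 16))
 (.p (nat_lit 0x4256415702) (nat_lit 0x30062e) (nat_lit 4))))
 (.n (.n (.p (nat_lit 0x22fb1ff702) (nat_lit 0x248a00) (nat_lit 16))
 (.p (nat_lit 0xe8441502) (nat_lit 0x300021) (nat_lit 1)))
 (.n (.p (nat_lit 0x434122902) (nat_lit 0x40407) (nat_lit 1))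
 (.p (nat_lit 0x5d831adf02) (nat_lit 0x2a00a0000800) (nat_lit 38)))))
 (.n (.n (.n (.p (nat_lit 0x1513121f02) (nat_lit 0x152500) (nat_lit 16))
 (.p (nat_lit 0x4b104c9f02) (nat_lit 0x1b) (nat_lit 5)))
 (.n (.p (nat_lit 0x1abf180102) (nat_lit 0x140605) (nat_lit 15))
 (.p (nat_lit 0x5d4707a702) (nat_lit 0x60060000100) (nat_lit 40))))
 (.n (.n (.p (nat_lit 0x125e310d02) (nat_lit 0x340402) (nat_lit 29))
 (.p (nat_lit 0x118c118a118611841182424b06) (nat_lit 0x4000004627) (nat_lit 52)))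
 (.n (.p (nat_lit 0x50e64b7702) (nat_lit 0x30090d) (nat_lit 4))
 (.p (nat_lit 0x2495248121db21d31f151f0f1c471c3d1983197916af169b60060d) (nat_lit 0x405aa0b94800000040600) (nat_lit 33))))))
 (.n (.n (.n (.n (.p (nat_lit 0xe0b0b3902) (nat_lit 0x500300) (nat_lit 16))
 (.p (nat_lit 0x3ec83ec63ec43ec23ec0201706) (nat_lit 0x80004a915) (nat_lit 51)))
 (.n (.p (nat_lit 0x1b1a1b181b141b101953194f06) (nat_lit 0x5000082704) (nat_lit 51))
 (.p (nat_lit 0x19c5a5f02) (nat_lit 0x20070b) (nat_lit 27))))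
 (.n (.n (.p (nat_lit 0x1a4e1a4c1a481a461c1d1c1706) (nat_lit 0x4800016801) (nat_lit 52))
 (.p (nat_lit 0x17d2104502) (nat_lit 0x240623) (nat_lit 4)))
 (.n (.p (nat_lit 0x32da2d6d02) (nat_lit 0x440909) (nat_lit 4))
 (.p (nat_lit 0xe6e5ef702) (nat_lit 0x3a2530344000300040000) (nat_lit 49)))))
 (.n (.n (.n (.p (nat_lit 0x1c461c3a1a5d03) (nat_lit 0x40800) (nat_lit 6))
 (.p (nat_lit 0x1ec00db102) (nat_lit 0x20091c) (nat_lit 4)))
 (.n (.p (nat_lit 0x1d9b1acf02) (nat_lit 0x340706) (nat_lit 15))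
 (.p (nat_lit 0x5e32425902) (nat_lit 0x80012500) (nat_lit 47))))
 (.n (.n (.p (nat_lit 0xb761c8302) (nat_lit 0x203) (nat_lit 4))
 (.p (nat_lit 0x166e12fb02) (nat_lit 0x30062a) (nat_lit 4)))
 (.n (.p (nat_lit 0x2580536f02) (nat_lit 0x540b0e) (nat_lit 29))
 (.p (nat_lit 0xe82610d02) (nat_lit 0x3425219b0000300040000) (nat_lit 50))))))

def c512_419 : Tr := .n c1024_419 c1024_931

def c256_163 : Tr := .n c512_163 c512_419

def c128_35 : Tr := .n c256_35 c256_163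

def c1024_99 : Tr :=
 .n (.n (.n (.n (.n (.n (.p (nat_lit 0x62005c006703) (nat_lit 0x12000500002) (nat_lit 17))
 (.p (nat_lit 0x1698613702) (nat_lit 0x3503a0d64000000040600) (nat_lit 49)))
 (.p (nat_lit 0x9220920091e091c09182beb06) (nat_lit 0x100004890f) (nat_lit 51)))
 (.n (.p (nat_lit 0x8b387b02) (nat_lit 0x200403) (nat_lit 30))
 (.p (nat_lit 0x39b039ae39ac39aa39a81d7106) (nat_lit 0x80004482a) (nat_lit 52))))
 (.n (.n (.p (nat_lit 0x1d531a6302) (nat_lit 0x344800) (nat_lit 16))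
 (.p (nat_lit 0x24420de702) (nat_lit 0x500b1c) (nat_lit 4)))
 (.n (.p (nat_lit 0x1150114e114c114a11461d9706) (nat_lit 0x10000c8806) (nat_lit 51))
 (.p (nat_lit 0x5d01153902) (nat_lit 0x1c0040000600) (nat_lit 38)))))
 (.n (.n (.n (.p (nat_lit 0xf4e0f4c0f4a0f440c930c9106) (nat_lit 0x3000056300) (nat_lit 51))
 (.p (nat_lit 0x2ae627d102) (nat_lit 0x140516) (nat_lit 5)))
 (.n (.p (nat_lit 0x247e247c247a247400ce00b900b72479247709) (nat_lit 0x1100b04) (nat_lit 10))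
 (.p (nat_lit 0x1ea5aff02) (nat_lit 0x200015) (nat_lit 27))))
 (.n (.n (.p (nat_lit 0xe820e800e7c0e7a0e781ee706) (nat_lit 0x4000086901) (nat_lit 51))
 (.p (nat_lit 0x3a3570302) (nat_lit 0x100923) (nat_lit 30)))
 (.n (.p (nat_lit 0x1bb41bb21bb01bae1baa37d506) (nat_lit 0x100001630a) (nat_lit 52))
 (.p (nat_lit 0x1da65f3302) (nat_lit 0x3aa560c44000300000600) (nat_lit 49))))))
 (.n (.n (.n (.n (.p (nat_lit 0x7c007bc07ba07b805c705c306) (nat_lit 0x14000086100) (nat_lit 52))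
 (.p (nat_lit 0x9520950094c094a094805cf06) (nat_lit 0x400000c015) (nat_lit 52)))
 (.n (.p (nat_lit 0xa281de502) (nat_lit 0x440104) (nat_lit 5))
 (.p (nat_lit 0x40e476b02) (nat_lit 0x34032f) (nat_lit 1))))
 (.n (.n (.p (nat_lit 0x2477215702) (nat_lit 0x112b00) (nat_lit 16))
 (.p (nat_lit 0x4b8a4df102) (nat_lit 0x340022) (nat_lit 4)))
 (.n (.p (nat_lit 0x2cae2caa2ca82ca62ca4190d06) (nat_lit 0x8000006707) (nat_lit 52))
 (.p (nat_lit 0x5d231f0b02) (nat_lit 0x2a0060000900) (nat_lit 39)))))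
 (.n (.n (.n (.p (nat_lit 0x16a5169902) (nat_lit 0x40600) (nat_lit 34))
 (.p (nat_lit 0x16a216a0169c169a169805db06) (nat_lit 0x400008c01c) (nat_lit 52)))
 (.n (.p (nat_lit 0x129e129a129812941ac51abf06) (nat_lit 0x900004a705) (nat_lit 52))
 (.p (nat_lit 0x5cd95de102) (nat_lit 0x140020000200) (nat_lit 37))))
 (.n (.n (.p (nat_lit 0x21b71eef02) (nat_lit 0x100902) (nat_lit 15))
 (.p (nat_lit 0x499447b302) (nat_lit 0x400628) (nat_lit 4)))
 (.n (.p (nat_lit 0x79e079c07980796079410e106) (nat_lit 0x400000240e) (nat_lit 52))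
 (.p (nat_lit 0x1dae603502) (nat_lit 0x4099a2335000300000600) (nat_lit 50))))))

def c1024_611 : Tr :=
 .n (.n (.n (.n (.n (.n (.p (nat_lit 0x3c503b503ae03) (nat_lit 0x41800023) (nat_lit 19))
 (.p (nat_lit 0xe7261b302) (nat_lit 0x522266c0d000300040000) (nat_lit 49)))
 (.p (nat_lit 0x41043da102) (nat_lit 0x240412) (nat_lit 4)))
 (.n (.p (nat_lit 0x8d3b2b02) (nat_lit 0x340a03) (nat_lit 30))
 (.p (nat_lit 0x12d812d612d412d212d0336906) (nat_lit 0x10000084a2c) (nat_lit 51))))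
 (.n (.n (.p (nat_lit 0x20d020ce20ca20c81e971e9106) (nat_lit 0x12000006a00) (nat_lit 51))
 (.p (nat_lit 0xd280d260d220d200d1e3b9506) (nat_lit 0x4000000b1f) (nat_lit 52)))
 (.n (.p (nat_lit 0xe760e740e700e6c0e070e0306) (nat_lit 0x5000086307) (nat_lit 52))
 (.p (nat_lit 0x5cb51c4702) (nat_lit 0x80000000800) (nat_lit 41)))))
 (.n (.n (.n (.p (nat_lit 0x12b612b412b212b012ac10c506) (nat_lit 0x1000002500) (nat_lit 52))
 (.p (nat_lit 0x42083ed102) (nat_lit 0x340519) (nat_lit 4)))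
 (.n (.p (nat_lit 0x127d0fbd02) (nat_lit 0x40305) (nat_lit 15))
 (.p (nat_lit 0x5cab04c302) (nat_lit 0x120000000000) (nat_lit 38))))
 (.n (.n (.p (nat_lit 0x76f076302) (nat_lit 0x552002) (nat_lit 16))
 (.p (nat_lit 0x35c6388902) (nat_lit 0x300126) (nat_lit 4)))
 (.n (.p (nat_lit 0x46e8443f02) (nat_lit 0x10030c) (nat_lit 5))
 (.p (nat_lit 0x1dac5fbf02) (nat_lit 0x89832955800300000600) (nat_lit 50))))))
 (.n (.n (.n (.n (.p (nat_lit 0xbc60bc40bc20bc00bbe09d706) (nat_lit 0x10000040200) (nat_lit 52))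
 (.p (nat_lit 0x73314df02) (nat_lit 0x540515) (nat_lit 15)))
 (.n (.p (nat_lit 0x4d804d404d204d004ce168906) (nat_lit 0x8000000604) (nat_lit 51))
 (.p (nat_lit 0xec00ea00e800e2000502f506) (nat_lit 0x110e205) (nat_lit 26))))
 (.n (.n (.p (nat_lit 0x10f30e2502) (nat_lit 0x301) (nat_lit 15))
 (.p (nat_lit 0x63e063c063a0638063409e706) (nat_lit 0x10000c0123) (nat_lit 52)))
 (.n (.p (nat_lit 0x2a06268302) (nat_lit 0x540408) (nat_lit 4))
 (.p (nat_lit 0x5d7d249502) (nat_lit 0x80000b00) (nat_lit 41)))))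
 (.n (.n (.n (.p (nat_lit 0x1a2a1a261a241a20179b179506) (nat_lit 0x90000d2700) (nat_lit 51))
 (.p (nat_lit 0x14ea0d6502) (nat_lit 0x54051c) (nat_lit 4)))
 (.n (.p (nat_lit 0xfd20fd00fce0fcc0fca01130fc907) (nat_lit 0x40306) (nat_lit 7))
 (.p (nat_lit 0x5d470fdb02) (nat_lit 0x60060000400) (nat_lit 38))))
 (.n (.n (.p (nat_lit 0x33fd246102) (nat_lit 0x208b02) (nat_lit 16))
 (.p (nat_lit 0x1adc1ada1ad81ad61ad40b5d06) (nat_lit 0x1000001022a) (nat_lit 52)))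
 (.n (.p (nat_lit 0x1a811a7502) (nat_lit 0x4670e) (nat_lit 16))
 (.p (nat_lit 0x1f0c60af02) (nat_lit 0x344589ca4000300040600) (nat_lit 49))))))

def c512_99 : Tr := .n c1024_99 c1024_611

def c1024_355 : Tr :=
 .n (.n (.n (.n (.n (.n (.p (nat_lit 0x1650157014e03) (nat_lit 0x81000007) (nat_lit 19))
 (.p (nat_lit 0x13fe617302) (nat_lit 0x421aa6315000500040000) (nat_lit 50)))
 (.p (nat_lit 0x23953ad02) (nat_lit 0x411) (nat_lit 30)))
 (.n (.p (nat_lit 0x1a2a1a281a241a20167b167706) (nat_lit 0x5000092603) (nat_lit 51))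
 (.p (nat_lit 0x17541752174e174c174a288506) (nat_lit 0x400005022b) (nat_lit 51))))
 (.n (.n (.p (nat_lit 0x1d2a1f1302) (nat_lit 0x140900) (nat_lit 5))
 (.p (nat_lit 0x334e306f02) (nat_lit 0x400a1e) (nat_lit 5)))
 (.n (.p (nat_lit 0x512d206702) (nat_lit 0x440906) (nat_lit 16))
 (.p (nat_lit 0x5e54197f02) (nat_lit 0x20040700) (nat_lit 46)))))
 (.n (.n (.n (.p (nat_lit 0x10f30df502) (nat_lit 0xc400) (nat_lit 16))
 (.p (nat_lit 0x353e366302) (nat_lit 0x140018) (nat_lit 5)))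
 (.n (.p (nat_lit 0x44b1078502) (nat_lit 0x448005) (nat_lit 16))
 (.p (nat_lit 0x3980396039403920311033f06) (nat_lit 0x2c10722) (nat_lit 26))))
 (.n (.n (.p (nat_lit 0x21b0178302) (nat_lit 0x400a01) (nat_lit 4))
 (.p (nat_lit 0x273e295d02) (nat_lit 0x500124) (nat_lit 4)))
 (.n (.p (nat_lit 0x3e68526902) (nat_lit 0x20b) (nat_lit 29))
 (.p (nat_lit 0x207a5f7302) (nat_lit 0x1aa074b50000400000600) (nat_lit 50))))))
 (.n (.n (.n (.n (.p (nat_lit 0xa0d072102) (nat_lit 0x24e100) (nat_lit 16))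
 (.p (nat_lit 0xeb20eb00eae0eac0ea8124306) (nat_lit 0x10000c2415) (nat_lit 52)))
 (.n (.p (nat_lit 0x12730fb302) (nat_lit 0x140304) (nat_lit 15))
 (.p (nat_lit 0x58de58dc58da58d858d6014b006407) (nat_lit 0x514002) (nat_lit 25))))
 (.n (.n (.p (nat_lit 0x75016cd02) (nat_lit 0x240001) (nat_lit 4))
 (.p (nat_lit 0x130a13041302130005e905e706) (nat_lit 0xc00008c023) (nat_lit 52)))
 (.n (.p (nat_lit 0x216a51bf02) (nat_lit 0x500a07) (nat_lit 29))
 (.p (nat_lit 0x5d275ea302) (nat_lit 0x260060000a00) (nat_lit 37)))))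
 (.n (.n (.n (.p (nat_lit 0x18721870186e18681625162306) (nat_lit 0x3000006700) (nat_lit 52))
 (.p (nat_lit 0xa720a700a6e0a6c0a68087f06) (nat_lit 0x100008011c) (nat_lit 51)))
 (.n (.p (nat_lit 0x1e881e861e841e821e801d9306) (nat_lit 0x100000d6805) (nat_lit 52))
 (.p (nat_lit 0x5d150d1702) (nat_lit 0x80040000300) (nat_lit 40))))
 (.n (.n (.p (nat_lit 0x231a1a3902) (nat_lit 0x40a02) (nat_lit 4))
 (.p (nat_lit 0x89857a102) (nat_lit 0x20012a) (nat_lit 29)))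
 (.n (.p (nat_lit 0x1388138613821380137e01ed138507) (nat_lit 0x30050e) (nat_lit 7))
 (.p (nat_lit 0x12aa607302) (nat_lit 0x570aa2344000500000000) (nat_lit 50))))))

def c1024_867 : Tr :=
 .n (.n (.n (.n (.n (.n (.p (nat_lit 0x60b04e102) (nat_lit 0x310000) (nat_lit 16))
 (.p (nat_lit 0x8fe61f102) (nat_lit 0x382a31d05000100040000) (nat_lit 50)))
 (.p (nat_lit 0x49da44e502) (nat_lit 0x300713) (nat_lit 4)))
 (.n (.p (nat_lit 0xd100d0e0d0c0d0a0d0825bf06) (nat_lit 0x800046b03) (nat_lit 52))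
 (.p (nat_lit 0x3e88413702) (nat_lit 0x50022e) (nat_lit 4))))
 (.n (.n (.p (nat_lit 0x22a0229e229c229a2298229606) (nat_lit 0xcea00) (nat_lit 52))
 (.p (nat_lit 0x42da561702) (nat_lit 0x300720) (nat_lit 29)))
 (.n (.p (nat_lit 0x10d810d410d210d010ce014910d707) (nat_lit 0x400407) (nat_lit 7))
 (.p (nat_lit 0x5d531add02) (nat_lit 0x2a0080000800) (nat_lit 38)))))
 (.n (.n (.n (.p (nat_lit 0x14741470146e146c1227122306) (nat_lit 0x14000050500) (nat_lit 52))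
 (.p (nat_lit 0x2f554e702) (nat_lit 0x10061a) (nat_lit 30)))
 (.n (.p (nat_lit 0x497d169502) (nat_lit 0x402605) (nat_lit 16))
 (.p (nat_lit 0x5cd708eb02) (nat_lit 0x160020000100) (nat_lit 39))))
 (.n (.n (.p (nat_lit 0x304e304c304a30483046304406) (nat_lit 0x42302) (nat_lit 52))
 (.p (nat_lit 0x3dfc40bb02) (nat_lit 0x540127) (nat_lit 4)))
 (.n (.p (nat_lit 0x50004ae902) (nat_lit 0x24070d) (nat_lit 4))
 (.p (nat_lit 0x23445ff502) (nat_lit 0x306a81c35000500000600) (nat_lit 50))))))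
 (.n (.n (.n (.n (.p (nat_lit 0xd640d620d5e0d5c0d5a0b3506) (nat_lit 0x400008a300) (nat_lit 52))
 (.p (nat_lit 0x1d5b1d4f02) (nat_lit 0x148815) (nat_lit 16)))
 (.n (.p (nat_lit 0x428717f902) (nat_lit 0x346604) (nat_lit 16))
 (.p (nat_lit 0x47a5a3d02) (nat_lit 0x409) (nat_lit 27))))
 (.n (.n (.p (nat_lit 0x5e1c1d02) (nat_lit 0x300801) (nat_lit 1))
 (.p (nat_lit 0xcb90cad02) (nat_lit 0x340223) (nat_lit 16)))
 (.n (.p (nat_lit 0x18ea18e818e618e218e0308f06) (nat_lit 0x2000056309) (nat_lit 51))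
 (.p (nat_lit 0x181c5eeb02) (nat_lit 0x4a8876344000100000600) (nat_lit 50)))))
 (.n (.n (.n (.p (nat_lit 0x1bbe1bbc1bba1bb6190318fb06) (nat_lit 0x11000096800) (nat_lit 51))
 (.p (nat_lit 0x5566556455625560555e555c031207) (nat_lit 0x4081c) (nat_lit 8)))
 (.n (.p (nat_lit 0x1ac8252f02) (nat_lit 0x40706) (nat_lit 5))
 (.p (nat_lit 0x5d37129b02) (nat_lit 0x160060000500) (nat_lit 38))))
 (.n (.n (.p (nat_lit 0xa1e0a1c0a1a0a160a14008b0a1907) (nat_lit 0x240103) (nat_lit 7))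
 (.p (nat_lit 0xf8a0f880f840f820f80043b0f8707) (nat_lit 0x34032a) (nat_lit 7)))
 (.n (.p (nat_lit 0x2420085902) (nat_lit 0xb0e) (nat_lit 5))
 (.p (nat_lit 0x154260f702) (nat_lit 0x440d663a4000000000600) (nat_lit 50))))))

def c512_355 : Tr := .n c1024_355 c1024_867

def c256_99 : Tr := .n c512_99 c512_355

def c1024_227 : Tr :=
 .n (.n (.n (.n (.n (.n (.p (nat_lit 0xdd00d900d300c404) (nat_lit 0x8d100004) (nat_lit 20))
 (.p (nat_lit 0x8f4615702) (nat_lit 0x1503a8895800100040000) (nat_lit 50)))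
 (.p (nat_lit 0x32a02e7b02) (nat_lit 0x200910) (nat_lit 5)))
 (.n (.p (nat_lit 0x13c21cd102) (nat_lit 0x400503) (nat_lit 5))
 (.p (nat_lit 0x58425840583e583c583a5838044007) (nat_lit 0x40a2a) (nat_lit 8))))
 (.n (.n (.p (nat_lit 0x1e4c1e4a1e481e441bcd1bc506) (nat_lit 0x1100000c900) (nat_lit 52))
 (.p (nat_lit 0x2c0028b502) (nat_lit 0x4091d) (nat_lit 4)))
 (.n (.p (nat_lit 0x209820962092208e1eff1efb06) (nat_lit 0x5000080906) (nat_lit 52))
 (.p (nat_lit 0x5d9716a302) (nat_lit 0x1600a0000600) (nat_lit 39)))))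
 (.n (.n (.n (.p (nat_lit 0x10000ffe0ffc0ffa0dff0df506) (nat_lit 0x10800080400) (nat_lit 52))
 (.p (nat_lit 0x327e2ef702) (nat_lit 0x340517) (nat_lit 5)))
 (.n (.p (nat_lit 0x213821362134213025d525cd06) (nat_lit 0x110000ceb04) (nat_lit 51))
 (.p (nat_lit 0x310030e030803060285000706) (nat_lit 0x130201c) (nat_lit 26))))
 (.n (.n (.p (nat_lit 0x8f208f008ee08ea08e8204b06) (nat_lit 0x20000c2901) (nat_lit 52))
 (.p (nat_lit 0x244410ab02) (nat_lit 0xb23) (nat_lit 4)))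
 (.n (.p (nat_lit 0x3a9f3a9302) (nat_lit 0x40460a) (nat_lit 16))
 (.p (nat_lit 0x180e5f5702) (nat_lit 0x1aa522350000100000600) (nat_lit 49))))))
 (.n (.n (.n (.n (.p (nat_lit 0x1ee072502) (nat_lit 0x440100) (nat_lit 1))
 (.p (nat_lit 0x10ee541502) (nat_lit 0x400415) (nat_lit 29)))
 (.n (.p (nat_lit 0xbd3e9302) (nat_lit 0x440204) (nat_lit 30))
 (.p (nat_lit 0x43850cd02) (nat_lit 0x240830) (nat_lit 1))))
 (.n (.n (.p (nat_lit 0x255c25562554255222c322c106) (nat_lit 0xc000052b00) (nat_lit 52))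
 (.p (nat_lit 0xd400d3e0d3c0d3a0d38505d06) (nat_lit 0x800002822) (nat_lit 51)))
 (.n (.p (nat_lit 0x2b011bd302) (nat_lit 0x20c807) (nat_lit 16))
 (.p (nat_lit 0x5c935e9702) (nat_lit 0x2a0000000a00) (nat_lit 37)))))
 (.n (.n (.n (.p (nat_lit 0x178417821780177e177c177a06) (nat_lit 0x54600) (nat_lit 52))
 (.p (nat_lit 0x13f213f013ee13ec13ea073f06) (nat_lit 0x100000ca01c) (nat_lit 52)))
 (.n (.p (nat_lit 0x1f7a1f781f761f741f701c2506) (nat_lit 0x1000086805) (nat_lit 52))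
 (.p (nat_lit 0x5d5d0a4d02) (nat_lit 0x200080000200) (nat_lit 38))))
 (.n (.n (.p (nat_lit 0x21ba18cf02) (nat_lit 0x300a02) (nat_lit 4))
 (.p (nat_lit 0x4d464ee102) (nat_lit 0x140229) (nat_lit 4)))
 (.n (.p (nat_lit 0x4d804d404d204d004ce123d06) (nat_lit 0x800004040e) (nat_lit 51))
 (.p (nat_lit 0x798605502) (nat_lit 0x5858b0b44000100000000) (nat_lit 49))))))

def c1024_739 : Tr :=
 .n (.n (.n (.n (.n (.n (.p (nat_lit 0x4fc04fa04f804f604f204dd06) (nat_lit 0x1000084000) (nat_lit 52))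
 (.p (nat_lit 0x233661d102) (nat_lit 0x54216ac0c800500000600) (nat_lit 49)))
 (.p (nat_lit 0x42be3dd502) (nat_lit 0x100712) (nat_lit 5)))
 (.n (.p (nat_lit 0x13fe13fc13fa13f813f6247306) (nat_lit 0x1000008ab03) (nat_lit 51))
 (.p (nat_lit 0x1cf61cf21cf01cee1cec376306) (nat_lit 0x80000cc22d) (nat_lit 52))))
 (.n (.n (.p (nat_lit 0x21ab1e8f02) (nat_lit 0x10ca00) (nat_lit 16))
 (.p (nat_lit 0x3de63fd302) (nat_lit 0x40120) (nat_lit 4)))
 (.n (.p (nat_lit 0xd100d0e0d0a0d080d060f6f06) (nat_lit 0x4000046307) (nat_lit 52))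
 (.p (nat_lit 0x5cfd5e6f02) (nat_lit 0x200040000800) (nat_lit 36)))))
 (.n (.n (.n (.p (nat_lit 0x13b110c502) (nat_lit 0x10e500) (nat_lit 16))
 (.p (nat_lit 0x43163e5f02) (nat_lit 0x440719) (nat_lit 5)))
 (.n (.p (nat_lit 0x151c226702) (nat_lit 0x40505) (nat_lit 5))
 (.p (nat_lit 0x5d3704c902) (nat_lit 0x160060000000) (nat_lit 38))))
 (.n (.n (.p (nat_lit 0x2c20cd102) (nat_lit 0x340202) (nat_lit 1))
 (.p (nat_lit 0x3b503b4e3b4a3b483b4603f33b4d07) (nat_lit 0x340a26) (nat_lit 7)))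
 (.n (.p (nat_lit 0x4a1e43fd02) (nat_lit 0x34070c) (nat_lit 4))
 (.p (nat_lit 0x7a65fd502) (nat_lit 0x382c60b44000100000000) (nat_lit 50))))))
 (.n (.n (.n (.n (.p (nat_lit 0xcdb09d102) (nat_lit 0x250200) (nat_lit 16))
 (.p (nat_lit 0x2efa2ef82ef42ef22ef0192306) (nat_lit 0x400008a715) (nat_lit 51)))
 (.n (.p (nat_lit 0x17f61e5502) (nat_lit 0x240604) (nat_lit 5))
 (.p (nat_lit 0x11a0118011601120003042706) (nat_lit 0xd10406) (nat_lit 26))))
 (.n (.n (.p (nat_lit 0x1289124d02) (nat_lit 0x54401) (nat_lit 16))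
 (.p (nat_lit 0x3ae03b303cb1025118b05) (nat_lit 0x21c00223) (nat_lit 9)))
 (.n (.p (nat_lit 0x2c642c602c5c2c5a0182017701732c632c5f09) (nat_lit 0x2240a08) (nat_lit 10))
 (.p (nat_lit 0x233c5ecf02) (nat_lit 0x4a1a34344000500000600) (nat_lit 49)))))
 (.n (.n (.n (.p (nat_lit 0x8c18ff02) (nat_lit 0x300800) (nat_lit 1))
 (.p (nat_lit 0x192c0d8302) (nat_lit 0x20071c) (nat_lit 5)))
 (.n (.p (nat_lit 0x4f124f104f0e4f0c4f0a129306) (nat_lit 0x10000052406) (nat_lit 52))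
 (.p (nat_lit 0x5e204a5302) (nat_lit 0xa0054400) (nat_lit 47))))
 (.n (.n (.p (nat_lit 0x617060b02) (nat_lit 0x314003) (nat_lit 16))
 (.p (nat_lit 0x1f1a1f181f141f121f100cb906) (nat_lit 0x40000d222a) (nat_lit 51)))
 (.n (.p (nat_lit 0x1eb533902) (nat_lit 0x20090e) (nat_lit 30))
 (.p (nat_lit 0xbb260d702) (nat_lit 0x354a623b0000200040000) (nat_lit 50))))))

def c512_227 : Tr := .n c1024_227 c1024_739

def c1024_483 : Tr :=
 .n (.n (.n (.n (.n (.n (.p (nat_lit 0x2d602d002db03) (nat_lit 0x11000500018) (nat_lit 17))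
 (.p (nat_lit 0x12a7129d0fe10fd70d170d110a530a4b07a9079504d904c761960d) (nat_lit 0x380aa5c15000000000000) (nat_lit 33)))
 (.p (nat_lit 0x42253a9b02) (nat_lit 0x214611) (nat_lit 16)))
 (.n (.p (nat_lit 0x17f517e902) (nat_lit 0x154603) (nat_lit 16))
 (.p (nat_lit 0x2f42321502) (nat_lit 0x40022c) (nat_lit 5))))
 (.n (.n (.p (nat_lit 0x1fe41fe21fe01fde1fda1d2b06) (nat_lit 0x1000056900) (nat_lit 51))
 (.p (nat_lit 0x35b8380b02) (nat_lit 0x11f) (nat_lit 4)))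
 (.n (.p (nat_lit 0x145514102) (nat_lit 0x240207) (nat_lit 30))
 (.p (nat_lit 0x5d71198502) (nat_lit 0xc0080000700) (nat_lit 41)))))
 (.n (.n (.n (.p (nat_lit 0x119611941192118e0f670f5f06) (nat_lit 0x110000c4400) (nat_lit 52))
 (.p (nat_lit 0x3ef83ef63ef43ef23ef03afb06) (nat_lit 0x80000ea18) (nat_lit 52)))
 (.n (.p (nat_lit 0xcf2461302) (nat_lit 0x240205) (nat_lit 29))
 (.p (nat_lit 0x43e043c043604340467000706) (nat_lit 0x130c22a) (nat_lit 26))))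
 (.n (.n (.p (nat_lit 0x2c79231102) (nat_lit 0x148a01) (nat_lit 16))
 (.p (nat_lit 0x31a831a631a431a2319e2dab06) (nat_lit 0x10000c4025) (nat_lit 51)))
 (.n (.p (nat_lit 0x52a0528052605240522421f06) (nat_lit 0x1000008860b) (nat_lit 51))
 (.p (nat_lit 0x4c25f9302) (nat_lit 0x580bb0344000000000000) (nat_lit 49))))))
 (.n (.n (.n (.n (.p (nat_lit 0xaa20aa00a9c0a9a0a98087706) (nat_lit 0x400008a200) (nat_lit 51))
 (.p (nat_lit 0x21e221e021de21dc21da138b06) (nat_lit 0x800094515) (nat_lit 51)))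
 (.n (.p (nat_lit 0x13d013ce13cc13ca13c600b713c907) (nat_lit 0x100504) (nat_lit 7))
 (.p (nat_lit 0x3ee593502) (nat_lit 0x100403) (nat_lit 27))))
 (.n (.n (.p (nat_lit 0xa3f0a0302) (nat_lit 0x354101) (nat_lit 16))
 (.p (nat_lit 0x8f008ee08ec08ea08e8089306) (nat_lit 0x10000082123) (nat_lit 52)))
 (.n (.p (nat_lit 0x2572071902) (nat_lit 0x440b07) (nat_lit 4))
 (.p (nat_lit 0x5ce7233502) (nat_lit 0x60020000b00) (nat_lit 38)))))
 (.n (.n (.n (.p (nat_lit 0x1945162502) (nat_lit 0x20a700) (nat_lit 16))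
 (.p (nat_lit 0x9e709db02) (nat_lit 0x14a11c) (nat_lit 16)))
 (.n (.p (nat_lit 0xa38236f02) (nat_lit 0x40106) (nat_lit 4))
 (.p (nat_lit 0x5d9f0d1d02) (nat_lit 0xe00a0000300) (nat_lit 40))))
 (.n (.n (.p (nat_lit 0x249624942492248e248c231f06) (nat_lit 0x20000d6a02) (nat_lit 51))
 (.p (nat_lit 0x67a067806740672067009f706) (nat_lit 0x400004612a) (nat_lit 51)))
 (.n (.p (nat_lit 0x2ae114d102) (nat_lit 0x44c50e) (nat_lit 16))
 (.p (nat_lit 0x1814609302) (nat_lit 0x356221ca4000100000600) (nat_lit 49))))))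

def c1024_995 : Tr :=
 .n (.n (.n (.n (.n (.p (nat_lit 0x702070006fa06f80653065106) (nat_lit 0x60000d4000) (nat_lit 52))
 (.p (nat_lit 0x4ac24ac04abe4abc4aba4fa106) (nat_lit 0x800046514) (nat_lit 52)))
 (.n (.p (nat_lit 0x3c3e3c3a3c383c360619061106) (nat_lit 0x880008c004) (nat_lit 52))
 (.p (nat_lit 0x435241ef02) (nat_lit 0x200b2e) (nat_lit 5))))
 (.n (.n (.p (nat_lit 0x23782376237423722370215506) (nat_lit 0x800082b00) (nat_lit 52))
 (.p (nat_lit 0x457e46bf02) (nat_lit 0x140121) (nat_lit 5)))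
 (.n (.p (nat_lit 0x12ce12cc12ca12c812c6122906) (nat_lit 0x800044407) (nat_lit 52))
 (.p (nat_lit 0x5cdd5e8502) (nat_lit 0x100020000900) (nat_lit 37)))))
 (.n (.n (.n (.p (nat_lit 0x15bc15ba15b615b41557155106) (nat_lit 0x12000088600) (nat_lit 51))
 (.p (nat_lit 0x2568256425622560255e4fb506) (nat_lit 0x80000d251b) (nat_lit 52)))
 (.n (.p (nat_lit 0x154a1548154615441540195b06) (nat_lit 0x100000c705) (nat_lit 51))
 (.p (nat_lit 0x5d655dd702) (nat_lit 0x180080000100) (nat_lit 36))))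
 (.n (.n (.p (nat_lit 0x13bb13af02) (nat_lit 0x12502) (nat_lit 16))
 (.p (nat_lit 0x439a577502) (nat_lit 0x440b27) (nat_lit 29)))
 (.n (.p (nat_lit 0xbc80bc60bc40bc20bc00e0d06) (nat_lit 0x80000030e) (nat_lit 52))
 (.p (nat_lit 0x1adc601702) (nat_lit 0x405aa2335000200000600) (nat_lit 49))))))
 (.n (.n (.n (.n (.p (nat_lit 0x30e0c9702) (nat_lit 0x440300) (nat_lit 1))
 (.p (nat_lit 0x218f218302) (nat_lit 0x508a15) (nat_lit 16)))
 (.n (.p (nat_lit 0x42f5195702) (nat_lit 0x50a704) (nat_lit 16))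
 (.p (nat_lit 0x1f001ec01ea01e80269000906) (nat_lit 0x41640e) (nat_lit 26))))
 (.n (.n (.p (nat_lit 0x1d862b4902) (nat_lit 0x540801) (nat_lit 29))
 (.p (nat_lit 0x1aa21aa01a9c1a9a03b603a703a11a9f1a9909) (nat_lit 0x1840723) (nat_lit 10)))
 (.n (.p (nat_lit 0x50805060504050004fe337b06) (nat_lit 0x2000046a09) (nat_lit 52))
 (.p (nat_lit 0x15345f1502) (nat_lit 0x3aa530344000000000600) (nat_lit 49)))))
 (.n (.n (.n (.p (nat_lit 0x1c981c961c921c901a631a5d06) (nat_lit 0x48000c4800) (nat_lit 52))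
 (.p (nat_lit 0x2033202702) (nat_lit 0x24a91c) (nat_lit 16)))
 (.n (.p (nat_lit 0xe740e720e700e6e0e6c1c3906) (nat_lit 0x10000086806) (nat_lit 52))
 (.p (nat_lit 0x5ca9153502) (nat_lit 0x140000000600) (nat_lit 38))))
 (.n (.n (.p (nat_lit 0xfaf0ce102) (nat_lit 0x540203) (nat_lit 15))
 (.p (nat_lit 0x1940145702) (nat_lit 0x72a) (nat_lit 5)))
 (.n (.p (nat_lit 0x31752a0b02) (nat_lit 0x15040f) (nat_lit 16))
 (.p (nat_lit 0x2072611902) (nat_lit 0x342521ca4000400000600) (nat_lit 49))))))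

def c512_483 : Tr := .n c1024_483 c1024_995

def c256_227 : Tr := .n c512_227 c512_483

def c128_99 : Tr := .n c256_99 c256_227

def c64_35 : Tr := .n c128_35 c128_99

def c32_3 : Tr := .n c64_3 c64_35

def c1024_19 : Tr :=
 .n (.n (.n (.n (.n (.n (.p (nat_lit 0x2900270023001504) (nat_lit 0x4ad000000) (nat_lit 21))
 (.p (nat_lit 0xbae612902) (nat_lit 0x35486a3a4000200040000) (nat_lit 49)))
 (.p (nat_lit 0x2b0c270902) (nat_lit 0x20080f) (nat_lit 4)))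
 (.n (.p (nat_lit 0x37e30e4302) (nat_lit 0x30a303) (nat_lit 16))
 (.p (nat_lit 0x580658045802580057fe57fc044007) (nat_lit 0x4072a) (nat_lit 8))))
 (.n (.n (.p (nat_lit 0x1ce81ce61ce21ce01a671a6106) (nat_lit 0x1200004c800) (nat_lit 52))
 (.p (nat_lit 0x2191218502) (nat_lit 0xaa1c) (nat_lit 16)))
 (.n (.p (nat_lit 0x249624922490248e248c1c3706) (nat_lit 0x8000096806) (nat_lit 51))
 (.p (nat_lit 0x5ce716a702) (nat_lit 0x60020000600) (nat_lit 41)))))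
 (.n (.n (.n (.p (nat_lit 0xeb20eb00eae0eac0eaa0c8f06) (nat_lit 0x8000c2300) (nat_lit 52))
 (.p (nat_lit 0x2c6922e102) (nat_lit 0x14ca15) (nat_lit 16)))
 (.n (.p (nat_lit 0x1cba1cb81cb61cb21ab51ab106) (nat_lit 0x2800048704) (nat_lit 51))
 (.p (nat_lit 0x5aa45aa25aa05a9e5a9c009101f207) (nat_lit 0x50880e) (nat_lit 25))))
 (.n (.n (.p (nat_lit 0x20471d7d02) (nat_lit 0x40801) (nat_lit 15))
 (.p (nat_lit 0x38b838b638b438b238b01c0306) (nat_lit 0x2000094823) (nat_lit 52)))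
 (.n (.p (nat_lit 0x26ae26ac26aa26a826a4341d06) (nat_lit 0x10000d2b09) (nat_lit 52))
 (.p (nat_lit 0x15345f1d02) (nat_lit 0x3a2274350000000000600) (nat_lit 49))))))
 (.n (.n (.n (.n (.p (nat_lit 0x769065102) (nat_lit 0x250000) (nat_lit 16))
 (.p (nat_lit 0x7ce07ca07c807c607c4504d06) (nat_lit 0x8000008814) (nat_lit 52)))
 (.n (.p (nat_lit 0x3ca43ca03c9e3c9c3c9a077906) (nat_lit 0x80000c6004) (nat_lit 52))
 (.p (nat_lit 0x460248f702) (nat_lit 0x22f) (nat_lit 5))))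
 (.n (.n (.p (nat_lit 0x23ee23ea23e823e6215d215506) (nat_lit 0x8800010b00) (nat_lit 52))
 (.p (nat_lit 0xe8e0e8c0e8a0e880e8449ef06) (nat_lit 0x1000000721) (nat_lit 51)))
 (.n (.p (nat_lit 0x26282626262426222620162f06) (nat_lit 0x1000090607) (nat_lit 52))
 (.p (nat_lit 0x5d1b5e8702) (nat_lit 0x20040000900) (nat_lit 36)))))
 (.n (.n (.n (.p (nat_lit 0x16061602160015fe1555154d06) (nat_lit 0x8800092600) (nat_lit 51))
 (.p (nat_lit 0x2fc510102) (nat_lit 0x50091b) (nat_lit 1)))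
 (.n (.p (nat_lit 0x49e5195d02) (nat_lit 0x204705) (nat_lit 16))
 (.p (nat_lit 0x5d8108ff02) (nat_lit 0x2c00a0000100) (nat_lit 41))))
 (.n (.n (.p (nat_lit 0x327b14fb02) (nat_lit 0x144502) (nat_lit 16))
 (.p (nat_lit 0x451c480b02) (nat_lit 0x300128) (nat_lit 5)))
 (.n (.p (nat_lit 0x2860f7b02) (nat_lit 0x34030e) (nat_lit 1))
 (.p (nat_lit 0x8fe602102) (nat_lit 0x406a6252d000100040000) (nat_lit 50))))))

def c1024_531 : Tr :=
 .n (.n (.n (.n (.n (.n (.p (nat_lit 0x32903270323031604) (nat_lit 0x3620001c) (nat_lit 20))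
 (.p (nat_lit 0x154a61a102) (nat_lit 0x3222a5c15000000000600) (nat_lit 50)))
 (.p (nat_lit 0x3b833b7702) (nat_lit 0x6b11) (nat_lit 16)))
 (.n (.p (nat_lit 0x1f4a1f481f461f421f4021c506) (nat_lit 0x2000082a03) (nat_lit 52))
 (.p (nat_lit 0x301c585902) (nat_lit 0x40032c) (nat_lit 29))))
 (.n (.n (.p (nat_lit 0x202f1d2902) (nat_lit 0x48900) (nat_lit 16))
 (.p (nat_lit 0x39fa379b02) (nat_lit 0x20051f) (nat_lit 4)))
 (.n (.p (nat_lit 0x85608540852084c0c9f0c9d06) (nat_lit 0x30000d4207) (nat_lit 51))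
 (.p (nat_lit 0x5e60309302) (nat_lit 0x80040700) (nat_lit 48)))))
 (.n (.n (.n (.p (nat_lit 0x12450f6102) (nat_lit 0x244400) (nat_lit 16))
 (.p (nat_lit 0xa940a920a900a8e0a8c3be106) (nat_lit 0x1000004ab18) (nat_lit 52)))
 (.n (.p (nat_lit 0xe56222f02) (nat_lit 0x100305) (nat_lit 4))
 (.p (nat_lit 0x4a65c5d02) (nat_lit 0x20092a) (nat_lit 27))))
 (.n (.n (.p (nat_lit 0x60905fd02) (nat_lit 0x212002) (nat_lit 16))
 (.p (nat_lit 0x30423040303c303a30382f9f06) (nat_lit 0x40000c0225) (nat_lit 52)))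
 (.n (.p (nat_lit 0x42b6527b02) (nat_lit 0x30070b) (nat_lit 29))
 (.p (nat_lit 0x233e5f9b02) (nat_lit 0x88bb0155800500000600) (nat_lit 50))))))
 (.n (.n (.n (.n (.p (nat_lit 0xb47087102) (nat_lit 0x8200) (nat_lit 16))
 (.p (nat_lit 0x14dc14da14d814d614d4028b14df07) (nat_lit 0x540515) (nat_lit 7)))
 (.n (.p (nat_lit 0x419713cb02) (nat_lit 0x204504) (nat_lit 16))
 (.p (nat_lit 0xbe00ba00b600b40005025706) (nat_lit 0x140c104) (nat_lit 26))))
 (.n (.n (.p (nat_lit 0xb9d0b6102) (nat_lit 0x114201) (nat_lit 16))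
 (.p (nat_lit 0x1ade1ada1ad81ad61ad4089106) (nat_lit 0x8000010123) (nat_lit 52)))
 (.n (.p (nat_lit 0x270226fe26fc26fa2815280d06) (nat_lit 0x880008a208) (nat_lit 51))
 (.p (nat_lit 0x5d0b233702) (nat_lit 0x120040000b00) (nat_lit 38)))))
 (.n (.n (.n (.p (nat_lit 0x179a197902) (nat_lit 0x440700) (nat_lit 4))
 (.p (nat_lit 0x13a0139e139c13960322030b0309139b139909) (nat_lit 0x110051c) (nat_lit 10)))
 (.n (.p (nat_lit 0x4c8d0a3f02) (nat_lit 0x348106) (nat_lit 16))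
 (.p (nat_lit 0x5e0c139702) (nat_lit 0x4400) (nat_lit 47))))
 (.n (.n (.p (nat_lit 0x246218e702) (nat_lit 0x300b02) (nat_lit 5))
 (.p (nat_lit 0xb5c0b5a0b580b560b5404350b5307) (nat_lit 0x22a) (nat_lit 7)))
 (.n (.p (nat_lit 0x1911163902) (nat_lit 0x60e) (nat_lit 15))
 (.p (nat_lit 0x1542609d02) (nat_lit 0x346068ca4000000000600) (nat_lit 50))))))

def c512_19 : Tr := .n c1024_19 c1024_531

def c1024_275 : Tr :=
 .n (.n (.n (.n (.n (.n (.p (nat_lit 0x11100fd00f003) (nat_lit 0xa2000005) (nat_lit 19))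
 (.p (nat_lit 0x1978616102) (nat_lit 0x3503a8d84000100040600) (nat_lit 49)))
 (.p (nat_lit 0x33842e0702) (nat_lit 0x140a10) (nat_lit 5)))
 (.n (.p (nat_lit 0x150e1cdf02) (nat_lit 0x540503) (nat_lit 5))
 (.p (nat_lit 0x166f245702) (nat_lit 0x300b2a) (nat_lit 15))))
 (.n (.n (.p (nat_lit 0x1e7c1e7a1e781e761e741bcd06) (nat_lit 0x10000016900) (nat_lit 52))
 (.p (nat_lit 0x2e312d0702) (nat_lit 0x50001e) (nat_lit 15)))
 (.n (.p (nat_lit 0x205e255f02) (nat_lit 0x40906) (nat_lit 4))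
 (.p (nat_lit 0x5c9d180b02) (nat_lit 0x200000000700) (nat_lit 38)))))
 (.n (.n (.n (.p (nat_lit 0x1032102e102a10280dfd0df906) (nat_lit 0xa000084400) (nat_lit 51))
 (.p (nat_lit 0x334433423340333c333a02c1333f07) (nat_lit 0x200a17) (nat_lit 7)))
 (.n (.p (nat_lit 0x62243b102) (nat_lit 0x300005) (nat_lit 29))
 (.p (nat_lit 0x30d5b9f02) (nat_lit 0x30081c) (nat_lit 28))))
 (.n (.n (.p (nat_lit 0x197a1976197419721970204f06) (nat_lit 0x80000ce901) (nat_lit 52))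
 (.p (nat_lit 0x2455244902) (nat_lit 0x200b23) (nat_lit 16)))
 (.n (.p (nat_lit 0x3b6e349f02) (nat_lit 0x200b0a) (nat_lit 5))
 (.p (nat_lit 0xbae5f5f02) (nat_lit 0x4a1d22344000200040000) (nat_lit 49))))))
 (.n (.n (.n (.n (.p (nat_lit 0x92c0928092609240727072306) (nat_lit 0x140000c8100) (nat_lit 52))
 (.p (nat_lit 0xee20ede0edc0eda0ed810ef06) (nat_lit 0x800008c415) (nat_lit 52)))
 (.n (.p (nat_lit 0xcf50ce902) (nat_lit 0x356204) (nat_lit 16))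
 (.p (nat_lit 0x33c58a502) (nat_lit 0x300301) (nat_lit 27))))
 (.n (.n (.p (nat_lit 0x25a122c102) (nat_lit 0x348b00) (nat_lit 16))
 (.p (nat_lit 0x51064db902) (nat_lit 0x200922) (nat_lit 4)))
 (.n (.p (nat_lit 0x1e9a057702) (nat_lit 0x100907) (nat_lit 5))
 (.p (nat_lit 0x5cd5207902) (nat_lit 0x180020000a00) (nat_lit 40)))))
 (.n (.n (.n (.p (nat_lit 0x17c716b502) (nat_lit 0x246600) (nat_lit 16))
 (.p (nat_lit 0x21d421d221ce21cc073f073906) (nat_lit 0x120000d401c) (nat_lit 52)))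
 (.n (.p (nat_lit 0xb81d8d02) (nat_lit 0x240805) (nat_lit 1))
 (.p (nat_lit 0x5d930bb102) (nat_lit 0x1a00a0000200) (nat_lit 39))))
 (.n (.n (.p (nat_lit 0x1150114e114c1148114621b906) (nat_lit 0x2000088a02) (nat_lit 51))
 (.p (nat_lit 0x50704e8702) (nat_lit 0x400829) (nat_lit 5)))
 (.n (.p (nat_lit 0x1ade1adc1ada1ad81ad6123506) (nat_lit 0x80005040e) (nat_lit 52))
 (.p (nat_lit 0x638606102) (nat_lit 0x85ab0335000000040000) (nat_lit 49))))))

def c1024_787 : Tr :=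
 .n (.n (.n (.n (.n (.n (.p (nat_lit 0x52c052a052805260524052206) (nat_lit 0x88000) (nat_lit 51))
 (.p (nat_lit 0x233461dd02) (nat_lit 0x3302a5895000500000600) (nat_lit 49)))
 (.p (nat_lit 0x45d445d045ce45cc45ca476306) (nat_lit 0x80000ca313) (nat_lit 51)))
 (.n (.p (nat_lit 0x248a2486248424802471246b06) (nat_lit 0x9000096b03) (nat_lit 52))
 (.p (nat_lit 0x41c641c441c241c041be3b5d06) (nat_lit 0x100000c4a2d) (nat_lit 52))))
 (.n (.n (.p (nat_lit 0x1ffc21d702) (nat_lit 0x540a00) (nat_lit 4))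
 (.p (nat_lit 0x42383f5d02) (nat_lit 0x620) (nat_lit 5)))
 (.n (.p (nat_lit 0x207e207c207a207820760f7306) (nat_lit 0x10000054307) (nat_lit 51))
 (.p (nat_lit 0x5d291adb02) (nat_lit 0x240060000800) (nat_lit 38)))))
 (.n (.n (.n (.p (nat_lit 0x122613f502) (nat_lit 0x540500) (nat_lit 4))
 (.p (nat_lit 0x485654d902) (nat_lit 0x4041a) (nat_lit 29)))
 (.n (.p (nat_lit 0x496c496a496849664964496200ee07) (nat_lit 0x605) (nat_lit 8))
 (.p (nat_lit 0x5dc0138702) (nat_lit 0x80004000) (nat_lit 48))))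
 (.n (.n (.p (nat_lit 0xe34186d02) (nat_lit 0x200302) (nat_lit 4))
 (.p (nat_lit 0x3bf038c902) (nat_lit 0x140b26) (nat_lit 4)))
 (.n (.p (nat_lit 0x4dc44b3f02) (nat_lit 0x20030d) (nat_lit 5))
 (.p (nat_lit 0xe7c5fe102) (nat_lit 0x3062a1c35000300040000) (nat_lit 50))))))
 (.n (.n (.n (.n (.p (nat_lit 0xd1a0d0e0b3703) (nat_lit 0x400300) (nat_lit 6))
 (.p (nat_lit 0x1a8a0ad302) (nat_lit 0x540715) (nat_lit 5)))
 (.n (.p (nat_lit 0xd1a0d180d160d140d1217fd06) (nat_lit 0x10000046604) (nat_lit 51))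
 (.p (nat_lit 0x148014401420140000701f106) (nat_lit 0x1d06207) (nat_lit 26))))
 (.n (.n (.p (nat_lit 0x13e313a702) (nat_lit 0x214501) (nat_lit 16))
 (.p (nat_lit 0x36c90b4d02) (nat_lit 0x310223) (nat_lit 16)))
 (.n (.p (nat_lit 0x2eac2eaa2ea82ea62ea42f8d06) (nat_lit 0x800056209) (nat_lit 52))
 (.p (nat_lit 0x13f45ed702) (nat_lit 0x4a1a36344000500040000) (nat_lit 49)))))
 (.n (.n (.n (.p (nat_lit 0x1b461b441b421b3e190318fb06) (nat_lit 0x11000086800) (nat_lit 52))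
 (.p (nat_lit 0x1a900d8f02) (nat_lit 0x24071c) (nat_lit 5)))
 (.n (.p (nat_lit 0x789152902) (nat_lit 0x40506) (nat_lit 15))
 (.p (nat_lit 0x5cdf129702) (nat_lit 0xe0020000500) (nat_lit 38))))
 (.n (.n (.p (nat_lit 0x3549076502) (nat_lit 0x46003) (nat_lit 16))
 (.p (nat_lit 0xe1c57c502) (nat_lit 0x20032a) (nat_lit 29)))
 (.n (.p (nat_lit 0x2012099902) (nat_lit 0x44090e) (nat_lit 5))
 (.p (nat_lit 0x1da660df02) (nat_lit 0x340d623a4000300000600) (nat_lit 49))))))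

def c512_275 : Tr := .n c1024_275 c1024_787

def c256_19 : Tr := .n c512_19 c512_275

def c1024_147 : Tr :=
 .n (.n (.n (.n (.n (.n (.p (nat_lit 0x90008e008c009304) (nat_lit 0x1c000400003) (nat_lit 17))
 (.p (nat_lit 0x2344614102) (nat_lit 0x352a21d84000500000600) (nat_lit 50)))
 (.p (nat_lit 0x1a1e1a1a1a181a161a14310306) (nat_lit 0x8000012410) (nat_lit 51)))
 (.n (.p (nat_lit 0x12641b5702) (nat_lit 0x40403) (nat_lit 4))
 (.p (nat_lit 0x203c149302) (nat_lit 0x14092a) (nat_lit 4))))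
 (.n (.n (.p (nat_lit 0x1bc61db102) (nat_lit 0x200900) (nat_lit 5))
 (.p (nat_lit 0x4da64da24da04d9e4d9c259706) (nat_lit 0x8000050b1c) (nat_lit 51)))
 (.n (.p (nat_lit 0x1f1a1f161f141f121f101d9d06) (nat_lit 0x80000d2806) (nat_lit 51))
 (.p (nat_lit 0x5d2f5e4702) (nat_lit 0x1e0060000600) (nat_lit 36)))))
 (.n (.n (.n (.p (nat_lit 0xfb30c9102) (nat_lit 0x152300) (nat_lit 16))
 (.p (nat_lit 0x2862ba702) (nat_lit 0x300916) (nat_lit 1)))
 (.n (.p (nat_lit 0x4343247f02) (nat_lit 0x500b04) (nat_lit 16))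
 (.p (nat_lit 0x5b225b205b1e5b1c5b1a0063028c07) (nat_lit 0x50a715) (nat_lit 25))))
 (.n (.n (.p (nat_lit 0x21d421d221ce21cc1eeb1ee506) (nat_lit 0x12000094901) (nat_lit 52))
 (.p (nat_lit 0x203411ed02) (nat_lit 0x340923) (nat_lit 4)))
 (.n (.p (nat_lit 0x38d6347302) (nat_lit 0x20040a) (nat_lit 5))
 (.p (nat_lit 0x11485f3b02) (nat_lit 0x3a6560c44000400040000) (nat_lit 50))))))
 (.n (.n (.n (.n (.p (nat_lit 0x8420840083e083c05bf05bd06) (nat_lit 0x1800092100) (nat_lit 52))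
 (.p (nat_lit 0x730072e072c072a0728028b073307) (nat_lit 0x540015) (nat_lit 7)))
 (.n (.p (nat_lit 0xb841deb02) (nat_lit 0x100204) (nat_lit 5))
 (.p (nat_lit 0x4344a5502) (nat_lit 0x4072f) (nat_lit 1))))
 (.n (.n (.p (nat_lit 0x24ae24ac24a824a624a422c106) (nat_lit 0x40000c0b00) (nat_lit 51))
 (.p (nat_lit 0x4c80565902) (nat_lit 0x40122) (nat_lit 29)))
 (.n (.p (nat_lit 0x2d342d302d2e2d2c2d2a1a7106) (nat_lit 0x8000046707) (nat_lit 51))
 (.p (nat_lit 0x5d531da902) (nat_lit 0x2a0080000900) (nat_lit 38)))))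
 (.n (.n (.n (.p (nat_lit 0x16f416f216f016ec16ea16b506) (nat_lit 0x2000044600) (nat_lit 51))
 (.p (nat_lit 0x24942490248e248c05df05db06) (nat_lit 0x1400009601c) (nat_lit 51)))
 (.n (.p (nat_lit 0x21d421d221d021cc1ac71abf06) (nat_lit 0x110000d4705) (nat_lit 52))
 (.p (nat_lit 0x5cfb5de702) (nat_lit 0x220040000200) (nat_lit 36))))
 (.n (.n (.p (nat_lit 0x205a20582054205200800063005d205d205709) (nat_lit 0x2a40902) (nat_lit 10))
 (.p (nat_lit 0x4b924ebd02) (nat_lit 0x140029) (nat_lit 5)))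
 (.n (.p (nat_lit 0x1820181e181a1818181610e106) (nat_lit 0x400000e40e) (nat_lit 51))
 (.p (nat_lit 0x1dae604102) (nat_lit 0x4a8176340800300000600) (nat_lit 50))))))

def c1024_659 : Tr :=
 .n (.n (.n (.n (.n (.n (.p (nat_lit 0x44f044b044203) (nat_lit 0x2b0002a) (nat_lit 19))
 (.p (nat_lit 0x1ada61bf02) (nat_lit 0x3221a9c15000200000600) (nat_lit 49)))
 (.p (nat_lit 0x3c263c243c223c203c1e418b06) (nat_lit 0x2000086512) (nat_lit 51)))
 (.n (.p (nat_lit 0x3b49232902) (nat_lit 0x148a03) (nat_lit 16))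
 (.p (nat_lit 0x34f434f234f034ee34ec35d506) (nat_lit 0x1000008612d) (nat_lit 52))))
 (.n (.n (.p (nat_lit 0x213a21382136213421301e8f06) (nat_lit 0x100008ea00) (nat_lit 51))
 (.p (nat_lit 0xd400d3e0d3c0d3a0d383be306) (nat_lit 0x800042b1f) (nat_lit 51)))
 (.n (.p (nat_lit 0x21d621d421d221cc0e050e0306) (nat_lit 0x3000094307) (nat_lit 52))
 (.p (nat_lit 0x5ce31c4902) (nat_lit 0xa0020000800) (nat_lit 41)))))
 (.n (.n (.n (.p (nat_lit 0x12e612e412e212dc10c710c506) (nat_lit 0x3000006500) (nat_lit 51))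
 (.p (nat_lit 0xa700a6e0a6c0a6a0a68423706) (nat_lit 0x10000080619) (nat_lit 51)))
 (.n (.p (nat_lit 0x1135112902) (nat_lit 0x30c405) (nat_lit 16))
 (.p (nat_lit 0x5cdb04c502) (nat_lit 0x120020000000) (nat_lit 38))))
 (.n (.n (.p (nat_lit 0xa0e19b302) (nat_lit 0x340102) (nat_lit 4))
 (.p (nat_lit 0x1b9c1b9a1b981b961b94363f06) (nat_lit 0x800054126) (nat_lit 52)))
 (.n (.p (nat_lit 0x22aa22a822a622a422a2475906) (nat_lit 0x1000005030c) (nat_lit 52))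
 (.p (nat_lit 0x1dac5fc702) (nat_lit 0x89832b05000300000600) (nat_lit 50))))))
 (.n (.n (.n (.n (.p (nat_lit 0xbf80bf40bf20bee09d509cf06) (nat_lit 0x900004a200) (nat_lit 51))
 (.p (nat_lit 0x27ee27ec27ea27e827e6164b06) (nat_lit 0x4000090615) (nat_lit 52)))
 (.n (.p (nat_lit 0x140013fe13fc13fa13f8168106) (nat_lit 0x80008a604) (nat_lit 51))
 (.p (nat_lit 0xec00ea00e800e20005011506) (nat_lit 0x110e605) (nat_lit 26))))
 (.n (.n (.p (nat_lit 0x10f2171b02) (nat_lit 0x401) (nat_lit 4))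
 (.p (nat_lit 0x198619841980197c09eb09e706) (nat_lit 0x50000ce123) (nat_lit 51)))
 (.n (.p (nat_lit 0x2b5251f902) (nat_lit 0x440808) (nat_lit 29))
 (.p (nat_lit 0x5ebe21b102) (nat_lit 0x8000eb00) (nat_lit 48)))))
 (.n (.n (.n (.p (nat_lit 0x1a5a1a581a561a501797179506) (nat_lit 0x30000d6700) (nat_lit 52))
 (.p (nat_lit 0x121a12181214121014e714e306) (nat_lit 0x50000d651c) (nat_lit 51)))
 (.n (.p (nat_lit 0x1154e3502) (nat_lit 0x100406) (nat_lit 30))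
 (.p (nat_lit 0x5d710fdd02) (nat_lit 0xc0080000400) (nat_lit 38))))
 (.n (.n (.p (nat_lit 0x15a815a415a215a0159e25bb06) (nat_lit 0x80000c6b02) (nat_lit 52))
 (.p (nat_lit 0xcb657b902) (nat_lit 0x24022a) (nat_lit 29)))
 (.n (.p (nat_lit 0x35b635b435b235b035ae1bdb06) (nat_lit 0x80009680e) (nat_lit 51))
 (.p (nat_lit 0x113a60c902) (nat_lit 0x3505223a4000400040000) (nat_lit 49))))))

def c512_147 : Tr := .n c1024_147 c1024_659

def c1024_403 : Tr :=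
 .n (.n (.n (.n (.n (.n (.p (nat_lit 0x1ff01fd01f403) (nat_lit 0x21a0000e) (nat_lit 19))
 (.p (nat_lit 0x2334617d02) (nat_lit 0x421a86b15000500000600) (nat_lit 49)))
 (.p (nat_lit 0x38eb38df02) (nat_lit 0x6411) (nat_lit 16)))
 (.n (.p (nat_lit 0x893abb02) (nat_lit 0x140603) (nat_lit 30))
 (.p (nat_lit 0x2b782a5302) (nat_lit 0x44082b) (nat_lit 5))))
 (.n (.n (.p (nat_lit 0x1f621f5e1f5c1f5a1f581d3106) (nat_lit 0x80000c4900) (nat_lit 52))
 (.p (nat_lit 0x33ee300302) (nat_lit 0x100b1e) (nat_lit 4)))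
 (.n (.p (nat_lit 0x513a51385136513451325130014e0b450b3f0b3d0a) (nat_lit 0x15100207) (nat_lit 31))
 (.p (nat_lit 0x5d4b181d02) (nat_lit 0x20060000700) (nat_lit 40)))))
 (.n (.n (.n (.p (nat_lit 0xf62114102) (nat_lit 0x340400) (nat_lit 4))
 (.p (nat_lit 0x39f0370302) (nat_lit 0x300518) (nat_lit 5)))
 (.n (.p (nat_lit 0xa32220f02) (nat_lit 0x340105) (nat_lit 5))
 (.p (nat_lit 0x3a35be502) (nat_lit 0x100b23) (nat_lit 28))))
 (.n (.n (.p (nat_lit 0x21b721ab02) (nat_lit 0x110a01) (nat_lit 16))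
 (.p (nat_lit 0x287229cb02) (nat_lit 0x40224) (nat_lit 4)))
 (.n (.p (nat_lit 0x1fb41fb01fae1fac1faa3f9906) (nat_lit 0x800000c30b) (nat_lit 51))
 (.p (nat_lit 0x11465f7b02) (nat_lit 0x581a22b44000400040000) (nat_lit 50))))))
 (.n (.n (.n (.n (.p (nat_lit 0x286087702) (nat_lit 0x300200) (nat_lit 1))
 (.p (nat_lit 0x1394542f02) (nat_lit 0x500515) (nat_lit 29)))
 (.n (.p (nat_lit 0x405a4058405640521121111906) (nat_lit 0x1100000c404) (nat_lit 52))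
 (.p (nat_lit 0x620060005a00580007008b06) (nat_lit 0x1a14902) (nat_lit 26))))
 (.n (.n (.p (nat_lit 0x8a4156702) (nat_lit 0x200101) (nat_lit 4))
 (.p (nat_lit 0x3ab569302) (nat_lit 0x540023) (nat_lit 30)))
 (.n (.p (nat_lit 0x447a44784476447022cb22c906) (nat_lit 0x300004ea07) (nat_lit 51))
 (.p (nat_lit 0x5d5b5ea702) (nat_lit 0x220080000a00) (nat_lit 37)))))
 (.n (.n (.n (.p (nat_lit 0x18d218d018cc18ca18c8162706) (nat_lit 0x4000014700) (nat_lit 52))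
 (.p (nat_lit 0x2e2d088302) (nat_lit 0x30e11c) (nat_lit 16)))
 (.n (.p (nat_lit 0x1134b3102) (nat_lit 0x40006) (nat_lit 30))
 (.p (nat_lit 0x5d350d1902) (nat_lit 0x180060000300) (nat_lit 40))))
 (.n (.n (.p (nat_lit 0xa4c0a4a0a460a442325231f06) (nat_lit 0x12000044a02) (nat_lit 52))
 (.p (nat_lit 0x52c052a052805260522089706) (nat_lit 0x100008812a) (nat_lit 51)))
 (.n (.p (nat_lit 0x418f138702) (nat_lit 0x41250e) (nat_lit 16))
 (.p (nat_lit 0x207e607f02) (nat_lit 0x511a22b85000400000600) (nat_lit 50))))))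

def c1024_915 : Tr :=
 .n (.n (.n (.n (.n (.p (nat_lit 0x6620660065e06580651064f06) (nat_lit 0x3000044000) (nat_lit 51))
 (.p (nat_lit 0x4dd04c3102) (nat_lit 0x300314) (nat_lit 5)))
 (.n (.p (nat_lit 0x1f0e1f0c1f0a1f081f0425c106) (nat_lit 0x10000d2b03) (nat_lit 52))
 (.p (nat_lit 0x3fac414d02) (nat_lit 0x40032e) (nat_lit 5))))
 (.n (.n (.p (nat_lit 0x22d91ff902) (nat_lit 0x342a00) (nat_lit 16))
 (.p (nat_lit 0x438c562f02) (nat_lit 0x340b20) (nat_lit 29)))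
 (.n (.p (nat_lit 0x10e110d502) (nat_lit 0x304407) (nat_lit 16))
 (.p (nat_lit 0x5d8f1c4502) (nat_lit 0x1e00a0000800) (nat_lit 39)))))
 (.n (.n (.n (.p (nat_lit 0x14f1122102) (nat_lit 0x24c500) (nat_lit 16))
 (.p (nat_lit 0x4a34466d02) (nat_lit 0x24071a) (nat_lit 4)))
 (.n (.p (nat_lit 0x254425422540253c253a180306) (nat_lit 0x2000050605) (nat_lit 51))
 (.p (nat_lit 0x5cf7079902) (nat_lit 0x260040000100) (nat_lit 38))))
 (.n (.n (.p (nat_lit 0x1111110502) (nat_lit 0x312402) (nat_lit 16))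
 (.p (nat_lit 0x424840c102) (nat_lit 0x200627) (nat_lit 5)))
 (.n (.p (nat_lit 0x50964b0502) (nat_lit 0x54080d) (nat_lit 4))
 (.p (nat_lit 0x23385fff02) (nat_lit 0x16a88cd50000500000600) (nat_lit 49))))))
 (.n (.n (.n (.n (.p (nat_lit 0xdd80dd60dd20dd00b390b3306) (nat_lit 0x12000094300) (nat_lit 52))
 (.p (nat_lit 0x201a0c5902) (nat_lit 0x240915) (nat_lit 5)))
 (.n (.p (nat_lit 0x195419521950194e194c00bf195707) (nat_lit 0x500704) (nat_lit 7))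
 (.p (nat_lit 0x1b25a5502) (nat_lit 0x300a0a) (nat_lit 27))))
 (.n (.n (.p (nat_lit 0x18ba18b818b618b418b01c1906) (nat_lit 0x1000012801) (nat_lit 52))
 (.p (nat_lit 0x166b165f02) (nat_lit 0x100623) (nat_lit 16)))
 (.n (.p (nat_lit 0x329a32983296329432900187329307) (nat_lit 0x100909) (nat_lit 7))
 (.p (nat_lit 0x7985ef502) (nat_lit 0x281d30344000100000000) (nat_lit 49)))))
 (.n (.n (.n (.p (nat_lit 0x1c2518fb02) (nat_lit 0x114800) (nat_lit 16))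
 (.p (nat_lit 0x1d691d5d02) (nat_lit 0x24a81c) (nat_lit 16)))
 (.n (.p (nat_lit 0x17681766176417621ad31ad106) (nat_lit 0x18000052706) (nat_lit 51))
 (.p (nat_lit 0x5d5f5e3302) (nat_lit 0x1e0080000500) (nat_lit 37))))
 (.n (.n (.p (nat_lit 0x36330a1502) (nat_lit 0x46103) (nat_lit 16))
 (.p (nat_lit 0x47690f8502) (nat_lit 0x25432a) (nat_lit 16)))
 (.n (.p (nat_lit 0x2578536702) (nat_lit 0x140b0e) (nat_lit 29))
 (.p (nat_lit 0x207260ff02) (nat_lit 0x3425219b0000400000600) (nat_lit 49))))))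

def c512_403 : Tr := .n c1024_403 c1024_915

def c256_147 : Tr := .n c512_147 c512_403

def c128_19 : Tr := .n c256_19 c256_147

def c1024_83 : Tr :=
 .n (.n (.n (.n (.n (.n (.p (nat_lit 0x62005a0058006504) (nat_lit 0x11800400002) (nat_lit 17))
 (.p (nat_lit 0x206c613302) (nat_lit 0x35486a3b0000400000600) (nat_lit 49)))
 (.p (nat_lit 0x2bf22bf02bee2bec2bea020b2be907) (nat_lit 0x4090f) (nat_lit 7)))
 (.n (.p (nat_lit 0xfbb0faf02) (nat_lit 0x554303) (nat_lit 16))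
 (.p (nat_lit 0x1d72580b02) (nat_lit 0x14082a) (nat_lit 29))))
 (.n (.n (.p (nat_lit 0x1d311a6502) (nat_lit 0x440800) (nat_lit 15))
 (.p (nat_lit 0x24380f4502) (nat_lit 0xb1c) (nat_lit 5)))
 (.n (.p (nat_lit 0xbb00bae0baa0ba80ba61d9b06) (nat_lit 0x40000c4806) (nat_lit 52))
 (.p (nat_lit 0x5d195e4102) (nat_lit 0x40040000600) (nat_lit 37)))))
 (.n (.n (.n (.p (nat_lit 0xf360f340f320f2c0c930c9106) (nat_lit 0x3000054300) (nat_lit 51))
 (.p (nat_lit 0x2a72283502) (nat_lit 0x200516) (nat_lit 5)))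
 (.n (.p (nat_lit 0x247a433302) (nat_lit 0x300b04) (nat_lit 29))
 (.p (nat_lit 0x25602540252024e01af02ef06) (nat_lit 0xd0a312) (nat_lit 26))))
 (.n (.n (.p (nat_lit 0xa5a0a580a560a540a521ee106) (nat_lit 0x800004901) (nat_lit 51))
 (.p (nat_lit 0x20371d6d02) (nat_lit 0x440823) (nat_lit 15)))
 (.n (.p (nat_lit 0x37d834e902) (nat_lit 0x30030a) (nat_lit 5))
 (.p (nat_lit 0x15425f3102) (nat_lit 0x3aa560b44000000000600) (nat_lit 50))))))
 (.n (.n (.n (.n (.p (nat_lit 0x7b607b407b207b007ac05bf06) (nat_lit 0x1000006100) (nat_lit 52))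
 (.p (nat_lit 0x7b607b207b007ae05d105c906) (nat_lit 0x8800006015) (nat_lit 52)))
 (.n (.p (nat_lit 0xa201ddd02) (nat_lit 0x40104) (nat_lit 5))
 (.p (nat_lit 0x46f8491302) (nat_lit 0x30032f) (nat_lit 4))))
 (.n (.n (.p (nat_lit 0x2451215502) (nat_lit 0xab00) (nat_lit 16))
 (.p (nat_lit 0x23d623d223d023ce23cc4b2306) (nat_lit 0x800000e022) (nat_lit 52)))
 (.n (.p (nat_lit 0x190e190a1908190619040149190d07) (nat_lit 0x400707) (nat_lit 7))
 (.p (nat_lit 0x5d371f1702) (nat_lit 0x160060000900) (nat_lit 41)))))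
 (.n (.n (.n (.p (nat_lit 0x1687155302) (nat_lit 0x312600) (nat_lit 16))
 (.p (nat_lit 0xe820e800e7c0e7a0e7805db06) (nat_lit 0x400008601c) (nat_lit 51)))
 (.n (.p (nat_lit 0xd1c0d180d160d140d121ac506) (nat_lit 0x8000046705) (nat_lit 51))
 (.p (nat_lit 0x5dde338f02) (nat_lit 0x4e200) (nat_lit 48))))
 (.n (.n (.p (nat_lit 0x1b901b8c1b8a1b881b861ef506) (nat_lit 0x800008c902) (nat_lit 51))
 (.p (nat_lit 0x468a46864684468246800411468907) (nat_lit 0x440228) (nat_lit 7)))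
 (.n (.p (nat_lit 0x10de07c902) (nat_lit 0x20040e) (nat_lit 4))
 (.p (nat_lit 0xbae603102) (nat_lit 0x4099a2335000200040000) (nat_lit 49))))))

def c1024_595 : Tr :=
 .n (.n (.n (.n (.n (.n (.p (nat_lit 0x3a403a203af03) (nat_lit 0x3000500023) (nat_lit 17))
 (.p (nat_lit 0x181e61af02) (nat_lit 0x522266c0d000100000600) (nat_lit 50)))
 (.p (nat_lit 0x1e661e641e601e5e1e5c408906) (nat_lit 0x400000e412) (nat_lit 51)))
 (.n (.p (nat_lit 0x873b2502) (nat_lit 0x40a03) (nat_lit 30))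
 (.p (nat_lit 0x3366325502) (nat_lit 0x400a2c) (nat_lit 4))))
 (.n (.n (.p (nat_lit 0x209620942090208e1e971e9106) (nat_lit 0x12000080a00) (nat_lit 52))
 (.p (nat_lit 0x3b8e37bb02) (nat_lit 0xb1f) (nat_lit 4)))
 (.n (.p (nat_lit 0x7a807a607a407a207a00e0b06) (nat_lit 0x10000002307) (nat_lit 51))
 (.p (nat_lit 0x5e64317d02) (nat_lit 0xa0042700) (nat_lit 48)))))
 (.n (.n (.n (.p (nat_lit 0x10ca129d02) (nat_lit 0x400500) (nat_lit 4))
 (.p (nat_lit 0x1fd81fd61fd41fd21fd0419306) (nat_lit 0x80008e519) (nat_lit 52)))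
 (.n (.p (nat_lit 0xfc620df02) (nat_lit 0x540305) (nat_lit 5))
 (.p (nat_lit 0x5cbd5daf02) (nat_lit 0x0) (nat_lit 37))))
 (.n (.n (.p (nat_lit 0x2d862d822d802d7e2d7c076106) (nat_lit 0x80000d4002) (nat_lit 52))
 (.p (nat_lit 0x295c2958295629542952340106) (nat_lit 0x8000002b25) (nat_lit 52)))
 (.n (.p (nat_lit 0x1cf528b02) (nat_lit 0x50020c) (nat_lit 30))
 (.p (nat_lit 0x248d248921dd21d31f111f071c4f1c45197f197116af169f5fac0d) (nat_lit 0x89832915800000040600) (nat_lit 33))))))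
 (.n (.n (.n (.n (.p (nat_lit 0x9d60bbd02) (nat_lit 0x540200) (nat_lit 5))
 (.p (nat_lit 0x207420722070206e206c14d506) (nat_lit 0x800054515) (nat_lit 52)))
 (.n (.p (nat_lit 0xc200df00d91faf1e4905) (nat_lit 0xae200604) (nat_lit 9))
 (.p (nat_lit 0xe7598d02) (nat_lit 0x200005) (nat_lit 28))))
 (.n (.n (.p (nat_lit 0xe2e0e2c0e280e260e2400310e2b07) (nat_lit 0x300301) (nat_lit 7))
 (.p (nat_lit 0x9ea101702) (nat_lit 0x340123) (nat_lit 5)))
 (.n (.p (nat_lit 0x161e161a161816161614292b06) (nat_lit 0x80000d4308) (nat_lit 51))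
 (.p (nat_lit 0x5eb84b2102) (nat_lit 0x60006b00) (nat_lit 47)))))
 (.n (.n (.n (.p (nat_lit 0x1a1e1a1c1a181a161a14179906) (nat_lit 0x4000052700) (nat_lit 51))
 (.p (nat_lit 0x30b552502) (nat_lit 0x24051c) (nat_lit 30)))
 (.n (.p (nat_lit 0x11b4d6302) (nat_lit 0x400306) (nat_lit 30))
 (.p (nat_lit 0x5d150fd902) (nat_lit 0x80040000400) (nat_lit 38))))
 (.n (.n (.p (nat_lit 0x16041602160015fe15fc246706) (nat_lit 0x10000092b02) (nat_lit 51))
 (.p (nat_lit 0x154815461544154215400b5d06) (nat_lit 0x1000000c22a) (nat_lit 51)))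
 (.n (.p (nat_lit 0x1eb531502) (nat_lit 0x24070e) (nat_lit 30))
 (.p (nat_lit 0x8f260ad02) (nat_lit 0x342521ca4000100040000) (nat_lit 49))))))

def c512_83 : Tr := .n c1024_83 c1024_595

def c1024_339 : Tr :=
 .n (.n (.n (.n (.n (.n (.p (nat_lit 0x14a0148014f03) (nat_lit 0x18000500007) (nat_lit 17))
 (.p (nat_lit 0x2070616f02) (nat_lit 0x421aa6315000400000600) (nat_lit 49)))
 (.p (nat_lit 0x342e342c342a34283426022d343107) (nat_lit 0x540b10) (nat_lit 7)))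
 (.n (.p (nat_lit 0x167e167c1676167400aa008d008b167b167909) (nat_lit 0x1a00603) (nat_lit 10))
 (.p (nat_lit 0x287e2a3502) (nat_lit 0x4022b) (nat_lit 5))))
 (.n (.n (.p (nat_lit 0x1ef71bcd02) (nat_lit 0x50e900) (nat_lit 16))
 (.p (nat_lit 0x3788378637843782378032f306) (nat_lit 0x8000c091e) (nat_lit 51)))
 (.n (.p (nat_lit 0x212e212c212a21262124206306) (nat_lit 0x200004e906) (nat_lit 52))
 (.p (nat_lit 0x5cd1197302) (nat_lit 0x1c0020000700) (nat_lit 39)))))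
 (.n (.n (.n (.p (nat_lit 0x10d30df902) (nat_lit 0x200400) (nat_lit 16))
 (.p (nat_lit 0x34b436dd02) (nat_lit 0x100018) (nat_lit 4)))
 (.n (.p (nat_lit 0x4450444e444c444a4448077d06) (nat_lit 0x8000c6005) (nat_lit 52))
 (.p (nat_lit 0x39c039a03960392030d011506) (nat_lit 0x1910022) (nat_lit 26))))
 (.n (.n (.p (nat_lit 0x21aa177d02) (nat_lit 0x100a01) (nat_lit 4))
 (.p (nat_lit 0x26d026ce26cc26ca26c803db26d307) (nat_lit 0x540024) (nat_lit 7)))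
 (.n (.p (nat_lit 0x69e069c0698069606943bc506) (nat_lit 0x40000c8b0a) (nat_lit 52))
 (.p (nat_lit 0x1aea5f7102) (nat_lit 0x3aa074c44000200000600) (nat_lit 50))))))
 (.n (.n (.n (.n (.p (nat_lit 0x9ed072502) (nat_lit 0x448100) (nat_lit 16))
 (.p (nat_lit 0xe8e0e8a0e880e860e84124906) (nat_lit 0x8000040415) (nat_lit 51)))
 (.n (.p (nat_lit 0x3fc63fc43fc23fbe3fbc0fb506) (nat_lit 0x20000c0304) (nat_lit 52))
 (.p (nat_lit 0x3358d302) (nat_lit 0x400a01) (nat_lit 28))))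
 (.n (.n (.p (nat_lit 0x60105f502) (nat_lit 0x410001) (nat_lit 16))
 (.p (nat_lit 0x1430142c142a1428142605e906) (nat_lit 0x8000084023) (nat_lit 52)))
 (.n (.p (nat_lit 0x216206ef02) (nat_lit 0x100a07) (nat_lit 4))
 (.p (nat_lit 0x5e9e206302) (nat_lit 0x4004ca00) (nat_lit 47)))))
 (.n (.n (.n (.p (nat_lit 0x183818361834182e1625162306) (nat_lit 0x3000080700) (nat_lit 51))
 (.p (nat_lit 0x28a088702) (nat_lit 0x50011c) (nat_lit 1)))
 (.n (.p (nat_lit 0x1fd81fd61fd41fd21fd01d8906) (nat_lit 0x8000ce805) (nat_lit 52))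
 (.p (nat_lit 0x5dfa10e902) (nat_lit 0x20002300) (nat_lit 47))))
 (.n (.n (.p (nat_lit 0x334321bd02) (nat_lit 0x404a02) (nat_lit 16))
 (.p (nat_lit 0x57a657a457a257a0579e579c044007) (nat_lit 0x12a) (nat_lit 8)))
 (.n (.p (nat_lit 0x1388138613841382138001e7137f07) (nat_lit 0x50e) (nat_lit 7))
 (.p (nat_lit 0x1dae607102) (nat_lit 0x588162b40800300000600) (nat_lit 50))))))

def c1024_851 : Tr :=
 .n (.n (.n (.n (.n (.n (.p (nat_lit 0x5e504df02) (nat_lit 0x208000) (nat_lit 16))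
 (.p (nat_lit 0x153861ed02) (nat_lit 0x382a31d05000000000600) (nat_lit 49)))
 (.p (nat_lit 0x4fa9494702) (nat_lit 0x44c513) (nat_lit 16)))
 (.n (.p (nat_lit 0x648064606440642064025c906) (nat_lit 0x100000c0b03) (nat_lit 51))
 (.p (nat_lit 0x3e08412b02) (nat_lit 0x54012e) (nat_lit 4))))
 (.n (.n (.p (nat_lit 0x22782276227422721ffd1ffb06) (nat_lit 0x1800004ca00) (nat_lit 51))
 (.p (nat_lit 0x42de42dc42da42d842d6036342d507) (nat_lit 0x720) (nat_lit 7)))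
 (.n (.p (nat_lit 0x10d810d610d410d210ce014310d107) (nat_lit 0x100407) (nat_lit 7))
 (.p (nat_lit 0x5d5f1c4302) (nat_lit 0x1e0080000800) (nat_lit 39)))))
 (.n (.n (.n (.p (nat_lit 0x14481444144214401225121d06) (nat_lit 0x88000c6500) (nat_lit 52))
 (.p (nat_lit 0x227c2278227622742272495306) (nat_lit 0x800004c51a) (nat_lit 51)))
 (.n (.p (nat_lit 0x255c2556255425521695169306) (nat_lit 0xc000012605) (nat_lit 52))
 (.p (nat_lit 0x5ce55dc902) (nat_lit 0x80020000100) (nat_lit 37))))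
 (.n (.n (.p (nat_lit 0xf9c302502) (nat_lit 0x240302) (nat_lit 29))
 (.p (nat_lit 0x1ff01fec1fea1fe81fe63d7906) (nat_lit 0x8000096127) (nat_lit 51)))
 (.n (.p (nat_lit 0x4f864f844f824f804f7e4f1506) (nat_lit 0x8000c440d) (nat_lit 52))
 (.p (nat_lit 0x11485fef02) (nat_lit 0x306a81c35000400040000) (nat_lit 50))))))
 (.n (.n (.n (.n (.p (nat_lit 0xd480d460d440d420b390b3706) (nat_lit 0x18000082300) (nat_lit 51))
 (.p (nat_lit 0x289547502) (nat_lit 0x440815) (nat_lit 30)))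
 (.n (.p (nat_lit 0x233c233a23382336233217f506) (nat_lit 0x1000056604) (nat_lit 52))
 (.p (nat_lit 0x17401720170016e01e1014b06) (nat_lit 0x2514908) (nat_lit 26))))
 (.n (.n (.p (nat_lit 0x2b2af102) (nat_lit 0x801) (nat_lit 30))
 (.p (nat_lit 0xd640d620d600d5e0ca90ca706) (nat_lit 0x18000ca223) (nat_lit 52)))
 (.n (.p (nat_lit 0x30942d4102) (nat_lit 0x540309) (nat_lit 4))
 (.p (nat_lit 0x2495248b21dd21cf1f111f0b1c511c431983197516a716995ee60d) (nat_lit 0x4a8876344000000040600) (nat_lit 33)))))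
 (.n (.n (.n (.p (nat_lit 0x1bb41bb21bae1bac1baa18ff06) (nat_lit 0x4000016800) (nat_lit 52))
 (.p (nat_lit 0x37b837b637b437b237b01bf706) (nat_lit 0x200009481c) (nat_lit 52)))
 (.n (.p (nat_lit 0x17841780177e177c177a196d06) (nat_lit 0x8000014706) (nat_lit 52))
 (.p (nat_lit 0x5d47129b02) (nat_lit 0x60060000500) (nat_lit 38))))
 (.n (.n (.p (nat_lit 0x8cf08c302) (nat_lit 0x514103) (nat_lit 16))
 (.p (nat_lit 0xf80143f02) (nat_lit 0x4032a) (nat_lit 4)))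
 (.n (.p (nat_lit 0x22dc535702) (nat_lit 0x540a0e) (nat_lit 29))
 (.p (nat_lit 0x114660f302) (nat_lit 0x440d663a4000400040000) (nat_lit 50))))))

def c512_339 : Tr := .n c1024_339 c1024_851

def c256_83 : Tr := .n c512_83 c512_339

def c1024_211 : Tr :=
 .n (.n (.n (.n (.n (.n (.p (nat_lit 0xd100cf00c203) (nat_lit 0x21a00004) (nat_lit 19))
 (.p (nat_lit 0x153a615302) (nat_lit 0x1503a8895800000000600) (nat_lit 49)))
 (.p (nat_lit 0x32722e7302) (nat_lit 0x340510) (nat_lit 4)))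
 (.n (.p (nat_lit 0x13ba398702) (nat_lit 0x503) (nat_lit 29))
 (.p (nat_lit 0x488c488a488848864882219f06) (nat_lit 0x1000084a2a) (nat_lit 51))))
 (.n (.n (.p (nat_lit 0x1e341e321e2e1e2c1bcd1bc706) (nat_lit 0x1200000a900) (nat_lit 52))
 (.p (nat_lit 0x2bb0290f02) (nat_lit 0x20091d) (nat_lit 5)))
 (.n (.p (nat_lit 0x1f00240502) (nat_lit 0x400906) (nat_lit 5))
 (.p (nat_lit 0x5dab154b02) (nat_lit 0x200a0000600) (nat_lit 40)))))
 (.n (.n (.n (.p (nat_lit 0xff60ff00fee0fec0dfd0dfb06) (nat_lit 0xc000000400) (nat_lit 52))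
 (.p (nat_lit 0x1a2a1a281a261a241a2031ef06) (nat_lit 0x1000092517) (nat_lit 51)))
 (.n (.p (nat_lit 0x210a21062104210225d325cb06) (nat_lit 0x88000cab04) (nat_lit 52))
 (.p (nat_lit 0x2fc02f802f602f20283038d06) (nat_lit 0xc0e41a) (nat_lit 26))))
 (.n (.n (.p (nat_lit 0x204e204c204a204820460035205107) (nat_lit 0x540901) (nat_lit 7))
 (.p (nat_lit 0x22fe120102) (nat_lit 0x440a23) (nat_lit 5)))
 (.n (.p (nat_lit 0x19d524902) (nat_lit 0x20060a) (nat_lit 30))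
 (.p (nat_lit 0x1da25f5302) (nat_lit 0x1a9d22350000300000600) (nat_lit 49))))))
 (.n (.n (.n (.n (.p (nat_lit 0x8e505c502) (nat_lit 0x416100) (nat_lit 16))
 (.p (nat_lit 0x10ea0a7902) (nat_lit 0x200415) (nat_lit 4)))
 (.n (.p (nat_lit 0xb73e8d02) (nat_lit 0x140204) (nat_lit 30))
 (.p (nat_lit 0x50784f8d02) (nat_lit 0x200830) (nat_lit 4))))
 (.n (.n (.p (nat_lit 0x2550254c254a254622c322bd06) (nat_lit 0x90000d0b00) (nat_lit 52))
 (.p (nat_lit 0x30e506502) (nat_lit 0x400822) (nat_lit 1)))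
 (.n (.p (nat_lit 0x34ae34ac34aa34a61bd91bd106) (nat_lit 0x11000096807) (nat_lit 51))
 (.p (nat_lit 0x5cb321cd02) (nat_lit 0xa0000000a00) (nat_lit 39)))))
 (.n (.n (.n (.p (nat_lit 0x176817661764176216bb16b906) (nat_lit 0x18000052600) (nat_lit 51))
 (.p (nat_lit 0xd1c0d1a0d160d140d12073b06) (nat_lit 0x400004601c) (nat_lit 51)))
 (.n (.p (nat_lit 0x1c2c1c2a1c281c2600f400e500e31c251c2309) (nat_lit 0x800805) (nat_lit 10))
 (.p (nat_lit 0x5d695ded02) (nat_lit 0x140080000200) (nat_lit 37))))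
 (.n (.n (.p (nat_lit 0x3307205b02) (nat_lit 0x448902) (nat_lit 16))
 (.p (nat_lit 0x252c252a2526252425224c8d06) (nat_lit 0x400004e129) (nat_lit 51)))
 (.n (.p (nat_lit 0x123e123c123a1238123601e7123507) (nat_lit 0x4040e) (nat_lit 7))
 (.p (nat_lit 0x13ea604f02) (nat_lit 0x40a962335000500040000) (nat_lit 49))))))

def c1024_723 : Tr :=
 .n (.n (.n (.n (.n (.n (.p (nat_lit 0x4e404e004de04dc00120009000104e304db09) (nat_lit 0x2000000) (nat_lit 10))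
 (.p (nat_lit 0xe7261cf02) (nat_lit 0x3561684a0800300040000) (nat_lit 49)))
 (.p (nat_lit 0x426e3dcd02) (nat_lit 0x340612) (nat_lit 4)))
 (.n (.p (nat_lit 0xfea0fe80fe60fe40fe0246b06) (nat_lit 0x1000008b03) (nat_lit 51))
 (.p (nat_lit 0x37df36cf02) (nat_lit 0x22d) (nat_lit 15))))
 (.n (.n (.p (nat_lit 0x218b1e9302) (nat_lit 0x306a00) (nat_lit 16))
 (.p (nat_lit 0x1e881e861e841e821e803d0b06) (nat_lit 0x100000d6020) (nat_lit 52)))
 (.n (.p (nat_lit 0x4d404d204d004ce0f730f7106) (nat_lit 0x18000040307) (nat_lit 51))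
 (.p (nat_lit 0x5d151ae502) (nat_lit 0x80040000800) (nat_lit 40)))))
 (.n (.n (.n (.p (nat_lit 0x138910cd02) (nat_lit 0x502500) (nat_lit 16))
 (.p (nat_lit 0x370637043702370036fc42cb06) (nat_lit 0x100000a719) (nat_lit 51)))
 (.n (.p (nat_lit 0xed486d02) (nat_lit 0x500505) (nat_lit 30))
 (.p (nat_lit 0x5d4704d502) (nat_lit 0x60060000000) (nat_lit 40))))
 (.n (.n (.p (nat_lit 0x2f390b7502) (nat_lit 0x500202) (nat_lit 16))
 (.p (nat_lit 0x30ce30cc30c830c630c43ad106) (nat_lit 0x40000c2626) (nat_lit 51)))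
 (.n (.p (nat_lit 0x4fc04fa04f804f604f449c906) (nat_lit 0x80008470c) (nat_lit 52))
 (.p (nat_lit 0x233e5fd102) (nat_lit 0x95a2ec05000500000600) (nat_lit 50))))))
 (.n (.n (.n (.n (.p (nat_lit 0xcb909d302) (nat_lit 0x34a200) (nat_lit 16))
 (.p (nat_lit 0x19240ac502) (nat_lit 0x400715) (nat_lit 5)))
 (.n (.p (nat_lit 0x4251168102) (nat_lit 0xa604) (nat_lit 16))
 (.p (nat_lit 0x41c59cf02) (nat_lit 0x406) (nat_lit 27))))
 (.n (.n (.p (nat_lit 0x1256173102) (nat_lit 0x540401) (nat_lit 4))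
 (.p (nat_lit 0xb4856af02) (nat_lit 0x100223) (nat_lit 29)))
 (.n (.p (nat_lit 0x68606820680067e067c2be506) (nat_lit 0x80000c6908) (nat_lit 52))
 (.p (nat_lit 0x11465ec702) (nat_lit 0x4a1a34344000400040000) (nat_lit 50)))))
 (.n (.n (.n (.p (nat_lit 0x1acd179702) (nat_lit 0x256700) (nat_lit 16))
 (.p (nat_lit 0x17d317c702) (nat_lit 0x24a61c) (nat_lit 16)))
 (.n (.p (nat_lit 0x11d4eb902) (nat_lit 0x540406) (nat_lit 30))
 (.p (nat_lit 0x5d8f0feb02) (nat_lit 0x1e00a0000400) (nat_lit 40))))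
 (.n (.n (.p (nat_lit 0x3460345e345c345a3458345606) (nat_lit 0x6003) (nat_lit 52))
 (.p (nat_lit 0x197a19781976197419700cb506) (nat_lit 0x10000ce22a) (nat_lit 52)))
 (.n (.p (nat_lit 0x1d551d4902) (nat_lit 0x44680e) (nat_lit 16))
 (.p (nat_lit 0x64860d502) (nat_lit 0x354a621b0000000040000) (nat_lit 50))))))

def c512_211 : Tr := .n c1024_211 c1024_723

def c1024_467 : Tr :=
 .n (.n (.n (.n (.n (.n (.p (nat_lit 0x2a9029d028e03) (nat_lit 0x62100015) (nat_lit 19))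
 (.p (nat_lit 0x1400618d02) (nat_lit 0x54c88a970000500040000) (nat_lit 50)))
 (.p (nat_lit 0x3a98359702) (nat_lit 0x100611) (nat_lit 5)))
 (.n (.p (nat_lit 0x18d218d018cc18c817ed17e906) (nat_lit 0x5000054603) (nat_lit 52))
 (.p (nat_lit 0x2ec6320702) (nat_lit 0x14012c) (nat_lit 5))))
 (.n (.n (.p (nat_lit 0x1fca1fc81fc61fc41d331d2906) (nat_lit 0x1080004e900) (nat_lit 52))
 (.p (nat_lit 0x1b901b8e1b8a1b881b86354f06) (nat_lit 0x40000cc01f) (nat_lit 51)))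
 (.n (.p (nat_lit 0x5146514451425140513e513c014c07) (nat_lit 0x40207) (nat_lit 8))
 (.p (nat_lit 0x5e5a17ed02) (nat_lit 0x60052700) (nat_lit 47)))))
 (.n (.n (.n (.p (nat_lit 0x118c1188118611820f650f5f06) (nat_lit 0x9000044400) (nat_lit 52))
 (.p (nat_lit 0x3ab13aa502) (nat_lit 0x108618) (nat_lit 16)))
 (.n (.p (nat_lit 0xba10b9502) (nat_lit 0x30c205) (nat_lit 16))
 (.p (nat_lit 0x43b5c2702) (nat_lit 0x30012a) (nat_lit 28))))
 (.n (.n (.p (nat_lit 0x23e023de23dc23d82319231106) (nat_lit 0x110000cea01) (nat_lit 52))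
 (.p (nat_lit 0x2c4629f502) (nat_lit 0x200a24) (nat_lit 5)))
 (.n (.p (nat_lit 0x421c3c3102) (nat_lit 0x40060b) (nat_lit 4))
 (.p (nat_lit 0x20705f8f02) (nat_lit 0x581a303a4000400000600) (nat_lit 49))))))
 (.n (.n (.n (.n (.p (nat_lit 0xa960a940a920a900a8c087306) (nat_lit 0x100000a200) (nat_lit 52))
 (.p (nat_lit 0x1aea1ae81ae61ae21ae0138f06) (nat_lit 0x2000010515) (nat_lit 51)))
 (.n (.p (nat_lit 0x4111127702) (nat_lit 0x344404) (nat_lit 16))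
 (.p (nat_lit 0x34e592702) (nat_lit 0x303) (nat_lit 27))))
 (.n (.n (.p (nat_lit 0x27742770276e276c276a0a0506) (nat_lit 0x80000ca101) (nat_lit 52))
 (.p (nat_lit 0x890117302) (nat_lit 0x400123) (nat_lit 5)))
 (.n (.p (nat_lit 0x433f241b02) (nat_lit 0x312b07) (nat_lit 16))
 (.p (nat_lit 0x5eae4dc102) (nat_lit 0xb00) (nat_lit 48)))))
 (.n (.n (.n (.p (nat_lit 0x1923162702) (nat_lit 0x304700) (nat_lit 16))
 (.p (nat_lit 0xa960a940a900a8e0a8c09df06) (nat_lit 0x400004a11c) (nat_lit 52)))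
 (.n (.p (nat_lit 0x8e408e208e008de012a011d011308e708dd09) (nat_lit 0x2800106) (nat_lit 10))
 (.p (nat_lit 0x5d4f0d0f02) (nat_lit 0x2e0080000300) (nat_lit 38))))
 (.n (.n (.p (nat_lit 0x1f0e1f0a1f081f061f04232306) (nat_lit 0x80000d2a02) (nat_lit 52))
 (.p (nat_lit 0x43f57b302) (nat_lit 0x54012a) (nat_lit 30)))
 (.n (.p (nat_lit 0x68406820680067c14d314cb06) (nat_lit 0x110000c650e) (nat_lit 52))
 (.p (nat_lit 0x13ee608f02) (nat_lit 0x356221ca4000500040000) (nat_lit 49))))))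

def c1024_979 : Tr :=
 .n (.n (.n (.n (.n (.p (nat_lit 0x6b406b006ae06ac0655064d06) (nat_lit 0x880004e000) (nat_lit 51))
 (.p (nat_lit 0x23e223e023de23da23d84f2506) (nat_lit 0x20000ce414) (nat_lit 52)))
 (.n (.p (nat_lit 0x618061606140612061000bf061b07) (nat_lit 0x500004) (nat_lit 7))
 (.p (nat_lit 0x3a383a363a343a323a3042ed06) (nat_lit 0x80008472e) (nat_lit 52))))
 (.n (.n (.p (nat_lit 0x2349233d02) (nat_lit 0x500b00) (nat_lit 34))
 (.p (nat_lit 0x214621442140213e213c44a306) (nat_lit 0x4000050021) (nat_lit 51)))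
 (.n (.p (nat_lit 0x516a51685166516451625160014e1231122f122d0a) (nat_lit 0x11a40407) (nat_lit 31))
 (.p (nat_lit 0x5e7e1c2302) (nat_lit 0x16900) (nat_lit 48)))))
 (.n (.n (.n (.p (nat_lit 0x1576157415721570156e155706) (nat_lit 0x10000082600) (nat_lit 52))
 (.p (nat_lit 0x1124fad02) (nat_lit 0x4051b) (nat_lit 1)))
 (.n (.p (nat_lit 0xd100d0e0d0a0d080d06195f06) (nat_lit 0x4000006705) (nat_lit 52))
 (.p (nat_lit 0x5dd208ef02) (nat_lit 0x60040100) (nat_lit 45))))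
 (.n (.n (.p (nat_lit 0x61318702) (nat_lit 0x400502) (nat_lit 30))
 (.p (nat_lit 0x431a40e302) (nat_lit 0x140727) (nat_lit 4)))
 (.n (.p (nat_lit 0xe160e120e100e0e0e0c01ef0e1507) (nat_lit 0x40030e) (nat_lit 7))
 (.p (nat_lit 0x64a601302) (nat_lit 0x405aa2335000000040000) (nat_lit 50))))))
 (.n (.n (.n (.n (.p (nat_lit 0x3060c8f02) (nat_lit 0x40300) (nat_lit 1))
 (.p (nat_lit 0x464e464c464a46484644217b06) (nat_lit 0x100008aa15) (nat_lit 52)))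
 (.n (.p (nat_lit 0x42c7195702) (nat_lit 0x502704) (nat_lit 16))
 (.p (nat_lit 0x1f001ee01e801e6023f000506) (nat_lit 0x1a1040e) (nat_lit 26))))
 (.n (.n (.p (nat_lit 0x5e1d8302) (nat_lit 0x340801) (nat_lit 1))
 (.p (nat_lit 0x1a9a105b02) (nat_lit 0x140723) (nat_lit 5)))
 (.n (.p (nat_lit 0x33782cd502) (nat_lit 0x140a09) (nat_lit 5))
 (.p (nat_lit 0x20725f1102) (nat_lit 0x3a2270350000400000600) (nat_lit 49)))))
 (.n (.n (.n (.p (nat_lit 0x1c721c701c6e1c6a1a671a5f06) (nat_lit 0x11000042800) (nat_lit 52))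
 (.p (nat_lit 0x202a0dc102) (nat_lit 0x44091c) (nat_lit 4)))
 (.n (.p (nat_lit 0x8fe08fa08f808f608f41c3706) (nat_lit 0x8000082806) (nat_lit 51))
 (.p (nat_lit 0x5cbd16a502) (nat_lit 0x600) (nat_lit 41))))
 (.n (.n (.p (nat_lit 0xce01c9902) (nat_lit 0x540203) (nat_lit 4))
 (.p (nat_lit 0x17e2130902) (nat_lit 0x44062a) (nat_lit 4)))
 (.n (.p (nat_lit 0x2a0c276302) (nat_lit 0x24040f) (nat_lit 4))
 (.p (nat_lit 0x8f6611702) (nat_lit 0x3562621b0000100040000) (nat_lit 50))))))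

def c512_467 : Tr := .n c1024_467 c1024_979

def c256_211 : Tr := .n c512_211 c512_467

def c128_83 : Tr := .n c256_83 c256_211

def c64_19 : Tr := .n c128_19 c128_83

def c1024_51 : Tr :=
 .n (.n (.n (.n (.n (.n (.p (nat_lit 0x2c003b02) (nat_lit 0x1000600001) (nat_lit 17))
 (.p (nat_lit 0x634612f02) (nat_lit 0x35486a1b0000000040000) (nat_lit 49)))
 (.p (nat_lit 0x2b9e2b9c2b9a2b982b94020d2b9707) (nat_lit 0x10090f) (nat_lit 7)))
 (.n (.p (nat_lit 0xfae1b4902) (nat_lit 0x540303) (nat_lit 4))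
 (.p (nat_lit 0x1c0a132302) (nat_lit 0x82a) (nat_lit 5))))
 (.n (.n (.p (nat_lit 0x1d0c1d0a1d081d061a671a5d06) (nat_lit 0x108000d4800) (nat_lit 51))
 (.p (nat_lit 0x22f2559502) (nat_lit 0x440a1c) (nat_lit 29)))
 (.n (.p (nat_lit 0x1d9a23f702) (nat_lit 0x340806) (nat_lit 5))
 (.p (nat_lit 0x5ccf5e3f02) (nat_lit 0x1e0020000600) (nat_lit 36)))))
 (.n (.n (.n (.p (nat_lit 0xec80ec60ec20ec00c990c9306) (nat_lit 0x120000ca300) (nat_lit 51))
 (.p (nat_lit 0x258854af02) (nat_lit 0x340b15) (nat_lit 29)))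
 (.n (.p (nat_lit 0x431b1ab302) (nat_lit 0x148704) (nat_lit 16))
 (.p (nat_lit 0x18a5acd02) (nat_lit 0x300510) (nat_lit 27))))
 (.n (.n (.p (nat_lit 0x1eea1ee81ee61ee21ee0002f1ee507) (nat_lit 0x200901) (nat_lit 7))
 (.p (nat_lit 0x1d6856f902) (nat_lit 0x240823) (nat_lit 29)))
 (.n (.p (nat_lit 0x3748345102) (nat_lit 0x34020a) (nat_lit 4))
 (.p (nat_lit 0x13f45f2102) (nat_lit 0x3a2570344000500040000) (nat_lit 49))))))
 (.n (.n (.n (.n (.p (nat_lit 0x5be07a302) (nat_lit 0x100100) (nat_lit 5))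
 (.p (nat_lit 0x5c80bbf02) (nat_lit 0x15) (nat_lit 4)))
 (.n (.p (nat_lit 0xb93d1102) (nat_lit 0x200104) (nat_lit 30))
 (.p (nat_lit 0x4690490702) (nat_lit 0x24022f) (nat_lit 4))))
 (.n (.n (.p (nat_lit 0x154f215702) (nat_lit 0x100b00) (nat_lit 15))
 (.p (nat_lit 0x4a4446e302) (nat_lit 0x440721) (nat_lit 5)))
 (.n (.p (nat_lit 0x17a8054302) (nat_lit 0x540607) (nat_lit 4))
 (.p (nat_lit 0x5cf35e8702) (nat_lit 0x2a0040000900) (nat_lit 36)))))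
 (.n (.n (.n (.p (nat_lit 0x1641155502) (nat_lit 0x402600) (nat_lit 16))
 (.p (nat_lit 0x314032703330e8f0d2905) (nat_lit 0x85d0001c) (nat_lit 9)))
 (.n (.p (nat_lit 0xf0010701112139229f05) (nat_lit 0x6ac40705) (nat_lit 9))
 (.p (nat_lit 0x5c9b0a4502) (nat_lit 0x220000000200) (nat_lit 38))))
 (.n (.n (.p (nat_lit 0x1ef418b902) (nat_lit 0x400902) (nat_lit 4))
 (.p (nat_lit 0x4590479d02) (nat_lit 0x540128) (nat_lit 5)))
 (.n (.p (nat_lit 0xbd40bce0bcc0bca0f7d0f7b06) (nat_lit 0xc0000c030e) (nat_lit 52))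
 (.p (nat_lit 0x13ea602702) (nat_lit 0x406a62335000500040000) (nat_lit 49))))))

def c1024_563 : Tr :=
 .n (.n (.n (.n (.n (.n (.p (nat_lit 0x364037302) (nat_lit 0x1000600020) (nat_lit 17))
 (.p (nat_lit 0x207261a702) (nat_lit 0x3421a9c14800400000600) (nat_lit 49)))
 (.p (nat_lit 0x43753bd102) (nat_lit 0x354b11) (nat_lit 16)))
 (.n (.p (nat_lit 0x1e721e701e6e1e6c1e6821c306) (nat_lit 0x100008ea03) (nat_lit 51))
 (.p (nat_lit 0x39ce39cc39ca39c839c632c706) (nat_lit 0x1000001692c) (nat_lit 52))))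
 (.n (.n (.p (nat_lit 0x1e8c207702) (nat_lit 0xa00) (nat_lit 5))
 (.p (nat_lit 0x3b0c383502) (nat_lit 0x400a1f) (nat_lit 5)))
 (.n (.p (nat_lit 0xe0a0e080e060e040e0001430e0307) (nat_lit 0x100307) (nat_lit 7))
 (.p (nat_lit 0x5d97181502) (nat_lit 0x1600a0000700) (nat_lit 38)))))
 (.n (.n (.n (.p (nat_lit 0x12850f6502) (nat_lit 0x454400) (nat_lit 16))
 (.p (nat_lit 0x3ff43ff23ff03fee3fec408f06) (nat_lit 0x80008c419) (nat_lit 52)))
 (.n (.p (nat_lit 0x11270e5902) (nat_lit 0x200305) (nat_lit 15))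
 (.p (nat_lit 0x5c785c765c745c725c700143049a07) (nat_lit 0x11612d) (nat_lit 25))))
 (.n (.n (.p (nat_lit 0x762199f02) (nat_lit 0x540002) (nat_lit 4))
 (.p (nat_lit 0x335c335833563354335203e7335b07) (nat_lit 0x400a25) (nat_lit 7)))
 (.n (.p (nat_lit 0x43d643d443d243ce43cc433d06) (nat_lit 0x2000086b0b) (nat_lit 51))
 (.p (nat_lit 0x1da25fa302) (nat_lit 0x589832b44000300000600) (nat_lit 49))))))
 (.n (.n (.n (.n (.p (nat_lit 0xb8b087902) (nat_lit 0x412200) (nat_lit 16))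
 (.p (nat_lit 0x11421140113e113c113a14df06) (nat_lit 0x100000c8515) (nat_lit 52)))
 (.n (.p (nat_lit 0x151a1fa902) (nat_lit 0x540504) (nat_lit 5))
 (.p (nat_lit 0xbe00bc00b800b6008d000106) (nat_lit 0x180e604) (nat_lit 26))))
 (.n (.n (.p (nat_lit 0xcc80cc60cc40cc0003e002f002b0cc30cbf09) (nat_lit 0x1040201) (nat_lit 10))
 (.p (nat_lit 0x2735088902) (nat_lit 0xc123) (nat_lit 16)))
 (.n (.p (nat_lit 0x28d2260102) (nat_lit 0x400308) (nat_lit 4))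
 (.p (nat_lit 0x5d37233902) (nat_lit 0x160060000b00) (nat_lit 38)))))
 (.n (.n (.n (.p (nat_lit 0x19cc19ca19c619c21799179506) (nat_lit 0x50000c4700) (nat_lit 51))
 (.p (nat_lit 0x1202120011fe11fc11fa139d06) (nat_lit 0x400009451c) (nat_lit 51)))
 (.n (.p (nat_lit 0xcfa24d102) (nat_lit 0x40206) (nat_lit 5))
 (.p (nat_lit 0x5cd35e1102) (nat_lit 0x1a0020000400) (nat_lit 37))))
 (.n (.n (.p (nat_lit 0x1590158e158a15882463245d06) (nat_lit 0x4800084b02) (nat_lit 52))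
 (.p (nat_lit 0xbb00bae0baa0ba80ba60b5906) (nat_lit 0x400008422a) (nat_lit 52)))
 (.n (.p (nat_lit 0x1ed530b02) (nat_lit 0x30070e) (nat_lit 30))
 (.p (nat_lit 0xe7860a502) (nat_lit 0x346068ca4000300040000) (nat_lit 50))))))

def c512_51 : Tr := .n c1024_51 c1024_563

def c1024_307 : Tr :=
 .n (.n (.n (.n (.n (.n (.p (nat_lit 0x135012f012003) (nat_lit 0x61100006) (nat_lit 19))
 (.p (nat_lit 0x2484616502) (nat_lit 0x340c62b84000500040600) (nat_lit 49)))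
 (.p (nat_lit 0x33d82ea502) (nat_lit 0x100b10) (nat_lit 4)))
 (.n (.p (nat_lit 0x16761b7d02) (nat_lit 0x100603) (nat_lit 5))
 (.p (nat_lit 0x27422a2302) (nat_lit 0x10012b) (nat_lit 4))))
 (.n (.n (.p (nat_lit 0x1eb11bc302) (nat_lit 0x4900) (nat_lit 16))
 (.p (nat_lit 0x2e2a2fd702) (nat_lit 0x20011e) (nat_lit 5)))
 (.n (.p (nat_lit 0x2068241302) (nat_lit 0x540906) (nat_lit 5))
 (.p (nat_lit 0x5e50327902) (nat_lit 0x44700) (nat_lit 47)))))
 (.n (.n (.n (.p (nat_lit 0x108610841080107c0dfb0df706) (nat_lit 0x5000012400) (nat_lit 51))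
 (.p (nat_lit 0x284339302) (nat_lit 0x240a17) (nat_lit 1)))
 (.n (.p (nat_lit 0x62d062102) (nat_lit 0x20c005) (nat_lit 16))
 (.p (nat_lit 0x36c03680364036203ff00bd06) (nat_lit 0x140a020) (nat_lit 26))))
 (.n (.n (.p (nat_lit 0x2319205102) (nat_lit 0x540901) (nat_lit 15))
 (.p (nat_lit 0x3a9573902) (nat_lit 0x440b23) (nat_lit 30)))
 (.n (.p (nat_lit 0x3ba73b6b02) (nat_lit 0x8b0a) (nat_lit 16))
 (.p (nat_lit 0x2493248b21dd21d51f111f0b1c511c3d1983197516ad16995f660d) (nat_lit 0x3aa074b50000000040600) (nat_lit 33))))))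
 (.n (.n (.n (.n (.p (nat_lit 0x97609720970096e0725071d06) (nat_lit 0x8800050100) (nat_lit 51))
 (.p (nat_lit 0x30c124702) (nat_lit 0x340415) (nat_lit 1)))
 (.n (.p (nat_lit 0x11190e4b02) (nat_lit 0x100304) (nat_lit 15))
 (.p (nat_lit 0x3400320030002a0003046706) (nat_lit 0xa12501) (nat_lit 26))))
 (.n (.n (.p (nat_lit 0x5ee155b02) (nat_lit 0x100001) (nat_lit 5))
 (.p (nat_lit 0x5ea05e605e405e205e003a905e907) (nat_lit 0x400023) (nat_lit 7)))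
 (.n (.p (nat_lit 0x2002058502) (nat_lit 0x240907) (nat_lit 5))
 (.p (nat_lit 0x5e98458902) (nat_lit 0x20048a00) (nat_lit 48)))))
 (.n (.n (.n (.p (nat_lit 0x1817180b02) (nat_lit 0x700) (nat_lit 34))
 (.p (nat_lit 0x44a1073902) (nat_lit 0x25401c) (nat_lit 16)))
 (.n (.p (nat_lit 0x4a8c4a8a4a884a864a844a8200f01d911d8f1d8d0a) (nat_lit 0x11a40805) (nat_lit 31))
 (.p (nat_lit 0x5df4423902) (nat_lit 0x12300) (nat_lit 48))))
 (.n (.n (.p (nat_lit 0x1aea1ae81ae61ae41ae021b706) (nat_lit 0x1000010a02) (nat_lit 51))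
 (.p (nat_lit 0x50c44e9302) (nat_lit 0x440829) (nat_lit 5)))
 (.n (.p (nat_lit 0x249624942490248e248c123b06) (nat_lit 0x40000d640e) (nat_lit 51))
 (.p (nat_lit 0x636606902) (nat_lit 0x588172b40800000040000) (nat_lit 49))))))

def c1024_819 : Tr :=
 .n (.n (.n (.n (.n (.n (.p (nat_lit 0x58a05880586058404dd04db06) (nat_lit 0x1800092000) (nat_lit 51))
 (.p (nat_lit 0x1ae461e502) (nat_lit 0x14e0a8c74000200000600) (nat_lit 50)))
 (.p (nat_lit 0x485044d102) (nat_lit 0x340413) (nat_lit 5)))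
 (.n (.p (nat_lit 0x25be1d1d02) (nat_lit 0x40b03) (nat_lit 4))
 (.p (nat_lit 0x3c043c023c003bfe3bfc048f3bfb07) (nat_lit 0x40b2d) (nat_lit 7))))
 (.n (.n (.p (nat_lit 0x2240223a223822361ffb1ff906) (nat_lit 0xc0000c6a00) (nat_lit 52))
 (.p (nat_lit 0x42d7423b02) (nat_lit 0x100620) (nat_lit 15)))
 (.n (.p (nat_lit 0x292b0f7102) (nat_lit 0x44c307) (nat_lit 16))
 (.p (nat_lit 0x5d751ae902) (nat_lit 0x80080000800) (nat_lit 40)))))
 (.n (.n (.n (.p (nat_lit 0x14241420141c141a1225122106) (nat_lit 0xa000044500) (nat_lit 51))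
 (.p (nat_lit 0x48c6464302) (nat_lit 0x50051a) (nat_lit 5)))
 (.n (.p (nat_lit 0x169416921690168e168c00ed169707) (nat_lit 0x500605) (nat_lit 7))
 (.p (nat_lit 0x5dc249d302) (nat_lit 0xa0014000) (nat_lit 47))))
 (.n (.n (.p (nat_lit 0x2fd22fcc2fca2fc80e390e3706) (nat_lit 0xc000080302) (nat_lit 51))
 (.p (nat_lit 0x3d7040a502) (nat_lit 0x127) (nat_lit 5)))
 (.n (.p (nat_lit 0x4e244b4f02) (nat_lit 0x54030d) (nat_lit 4))
 (.p (nat_lit 0x8ea5fe902) (nat_lit 0x306a81d31000100040000) (nat_lit 49))))))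
 (.n (.n (.n (.n (.p (nat_lit 0xd340d300d2e0d2c0d2a0b3706) (nat_lit 0x8000080300) (nat_lit 51))
 (.p (nat_lit 0x1bee546902) (nat_lit 0x400815) (nat_lit 29)))
 (.n (.p (nat_lit 0x16ac16aa16a816a616a417fd06) (nat_lit 0x100000cc604) (nat_lit 51))
 (.p (nat_lit 0x1495a0f02) (nat_lit 0x400707) (nat_lit 28))))
 (.n (.n (.p (nat_lit 0x352a8502) (nat_lit 0x540501) (nat_lit 30))
 (.p (nat_lit 0xcb056c302) (nat_lit 0x540223) (nat_lit 29)))
 (.n (.p (nat_lit 0x18c618c418c218c018bc300d06) (nat_lit 0x1000092309) (nat_lit 52))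
 (.p (nat_lit 0x1ae05edf02) (nat_lit 0x4a9d22344000200000600) (nat_lit 50)))))
 (.n (.n (.n (.p (nat_lit 0x1b901b8e1b8a1b8818ff18f906) (nat_lit 0x480008c800) (nat_lit 51))
 (.p (nat_lit 0x307555102) (nat_lit 0x81c) (nat_lit 30)))
 (.n (.p (nat_lit 0x1200125013b252b23d505) (nat_lit 0x21c00706) (nat_lit 9))
 (.p (nat_lit 0x5cff5e2b02) (nat_lit 0x1e0040000500) (nat_lit 37))))
 (.n (.n (.p (nat_lit 0x8c0356902) (nat_lit 0x400103) (nat_lit 29))
 (.p (nat_lit 0x117411721170116e116c0e1906) (nat_lit 0x80000232a) (nat_lit 51)))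
 (.n (.p (nat_lit 0x4566456445624560455e216d06) (nat_lit 0x80000ca0e) (nat_lit 52))
 (.p (nat_lit 0x13fc60ed02) (nat_lit 0x340d6a3a4000500040000) (nat_lit 50))))))

def c512_307 : Tr := .n c1024_307 c1024_819

def c256_51 : Tr := .n c512_51 c512_307

def c1024_179 : Tr :=
 .n (.n (.n (.n (.n (.n (.p (nat_lit 0xbc00b600b400c104) (nat_lit 0x9800400004) (nat_lit 17))
 (.p (nat_lit 0xbac614d02) (nat_lit 0x3b0221d85000200040000) (nat_lit 49)))
 (.p (nat_lit 0x18c618c418c018be18bc317906) (nat_lit 0x40000d2410) (nat_lit 52)))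
 (.n (.p (nat_lit 0x391839163912390e126b126706) (nat_lit 0x5000042403) (nat_lit 51))
 (.p (nat_lit 0x219c134f02) (nat_lit 0xa2a) (nat_lit 5))))
 (.n (.n (.p (nat_lit 0x1de61de41dde1ddc1bc91bc706) (nat_lit 0x6000082900) (nat_lit 51))
 (.p (nat_lit 0x2ae272902) (nat_lit 0x11d) (nat_lit 1)))
 (.n (.p (nat_lit 0x50bb1d9f02) (nat_lit 0x546806) (nat_lit 16))
 (.p (nat_lit 0x5d795e4902) (nat_lit 0x40080000600) (nat_lit 37)))))
 (.n (.n (.n (.p (nat_lit 0xfe50fd902) (nat_lit 0x200400) (nat_lit 34))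
 (.p (nat_lit 0x2c40286102) (nat_lit 0x200a16) (nat_lit 5)))
 (.n (.p (nat_lit 0x25d21e8902) (nat_lit 0x440b04) (nat_lit 4))
 (.p (nat_lit 0x2525b4b02) (nat_lit 0x200019) (nat_lit 27))))
 (.n (.n (.p (nat_lit 0x1efb1ee302) (nat_lit 0x114901) (nat_lit 16))
 (.p (nat_lit 0x410219902) (nat_lit 0x400a23) (nat_lit 1)))
 (.n (.p (nat_lit 0x19d523d02) (nat_lit 0x24040a) (nat_lit 30))
 (.p (nat_lit 0x6345f4302) (nat_lit 0x1a1d22350000000040000) (nat_lit 49))))))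
 (.n (.n (.n (.n (.p (nat_lit 0x89f05c702) (nat_lit 0x50a100) (nat_lit 16))
 (.p (nat_lit 0x96a0966096409600731072b06) (nat_lit 0x90000ce015) (nat_lit 51)))
 (.n (.p (nat_lit 0x3e423e403e3e3e3c3e380b8506) (nat_lit 0x100000c204) (nat_lit 51))
 (.p (nat_lit 0x4d004f4702) (nat_lit 0x200230) (nat_lit 4))))
 (.n (.n (.p (nat_lit 0x252c252a2528252622bd22bb06) (nat_lit 0x180004eb00) (nat_lit 51))
 (.p (nat_lit 0x567a56785676567456725670039e07) (nat_lit 0x40722) (nat_lit 8)))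
 (.n (.p (nat_lit 0x1bd4056302) (nat_lit 0x300807) (nat_lit 4))
 (.p (nat_lit 0x5d915e9302) (nat_lit 0x1c00a0000900) (nat_lit 37)))))
 (.n (.n (.n (.p (nat_lit 0x17541750174e174c16b916b106) (nat_lit 0x8800050600) (nat_lit 51))
 (.p (nat_lit 0x314033303230d2f0e9505) (nat_lit 0xaca4001c) (nat_lit 9)))
 (.n (.p (nat_lit 0xe34a6102) (nat_lit 0x805) (nat_lit 30))
 (.p (nat_lit 0x5d350a4b02) (nat_lit 0x180060000200) (nat_lit 38))))
 (.n (.n (.p (nat_lit 0x1d021d001cfe1cfc1cfa205306) (nat_lit 0x800054902) (nat_lit 51))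
 (.p (nat_lit 0x23d623d423d223d023cc4c0f06) (nat_lit 0x100000e129) (nat_lit 52)))
 (.n (.p (nat_lit 0x233c233a23382336233210dd06) (nat_lit 0x100001640e) (nat_lit 52))
 (.p (nat_lit 0x8fe604902) (nat_lit 0x406a6254c800100040000) (nat_lit 50))))))

def c1024_691 : Tr :=
 .n (.n (.n (.n (.n (.n (.p (nat_lit 0x4da04cf02) (nat_lit 0x0) (nat_lit 5))
 (.p (nat_lit 0x234461c502) (nat_lit 0x3421684a0800500000600) (nat_lit 50)))
 (.p (nat_lit 0x42243dbf02) (nat_lit 0x200612) (nat_lit 4)))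
 (.n (.p (nat_lit 0x2472246c246a246800ae008f008d2471246f09) (nat_lit 0x2300b03) (nat_lit 10))
 (.p (nat_lit 0x8836d102) (nat_lit 0x10022d) (nat_lit 1))))
 (.n (.n (.p (nat_lit 0x21522150214a21481e931e9106) (nat_lit 0x6000090a00) (nat_lit 51))
 (.p (nat_lit 0x1ff01fee1fec1fea1fe83c5f06) (nat_lit 0x800096020) (nat_lit 51)))
 (.n (.p (nat_lit 0x46e70e0102) (nat_lit 0x14307) (nat_lit 16))
 (.p (nat_lit 0x5ccd1c3d02) (nat_lit 0x200020000800) (nat_lit 39)))))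
 (.n (.n (.n (.p (nat_lit 0x132c13261324132210cb10c906) (nat_lit 0xc000010500) (nat_lit 51))
 (.p (nat_lit 0xa7c0a7a0a780a760a74427f06) (nat_lit 0x10000048619) (nat_lit 52)))
 (.n (.p (nat_lit 0x483c483a483848344832128106) (nat_lit 0x20000ce405) (nat_lit 52))
 (.p (nat_lit 0x5db43b6d02) (nat_lit 0x20010000) (nat_lit 48))))
 (.n (.n (.p (nat_lit 0xa1b0a0f02) (nat_lit 0x352102) (nat_lit 16))
 (.p (nat_lit 0x36ca38a302) (nat_lit 0x400226) (nat_lit 5)))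
 (.n (.p (nat_lit 0x4972446d02) (nat_lit 0x40060c) (nat_lit 5))
 (.p (nat_lit 0x181c5fcd02) (nat_lit 0x95832b05000100000600) (nat_lit 50))))))
 (.n (.n (.n (.n (.p (nat_lit 0xc6a0c660c640c6209d509cd06) (nat_lit 0x8800054200) (nat_lit 51))
 (.p (nat_lit 0x17c00abb02) (nat_lit 0x540615) (nat_lit 5)))
 (.n (.p (nat_lit 0x2080207c207a20782076168906) (nat_lit 0x8000014604) (nat_lit 51))
 (.p (nat_lit 0xed59c102) (nat_lit 0x500805) (nat_lit 28))))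
 (.n (.n (.p (nat_lit 0x299510f502) (nat_lit 0x102401) (nat_lit 16))
 (.p (nat_lit 0x9f709eb02) (nat_lit 0x340123) (nat_lit 16)))
 (.n (.p (nat_lit 0x6620660065e065c06582b8b06) (nat_lit 0x1000004908) (nat_lit 51))
 (.p (nat_lit 0x5ec221b302) (nat_lit 0xa000eb00) (nat_lit 48)))))
 (.n (.n (.n (.p (nat_lit 0x1a85179702) (nat_lit 0x244700) (nat_lit 16))
 (.p (nat_lit 0x1929165102) (nat_lit 0x61c) (nat_lit 15)))
 (.n (.p (nat_lit 0x13e5113502) (nat_lit 0x300406) (nat_lit 15))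
 (.p (nat_lit 0x5e1c0fe902) (nat_lit 0x80000400) (nat_lit 46))))
 (.n (.n (.p (nat_lit 0x178e178c178a1788178625bd06) (nat_lit 0x100000d4b02) (nat_lit 52))
 (.p (nat_lit 0xd1c0d1a0d180d160d120cb506) (nat_lit 0x100004622a) (nat_lit 51)))
 (.n (.p (nat_lit 0x1d46097f02) (nat_lit 0x34080e) (nat_lit 5))
 (.p (nat_lit 0xbb660cf02) (nat_lit 0x35056a3a4000200040000) (nat_lit 50))))))

def c512_179 : Tr := .n c1024_179 c1024_691

def c1024_435 : Tr :=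
 .n (.n (.n (.n (.n (.n (.p (nat_lit 0x28402820280028d04) (nat_lit 0x3800400015) (nat_lit 17))
 (.p (nat_lit 0x1ade618702) (nat_lit 0x54c88a970000200000600) (nat_lit 49)))
 (.p (nat_lit 0x1b841b821b801b7c1b7a397706) (nat_lit 0x200004c411) (nat_lit 51)))
 (.n (.p (nat_lit 0x17f017ea17e817e600ae008f008d17ef17ed09) (nat_lit 0x2340603) (nat_lit 10))
 (.p (nat_lit 0x14221420141e141c141a2bcf06) (nat_lit 0x1000000492b) (nat_lit 51))))
 (.n (.n (.p (nat_lit 0x1fb41fb01fae1fac1faa1d3106) (nat_lit 0x800004c900) (nat_lit 51))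
 (.p (nat_lit 0x1d021d001cfe1cfc1cfa34bf06) (nat_lit 0x80001401f) (nat_lit 51)))
 (.n (.p (nat_lit 0x82a0828082408200b410b3d06) (nat_lit 0x5000090207) (nat_lit 52))
 (.p (nat_lit 0x5d31197702) (nat_lit 0x1c0060000700) (nat_lit 39)))))
 (.n (.n (.n (.p (nat_lit 0x1168116411621160115e0f6506) (nat_lit 0x80000c0400) (nat_lit 51))
 (.p (nat_lit 0x3a6e368902) (nat_lit 0x440518) (nat_lit 5)))
 (.n (.p (nat_lit 0xb92221902) (nat_lit 0x200205) (nat_lit 4))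
 (.p (nat_lit 0x3da03d403d203d0042303e706) (nat_lit 0x1c14824) (nat_lit 26))))
 (.n (.n (.p (nat_lit 0x11a231702) (nat_lit 0x440a01) (nat_lit 1))
 (.p (nat_lit 0x2bba297702) (nat_lit 0x100924) (nat_lit 5)))
 (.n (.p (nat_lit 0x1fca1fc81fc61fc41fc2401906) (nat_lit 0x1000004e30b) (nat_lit 52))
 (.p (nat_lit 0x8fa5f8502) (nat_lit 0x581a32b44000100040000) (nat_lit 50))))))
 (.n (.n (.n (.n (.p (nat_lit 0xa720a700a6e0a6c0873087106) (nat_lit 0x1800080200) (nat_lit 51))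
 (.p (nat_lit 0xe820e800e7e0e7a0e78138f06) (nat_lit 0x2000086515) (nat_lit 51)))
 (.n (.p (nat_lit 0x12781e2902) (nat_lit 0x440404) (nat_lit 4))
 (.p (nat_lit 0x8b591302) (nat_lit 0x200003) (nat_lit 28))))
 (.n (.n (.p (nat_lit 0x9fc16df02) (nat_lit 0x40101) (nat_lit 5))
 (.p (nat_lit 0x9e7074302) (nat_lit 0x140023) (nat_lit 15)))
 (.n (.p (nat_lit 0x14751d302) (nat_lit 0x300b07) (nat_lit 30))
 (.p (nat_lit 0x5d8d21e302) (nat_lit 0x2000a0000a00) (nat_lit 41)))))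
 (.n (.n (.n (.p (nat_lit 0x18f618f418f218ec1625162306) (nat_lit 0x3000096700) (nat_lit 51))
 (.p (nat_lit 0x9de0d4902) (nat_lit 0x34011c) (nat_lit 5)))
 (.n (.p (nat_lit 0x4ba64ba44ba24ba04b9e4b9c011e07) (nat_lit 0x106) (nat_lit 8))
 (.p (nat_lit 0x5d770d0f02) (nat_lit 0x60080000300) (nat_lit 38))))
 (.n (.n (.p (nat_lit 0x16ae16ac16aa16a816a6231b06) (nat_lit 0x8000cca02) (nat_lit 51))
 (.p (nat_lit 0x9f057a902) (nat_lit 0x4012a) (nat_lit 29)))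
 (.n (.p (nat_lit 0x14d014ce14cc14ca14c801f114d307) (nat_lit 0x54050e) (nat_lit 7))
 (.p (nat_lit 0x8f2608b02) (nat_lit 0x354221ca4000100040000) (nat_lit 49))))))

def c1024_947 : Tr :=
 .n (.n (.n (.n (.n (.p (nat_lit 0x68406820680067e067c065706) (nat_lit 0x100000c6000) (nat_lit 52))
 (.p (nat_lit 0x4ea04e9c4e9a4e984e9602714e9f07) (nat_lit 0x400414) (nat_lit 7)))
 (.n (.p (nat_lit 0x3bff25c302) (nat_lit 0x24ab03) (nat_lit 16))
 (.p (nat_lit 0x143c1438143614341432425906) (nat_lit 0x800000662e) (nat_lit 52))))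
 (.n (.n (.p (nat_lit 0x231d1ff502) (nat_lit 0x14ea00) (nat_lit 16))
 (.p (nat_lit 0x212c212a212821262124441906) (nat_lit 0x1000000e021) (nat_lit 52)))
 (.n (.p (nat_lit 0x122c052702) (nat_lit 0x240407) (nat_lit 5))
 (.p (nat_lit 0x5e7a397d02) (nat_lit 0xa0042800) (nat_lit 48)))))
 (.n (.n (.n (.p (nat_lit 0x154c153502) (nat_lit 0x600) (nat_lit 4))
 (.p (nat_lit 0x4df44df24df04dee4dec4ea306) (nat_lit 0x80008041b) (nat_lit 52)))
 (.n (.p (nat_lit 0x195e212b02) (nat_lit 0x300705) (nat_lit 4))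
 (.p (nat_lit 0x5d375dd302) (nat_lit 0x160060000100) (nat_lit 36))))
 (.n (.n (.p (nat_lit 0x31483146314431423140125906) (nat_lit 0x800052402) (nat_lit 52))
 (.p (nat_lit 0x429440d102) (nat_lit 0x440627) (nat_lit 5)))
 (.n (.p (nat_lit 0x512c4b8302) (nat_lit 0x44090d) (nat_lit 4))
 (.p (nat_lit 0x180e600d02) (nat_lit 0x405aa0b54800100000600) (nat_lit 49))))))
 (.n (.n (.n (.n (.p (nat_lit 0xe2d0b3702) (nat_lit 0x40c300) (nat_lit 16))
 (.p (nat_lit 0x217a0c6302) (nat_lit 0x100a15) (nat_lit 5)))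
 (.n (.p (nat_lit 0x1b821b801b7e1b7c1b7a195706) (nat_lit 0x1000000c704) (nat_lit 51))
 (.p (nat_lit 0x5a6c5a6a5a685a665a64046701e407) (nat_lit 0x20e40d) (nat_lit 25))))
 (.n (.n (.p (nat_lit 0x2b051c1f02) (nat_lit 0x400801) (nat_lit 16))
 (.p (nat_lit 0x17e517d902) (nat_lit 0x540623) (nat_lit 16)))
 (.n (.p (nat_lit 0x33282d7702) (nat_lit 0x300a09) (nat_lit 4))
 (.p (nat_lit 0x15345f0d02) (nat_lit 0x3a2530344000000000600) (nat_lit 49)))))
 (.n (.n (.n (.p (nat_lit 0x1a621c4d02) (nat_lit 0x340800) (nat_lit 5))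
 (.p (nat_lit 0x1ec61ec41ec01ebe031c030d03071ec31ebd09) (nat_lit 0x180091c) (nat_lit 10)))
 (.n (.p (nat_lit 0x113502d02) (nat_lit 0x806) (nat_lit 30))
 (.p (nat_lit 0x5da75e3502) (nat_lit 0x600a0000500) (nat_lit 36))))
 (.n (.n (.p (nat_lit 0xb801c8d02) (nat_lit 0x500203) (nat_lit 4))
 (.p (nat_lit 0x1672166c166a1668045e043d043b1671166f09) (nat_lit 0x230062a) (nat_lit 10)))
 (.n (.p (nat_lit 0x3bd3257f02) (nat_lit 0x450b0e) (nat_lit 16))
 (.p (nat_lit 0x648611102) (nat_lit 0x3425221b0000000040000) (nat_lit 50))))))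

def c512_435 : Tr := .n c1024_435 c1024_947

def c256_179 : Tr := .n c512_179 c512_435

def c128_51 : Tr := .n c256_51 c256_179

def c1024_115 : Tr :=
 .n (.n (.n (.n (.n (.n (.p (nat_lit 0x75006d006603) (nat_lit 0x40800002) (nat_lit 19))
 (.p (nat_lit 0x8fe613d02) (nat_lit 0x342a21d84000100040000) (nat_lit 50)))
 (.p (nat_lit 0x30962dbf02) (nat_lit 0x40310) (nat_lit 4)))
 (.n (.p (nat_lit 0x388c388a388838863884388206) (nat_lit 0x2403) (nat_lit 52))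
 (.p (nat_lit 0x1ed8148902) (nat_lit 0x20092a) (nat_lit 4))))
 (.n (.n (.p (nat_lit 0x1d731a5f02) (nat_lit 0x14a800) (nat_lit 16))
 (.p (nat_lit 0x33ef243b02) (nat_lit 0x10eb1c) (nat_lit 16)))
 (.n (.p (nat_lit 0x16a216a0169e169c169a1d9506) (nat_lit 0x8000cc806) (nat_lit 52))
 (.p (nat_lit 0x5e4016a902) (nat_lit 0x40040600) (nat_lit 46)))))
 (.n (.n (.n (.p (nat_lit 0xf6f0c9502) (nat_lit 0x340300) (nat_lit 16))
 (.p (nat_lit 0x15e215de15dc15da15d82aed06) (nat_lit 0x8000050516) (nat_lit 52)))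
 (.n (.p (nat_lit 0x2270226e226c22662479247706) (nat_lit 0x300008ab04) (nat_lit 51))
 (.p (nat_lit 0x3105b0f02) (nat_lit 0x500415) (nat_lit 27))))
 (.n (.n (.p (nat_lit 0x153e153c153a153815361ee106) (nat_lit 0x80000c901) (nat_lit 52))
 (.p (nat_lit 0x4041ed302) (nat_lit 0x500923) (nat_lit 1)))
 (.n (.p (nat_lit 0x386034f302) (nat_lit 0x34030a) (nat_lit 4))
 (.p (nat_lit 0x23445f3502) (nat_lit 0x3a2560c44000500000600) (nat_lit 50))))))
 (.n (.n (.n (.n (.p (nat_lit 0x7da07d807d607d205c105bd06) (nat_lit 0x2800088100) (nat_lit 51))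
 (.p (nat_lit 0x4b1105c902) (nat_lit 0x16015) (nat_lit 16)))
 (.n (.p (nat_lit 0x3dc43dc23dc03dbe3dbc3dba06) (nat_lit 0x4c104) (nat_lit 52))
 (.p (nat_lit 0x4f9c4f9a4f984f964f9449a306) (nat_lit 0x1000009062f) (nat_lit 52))))
 (.n (.n (.p (nat_lit 0x248e248222bd03) (nat_lit 0x140b00) (nat_lit 6))
 (.p (nat_lit 0x255c255a2558255625544b8506) (nat_lit 0x800052022) (nat_lit 52)))
 (.n (.p (nat_lit 0x1949190d02) (nat_lit 0x408707) (nat_lit 16))
 (.p (nat_lit 0x5d7d1da902) (nat_lit 0x80000900) (nat_lit 38)))))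
 (.n (.n (.n (.p (nat_lit 0x16aa169e16b703) (nat_lit 0x340600) (nat_lit 6))
 (.p (nat_lit 0x1c441c421c401c3e1c3a05d706) (nat_lit 0x100009001c) (nat_lit 52)))
 (.n (.p (nat_lit 0x18141812180e180c180a1ac306) (nat_lit 0x400004e705) (nat_lit 52))
 (.p (nat_lit 0x5ccf0ba902) (nat_lit 0x1e0020000200) (nat_lit 39))))
 (.n (.n (.p (nat_lit 0x5932c902) (nat_lit 0x40902) (nat_lit 30))
 (.p (nat_lit 0x4a48483302) (nat_lit 0x40728) (nat_lit 4)))
 (.n (.p (nat_lit 0xd1c0d180d160d140d1210e306) (nat_lit 0x800000640e) (nat_lit 51))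
 (.p (nat_lit 0x12a8603702) (nat_lit 0x4a9d80b44000500000000) (nat_lit 50))))))

def c1024_627 : Tr :=
 .n (.n (.n (.n (.n (.n (.p (nat_lit 0x4240420041c042904) (nat_lit 0xa800400029) (nat_lit 17))
 (.p (nat_lit 0x233461b502) (nat_lit 0x322266c15000500000600) (nat_lit 49)))
 (.p (nat_lit 0x1e5a1e581e561e541e50410306) (nat_lit 0x10000cc412) (nat_lit 51)))
 (.n (.p (nat_lit 0x1e1e1e1c1e1a1e181e14232906) (nat_lit 0x1000048a03) (nat_lit 52))
 (.p (nat_lit 0x33ba326102) (nat_lit 0x440a2c) (nat_lit 4))))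
 (.n (.n (.p (nat_lit 0x211621142110210e210c1e9306) (nat_lit 0x400000ca00) (nat_lit 52))
 (.p (nat_lit 0x3b9f3b9302) (nat_lit 0x20ab1f) (nat_lit 16)))
 (.n (.p (nat_lit 0x15461544154215400e0b0e0906) (nat_lit 0x1800000c307) (nat_lit 51))
 (.p (nat_lit 0x5c951c3b02) (nat_lit 0x280000000800) (nat_lit 39)))))
 (.n (.n (.n (.p (nat_lit 0x12c212c012bc12ba10c910c306) (nat_lit 0x4800082500) (nat_lit 52))
 (.p (nat_lit 0x1e661e641e621e601e5c420506) (nat_lit 0x100004e519) (nat_lit 51)))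
 (.n (.p (nat_lit 0x1122224302) (nat_lit 0x405) (nat_lit 4))
 (.p (nat_lit 0x5c935daf02) (nat_lit 0x2a0000000000) (nat_lit 37))))
 (.n (.n (.p (nat_lit 0x612dbb02) (nat_lit 0x400102) (nat_lit 30))
 (.p (nat_lit 0x1d1a1d161d141d121d1035c906) (nat_lit 0x8000016126) (nat_lit 51)))
 (.n (.p (nat_lit 0x214621442140213e213c46ed06) (nat_lit 0x400001030c) (nat_lit 51))
 (.p (nat_lit 0x233e5fc102) (nat_lit 0x8982e955800500000600) (nat_lit 50))))))
 (.n (.n (.n (.n (.p (nat_lit 0xbd00bce0bcc0bca09d709d506) (nat_lit 0x180000c0200) (nat_lit 52))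
 (.p (nat_lit 0x543a54385436543454325430028c07) (nat_lit 0x615) (nat_lit 8)))
 (.n (.p (nat_lit 0xa4e0a4c0a4a0a480a46168106) (nat_lit 0x800004604) (nat_lit 52))
 (.p (nat_lit 0xec00ea00e800e20005038706) (nat_lit 0x110e305) (nat_lit 26))))
 (.n (.n (.p (nat_lit 0xf8c159f02) (nat_lit 0x40301) (nat_lit 4))
 (.p (nat_lit 0xd1a0d180d160d140d1209ef06) (nat_lit 0x10000046123) (nat_lit 51)))
 (.n (.p (nat_lit 0x2b062b042b022afe2afc01732b0107) (nat_lit 0x200808) (nat_lit 7))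
 (.p (nat_lit 0x5d655ebf02) (nat_lit 0x180080000b00) (nat_lit 36)))))
 (.n (.n (.n (.p (nat_lit 0x1a421a401a3e1a3c1a3a179306) (nat_lit 0x8000d4700) (nat_lit 52))
 (.p (nat_lit 0x101a101810161014101014e306) (nat_lit 0x10000c251c) (nat_lit 51)))
 (.n (.p (nat_lit 0xfd04de702) (nat_lit 0x440306) (nat_lit 29))
 (.p (nat_lit 0x5d315e1902) (nat_lit 0x1c0060000400) (nat_lit 37))))
 (.n (.n (.p (nat_lit 0x5b341102) (nat_lit 0x140b02) (nat_lit 30))
 (.p (nat_lit 0x21d621d221d021ce21cc0b5b06) (nat_lit 0x800009422a) (nat_lit 52)))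
 (.n (.p (nat_lit 0x1e9531f02) (nat_lit 0x10080e) (nat_lit 30))
 (.p (nat_lit 0x233660b102) (nat_lit 0x3505223a4000500000600) (nat_lit 49))))))

def c512_115 : Tr := .n c1024_115 c1024_627

def c1024_371 : Tr :=
 .n (.n (.n (.n (.n (.n (.p (nat_lit 0x1a2019c019a01a504) (nat_lit 0x1300040000a) (nat_lit 17))
 (.p (nat_lit 0x1982617702) (nat_lit 0x340c6ab84000100040600) (nat_lit 50)))
 (.p (nat_lit 0x38e653b502) (nat_lit 0x400411) (nat_lit 29)))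
 (.n (.p (nat_lit 0x18de18da18d618d4167d167906) (nat_lit 0xa000094603) (nat_lit 51))
 (.p (nat_lit 0x29302aa902) (nat_lit 0x14032b) (nat_lit 4))))
 (.n (.n (.p (nat_lit 0xbc1d3102) (nat_lit 0x440900) (nat_lit 1))
 (.p (nat_lit 0xd620d600d5e0d5c0d5a335106) (nat_lit 0x1000008aa1e) (nat_lit 52)))
 (.n (.p (nat_lit 0x143513302) (nat_lit 0x100207) (nat_lit 30))
 (.p (nat_lit 0x5d175e5902) (nat_lit 0x60040000700) (nat_lit 37)))))
 (.n (.n (.n (.p (nat_lit 0x11150dff02) (nat_lit 0x510400) (nat_lit 16))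
 (.p (nat_lit 0x35f835f635f435f235ee353f06) (nat_lit 0x10000c8018) (nat_lit 52)))
 (.n (.p (nat_lit 0x8d620a102) (nat_lit 0x300105) (nat_lit 4))
 (.p (nat_lit 0x3aa03a603a403a20001043d06) (nat_lit 0x402023) (nat_lit 26))))
 (.n (.n (.p (nat_lit 0x2c2e2c2c2c2a2c282c262c24003821ad21ab21a90a) (nat_lit 0x8800a01) (nat_lit 31))
 (.p (nat_lit 0x27aa295f02) (nat_lit 0x40124) (nat_lit 5)))
 (.n (.p (nat_lit 0x3f123c8702) (nat_lit 0x24020b) (nat_lit 5))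
 (.p (nat_lit 0x6485f7702) (nat_lit 0x3aa074b50000000040000) (nat_lit 50))))))
 (.n (.n (.n (.n (.p (nat_lit 0xa2d071d02) (nat_lit 0x54100) (nat_lit 16))
 (.p (nat_lit 0x14d9124502) (nat_lit 0x240415) (nat_lit 15)))
 (.n (.p (nat_lit 0x11181f7f02) (nat_lit 0x100404) (nat_lit 5))
 (.p (nat_lit 0x5958e302) (nat_lit 0x202) (nat_lit 28))))
 (.n (.n (.p (nat_lit 0x26822680267e267c267a267806) (nat_lit 0xc8001) (nat_lit 52))
 (.p (nat_lit 0x3a1568902) (nat_lit 0x40023) (nat_lit 30)))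
 (.n (.p (nat_lit 0x3ae9216702) (nat_lit 0x310a07) (nat_lit 16))
 (.p (nat_lit 0x5d795ea502) (nat_lit 0x40080000a00) (nat_lit 36)))))
 (.n (.n (.n (.p (nat_lit 0x18ac18a818a618a4162b162706) (nat_lit 0x1400008a700) (nat_lit 51))
 (.p (nat_lit 0xbf80bf40bf20bf00bee088506) (nat_lit 0x800000a11c) (nat_lit 51)))
 (.n (.p (nat_lit 0x1154aa302) (nat_lit 0x100006) (nat_lit 30))
 (.p (nat_lit 0x5cfb0d0b02) (nat_lit 0x220040000300) (nat_lit 38))))
 (.n (.n (.p (nat_lit 0x2320337102) (nat_lit 0x340a02) (nat_lit 29))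
 (.p (nat_lit 0x89e140d02) (nat_lit 0x50012a) (nat_lit 5)))
 (.n (.p (nat_lit 0x4ee04ec04ea04e804e6138906) (nat_lit 0x1000000450e) (nat_lit 52))
 (.p (nat_lit 0x180e607902) (nat_lit 0x4688ae154000100000600) (nat_lit 49))))))

def c1024_883 : Tr :=
 .n (.n (.n (.n (.n (.p (nat_lit 0x63304e502) (nat_lit 0x516000) (nat_lit 16))
 (.p (nat_lit 0x4a2844ef02) (nat_lit 0x240713) (nat_lit 4)))
 (.n (.p (nat_lit 0x129e129c129a1298129625bf06) (nat_lit 0x80004ab03) (nat_lit 52))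
 (.p (nat_lit 0x3f2a41c502) (nat_lit 0x34022e) (nat_lit 4))))
 (.n (.n (.p (nat_lit 0x22ac22aa22a822a61ff51ff306) (nat_lit 0x1800050a00) (nat_lit 52))
 (.p (nat_lit 0x5626562456225620561e561c036e07) (nat_lit 0xb20) (nat_lit 8)))
 (.n (.p (nat_lit 0x1418141614141412141010cf06) (nat_lit 0x800082407) (nat_lit 51))
 (.p (nat_lit 0x5e761c4302) (nat_lit 0x80040800) (nat_lit 45)))))
 (.n (.n (.n (.p (nat_lit 0x14b014ae14ac14a61221121f06) (nat_lit 0x30000d4500) (nat_lit 52))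
 (.p (nat_lit 0x49e0465d02) (nat_lit 0x71a) (nat_lit 4)))
 (.n (.p (nat_lit 0xf0011100f9227f211905) (nat_lit 0xb1840605) (nat_lit 9))
 (.p (nat_lit 0x5dca05cb02) (nat_lit 0x20006100) (nat_lit 48))))
 (.n (.n (.p (nat_lit 0xfad0fa102) (nat_lit 0x452302) (nat_lit 16))
 (.p (nat_lit 0x1e701e6e1e6c1e6a1e683dfd06) (nat_lit 0x100000ce127) (nat_lit 51)))
 (.n (.p (nat_lit 0x503c4b6102) (nat_lit 0x20080d) (nat_lit 5))
 (.p (nat_lit 0x7a65ff902) (nat_lit 0x466b80b44000100000000) (nat_lit 50))))))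
 (.n (.n (.n (.n (.p (nat_lit 0xd860d840d820d7e0b390b3106) (nat_lit 0x1100000e300) (nat_lit 51))
 (.p (nat_lit 0x285547d02) (nat_lit 0x200915) (nat_lit 30)))
 (.n (.p (nat_lit 0x194c1e5d02) (nat_lit 0x704) (nat_lit 5))
 (.p (nat_lit 0x1a2019c019a01980497023f06) (nat_lit 0x230820a) (nat_lit 26))))
 (.n (.n (.p (nat_lit 0x1c20175502) (nat_lit 0x500801) (nat_lit 5))
 (.p (nat_lit 0x4d450ca702) (nat_lit 0x56223) (nat_lit 16)))
 (.n (.p (nat_lit 0x31be31bc31ba31b831b630f306) (nat_lit 0x2000012409) (nat_lit 51))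
 (.p (nat_lit 0xd1c5eed02) (nat_lit 0x4a1d84344000300000000) (nat_lit 50)))))
 (.n (.n (.n (.p (nat_lit 0x1be118ff02) (nat_lit 0x302800) (nat_lit 16))
 (.p (nat_lit 0x3541d5f02) (nat_lit 0x34081c) (nat_lit 1)))
 (.n (.p (nat_lit 0x1ace253502) (nat_lit 0x340706) (nat_lit 5))
 (.p (nat_lit 0x5e2c10d502) (nat_lit 0x60002500) (nat_lit 48))))
 (.n (.n (.p (nat_lit 0x9135e102) (nat_lit 0x540103) (nat_lit 30))
 (.p (nat_lit 0x115c11581156115411520f8906) (nat_lit 0x800004032a) (nat_lit 51)))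
 (.n (.p (nat_lit 0x242a242624242422242001ef242907) (nat_lit 0x400b0e) (nat_lit 7))
 (.p (nat_lit 0x1ae060f902) (nat_lit 0x460d623a4000200000600) (nat_lit 50))))))

def c512_371 : Tr := .n c1024_371 c1024_883

def c256_115 : Tr := .n c512_115 c512_371

def c1024_243 : Tr :=
 .n (.n (.n (.n (.n (.n (.p (nat_lit 0xec00e800e600ef04) (nat_lit 0x16000400005) (nat_lit 17))
 (.p (nat_lit 0x1dac615902) (nat_lit 0x352829d84000300000600) (nat_lit 50)))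
 (.p (nat_lit 0x32e42e8702) (nat_lit 0x440910) (nat_lit 5)))
 (.n (.p (nat_lit 0x60b13c102) (nat_lit 0x300503) (nat_lit 15))
 (.p (nat_lit 0x230a136302) (nat_lit 0x440a2a) (nat_lit 5))))
 (.n (.n (.p (nat_lit 0x1e661e641e621e5c1bc71bc506) (nat_lit 0x300000e900) (nat_lit 51))
 (.p (nat_lit 0xea60ea40ea20ea00e9c2c0306) (nat_lit 0x100004291d) (nat_lit 52)))
 (.n (.p (nat_lit 0x2288228422822280227e1f0106) (nat_lit 0x800008c906) (nat_lit 51))
 (.p (nat_lit 0x5e4c196f02) (nat_lit 0xa0014600) (nat_lit 47)))))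
 (.n (.n (.n (.p (nat_lit 0x101a1018101610141012101006) (nat_lit 0x82400) (nat_lit 51))
 (.p (nat_lit 0x1a421a401a3e1a3c1a3a327906) (nat_lit 0x8000d4517) (nat_lit 52)))
 (.n (.p (nat_lit 0x436d25d302) (nat_lit 0x440b04) (nat_lit 16))
 (.p (nat_lit 0x310030e030803060367000706) (nat_lit 0x131201c) (nat_lit 26))))
 (.n (.n (.p (nat_lit 0xd100d0c0d0a0d080d06204f06) (nat_lit 0x8000046901) (nat_lit 52))
 (.p (nat_lit 0x244a10b102) (nat_lit 0x300b23) (nat_lit 4)))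
 (.n (.p (nat_lit 0x3ae4525f02) (nat_lit 0x100a0a) (nat_lit 29))
 (.p (nat_lit 0x20725f5902) (nat_lit 0x1a2262350000400000600) (nat_lit 49))))))
 (.n (.n (.n (.n (.p (nat_lit 0x90a0906090409000725071f06) (nat_lit 0x9000046100) (nat_lit 51))
 (.p (nat_lit 0xd280d260d240d220d1e10e906) (nat_lit 0x1000000415) (nat_lit 52)))
 (.n (.p (nat_lit 0x3ebc3eba3eb83eb63eb40ce306) (nat_lit 0x8000c8204) (nat_lit 51))
 (.p (nat_lit 0x33588902) (nat_lit 0x400001) (nat_lit 28))))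
 (.n (.n (.p (nat_lit 0x16b122bb02) (nat_lit 0x40b00) (nat_lit 15))
 (.p (nat_lit 0x50b24dab02) (nat_lit 0x140822) (nat_lit 5)))
 (.n (.p (nat_lit 0x1d3a056f02) (nat_lit 0x340807) (nat_lit 4))
 (.p (nat_lit 0x5e96484b02) (nat_lit 0x42a00) (nat_lit 47)))))
 (.n (.n (.n (.p (nat_lit 0x1790178e178c178a1788178606) (nat_lit 0xd4600) (nat_lit 52))
 (.p (nat_lit 0x181e181c181a18181816073f06) (nat_lit 0x1000004e01c) (nat_lit 51)))
 (.n (.p (nat_lit 0x1e721e6e1e6c1e6a1e681c2b06) (nat_lit 0x800008e805) (nat_lit 51))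
 (.p (nat_lit 0x5d530baf02) (nat_lit 0x2a0080000200) (nat_lit 39))))
 (.n (.n (.p (nat_lit 0x63e063c063a0638063621b506) (nat_lit 0x800080a02) (nat_lit 52))
 (.p (nat_lit 0x4fe64ee902) (nat_lit 0x729) (nat_lit 4)))
 (.n (.p (nat_lit 0xbae0bac0baa0ba80ba6123f06) (nat_lit 0x100000c440e) (nat_lit 52))
 (.p (nat_lit 0xe72605702) (nat_lit 0x506272b31000300040000) (nat_lit 49))))))

def c1024_755 : Tr :=
 .n (.n (.n (.n (.n (.n (.p (nat_lit 0x50805060504050204dd04db06) (nat_lit 0x1800006000) (nat_lit 52))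
 (.p (nat_lit 0x180a61d702) (nat_lit 0x542266c0c800100000600) (nat_lit 49)))
 (.p (nat_lit 0x53f253f053ee53ec53ea53e8025a07) (nat_lit 0x40b12) (nat_lit 8)))
 (.n (.p (nat_lit 0x197a1974197219702471246f06) (nat_lit 0xc00008eb03) (nat_lit 52))
 (.p (nat_lit 0x37e63a4302) (nat_lit 0x50032d) (nat_lit 4))))
 (.n (.n (.p (nat_lit 0x21cb1e9702) (nat_lit 0x510a00) (nat_lit 16))
 (.p (nat_lit 0x3dee55f502) (nat_lit 0x440120) (nat_lit 29)))
 (.n (.p (nat_lit 0x16a216a0169c169a16980f6f06) (nat_lit 0x40000cc307) (nat_lit 52))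
 (.p (nat_lit 0x5e6e397702) (nat_lit 0x40042800) (nat_lit 48)))))
 (.n (.n (.n (.p (nat_lit 0x13d110cd02) (nat_lit 0x512500) (nat_lit 16))
 (.p (nat_lit 0x45ea45e845e445e245e0438106) (nat_lit 0x400004eb19) (nat_lit 51)))
 (.n (.p (nat_lit 0x1524210902) (nat_lit 0x440505) (nat_lit 4))
 (.p (nat_lit 0x5dba503f02) (nat_lit 0x60016000) (nat_lit 47))))
 (.n (.n (.p (nat_lit 0xcd40cd00cce0cca00780061005b0cd30ccd09) (nat_lit 0x2140202) (nat_lit 10))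
 (.p (nat_lit 0x3ba43ba23ba03b9e3b9a03ef3b9d07) (nat_lit 0x100b26) (nat_lit 7)))
 (.n (.p (nat_lit 0x4a6c448702) (nat_lit 0x80c) (nat_lit 5))
 (.p (nat_lit 0xe7c5fd702) (nat_lit 0x3842a1c35000300040000) (nat_lit 50))))))
 (.n (.n (.n (.n (.p (nat_lit 0xcfb09cd02) (nat_lit 0x56200) (nat_lit 16))
 (.p (nat_lit 0x1931192502) (nat_lit 0x408715) (nat_lit 16)))
 (.n (.p (nat_lit 0x17fc17fa17f617f200d000bb00b717f917f509) (nat_lit 0x1940604) (nat_lit 10))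
 (.p (nat_lit 0x118011601140112000b003306) (nat_lit 0x2c10706) (nat_lit 26))))
 (.n (.n (.p (nat_lit 0x13a615c502) (nat_lit 0x200501) (nat_lit 5))
 (.p (nat_lit 0xd340d320d2e0d2c0d2a0b4d06) (nat_lit 0x4000080223) (nat_lit 51)))
 (.n (.p (nat_lit 0x300d2f3102) (nat_lit 0x100209) (nat_lit 15))
 (.p (nat_lit 0x180e5ed302) (nat_lit 0x4a1a36344000100000600) (nat_lit 49)))))
 (.n (.n (.n (.p (nat_lit 0x190218fe18fc18f8001a00090003190118fb09) (nat_lit 0x2100800) (nat_lit 10))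
 (.p (nat_lit 0x1932192e192c19280326030f03091931192b09) (nat_lit 0x210071c) (nat_lit 10)))
 (.n (.p (nat_lit 0x13e023c302) (nat_lit 0x100506) (nat_lit 5))
 (.p (nat_lit 0x5cb1129502) (nat_lit 0xc0000000500) (nat_lit 38))))
 (.n (.n (.p (nat_lit 0x76a1c6502) (nat_lit 0x340003) (nat_lit 4))
 (.p (nat_lit 0x248a24862484248224800cbb06) (nat_lit 0x80000d622a) (nat_lit 52)))
 (.n (.p (nat_lit 0x3d8e3d8c3d8a3d881eab1ea706) (nat_lit 0x500000690e) (nat_lit 51))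
 (.p (nat_lit 0x13ee60d902) (nat_lit 0x3542623b0000500040000) (nat_lit 49))))))

def c512_243 : Tr := .n c1024_243 c1024_755

def c1024_499 : Tr :=
 .n (.n (.n (.n (.n (.n (.p (nat_lit 0x310030a0308031304) (nat_lit 0x1300040001c) (nat_lit 17))
 (.p (nat_lit 0x8fc619b02) (nat_lit 0x340aa5c14800100040000) (nat_lit 50)))
 (.p (nat_lit 0x3b803b7e3b7c3b7a3b76023b3b7907) (nat_lit 0x100b11) (nat_lit 7)))
 (.n (.p (nat_lit 0x893ad902) (nat_lit 0x100a03) (nat_lit 30))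
 (.p (nat_lit 0x2faa321f02) (nat_lit 0x34022c) (nat_lit 4))))
 (.n (.n (.p (nat_lit 0x1ff01fee1fe81fe61d2f1d2d06) (nat_lit 0x60000d6900) (nat_lit 51))
 (.p (nat_lit 0x3634381502) (nat_lit 0x14011f) (nat_lit 4)))
 (.n (.p (nat_lit 0x14b514702) (nat_lit 0x540207) (nat_lit 30))
 (.p (nat_lit 0x5d63181302) (nat_lit 0x1a0080000700) (nat_lit 38)))))
 (.n (.n (.n (.p (nat_lit 0x11f011ee11ec11e811e60f6106) (nat_lit 0x20000d2400) (nat_lit 52))
 (.p (nat_lit 0x3b8c373702) (nat_lit 0x500b18) (nat_lit 4)))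
 (.n (.p (nat_lit 0xcf60cf40cf00cee010a00ed00e70cf90cf309) (nat_lit 0x2a40205) (nat_lit 10))
 (.p (nat_lit 0x5c365c345c305c2e5c2c0007044007) (nat_lit 0x30232a) (nat_lit 25))))
 (.n (.n (.p (nat_lit 0x5fc198d02) (nat_lit 0x200002) (nat_lit 4))
 (.p (nat_lit 0x18ea18e818e618e418e22e3306) (nat_lit 0x800016125) (nat_lit 51)))
 (.n (.p (nat_lit 0x426642644260425e425c01b3426307) (nat_lit 0x34060b) (nat_lit 7))
 (.p (nat_lit 0x1ad45f9502) (nat_lit 0x581a302a4000200000600) (nat_lit 49))))))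
 (.n (.n (.n (.n (.p (nat_lit 0xade0adc0ada0ad60ad4087506) (nat_lit 0x2000010200) (nat_lit 52))
 (.p (nat_lit 0x5d3139502) (nat_lit 0x500515) (nat_lit 15)))
 (.n (.p (nat_lit 0x13d0412102) (nat_lit 0x500504) (nat_lit 29))
 (.p (nat_lit 0x8d594502) (nat_lit 0x300603) (nat_lit 28))))
 (.n (.n (.p (nat_lit 0x380041005116ef157f05) (nat_lit 0x62a00201) (nat_lit 9))
 (.p (nat_lit 0xfde0fdc0fda0fd80fd6088906) (nat_lit 0x800008123) (nat_lit 52)))
 (.n (.p (nat_lit 0x25a9256d02) (nat_lit 0x148b07) (nat_lit 16))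
 (.p (nat_lit 0x5cd9248302) (nat_lit 0x140020000b00) (nat_lit 39)))))
 (.n (.n (.n (.p (nat_lit 0x1965162102) (nat_lit 0x16700) (nat_lit 16))
 (.p (nat_lit 0x13960eb502) (nat_lit 0x51c) (nat_lit 5)))
 (.n (.p (nat_lit 0xa3e4c2702) (nat_lit 0x340106) (nat_lit 29))
 (.p (nat_lit 0x5d830d1102) (nat_lit 0x2a00a0000300) (nat_lit 38))))
 (.n (.n (.p (nat_lit 0x339f231f02) (nat_lit 0x246a02) (nat_lit 16))
 (.p (nat_lit 0x69e069c069a0698069609f106) (nat_lit 0x8000c812a) (nat_lit 52)))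
 (.n (.p (nat_lit 0x163852f902) (nat_lit 0x60e) (nat_lit 29))
 (.p (nat_lit 0x1da2609502) (nat_lit 0x342529ca4000300000600) (nat_lit 49))))))

def c1024_1011 : Tr :=
 .n (.n (.n (.n (.n (.p (nat_lit 0x727065702) (nat_lit 0x540000) (nat_lit 15))
 (.p (nat_lit 0x272627242722271e271c4fdf06) (nat_lit 0x2000092714) (nat_lit 52)))
 (.n (.p (nat_lit 0x7701dc502) (nat_lit 0x40004) (nat_lit 4))
 (.p (nat_lit 0x43a4418102) (nat_lit 0x340b2e) (nat_lit 4))))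
 (.n (.n (.p (nat_lit 0x23be23bc23b823b623b4215b06) (nat_lit 0x4000088b00) (nat_lit 51))
 (.p (nat_lit 0x563e563c563a563856365634039007) (nat_lit 0x40521) (nat_lit 8)))
 (.n (.p (nat_lit 0x1498149614941490122d122b06) (nat_lit 0x30000d2407) (nat_lit 52))
 (.p (nat_lit 0x5cd31f1302) (nat_lit 0x1a0020000900) (nat_lit 41)))))
 (.n (.n (.n (.p (nat_lit 0x15e015de15dc15da1557154d06) (nat_lit 0x10800010600) (nat_lit 52))
 (.p (nat_lit 0x50524cd102) (nat_lit 0x10081b) (nat_lit 4)))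
 (.n (.p (nat_lit 0x1adc1ada1ad81ad61ad4196306) (nat_lit 0x10000010705) (nat_lit 52))
 (.p (nat_lit 0x5dd605d102) (nat_lit 0x80006100) (nat_lit 48))))
 (.n (.n (.p (nat_lit 0x14fc31fd02) (nat_lit 0x240502) (nat_lit 29))
 (.p (nat_lit 0x44ae478102) (nat_lit 0x340028) (nat_lit 4)))
 (.n (.p (nat_lit 0xa940a920a900a8e0a8c0e1706) (nat_lit 0x1000000a30e) (nat_lit 52))
 (.p (nat_lit 0xfde601902) (nat_lit 0x46ab80b44000400000000) (nat_lit 49))))))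
 (.n (.n (.n (.n (.p (nat_lit 0xe8e0e8a0e880e860e840c9706) (nat_lit 0x8000040300) (nat_lit 51))
 (.p (nat_lit 0x283549f02) (nat_lit 0x140a15) (nat_lit 30)))
 (.n (.p (nat_lit 0x1aba1ab81ab61ab41ab000b71ab307) (nat_lit 0x140704) (nat_lit 7))
 (.p (nat_lit 0x1ed5a8b02) (nat_lit 0x30060e) (nat_lit 28))))
 (.n (.n (.p (nat_lit 0x18a218a0189e189a1d811d7d06) (nat_lit 0x280004a801) (nat_lit 51))
 (.p (nat_lit 0x1bfe11c302) (nat_lit 0x823) (nat_lit 4)))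
 (.n (.p (nat_lit 0x33ce2d8d02) (nat_lit 0x200b09) (nat_lit 4))
 (.p (nat_lit 0x1ad65f1702) (nat_lit 0x3a2260b50000200000600) (nat_lit 49)))))
 (.n (.n (.n (.p (nat_lit 0x1cb81cb41cb21cb01a671a6306) (nat_lit 0x14000048800) (nat_lit 51))
 (.p (nat_lit 0x21880dc902) (nat_lit 0x200a1c) (nat_lit 4)))
 (.n (.p (nat_lit 0x154a15481546154415401c3106) (nat_lit 0x100000c806) (nat_lit 51))
 (.p (nat_lit 0x5c9b169902) (nat_lit 0x220000000600) (nat_lit 39))))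
 (.n (.n (.p (nat_lit 0xe3c1c9b02) (nat_lit 0x303) (nat_lit 5))
 (.p (nat_lit 0x194657f702) (nat_lit 0x30072a) (nat_lit 29)))
 (.n (.p (nat_lit 0x2ade26ff02) (nat_lit 0x34050f) (nat_lit 5))
 (.p (nat_lit 0x1534611d02) (nat_lit 0x35486a3a4000000000600) (nat_lit 49))))))

def c512_499 : Tr := .n c1024_499 c1024_1011

def c256_243 : Tr := .n c512_243 c512_499

def c128_115 : Tr := .n c256_115 c256_243

def c64_51 : Tr := .n c128_51 c128_115

def c32_19 : Tr := .n c64_19 c64_51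

def c16_3 : Tr := .n c32_3 c32_19

def b3 : Tr := c16_3

theorem hb4_3 : allp (tst G49 true (getA DT)) b3 = true := by decide +kernel

end Vale.Agent.P032.H437.Ev2
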