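import Vale.Agent.P032.H437.Ev2.T

namespace Vale.Agent.P032.H437.Ev2
open Vale.Agent.P032.H859.Rup Vale.Agent.P032.H437

def c1024_4 : Tr :=
 .n (.n (.n (.n (.n (.n (.p (nat_lit 0x801) (nat_lit 0x400000) (nat_lit 0))
 (.p (nat_lit 0x1c4a611f02) (nat_lit 0x35056a3a4000200040600) (nat_lit 50)))
 (.p (nat_lit 0x26a226a0269c269a26982adf06) (nat_lit 0x400005250f) (nat_lit 52)))
 (.n (.p (nat_lit 0xe46377102) (nat_lit 0x500303) (nat_lit 29))
 (.p (nat_lit 0x32223220321e321a3218194506) (nat_lit 0x200008472a) (nat_lit 52))))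
 (.n (.n (.p (nat_lit 0x1cdc1cda1cd81cd61a671a5d06) (nat_lit 0x108000ca800) (nat_lit 51))
 (.p (nat_lit 0x38e218f02) (nat_lit 0x500a1c) (nat_lit 1)))
 (.n (.p (nat_lit 0x1daa1da61da41da21da01c3706) (nat_lit 0x8000012806) (nat_lit 52))
 (.p (nat_lit 0x5e3a245d02) (nat_lit 0x10600) (nat_lit 48)))))
 (.n (.n (.n (.p (nat_lit 0xe980e940e920e900c990c9506) (nat_lit 0x140000c0300) (nat_lit 52))
 (.p (nat_lit 0x45d445d245ce45cc45ca22e506) (nat_lit 0x40000caa15) (nat_lit 51)))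
 (.n (.p (nat_lit 0x901abb02) (nat_lit 0x540704) (nat_lit 1))
 (.p (nat_lit 0x5a985a965a945a925a90021501f207) (nat_lit 0x51670e) (nat_lit 25))))
 (.n (.n (.p (nat_lit 0x1a341a321a301a2e1a2c1d8706) (nat_lit 0x10000054801) (nat_lit 51))
 (.p (nat_lit 0x3a956f102) (nat_lit 0x400823) (nat_lit 30)))
 (.n (.p (nat_lit 0x33d733cb02) (nat_lit 0x4b09) (nat_lit 16))
 (.p (nat_lit 0x20765f1902) (nat_lit 0x1a2274b50000400000600) (nat_lit 50))))))
 (.n (.n (.n (.n (.p (nat_lit 0x749065502) (nat_lit 0x448000) (nat_lit 16))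
 (.p (nat_lit 0x50444c6b02) (nat_lit 0x814) (nat_lit 5)))
 (.n (.p (nat_lit 0xbb3c7102) (nat_lit 0x340004) (nat_lit 30))
 (.p (nat_lit 0x4450444e444c444a4448452306) (nat_lit 0x80008612f) (nat_lit 52))))
 (.n (.n (.p (nat_lit 0x23e223e023dc23d8215b215706) (nat_lit 0x500008eb00) (nat_lit 52))
 (.p (nat_lit 0x30849ef02) (nat_lit 0x100721) (nat_lit 1)))
 (.n (.p (nat_lit 0x40fb122f02) (nat_lit 0x352407) (nat_lit 16))
 (.p (nat_lit 0x5e843c6102) (nat_lit 0x20006900) (nat_lit 47)))))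
 (.n (.n (.n (.p (nat_lit 0x15fa15f815f615f4154f154d06) (nat_lit 0x1800012600) (nat_lit 52))
 (.p (nat_lit 0x28650ab02) (nat_lit 0x34081b) (nat_lit 1)))
 (.n (.p (nat_lit 0x2348234623442342233e195b06) (nat_lit 0x1000016705) (nat_lit 51))
 (.p (nat_lit 0x5d95079f02) (nat_lit 0x1800a0000100) (nat_lit 38))))
 (.n (.n (.p (nat_lit 0x150014fe14fa14f800800063005d150314fd09) (nat_lit 0x2a40502) (nat_lit 10))
 (.p (nat_lit 0x492449224920491e44b344a906) (nat_lit 0x1080004c028) (nat_lit 51)))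
 (.n (.p (nat_lit 0x4dd30e1502) (nat_lit 0x41630e) (nat_lit 16))
 (.p (nat_lit 0x1536601f02) (nat_lit 0x4099a2354800000000600) (nat_lit 49))))))

def c1024_516 : Tr :=
 .n (.n (.n (.n (.n (.n (.p (nat_lit 0x3100308031503) (nat_lit 0x1100050001c) (nat_lit 17))
 (.p (nat_lit 0x13f2619d02) (nat_lit 0x380aa5c14800500040000) (nat_lit 49)))
 (.p (nat_lit 0x3b8053cf02) (nat_lit 0x500b11) (nat_lit 29)))
 (.n (.p (nat_lit 0x21ca1d0302) (nat_lit 0x500a03) (nat_lit 5))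
 (.p (nat_lit 0x1a4e1a4c1a4a1a461a442fa906) (nat_lit 0x200005622c) (nat_lit 52))))
 (.n (.n (.p (nat_lit 0x20111d2f02) (nat_lit 0x342900) (nat_lit 16))
 (.p (nat_lit 0x36fa36f436f236f0363b363906) (nat_lit 0xc00004811f) (nat_lit 51)))
 (.n (.p (nat_lit 0x7e607e407e207e007de0c9b06) (nat_lit 0x80004a207) (nat_lit 51))
 (.p (nat_lit 0x5d55181302) (nat_lit 0x280080000700) (nat_lit 38)))))
 (.n (.n (.n (.p (nat_lit 0x12270f6702) (nat_lit 0x540400) (nat_lit 15))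
 (.p (nat_lit 0x3bd836ad02) (nat_lit 0x140b18) (nat_lit 5)))
 (.n (.p (nat_lit 0x46890cf702) (nat_lit 0x448205) (nat_lit 16))
 (.p (nat_lit 0x43b5c4902) (nat_lit 0x30072a) (nat_lit 28))))
 (.n (.n (.p (nat_lit 0x60205fe05fa05f8007e0061005d060105fd09) (nat_lit 0x2200002) (nat_lit 10))
 (.p (nat_lit 0x2ec430cf02) (nat_lit 0x540125) (nat_lit 5)))
 (.n (.p (nat_lit 0x6c806c606c406c206be425f06) (nat_lit 0x100005060b) (nat_lit 51))
 (.p (nat_lit 0x114a5f9702) (nat_lit 0x88bb0155800400040000) (nat_lit 50))))))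
 (.n (.n (.n (.n (.p (nat_lit 0xb220b200b1c0b1a0b18087706) (nat_lit 0x4000016200) (nat_lit 51))
 (.p (nat_lit 0x14d40bfb02) (nat_lit 0x40515) (nat_lit 4)))
 (.n (.p (nat_lit 0x41424140413a413813cd13cb06) (nat_lit 0x6000084504) (nat_lit 51))
 (.p (nat_lit 0x90008e008a0088000700b506) (nat_lit 0x1816a03) (nat_lit 26))))
 (.n (.n (.p (nat_lit 0x27cc27ca27c827c627c427c206) (nat_lit 0xa201) (nat_lit 52))
 (.p (nat_lit 0x16ae16ac16aa16a816a6088906) (nat_lit 0x80008c123) (nat_lit 51)))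
 (.n (.p (nat_lit 0x281225e902) (nat_lit 0x300208) (nat_lit 4))
 (.p (nat_lit 0x5eb24b8702) (nat_lit 0x20046b00) (nat_lit 48)))))
 (.n (.n (.n (.p (nat_lit 0x179c179a1798179617920003179507) (nat_lit 0x140700) (nat_lit 7))
 (.p (nat_lit 0x139c0ebb02) (nat_lit 0x30051c) (nat_lit 5)))
 (.n (.p (nat_lit 0x4c344c324c304c2e4c2c0a3b06) (nat_lit 0x1000046106) (nat_lit 51))
 (.p (nat_lit 0x5c975e0d02) (nat_lit 0x260000000400) (nat_lit 37))))
 (.n (.n (.p (nat_lit 0x245e1a4702) (nat_lit 0x100b02) (nat_lit 4))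
 (.p (nat_lit 0xcb509f302) (nat_lit 0x14012a) (nat_lit 15)))
 (.n (.p (nat_lit 0x1ef530102) (nat_lit 0x40060e) (nat_lit 30))
 (.p (nat_lit 0x2492609702) (nat_lit 0x344580ca4000500040600) (nat_lit 50))))))

def c512_4 : Tr := .n c1024_4 c1024_516

def c1024_260 : Tr :=
 .n (.n (.n (.n (.n (.n (.p (nat_lit 0xec00f302) (nat_lit 0x10000600005) (nat_lit 17))
 (.p (nat_lit 0x12a712990fe90fdf0d130d090a550a4b07ab079d04d104c3615c0d) (nat_lit 0x352829d84000000000000) (nat_lit 33)))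
 (.p (nat_lit 0x33362e9302) (nat_lit 0x400a10) (nat_lit 4)))
 (.n (.p (nat_lit 0x15061cd702) (nat_lit 0x140503) (nat_lit 5))
 (.p (nat_lit 0x245a24582456245424520435245107) (nat_lit 0xb2a) (nat_lit 7))))
 (.n (.n (.p (nat_lit 0x1e701e6e1e6c1e6a1bcd1bc306) (nat_lit 0x1080008e900) (nat_lit 51))
 (.p (nat_lit 0x2d002fc102) (nat_lit 0x20001e) (nat_lit 4)))
 (.n (.p (nat_lit 0x50e71eff02) (nat_lit 0x300906) (nat_lit 16))
 (.p (nat_lit 0x5cb5181702) (nat_lit 0x80000000700) (nat_lit 40)))))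
 (.n (.n (.n (.p (nat_lit 0x102610221020101e101c0dfd06) (nat_lit 0x8000004400) (nat_lit 51))
 (.p (nat_lit 0x32ec2f0902) (nat_lit 0x340917) (nat_lit 4)))
 (.n (.p (nat_lit 0x61c208302) (nat_lit 0x5) (nat_lit 4))
 (.p (nat_lit 0x5b845b805b7e5b7c5b7a0009031207) (nat_lit 0x40a11c) (nat_lit 25))))
 (.n (.n (.p (nat_lit 0x13fe13fc13fa13f813f6205106) (nat_lit 0x100000ca901) (nat_lit 51))
 (.p (nat_lit 0x4e464e444e424e404e3e244506) (nat_lit 0x800000b23) (nat_lit 52)))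
 (.n (.p (nat_lit 0x3b30349102) (nat_lit 0x40a0a) (nat_lit 5))
 (.p (nat_lit 0x4d05f5d02) (nat_lit 0x262530344000000000000) (nat_lit 50))))))
 (.n (.n (.n (.n (.p (nat_lit 0x922091e091a09180725072106) (nat_lit 0xa000048100) (nat_lit 51))
 (.p (nat_lit 0xea40ea20ea00e9e0e9c10f106) (nat_lit 0x10000002415) (nat_lit 52)))
 (.n (.p (nat_lit 0x3ef83ef43ef23ef00ceb0ce306) (nat_lit 0x880004e204) (nat_lit 52))
 (.p (nat_lit 0x320030002c002a0005021506) (nat_lit 0x1512101) (nat_lit 26))))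
 (.n (.n (.p (nat_lit 0x258122c502) (nat_lit 0x542b00) (nat_lit 16))
 (.p (nat_lit 0xea60ea40ea20ea00e9c50b306) (nat_lit 0x1000042822) (nat_lit 52)))
 (.n (.p (nat_lit 0x34a434a234a0349c349a1d3906) (nat_lit 0x2000056807) (nat_lit 51))
 (.p (nat_lit 0x5ce1206d02) (nat_lit 0xc0020000a00) (nat_lit 38)))))
 (.n (.n (.n (.p (nat_lit 0x179d16bb02) (nat_lit 0x540600) (nat_lit 15))
 (.p (nat_lit 0x1c4e1c4c1c481c46073f073906) (nat_lit 0x120000d001c) (nat_lit 51)))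
 (.n (.p (nat_lit 0x1c371c2b02) (nat_lit 0x40c805) (nat_lit 16))
 (.p (nat_lit 0x5dec3bdf02) (nat_lit 0x80050200) (nat_lit 47))))
 (.n (.n (.p (nat_lit 0xd1c0d1a0d180d160d1221b706) (nat_lit 0x1000006a02) (nat_lit 51))
 (.p (nat_lit 0x41d579102) (nat_lit 0x829) (nat_lit 30)))
 (.n (.p (nat_lit 0x154a1548154615441542123506) (nat_lit 0x80004c40e) (nat_lit 51))
 (.p (nat_lit 0x2078605d02) (nat_lit 0x506272b31000400000600) (nat_lit 50))))))

def c1024_772 : Tr :=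
 .n (.n (.n (.n (.n (.n (.p (nat_lit 0x5140510050e050c050a04e306) (nat_lit 0x8000086000) (nat_lit 51))
 (.p (nat_lit 0xe7261db02) (nat_lit 0x542266c0c800300040000) (nat_lit 49)))
 (.p (nat_lit 0x437653f102) (nat_lit 0x440b12) (nat_lit 29)))
 (.n (.p (nat_lit 0x1f1a1f161f141f121f10247106) (nat_lit 0x8000092b03) (nat_lit 51))
 (.p (nat_lit 0x41bc41ba41b841b641b43b2106) (nat_lit 0x4000004a2d) (nat_lit 51))))
 (.n (.n (.p (nat_lit 0x1ffc1ffa1ff81ff41ff200051ff707) (nat_lit 0x240a00) (nat_lit 7))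
 (.p (nat_lit 0x3ee03ede3edc3eda3ed63de906) (nat_lit 0x100004c120) (nat_lit 52)))
 (.n (.p (nat_lit 0x1c441c401c3e1c3c1c3a0f7106) (nat_lit 0x80000d0307) (nat_lit 52))
 (.p (nat_lit 0x5d355e7502) (nat_lit 0x180060000800) (nat_lit 37)))))
 (.n (.n (.n (.p (nat_lit 0x121e13f902) (nat_lit 0x140500) (nat_lit 5))
 (.p (nat_lit 0x4498462b02) (nat_lit 0x44001a) (nat_lit 4)))
 (.n (.p (nat_lit 0x490c490a490849064904151d06) (nat_lit 0x8000c4505) (nat_lit 52))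
 (.p (nat_lit 0x5d615dc102) (nat_lit 0x1c0080000000) (nat_lit 36))))
 (.n (.n (.p (nat_lit 0xcd70ccb02) (nat_lit 0x52202) (nat_lit 16))
 (.p (nat_lit 0x100e100c100a100810063b9b06) (nat_lit 0x800002b26) (nat_lit 52)))
 (.n (.p (nat_lit 0x1e1529502) (nat_lit 0x40020d) (nat_lit 30))
 (.p (nat_lit 0x181e5fdf02) (nat_lit 0x3842a1c34000100000600) (nat_lit 50))))))
 (.n (.n (.n (.n (.p (nat_lit 0x30a0b3302) (nat_lit 0x200300) (nat_lit 1))
 (.p (nat_lit 0x283545702) (nat_lit 0x140715) (nat_lit 30)))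
 (.n (.p (nat_lit 0x7a607a407a207a017fd17fb06) (nat_lit 0x18000042604) (nat_lit 51))
 (.p (nat_lit 0x11b59ef02) (nat_lit 0x400906) (nat_lit 28))))
 (.n (.n (.p (nat_lit 0x2a322a302a2e2a2c2a2a2a2806) (nat_lit 0x4501) (nat_lit 52))
 (.p (nat_lit 0xd940d920d8e0d8a0b4d0b4906) (nat_lit 0x500008e223) (nat_lit 51)))
 (.n (.p (nat_lit 0x2f922d2702) (nat_lit 0x340209) (nat_lit 5))
 (.p (nat_lit 0xe7c5ed502) (nat_lit 0x4a1a22344000300040000) (nat_lit 50)))))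
 (.n (.n (.n (.p (nat_lit 0x1b1a1b181b161b1018fd18fb06) (nat_lit 0x3000082800) (nat_lit 51))
 (.p (nat_lit 0x42d5192902) (nat_lit 0x1271c) (nat_lit 16)))
 (.n (.p (nat_lit 0x13e813e413e213de0130011b011513e713e109) (nat_lit 0x2100506) (nat_lit 10))
 (.p (nat_lit 0x5e24425102) (nat_lit 0x12500) (nat_lit 47))))
 (.n (.n (.p (nat_lit 0x34f634f434f034ec076b076706) (nat_lit 0x50000c6003) (nat_lit 52))
 (.p (nat_lit 0x46950cbb02) (nat_lit 0x45422a) (nat_lit 16)))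
 (.n (.p (nat_lit 0x200a083902) (nat_lit 0x4090e) (nat_lit 4))
 (.p (nat_lit 0x181c60dd02) (nat_lit 0x3505623a4000100000600) (nat_lit 50))))))

def c512_260 : Tr := .n c1024_260 c1024_772

def c256_4 : Tr := .n c512_4 c512_260

def c1024_132 : Tr :=
 .n (.n (.n (.n (.n (.n (.p (nat_lit 0x8a00880086009304) (nat_lit 0x3800400003) (nat_lit 17))
 (.p (nat_lit 0x1144613f02) (nat_lit 0x352a21d84000400040000) (nat_lit 49)))
 (.p (nat_lit 0x30fc2dcb02) (nat_lit 0x100410) (nat_lit 4)))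
 (.n (.p (nat_lit 0x13bb110b02) (nat_lit 0x403) (nat_lit 15))
 (.p (nat_lit 0x581e581c581a58185816581404421edf1edd1ed50a) (nat_lit 0x1600092a) (nat_lit 31))))
 (.n (.n (.p (nat_lit 0x1d971a5f02) (nat_lit 0x156800) (nat_lit 16))
 (.p (nat_lit 0x2598259625922590258e030d259507) (nat_lit 0x340b1c) (nat_lit 7)))
 (.n (.p (nat_lit 0x1adc1ada1ad81ad61ad41d9f06) (nat_lit 0x10000050806) (nat_lit 52))
 (.p (nat_lit 0x5d395e4702) (nat_lit 0x140060000600) (nat_lit 36)))))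
 (.n (.n (.n (.p (nat_lit 0xf910c9302) (nat_lit 0x24c300) (nat_lit 16))
 (.p (nat_lit 0x2b232b1702) (nat_lit 0x108816) (nat_lit 16)))
 (.n (.p (nat_lit 0x22ac22aa22a822a422a2247906) (nat_lit 0x2000010b04) (nat_lit 52))
 (.p (nat_lit 0x28a02880286028002f5000506) (nat_lit 0xa14515) (nat_lit 26))))
 (.n (.n (.p (nat_lit 0x1aea1ae81ae61ae21ae01ee506) (nat_lit 0x2000010901) (nat_lit 51))
 (.p (nat_lit 0x1edb1ecf02) (nat_lit 0x300923) (nat_lit 16)))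
 (.n (.p (nat_lit 0x1d1a1d161d141d121d10386306) (nat_lit 0x800005630a) (nat_lit 51))
 (.p (nat_lit 0xbb25f3902) (nat_lit 0x3a2560c44000200040000) (nat_lit 50))))))
 (.n (.n (.n (.n (.p (nat_lit 0x7f207ec07ea07e805c505c306) (nat_lit 0xc00008a100) (nat_lit 51))
 (.p (nat_lit 0x285540502) (nat_lit 0x240015) (nat_lit 30)))
 (.n (.p (nat_lit 0xa2d0a2102) (nat_lit 0x56104) (nat_lit 16))
 (.p (nat_lit 0x4a0c48af02) (nat_lit 0x50072f) (nat_lit 4))))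
 (.n (.n (.p (nat_lit 0x2494248822c303) (nat_lit 0x440b00) (nat_lit 6))
 (.p (nat_lit 0x4c06565302) (nat_lit 0x300122) (nat_lit 29)))
 (.n (.p (nat_lit 0x1a6c518902) (nat_lit 0x240707) (nat_lit 29))
 (.p (nat_lit 0x5d691f1902) (nat_lit 0x140080000900) (nat_lit 41)))))
 (.n (.n (.n (.p (nat_lit 0x16b616b416b216b00028000b000916bb16b909) (nat_lit 0x2c40600) (nat_lit 10))
 (.p (nat_lit 0x1f181f141f121f1005df05db06) (nat_lit 0x1400009201c) (nat_lit 51)))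
 (.n (.p (nat_lit 0x1db41db21db01dae1dac1ac706) (nat_lit 0x10000052705) (nat_lit 51))
 (.p (nat_lit 0x5de00bb502) (nat_lit 0x20040200) (nat_lit 46))))
 (.n (.n (.p (nat_lit 0x205a18c502) (nat_lit 0x440902) (nat_lit 4))
 (.p (nat_lit 0x100e100c100a100810064a4906) (nat_lit 0x800042728) (nat_lit 52)))
 (.n (.p (nat_lit 0x13f413f213f013ee13ec10db06) (nat_lit 0x80008a40e) (nat_lit 52))
 (.p (nat_lit 0x181c603f02) (nat_lit 0x4a8162340800100000600) (nat_lit 50))))))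

def c1024_644 : Tr :=
 .n (.n (.n (.n (.n (.n (.p (nat_lit 0x43e043c0436044104) (nat_lit 0x1900040002a) (nat_lit 17))
 (.p (nat_lit 0x64a61bd02) (nat_lit 0x322266c75000000040000) (nat_lit 50)))
 (.p (nat_lit 0x41883da902) (nat_lit 0x100512) (nat_lit 4)))
 (.n (.p (nat_lit 0x1e621e601e5e1e5c2331232f06) (nat_lit 0x1800004ea03) (nat_lit 51))
 (.p (nat_lit 0x340c340834063404048a0483047b340b340309) (nat_lit 0x2000b2c) (nat_lit 10))))
 (.n (.n (.p (nat_lit 0x2122211e211c21181e951e8f06) (nat_lit 0x900008ca00) (nat_lit 52))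
 (.p (nat_lit 0x3bec3bea3be63be43be203553be907) (nat_lit 0x340b1f) (nat_lit 7)))
 (.n (.p (nat_lit 0x1c501c4e1c4c1c481c460e0506) (nat_lit 0x2000090307) (nat_lit 51))
 (.p (nat_lit 0x5e66397302) (nat_lit 0x42800) (nat_lit 48)))))
 (.n (.n (.n (.p (nat_lit 0x12cc12c812c612c410cd10c906) (nat_lit 0x14000004500) (nat_lit 52))
 (.p (nat_lit 0x42303edb02) (nat_lit 0x200619) (nat_lit 4)))
 (.n (.p (nat_lit 0x112c224d02) (nat_lit 0x500405) (nat_lit 4))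
 (.p (nat_lit 0x5dae3bbf02) (nat_lit 0x50000) (nat_lit 47))))
 (.n (.n (.p (nat_lit 0x8c308b702) (nat_lit 0x512102) (nat_lit 16))
 (.p (nat_lit 0x3644392102) (nat_lit 0x340126) (nat_lit 4)))
 (.n (.p (nat_lit 0x475843d702) (nat_lit 0x54030c) (nat_lit 5))
 (.p (nat_lit 0x1ade5fc502) (nat_lit 0x8982e915800200000600) (nat_lit 49))))))
 (.n (.n (.n (.n (.p (nat_lit 0xbec0bea0be60be40be209d306) (nat_lit 0x40000c8200) (nat_lit 51))
 (.p (nat_lit 0x287543702) (nat_lit 0x300615) (nat_lit 30)))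
 (.n (.p (nat_lit 0xe760e740e720e700e6c168306) (nat_lit 0x1000086604) (nat_lit 52))
 (.p (nat_lit 0x4b459a902) (nat_lit 0x500505) (nat_lit 27))))
 (.n (.n (.p (nat_lit 0xf9628f102) (nat_lit 0x540301) (nat_lit 29))
 (.p (nat_lit 0x153e153c153a1538153609e506) (nat_lit 0x80004c123) (nat_lit 52)))
 (.n (.p (nat_lit 0x1842b4b02) (nat_lit 0x40808) (nat_lit 1))
 (.p (nat_lit 0x5d575ebd02) (nat_lit 0x260080000b00) (nat_lit 37)))))
 (.n (.n (.n (.p (nat_lit 0x1a4e1a4c1a4a1a461797179306) (nat_lit 0x2800056700) (nat_lit 52))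
 (.p (nat_lit 0x11a411a2119e119c119a14e706) (nat_lit 0x400004c51c) (nat_lit 51)))
 (.n (.p (nat_lit 0x4e0a4e084e064e044e020fd306) (nat_lit 0x10000050306) (nat_lit 52))
 (.p (nat_lit 0x5e16429302) (nat_lit 0x60052400) (nat_lit 48))))
 (.n (.n (.p (nat_lit 0x61341702) (nat_lit 0x440b02) (nat_lit 30))
 (.p (nat_lit 0x3e830b5702) (nat_lit 0x21222a) (nat_lit 16)))
 (.n (.p (nat_lit 0x1be21be01bde1bdc1bda01f11be507) (nat_lit 0x50080e) (nat_lit 7))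
 (.p (nat_lit 0x12a712990fe90fd50d1d0d0d0a550a4d07a7079f04d104c360ba0d) (nat_lit 0x35056a3a4000000000000) (nat_lit 33))))))

def c512_132 : Tr := .n c1024_132 c1024_644

def c1024_388 : Tr :=
 .n (.n (.n (.n (.n (.n (.p (nat_lit 0x1ee01ea01e801f304) (nat_lit 0xb00040000e) (nat_lit 17))
 (.p (nat_lit 0xe7c617b02) (nat_lit 0x521a86b11000300040000) (nat_lit 50)))
 (.p (nat_lit 0x1cea1ce81ce61ce21ce038e306) (nat_lit 0x200000c411) (nat_lit 52)))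
 (.n (.p (nat_lit 0x1683167702) (nat_lit 0x114603) (nat_lit 16))
 (.p (nat_lit 0x2b3c2a4902) (nat_lit 0x50082b) (nat_lit 5))))
 (.n (.n (.p (nat_lit 0x1f241f221f1e1f1c1d331d2d06) (nat_lit 0x12000040900) (nat_lit 51))
 (.p (nat_lit 0x33a4307d02) (nat_lit 0x540a1e) (nat_lit 5)))
 (.n (.p (nat_lit 0x149513902) (nat_lit 0x400207) (nat_lit 30))
 (.p (nat_lit 0x5cf3197502) (nat_lit 0x2a0040000700) (nat_lit 39)))))
 (.n (.n (.n (.p (nat_lit 0x11370dfd02) (nat_lit 0x416400) (nat_lit 16))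
 (.p (nat_lit 0x3980366f02) (nat_lit 0x140418) (nat_lit 4)))
 (.n (.p (nat_lit 0xb9308d502) (nat_lit 0x200105) (nat_lit 15))
 (.p (nat_lit 0x3a803a603a403a203ed000b06) (nat_lit 0x510123) (nat_lit 26))))
 (.n (.n (.p (nat_lit 0x253625342530252e21b321ad06) (nat_lit 0x1200008ea01) (nat_lit 51))
 (.p (nat_lit 0x1760175c175a1758175627b306) (nat_lit 0x80000d0124) (nat_lit 51)))
 (.n (.p (nat_lit 0x3f943c1702) (nat_lit 0x20030b) (nat_lit 4))
 (.p (nat_lit 0xd105f7902) (nat_lit 0x560bb0344000300000000) (nat_lit 49))))))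
 (.n (.n (.n (.n (.p (nat_lit 0xa500a44087103) (nat_lit 0x200) (nat_lit 6))
 (.p (nat_lit 0x138e0a9102) (nat_lit 0x200515) (nat_lit 4)))
 (.n (.p (nat_lit 0x11201e1f02) (nat_lit 0x500404) (nat_lit 4))
 (.p (nat_lit 0x620060005a00580007047f06) (nat_lit 0x1a14502) (nat_lit 26))))
 (.n (.n (.p (nat_lit 0x75d075102) (nat_lit 0x250001) (nat_lit 16))
 (.p (nat_lit 0x746116502) (nat_lit 0x340023) (nat_lit 5)))
 (.n (.p (nat_lit 0x22cc06ff02) (nat_lit 0x340a07) (nat_lit 4))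
 (.p (nat_lit 0x5d6921d502) (nat_lit 0x140080000a00) (nat_lit 39)))))
 (.n (.n (.n (.p (nat_lit 0x18b618b418b218b0162b162906) (nat_lit 0x18000012700) (nat_lit 52))
 (.p (nat_lit 0xc6a0c660c640c600885087f06) (nat_lit 0x900001411c) (nat_lit 51)))
 (.n (.p (nat_lit 0x4ab64ab44ab24ab04aae4aac06) (nat_lit 0x4006) (nat_lit 52))
 (.p (nat_lit 0x5d450d1902) (nat_lit 0x80060000300) (nat_lit 40))))
 (.n (.n (.p (nat_lit 0x64a0648064606440640231d06) (nat_lit 0x10000c0a02) (nat_lit 51))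
 (.p (nat_lit 0x4fc04f804f604f404f2089d06) (nat_lit 0x800008412a) (nat_lit 52)))
 (.n (.p (nat_lit 0x5120510050e050c050a138906) (nat_lit 0x1000008650e) (nat_lit 51))
 (.p (nat_lit 0xe7c607b02) (nat_lit 0x511a22b85000300040000) (nat_lit 50))))))

def c1024_900 : Tr :=
 .n (.n (.n (.n (.n (.p (nat_lit 0x148065502) (nat_lit 0x440000) (nat_lit 1))
 (.p (nat_lit 0x4a7c44fd02) (nat_lit 0x300813) (nat_lit 4)))
 (.n (.p (nat_lit 0x1820181c181a1818181625c706) (nat_lit 0x800004eb03) (nat_lit 51))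
 (.p (nat_lit 0x1fca1fc81fc61fc41fc23f2f06) (nat_lit 0x1000004e22e) (nat_lit 52))))
 (.n (.n (.p (nat_lit 0x22b822b422b222b01ffb1ff306) (nat_lit 0x88000d0a00) (nat_lit 52))
 (.p (nat_lit 0x38e434f02) (nat_lit 0x500b20) (nat_lit 1)))
 (.n (.p (nat_lit 0x12f212ee12ec12ea10d710cf06) (nat_lit 0x8800086407) (nat_lit 51))
 (.p (nat_lit 0x5da31c5102) (nat_lit 0xa00a0000800) (nat_lit 41)))))
 (.n (.n (.n (.p (nat_lit 0x14d3122702) (nat_lit 0x542500) (nat_lit 16))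
 (.p (nat_lit 0xa660a640a620a600a5e49e106) (nat_lit 0x80000071a) (nat_lit 51)))
 (.n (.p (nat_lit 0x1806228702) (nat_lit 0x440605) (nat_lit 5))
 (.p (nat_lit 0x5d175dcd02) (nat_lit 0x60040000100) (nat_lit 37))))
 (.n (.n (.p (nat_lit 0x660081008319eb188705) (nat_lit 0xaa300402) (nat_lit 9))
 (.p (nat_lit 0x3e873e7b02) (nat_lit 0x400227) (nat_lit 16)))
 (.n (.p (nat_lit 0x5ba05b805b405b205b0503f06) (nat_lit 0x400009680d) (nat_lit 51))
 (.p (nat_lit 0x11445ffb02) (nat_lit 0x16a88cd50000400040000) (nat_lit 49))))))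
 (.n (.n (.n (.n (.p (nat_lit 0xdb60db00dae0dac0b370b3506) (nat_lit 0xc000012300) (nat_lit 52))
 (.p (nat_lit 0x1ec31eb702) (nat_lit 0x308915) (nat_lit 16)))
 (.n (.p (nat_lit 0x19521fc902) (nat_lit 0x300704) (nat_lit 4))
 (.p (nat_lit 0x19f5a4d02) (nat_lit 0x30040a) (nat_lit 28))))
 (.n (.n (.p (nat_lit 0x18421840183e183c1c191c1706) (nat_lit 0x1800002801) (nat_lit 51))
 (.p (nat_lit 0x166411a302) (nat_lit 0x400623) (nat_lit 5)))
 (.n (.p (nat_lit 0x316c2cc102) (nat_lit 0x340409) (nat_lit 5))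
 (.p (nat_lit 0x23465ef102) (nat_lit 0x4a1d22344000500000600) (nat_lit 50)))))
 (.n (.n (.n (.p (nat_lit 0x1c0318fd02) (nat_lit 0x208800) (nat_lit 16))
 (.p (nat_lit 0x377c37783776377437721d6106) (nat_lit 0x800004081c) (nat_lit 52)))
 (.n (.p (nat_lit 0x1ad21ace1aca1ac80136011b01171ad11acd09) (nat_lit 0x2240706) (nat_lit 10))
 (.p (nat_lit 0x5d755e3102) (nat_lit 0x80080000500) (nat_lit 36))))
 (.n (.n (.p (nat_lit 0x35f835f635f435f235f035ee06) (nat_lit 0xc8103) (nat_lit 52))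
 (.p (nat_lit 0x117e117c117a117811760f8b06) (nat_lit 0x100000c232a) (nat_lit 52)))
 (.n (.p (nat_lit 0x2435242902) (nat_lit 0x406b0e) (nat_lit 16))
 (.p (nat_lit 0x1ae060fd02) (nat_lit 0x340a623b0000200000600) (nat_lit 50))))))

def c512_388 : Tr := .n c1024_388 c1024_900

def c256_132 : Tr := .n c512_132 c512_388

def c128_4 : Tr := .n c256_4 c256_132

def c1024_68 : Tr :=
 .n (.n (.n (.n (.n (.n (.p (nat_lit 0x51004f003f003a04) (nat_lit 0x56000001) (nat_lit 20))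
 (.p (nat_lit 0x1ae4613102) (nat_lit 0x35486a1b0000200000600) (nat_lit 50)))
 (.p (nat_lit 0x7ce07ca07c807c607c42b9d06) (nat_lit 0x800000890f) (nat_lit 52)))
 (.n (.p (nat_lit 0x3840383e383c383a38380fa906) (nat_lit 0x20000d4303) (nat_lit 51))
 (.p (nat_lit 0x3a403a3e3a3c3a3a1c151c0f06) (nat_lit 0x1200000682a) (nat_lit 52))))
 (.n (.n (.p (nat_lit 0x1d261d241d221d1e1d1c1a6106) (nat_lit 0x20000d6800) (nat_lit 52))
 (.p (nat_lit 0x259722f302) (nat_lit 0x440a1c) (nat_lit 15)))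
 (.n (.p (nat_lit 0x4cc04ca04c604c21d9b1d9706) (nat_lit 0x5000040806) (nat_lit 52))
 (.p (nat_lit 0x5e3e299502) (nat_lit 0x20002600) (nat_lit 48)))))
 (.n (.n (.n (.p (nat_lit 0xf060f040f000efe0c950c8f06) (nat_lit 0x4800050300) (nat_lit 52))
 (.p (nat_lit 0x17bf258b02) (nat_lit 0x440b15) (nat_lit 15)))
 (.n (.p (nat_lit 0x247e247c247a2478247400b7247707) (nat_lit 0x100b04) (nat_lit 7))
 (.p (nat_lit 0x5ae45ae25ae05ade5adc0177022e07) (nat_lit 0x40ab10) (nat_lit 25))))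
 (.n (.n (.p (nat_lit 0x1eea1ee81ee61ee00046002f002d1ee51ee309) (nat_lit 0x1100901) (nat_lit 10))
 (.p (nat_lit 0x388c388a3886388438821d6b06) (nat_lit 0x4000042823) (nat_lit 52)))
 (.n (.p (nat_lit 0x375f374702) (nat_lit 0x24820a) (nat_lit 16))
 (.p (nat_lit 0x2493248b21d921d51f1b1f0b1c471c3d1985197516a716995f2a0d) (nat_lit 0x3a2560c44000000040600) (nat_lit 33))))))
 (.n (.n (.n (.n (.p (nat_lit 0x5c407a902) (nat_lit 0x400100) (nat_lit 5))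
 (.p (nat_lit 0x5d205d005cc05ca05c8028705cf07) (nat_lit 0x300015) (nat_lit 7)))
 (.n (.p (nat_lit 0x3d583d563d543d523d503d4e06) (nat_lit 0xe104) (nat_lit 52))
 (.p (nat_lit 0x212e212c212a21282126468d06) (nat_lit 0x80004e22f) (nat_lit 52))))
 (.n (.n (.p (nat_lit 0x2431215902) (nat_lit 0x204b00) (nat_lit 16))
 (.p (nat_lit 0xd640d620d600d5e0d5a4a3f06) (nat_lit 0x10000ca721) (nat_lit 52)))
 (.n (.p (nat_lit 0x141517902) (nat_lit 0x707) (nat_lit 30))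
 (.p (nat_lit 0x5d4b1da702) (nat_lit 0x20060000900) (nat_lit 38)))))
 (.n (.n (.n (.p (nat_lit 0x1669154d02) (nat_lit 0xa600) (nat_lit 16))
 (.p (nat_lit 0x63c063a0636063405df05d906) (nat_lit 0x1200008001c) (nat_lit 52)))
 (.n (.p (nat_lit 0x79e079c079a079607941ac106) (nat_lit 0x2000042705) (nat_lit 52))
 (.p (nat_lit 0x5c8f0a4502) (nat_lit 0x2e0000000200) (nat_lit 38))))
 (.n (.n (.p (nat_lit 0x1b1a1b181b161b141b121eed06) (nat_lit 0x800082902) (nat_lit 51))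
 (.p (nat_lit 0x4c89458902) (nat_lit 0x14c128) (nat_lit 16)))
 (.n (.p (nat_lit 0xc5e0c5c0c580c540f7b0f7706) (nat_lit 0x50000d230e) (nat_lit 51))
 (.p (nat_lit 0x154a602f02) (nat_lit 0x466a62335000000000600) (nat_lit 50))))))

def c1024_580 : Tr :=
 .n (.n (.n (.n (.n (.n (.p (nat_lit 0x39c039a0398039f04) (nat_lit 0x1c000400022) (nat_lit 17))
 (.p (nat_lit 0x63661ad02) (nat_lit 0x3421a9c14800000040000) (nat_lit 49)))
 (.p (nat_lit 0x40883d9702) (nat_lit 0x300412) (nat_lit 5)))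
 (.n (.p (nat_lit 0x3ae721c502) (nat_lit 0x200a03) (nat_lit 16))
 (.p (nat_lit 0x47b585d02) (nat_lit 0xa2c) (nat_lit 30))))
 (.n (.n (.p (nat_lit 0xec1e9702) (nat_lit 0x500a00) (nat_lit 1))
 (.p (nat_lit 0x3b42383f02) (nat_lit 0x440a1f) (nat_lit 5)))
 (.n (.p (nat_lit 0xe0a050902) (nat_lit 0x500307) (nat_lit 4))
 (.p (nat_lit 0x5d895e6502) (nat_lit 0x2400a0000700) (nat_lit 36)))))
 (.n (.n (.n (.p (nat_lit 0x10cc10ca10c810c610c2000310c507) (nat_lit 0x100500) (nat_lit 7))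
 (.p (nat_lit 0x419c419a41984194419202e9419707) (nat_lit 0x200519) (nat_lit 7)))
 (.n (.p (nat_lit 0xfc0223b02) (nat_lit 0x240305) (nat_lit 4))
 (.p (nat_lit 0x4105c8b02) (nat_lit 0x40032f) (nat_lit 27))))
 (.n (.n (.p (nat_lit 0x2d402d3e2d3c2d382d36075d06) (nat_lit 0x20000c6002) (nat_lit 52))
 (.p (nat_lit 0x101a101610141012101033af06) (nat_lit 0x80000c2a25) (nat_lit 51)))
 (.n (.p (nat_lit 0x26045fb02) (nat_lit 0x20020c) (nat_lit 1))
 (.p (nat_lit 0x12aa5fa502) (nat_lit 0x588bb0344000500000000) (nat_lit 50))))))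
 (.n (.n (.n (.n (.p (nat_lit 0xbb50ba902) (nat_lit 0x140200) (nat_lit 34))
 (.p (nat_lit 0x1820181c181a1818181614dd06) (nat_lit 0x800004e515) (nat_lit 51)))
 (.n (.p (nat_lit 0x41f7151102) (nat_lit 0x42504) (nat_lit 16))
 (.p (nat_lit 0xb5597d02) (nat_lit 0xb04) (nat_lit 28))))
 (.n (.n (.p (nat_lit 0xe24159302) (nat_lit 0x301) (nat_lit 4))
 (.p (nat_lit 0x4c15089102) (nat_lit 0x416123) (nat_lit 16)))
 (.n (.p (nat_lit 0x2924266f02) (nat_lit 0x140308) (nat_lit 4))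
 (.p (nat_lit 0x5d2b249302) (nat_lit 0x220060000b00) (nat_lit 41)))))
 (.n (.n (.n (.p (nat_lit 0x19fa19f419f219f0179b179906) (nat_lit 0xc0000c8700) (nat_lit 51))
 (.p (nat_lit 0x14e00ec102) (nat_lit 0x4051c) (nat_lit 5)))
 (.n (.p (nat_lit 0x4d490cff02) (nat_lit 0x248206) (nat_lit 16))
 (.p (nat_lit 0x5e0e506b02) (nat_lit 0x20016400) (nat_lit 48))))
 (.n (.n (.p (nat_lit 0x1760175e175c17581756246106) (nat_lit 0x2000090b02) (nat_lit 51))
 (.p (nat_lit 0x129e129c129a129812960b5306) (nat_lit 0x80000a22a) (nat_lit 52)))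
 (.n (.p (nat_lit 0x1be3191902) (nat_lit 0x40070e) (nat_lit 15))
 (.p (nat_lit 0x169860a902) (nat_lit 0x344581ca4000000040600) (nat_lit 49))))))

def c512_68 : Tr := .n c1024_68 c1024_580

def c1024_324 : Tr :=
 .n (.n (.n (.n (.n (.n (.p (nat_lit 0x14a01460140014d04) (nat_lit 0x14800400007) (nat_lit 17))
 (.p (nat_lit 0xbb4616d02) (nat_lit 0x421aa4394000200040000) (nat_lit 50)))
 (.p (nat_lit 0x230023302372e1b2ead05) (nat_lit 0x61500b10) (nat_lit 9)))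
 (.n (.p (nat_lit 0x167c1ce902) (nat_lit 0x400603) (nat_lit 4))
 (.p (nat_lit 0x32282102) (nat_lit 0x40022b) (nat_lit 1))))
 (.n (.n (.p (nat_lit 0x1ed71bc502) (nat_lit 0x10a900) (nat_lit 16))
 (.p (nat_lit 0x2eb8305b02) (nat_lit 0x54011e) (nat_lit 4)))
 (.n (.p (nat_lit 0x226422622260225c225a206306) (nat_lit 0x200004a906) (nat_lit 51))
 (.p (nat_lit 0x5cdf181902) (nat_lit 0xe0020000700) (nat_lit 40)))))
 (.n (.n (.n (.p (nat_lit 0x10b410b210ac10aa0dfb0df906) (nat_lit 0x6000016400) (nat_lit 52))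
 (.p (nat_lit 0xbf60bf40bf20bf00bee339906) (nat_lit 0x1000004aa17) (nat_lit 51)))
 (.n (.p (nat_lit 0x78221f702) (nat_lit 0x340005) (nat_lit 5))
 (.p (nat_lit 0x36a0368036403620353031106) (nat_lit 0x150e620) (nat_lit 26))))
 (.n (.n (.p (nat_lit 0x2057204b02) (nat_lit 0x250901) (nat_lit 16))
 (.p (nat_lit 0x25a9259d02) (nat_lit 0x140b23) (nat_lit 16)))
 (.n (.p (nat_lit 0x3bc63bc43bc23bc03bbe01a33bc907) (nat_lit 0x540b0a) (nat_lit 7))
 (.p (nat_lit 0x180e5f6f02) (nat_lit 0x3aa074b50000100000600) (nat_lit 49))))))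
 (.n (.n (.n (.n (.p (nat_lit 0x9cd071d02) (nat_lit 0x40100) (nat_lit 15))
 (.p (nat_lit 0x12481246124412421240028b124b07) (nat_lit 0x540415) (nat_lit 7)))
 (.n (.p (nat_lit 0xfba0fb80fb60fb40fb000b70fb307) (nat_lit 0x140304) (nat_lit 7))
 (.p (nat_lit 0x32002e002c002a0007006306) (nat_lit 0x1d12801) (nat_lit 26))))
 (.n (.n (.p (nat_lit 0x5f405f205f005ee05ec003505f707) (nat_lit 0x500001) (nat_lit 7))
 (.p (nat_lit 0x5686568456825680567e567c03ae05e905e705e10a) (nat_lit 0x11800023) (nat_lit 31)))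
 (.n (.p (nat_lit 0x3cc83cc63cc23cbe2005200106) (nat_lit 0x500004c907) (nat_lit 51))
 (.p (nat_lit 0x5cf35e9f02) (nat_lit 0x2a0040000a00) (nat_lit 37)))))
 (.n (.n (.n (.p (nat_lit 0x62162b02) (nat_lit 0x500700) (nat_lit 1))
 (.p (nat_lit 0x314033303270d390e9f05) (nat_lit 0xae10011c) (nat_lit 9)))
 (.n (.p (nat_lit 0x1e4e1e4c1e4a1e461e441d8d06) (nat_lit 0x200004c805) (nat_lit 52))
 (.p (nat_lit 0x5cdd0e7b02) (nat_lit 0x100020000300) (nat_lit 41))))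
 (.n (.n (.p (nat_lit 0x21d621d021ce21cc21bd21bb06) (nat_lit 0xc000094a02) (nat_lit 52))
 (.p (nat_lit 0x117e117c117a1178117650c706) (nat_lit 0x100000c2829) (nat_lit 52)))
 (.n (.p (nat_lit 0x4101123502) (nat_lit 0x5240e) (nat_lit 16))
 (.p (nat_lit 0x181c606f02) (nat_lit 0x588172b40800100000600) (nat_lit 50))))))

def c1024_836 : Tr :=
 .n (.n (.n (.n (.n (.n (.p (nat_lit 0x5c704e502) (nat_lit 0x500000) (nat_lit 15))
 (.p (nat_lit 0x248461e702) (nat_lit 0x3422b0d64000500040600) (nat_lit 49)))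
 (.p (nat_lit 0x4857484b02) (nat_lit 0x46413) (nat_lit 16)))
 (.n (.p (nat_lit 0x25c825c425c225c025be008f25c707) (nat_lit 0x440b03) (nat_lit 7))
 (.p (nat_lit 0x1418141614141410140e3bff06) (nat_lit 0x20000c2b2d) (nat_lit 51))))
 (.n (.n (.p (nat_lit 0x226e226c226a226822661ffd06) (nat_lit 0x100000caa00) (nat_lit 51))
 (.p (nat_lit 0x428a3f7102) (nat_lit 0x540620) (nat_lit 5)))
 (.n (.p (nat_lit 0x47590f7302) (nat_lit 0x554307) (nat_lit 16))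
 (.p (nat_lit 0x5d695e7902) (nat_lit 0x140080000800) (nat_lit 37)))))
 (.n (.n (.n (.p (nat_lit 0x143c143a143614341432122306) (nat_lit 0x4000046500) (nat_lit 52))
 (.p (nat_lit 0xe2494b02) (nat_lit 0x4051a) (nat_lit 1)))
 (.n (.p (nat_lit 0x23ca23c623c423c223c0169506) (nat_lit 0x800000a605) (nat_lit 51))
 (.p (nat_lit 0x5c915dc502) (nat_lit 0x2c0000000100) (nat_lit 37))))
 (.n (.n (.p (nat_lit 0xe450e3902) (nat_lit 0x412302) (nat_lit 16))
 (.p (nat_lit 0x1fb41fb01fae1fac1faa3d7906) (nat_lit 0x800000c127) (nat_lit 51)))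
 (.n (.p (nat_lit 0x4f1e4f1c4f1a4f164f1401dd4f1907) (nat_lit 0x24040d) (nat_lit 7))
 (.p (nat_lit 0x1da85fed02) (nat_lit 0x306a81d31000300000600) (nat_lit 49))))))
 (.n (.n (.n (.n (.p (nat_lit 0xd3e0d3a0d380d360b390b3506) (nat_lit 0x14000002300) (nat_lit 51))
 (.p (nat_lit 0x281546d02) (nat_lit 0x40815) (nat_lit 30)))
 (.n (.p (nat_lit 0x1db61db41db21db01dac17f506) (nat_lit 0x1000052604) (nat_lit 51))
 (.p (nat_lit 0x1795a2502) (nat_lit 0x500208) (nat_lit 28))))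
 (.n (.n (.p (nat_lit 0x2adb14ef02) (nat_lit 0x142501) (nat_lit 16))
 (.p (nat_lit 0xe9a0e960e940e920e900caf06) (nat_lit 0x80000c0223) (nat_lit 52)))
 (.n (.p (nat_lit 0x308a2d3702) (nat_lit 0x40309) (nat_lit 4))
 (.p (nat_lit 0x129e5ee102) (nat_lit 0x4a8d84344000500000000) (nat_lit 49)))))
 (.n (.n (.n (.p (nat_lit 0x1b9a1b981b961b94190318f906) (nat_lit 0x10800014800) (nat_lit 52))
 (.p (nat_lit 0x1bfa0d9f02) (nat_lit 0x40081c) (nat_lit 5)))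
 (.n (.p (nat_lit 0x172e172c172a17281726196f06) (nat_lit 0x10000088706) (nat_lit 52))
 (.p (nat_lit 0x5cf313fb02) (nat_lit 0x2a0040000500) (nat_lit 41))))
 (.n (.n (.p (nat_lit 0x358a35863584358008c108bb06) (nat_lit 0x9000088103) (nat_lit 51))
 (.p (nat_lit 0x28e10e1f02) (nat_lit 0x30c32a) (nat_lit 16)))
 (.n (.p (nat_lit 0x22d4534f02) (nat_lit 0x140a0e) (nat_lit 29))
 (.p (nat_lit 0xbb260f102) (nat_lit 0x440d623a4000200040000) (nat_lit 50))))))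

def c512_324 : Tr := .n c1024_324 c1024_836

def c256_68 : Tr := .n c512_68 c512_324

def c1024_196 : Tr :=
 .n (.n (.n (.n (.n (.n (.p (nat_lit 0xbc00b400c303) (nat_lit 0x8800500004) (nat_lit 17))
 (.p (nat_lit 0x21e0614f02) (nat_lit 0x3503a0d84000400040600) (nat_lit 50)))
 (.p (nat_lit 0x31e42de302) (nat_lit 0x200510) (nat_lit 5)))
 (.n (.p (nat_lit 0x396b126902) (nat_lit 0x240403) (nat_lit 16))
 (.p (nat_lit 0x21a2583302) (nat_lit 0x300a2a) (nat_lit 29))))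
 (.n (.n (.p (nat_lit 0x1e1e1e1c1e181e161bc91bc306) (nat_lit 0x4800008900) (nat_lit 52))
 (.p (nat_lit 0x33b55b502) (nat_lit 0x20081d) (nat_lit 30)))
 (.n (.p (nat_lit 0x1efa50d702) (nat_lit 0x100906) (nat_lit 29))
 (.p (nat_lit 0x5d5d16a102) (nat_lit 0x200080000600) (nat_lit 39)))))
 (.n (.n (.n (.p (nat_lit 0xfeb0fdf02) (nat_lit 0x500400) (nat_lit 34))
 (.p (nat_lit 0x2e0e2e0c2e0a2e082e042cf506) (nat_lit 0x1000094017) (nat_lit 51)))
 (.n (.p (nat_lit 0x25d225ce25cc25ca00de00bf00bb25d525d109) (nat_lit 0x2b40b04) (nat_lit 10))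
 (.p (nat_lit 0x3865b5d02) (nat_lit 0x10041a) (nat_lit 27))))
 (.n (.n (.p (nat_lit 0x204a2bd502) (nat_lit 0x240901) (nat_lit 29))
 (.p (nat_lit 0x21a1219502) (nat_lit 0x200a23) (nat_lit 16)))
 (.n (.p (nat_lit 0x3a643a623a603a5c3a5a396b06) (nat_lit 0x20000d640a) (nat_lit 51))
 (.p (nat_lit 0x15345f5102) (nat_lit 0x1a1d22350000000000600) (nat_lit 49))))))
 (.n (.n (.n (.n (.p (nat_lit 0x8c705bf02) (nat_lit 0x112100) (nat_lit 16))
 (.p (nat_lit 0x449b073302) (nat_lit 0x554015) (nat_lit 16)))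
 (.n (.p (nat_lit 0xb8f0b8302) (nat_lit 0x16204) (nat_lit 16))
 (.p (nat_lit 0x4d544f8302) (nat_lit 0x340230) (nat_lit 4))))
 (.n (.n (.p (nat_lit 0x254425422540253e253c22bb06) (nat_lit 0x800050b00) (nat_lit 51))
 (.p (nat_lit 0x28fa28f828f628f428f2502b06) (nat_lit 0x100000c0722) (nat_lit 52)))
 (.n (.p (nat_lit 0x34f634f434f234ec1bd31bd106) (nat_lit 0x3000086807) (nat_lit 52))
 (.p (nat_lit 0x5e90420d02) (nat_lit 0xa0044900) (nat_lit 48)))))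
 (.n (.n (.n (.p (nat_lit 0x176c176a17681766176216b306) (nat_lit 0x1000052600) (nat_lit 51))
 (.p (nat_lit 0x4ca04c804c604c404c2073f06) (nat_lit 0x1000004001c) (nat_lit 52)))
 (.n (.p (nat_lit 0xe94a6702) (nat_lit 0x300805) (nat_lit 30))
 (.p (nat_lit 0x5d790a5902) (nat_lit 0x40080000200) (nat_lit 40))))
 (.n (.n (.p (nat_lit 0x231f205702) (nat_lit 0x240902) (nat_lit 15))
 (.p (nat_lit 0x4c8a4ed702) (nat_lit 0x240129) (nat_lit 4)))
 (.n (.p (nat_lit 0x310110e102) (nat_lit 0x30e40e) (nat_lit 16))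
 (.p (nat_lit 0x1db0604d02) (nat_lit 0x406a6254c800300000600) (nat_lit 50))))))

def c1024_708 : Tr :=
 .n (.n (.n (.n (.n (.n (.p (nat_lit 0x4e004d502) (nat_lit 0x300000) (nat_lit 5))
 (.p (nat_lit 0x8f261cd02) (nat_lit 0x3421684a0800100040000) (nat_lit 49)))
 (.p (nat_lit 0x920091e091c091a0918422b06) (nat_lit 0x10000008612) (nat_lit 51)))
 (.n (.p (nat_lit 0xa4e0a4a0a480a460a44247106) (nat_lit 0x8000004b03) (nat_lit 52))
 (.p (nat_lit 0x36d83a2d02) (nat_lit 0x50022d) (nat_lit 5))))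
 (.n (.n (.p (nat_lit 0x216b1e9702) (nat_lit 0x500a00) (nat_lit 16))
 (.p (nat_lit 0x3d0a3f4f02) (nat_lit 0x540020) (nat_lit 5)))
 (.n (.p (nat_lit 0xf70068502) (nat_lit 0x440307) (nat_lit 4))
 (.p (nat_lit 0x5e6a194f02) (nat_lit 0x20014800) (nat_lit 48)))))
 (.n (.n (.n (.p (nat_lit 0x137c137a13761374137210c906) (nat_lit 0x4000096500) (nat_lit 52))
 (.p (nat_lit 0x42ca54cf02) (nat_lit 0x100719) (nat_lit 29)))
 (.n (.p (nat_lit 0x13d4486502) (nat_lit 0x100505) (nat_lit 29))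
 (.p (nat_lit 0x5cf35db702) (nat_lit 0x2a0040000000) (nat_lit 37))))
 (.n (.n (.p (nat_lit 0x5f2ed502) (nat_lit 0x300202) (nat_lit 30))
 (.p (nat_lit 0x375838af02) (nat_lit 0x540226) (nat_lit 5)))
 (.n (.p (nat_lit 0x14449cd02) (nat_lit 0x20070c) (nat_lit 1))
 (.p (nat_lit 0x20705fcf02) (nat_lit 0x9582ec05000400000600) (nat_lit 49))))))
 (.n (.n (.n (.n (.p (nat_lit 0xc9909d702) (nat_lit 0x540200) (nat_lit 15))
 (.p (nat_lit 0x281544902) (nat_lit 0x715) (nat_lit 30)))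
 (.n (.p (nat_lit 0x4219168502) (nat_lit 0x200604) (nat_lit 16))
 (.p (nat_lit 0x59ca59c859c659c459c20305011e07) (nat_lit 0x506106) (nat_lit 25))))
 (.n (.n (.p (nat_lit 0x124e29a102) (nat_lit 0x140401) (nat_lit 29))
 (.p (nat_lit 0x458909e702) (nat_lit 0x154123) (nat_lit 16)))
 (.n (.p (nat_lit 0x2be026a902) (nat_lit 0x240908) (nat_lit 4))
 (.p (nat_lit 0xd0e5ec502) (nat_lit 0x260b84344000300000000) (nat_lit 49)))))
 (.n (.n (.n (.p (nat_lit 0x1aad179b02) (nat_lit 0x44a700) (nat_lit 16))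
 (.p (nat_lit 0x30d553302) (nat_lit 0x34061c) (nat_lit 30)))
 (.n (.p (nat_lit 0x422128f02) (nat_lit 0x340406) (nat_lit 1))
 (.p (nat_lit 0x5da50fdf02) (nat_lit 0x800a0000400) (nat_lit 38))))
 (.n (.n (.p (nat_lit 0x60a1c5902) (nat_lit 0x300003) (nat_lit 4))
 (.p (nat_lit 0x12a812a612a412a00cbd0cb506) (nat_lit 0x1100004a22a) (nat_lit 51)))
 (.n (.p (nat_lit 0x35ea35e835e635e435e21d4b06) (nat_lit 0x1000004880e) (nat_lit 51))
 (.p (nat_lit 0x13ee60d102) (nat_lit 0x35052a3a4000500040000) (nat_lit 49))))))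

def c512_196 : Tr := .n c1024_196 c1024_708

def c1024_452 : Tr :=
 .n (.n (.n (.n (.n (.n (.p (nat_lit 0x2820280028f03) (nat_lit 0x1800500015) (nat_lit 17))
 (.p (nat_lit 0x21d8618902) (nat_lit 0x340b86c64000400040600) (nat_lit 50)))
 (.p (nat_lit 0x39e839e639e439e239e0023939df07) (nat_lit 0x511) (nat_lit 7)))
 (.n (.p (nat_lit 0x1a1e1a1c1a1a1a181a1617e706) (nat_lit 0x800052603) (nat_lit 51))
 (.p (nat_lit 0x2c202a6b02) (nat_lit 0x44092b) (nat_lit 5))))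
 (.n (.n (.p (nat_lit 0x1fc01fbc1fba1fb81fb61d3106) (nat_lit 0x80000cc900) (nat_lit 52))
 (.p (nat_lit 0x8c354f02) (nat_lit 0x34001f) (nat_lit 1)))
 (.n (.p (nat_lit 0x28130b4102) (nat_lit 0x30c207) (nat_lit 16))
 (.p (nat_lit 0x5d23181102) (nat_lit 0x2a0060000700) (nat_lit 38)))))
 (.n (.n (.n (.p (nat_lit 0x1180117e117c117a11760f5f06) (nat_lit 0x10000c2400) (nat_lit 52))
 (.p (nat_lit 0x3aa6371902) (nat_lit 0x200618) (nat_lit 4)))
 (.n (.p (nat_lit 0xb980b960b940b8e00fe00e700e50b930b9109) (nat_lit 0x1100205) (nat_lit 10))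
 (.p (nat_lit 0x40203fe03fc03fa03f700bb06) (nat_lit 0x2b0e127) (nat_lit 26))))
 (.n (.n (.p (nat_lit 0x2390238e238c238a2386231106) (nat_lit 0x10000c4a01) (nat_lit 52))
 (.p (nat_lit 0x2c4b2bc102) (nat_lit 0x400924) (nat_lit 15)))
 (.n (.p (nat_lit 0x40fa3cb902) (nat_lit 0x34040b) (nat_lit 4))
 (.p (nat_lit 0x1ae85f8d02) (nat_lit 0x581a30344000200000600) (nat_lit 50))))))
 (.n (.n (.n (.n (.p (nat_lit 0xa7e0a7c0a760a740877087506) (nat_lit 0x6000008200) (nat_lit 52))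
 (.p (nat_lit 0x153e153c153815361534139106) (nat_lit 0x400000c515) (nat_lit 52)))
 (.n (.p (nat_lit 0x40ac40aa40a840a640a4127b06) (nat_lit 0x10000042404) (nat_lit 51))
 (.p (nat_lit 0x23c591f02) (nat_lit 0x200103) (nat_lit 27))))
 (.n (.n (.p (nat_lit 0xa04157702) (nat_lit 0x440101) (nat_lit 4))
 (.p (nat_lit 0x888116b02) (nat_lit 0x123) (nat_lit 5)))
 (.n (.p (nat_lit 0x4b0e4b0c4b0a4b084b06241d06) (nat_lit 0x8000012b07) (nat_lit 51))
 (.p (nat_lit 0x5cbb233f02) (nat_lit 0x20000000b00) (nat_lit 40)))))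
 (.n (.n (.n (.p (nat_lit 0x1905162102) (nat_lit 0x700) (nat_lit 16))
 (.p (nat_lit 0xbc80bc60bc40bc20bbe09db06) (nat_lit 0x100004011c) (nat_lit 52)))
 (.n (.p (nat_lit 0x8e224b702) (nat_lit 0x300106) (nat_lit 5))
 (.p (nat_lit 0x5d610d1b02) (nat_lit 0x1c0080000300) (nat_lit 40))))
 (.n (.n (.p (nat_lit 0x19781976197219702325231f06) (nat_lit 0x120000cea02) (nat_lit 52))
 (.p (nat_lit 0x9f612bf02) (nat_lit 0x34012a) (nat_lit 4)))
 (.n (.p (nat_lit 0x4fc04f804f604f404f214d106) (nat_lit 0x80000c450e) (nat_lit 52))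
 (.p (nat_lit 0xe7c608d02) (nat_lit 0x342221ca4000300040000) (nat_lit 50))))))

def c1024_964 : Tr :=
 .n (.n (.n (.n (.n (.p (nat_lit 0x69e069c069a0698064f064d06) (nat_lit 0x18000c8000) (nat_lit 52))
 (.p (nat_lit 0x1144f2302) (nat_lit 0x140414) (nat_lit 1)))
 (.n (.p (nat_lit 0x6141f2102) (nat_lit 0x200004) (nat_lit 5))
 (.p (nat_lit 0x42a241e102) (nat_lit 0x54062e) (nat_lit 5))))
 (.n (.n (.p (nat_lit 0x116215902) (nat_lit 0x200b00) (nat_lit 1))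
 (.p (nat_lit 0xea44a502) (nat_lit 0x440021) (nat_lit 1)))
 (.n (.p (nat_lit 0x43e123302) (nat_lit 0x540407) (nat_lit 1))
 (.p (nat_lit 0x5c9b5e8102) (nat_lit 0x220000000900) (nat_lit 37)))))
 (.n (.n (.n (.p (nat_lit 0x1554154902) (nat_lit 0x400600) (nat_lit 5))
 (.p (nat_lit 0x39c4f3702) (nat_lit 0x54041b) (nat_lit 1)))
 (.n (.p (nat_lit 0x7aa07a807a407a207a0195f06) (nat_lit 0x4000002705) (nat_lit 51))
 (.p (nat_lit 0x5d275dd302) (nat_lit 0x260060000100) (nat_lit 36))))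
 (.n (.n (.p (nat_lit 0x5b318102) (nat_lit 0x100502) (nat_lit 30))
 (.p (nat_lit 0x3f242e702) (nat_lit 0x300727) (nat_lit 1)))
 (.n (.p (nat_lit 0x1f4020701f7090307af05) (nat_lit 0x8c10030e) (nat_lit 9))
 (.p (nat_lit 0x2078600f02) (nat_lit 0x405aa0b94800400000600) (nat_lit 50))))))
 (.n (.n (.n (.n (.p (nat_lit 0xe4f0b3502) (nat_lit 0x312300) (nat_lit 16))
 (.p (nat_lit 0x289549902) (nat_lit 0x400a15) (nat_lit 30)))
 (.n (.p (nat_lit 0x1d1a1d181d161d141d10194f06) (nat_lit 0x1000016704) (nat_lit 51))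
 (.p (nat_lit 0x1f001ee01ea01e60003028706) (nat_lit 0xb0830e) (nat_lit 26))))
 (.n (.n (.p (nat_lit 0x1d861d841d821d801d7e002b1d7d07) (nat_lit 0x40801) (nat_lit 7))
 (.p (nat_lit 0x193e105702) (nat_lit 0x500723) (nat_lit 5)))
 (.n (.p (nat_lit 0x67a0678067406720670332906) (nat_lit 0x4000006a09) (nat_lit 51))
 (.p (nat_lit 0x1ae85f0f02) (nat_lit 0x3a2570344000200000600) (nat_lit 50)))))
 (.n (.n (.n (.p (nat_lit 0x1a641a621a601a5e0014000b00011a671a5d09) (nat_lit 0x2840800) (nat_lit 10))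
 (.p (nat_lit 0x20220f2102) (nat_lit 0x4091c) (nat_lit 5)))
 (.n (.p (nat_lit 0x1c38254502) (nat_lit 0x500806) (nat_lit 5))
 (.p (nat_lit 0x5d8d12ab02) (nat_lit 0x2000a0000500) (nat_lit 40))))
 (.n (.n (.p (nat_lit 0xb8b0b7f02) (nat_lit 0x414203) (nat_lit 16))
 (.p (nat_lit 0x499d166d02) (nat_lit 0x21462a) (nat_lit 16)))
 (.n (.p (nat_lit 0x299826e702) (nat_lit 0x30040f) (nat_lit 4))
 (.p (nat_lit 0x13fc611302) (nat_lit 0x34252a1b0000500040000) (nat_lit 50))))))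

def c512_452 : Tr := .n c1024_452 c1024_964

def c256_196 : Tr := .n c512_196 c512_452

def c128_68 : Tr := .n c256_68 c256_196

def c64_4 : Tr := .n c128_4 c128_68

def c1024_36 : Tr :=
 .n (.n (.n (.n (.n (.n (.p (nat_lit 0x340030002a003704) (nat_lit 0x14800400001) (nat_lit 17))
 (.p (nat_lit 0x1150612b02) (nat_lit 0x35486a3b0000400040000) (nat_lit 50)))
 (.p (nat_lit 0x2b102b0c2b0a2b08021e021502112b132b0f09) (nat_lit 0x2b0080f) (nat_lit 10)))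
 (.n (.p (nat_lit 0xfa81ca902) (nat_lit 0x240303) (nat_lit 5))
 (.p (nat_lit 0x1aac146902) (nat_lit 0x44072a) (nat_lit 5))))
 (.n (.n (.p (nat_lit 0x1d021d001cfe1cfa1a611a5d06) (nat_lit 0x2800054800) (nat_lit 51))
 (.p (nat_lit 0x38622ed02) (nat_lit 0x140a1c) (nat_lit 1)))
 (.n (.p (nat_lit 0x50751c2f02) (nat_lit 0xa806) (nat_lit 16))
 (.p (nat_lit 0x5cd95e3f02) (nat_lit 0x140020000600) (nat_lit 36)))))
 (.n (.n (.n (.p (nat_lit 0xebe0eba0eb80eb60c970c8f06) (nat_lit 0x880004a300) (nat_lit 51))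
 (.p (nat_lit 0x243d243102) (nat_lit 0x208b15) (nat_lit 16)))
 (.n (.p (nat_lit 0x1d001cfe1cfc1cfa1abb1ab106) (nat_lit 0x10800054704) (nat_lit 51))
 (.p (nat_lit 0x2155abd02) (nat_lit 0x50030f) (nat_lit 28))))
 (.n (.n (.p (nat_lit 0x1d971d7f02) (nat_lit 0x154801) (nat_lit 16))
 (.p (nat_lit 0x506b1c0102) (nat_lit 0x116823) (nat_lit 16)))
 (.n (.p (nat_lit 0x357e357a35783576357436bf06) (nat_lit 0x800000820a) (nat_lit 52))
 (.p (nat_lit 0x1db05f1f02) (nat_lit 0x1a2260b50000300000600) (nat_lit 50))))))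
 (.n (.n (.n (.n (.p (nat_lit 0x78b064f02) (nat_lit 0x156000) (nat_lit 16))
 (.p (nat_lit 0x7da07d607d407d207d050a106) (nat_lit 0x80000c8814) (nat_lit 51)))
 (.n (.p (nat_lit 0x3d07077702) (nat_lit 0x346004) (nat_lit 16))
 (.p (nat_lit 0x2288228622842280227e460706) (nat_lit 0x200008c22f) (nat_lit 51))))
 (.n (.n (.p (nat_lit 0x24062404240023fe215b215506) (nat_lit 0x4800012b00) (nat_lit 51))
 (.p (nat_lit 0x4a3c46db02) (nat_lit 0x40721) (nat_lit 5)))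
 (.n (.p (nat_lit 0x179e06a102) (nat_lit 0x40607) (nat_lit 5))
 (.p (nat_lit 0x5d031db102) (nat_lit 0x1a0040000900) (nat_lit 40)))))
 (.n (.n (.n (.p (nat_lit 0x1623154f02) (nat_lit 0x100600) (nat_lit 15))
 (.p (nat_lit 0x5da0e8b02) (nat_lit 0x30001c) (nat_lit 5)))
 (.n (.p (nat_lit 0x1abe4a1102) (nat_lit 0x140705) (nat_lit 29))
 (.p (nat_lit 0x5cbb5ddd02) (nat_lit 0x20000000200) (nat_lit 37))))
 (.n (.n (.p (nat_lit 0x881eef02) (nat_lit 0x100902) (nat_lit 1))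
 (.p (nat_lit 0xe2458702) (nat_lit 0x40128) (nat_lit 1)))
 (.n (.p (nat_lit 0xf7e52df02) (nat_lit 0x54030e) (nat_lit 29))
 (.p (nat_lit 0x1db0602502) (nat_lit 0x406a6252d000300000600) (nat_lit 50))))))

def c1024_548 : Tr :=
 .n (.n (.n (.n (.n (.n (.p (nat_lit 0x3520350034e035b04) (nat_lit 0x380040001f) (nat_lit 17))
 (.p (nat_lit 0xbb461a502) (nat_lit 0x3222a5c15000200040000) (nat_lit 50)))
 (.p (nat_lit 0x3bd435b702) (nat_lit 0x540b11) (nat_lit 5)))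
 (.n (.p (nat_lit 0x1e4c1e4a1e481e461e4421cb06) (nat_lit 0x1000000ca03) (nat_lit 52))
 (.p (nat_lit 0x30ac30aa30a830a2048c047f047d30a730a509) (nat_lit 0x114032c) (nat_lit 10))))
 (.n (.n (.p (nat_lit 0x20511d3302) (nat_lit 0x54c900) (nat_lit 16))
 (.p (nat_lit 0x3a7a382d02) (nat_lit 0x44051f) (nat_lit 5)))
 (.n (.p (nat_lit 0x37430c9b02) (nat_lit 0x50207) (nat_lit 16))
 (.p (nat_lit 0x5da35e6302) (nat_lit 0xa00a0000700) (nat_lit 37)))))
 (.n (.n (.n (.p (nat_lit 0x12670f5f02) (nat_lit 0x150400) (nat_lit 16))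
 (.p (nat_lit 0x3cfc3ea702) (nat_lit 0x440019) (nat_lit 4)))
 (.n (.p (nat_lit 0xe5e223502) (nat_lit 0x500305) (nat_lit 4))
 (.p (nat_lit 0x4840480047e047c03df006106) (nat_lit 0x40622c) (nat_lit 26))))
 (.n (.n (.p (nat_lit 0x7620760075e075a0758005d075d07) (nat_lit 0x240002) (nat_lit 7))
 (.p (nat_lit 0x3304314f02) (nat_lit 0x340925) (nat_lit 4)))
 (.n (.p (nat_lit 0x43083cdd02) (nat_lit 0x34070b) (nat_lit 5))
 (.p (nat_lit 0xbb05f9f02) (nat_lit 0x589832b44000200040000) (nat_lit 49))))))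
 (.n (.n (.n (.n (.p (nat_lit 0xb69087b02) (nat_lit 0x50c200) (nat_lit 16))
 (.p (nat_lit 0xa5a0a560a540a520a5014dd06) (nat_lit 0x8000044515) (nat_lit 51)))
 (.n (.p (nat_lit 0x4a6151502) (nat_lit 0x240504) (nat_lit 1))
 (.p (nat_lit 0xbd596502) (nat_lit 0x400404) (nat_lit 28))))
 (.n (.n (.p (nat_lit 0xcc2158b02) (nat_lit 0x240201) (nat_lit 4))
 (.p (nat_lit 0x21e221de21dc21da21d8089106) (nat_lit 0x8000094123) (nat_lit 51)))
 (.n (.p (nat_lit 0x2f8d286702) (nat_lit 0x50208) (nat_lit 16))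
 (.p (nat_lit 0x5eb4231302) (nat_lit 0x4004eb00) (nat_lit 47)))))
 (.n (.n (.n (.p (nat_lit 0x1990198c198a1988179d179906) (nat_lit 0x14000040700) (nat_lit 52))
 (.p (nat_lit 0x1180117c117a11781176139f06) (nat_lit 0x800008251c) (nat_lit 52)))
 (.n (.p (nat_lit 0xba2238302) (nat_lit 0x400206) (nat_lit 4))
 (.p (nat_lit 0x5ce10fd702) (nat_lit 0xc0020000400) (nat_lit 38))))
 (.n (.n (.p (nat_lit 0x66007d007b18eb1a4f05) (nat_lit 0x68d00b02) (nat_lit 9))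
 (.p (nat_lit 0xb5a0b580b540b52045c043f04390b5d0b5709) (nat_lit 0x2a0022a) (nat_lit 10)))
 (.n (.p (nat_lit 0x1a7517ab02) (nat_lit 0x4060e) (nat_lit 15))
 (.p (nat_lit 0x1f0c609f02) (nat_lit 0x344588ca4000300040600) (nat_lit 49))))))

def c512_36 : Tr := .n c1024_36 c1024_548

def c1024_292 : Tr :=
 .n (.n (.n (.n (.n (.n (.p (nat_lit 0x1180116012103) (nat_lit 0x6000500006) (nat_lit 17))
 (.p (nat_lit 0x1db0616302) (nat_lit 0x421aa4395000300000600) (nat_lit 50)))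
 (.p (nat_lit 0x7ce07cc07ca07c807c4338506) (nat_lit 0x1000048a10) (nat_lit 52)))
 (.n (.p (nat_lit 0x76b150b02) (nat_lit 0x340503) (nat_lit 15))
 (.p (nat_lit 0x25ac14c302) (nat_lit 0x340b2a) (nat_lit 5))))
 (.n (.n (.p (nat_lit 0x1e911bc702) (nat_lit 0x200900) (nat_lit 15))
 (.p (nat_lit 0x2da62fd302) (nat_lit 0x54001e) (nat_lit 5)))
 (.n (.p (nat_lit 0x2062511d02) (nat_lit 0x240906) (nat_lit 29))
 (.p (nat_lit 0x5c91181702) (nat_lit 0x2c0000000700) (nat_lit 40)))))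
 (.n (.n (.n (.p (nat_lit 0x106e106c106810640dfb0df706) (nat_lit 0x5000010400) (nat_lit 51))
 (.p (nat_lit 0xa960a940a920a900a8c333d06) (nat_lit 0x100000aa17) (nat_lit 52)))
 (.n (.p (nat_lit 0x43d643d443d043ce0623061d06) (nat_lit 0x4800086005) (nat_lit 51))
 (.p (nat_lit 0x34c034a03480344030d02bf06) (nat_lit 0x191411e) (nat_lit 26))))
 (.n (.n (.p (nat_lit 0x2080207c207a20782076204f06) (nat_lit 0x8000054901) (nat_lit 51))
 (.p (nat_lit 0x259c10b902) (nat_lit 0x140b23) (nat_lit 4)))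
 (.n (.p (nat_lit 0x67a06780674067206703b7106) (nat_lit 0x4000006b0a) (nat_lit 51))
 (.p (nat_lit 0x129e5f6102) (nat_lit 0x3aa570344000500000000) (nat_lit 49))))))
 (.n (.n (.n (.n (.p (nat_lit 0x94409420940093e0727071d06) (nat_lit 0x108000ca100) (nat_lit 52))
 (.p (nat_lit 0x12400a8102) (nat_lit 0x40415) (nat_lit 4)))
 (.n (.p (nat_lit 0xe4e1f6b02) (nat_lit 0x300304) (nat_lit 4))
 (.p (nat_lit 0x2d58b502) (nat_lit 0x100501) (nat_lit 28))))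
 (.n (.n (.p (nat_lit 0x25c522c102) (nat_lit 0x350b00) (nat_lit 16))
 (.p (nat_lit 0x5e40ff102) (nat_lit 0x200023) (nat_lit 4)))
 (.n (.p (nat_lit 0x21691ea102) (nat_lit 0x400907) (nat_lit 15))
 (.p (nat_lit 0x5e9a207902) (nat_lit 0x20000a00) (nat_lit 46)))))
 (.n (.n (.n (.p (nat_lit 0x17f316b102) (nat_lit 0x52600) (nat_lit 16))
 (.p (nat_lit 0x749073d02) (nat_lit 0x44a01c) (nat_lit 16)))
 (.n (.p (nat_lit 0x1d904a8b02) (nat_lit 0x440805) (nat_lit 29))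
 (.p (nat_lit 0x5cb75df502) (nat_lit 0x60000000300) (nat_lit 36))))
 (.n (.n (.p (nat_lit 0x18141810180e180c180a21bd06) (nat_lit 0x800000ea02) (nat_lit 52))
 (.p (nat_lit 0x10321030102e102c102a506906) (nat_lit 0x800084829) (nat_lit 51)))
 (.n (.p (nat_lit 0x1f0e1f0a1f081f061f04123d06) (nat_lit 0x80000d240e) (nat_lit 52))
 (.p (nat_lit 0x2070606502) (nat_lit 0x85ab0335000400000600) (nat_lit 49))))))

def c1024_804 : Tr :=
 .n (.n (.n (.n (.n (.n (.p (nat_lit 0x53805340530052e04e304df06) (nat_lit 0xa00000c000) (nat_lit 52))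
 (.p (nat_lit 0x8f061e302) (nat_lit 0x3302a5895000100040000) (nat_lit 49)))
 (.p (nat_lit 0x20c420c220c020be20bc47e306) (nat_lit 0x10000084413) (nat_lit 51)))
 (.n (.p (nat_lit 0x3b91246b02) (nat_lit 0x106b03) (nat_lit 16))
 (.p (nat_lit 0x3bae39cf02) (nat_lit 0x400b2d) (nat_lit 4))))
 (.n (.n (.p (nat_lit 0x220622042202220021fc1ff506) (nat_lit 0x1000042a00) (nat_lit 51))
 (.p (nat_lit 0x36b560d02) (nat_lit 0x400620) (nat_lit 30)))
 (.n (.p (nat_lit 0x122f0f6f02) (nat_lit 0x340307) (nat_lit 15))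
 (.p (nat_lit 0x5e72386102) (nat_lit 0x60040800) (nat_lit 48)))))
 (.n (.n (.n (.p (nat_lit 0x1418141614141410140e122106) (nat_lit 0x20000c2500) (nat_lit 51))
 (.p (nat_lit 0x46ba46b846b446b246b0485d06) (nat_lit 0x40000c041a) (nat_lit 51)))
 (.n (.p (nat_lit 0x1692211302) (nat_lit 0x300605) (nat_lit 4))
 (.p (nat_lit 0x5d9104cd02) (nat_lit 0x1c00a0000000) (nat_lit 38))))
 (.n (.n (.p (nat_lit 0xe380e360e340e320e3000630e3b07) (nat_lit 0x500302) (nat_lit 7))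
 (.p (nat_lit 0x117411721170116e116c3bef06) (nat_lit 0x800042b26) (nat_lit 51)))
 (.n (.p (nat_lit 0x255c255a2556255425524dc706) (nat_lit 0x400001230d) (nat_lit 52))
 (.p (nat_lit 0x23445fe502) (nat_lit 0x3062a1c35000500000600) (nat_lit 50))))))
 (.n (.n (.n (.n (.p (nat_lit 0xd280d260d220d200d1e0b3506) (nat_lit 0x4000000300) (nat_lit 52))
 (.p (nat_lit 0x501d1a8902) (nat_lit 0x456715) (nat_lit 16)))
 (.n (.p (nat_lit 0x129c129a12981296129417fd06) (nat_lit 0x1000004a604) (nat_lit 52))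
 (.p (nat_lit 0x14801460142014001c9000b06) (nat_lit 0x1514307) (nat_lit 26))))
 (.n (.n (.p (nat_lit 0x14f02a7f02) (nat_lit 0x240501) (nat_lit 29))
 (.p (nat_lit 0xcaa119302) (nat_lit 0x240223) (nat_lit 4)))
 (.n (.p (nat_lit 0x300e2ca902) (nat_lit 0x200309) (nat_lit 4))
 (.p (nat_lit 0x8fa5edb02) (nat_lit 0x4a9d22344000100040000) (nat_lit 50)))))
 (.n (.n (.n (.p (nat_lit 0x1b761b741b701b6e190318fd06) (nat_lit 0x1200008a800) (nat_lit 52))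
 (.p (nat_lit 0x1d5b1a8f02) (nat_lit 0x14071c) (nat_lit 15)))
 (.n (.p (nat_lit 0x19664fc702) (nat_lit 0x100706) (nat_lit 29))
 (.p (nat_lit 0x5e2812a302) (nat_lit 0x20000500) (nat_lit 46))))
 (.n (.n (.p (nat_lit 0x8ba1c6d02) (nat_lit 0x100103) (nat_lit 4))
 (.p (nat_lit 0x43f57cb02) (nat_lit 0x50032a) (nat_lit 30)))
 (.n (.p (nat_lit 0x201f201302) (nat_lit 0x44690e) (nat_lit 16))
 (.p (nat_lit 0xe7260eb02) (nat_lit 0x340d623a4000300040000) (nat_lit 49))))))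

def c512_292 : Tr := .n c1024_292 c1024_804

def c256_36 : Tr := .n c512_36 c512_292

def c1024_164 : Tr :=
 .n (.n (.n (.n (.n (.n (.p (nat_lit 0x9f009b009403) (nat_lit 0x2200003) (nat_lit 19))
 (.p (nat_lit 0x642614b02) (nat_lit 0x3b0221d84000000040000) (nat_lit 50)))
 (.p (nat_lit 0x31722e6102) (nat_lit 0x40410) (nat_lit 4)))
 (.n (.p (nat_lit 0x126c1b5f02) (nat_lit 0x440403) (nat_lit 4))
 (.p (nat_lit 0x20422040203e203c203a043f204507) (nat_lit 0x54092a) (nat_lit 7))))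
 (.n (.n (.p (nat_lit 0x1dc21dc01dbe1dba1db81bc706) (nat_lit 0x2000000900) (nat_lit 52))
 (.p (nat_lit 0x26c428fb02) (nat_lit 0x44001d) (nat_lit 4)))
 (.n (.p (nat_lit 0x248a24862484248224801d9d06) (nat_lit 0x80000d6806) (nat_lit 52))
 (.p (nat_lit 0x5e46153b02) (nat_lit 0x60000600) (nat_lit 45)))))
 (.n (.n (.n (.p (nat_lit 0x3a00df502) (nat_lit 0x400) (nat_lit 1))
 (.p (nat_lit 0x2bf4285302) (nat_lit 0x40916) (nat_lit 5)))
 (.n (.p (nat_lit 0x25cc1fe902) (nat_lit 0x140b04) (nat_lit 5))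
 (.p (nat_lit 0x2875b3702) (nat_lit 0x300a15) (nat_lit 28))))
 (.n (.n (.p (nat_lit 0x2ba91ee902) (nat_lit 0x404901) (nat_lit 16))
 (.p (nat_lit 0x203f203302) (nat_lit 0x240923) (nat_lit 16)))
 (.n (.p (nat_lit 0x3a2c3a283a263a243a2238db06) (nat_lit 0x800000440a) (nat_lit 51))
 (.p (nat_lit 0x1ad65f3f02) (nat_lit 0x3a2560c64000200000600) (nat_lit 49))))))
 (.n (.n (.n (.n (.p (nat_lit 0x87f05bf02) (nat_lit 0x106100) (nat_lit 16))
 (.p (nat_lit 0x7c007bc07ba07b80733072f06) (nat_lit 0x140000c6015) (nat_lit 52)))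
 (.n (.p (nat_lit 0xc200df00cb1df11f5505) (nat_lit 0xac400204) (nat_lit 9))
 (.p (nat_lit 0x14221420141e141c141a4a5f06) (nat_lit 0x1000004472f) (nat_lit 51))))
 (.n (.n (.p (nat_lit 0x24f024ec24ea24e822c322bb06) (nat_lit 0x88000c6b00) (nat_lit 52))
 (.p (nat_lit 0x4fbc566902) (nat_lit 0x240522) (nat_lit 29)))
 (.n (.p (nat_lit 0x19a1bd102) (nat_lit 0x100807) (nat_lit 1))
 (.p (nat_lit 0x5da51f0f02) (nat_lit 0x800a0000900) (nat_lit 39)))))
 (.n (.n (.n (.p (nat_lit 0x173c173a1738173216b516b306) (nat_lit 0x300004a600) (nat_lit 52))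
 (.p (nat_lit 0x441505db02) (nat_lit 0x31401c) (nat_lit 16)))
 (.n (.p (nat_lit 0x4a431ac302) (nat_lit 0x346705) (nat_lit 16))
 (.p (nat_lit 0x5d455de902) (nat_lit 0x80060000200) (nat_lit 37))))
 (.n (.n (.p (nat_lit 0x1b841b821b801b7e1b7c205306) (nat_lit 0x80004c902) (nat_lit 51))
 (.p (nat_lit 0x1164c1102) (nat_lit 0x200129) (nat_lit 1)))
 (.n (.p (nat_lit 0x1db61db41db21db01dac10dd06) (nat_lit 0x100001240e) (nat_lit 51))
 (.p (nat_lit 0x1536604702) (nat_lit 0x40a96254c800000000600) (nat_lit 49))))))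

def c1024_676 : Tr :=
 .n (.n (.n (.n (.n (.n (.p (nat_lit 0x4790477046e03) (nat_lit 0xa230002b) (nat_lit 19))
 (.p (nat_lit 0x114261c302) (nat_lit 0x3221a9c15000400040000) (nat_lit 49)))
 (.p (nat_lit 0x41fe3db702) (nat_lit 0x440512) (nat_lit 4)))
 (.n (.p (nat_lit 0x246e1d1702) (nat_lit 0x300b03) (nat_lit 5))
 (.p (nat_lit 0x346c346a346834663462364d06) (nat_lit 0x10000c612d) (nat_lit 51))))
 (.n (.n (.p (nat_lit 0x214621422140213e213c1e9506) (nat_lit 0x8000010a00) (nat_lit 51))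
 (.p (nat_lit 0x3c623f3f02) (nat_lit 0x200020) (nat_lit 4)))
 (.n (.p (nat_lit 0xe170e0b02) (nat_lit 0x504307) (nat_lit 16))
 (.p (nat_lit 0x5cd71ae302) (nat_lit 0x160020000800) (nat_lit 40)))))
 (.n (.n (.n (.p (nat_lit 0x12f212ee12ea12e810cb10c706) (nat_lit 0xa000086500) (nat_lit 51))
 (.p (nat_lit 0x42763e4702) (nat_lit 0x140619) (nat_lit 5)))
 (.n (.p (nat_lit 0x128220ef02) (nat_lit 0x340405) (nat_lit 5))
 (.p (nat_lit 0x5ccb5db302) (nat_lit 0x220020000000) (nat_lit 37))))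
 (.n (.n (.p (nat_lit 0x2e802e7e2e7c2e7a2e780a0b06) (nat_lit 0x1000052102) (nat_lit 51))
 (.p (nat_lit 0x3df7364302) (nat_lit 0x254126) (nat_lit 16)))
 (.n (.p (nat_lit 0x4840445f02) (nat_lit 0x14040c) (nat_lit 4))
 (.p (nat_lit 0x153a5fcb02) (nat_lit 0x9582ec05800000000600) (nat_lit 49))))))
 (.n (.n (.n (.n (.p (nat_lit 0xc260c220c200c1c09d509cf06) (nat_lit 0x900004e200) (nat_lit 52))
 (.p (nat_lit 0x281543d02) (nat_lit 0x40615) (nat_lit 30)))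
 (.n (.p (nat_lit 0x1ade1ada1ad81ad61ad4168906) (nat_lit 0x8000010604) (nat_lit 52))
 (.p (nat_lit 0xec00ea00e600e400b5000706) (nat_lit 0x310705) (nat_lit 26))))
 (.n (.n (.p (nat_lit 0x33294302) (nat_lit 0x400401) (nat_lit 30))
 (.p (nat_lit 0x20742070206e206c206a09ed06) (nat_lit 0x8000054123) (nat_lit 52)))
 (.n (.p (nat_lit 0x2b88262b02) (nat_lit 0x908) (nat_lit 5))
 (.p (nat_lit 0x5d975ec302) (nat_lit 0x1600a0000b00) (nat_lit 36)))))
 (.n (.n (.n (.p (nat_lit 0x1a65179b02) (nat_lit 0x440700) (nat_lit 15))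
 (.p (nat_lit 0x16500d6702) (nat_lit 0x61c) (nat_lit 5)))
 (.n (.p (nat_lit 0x11384e3d02) (nat_lit 0x500406) (nat_lit 29))
 (.p (nat_lit 0x5d5d0fe902) (nat_lit 0x200080000400) (nat_lit 40))))
 (.n (.n (.p (nat_lit 0x15fa15f815f615f025b725b506) (nat_lit 0x3000052b02) (nat_lit 52))
 (.p (nat_lit 0x4cc04ca04c604c404c20cb906) (nat_lit 0x400004022a) (nat_lit 52)))
 (.n (.p (nat_lit 0x53325330532e532c532a532801f207) (nat_lit 0x4080e) (nat_lit 8))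
 (.p (nat_lit 0x64860cd02) (nat_lit 0x3502623b0000000040000) (nat_lit 50))))))

def c512_164 : Tr := .n c1024_164 c1024_676

def c1024_420 : Tr :=
 .n (.n (.n (.n (.n (.n (.p (nat_lit 0x22c022a0228022f04) (nat_lit 0x1c000400010) (nat_lit 17))
 (.p (nat_lit 0x64a618502) (nat_lit 0x421a86b95000000040000) (nat_lit 50)))
 (.p (nat_lit 0x397653bd02) (nat_lit 0x240411) (nat_lit 29)))
 (.n (.p (nat_lit 0x8f3ac102) (nat_lit 0x440603) (nat_lit 30))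
 (.p (nat_lit 0x2bce2bcc2bca2bc62bc404672bc907) (nat_lit 0x20092b) (nat_lit 7))))
 (.n (.n (.p (nat_lit 0x1f861f841f821f801f7c1d2b06) (nat_lit 0x1000048900) (nat_lit 51))
 (.p (nat_lit 0x34c0377502) (nat_lit 0x10001f) (nat_lit 4)))
 (.n (.p (nat_lit 0x93a0938093609340b3d0b3b06) (nat_lit 0x180000a207) (nat_lit 52))
 (.p (nat_lit 0x5d3b181d02) (nat_lit 0x120060000700) (nat_lit 40)))))
 (.n (.n (.n (.p (nat_lit 0xf640f620f600f5c001c000b00030f670f5f09) (nat_lit 0x2940400) (nat_lit 10))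
 (.p (nat_lit 0x34b739ef02) (nat_lit 0x200518) (nat_lit 15)))
 (.n (.p (nat_lit 0xa390a2d02) (nat_lit 0x4c105) (nat_lit 16))
 (.p (nat_lit 0x33a5bf102) (nat_lit 0x200224) (nat_lit 27))))
 (.n (.n (.p (nat_lit 0x23102c5102) (nat_lit 0x140a01) (nat_lit 29))
 (.p (nat_lit 0x2b2e574102) (nat_lit 0x200824) (nat_lit 29)))
 (.n (.p (nat_lit 0x40123c9f02) (nat_lit 0x24030b) (nat_lit 4))
 (.p (nat_lit 0x15345f8302) (nat_lit 0x581a32b44000000000600) (nat_lit 49))))))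
 (.n (.n (.n (.n (.p (nat_lit 0xa5b0a4f02) (nat_lit 0x500200) (nat_lit 34))
 (.p (nat_lit 0xa4e0a4c0a4a0a480a46138b06) (nat_lit 0x800004515) (nat_lit 52)))
 (.n (.p (nat_lit 0x12721f8b02) (nat_lit 0x140404) (nat_lit 5))
 (.p (nat_lit 0x2c590502) (nat_lit 0x100b02) (nat_lit 27))))
 (.n (.n (.p (nat_lit 0x2702270026fe26fc26fa08a106) (nat_lit 0x80008a101) (nat_lit 51))
 (.p (nat_lit 0x12da12d812d412d212d0074706) (nat_lit 0x40000c4023) (nat_lit 51)))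
 (.n (.p (nat_lit 0x241451cd02) (nat_lit 0xb07) (nat_lit 29))
 (.p (nat_lit 0x5ea4458f02) (nat_lit 0x80048a00) (nat_lit 48)))))
 (.n (.n (.n (.p (nat_lit 0x18da18d818d618d4162b162906) (nat_lit 0x18000094700) (nat_lit 51))
 (.p (nat_lit 0x307550902) (nat_lit 0x4011c) (nat_lit 30)))
 (.n (.p (nat_lit 0x7904b3902) (nat_lit 0x440006) (nat_lit 29))
 (.p (nat_lit 0x5e0210ed02) (nat_lit 0x60002300) (nat_lit 47))))
 (.n (.n (.p (nat_lit 0xfdc0fda0fd60fd42325231f06) (nat_lit 0x12000048a02) (nat_lit 52))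
 (.p (nat_lit 0xb53089502) (nat_lit 0x12a) (nat_lit 15)))
 (.n (.p (nat_lit 0x14ce07ef02) (nat_lit 0x34050e) (nat_lit 5))
 (.p (nat_lit 0x1976608302) (nat_lit 0x344380a64000100040600) (nat_lit 49))))))

def c1024_932 : Tr :=
 .n (.n (.n (.n (.n (.p (nat_lit 0x67a0678067606700651064f06) (nat_lit 0x3000046000) (nat_lit 51))
 (.p (nat_lit 0x4d104d0e4d0c4d0a4d084e2906) (nat_lit 0x1000048314) (nat_lit 51)))
 (.n (.p (nat_lit 0x3bc325c302) (nat_lit 0x240b03) (nat_lit 16))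
 (.p (nat_lit 0x425641d102) (nat_lit 0x30062e) (nat_lit 5))))
 (.n (.n (.p (nat_lit 0x22fd1ff902) (nat_lit 0x348a00) (nat_lit 16))
 (.p (nat_lit 0x441446ab02) (nat_lit 0x300021) (nat_lit 4)))
 (.n (.p (nat_lit 0x1228069502) (nat_lit 0x40407) (nat_lit 4))
 (.p (nat_lit 0x5d831c4502) (nat_lit 0x2a00a0000800) (nat_lit 39)))))
 (.n (.n (.n (.p (nat_lit 0x1515122102) (nat_lit 0x252500) (nat_lit 16))
 (.p (nat_lit 0x4b124ca102) (nat_lit 0x10001b) (nat_lit 5)))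
 (.n (.p (nat_lit 0x1ac3180502) (nat_lit 0x340605) (nat_lit 15))
 (.p (nat_lit 0x5d455dd102) (nat_lit 0x80060000100) (nat_lit 37))))
 (.n (.n (.p (nat_lit 0x1260189502) (nat_lit 0x440402) (nat_lit 4))
 (.p (nat_lit 0x11981196119411921190424506) (nat_lit 0x800084627) (nat_lit 52)))
 (.n (.p (nat_lit 0x50e64b0d02) (nat_lit 0x30090d) (nat_lit 5))
 (.p (nat_lit 0x2495248121db21d31f151f0f1c471c3d1983197916af169d60080d) (nat_lit 0x405aa0b95000000040600) (nat_lit 33))))))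
 (.n (.n (.n (.n (.p (nat_lit 0xe0d0b2f02) (nat_lit 0x2300) (nat_lit 16))
 (.p (nat_lit 0x3e363e343e323e303e2c201906) (nat_lit 0x10000ca915) (nat_lit 51)))
 (.n (.p (nat_lit 0x1b1a1b161b141b101955194f06) (nat_lit 0x9000082704) (nat_lit 51))
 (.p (nat_lit 0x1b55a6102) (nat_lit 0x40070b) (nat_lit 28))))
 (.n (.n (.p (nat_lit 0x1a4e1a4c1a461a441c1d1c1b06) (nat_lit 0x6000016801) (nat_lit 52))
 (.p (nat_lit 0x17d211ab02) (nat_lit 0x240623) (nat_lit 5)))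
 (.n (.p (nat_lit 0x32dc2d6f02) (nat_lit 0x540909) (nat_lit 4))
 (.p (nat_lit 0xe825ef702) (nat_lit 0x3a2530344000300040000) (nat_lit 50)))))
 (.n (.n (.n (.p (nat_lit 0x1a661a641a621a601a5e00011a5d07) (nat_lit 0x40800) (nat_lit 7))
 (.p (nat_lit 0x1ec00f1902) (nat_lit 0x20091c) (nat_lit 5)))
 (.n (.p (nat_lit 0x1d9d1ad102) (nat_lit 0x440706) (nat_lit 15))
 (.p (nat_lit 0x5e324a0b02) (nat_lit 0x80014500) (nat_lit 47))))
 (.n (.n (.p (nat_lit 0xb761b1d02) (nat_lit 0x203) (nat_lit 5))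
 (.p (nat_lit 0x166e145102) (nat_lit 0x30062a) (nat_lit 5)))
 (.n (.p (nat_lit 0x1f1536f02) (nat_lit 0x540b0e) (nat_lit 30))
 (.p (nat_lit 0x1142610d02) (nat_lit 0x3425219b0000400040000) (nat_lit 49))))))

def c512_420 : Tr := .n c1024_420 c1024_932

def c256_164 : Tr := .n c512_164 c512_420

def c128_36 : Tr := .n c256_36 c256_164

def c1024_100 : Tr :=
 .n (.n (.n (.n (.n (.n (.p (nat_lit 0x62005e006703) (nat_lit 0x14000500002) (nat_lit 17))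
 (.p (nat_lit 0x16a6613702) (nat_lit 0x3503a0d64000000040600) (nat_lit 50)))
 (.p (nat_lit 0x922091e091c091a09182bf106) (nat_lit 0x800004890f) (nat_lit 51)))
 (.n (.p (nat_lit 0x11101b5102) (nat_lit 0x300403) (nat_lit 4))
 (.p (nat_lit 0x3a383a343a323a303a2e1d7906) (nat_lit 0x80000c482a) (nat_lit 52))))
 (.n (.n (.p (nat_lit 0x1d551a6502) (nat_lit 0x444800) (nat_lit 16))
 (.p (nat_lit 0x24420f4f02) (nat_lit 0x500b1c) (nat_lit 5)))
 (.n (.p (nat_lit 0x1150114e114c114811461d9906) (nat_lit 0x20000c8806) (nat_lit 51))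
 (.p (nat_lit 0x5cff153902) (nat_lit 0x1e0040000600) (nat_lit 38)))))
 (.n (.n (.n (.p (nat_lit 0xf4e0f4c0f480f460c950c8f06) (nat_lit 0x4800056300) (nat_lit 51))
 (.p (nat_lit 0x2e2ae902) (nat_lit 0x240516) (nat_lit 1)))
 (.n (.p (nat_lit 0x247c247a2478247400d400bf00b7247f247709) (nat_lit 0x2900b04) (nat_lit 10))
 (.p (nat_lit 0x2875b0102) (nat_lit 0x300015) (nat_lit 28))))
 (.n (.n (.p (nat_lit 0xe800e7e0e7c0e7a0e781eeb06) (nat_lit 0x10000086901) (nat_lit 51))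
 (.p (nat_lit 0x3fe1ecd02) (nat_lit 0x200923) (nat_lit 1)))
 (.n (.p (nat_lit 0x1bb41bb01bae1bac1baa37db06) (nat_lit 0x800001630a) (nat_lit 52))
 (.p (nat_lit 0x1db65f3302) (nat_lit 0x3aa560c44000300000600) (nat_lit 50))))))
 (.n (.n (.n (.n (.p (nat_lit 0x7be07bc07ba07b805c705c506) (nat_lit 0x18000086100) (nat_lit 52))
 (.p (nat_lit 0x8120810080c080a05cf05c906) (nat_lit 0x480008e015) (nat_lit 52)))
 (.n (.p (nat_lit 0xa2a0a260a240a220a2000bd0a2907) (nat_lit 0x440104) (nat_lit 7))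
 (.p (nat_lit 0x476a491b02) (nat_lit 0x34032f) (nat_lit 4))))
 (.n (.n (.p (nat_lit 0x2479215902) (nat_lit 0x212b00) (nat_lit 16))
 (.p (nat_lit 0x4b8a4d7702) (nat_lit 0x340022) (nat_lit 5)))
 (.n (.p (nat_lit 0x2cac2caa2ca82ca62ca4190f06) (nat_lit 0x10000006707) (nat_lit 52))
 (.p (nat_lit 0x5d211da702) (nat_lit 0x2c0060000900) (nat_lit 38)))))
 (.n (.n (.n (.p (nat_lit 0x2c16b302) (nat_lit 0x140600) (nat_lit 1))
 (.p (nat_lit 0x16a2169e169c169a169805dd06) (nat_lit 0x800008c01c) (nat_lit 52)))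
 (.n (.p (nat_lit 0x129c129a1298129612941ac706) (nat_lit 0x1000004a705) (nat_lit 52))
 (.p (nat_lit 0x5cd90a5302) (nat_lit 0x140020000200) (nat_lit 40))))
 (.n (.n (.p (nat_lit 0x21bb1ef302) (nat_lit 0x300902) (nat_lit 15))
 (.p (nat_lit 0x4994482f02) (nat_lit 0x400628) (nat_lit 5)))
 (.n (.p (nat_lit 0x79e079c0798079410e110dd06) (nat_lit 0x500000240e) (nat_lit 52))
 (.p (nat_lit 0x2070603502) (nat_lit 0x4099a2335000400000600) (nat_lit 49))))))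

def c1024_612 : Tr :=
 .n (.n (.n (.n (.n (.n (.p (nat_lit 0x3c903bd03ae03) (nat_lit 0x42900023) (nat_lit 19))
 (.p (nat_lit 0xe7c61b302) (nat_lit 0x522266c0d000300040000) (nat_lit 50)))
 (.p (nat_lit 0x41043d2902) (nat_lit 0x240412) (nat_lit 5)))
 (.n (.p (nat_lit 0x9400a100a51d0b1ba505) (nat_lit 0xa0b40a03) (nat_lit 9))
 (.p (nat_lit 0x12e412e212e012de12dc336906) (nat_lit 0x10000006a2c) (nat_lit 51))))
 (.n (.n (.p (nat_lit 0x20de20dc20d820d41e931e8f06) (nat_lit 0x5000086a00) (nat_lit 51))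
 (.p (nat_lit 0xd280d240d220d200d1e3b9706) (nat_lit 0x8000000b1f) (nat_lit 52)))
 (.n (.p (nat_lit 0xe740e720e700e6e0e6c0e0b06) (nat_lit 0x10000086307) (nat_lit 52))
 (.p (nat_lit 0x5cb31ae102) (nat_lit 0xa0000000800) (nat_lit 40)))))
 (.n (.n (.n (.p (nat_lit 0x12b612b412b212ac10c710c506) (nat_lit 0x3000002500) (nat_lit 52))
 (.p (nat_lit 0x42083e3302) (nat_lit 0x340519) (nat_lit 5)))
 (.n (.p (nat_lit 0x127f0fbf02) (nat_lit 0x140305) (nat_lit 15))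
 (.p (nat_lit 0x5ca904c302) (nat_lit 0x140000000000) (nat_lit 38))))
 (.n (.n (.p (nat_lit 0x2dbc2dba2db82db62db42db2006407) (nat_lit 0x102) (nat_lit 8))
 (.p (nat_lit 0x35c6391502) (nat_lit 0x300126) (nat_lit 5)))
 (.n (.p (nat_lit 0x46ea43c502) (nat_lit 0x20030c) (nat_lit 4))
 (.p (nat_lit 0x20705fbf02) (nat_lit 0x89832955800400000600) (nat_lit 49))))))
 (.n (.n (.n (.n (.p (nat_lit 0xbc60bc40bc20bbe09d709cf06) (nat_lit 0x11000040200) (nat_lit 52))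
 (.p (nat_lit 0x14e114d502) (nat_lit 0x48515) (nat_lit 16)))
 (.n (.p (nat_lit 0x4d804d404d204ce1689168306) (nat_lit 0x9000000604) (nat_lit 51))
 (.p (nat_lit 0xec00ea00e800e2000302f706) (nat_lit 0xa0e205) (nat_lit 26))))
 (.n (.n (.p (nat_lit 0x10f90e2b02) (nat_lit 0x300301) (nat_lit 15))
 (.p (nat_lit 0x63e063c063a0636063409e906) (nat_lit 0x20000c0123) (nat_lit 52)))
 (.n (.p (nat_lit 0x2a322a302a2e2a2c2a2829ff06) (nat_lit 0x1000044408) (nat_lit 52))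
 (.p (nat_lit 0x5d7b5ebd02) (nat_lit 0x20080000b00) (nat_lit 37)))))
 (.n (.n (.n (.p (nat_lit 0x1a2a1a261a221a20179b179706) (nat_lit 0xa0000d2700) (nat_lit 51))
 (.p (nat_lit 0x14ea0ecb02) (nat_lit 0x54051c) (nat_lit 5)))
 (.n (.p (nat_lit 0x1134ddf02) (nat_lit 0x40306) (nat_lit 30))
 (.p (nat_lit 0x5d455e1702) (nat_lit 0x80060000400) (nat_lit 36))))
 (.n (.n (.p (nat_lit 0x3407246102) (nat_lit 0x20ab02) (nat_lit 16))
 (.p (nat_lit 0x1c441c421c3e1c3c1c3a0b5906) (nat_lit 0x400009022a) (nat_lit 52)))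
 (.n (.p (nat_lit 0x1a891a7d02) (nat_lit 0x44670e) (nat_lit 16))
 (.p (nat_lit 0x1f1a60af02) (nat_lit 0x344589ca4000300040600) (nat_lit 50))))))

def c512_100 : Tr := .n c1024_100 c1024_612

def c1024_356 : Tr :=
 .n (.n (.n (.n (.n (.n (.p (nat_lit 0x16d0159014e03) (nat_lit 0xa2000007) (nat_lit 19))
 (.p (nat_lit 0x1538617502) (nat_lit 0x521a86b11000000000600) (nat_lit 49)))
 (.p (nat_lit 0x246024d024b35e3357505) (nat_lit 0x46800411) (nat_lit 9)))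
 (.n (.p (nat_lit 0x1a2a1a261a241a221a20167d06) (nat_lit 0x8000092603) (nat_lit 51))
 (.p (nat_lit 0x1760175e175c175a1756288106) (nat_lit 0x10000d022b) (nat_lit 51))))
 (.n (.n (.p (nat_lit 0x1f121f061d2b03) (nat_lit 0x140900) (nat_lit 6))
 (.p (nat_lit 0x33502ff302) (nat_lit 0x500a1e) (nat_lit 4)))
 (.n (.p (nat_lit 0x512f206902) (nat_lit 0x540906) (nat_lit 16))
 (.p (nat_lit 0x5e56308d02) (nat_lit 0x20040700) (nat_lit 48)))))
 (.n (.n (.n (.p (nat_lit 0x10f50df702) (nat_lit 0x10c400) (nat_lit 16))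
 (.p (nat_lit 0x353e54b702) (nat_lit 0x140018) (nat_lit 29)))
 (.n (.p (nat_lit 0x78b077f02) (nat_lit 0x14c005) (nat_lit 16))
 (.p (nat_lit 0x39a039803960392038f033906) (nat_lit 0x2912722) (nat_lit 26))))
 (.n (.n (.p (nat_lit 0x21b0161102) (nat_lit 0x400a01) (nat_lit 5))
 (.p (nat_lit 0x273e29bd02) (nat_lit 0x500124) (nat_lit 5)))
 (.n (.p (nat_lit 0x3e6a3c7902) (nat_lit 0x10020b) (nat_lit 5))
 (.p (nat_lit 0x233c5f7302) (nat_lit 0x1aa074b50000500000600) (nat_lit 49))))))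
 (.n (.n (.n (.n (.p (nat_lit 0xa0f072302) (nat_lit 0x34e100) (nat_lit 16))
 (.p (nat_lit 0xeb20eb00eae0eaa0ea8124506) (nat_lit 0x20000c2415) (nat_lit 52)))
 (.n (.p (nat_lit 0x12750fb502) (nat_lit 0x240304) (nat_lit 15))
 (.p (nat_lit 0x620060005e005c0003018506) (nat_lit 0x814002) (nat_lit 26))))
 (.n (.n (.p (nat_lit 0x750264d02) (nat_lit 0x240001) (nat_lit 29))
 (.p (nat_lit 0x147614741472146e146c05e506) (nat_lit 0x2000010023) (nat_lit 52)))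
 (.n (.p (nat_lit 0x216a2168216221600162014701452167216509) (nat_lit 0x1a00a07) (nat_lit 10))
 (.p (nat_lit 0x5ea2207d02) (nat_lit 0x60000a00) (nat_lit 46)))))
 (.n (.n (.n (.p (nat_lit 0x18721870186c18681627162306) (nat_lit 0x5000006700) (nat_lit 52))
 (.p (nat_lit 0xa720a700a6c0a6a0a68088306) (nat_lit 0x400008011c) (nat_lit 51)))
 (.n (.p (nat_lit 0x4a931d8f02) (nat_lit 0x342805) (nat_lit 16))
 (.p (nat_lit 0x5d135dff02) (nat_lit 0xa0040000300) (nat_lit 37))))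
 (.n (.n (.p (nat_lit 0x231a18d502) (nat_lit 0x40a02) (nat_lit 5))
 (.p (nat_lit 0x146089b02) (nat_lit 0x30012a) (nat_lit 1)))
 (.n (.p (nat_lit 0x138452e702) (nat_lit 0x30050e) (nat_lit 29))
 (.p (nat_lit 0x634607502) (nat_lit 0x4688ae154000000040000) (nat_lit 49))))))

def c1024_868 : Tr :=
 .n (.n (.n (.n (.n (.n (.p (nat_lit 0x60d04e302) (nat_lit 0x410000) (nat_lit 16))
 (.p (nat_lit 0xbac61f102) (nat_lit 0x382a31d05000200040000) (nat_lit 49)))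
 (.p (nat_lit 0x1ee49dd02) (nat_lit 0x400713) (nat_lit 1)))
 (.n (.p (nat_lit 0xd100d0e0d0c0d0a0d0625c106) (nat_lit 0x1000046b03) (nat_lit 52))
 (.p (nat_lit 0x3e8841bd02) (nat_lit 0x50022e) (nat_lit 5))))
 (.n (.n (.p (nat_lit 0x22a0229e229c229a22981ff306) (nat_lit 0x8000cea00) (nat_lit 52))
 (.p (nat_lit 0x42dc3fff02) (nat_lit 0x400720) (nat_lit 4)))
 (.n (.p (nat_lit 0x10d6515d02) (nat_lit 0x400407) (nat_lit 29))
 (.p (nat_lit 0x5d531c4302) (nat_lit 0x2a0080000800) (nat_lit 39)))))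
 (.n (.n (.n (.p (nat_lit 0x14821480147e147c147a121d06) (nat_lit 0x8000d0500) (nat_lit 52))
 (.p (nat_lit 0x4984465502) (nat_lit 0x20061a) (nat_lit 4)))
 (.n (.p (nat_lit 0x497f169702) (nat_lit 0x502605) (nat_lit 16))
 (.p (nat_lit 0x5cd55dcb02) (nat_lit 0x180020000100) (nat_lit 36))))
 (.n (.n (.p (nat_lit 0x304e304a3048304630440fa106) (nat_lit 0x8000042302) (nat_lit 52))
 (.p (nat_lit 0x3dfc403d02) (nat_lit 0x540127) (nat_lit 5)))
 (.n (.p (nat_lit 0x500052b502) (nat_lit 0x24070d) (nat_lit 29))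
 (.p (nat_lit 0x15385ff702) (nat_lit 0x386a81c35000000000600) (nat_lit 49))))))
 (.n (.n (.n (.n (.p (nat_lit 0xd640d600d5e0d5c0d5a0b3706) (nat_lit 0x800008a300) (nat_lit 52))
 (.p (nat_lit 0x1d5d1d5102) (nat_lit 0x248815) (nat_lit 16)))
 (.n (.p (nat_lit 0x428917fb02) (nat_lit 0x446604) (nat_lit 16))
 (.p (nat_lit 0x1875a3f02) (nat_lit 0x100409) (nat_lit 28))))
 (.n (.n (.p (nat_lit 0x1c1c15df02) (nat_lit 0x300801) (nat_lit 4))
 (.p (nat_lit 0xcbb0caf02) (nat_lit 0x440223) (nat_lit 16)))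
 (.n (.p (nat_lit 0x18f618f418f218f018ec308d06) (nat_lit 0x10000d6309) (nat_lit 51))
 (.p (nat_lit 0x1adc5eeb02) (nat_lit 0x4a8876344000200000600) (nat_lit 49)))))
 (.n (.n (.n (.p (nat_lit 0x1bc318f902) (nat_lit 0x800) (nat_lit 15))
 (.p (nat_lit 0x34e1d5902) (nat_lit 0x4081c) (nat_lit 1)))
 (.n (.p (nat_lit 0x1ad21ad01ace1acc1aca01131ac907) (nat_lit 0x40706) (nat_lit 7))
 (.p (nat_lit 0x5d3512a702) (nat_lit 0x180060000500) (nat_lit 40))))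
 (.n (.n (.p (nat_lit 0xa1835db02) (nat_lit 0x240103) (nat_lit 29))
 (.p (nat_lit 0x43b57d302) (nat_lit 0x34032a) (nat_lit 30)))
 (.n (.p (nat_lit 0x2420535902) (nat_lit 0xb0e) (nat_lit 29))
 (.p (nat_lit 0x181460f702) (nat_lit 0x440d663a4000100000600) (nat_lit 49))))))

def c512_356 : Tr := .n c1024_356 c1024_868

def c256_100 : Tr := .n c512_100 c512_356

def c1024_228 : Tr :=
 .n (.n (.n (.n (.n (.n (.p (nat_lit 0xdf00cd00c203) (nat_lit 0xa1800004) (nat_lit 19))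
 (.p (nat_lit 0xba8615702) (nat_lit 0x1503a8895800200040000) (nat_lit 49)))
 (.p (nat_lit 0x32a632a432a2329e329c022732a107) (nat_lit 0x200910) (nat_lit 7)))
 (.n (.p (nat_lit 0x8f398f02) (nat_lit 0x400503) (nat_lit 30))
 (.p (nat_lit 0x230214a702) (nat_lit 0x40a2a) (nat_lit 4))))
 (.n (.n (.p (nat_lit 0x1e4c1e4a1e461e441bcd1bc706) (nat_lit 0x1200000c900) (nat_lit 52))
 (.p (nat_lit 0x2c00291702) (nat_lit 0x4091d) (nat_lit 5)))
 (.n (.p (nat_lit 0x2212220c220a22081f011eff06) (nat_lit 0xc000082906) (nat_lit 51))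
 (.p (nat_lit 0x5d9516a302) (nat_lit 0x1800a0000600) (nat_lit 39)))))
 (.n (.n (.n (.p (nat_lit 0x10000ffe0ffc0ff80dff0df706) (nat_lit 0x11000080400) (nat_lit 52))
 (.p (nat_lit 0x32823280327c327a327802c3327f07) (nat_lit 0x340517) (nat_lit 7)))
 (.n (.p (nat_lit 0x2146214421422140213c25cd06) (nat_lit 0x1000050b04) (nat_lit 51))
 (.p (nat_lit 0x30e030c030a03060283000b06) (nat_lit 0xd0201c) (nat_lit 26))))
 (.n (.n (.p (nat_lit 0x8f208ee08ec08ea08e8204f06) (nat_lit 0x80000c2901) (nat_lit 52))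
 (.p (nat_lit 0x2444120502) (nat_lit 0xb23) (nat_lit 5)))
 (.n (.p (nat_lit 0x525a5258525652545252525001a407) (nat_lit 0x4060a) (nat_lit 8))
 (.p (nat_lit 0x181c5f5702) (nat_lit 0x1aa522350000100000600) (nat_lit 50))))))
 (.n (.n (.n (.n (.p (nat_lit 0x72408f102) (nat_lit 0x440100) (nat_lit 4))
 (.p (nat_lit 0x289541502) (nat_lit 0x400415) (nat_lit 30)))
 (.n (.p (nat_lit 0xc200df00cb1dfd1f6105) (nat_lit 0xac440204) (nat_lit 9))
 (.p (nat_lit 0x50cc4f9902) (nat_lit 0x240830) (nat_lit 4))))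
 (.n (.n (.p (nat_lit 0x255a255825562554255222c506) (nat_lit 0x10000052b00) (nat_lit 52))
 (.p (nat_lit 0xd400d3e0d3c0d3a0d36505f06) (nat_lit 0x1000002822) (nat_lit 51)))
 (.n (.p (nat_lit 0x4a751bd702) (nat_lit 0x414807) (nat_lit 16))
 (.p (nat_lit 0x5c93207702) (nat_lit 0x2a0000000a00) (nat_lit 40)))))
 (.n (.n (.n (.p (nat_lit 0x178417821780177e177c16b106) (nat_lit 0x800054600) (nat_lit 52))
 (.p (nat_lit 0x154a1548154615441542073506) (nat_lit 0x80004c01c) (nat_lit 51)))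
 (.n (.p (nat_lit 0x1f7a1f761f741f721f701c2b06) (nat_lit 0x8000086805) (nat_lit 52))
 (.p (nat_lit 0x5d5d0baf02) (nat_lit 0x200080000200) (nat_lit 39))))
 (.n (.n (.p (nat_lit 0x21ba1a3302) (nat_lit 0x300a02) (nat_lit 5))
 (.p (nat_lit 0x4d464e6d02) (nat_lit 0x140229) (nat_lit 5)))
 (.n (.p (nat_lit 0x64a0648064606440640123706) (nat_lit 0x10000c040e) (nat_lit 51))
 (.p (nat_lit 0x7a6605502) (nat_lit 0x5858b0b44000100000000) (nat_lit 50))))))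

def c1024_740 : Tr :=
 .n (.n (.n (.n (.n (.n (.p (nat_lit 0x4fc04fa04f804f604dd04db06) (nat_lit 0x1800084000) (nat_lit 52))
 (.p (nat_lit 0x234861d102) (nat_lit 0x54216ac0c800500000600) (nat_lit 50)))
 (.p (nat_lit 0x42c03d5302) (nat_lit 0x200712) (nat_lit 4)))
 (.n (.p (nat_lit 0x153e153c153a15381536246906) (nat_lit 0x80000cb03) (nat_lit 52))
 (.p (nat_lit 0x1d021d001cfe1cfc1cfa375b06) (nat_lit 0x80005422d) (nat_lit 51))))
 (.n (.n (.p (nat_lit 0x21ad1e9102) (nat_lit 0x20ca00) (nat_lit 16))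
 (.p (nat_lit 0x3de63f5102) (nat_lit 0x40120) (nat_lit 5)))
 (.n (.p (nat_lit 0xd100d0c0d0a0d080d060f7106) (nat_lit 0x8000046307) (nat_lit 52))
 (.p (nat_lit 0x5cfb5e6f02) (nat_lit 0x220040000800) (nat_lit 36)))))
 (.n (.n (.n (.p (nat_lit 0x13b310c702) (nat_lit 0x20e500) (nat_lit 16))
 (.p (nat_lit 0x373637343730372e372c431506) (nat_lit 0x4000056719) (nat_lit 52)))
 (.n (.p (nat_lit 0x151c48d502) (nat_lit 0x40505) (nat_lit 29))
 (.p (nat_lit 0x5d355dbd02) (nat_lit 0x180060000000) (nat_lit 36))))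
 (.n (.n (.p (nat_lit 0xcd0186302) (nat_lit 0x340202) (nat_lit 4))
 (.p (nat_lit 0x3f3576702) (nat_lit 0x340a26) (nat_lit 30)))
 (.n (.p (nat_lit 0x4a1e448102) (nat_lit 0x34070c) (nat_lit 5))
 (.p (nat_lit 0xa465fd502) (nat_lit 0x382c60b44000200000000) (nat_lit 49))))))
 (.n (.n (.n (.n (.p (nat_lit 0xcdd09d302) (nat_lit 0x350200) (nat_lit 16))
 (.p (nat_lit 0x2efa2ef62ef42ef22ef0192506) (nat_lit 0x800008a715) (nat_lit 51)))
 (.n (.p (nat_lit 0x17fc17fa17f817f417f200b917f707) (nat_lit 0x240604) (nat_lit 7))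
 (.p (nat_lit 0x1180116011401120009042706) (nat_lit 0x2510406) (nat_lit 26))))
 (.n (.n (.p (nat_lit 0x128b124f02) (nat_lit 0x154401) (nat_lit 16))
 (.p (nat_lit 0xb50118d02) (nat_lit 0x500223) (nat_lit 4)))
 (.n (.p (nat_lit 0x4af64af44af24af04aee2c6506) (nat_lit 0x10000050a08) (nat_lit 52))
 (.p (nat_lit 0x23465ecf02) (nat_lit 0x4a1a34344000500000600) (nat_lit 50)))))
 (.n (.n (.n (.p (nat_lit 0x18fe1adb02) (nat_lit 0x300800) (nat_lit 4))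
 (.p (nat_lit 0x192c553d02) (nat_lit 0x20071c) (nat_lit 29)))
 (.n (.p (nat_lit 0x152b128b02) (nat_lit 0x140406) (nat_lit 15))
 (.p (nat_lit 0x5e2050c702) (nat_lit 0xa0056400) (nat_lit 47))))
 (.n (.n (.p (nat_lit 0x34d434d234d034ce34cc34ca009207) (nat_lit 0x40003) (nat_lit 8))
 (.p (nat_lit 0x1f1a1f161f141f121f100cbb06) (nat_lit 0x80000d222a) (nat_lit 51)))
 (.n (.p (nat_lit 0x2541eab02) (nat_lit 0x30090e) (nat_lit 1))
 (.p (nat_lit 0xe7260d702) (nat_lit 0x354a623b0000300040000) (nat_lit 49))))))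

def c512_228 : Tr := .n c1024_228 c1024_740

def c1024_484 : Tr :=
 .n (.n (.n (.n (.n (.n (.p (nat_lit 0x2e102dd02da03) (nat_lit 0x81000018) (nat_lit 19))
 (.p (nat_lit 0x636619902) (nat_lit 0x3422a5c14800000040000) (nat_lit 49)))
 (.p (nat_lit 0x3aee361102) (nat_lit 0xa11) (nat_lit 4)))
 (.n (.p (nat_lit 0x17f717eb02) (nat_lit 0x254603) (nat_lit 16))
 (.p (nat_lit 0x622f4502) (nat_lit 0x50022c) (nat_lit 1))))
 (.n (.n (.p (nat_lit 0x1fe41fe21fe01fdc1fda1d2d06) (nat_lit 0x2000056900) (nat_lit 51))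
 (.p (nat_lit 0x35b855bd02) (nat_lit 0x11f) (nat_lit 29)))
 (.n (.p (nat_lit 0x14e0157015b066904f705) (nat_lit 0x80a40207) (nat_lit 9))
 (.p (nat_lit 0x5d6f5e5f02) (nat_lit 0xe0080000700) (nat_lit 37)))))
 (.n (.n (.n (.p (nat_lit 0x119611941190118e0f670f6106) (nat_lit 0x120000c4400) (nat_lit 52))
 (.p (nat_lit 0x3e5e3e5c3e5a3e583b053afb06) (nat_lit 0x1080008ea18) (nat_lit 51)))
 (.n (.p (nat_lit 0xe7461302) (nat_lit 0x240205) (nat_lit 30))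
 (.p (nat_lit 0x43e043c043604340481000506) (nat_lit 0x1a0e22a) (nat_lit 26))))
 (.n (.n (.p (nat_lit 0x2c7b231302) (nat_lit 0x248a01) (nat_lit 16))
 (.p (nat_lit 0x35592dad02) (nat_lit 0x252025) (nat_lit 16)))
 (.n (.p (nat_lit 0x56605640562055e055c421906) (nat_lit 0x200001060b) (nat_lit 52))
 (.p (nat_lit 0x4d05f9302) (nat_lit 0x580bb0344000000000000) (nat_lit 50))))))
 (.n (.n (.n (.n (.p (nat_lit 0xaa20aa00a9c0a9a0877087106) (nat_lit 0x480008a200) (nat_lit 51))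
 (.p (nat_lit 0x21e221e021de21dc21d8138d06) (nat_lit 0x1000094515) (nat_lit 51)))
 (.n (.p (nat_lit 0x13c8411902) (nat_lit 0x100504) (nat_lit 29))
 (.p (nat_lit 0x89593502) (nat_lit 0x100403) (nat_lit 28))))
 (.n (.n (.p (nat_lit 0xa410a0502) (nat_lit 0x454101) (nat_lit 16))
 (.p (nat_lit 0xa4e0a4c0a4a0a480a46088906) (nat_lit 0x800004123) (nat_lit 52)))
 (.n (.p (nat_lit 0x257205b902) (nat_lit 0x440b07) (nat_lit 5))
 (.p (nat_lit 0x5ce55eb302) (nat_lit 0x80020000b00) (nat_lit 36)))))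
 (.n (.n (.n (.p (nat_lit 0x1947162702) (nat_lit 0x30a700) (nat_lit 16))
 (.p (nat_lit 0x9eb09df02) (nat_lit 0x34a11c) (nat_lit 16)))
 (.n (.p (nat_lit 0xa3824bd02) (nat_lit 0x40106) (nat_lit 5))
 (.p (nat_lit 0x5d9d0d1d02) (nat_lit 0x1000a0000300) (nat_lit 40))))
 (.n (.n (.p (nat_lit 0x249624942490248e248c232106) (nat_lit 0x40000d6a02) (nat_lit 51))
 (.p (nat_lit 0x67a06780672067009f709f506) (nat_lit 0x600004612a) (nat_lit 51)))
 (.n (.p (nat_lit 0x2ae314d302) (nat_lit 0x54c50e) (nat_lit 16))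
 (.p (nat_lit 0x181e609302) (nat_lit 0x356221ca4000100000600) (nat_lit 50))))))

def c1024_996 : Tr :=
 .n (.n (.n (.n (.n (.p (nat_lit 0x70006fc06fa06f80657065306) (nat_lit 0x140000d4000) (nat_lit 52))
 (.p (nat_lit 0x4ac24abe4abc4aba4ab84fa906) (nat_lit 0x8000046514) (nat_lit 52)))
 (.n (.p (nat_lit 0x3c4a3c483c463c443c423c4006) (nat_lit 0xe004) (nat_lit 52))
 (.p (nat_lit 0x4b0435502) (nat_lit 0x300b2e) (nat_lit 1))))
 (.n (.n (.p (nat_lit 0x2378237623742372236e215706) (nat_lit 0x1000082b00) (nat_lit 52))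
 (.p (nat_lit 0x458046c102) (nat_lit 0x240121) (nat_lit 5)))
 (.n (.p (nat_lit 0x12ce12cc12ca12c612c4122d06) (nat_lit 0x2000044407) (nat_lit 52))
 (.p (nat_lit 0x5cdd1daf02) (nat_lit 0x100020000900) (nat_lit 40)))))
 (.n (.n (.n (.p (nat_lit 0x15ca15c815c615c01551154f06) (nat_lit 0x300000a600) (nat_lit 51))
 (.p (nat_lit 0x2ae501502) (nat_lit 0x4071b) (nat_lit 1)))
 (.n (.p (nat_lit 0x154a1548154415421540195f06) (nat_lit 0x400000c705) (nat_lit 51))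
 (.p (nat_lit 0x5d635dd702) (nat_lit 0x1a0080000100) (nat_lit 36))))
 (.n (.n (.p (nat_lit 0x13bd13b102) (nat_lit 0x112502) (nat_lit 16))
 (.p (nat_lit 0x412439d02) (nat_lit 0x540b27) (nat_lit 1)))
 (.n (.p (nat_lit 0xbc80bc60bc40bc20e0f0e0d06) (nat_lit 0x180000030e) (nat_lit 52))
 (.p (nat_lit 0x1ae0601702) (nat_lit 0x405aa2335000200000600) (nat_lit 50))))))
 (.n (.n (.n (.n (.p (nat_lit 0xc960e7502) (nat_lit 0x440300) (nat_lit 4))
 (.p (nat_lit 0x2c3f217b02) (nat_lit 0x10ca15) (nat_lit 16)))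
 (.n (.p (nat_lit 0x1959194d02) (nat_lit 0x16704) (nat_lit 16))
 (.p (nat_lit 0x1e75a7902) (nat_lit 0x50e) (nat_lit 28))))
 (.n (.n (.p (nat_lit 0x352b4902) (nat_lit 0x540801) (nat_lit 30))
 (.p (nat_lit 0x1aa01a9e1a9c1a9803c203ab03a31aa31a9b09) (nat_lit 0x2940723) (nat_lit 10)))
 (.n (.p (nat_lit 0x50805060502050004fe337d06) (nat_lit 0x4000046a09) (nat_lit 52))
 (.p (nat_lit 0x15425f1502) (nat_lit 0x3aa530344000000000600) (nat_lit 50)))))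
 (.n (.n (.n (.p (nat_lit 0x1c981c941c921c8e1a651a5f06) (nat_lit 0x90000c4800) (nat_lit 52))
 (.p (nat_lit 0x2035202902) (nat_lit 0x34a91c) (nat_lit 16)))
 (.n (.p (nat_lit 0xfde0fdc0fda0fd80fd61c2f06) (nat_lit 0x800008806) (nat_lit 52))
 (.p (nat_lit 0x5ca9169902) (nat_lit 0x140000000600) (nat_lit 39))))
 (.n (.n (.p (nat_lit 0x374b0cdf02) (nat_lit 0x440203) (nat_lit 16))
 (.p (nat_lit 0x194a19481946194419420435194107) (nat_lit 0x72a) (nat_lit 7)))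
 (.n (.p (nat_lit 0x317d2a1302) (nat_lit 0x55040f) (nat_lit 16))
 (.p (nat_lit 0x2076611902) (nat_lit 0x342521ca4000400000600) (nat_lit 50))))))

def c512_484 : Tr := .n c1024_484 c1024_996

def c256_228 : Tr := .n c512_228 c512_484

def c128_100 : Tr := .n c256_100 c256_228

def c64_36 : Tr := .n c128_36 c128_100

def c32_4 : Tr := .n c64_4 c64_36

def c1024_20 : Tr :=
 .n (.n (.n (.n (.n (.n (.p (nat_lit 0x21001f001700130011000d06) (nat_lit 0x211900000) (nat_lit 22))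
 (.p (nat_lit 0xbb6612902) (nat_lit 0x35486a3a4000200040000) (nat_lit 50)))
 (.p (nat_lit 0x2b0c277b02) (nat_lit 0x20080f) (nat_lit 5)))
 (.n (.p (nat_lit 0xe490e3d02) (nat_lit 0x14303) (nat_lit 16))
 (.p (nat_lit 0x1aa4131902) (nat_lit 0x4072a) (nat_lit 4))))
 (.n (.n (.p (nat_lit 0x1ce61ce41ce21ce01a671a6506) (nat_lit 0x1800004c800) (nat_lit 52))
 (.p (nat_lit 0x2193218702) (nat_lit 0x10aa1c) (nat_lit 16)))
 (.n (.p (nat_lit 0x1ef91c2f02) (nat_lit 0x806) (nat_lit 15))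
 (.p (nat_lit 0x5ce55e3d02) (nat_lit 0x80020000600) (nat_lit 37)))))
 (.n (.n (.n (.p (nat_lit 0xeb20eb00eae0eac0ea80c9106) (nat_lit 0x10000c2300) (nat_lit 52))
 (.p (nat_lit 0x242c0c7902) (nat_lit 0xb15) (nat_lit 4)))
 (.n (.p (nat_lit 0x1cc61cc41cc21cbc1ab51ab306) (nat_lit 0x30000c8704) (nat_lit 51))
 (.p (nat_lit 0x5aa65aa45aa25aa05a9e022301f207) (nat_lit 0xc80e) (nat_lit 25))))
 (.n (.n (.p (nat_lit 0x20491d7f02) (nat_lit 0x140801) (nat_lit 15))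
 (.p (nat_lit 0x38c438c238c038be38ba1c0106) (nat_lit 0x1000016823) (nat_lit 52)))
 (.n (.p (nat_lit 0x26ba26b626b426b226b0342306) (nat_lit 0x80000d4b09) (nat_lit 52))
 (.p (nat_lit 0x15485f1d02) (nat_lit 0x3a2274350000000000600) (nat_lit 50))))))
 (.n (.n (.n (.n (.p (nat_lit 0x76b065302) (nat_lit 0x350000) (nat_lit 16))
 (.p (nat_lit 0x7cc07ca07c807c607c4504f06) (nat_lit 0x10000008814) (nat_lit 52)))
 (.n (.p (nat_lit 0x3ca23c9e3c9c3c9a077b077706) (nat_lit 0x140000c6004) (nat_lit 52))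
 (.p (nat_lit 0x4604487902) (nat_lit 0x10022f) (nat_lit 4))))
 (.n (.n (.p (nat_lit 0x23ee23ea23e623e4215d215906) (nat_lit 0xa000010b00) (nat_lit 52))
 (.p (nat_lit 0xe8e0e8a0e880e860e8449f506) (nat_lit 0x8000000721) (nat_lit 51)))
 (.n (.p (nat_lit 0x263e263c263a26382636162f06) (nat_lit 0x1000092607) (nat_lit 51))
 (.p (nat_lit 0x5d1b1f0902) (nat_lit 0x20040000900) (nat_lit 39)))))
 (.n (.n (.n (.p (nat_lit 0x16041602160015fe15fc155706) (nat_lit 0x10000092600) (nat_lit 51))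
 (.p (nat_lit 0x51004cef02) (nat_lit 0x50091b) (nat_lit 4)))
 (.n (.p (nat_lit 0x49eb196302) (nat_lit 0x504705) (nat_lit 16))
 (.p (nat_lit 0x5d7f5dd902) (nat_lit 0x2e00a0000100) (nat_lit 37))))
 (.n (.n (.p (nat_lit 0x327f14ff02) (nat_lit 0x344502) (nat_lit 16))
 (.p (nat_lit 0x451e478f02) (nat_lit 0x400128) (nat_lit 4)))
 (.n (.p (nat_lit 0xf7a07bf02) (nat_lit 0x34030e) (nat_lit 4))
 (.p (nat_lit 0xbae602102) (nat_lit 0x406a6252d000200040000) (nat_lit 49))))))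

def c1024_532 : Tr :=
 .n (.n (.n (.n (.n (.n (.p (nat_lit 0x32903270325031604) (nat_lit 0x3630001c) (nat_lit 20))
 (.p (nat_lit 0x180a61a102) (nat_lit 0x3222a5c15000100000600) (nat_lit 49)))
 (.p (nat_lit 0x3b893b7d02) (nat_lit 0x306b11) (nat_lit 16)))
 (.n (.p (nat_lit 0x1f481f461f441f4221cb21c106) (nat_lit 0x10800082a03) (nat_lit 52))
 (.p (nat_lit 0x301e322d02) (nat_lit 0x50032c) (nat_lit 4))))
 (.n (.n (.p (nat_lit 0x20311d2b02) (nat_lit 0x148900) (nat_lit 16))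
 (.p (nat_lit 0x39fc382102) (nat_lit 0x30051f) (nat_lit 5)))
 (.n (.p (nat_lit 0x9be09bc09ba09b40c9f0c9d06) (nat_lit 0x3000056207) (nat_lit 52))
 (.p (nat_lit 0x5e60317b02) (nat_lit 0x80042700) (nat_lit 48)))))
 (.n (.n (.n (.p (nat_lit 0x12470f6302) (nat_lit 0x344400) (nat_lit 16))
 (.p (nat_lit 0xaae0aac0aaa0aa60aa43bdb06) (nat_lit 0x200004cb18) (nat_lit 51)))
 (.n (.p (nat_lit 0xe5620cb02) (nat_lit 0x100305) (nat_lit 5))
 (.p (nat_lit 0x4a85c5f02) (nat_lit 0x30092a) (nat_lit 27))))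
 (.n (.n (.p (nat_lit 0x60f060302) (nat_lit 0x512002) (nat_lit 16))
 (.p (nat_lit 0x3040303e303c303a30382fa306) (nat_lit 0x100000c0225) (nat_lit 52)))
 (.n (.p (nat_lit 0x42b83c4902) (nat_lit 0x40070b) (nat_lit 4))
 (.p (nat_lit 0x4c25f9d02) (nat_lit 0x568bb0344000000000000) (nat_lit 49))))))
 (.n (.n (.n (.n (.p (nat_lit 0xb49087302) (nat_lit 0x108200) (nat_lit 16))
 (.p (nat_lit 0x14de14dc14da14d602920285028114d914d509) (nat_lit 0x1040515) (nat_lit 10)))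
 (.n (.p (nat_lit 0x419d13d102) (nat_lit 0x504504) (nat_lit 16))
 (.p (nat_lit 0xb7595502) (nat_lit 0x100204) (nat_lit 28))))
 (.n (.n (.p (nat_lit 0xb9f0b6302) (nat_lit 0x214201) (nat_lit 16))
 (.p (nat_lit 0x1adc1ada1ad81ad61ad4089306) (nat_lit 0x10000010123) (nat_lit 52)))
 (.n (.p (nat_lit 0x270c270a270827062704281706) (nat_lit 0x10000010208) (nat_lit 52))
 (.p (nat_lit 0x5d09233702) (nat_lit 0x140040000b00) (nat_lit 38)))))
 (.n (.n (.n (.p (nat_lit 0x179a198502) (nat_lit 0x440700) (nat_lit 5))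
 (.p (nat_lit 0x139e139c139a139603280311030913a1139909) (nat_lit 0x290051c) (nat_lit 10)))
 (.n (.p (nat_lit 0x4c8f0a4102) (nat_lit 0x448106) (nat_lit 16))
 (.p (nat_lit 0x5e0a2bb902) (nat_lit 0xc400) (nat_lit 48))))
 (.n (.n (.p (nat_lit 0x246624642460245e245c005f246307) (nat_lit 0x300b02) (nat_lit 7))
 (.p (nat_lit 0xb5412c702) (nat_lit 0x10022a) (nat_lit 4)))
 (.n (.p (nat_lit 0x1913163b02) (nat_lit 0x10060e) (nat_lit 15))
 (.p (nat_lit 0x1814609d02) (nat_lit 0x346068ca4000100000600) (nat_lit 49))))))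

def c512_20 : Tr := .n c1024_20 c1024_532

def c1024_276 : Tr :=
 .n (.n (.n (.n (.n (.n (.p (nat_lit 0x111010f00f003) (nat_lit 0xa2300005) (nat_lit 19))
 (.p (nat_lit 0x1986616102) (nat_lit 0x3503a8d84000100040600) (nat_lit 50)))
 (.p (nat_lit 0x338c338a3388338633820225338507) (nat_lit 0x140a10) (nat_lit 7)))
 (.n (.p (nat_lit 0x913a0d02) (nat_lit 0x540503) (nat_lit 30))
 (.p (nat_lit 0x1671245902) (nat_lit 0x400b2a) (nat_lit 15))))
 (.n (.n (.p (nat_lit 0x1e7c1e7a1e781e741bcd1bc506) (nat_lit 0x11000016900) (nat_lit 52))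
 (.p (nat_lit 0x34c72d0502) (nat_lit 0x41201e) (nat_lit 16)))
 (.n (.p (nat_lit 0x205e240902) (nat_lit 0x40906) (nat_lit 5))
 (.p (nat_lit 0x5c9d197102) (nat_lit 0x200000000700) (nat_lit 39)))))
 (.n (.n (.n (.p (nat_lit 0x1030102e102c102a10280dff06) (nat_lit 0x10000084400) (nat_lit 51))
 (.p (nat_lit 0x286334102) (nat_lit 0x300a17) (nat_lit 1)))
 (.n (.p (nat_lit 0xe943b102) (nat_lit 0x300005) (nat_lit 30))
 (.p (nat_lit 0x30f5ba102) (nat_lit 0x40081c) (nat_lit 28))))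
 (.n (.n (.p (nat_lit 0x19781976197419721970205106) (nat_lit 0x100000ce901) (nat_lit 52))
 (.p (nat_lit 0x2457244b02) (nat_lit 0x300b23) (nat_lit 16)))
 (.n (.p (nat_lit 0x3b70352b02) (nat_lit 0x300b0a) (nat_lit 4))
 (.p (nat_lit 0xbb25f5f02) (nat_lit 0x4a1d22344000200040000) (nat_lit 50))))))
 (.n (.n (.n (.n (.p (nat_lit 0x92a0928092609240727072506) (nat_lit 0x180000c8100) (nat_lit 52))
 (.p (nat_lit 0xdaa0da80da60da40da210e706) (nat_lit 0x800090415) (nat_lit 51)))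
 (.n (.p (nat_lit 0xcf70ceb02) (nat_lit 0x456204) (nat_lit 16))
 (.p (nat_lit 0x3358a702) (nat_lit 0x400301) (nat_lit 28))))
 (.n (.n (.p (nat_lit 0x25a322c302) (nat_lit 0x448b00) (nat_lit 16))
 (.p (nat_lit 0x51084dbb02) (nat_lit 0x300922) (nat_lit 4)))
 (.n (.p (nat_lit 0x1e9c06db02) (nat_lit 0x200907) (nat_lit 4))
 (.p (nat_lit 0x5cd521db02) (nat_lit 0x180020000a00) (nat_lit 41)))))
 (.n (.n (.n (.p (nat_lit 0x17cd16bb02) (nat_lit 0x546600) (nat_lit 16))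
 (.p (nat_lit 0x233c233a233823362332073706) (nat_lit 0x100005601c) (nat_lit 52)))
 (.n (.p (nat_lit 0x1d8c22b302) (nat_lit 0x240805) (nat_lit 4))
 (.p (nat_lit 0x5d910a4f02) (nat_lit 0x1c00a0000200) (nat_lit 38))))
 (.n (.n (.p (nat_lit 0x129e129c129a1298129421b706) (nat_lit 0x100000aa02) (nat_lit 52))
 (.p (nat_lit 0x5070579902) (nat_lit 0x400829) (nat_lit 29)))
 (.n (.p (nat_lit 0x1ade1adc1ada1ad81ad4123706) (nat_lit 0x100005040e) (nat_lit 52))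
 (.p (nat_lit 0x64a606102) (nat_lit 0x85ab0335000000040000) (nat_lit 50))))))

def c1024_788 : Tr :=
 .n (.n (.n (.n (.n (.n (.p (nat_lit 0x52c052a05280526052204dd06) (nat_lit 0x1000088000) (nat_lit 51))
 (.p (nat_lit 0x234461dd02) (nat_lit 0x3302a5895000500000600) (nat_lit 50)))
 (.p (nat_lit 0x484f475f02) (nat_lit 0x240313) (nat_lit 15)))
 (.n (.p (nat_lit 0x248a2484248224802471246f06) (nat_lit 0xc000096b03) (nat_lit 52))
 (.p (nat_lit 0x41d441d241ce41cc41ca3b5906) (nat_lit 0x400004ca2d) (nat_lit 51))))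
 (.n (.n (.p (nat_lit 0x1ffc21e302) (nat_lit 0x540a00) (nat_lit 5))
 (.p (nat_lit 0x4238560502) (nat_lit 0x620) (nat_lit 29)))
 (.n (.p (nat_lit 0x21e221e021de21dc21da0f6906) (nat_lit 0x8000d4307) (nat_lit 51))
 (.p (nat_lit 0x5d275e7302) (nat_lit 0x260060000800) (nat_lit 36)))))
 (.n (.n (.n (.p (nat_lit 0x1226140102) (nat_lit 0x540500) (nat_lit 5))
 (.p (nat_lit 0x485845b502) (nat_lit 0x14041a) (nat_lit 4)))
 (.n (.p (nat_lit 0x168c210d02) (nat_lit 0x605) (nat_lit 4))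
 (.p (nat_lit 0x5dbe089d02) (nat_lit 0x80008000) (nat_lit 47))))
 (.n (.n (.p (nat_lit 0xe3419d302) (nat_lit 0x200302) (nat_lit 5))
 (.p (nat_lit 0x3bf0395d02) (nat_lit 0x140b26) (nat_lit 5)))
 (.n (.p (nat_lit 0x4dc4529d02) (nat_lit 0x20030d) (nat_lit 29))
 (.p (nat_lit 0x11425fe102) (nat_lit 0x3062a1c35000400040000) (nat_lit 49))))))
 (.n (.n (.n (.n (.p (nat_lit 0xd1b0d0f02) (nat_lit 0x400300) (nat_lit 34))
 (.p (nat_lit 0x1a8a545f02) (nat_lit 0x540715) (nat_lit 29)))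
 (.n (.p (nat_lit 0xd1a0d160d140d1217fd17f906) (nat_lit 0x14000046604) (nat_lit 51))
 (.p (nat_lit 0x59fa59f859f659f459f2000b014c07) (nat_lit 0x508207) (nat_lit 25))))
 (.n (.n (.p (nat_lit 0x13e713ab02) (nat_lit 0x414501) (nat_lit 16))
 (.p (nat_lit 0x56c256c056be56bc56ba56b803ac07) (nat_lit 0x40223) (nat_lit 8)))
 (.n (.p (nat_lit 0x2eac2eaa2ea82ea42ea22f9106) (nat_lit 0x2000056209) (nat_lit 52))
 (.p (nat_lit 0x13fe5ed702) (nat_lit 0x4a1a36344000500040000) (nat_lit 50)))))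
 (.n (.n (.n (.p (nat_lit 0x1b441b421b401b3e1903190106) (nat_lit 0x18000086800) (nat_lit 52))
 (.p (nat_lit 0x30b554902) (nat_lit 0x24071c) (nat_lit 30)))
 (.n (.p (nat_lit 0x78b152b02) (nat_lit 0x140506) (nat_lit 15))
 (.p (nat_lit 0x5cdd5e2702) (nat_lit 0x100020000500) (nat_lit 36))))
 (.n (.n (.p (nat_lit 0x354d076902) (nat_lit 0x246003) (nat_lit 16))
 (.p (nat_lit 0x3a60e1f02) (nat_lit 0x30032a) (nat_lit 1)))
 (.n (.p (nat_lit 0x2012534902) (nat_lit 0x44090e) (nat_lit 29))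
 (.p (nat_lit 0x1db660df02) (nat_lit 0x340d623a4000300000600) (nat_lit 50))))))

def c512_276 : Tr := .n c1024_276 c1024_788

def c256_20 : Tr := .n c512_20 c512_276

def c1024_148 : Tr :=
 .n (.n (.n (.n (.n (.n (.p (nat_lit 0x880086009503) (nat_lit 0x1800500003) (nat_lit 17))
 (.p (nat_lit 0x12a712990fe90fd50d170d090a510a4b07ab079d04d104c361420d) (nat_lit 0x350221d84000000000000) (nat_lit 33)))
 (.p (nat_lit 0x1a281a261a241a221a20310506) (nat_lit 0x10000092410) (nat_lit 51)))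
 (.n (.p (nat_lit 0x12641cbd02) (nat_lit 0x40403) (nat_lit 5))
 (.p (nat_lit 0x203c134502) (nat_lit 0x14092a) (nat_lit 5))))
 (.n (.n (.p (nat_lit 0x1db11da502) (nat_lit 0x200900) (nat_lit 34))
 (.p (nat_lit 0x4da24da04d9e4d9c2599259706) (nat_lit 0x18000050b1c) (nat_lit 51)))
 (.n (.p (nat_lit 0x1f181f161f141f121f101d9f06) (nat_lit 0x100000d2806) (nat_lit 51))
 (.p (nat_lit 0x5d2f153b02) (nat_lit 0x1e0060000600) (nat_lit 38)))))
 (.n (.n (.n (.p (nat_lit 0xfb50c9302) (nat_lit 0x252300) (nat_lit 16))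
 (.p (nat_lit 0x2ba627f702) (nat_lit 0x300916) (nat_lit 4)))
 (.n (.p (nat_lit 0x4349247902) (nat_lit 0x206b04) (nat_lit 16))
 (.p (nat_lit 0x2815b2702) (nat_lit 0x915) (nat_lit 28))))
 (.n (.n (.p (nat_lit 0x233c233a2338233623321ee306) (nat_lit 0x1000016901) (nat_lit 52))
 (.p (nat_lit 0x2034108f02) (nat_lit 0x340923) (nat_lit 5)))
 (.n (.p (nat_lit 0x19d523102) (nat_lit 0x20040a) (nat_lit 30))
 (.p (nat_lit 0x13f45f3b02) (nat_lit 0x3a6560c44000500040000) (nat_lit 49))))))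
 (.n (.n (.n (.n (.p (nat_lit 0x8420840083a083805c305c106) (nat_lit 0x6000092100) (nat_lit 52))
 (.p (nat_lit 0x732540b02) (nat_lit 0x540015) (nat_lit 29)))
 (.n (.p (nat_lit 0xb843e0d02) (nat_lit 0x100204) (nat_lit 29))
 (.p (nat_lit 0x4a5448b102) (nat_lit 0x4072f) (nat_lit 4))))
 (.n (.n (.p (nat_lit 0x24ba24b824b624b422bd22bb06) (nat_lit 0x1800042b00) (nat_lit 51))
 (.p (nat_lit 0x395565b02) (nat_lit 0x140122) (nat_lit 30)))
 (.n (.p (nat_lit 0x2cba2cb82cb42cb22cb01a6f06) (nat_lit 0x40000c6707) (nat_lit 51))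
 (.p (nat_lit 0x5d531f0d02) (nat_lit 0x2a0080000900) (nat_lit 39)))))
 (.n (.n (.n (.p (nat_lit 0x16f416f216f016ea16b516b306) (nat_lit 0x3000044600) (nat_lit 51))
 (.p (nat_lit 0x87f05d702) (nat_lit 0x10001c) (nat_lit 15)))
 (.n (.p (nat_lit 0x21d421d021ce21cc1ac71ac306) (nat_lit 0x140000d4705) (nat_lit 52))
 (.p (nat_lit 0x5cf95de702) (nat_lit 0x240040000200) (nat_lit 36))))
 (.n (.n (.p (nat_lit 0x205c20562054205200820061005f205b205909) (nat_lit 0x2340902) (nat_lit 10))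
 (.p (nat_lit 0x4b944ebf02) (nat_lit 0x240029) (nat_lit 5)))
 (.n (.p (nat_lit 0x1820181c181a1818181610e306) (nat_lit 0x800000e40e) (nat_lit 51))
 (.p (nat_lit 0x206a604102) (nat_lit 0x4a8176340800400000600) (nat_lit 49))))))

def c1024_660 : Tr :=
 .n (.n (.n (.n (.n (.n (.p (nat_lit 0x44f044b0449044404) (nat_lit 0x15a0002a) (nat_lit 20))
 (.p (nat_lit 0x1ae461bf02) (nat_lit 0x3221a9c15000200000600) (nat_lit 50)))
 (.p (nat_lit 0x3c323c303c2e3c2c3c28418906) (nat_lit 0x100000c512) (nat_lit 52)))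
 (.n (.p (nat_lit 0x3b51233102) (nat_lit 0x548a03) (nat_lit 16))
 (.p (nat_lit 0x34a434a234a0349e349c35cd06) (nat_lit 0x80001612d) (nat_lit 51))))
 (.n (.n (.p (nat_lit 0x213a2138213621341e8f1e8d06) (nat_lit 0x180008ea00) (nat_lit 51))
 (.p (nat_lit 0xd400d3e0d3a0d380d363be906) (nat_lit 0x4000042b1f) (nat_lit 51)))
 (.n (.p (nat_lit 0x21d621d221d021ce21cc0e0906) (nat_lit 0x8000094307) (nat_lit 52))
 (.p (nat_lit 0x5ce15e6d02) (nat_lit 0xc0020000800) (nat_lit 37)))))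
 (.n (.n (.n (.p (nat_lit 0x12e612e412e012de12dc10c906) (nat_lit 0x4000006500) (nat_lit 51))
 (.p (nat_lit 0xbe00bde0bdc0bd80bd6423106) (nat_lit 0x2000008619) (nat_lit 51)))
 (.n (.p (nat_lit 0x1139112d02) (nat_lit 0x50c405) (nat_lit 16))
 (.p (nat_lit 0x5cdb063702) (nat_lit 0x120020000000) (nat_lit 39))))
 (.n (.n (.p (nat_lit 0xa0e184b02) (nat_lit 0x340102) (nat_lit 5))
 (.p (nat_lit 0x1b9c1b9a1b981b941b92364306) (nat_lit 0x2000054126) (nat_lit 52)))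
 (.n (.p (nat_lit 0x22b822b622b422b022ae475306) (nat_lit 0x20000d030c) (nat_lit 52))
 (.p (nat_lit 0x20705fc702) (nat_lit 0x89832b05000400000600) (nat_lit 49))))))
 (.n (.n (.n (.n (.p (nat_lit 0xbf60bf40bf20bf00bee09d706) (nat_lit 0x1000004a200) (nat_lit 51))
 (.p (nat_lit 0x27fa27f827f627f427f2164506) (nat_lit 0x800012615) (nat_lit 52)))
 (.n (.p (nat_lit 0x140013fe13fa13f813f6168706) (nat_lit 0x400008a604) (nat_lit 51))
 (.p (nat_lit 0xec00ea00e600e20007011506) (nat_lit 0x190e605) (nat_lit 26))))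
 (.n (.n (.p (nat_lit 0x10f215ab02) (nat_lit 0x401) (nat_lit 5))
 (.p (nat_lit 0x198619821980197e197c09ed06) (nat_lit 0x80000ce123) (nat_lit 51)))
 (.n (.p (nat_lit 0x2b54262902) (nat_lit 0x540808) (nat_lit 4))
 (.p (nat_lit 0x5ebc169502) (nat_lit 0x80012b00) (nat_lit 47)))))
 (.n (.n (.n (.p (nat_lit 0x1a5a1a581a541a521a50179906) (nat_lit 0x40000d6700) (nat_lit 52))
 (.p (nat_lit 0x73514e102) (nat_lit 0x4051c) (nat_lit 15)))
 (.n (.p (nat_lit 0x113224f702) (nat_lit 0x200406) (nat_lit 4))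
 (.p (nat_lit 0x5d6f0fdd02) (nat_lit 0xe0080000400) (nat_lit 38))))
 (.n (.n (.p (nat_lit 0x15a615a415a215a0159e25bd06) (nat_lit 0x100000c6b02) (nat_lit 52))
 (.p (nat_lit 0xcb8142d02) (nat_lit 0x34022a) (nat_lit 4)))
 (.n (.p (nat_lit 0x35b635b435b235b035ac1bdd06) (nat_lit 0x100009680e) (nat_lit 51))
 (.p (nat_lit 0x114e60c902) (nat_lit 0x3505223a4000400040000) (nat_lit 50))))))

def c512_148 : Tr := .n c1024_148 c1024_660

def c1024_404 : Tr :=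
 .n (.n (.n (.n (.n (.n (.p (nat_lit 0x1ff01fb01f403) (nat_lit 0x6080000e) (nat_lit 19))
 (.p (nat_lit 0x2346617d02) (nat_lit 0x421a86b15000500000600) (nat_lit 50)))
 (.p (nat_lit 0x408338df02) (nat_lit 0x14411) (nat_lit 16)))
 (.n (.p (nat_lit 0x17ea1cf102) (nat_lit 0x240603) (nat_lit 4))
 (.p (nat_lit 0x2b7a2abf02) (nat_lit 0x54082b) (nat_lit 4))))
 (.n (.n (.p (nat_lit 0x1f601f5e1f5c1f581d331d2b06) (nat_lit 0x110000c4900) (nat_lit 52))
 (.p (nat_lit 0x33ee308102) (nat_lit 0x100b1e) (nat_lit 5)))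
 (.n (.p (nat_lit 0x7b607b407b207b007ac0b3d06) (nat_lit 0x1000006207) (nat_lit 52))
 (.p (nat_lit 0x5d49181d02) (nat_lit 0x40060000700) (nat_lit 40)))))
 (.n (.n (.n (.p (nat_lit 0xf62114d02) (nat_lit 0x340400) (nat_lit 5))
 (.p (nat_lit 0x39f2367d02) (nat_lit 0x400518) (nat_lit 4)))
 (.n (.p (nat_lit 0xa3420ad02) (nat_lit 0x440105) (nat_lit 4))
 (.p (nat_lit 0x4205be702) (nat_lit 0x200b23) (nat_lit 27))))
 (.n (.n (.p (nat_lit 0x21bb21af02) (nat_lit 0x310a01) (nat_lit 16))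
 (.p (nat_lit 0x2872296b02) (nat_lit 0x40224) (nat_lit 5)))
 (.n (.p (nat_lit 0x1fb41fb01fac1faa3f993f9506) (nat_lit 0xa00000c30b) (nat_lit 51))
 (.p (nat_lit 0x13f25f7b02) (nat_lit 0x581a22b44000500040000) (nat_lit 49))))))
 (.n (.n (.n (.n (.p (nat_lit 0x8760a4b02) (nat_lit 0x300200) (nat_lit 4))
 (.p (nat_lit 0x13921390138e138a02a0028b02831395138d09) (nat_lit 0x2900515) (nat_lit 10)))
 (.n (.p (nat_lit 0x4072406e406c406a1121111d06) (nat_lit 0x1400000e404) (nat_lit 51))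
 (.p (nat_lit 0x620060005c00580003008d06) (nat_lit 0xb14902) (nat_lit 26))))
 (.n (.n (.p (nat_lit 0x8a416d702) (nat_lit 0x200101) (nat_lit 5))
 (.p (nat_lit 0x74a07480746074403b203a303a10743074109) (nat_lit 0x840023) (nat_lit 10)))
 (.n (.p (nat_lit 0x256f22cb02) (nat_lit 0x240a07) (nat_lit 15))
 (.p (nat_lit 0x5d595ea702) (nat_lit 0x240080000a00) (nat_lit 37)))))
 (.n (.n (.n (.p (nat_lit 0x18d218d018ca18c81627162506) (nat_lit 0x6000014700) (nat_lit 52))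
 (.p (nat_lit 0x2e2f088502) (nat_lit 0x40e11c) (nat_lit 16)))
 (.n (.p (nat_lit 0x78a235902) (nat_lit 0x140006) (nat_lit 4))
 (.p (nat_lit 0x5d335e0302) (nat_lit 0x1a0060000300) (nat_lit 37))))
 (.n (.n (.p (nat_lit 0xbb00bae0bac0baa0ba8231b06) (nat_lit 0x8000c4a02) (nat_lit 52))
 (.p (nat_lit 0x52c052a052605240522089b06) (nat_lit 0x400008812a) (nat_lit 51)))
 (.n (.p (nat_lit 0x52f652f452f252f052ee52ec01f207) (nat_lit 0x4050e) (nat_lit 8))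
 (.p (nat_lit 0x2332607f02) (nat_lit 0x511a22b85000500000600) (nat_lit 49))))))

def c1024_916 : Tr :=
 .n (.n (.n (.n (.n (.p (nat_lit 0x6620660065c06580653064f06) (nat_lit 0x5000044000) (nat_lit 51))
 (.p (nat_lit 0x4dd24c3302) (nat_lit 0x400314) (nat_lit 5)))
 (.n (.p (nat_lit 0x1f0e1f0c1f0a1f061f0425c306) (nat_lit 0x20000d2b03) (nat_lit 52))
 (.p (nat_lit 0x3fae414f02) (nat_lit 0x50032e) (nat_lit 5))))
 (.n (.n (.p (nat_lit 0x22db1ffb02) (nat_lit 0x442a00) (nat_lit 16))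
 (.p (nat_lit 0x438e3f8d02) (nat_lit 0x440b20) (nat_lit 4)))
 (.n (.p (nat_lit 0x10e310d702) (nat_lit 0x404407) (nat_lit 16))
 (.p (nat_lit 0x5d8d5e7b02) (nat_lit 0x2000a0000800) (nat_lit 36)))))
 (.n (.n (.n (.p (nat_lit 0x14f3122302) (nat_lit 0x34c500) (nat_lit 16))
 (.p (nat_lit 0x4a36466f02) (nat_lit 0x34071a) (nat_lit 4)))
 (.n (.p (nat_lit 0x25422540253e253c253a180906) (nat_lit 0x10000050605) (nat_lit 51))
 (.p (nat_lit 0x5cf508ed02) (nat_lit 0x280040000100) (nat_lit 39))))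
 (.n (.n (.p (nat_lit 0x1113110702) (nat_lit 0x412402) (nat_lit 16))
 (.p (nat_lit 0x3a6424b02) (nat_lit 0x300627) (nat_lit 1)))
 (.n (.p (nat_lit 0x50964b7102) (nat_lit 0x54080d) (nat_lit 5))
 (.p (nat_lit 0x23405fff02) (nat_lit 0x16a88cd50000500000600) (nat_lit 50))))))
 (.n (.n (.n (.n (.p (nat_lit 0xde60de40de20de00b310b2f06) (nat_lit 0x1800016300) (nat_lit 52))
 (.p (nat_lit 0x201a548902) (nat_lit 0x240915) (nat_lit 29)))
 (.n (.p (nat_lit 0xbf42af02) (nat_lit 0x500704) (nat_lit 30))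
 (.p (nat_lit 0x1a15a5702) (nat_lit 0x400a0a) (nat_lit 28))))
 (.n (.n (.p (nat_lit 0x18ba18b818b418b218b01c1d06) (nat_lit 0x4000012801) (nat_lit 52))
 (.p (nat_lit 0x166d166102) (nat_lit 0x200623) (nat_lit 16)))
 (.n (.p (nat_lit 0x19c329502) (nat_lit 0x200909) (nat_lit 1))
 (.p (nat_lit 0x7a65ef502) (nat_lit 0x281d30344000100000000) (nat_lit 50)))))
 (.n (.n (.n (.p (nat_lit 0x1c2718fd02) (nat_lit 0x214800) (nat_lit 16))
 (.p (nat_lit 0x1d6b1d5f02) (nat_lit 0x34a81c) (nat_lit 16)))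
 (.n (.p (nat_lit 0x160616041602160015fe1ac906) (nat_lit 0x8000d2706) (nat_lit 51))
 (.p (nat_lit 0x5d5f12a902) (nat_lit 0x1e0080000500) (nat_lit 40))))
 (.n (.n (.p (nat_lit 0x36350a1702) (nat_lit 0x146103) (nat_lit 16))
 (.p (nat_lit 0x57e257e057de57dc57da57d8044007) (nat_lit 0x62a) (nat_lit 8)))
 (.n (.p (nat_lit 0x1e9536702) (nat_lit 0x140b0e) (nat_lit 30))
 (.p (nat_lit 0x207660ff02) (nat_lit 0x3425219b0000400000600) (nat_lit 50))))))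

def c512_404 : Tr := .n c1024_404 c1024_916

def c256_148 : Tr := .n c512_148 c512_404

def c128_20 : Tr := .n c256_20 c256_148

def c1024_84 : Tr :=
 .n (.n (.n (.n (.n (.n (.p (nat_lit 0x62005c0058006504) (nat_lit 0x12800400002) (nat_lit 17))
 (.p (nat_lit 0x2080613302) (nat_lit 0x35486a3b0000400000600) (nat_lit 50)))
 (.p (nat_lit 0x2bea271f02) (nat_lit 0x14090f) (nat_lit 4)))
 (.n (.p (nat_lit 0x3880387e387c387a38783876009207) (nat_lit 0x403) (nat_lit 8))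
 (.p (nat_lit 0x1d74147d02) (nat_lit 0x24082a) (nat_lit 4))))
 (.n (.n (.p (nat_lit 0x1d331a6702) (nat_lit 0x540800) (nat_lit 15))
 (.p (nat_lit 0x307559902) (nat_lit 0xb1c) (nat_lit 30)))
 (.n (.p (nat_lit 0xbb00bac0baa0ba80ba61d9d06) (nat_lit 0x80000c4806) (nat_lit 52))
 (.p (nat_lit 0x5d1916a902) (nat_lit 0x40040000600) (nat_lit 41)))))
 (.n (.n (.n (.p (nat_lit 0xf360f340f300f2e0c950c8f06) (nat_lit 0x4800054300) (nat_lit 51))
 (.p (nat_lit 0x2a782a762a742a702a6e02b32a7307) (nat_lit 0x200516) (nat_lit 7)))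
 (.n (.p (nat_lit 0xbb433302) (nat_lit 0x300b04) (nat_lit 30))
 (.p (nat_lit 0x256025402520250024300b506) (nat_lit 0x280e412) (nat_lit 26))))
 (.n (.n (.p (nat_lit 0xa5a0a580a560a540a501ee306) (nat_lit 0x1000004901) (nat_lit 51))
 (.p (nat_lit 0x1d731d6702) (nat_lit 0x140823) (nat_lit 16)))
 (.n (.p (nat_lit 0x37dc37da37d637d437d2019f37d907) (nat_lit 0x30030a) (nat_lit 7))
 (.p (nat_lit 0x180e5f3102) (nat_lit 0x3aa560b44000100000600) (nat_lit 49))))))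
 (.n (.n (.n (.n (.p (nat_lit 0x7b607b407b207b005bf05bd06) (nat_lit 0x1800006100) (nat_lit 52))
 (.p (nat_lit 0x91609140910090e090c05cf06) (nat_lit 0x4000086015) (nat_lit 51)))
 (.n (.p (nat_lit 0xb53d7d02) (nat_lit 0x40104) (nat_lit 30))
 (.p (nat_lit 0x46f8489502) (nat_lit 0x30032f) (nat_lit 5))))
 (.n (.n (.p (nat_lit 0x2457215b02) (nat_lit 0x30ab00) (nat_lit 16))
 (.p (nat_lit 0x23d423d223d023ce23cc4b2506) (nat_lit 0x1000000e022) (nat_lit 52)))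
 (.n (.p (nat_lit 0x190c518102) (nat_lit 0x400707) (nat_lit 29))
 (.p (nat_lit 0x5d355e8d02) (nat_lit 0x180060000900) (nat_lit 37)))))
 (.n (.n (.n (.p (nat_lit 0x1689155502) (nat_lit 0x412600) (nat_lit 16))
 (.p (nat_lit 0xe820e7e0e7a0e7805dd05d906) (nat_lit 0xa00008601c) (nat_lit 51)))
 (.n (.p (nat_lit 0xd1a0d180d160d140d121ac706) (nat_lit 0x10000046705) (nat_lit 51))
 (.p (nat_lit 0x5ddc4a3102) (nat_lit 0x54200) (nat_lit 47))))
 (.n (.n (.p (nat_lit 0x1b901b8c1b8a1b881ef51eed06) (nat_lit 0x880008c902) (nat_lit 51))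
 (.p (nat_lit 0x468a482702) (nat_lit 0x540228) (nat_lit 4)))
 (.n (.p (nat_lit 0x10de091d02) (nat_lit 0x20040e) (nat_lit 5))
 (.p (nat_lit 0xbb2603102) (nat_lit 0x4099a2335000200040000) (nat_lit 50))))))

def c1024_596 : Tr :=
 .n (.n (.n (.n (.n (.n (.p (nat_lit 0x3a603a003af03) (nat_lit 0x4800500023) (nat_lit 17))
 (.p (nat_lit 0x1ade61af02) (nat_lit 0x522266c0d000200000600) (nat_lit 49)))
 (.p (nat_lit 0x1e721e701e6e1e6c1e6a408306) (nat_lit 0x80008e412) (nat_lit 51)))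
 (.n (.p (nat_lit 0xb6232902) (nat_lit 0x140a03) (nat_lit 1))
 (.p (nat_lit 0x336631d302) (nat_lit 0x400a2c) (nat_lit 5))))
 (.n (.n (.p (nat_lit 0x20a420a0209e209c209a1e9506) (nat_lit 0x8000002a00) (nat_lit 52))
 (.p (nat_lit 0x3b8e384302) (nat_lit 0xb1f) (nat_lit 5)))
 (.n (.p (nat_lit 0x8fe08fc08fa08f808f40e0306) (nat_lit 0x1000082307) (nat_lit 51))
 (.p (nat_lit 0x5e622da702) (nat_lit 0xa0046700) (nat_lit 47)))))
 (.n (.n (.n (.p (nat_lit 0x10ca12a902) (nat_lit 0x400500) (nat_lit 5))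
 (.p (nat_lit 0x1fd81fd61fd21fd01fce419906) (nat_lit 0x400008e519) (nat_lit 52)))
 (.n (.p (nat_lit 0xfc40fc20fc00fbe0fbc00ed0fc707) (nat_lit 0x540305) (nat_lit 7))
 (.p (nat_lit 0x5cbd064102) (nat_lit 0x0) (nat_lit 41))))
 (.n (.n (.p (nat_lit 0x2d842d822d802d7e2d7c076306) (nat_lit 0x100000d4002) (nat_lit 52))
 (.p (nat_lit 0x297e297c297a2978297433fb06) (nat_lit 0x1000012b25) (nat_lit 51)))
 (.n (.p (nat_lit 0x460045fc45fa45f801d401cd01c545ff45f709) (nat_lit 0x200020c) (nat_lit 10))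
 (.p (nat_lit 0x248d248921dd21d31f111f071c4d1c45197f197116af169f5fae0d) (nat_lit 0x8982e915800000040600) (nat_lit 33))))))
 (.n (.n (.n (.n (.p (nat_lit 0xbbd0bb102) (nat_lit 0x540200) (nat_lit 34))
 (.p (nat_lit 0x207420722070206e206a14d706) (nat_lit 0x1000054515) (nat_lit 52)))
 (.n (.p (nat_lit 0x16861e4b02) (nat_lit 0x300604) (nat_lit 4))
 (.p (nat_lit 0xe9598f02) (nat_lit 0x300005) (nat_lit 28))))
 (.n (.n (.p (nat_lit 0xe2a289102) (nat_lit 0x300301) (nat_lit 29))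
 (.p (nat_lit 0x9ee09ec09e809e609e403a709eb07) (nat_lit 0x340123) (nat_lit 7)))
 (.n (.p (nat_lit 0x2a03292902) (nat_lit 0x340308) (nat_lit 15))
 (.p (nat_lit 0x5eb84c1302) (nat_lit 0x60008b00) (nat_lit 47)))))
 (.n (.n (.n (.p (nat_lit 0x1a1e1a1c1a181a161799179306) (nat_lit 0x4800052700) (nat_lit 51))
 (.p (nat_lit 0x3a614e702) (nat_lit 0x34051c) (nat_lit 1)))
 (.n (.p (nat_lit 0xe6a24e502) (nat_lit 0x500306) (nat_lit 4))
 (.p (nat_lit 0x5cfd5e1502) (nat_lit 0x200040000400) (nat_lit 37))))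
 (.n (.n (.p (nat_lit 0x16121610160e160c160a245d06) (nat_lit 0x800014b02) (nat_lit 51))
 (.p (nat_lit 0x16ae16ac16aa16a816a40b5506) (nat_lit 0x100008c22a) (nat_lit 51)))
 (.n (.p (nat_lit 0x1a7a080f02) (nat_lit 0x34070e) (nat_lit 4))
 (.p (nat_lit 0x8fc60ad02) (nat_lit 0x342521ca4000100040000) (nat_lit 50))))))

def c512_84 : Tr := .n c1024_84 c1024_596

def c1024_340 : Tr :=
 .n (.n (.n (.n (.n (.n (.p (nat_lit 0x148015102) (nat_lit 0x8000600007) (nat_lit 17))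
 (.p (nat_lit 0x2076616f02) (nat_lit 0x421aa6315000400000600) (nat_lit 50)))
 (.p (nat_lit 0x342e342c342834260236022d02273431342b09) (nat_lit 0x2a40b10) (nat_lit 10)))
 (.n (.p (nat_lit 0x167c167a1676167400ac0091008b167f167909) (nat_lit 0x2a00603) (nat_lit 10))
 (.p (nat_lit 0x288828862884288228800463287f07) (nat_lit 0x4022b) (nat_lit 7))))
 (.n (.n (.p (nat_lit 0x1ef91bc302) (nat_lit 0x16900) (nat_lit 16))
 (.p (nat_lit 0x384c384a38483844384232f706) (nat_lit 0x200005691e) (nat_lit 51)))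
 (.n (.p (nat_lit 0x212e212a212821262124206706) (nat_lit 0x800004e906) (nat_lit 52))
 (.p (nat_lit 0x5ccf5e5702) (nat_lit 0x1e0020000700) (nat_lit 36)))))
 (.n (.n (.n (.p (nat_lit 0x10d50dfb02) (nat_lit 0x300400) (nat_lit 16))
 (.p (nat_lit 0x23c34b702) (nat_lit 0x200018) (nat_lit 1)))
 (.n (.p (nat_lit 0x4450444c444a44480785077d06) (nat_lit 0x88000c6005) (nat_lit 52))
 (.p (nat_lit 0x41c5bc302) (nat_lit 0x522) (nat_lit 27))))
 (.n (.n (.p (nat_lit 0x21aa160b02) (nat_lit 0x100a01) (nat_lit 5))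
 (.p (nat_lit 0x2a902a8e2a8c2a8a2a8626cb06) (nat_lit 0x1000044024) (nat_lit 51)))
 (.n (.p (nat_lit 0x69c069a0698069606943bc906) (nat_lit 0x100000c8b0a) (nat_lit 52))
 (.p (nat_lit 0x1da65f7102) (nat_lit 0x3aa074c44000300000600) (nat_lit 49))))))
 (.n (.n (.n (.n (.p (nat_lit 0x9ef072702) (nat_lit 0x548100) (nat_lit 16))
 (.p (nat_lit 0xe8e0e8a0e880e841249124306) (nat_lit 0x9000040415) (nat_lit 51)))
 (.n (.p (nat_lit 0x3fc63fc23fc03fbc0fb90fb306) (nat_lit 0x90000c0304) (nat_lit 52))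
 (.p (nat_lit 0x3558d502) (nat_lit 0x500a01) (nat_lit 28))))
 (.n (.n (.p (nat_lit 0x60305f702) (nat_lit 0x510001) (nat_lit 16))
 (.p (nat_lit 0x1430142a1428142605e905e706) (nat_lit 0xc000084023) (nat_lit 52)))
 (.n (.p (nat_lit 0x2162058f02) (nat_lit 0x100a07) (nat_lit 5))
 (.p (nat_lit 0x5e9c25cf02) (nat_lit 0x40050a00) (nat_lit 48)))))
 (.n (.n (.n (.p (nat_lit 0x183618321830182e162b162706) (nat_lit 0x14000080700) (nat_lit 51))
 (.p (nat_lit 0x8860ea702) (nat_lit 0x50011c) (nat_lit 4)))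
 (.n (.p (nat_lit 0x1fd81fd61fd41fd01fce1d8d06) (nat_lit 0x20000ce805) (nat_lit 52))
 (.p (nat_lit 0x5df80b4902) (nat_lit 0x2000a300) (nat_lit 48))))
 (.n (.n (.p (nat_lit 0x334521bf02) (nat_lit 0x504a02) (nat_lit 16))
 (.p (nat_lit 0x89412ad02) (nat_lit 0x12a) (nat_lit 4)))
 (.n (.p (nat_lit 0x137e52e102) (nat_lit 0x50e) (nat_lit 29))
 (.p (nat_lit 0x206a607102) (nat_lit 0x588162b40800400000600) (nat_lit 49))))))

def c1024_852 : Tr :=
 .n (.n (.n (.n (.n (.n (.p (nat_lit 0x5e704e102) (nat_lit 0x308000) (nat_lit 16))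
 (.p (nat_lit 0x154261ed02) (nat_lit 0x382a31d05000000000600) (nat_lit 50)))
 (.p (nat_lit 0x4976455f02) (nat_lit 0x100613) (nat_lit 4)))
 (.n (.p (nat_lit 0x7aa07a807a607a407a225bf06) (nat_lit 0x800042b03) (nat_lit 51))
 (.p (nat_lit 0x3e0841b302) (nat_lit 0x54012e) (nat_lit 5))))
 (.n (.n (.p (nat_lit 0x228822862284228222801ff306) (nat_lit 0x8000cca00) (nat_lit 51))
 (.p (nat_lit 0x42d4561102) (nat_lit 0x720) (nat_lit 29)))
 (.n (.p (nat_lit 0x143515702) (nat_lit 0x100407) (nat_lit 30))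
 (.p (nat_lit 0x5d5d5e7702) (nat_lit 0x200080000800) (nat_lit 36)))))
 (.n (.n (.n (.p (nat_lit 0x144814441442143e1225121f06) (nat_lit 0x90000c6500) (nat_lit 52))
 (.p (nat_lit 0x22882286228422822280494b06) (nat_lit 0x8000cc51a) (nat_lit 51)))
 (.n (.p (nat_lit 0x255a2558255625542552169706) (nat_lit 0x10000012605) (nat_lit 52))
 (.p (nat_lit 0x5ce35dc902) (nat_lit 0xa0020000100) (nat_lit 37))))
 (.n (.n (.p (nat_lit 0x5d302502) (nat_lit 0x240302) (nat_lit 30))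
 (.p (nat_lit 0x1fee1fec1fea1fe81fe63d7b06) (nat_lit 0x10000096127) (nat_lit 51)))
 (.n (.p (nat_lit 0x4f924f8e4f8c4f8a4f884f1d06) (nat_lit 0x800005040d) (nat_lit 52))
 (.p (nat_lit 0x13ea5fef02) (nat_lit 0x306a81c35000500040000) (nat_lit 49))))))
 (.n (.n (.n (.n (.p (nat_lit 0xd580d560d540d520d500d4e06) (nat_lit 0xa300) (nat_lit 52))
 (.p (nat_lit 0x2d61d5702) (nat_lit 0x540815) (nat_lit 1)))
 (.n (.p (nat_lit 0x233c233a23382334233217f706) (nat_lit 0x2000056604) (nat_lit 52))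
 (.p (nat_lit 0x2225a3102) (nat_lit 0x209) (nat_lit 27))))
 (.n (.n (.p (nat_lit 0x3800470045174b15d905) (nat_lit 0x46800801) (nat_lit 9))
 (.p (nat_lit 0xd640d600d5e0d5c0d5a0caf06) (nat_lit 0x80000ca223) (nat_lit 52)))
 (.n (.p (nat_lit 0x30942cbb02) (nat_lit 0x540309) (nat_lit 5))
 (.p (nat_lit 0x15345ee902) (nat_lit 0x4a8866344000000000600) (nat_lit 49)))))
 (.n (.n (.n (.p (nat_lit 0x1bb41bb01bae1bac1baa190106) (nat_lit 0x8000016800) (nat_lit 52))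
 (.p (nat_lit 0x3858385638523850384e1bf906) (nat_lit 0x400009681c) (nat_lit 51)))
 (.n (.p (nat_lit 0x17841780177e177c196d196506) (nat_lit 0x8800014706) (nat_lit 52))
 (.p (nat_lit 0x5d455e2d02) (nat_lit 0x80060000500) (nat_lit 36))))
 (.n (.n (.p (nat_lit 0x35e035de35dc35da35d835d6009207) (nat_lit 0x40103) (nat_lit 8))
 (.p (nat_lit 0xf8012e902) (nat_lit 0x4032a) (nat_lit 5)))
 (.n (.p (nat_lit 0x22dc22da22d822d201fc01eb01e922d722d509) (nat_lit 0x1140a0e) (nat_lit 10))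
 (.p (nat_lit 0x13ee60f302) (nat_lit 0x440d663a4000500040000) (nat_lit 49))))))

def c512_340 : Tr := .n c1024_340 c1024_852

def c256_84 : Tr := .n c512_84 c512_340

def c1024_212 : Tr :=
 .n (.n (.n (.n (.n (.n (.p (nat_lit 0xd300cf00c203) (nat_lit 0x22200004) (nat_lit 19))
 (.p (nat_lit 0x154a615302) (nat_lit 0x1503a8895800000000600) (nat_lit 50)))
 (.p (nat_lit 0x32722def02) (nat_lit 0x340510) (nat_lit 5)))
 (.n (.p (nat_lit 0x49013bd02) (nat_lit 0x100503) (nat_lit 1))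
 (.p (nat_lit 0x488c488a48884884488221a106) (nat_lit 0x2000084a2a) (nat_lit 51))))
 (.n (.n (.p (nat_lit 0x1e421e401e3e1e3c1e3a1bc306) (nat_lit 0x80008a900) (nat_lit 52))
 (.p (nat_lit 0x2bb228af02) (nat_lit 0x30091d) (nat_lit 4)))
 (.n (.p (nat_lit 0x1f021efe1efc1efa1ef8011b1f0107) (nat_lit 0x400906) (nat_lit 7))
 (.p (nat_lit 0x5da9154b02) (nat_lit 0x400a0000600) (nat_lit 40)))))
 (.n (.n (.n (.p (nat_lit 0xff40ff20ff00fee0fec0dff06) (nat_lit 0x10000000400) (nat_lit 52))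
 (.p (nat_lit 0x1a361a321a301a2e1a2c31f506) (nat_lit 0x8000014517) (nat_lit 51)))
 (.n (.p (nat_lit 0x210a21062104210025d325cd06) (nat_lit 0x90000cab04) (nat_lit 52))
 (.p (nat_lit 0x2fa02f802f602f40281038f06) (nat_lit 0x50e41a) (nat_lit 26))))
 (.n (.n (.p (nat_lit 0x20502bdb02) (nat_lit 0x540901) (nat_lit 29))
 (.p (nat_lit 0x230010a902) (nat_lit 0x540a23) (nat_lit 4)))
 (.n (.p (nat_lit 0x3a90348102) (nat_lit 0x30060a) (nat_lit 4))
 (.p (nat_lit 0x1db65f5302) (nat_lit 0x1a9d22350000300000600) (nat_lit 50))))))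
 (.n (.n (.n (.n (.p (nat_lit 0x8e705c702) (nat_lit 0x516100) (nat_lit 16))
 (.p (nat_lit 0x10ea0bdb02) (nat_lit 0x200415) (nat_lit 5)))
 (.n (.p (nat_lit 0xc200d900d51df71f5b05) (nat_lit 0x8a940204) (nat_lit 9))
 (.p (nat_lit 0x50784f5b02) (nat_lit 0x200830) (nat_lit 5))))
 (.n (.n (.p (nat_lit 0x2550254c2548254622c322bf06) (nat_lit 0xa0000d0b00) (nat_lit 52))
 (.p (nat_lit 0x50644e0b02) (nat_lit 0x400822) (nat_lit 4)))
 (.n (.p (nat_lit 0x1e9d1bd302) (nat_lit 0x200807) (nat_lit 15))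
 (.p (nat_lit 0x5ca9207702) (nat_lit 0x140000000a00) (nat_lit 40)))))
 (.n (.n (.n (.p (nat_lit 0x17781776177417721770176e06) (nat_lit 0xd2600) (nat_lit 52))
 (.p (nat_lit 0xd1a0d180d160d140d12073f06) (nat_lit 0x1000004601c) (nat_lit 51)))
 (.n (.p (nat_lit 0x1c2c1c2a1c261c22010000e900e51c291c2509) (nat_lit 0x1900805) (nat_lit 10))
 (.p (nat_lit 0x5d690a5902) (nat_lit 0x140080000200) (nat_lit 40))))
 (.n (.n (.p (nat_lit 0x330d205502) (nat_lit 0x14a902) (nat_lit 16))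
 (.p (nat_lit 0x252a25282526252425224c9106) (nat_lit 0x1000004e129) (nat_lit 51)))
 (.n (.p (nat_lit 0x1236092702) (nat_lit 0x14040e) (nat_lit 4))
 (.p (nat_lit 0x13fe604f02) (nat_lit 0x40a962335000500040000) (nat_lit 50))))))

def c1024_724 : Tr :=
 .n (.n (.n (.n (.n (.n (.p (nat_lit 0x4e404e204de04da00180007000304e104dd09) (nat_lit 0x1900000) (nat_lit 10))
 (.p (nat_lit 0xe7a61cf02) (nat_lit 0x3561684a0800300040000) (nat_lit 50)))
 (.p (nat_lit 0x426e3d4b02) (nat_lit 0x340612) (nat_lit 5)))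
 (.n (.p (nat_lit 0xfe80fe60fe40fe20fe0247306) (nat_lit 0x10000008b03) (nat_lit 51))
 (.p (nat_lit 0x3e8136d102) (nat_lit 0x11422d) (nat_lit 16))))
 (.n (.n (.p (nat_lit 0x218d1e9502) (nat_lit 0x406a00) (nat_lit 16))
 (.p (nat_lit 0x3de73d0102) (nat_lit 0x40020) (nat_lit 15)))
 (.n (.p (nat_lit 0x63e063c0638063606340f6f06) (nat_lit 0x40000c0307) (nat_lit 52))
 (.p (nat_lit 0x5d151c4b02) (nat_lit 0x80040000800) (nat_lit 41)))))
 (.n (.n (.n (.p (nat_lit 0x138d10c502) (nat_lit 0x104500) (nat_lit 16))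
 (.p (nat_lit 0x37063704370236fe36fc42cd06) (nat_lit 0x200000a719) (nat_lit 51)))
 (.n (.p (nat_lit 0x13d813d613d413d2011000ed00eb13dd13db09) (nat_lit 0x2c00505) (nat_lit 10))
 (.p (nat_lit 0x5d4504c902) (nat_lit 0x80060000000) (nat_lit 38))))
 (.n (.n (.p (nat_lit 0x2f502f4e2f4c2f4a2f482f46006407) (nat_lit 0x40202) (nat_lit 8))
 (.p (nat_lit 0x3b10394502) (nat_lit 0xa26) (nat_lit 5)))
 (.n (.p (nat_lit 0x4fc04fa04f804f404f249cd06) (nat_lit 0x200008470c) (nat_lit 52))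
 (.p (nat_lit 0x15385fd302) (nat_lit 0x95a32b05000000000600) (nat_lit 49))))))
 (.n (.n (.n (.n (.p (nat_lit 0xcbb09d502) (nat_lit 0x44a200) (nat_lit 16))
 (.p (nat_lit 0x192619221920191e191c0289192507) (nat_lit 0x400715) (nat_lit 7)))
 (.n (.p (nat_lit 0x4253168302) (nat_lit 0x10a604) (nat_lit 16))
 (.p (nat_lit 0x11359cf02) (nat_lit 0x406) (nat_lit 28))))
 (.n (.n (.p (nat_lit 0x125615bf02) (nat_lit 0x540401) (nat_lit 5))
 (.p (nat_lit 0x3a356af02) (nat_lit 0x100223) (nat_lit 30)))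
 (.n (.p (nat_lit 0x520051c051a051805162be506) (nat_lit 0x8000048908) (nat_lit 51))
 (.p (nat_lit 0x13f45ec702) (nat_lit 0x4a1a34344000500040000) (nat_lit 49)))))
 (.n (.n (.n (.p (nat_lit 0x1acf179902) (nat_lit 0x356700) (nat_lit 16))
 (.p (nat_lit 0x17d517c902) (nat_lit 0x34a61c) (nat_lit 16)))
 (.n (.p (nat_lit 0x1200131012b23bf250905) (nat_lit 0x84540406) (nat_lit 9))
 (.p (nat_lit 0x5d8d5e2102) (nat_lit 0x2000a0000400) (nat_lit 37))))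
 (.n (.n (.p (nat_lit 0x348434823480347e347c347a06) (nat_lit 0xc003) (nat_lit 52))
 (.p (nat_lit 0x197a19781974197219700cb906) (nat_lit 0x40000ce22a) (nat_lit 52)))
 (.n (.p (nat_lit 0x1d571d4b02) (nat_lit 0x54680e) (nat_lit 16))
 (.p (nat_lit 0x8f260d502) (nat_lit 0x354a621b0000100040000) (nat_lit 49))))))

def c512_212 : Tr := .n c1024_212 c1024_724

def c1024_468 : Tr :=
 .n (.n (.n (.n (.n (.n (.p (nat_lit 0x2a902a3028e03) (nat_lit 0x62200015) (nat_lit 19))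
 (.p (nat_lit 0x1536618f02) (nat_lit 0x3422a5c14800000000600) (nat_lit 49)))
 (.p (nat_lit 0x3a9a360902) (nat_lit 0x200611) (nat_lit 4)))
 (.n (.p (nat_lit 0x18d218ce18cc18ca18c817ef06) (nat_lit 0x8000054603) (nat_lit 52))
 (.p (nat_lit 0x2ec8320902) (nat_lit 0x24012c) (nat_lit 5))))
 (.n (.n (.p (nat_lit 0x1fca1fc81fc61fc21d331d2b06) (nat_lit 0x1100004e900) (nat_lit 52))
 (.p (nat_lit 0x1b901b8c1b8a1b881b86355106) (nat_lit 0x80000cc01f) (nat_lit 51)))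
 (.n (.p (nat_lit 0xc9a04f302) (nat_lit 0x40207) (nat_lit 4))
 (.p (nat_lit 0x5e5c1d8302) (nat_lit 0x60056700) (nat_lit 48)))))
 (.n (.n (.n (.p (nat_lit 0x118c1186118411820f650f6306) (nat_lit 0xc000044400) (nat_lit 52))
 (.p (nat_lit 0x422f3aa502) (nat_lit 0x114618) (nat_lit 16)))
 (.n (.p (nat_lit 0xba30b9702) (nat_lit 0x40c205) (nat_lit 16))
 (.p (nat_lit 0x1485c2902) (nat_lit 0x40012a) (nat_lit 27))))
 (.n (.n (.p (nat_lit 0x23e023de23da23d82319231306) (nat_lit 0x120000cea01) (nat_lit 52))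
 (.p (nat_lit 0x2c4829f702) (nat_lit 0x300a24) (nat_lit 5)))
 (.n (.p (nat_lit 0x421c3cc702) (nat_lit 0x40060b) (nat_lit 5))
 (.p (nat_lit 0x20765f8f02) (nat_lit 0x581a303a4000400000600) (nat_lit 50))))))
 (.n (.n (.n (.n (.p (nat_lit 0xa960a940a920a900873087106) (nat_lit 0x180000a200) (nat_lit 52))
 (.p (nat_lit 0x1c501c4e1c4c1c4a1c48138b06) (nat_lit 0x800090515) (nat_lit 51)))
 (.n (.p (nat_lit 0x127d127102) (nat_lit 0x56404) (nat_lit 16))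
 (.p (nat_lit 0x89592902) (nat_lit 0x100303) (nat_lit 28))))
 (.n (.n (.p (nat_lit 0x2780277c277a277827760a0506) (nat_lit 0x8000050101) (nat_lit 51))
 (.p (nat_lit 0x892088e088c088a088803a9089107) (nat_lit 0x400123) (nat_lit 7)))
 (.n (.p (nat_lit 0x51e251e051de51dc51da51d8014c07) (nat_lit 0x40b07) (nat_lit 8))
 (.p (nat_lit 0x5eae4e9702) (nat_lit 0x2b00) (nat_lit 48)))))
 (.n (.n (.n (.p (nat_lit 0x1925162902) (nat_lit 0x404700) (nat_lit 16))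
 (.p (nat_lit 0xa960a920a900a8e0a8c09e106) (nat_lit 0x800004a11c) (nat_lit 52)))
 (.n (.p (nat_lit 0x8e408e008de08dc013c011d011908e708e309) (nat_lit 0x2b00106) (nat_lit 10))
 (.p (nat_lit 0x5e0610ef02) (nat_lit 0x80002300) (nat_lit 47))))
 (.n (.n (.p (nat_lit 0x1f0e1f0a1f061f042323231f06) (nat_lit 0xa0000d2a02) (nat_lit 52))
 (.p (nat_lit 0x9fa09f809f609f404460437043509f309f109) (nat_lit 0x84012a) (nat_lit 10)))
 (.n (.p (nat_lit 0x6840680067e067c14d314cf06) (nat_lit 0x140000c650e) (nat_lit 52))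
 (.p (nat_lit 0x13fc608f02) (nat_lit 0x356221ca4000500040000) (nat_lit 50))))))

def c1024_980 : Tr :=
 .n (.n (.n (.n (.n (.p (nat_lit 0x6b406b006ac06aa0655065106) (nat_lit 0xa00004e000) (nat_lit 51))
 (.p (nat_lit 0x23ee23ec23ea23e623e44f2506) (nat_lit 0x2000050414) (nat_lit 52)))
 (.n (.p (nat_lit 0xbf3c1102) (nat_lit 0x500004) (nat_lit 30))
 (.p (nat_lit 0x3a383a363a343a303a2e42f106) (nat_lit 0x200008472e) (nat_lit 52))))
 (.n (.n (.p (nat_lit 0x215e215c215a21540016000500032159215709) (nat_lit 0x1100b00) (nat_lit 10))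
 (.p (nat_lit 0x214421422140213e213c44a706) (nat_lit 0x10000050021) (nat_lit 51)))
 (.n (.p (nat_lit 0x140c140a140814061402122b06) (nat_lit 0x1000042407) (nat_lit 51))
 (.p (nat_lit 0x5e7e1f0502) (nat_lit 0x40900) (nat_lit 45)))))
 (.n (.n (.n (.p (nat_lit 0x157615741570156e1557155106) (nat_lit 0x12000082600) (nat_lit 52))
 (.p (nat_lit 0x4fac4d2702) (nat_lit 0x4051b) (nat_lit 4)))
 (.n (.p (nat_lit 0xd100d0c0d0a0d080d06196106) (nat_lit 0x8000006705) (nat_lit 52))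
 (.p (nat_lit 0x5dd0072f02) (nat_lit 0x60046100) (nat_lit 47))))
 (.n (.n (.p (nat_lit 0x48413b902) (nat_lit 0x500502) (nat_lit 1))
 (.p (nat_lit 0x431c40e502) (nat_lit 0x240727) (nat_lit 4)))
 (.n (.p (nat_lit 0xe1452d102) (nat_lit 0x40030e) (nat_lit 29))
 (.p (nat_lit 0x8ea601302) (nat_lit 0x405aa2335000100040000) (nat_lit 49))))))
 (.n (.n (.n (.n (.p (nat_lit 0xc8e0e6d02) (nat_lit 0x40300) (nat_lit 4))
 (.p (nat_lit 0x464e464c464846464644217f06) (nat_lit 0x400008aa15) (nat_lit 52)))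
 (.n (.p (nat_lit 0x42cb194f02) (nat_lit 0x104704) (nat_lit 16))
 (.p (nat_lit 0x1f001ee01e801e6023d000706) (nat_lit 0x131040e) (nat_lit 26))))
 (.n (.n (.p (nat_lit 0x1d8215eb02) (nat_lit 0x340801) (nat_lit 4))
 (.p (nat_lit 0x3a356df02) (nat_lit 0x140723) (nat_lit 30)))
 (.n (.p (nat_lit 0x3380337e337c337a33760187337907) (nat_lit 0x140a09) (nat_lit 7))
 (.p (nat_lit 0x20765f1102) (nat_lit 0x3a2270350000400000600) (nat_lit 50)))))
 (.n (.n (.n (.p (nat_lit 0x1c721c701c6c1c6a1a671a6106) (nat_lit 0x12000042800) (nat_lit 52))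
 (.p (nat_lit 0x202a0f2902) (nat_lit 0x44091c) (nat_lit 5)))
 (.n (.p (nat_lit 0x8fc08fa08f808f608f41c3906) (nat_lit 0x10000082806) (nat_lit 51))
 (.p (nat_lit 0x5cbb5e3902) (nat_lit 0x20000000600) (nat_lit 37))))
 (.n (.n (.p (nat_lit 0xce01b3102) (nat_lit 0x540203) (nat_lit 5))
 (.p (nat_lit 0x17e257ed02) (nat_lit 0x44062a) (nat_lit 29)))
 (.n (.p (nat_lit 0x2a0c26f102) (nat_lit 0x24040f) (nat_lit 5))
 (.p (nat_lit 0xbae611702) (nat_lit 0x3562621b0000200040000) (nat_lit 49))))))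

def c512_468 : Tr := .n c1024_468 c1024_980

def c256_212 : Tr := .n c512_212 c512_468

def c128_84 : Tr := .n c256_84 c256_212

def c64_20 : Tr := .n c128_20 c128_84

def c1024_52 : Tr :=
 .n (.n (.n (.n (.n (.n (.p (nat_lit 0x32003b02) (nat_lit 0x8000600001) (nat_lit 17))
 (.p (nat_lit 0x648612f02) (nat_lit 0x35486a1b0000000040000) (nat_lit 50)))
 (.p (nat_lit 0x2b98271502) (nat_lit 0x20090f) (nat_lit 4)))
 (.n (.p (nat_lit 0xfae1caf02) (nat_lit 0x540303) (nat_lit 5))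
 (.p (nat_lit 0x4901c0d02) (nat_lit 0x10082a) (nat_lit 1))))
 (.n (.n (.p (nat_lit 0x1d0c1d081d061d041a671a6306) (nat_lit 0x140000d4800) (nat_lit 51))
 (.p (nat_lit 0x30f559502) (nat_lit 0x440a1c) (nat_lit 30)))
 (.n (.p (nat_lit 0x1d9e1d9c1d981d961d9401191d9b07) (nat_lit 0x340806) (nat_lit 7))
 (.p (nat_lit 0x5ccf153702) (nat_lit 0x1e0020000600) (nat_lit 38)))))
 (.n (.n (.n (.p (nat_lit 0xec80ec40ec20ec00c990c9506) (nat_lit 0x140000ca300) (nat_lit 51))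
 (.p (nat_lit 0x302258b02) (nat_lit 0x440b15) (nat_lit 1)))
 (.n (.p (nat_lit 0x431d1ab502) (nat_lit 0x248704) (nat_lit 16))
 (.p (nat_lit 0x22b5acf02) (nat_lit 0x400510) (nat_lit 28))))
 (.n (.n (.p (nat_lit 0x2f2b8102) (nat_lit 0x200901) (nat_lit 30))
 (.p (nat_lit 0x3a556f902) (nat_lit 0x240823) (nat_lit 30)))
 (.n (.p (nat_lit 0x374834dd02) (nat_lit 0x34020a) (nat_lit 5))
 (.p (nat_lit 0x13fc5f2102) (nat_lit 0x3a2570344000500040000) (nat_lit 50))))))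
 (.n (.n (.n (.n (.p (nat_lit 0x7a2079605bf03) (nat_lit 0x100100) (nat_lit 6))
 (.p (nat_lit 0x5c80a5d02) (nat_lit 0x15) (nat_lit 5)))
 (.n (.p (nat_lit 0x25408cb02) (nat_lit 0x300104) (nat_lit 1))
 (.p (nat_lit 0x4690488702) (nat_lit 0x24022f) (nat_lit 5))))
 (.n (.n (.p (nat_lit 0x1551215902) (nat_lit 0x200b00) (nat_lit 15))
 (.p (nat_lit 0x4a44564902) (nat_lit 0x440721) (nat_lit 29)))
 (.n (.p (nat_lit 0x17a8517702) (nat_lit 0x540607) (nat_lit 29))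
 (.p (nat_lit 0x5cf31f0902) (nat_lit 0x2a0040000900) (nat_lit 39)))))
 (.n (.n (.n (.p (nat_lit 0x1643155702) (nat_lit 0x502600) (nat_lit 16))
 (.p (nat_lit 0x314032d03330e8f0d2905) (nat_lit 0x89d0001c) (nat_lit 9)))
 (.n (.p (nat_lit 0x1ac622a102) (nat_lit 0x540705) (nat_lit 4))
 (.p (nat_lit 0x5c9b0ba702) (nat_lit 0x220000000200) (nat_lit 39))))
 (.n (.n (.p (nat_lit 0x1ef41a1d02) (nat_lit 0x400902) (nat_lit 5))
 (.p (nat_lit 0x458e458c458a458845860413459107) (nat_lit 0x540128) (nat_lit 7)))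
 (.n (.p (nat_lit 0xbd20bd00bce0bcc0bca0f7f06) (nat_lit 0x100000c030e) (nat_lit 52))
 (.p (nat_lit 0x13fe602702) (nat_lit 0x406a62335000500040000) (nat_lit 50))))))

def c1024_564 : Tr :=
 .n (.n (.n (.n (.n (.n (.p (nat_lit 0x366037302) (nat_lit 0x2000600020) (nat_lit 17))
 (.p (nat_lit 0x207661a702) (nat_lit 0x3421a9c14800400000600) (nat_lit 50)))
 (.p (nat_lit 0x3f9c3d8902) (nat_lit 0x312) (nat_lit 5)))
 (.n (.p (nat_lit 0x1e721e701e6e1e6c21c321c106) (nat_lit 0x180008ea03) (nat_lit 51))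
 (.p (nat_lit 0x39dc39da39d839d639d432bd06) (nat_lit 0x80009692c) (nat_lit 52))))
 (.n (.n (.p (nat_lit 0x2077206b02) (nat_lit 0xa00) (nat_lit 34))
 (.p (nat_lit 0x3b0e383702) (nat_lit 0x500a1f) (nat_lit 5)))
 (.n (.p (nat_lit 0xe02514b02) (nat_lit 0x100307) (nat_lit 29))
 (.p (nat_lit 0x5d97197b02) (nat_lit 0x1600a0000700) (nat_lit 39)))))
 (.n (.n (.n (.p (nat_lit 0x12870f6702) (nat_lit 0x554400) (nat_lit 16))
 (.p (nat_lit 0x419d409702) (nat_lit 0x500419) (nat_lit 15)))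
 (.n (.p (nat_lit 0x11290e5b02) (nat_lit 0x300305) (nat_lit 15))
 (.p (nat_lit 0x4980496049204900435019f06) (nat_lit 0x31612d) (nat_lit 26))))
 (.n (.n (.p (nat_lit 0x762183902) (nat_lit 0x540002) (nat_lit 5))
 (.p (nat_lit 0xff60ff40ff00fee0fec335906) (nat_lit 0x4000000a25) (nat_lit 52)))
 (.n (.p (nat_lit 0x43f643f443f243f043ec433b06) (nat_lit 0x100000eb0b) (nat_lit 52))
 (.p (nat_lit 0x1dac5fa302) (nat_lit 0x589832b44000300000600) (nat_lit 50))))))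
 (.n (.n (.n (.n (.p (nat_lit 0xb8f087102) (nat_lit 0x14200) (nat_lit 16))
 (.p (nat_lit 0x129e129c129a1298129614d506) (nat_lit 0x80004a515) (nat_lit 52)))
 (.n (.p (nat_lit 0x151a41a902) (nat_lit 0x540504) (nat_lit 29))
 (.p (nat_lit 0xbc00ba00b800b60091000106) (nat_lit 0x280e604) (nat_lit 26))))
 (.n (.n (.p (nat_lit 0xcc80cc60cc40cbe0046002f002d0cc30cc109) (nat_lit 0x1140201) (nat_lit 10))
 (.p (nat_lit 0x273d089102) (nat_lit 0x40c123) (nat_lit 16)))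
 (.n (.p (nat_lit 0x28d2266902) (nat_lit 0x400308) (nat_lit 5))
 (.p (nat_lit 0x5d37248702) (nat_lit 0x160060000b00) (nat_lit 39)))))
 (.n (.n (.n (.p (nat_lit 0x19cc19c819c619c2179b179506) (nat_lit 0x90000c4700) (nat_lit 51))
 (.p (nat_lit 0x10b410b210b010ae1399139706) (nat_lit 0x180001651c) (nat_lit 52)))
 (.n (.p (nat_lit 0xcfc238902) (nat_lit 0x140206) (nat_lit 4))
 (.p (nat_lit 0x5cd30fe302) (nat_lit 0x1a0020000400) (nat_lit 40))))
 (.n (.n (.p (nat_lit 0x1590158e158815862463246106) (nat_lit 0x6000084b02) (nat_lit 52))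
 (.p (nat_lit 0xbb00bac0baa0ba80ba60b5b06) (nat_lit 0x800008422a) (nat_lit 52)))
 (.n (.p (nat_lit 0x22a191902) (nat_lit 0x40070e) (nat_lit 1))
 (.p (nat_lit 0x114260a502) (nat_lit 0x346068ca4000400040000) (nat_lit 49))))))

def c512_52 : Tr := .n c1024_52 c1024_564

def c1024_308 : Tr :=
 .n (.n (.n (.n (.n (.n (.p (nat_lit 0x13b012f012003) (nat_lit 0x62100006) (nat_lit 19))
 (.p (nat_lit 0x2492616502) (nat_lit 0x340c62b84000500040600) (nat_lit 50)))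
 (.p (nat_lit 0x33d82e1302) (nat_lit 0x100b10) (nat_lit 5)))
 (.n (.p (nat_lit 0x167e167c167a167816740089167707) (nat_lit 0x100603) (nat_lit 7))
 (.p (nat_lit 0x27442a2502) (nat_lit 0x40012b) (nat_lit 4))))
 (.n (.n (.p (nat_lit 0x1eb31bc502) (nat_lit 0x104900) (nat_lit 16))
 (.p (nat_lit 0x2c22e2d02) (nat_lit 0x30011e) (nat_lit 1)))
 (.n (.p (nat_lit 0x2066206420622060205e011d206907) (nat_lit 0x540906) (nat_lit 7))
 (.p (nat_lit 0x5e502d9d02) (nat_lit 0x46700) (nat_lit 47)))))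
 (.n (.n (.n (.p (nat_lit 0x10861080107e107c0dfd0dfb06) (nat_lit 0xc000012400) (nat_lit 51))
 (.p (nat_lit 0x33922f1d02) (nat_lit 0x240a17) (nat_lit 4)))
 (.n (.p (nat_lit 0x62f062302) (nat_lit 0x30c005) (nat_lit 16))
 (.p (nat_lit 0x36a03680366036203fd00bf06) (nat_lit 0xd0a020) (nat_lit 26))))
 (.n (.n (.p (nat_lit 0x2bdd204702) (nat_lit 0x40901) (nat_lit 16))
 (.p (nat_lit 0x25a410c102) (nat_lit 0x540b23) (nat_lit 4)))
 (.n (.p (nat_lit 0x43393b6b02) (nat_lit 0x14b0a) (nat_lit 16))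
 (.p (nat_lit 0x2493248b21dd21d51f111f0b1c511c3d1985197516a716995f680d) (nat_lit 0x3aa074c44000000040600) (nat_lit 33))))))
 (.n (.n (.n (.n (.p (nat_lit 0x97609720970096c0725071f06) (nat_lit 0x9000050100) (nat_lit 51))
 (.p (nat_lit 0x12460a8702) (nat_lit 0x340415) (nat_lit 4)))
 (.n (.p (nat_lit 0x111b0e4d02) (nat_lit 0x200304) (nat_lit 15))
 (.p (nat_lit 0x320030002c002a000b046706) (nat_lit 0x2a12501) (nat_lit 26))))
 (.n (.n (.p (nat_lit 0x5ee25d902) (nat_lit 0x100001) (nat_lit 29))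
 (.p (nat_lit 0x3a9568502) (nat_lit 0x400023) (nat_lit 30)))
 (.n (.p (nat_lit 0x14551ad02) (nat_lit 0x240907) (nat_lit 30))
 (.p (nat_lit 0x5e9a468f02) (nat_lit 0x2004aa00) (nat_lit 47)))))
 (.n (.n (.n (.p (nat_lit 0x5a162302) (nat_lit 0x100700) (nat_lit 1))
 (.p (nat_lit 0x44a5073d02) (nat_lit 0x45401c) (nat_lit 16)))
 (.n (.p (nat_lit 0x1dc01dbe1dbc1dba1d931d8906) (nat_lit 0x10800040805) (nat_lit 52))
 (.p (nat_lit 0x5df449ed02) (nat_lit 0x14300) (nat_lit 48))))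
 (.n (.n (.p (nat_lit 0x1aea1ae81ae61ae21ae021b906) (nat_lit 0x2000010a02) (nat_lit 51))
 (.p (nat_lit 0x50c650c250c050be50bc042550c507) (nat_lit 0x440829) (nat_lit 7)))
 (.n (.p (nat_lit 0x249624922490248e248c123d06) (nat_lit 0x80000d640e) (nat_lit 51))
 (.p (nat_lit 0x640606902) (nat_lit 0x588172b40800000040000) (nat_lit 50))))))

def c1024_820 : Tr :=
 .n (.n (.n (.n (.n (.n (.p (nat_lit 0x58a05880586058004df04dd06) (nat_lit 0x3000092000) (nat_lit 51))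
 (.p (nat_lit 0x1daa61e502) (nat_lit 0x14e0a8c74000300000600) (nat_lit 49)))
 (.p (nat_lit 0x4852454f02) (nat_lit 0x440413) (nat_lit 4)))
 (.n (.p (nat_lit 0x25be1bb702) (nat_lit 0x40b03) (nat_lit 5))
 (.p (nat_lit 0x4363bfd02) (nat_lit 0x140b2d) (nat_lit 1))))
 (.n (.n (.p (nat_lit 0x224c224a224822461ff51ff306) (nat_lit 0x1800048a00) (nat_lit 52))
 (.p (nat_lit 0x42db423f02) (nat_lit 0x300620) (nat_lit 15)))
 (.n (.p (nat_lit 0x308b0f6902) (nat_lit 0x4e307) (nat_lit 16))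
 (.p (nat_lit 0x5d751c4f02) (nat_lit 0x80080000800) (nat_lit 41)))))
 (.n (.n (.n (.p (nat_lit 0x14221420141e141c141a122706) (nat_lit 0x10000044500) (nat_lit 51))
 (.p (nat_lit 0x20f220f020ee20ec20ea48bd06) (nat_lit 0x80008851a) (nat_lit 51)))
 (.n (.p (nat_lit 0x1696496d02) (nat_lit 0x500605) (nat_lit 29))
 (.p (nat_lit 0x5cbd5dc502) (nat_lit 0x100) (nat_lit 37))))
 (.n (.n (.p (nat_lit 0x2fd02fce2fcc2fca2fc80e3b06) (nat_lit 0x10000080302) (nat_lit 51))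
 (.p (nat_lit 0xb63d7302) (nat_lit 0x100127) (nat_lit 1)))
 (.n (.p (nat_lit 0x4e244acf02) (nat_lit 0x54030d) (nat_lit 5))
 (.p (nat_lit 0x8fe5fe902) (nat_lit 0x306a81d31000100040000) (nat_lit 50))))))
 (.n (.n (.n (.n (.p (nat_lit 0xd340d300d2c0d2a0b370b3306) (nat_lit 0xa000080300) (nat_lit 51))
 (.p (nat_lit 0x1bf00adf02) (nat_lit 0x500815) (nat_lit 4)))
 (.n (.p (nat_lit 0x16ac16aa16a616a417fd17f706) (nat_lit 0x120000cc604) (nat_lit 51))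
 (.p (nat_lit 0x14b5a1102) (nat_lit 0x500707) (nat_lit 28))))
 (.n (.n (.p (nat_lit 0x14f614f414f014ec00480031002d14f314ef09) (nat_lit 0x1940501) (nat_lit 10))
 (.p (nat_lit 0x3ab56c302) (nat_lit 0x540223) (nat_lit 30)))
 (.n (.p (nat_lit 0x18c418c218c018be18bc301506) (nat_lit 0x10000092309) (nat_lit 52))
 (.p (nat_lit 0x1da25edf02) (nat_lit 0x4a9d22344000300000600) (nat_lit 49)))))
 (.n (.n (.n (.p (nat_lit 0x1b901b8c1b8a1b881b86190106) (nat_lit 0x800008c800) (nat_lit 51))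
 (.p (nat_lit 0x1bf40eff02) (nat_lit 0x10081c) (nat_lit 4)))
 (.n (.p (nat_lit 0x34196f02) (nat_lit 0x500706) (nat_lit 1))
 (.p (nat_lit 0x5cff12a502) (nat_lit 0x1e0040000500) (nat_lit 40))))
 (.n (.n (.p (nat_lit 0x8f356902) (nat_lit 0x400103) (nat_lit 30))
 (.p (nat_lit 0x117411721170116c116a0e1d06) (nat_lit 0x200000232a) (nat_lit 51)))
 (.n (.p (nat_lit 0x2421216d02) (nat_lit 0xa0e) (nat_lit 15))
 (.p (nat_lit 0x63460ef02) (nat_lit 0x440d6a3a4000000040000) (nat_lit 49))))))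

def c512_308 : Tr := .n c1024_308 c1024_820

def c256_52 : Tr := .n c512_52 c512_308

def c1024_180 : Tr :=
 .n (.n (.n (.n (.n (.n (.p (nat_lit 0xbc00b800b400c104) (nat_lit 0xa800400004) (nat_lit 17))
 (.p (nat_lit 0xbb2614d02) (nat_lit 0x3b0221d85000200040000) (nat_lit 50)))
 (.p (nat_lit 0x18c618c218c018be18bc317b06) (nat_lit 0x80000d2410) (nat_lit 52)))
 (.n (.p (nat_lit 0x392439223920391e391c391a06) (nat_lit 0xc2403) (nat_lit 52))
 (.p (nat_lit 0x219c582d02) (nat_lit 0xa2a) (nat_lit 29))))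
 (.n (.n (.p (nat_lit 0x1de61de21de01dde1bcb1bc306) (nat_lit 0x8800082900) (nat_lit 51))
 (.p (nat_lit 0x272828ff02) (nat_lit 0x11d) (nat_lit 4)))
 (.n (.p (nat_lit 0x50bf1d9702) (nat_lit 0x148806) (nat_lit 16))
 (.p (nat_lit 0x5d79154902) (nat_lit 0x40080000600) (nat_lit 40)))))
 (.n (.n (.n (.p (nat_lit 0x3a60dfb02) (nat_lit 0x300400) (nat_lit 1))
 (.p (nat_lit 0x2c42286302) (nat_lit 0x400a16) (nat_lit 5)))
 (.n (.p (nat_lit 0x25d21fef02) (nat_lit 0x440b04) (nat_lit 5))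
 (.p (nat_lit 0x2565b4d02) (nat_lit 0x400019) (nat_lit 27))))
 (.n (.n (.p (nat_lit 0x1efd1ee502) (nat_lit 0x214901) (nat_lit 16))
 (.p (nat_lit 0x2198109b02) (nat_lit 0x400a23) (nat_lit 4)))
 (.n (.p (nat_lit 0x494396d02) (nat_lit 0x34040a) (nat_lit 1))
 (.p (nat_lit 0x6485f4302) (nat_lit 0x1a1d22350000000040000) (nat_lit 50))))))
 (.n (.n (.n (.n (.p (nat_lit 0x8a505c102) (nat_lit 0x20c100) (nat_lit 16))
 (.p (nat_lit 0x982097e097c097a0978073106) (nat_lit 0x80000d0015) (nat_lit 51)))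
 (.n (.p (nat_lit 0x3e423e403e3c3e3a3e380b8906) (nat_lit 0x400000c204) (nat_lit 51))
 (.p (nat_lit 0x4d004f7702) (nat_lit 0x200230) (nat_lit 5))))
 (.n (.n (.p (nat_lit 0x252c252a2526252222c122bd06) (nat_lit 0x500004eb00) (nat_lit 51))
 (.p (nat_lit 0x50204d9302) (nat_lit 0x40722) (nat_lit 5)))
 (.n (.p (nat_lit 0x1bd406c502) (nat_lit 0x300807) (nat_lit 5))
 (.p (nat_lit 0x5d8f5e9302) (nat_lit 0x1e00a0000900) (nat_lit 37)))))
 (.n (.n (.n (.p (nat_lit 0x17541750174e174a16b916b306) (nat_lit 0x9000050600) (nat_lit 51))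
 (.p (nat_lit 0x3140333032d0d2f0e9505) (nat_lit 0xae24001c) (nat_lit 9)))
 (.n (.p (nat_lit 0x1c2422a502) (nat_lit 0x100805) (nat_lit 4))
 (.p (nat_lit 0x5d330a4b02) (nat_lit 0x1a0060000200) (nat_lit 38))))
 (.n (.n (.p (nat_lit 0x1d021d001cfe1cfc1cf8205506) (nat_lit 0x1000054902) (nat_lit 51))
 (.p (nat_lit 0x23e223e023de23dc23da4c0d06) (nat_lit 0x80008e129) (nat_lit 52)))
 (.n (.p (nat_lit 0x233c233a23382334233210df06) (nat_lit 0x200001640e) (nat_lit 52))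
 (.p (nat_lit 0xbae604902) (nat_lit 0x406a6254c800200040000) (nat_lit 49))))))

def c1024_692 : Tr :=
 .n (.n (.n (.n (.n (.n (.p (nat_lit 0x4ce04c204db03) (nat_lit 0x0) (nat_lit 6))
 (.p (nat_lit 0x169861c702) (nat_lit 0x340d89ca4000000040600) (nat_lit 49)))
 (.p (nat_lit 0x42243d3f02) (nat_lit 0x200612) (nat_lit 5)))
 (.n (.p (nat_lit 0x4cc04ca04c804c604c4246906) (nat_lit 0x800000b03) (nat_lit 52))
 (.p (nat_lit 0x36d039a902) (nat_lit 0x10022d) (nat_lit 4))))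
 (.n (.n (.p (nat_lit 0x2152214e214c214a1e951e8d06) (nat_lit 0x8800090a00) (nat_lit 51))
 (.p (nat_lit 0x3d693c6302) (nat_lit 0x200020) (nat_lit 15)))
 (.n (.p (nat_lit 0x46eb0e0502) (nat_lit 0x214307) (nat_lit 16))
 (.p (nat_lit 0x5ccb5e6b02) (nat_lit 0x220020000800) (nat_lit 36)))))
 (.n (.n (.n (.p (nat_lit 0x1336133413321330132e10cb06) (nat_lit 0x8000090500) (nat_lit 51))
 (.p (nat_lit 0xa8a0a880a860a840a80427706) (nat_lit 0x10000c8619) (nat_lit 52)))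
 (.n (.p (nat_lit 0x483c483a483648344832128306) (nat_lit 0x40000ce405) (nat_lit 52))
 (.p (nat_lit 0x5db249cb02) (nat_lit 0x20014000) (nat_lit 47))))
 (.n (.n (.p (nat_lit 0xa1f0a1302) (nat_lit 0x552102) (nat_lit 16))
 (.p (nat_lit 0x36ca575d02) (nat_lit 0x400226) (nat_lit 29)))
 (.n (.p (nat_lit 0x4974446f02) (nat_lit 0x50060c) (nat_lit 5))
 (.p (nat_lit 0x1ade5fcd02) (nat_lit 0x95832b05000200000600) (nat_lit 49))))))
 (.n (.n (.n (.n (.p (nat_lit 0xc680c660c640c6209d709cd06) (nat_lit 0x10800054200) (nat_lit 51))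
 (.p (nat_lit 0x17c0544702) (nat_lit 0x540615) (nat_lit 29)))
 (.n (.p (nat_lit 0x207e207c207a20782076168b06) (nat_lit 0x10000014604) (nat_lit 51))
 (.p (nat_lit 0x59c059be59bc59ba59b6000300ee07) (nat_lit 0x10c805) (nat_lit 25))))
 (.n (.n (.p (nat_lit 0x299710f702) (nat_lit 0x202401) (nat_lit 16))
 (.p (nat_lit 0x9f909ed02) (nat_lit 0x440123) (nat_lit 16)))
 (.n (.p (nat_lit 0x6620660065c065a06582b8f06) (nat_lit 0x4000004908) (nat_lit 51))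
 (.p (nat_lit 0x5ec0169702) (nat_lit 0xa0012b00) (nat_lit 47)))))
 (.n (.n (.n (.p (nat_lit 0x1a87179902) (nat_lit 0x344700) (nat_lit 16))
 (.p (nat_lit 0x192d165502) (nat_lit 0x20061c) (nat_lit 15)))
 (.n (.p (nat_lit 0x4e9f113702) (nat_lit 0x402406) (nat_lit 16))
 (.p (nat_lit 0x5e1a0e2102) (nat_lit 0x80000400) (nat_lit 48))))
 (.n (.n (.p (nat_lit 0x342925b502) (nat_lit 0x142b02) (nat_lit 16))
 (.p (nat_lit 0xd1c0d1a0d160d140d120cb906) (nat_lit 0x400004622a) (nat_lit 51)))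
 (.n (.p (nat_lit 0x1d4a1d481d441d421d4001ed1d4707) (nat_lit 0x34080e) (nat_lit 7))
 (.p (nat_lit 0xe7260cf02) (nat_lit 0x35056a3a4000300040000) (nat_lit 49))))))

def c512_180 : Tr := .n c1024_180 c1024_692

def c1024_436 : Tr :=
 .n (.n (.n (.n (.n (.n (.p (nat_lit 0x28602840280028d04) (nat_lit 0x6800400015) (nat_lit 17))
 (.p (nat_lit 0x1ae4618702) (nat_lit 0x54c88a970000200000600) (nat_lit 50)))
 (.p (nat_lit 0x1b901b8e1b8a1b881b86397906) (nat_lit 0x40000cc411) (nat_lit 51)))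
 (.n (.p (nat_lit 0x17ee17ea17e817e600b00091008d17f117ed09) (nat_lit 0x2b40603) (nat_lit 10))
 (.p (nat_lit 0x12da12d812d612d412d02bc706) (nat_lit 0x100008492b) (nat_lit 51))))
 (.n (.n (.p (nat_lit 0x1fb41fb01fae1faa1d311d2b06) (nat_lit 0x900004c900) (nat_lit 51))
 (.p (nat_lit 0x1d1a1d181d161d141d1034c106) (nat_lit 0x100001601f) (nat_lit 51)))
 (.n (.p (nat_lit 0x83608340830082e082c0b4106) (nat_lit 0x4000012207) (nat_lit 52))
 (.p (nat_lit 0x5d2f5e5d02) (nat_lit 0x1e0060000700) (nat_lit 36)))))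
 (.n (.n (.n (.p (nat_lit 0x11681164116211600f650f5d06) (nat_lit 0x88000c0400) (nat_lit 51))
 (.p (nat_lit 0x3a70371302) (nat_lit 0x540518) (nat_lit 4)))
 (.n (.p (nat_lit 0xb9220b502) (nat_lit 0x200205) (nat_lit 5))
 (.p (nat_lit 0x3da03d803d403d2041d03a706) (nat_lit 0x314924) (nat_lit 26))))
 (.n (.n (.p (nat_lit 0x2316178f02) (nat_lit 0x440a01) (nat_lit 4))
 (.p (nat_lit 0x2bbc29e102) (nat_lit 0x200924) (nat_lit 4)))
 (.n (.p (nat_lit 0x1fd81fd61fd41fd21fd0400f06) (nat_lit 0x8000ce30b) (nat_lit 52))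
 (.p (nat_lit 0xbb05f8502) (nat_lit 0x581a32b44000200040000) (nat_lit 49))))))
 (.n (.n (.n (.n (.p (nat_lit 0xa720a700a6c0a6a0a68087706) (nat_lit 0x4000080200) (nat_lit 51))
 (.p (nat_lit 0xe820e800e7c0e7a0e78139106) (nat_lit 0x4000086515) (nat_lit 51)))
 (.n (.p (nat_lit 0x12781f9102) (nat_lit 0x440404) (nat_lit 5))
 (.p (nat_lit 0x19e591502) (nat_lit 0x300003) (nat_lit 27))))
 (.n (.n (.p (nat_lit 0xa060a040a020a0009fe002b09fd07) (nat_lit 0x40101) (nat_lit 7))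
 (.p (nat_lit 0x9eb074702) (nat_lit 0x340023) (nat_lit 15)))
 (.n (.p (nat_lit 0x241c070d02) (nat_lit 0x400b07) (nat_lit 4))
 (.p (nat_lit 0x5d8b5eab02) (nat_lit 0x2200a0000a00) (nat_lit 37)))))
 (.n (.n (.n (.p (nat_lit 0x18f618f418f018ee18ec162706) (nat_lit 0x4000096700) (nat_lit 51))
 (.p (nat_lit 0x9de550f02) (nat_lit 0x34011c) (nat_lit 29)))
 (.n (.p (nat_lit 0x8dc236302) (nat_lit 0x106) (nat_lit 4))
 (.p (nat_lit 0x5d750d1b02) (nat_lit 0x80080000300) (nat_lit 40))))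
 (.n (.n (.p (nat_lit 0x16ae16aa16a616a42323231f06) (nat_lit 0xa0000cca02) (nat_lit 51))
 (.p (nat_lit 0x43557a902) (nat_lit 0x4012a) (nat_lit 30)))
 (.n (.p (nat_lit 0x14d252f702) (nat_lit 0x54050e) (nat_lit 29))
 (.p (nat_lit 0x8fc608b02) (nat_lit 0x354221ca4000100040000) (nat_lit 50))))))

def c1024_948 : Tr :=
 .n (.n (.n (.n (.n (.p (nat_lit 0x68406820680067c0657064f06) (nat_lit 0x110000c6000) (nat_lit 52))
 (.p (nat_lit 0x4ea04bbd02) (nat_lit 0x500414) (nat_lit 4)))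
 (.n (.p (nat_lit 0x3c0325c702) (nat_lit 0x44ab03) (nat_lit 16))
 (.p (nat_lit 0x1448144614441442143e425306) (nat_lit 0x100008662e) (nat_lit 52))))
 (.n (.n (.p (nat_lit 0x231f1ff702) (nat_lit 0x24ea00) (nat_lit 16))
 (.p (nat_lit 0x22a0229c229a22982296441706) (nat_lit 0x800008e021) (nat_lit 52)))
 (.n (.p (nat_lit 0x122c516502) (nat_lit 0x240407) (nat_lit 29))
 (.p (nat_lit 0x5e7c355302) (nat_lit 0xa0046800) (nat_lit 47)))))
 (.n (.n (.n (.p (nat_lit 0x154c154102) (nat_lit 0x600) (nat_lit 5))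
 (.p (nat_lit 0x4e004dfe4dfc4df84df64ea706) (nat_lit 0x200000241b) (nat_lit 52)))
 (.n (.p (nat_lit 0x195e229102) (nat_lit 0x300705) (nat_lit 5))
 (.p (nat_lit 0x5d3708ef02) (nat_lit 0x160060000100) (nat_lit 39))))
 (.n (.n (.p (nat_lit 0x31523150314e314c314a125d06) (nat_lit 0x20000d2402) (nat_lit 52))
 (.p (nat_lit 0x3aa429702) (nat_lit 0x540627) (nat_lit 1)))
 (.n (.p (nat_lit 0x1e152c502) (nat_lit 0x44090d) (nat_lit 30))
 (.p (nat_lit 0x181c600d02) (nat_lit 0x405aa0b54800100000600) (nat_lit 50))))))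
 (.n (.n (.n (.n (.p (nat_lit 0xe2f0b3902) (nat_lit 0x50c300) (nat_lit 16))
 (.p (nat_lit 0x21822180217e217c21780283217b07) (nat_lit 0x100a15) (nat_lit 7)))
 (.n (.p (nat_lit 0x1b9c1b9a1b981b961b94194d06) (nat_lit 0x800014704) (nat_lit 52))
 (.p (nat_lit 0x1e201e001dc01d8014704bb06) (nat_lit 0x191040d) (nat_lit 26))))
 (.n (.n (.p (nat_lit 0x2b111c1f02) (nat_lit 0x402801) (nat_lit 16))
 (.p (nat_lit 0x3acd17d102) (nat_lit 0x150623) (nat_lit 16)))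
 (.n (.p (nat_lit 0x33282ccd02) (nat_lit 0x300a09) (nat_lit 5))
 (.p (nat_lit 0x15425f0d02) (nat_lit 0x3a2530344000000000600) (nat_lit 50)))))
 (.n (.n (.n (.p (nat_lit 0x1a661a641a601a5e1a5c00071a6307) (nat_lit 0x340800) (nat_lit 7))
 (.p (nat_lit 0x1ec41ec21ec01ebc0328031103091ec71ebf09) (nat_lit 0x290091c) (nat_lit 10)))
 (.n (.p (nat_lit 0x1c3023e702) (nat_lit 0x100806) (nat_lit 4))
 (.p (nat_lit 0x5da7129f02) (nat_lit 0x600a0000500) (nat_lit 38))))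
 (.n (.n (.p (nat_lit 0xb801b2502) (nat_lit 0x500203) (nat_lit 5))
 (.p (nat_lit 0x2a262a242a222a20166f166d06) (nat_lit 0x600000262a) (nat_lit 52)))
 (.n (.p (nat_lit 0x537a53785376537453725370021607) (nat_lit 0x30f) (nat_lit 8))
 (.p (nat_lit 0x8f2611102) (nat_lit 0x3425221b0000100040000) (nat_lit 49))))))

def c512_436 : Tr := .n c1024_436 c1024_948

def c256_180 : Tr := .n c512_180 c512_436

def c128_52 : Tr := .n c256_52 c256_180

def c1024_116 : Tr :=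
 .n (.n (.n (.n (.n (.n (.p (nat_lit 0x7d006d006603) (nat_lit 0x41800002) (nat_lit 19))
 (.p (nat_lit 0xbac613d02) (nat_lit 0x342a21d84000200040000) (nat_lit 49)))
 (.p (nat_lit 0x30962e4b02) (nat_lit 0x40310) (nat_lit 5)))
 (.n (.p (nat_lit 0x388c388a388838863882110d06) (nat_lit 0x1000002403) (nat_lit 52))
 (.p (nat_lit 0x1ed8133d02) (nat_lit 0x20092a) (nat_lit 5))))
 (.n (.n (.p (nat_lit 0x1d751a6102) (nat_lit 0x24a800) (nat_lit 16))
 (.p (nat_lit 0x33f3243f02) (nat_lit 0x30eb1c) (nat_lit 16)))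
 (.n (.p (nat_lit 0x16a216a0169e169c16981d9706) (nat_lit 0x10000cc806) (nat_lit 52))
 (.p (nat_lit 0x5e402a0d02) (nat_lit 0x40042600) (nat_lit 47)))))
 (.n (.n (.n (.p (nat_lit 0xf710c9702) (nat_lit 0x440300) (nat_lit 16))
 (.p (nat_lit 0x15e015dc15da15d82aef2aeb06) (nat_lit 0x14000050516) (nat_lit 52)))
 (.n (.p (nat_lit 0x2270226c22682266247d247906) (nat_lit 0xa00008ab04) (nat_lit 51))
 (.p (nat_lit 0x5b0e5b0c5b0a5b085b060005028c07) (nat_lit 0x200415) (nat_lit 25))))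
 (.n (.n (.p (nat_lit 0x153e153c153a153615341ee506) (nat_lit 0x200000c901) (nat_lit 52))
 (.p (nat_lit 0x1ed211e502) (nat_lit 0x500923) (nat_lit 4)))
 (.n (.p (nat_lit 0x3860346902) (nat_lit 0x34030a) (nat_lit 5))
 (.p (nat_lit 0x15345f3702) (nat_lit 0x3a6560c44000000000600) (nat_lit 49))))))
 (.n (.n (.n (.n (.p (nat_lit 0x7da07d807d207d005c305c106) (nat_lit 0x6000088100) (nat_lit 51))
 (.p (nat_lit 0x4b1705cf02) (nat_lit 0x316015) (nat_lit 16)))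
 (.n (.p (nat_lit 0x3dc43dc23dbe3dbc3dba0a2706) (nat_lit 0x400004c104) (nat_lit 52))
 (.p (nat_lit 0x4344a0302) (nat_lit 0x72f) (nat_lit 1))))
 (.n (.n (.p (nat_lit 0x22c422c222c022be22ba000322bd07) (nat_lit 0x140b00) (nat_lit 7))
 (.p (nat_lit 0x255c255a2556255425524b8b06) (nat_lit 0x4000052022) (nat_lit 52)))
 (.n (.p (nat_lit 0x194b190f02) (nat_lit 0x508707) (nat_lit 16))
 (.p (nat_lit 0x5d7d1f0d02) (nat_lit 0x80000900) (nat_lit 39)))))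
 (.n (.n (.n (.p (nat_lit 0x16ba16b816b416b216b0000716b707) (nat_lit 0x340600) (nat_lit 7))
 (.p (nat_lit 0x1c441c421c3e1c3c1c3a05db06) (nat_lit 0x400009001c) (nat_lit 52)))
 (.n (.p (nat_lit 0x18141810180e180c180a1ac506) (nat_lit 0x800004e705) (nat_lit 52))
 (.p (nat_lit 0x5ccd5de302) (nat_lit 0x200020000200) (nat_lit 36))))
 (.n (.n (.p (nat_lit 0x88205502) (nat_lit 0x140902) (nat_lit 1))
 (.p (nat_lit 0x4a4847c102) (nat_lit 0x40728) (nat_lit 5)))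
 (.n (.p (nat_lit 0xd1a0d180d160d140d1210e506) (nat_lit 0x1000000640e) (nat_lit 51))
 (.p (nat_lit 0x636603902) (nat_lit 0x4a8162340800000040000) (nat_lit 49))))))

def c1024_628 : Tr :=
 .n (.n (.n (.n (.n (.n (.p (nat_lit 0x4240420041e042904) (nat_lit 0xb000400029) (nat_lit 17))
 (.p (nat_lit 0x234461b502) (nat_lit 0x322266c15000500000600) (nat_lit 50)))
 (.p (nat_lit 0x1e5a1e581e561e521e50410506) (nat_lit 0x20000cc412) (nat_lit 51)))
 (.n (.p (nat_lit 0x1e1e1e1a1e181e161e14232f06) (nat_lit 0x8000048a03) (nat_lit 52))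
 (.p (nat_lit 0x33ba587102) (nat_lit 0x440a2c) (nat_lit 29))))
 (.n (.n (.p (nat_lit 0x211621142110210c1e931e8f06) (nat_lit 0x500000ca00) (nat_lit 52))
 (.p (nat_lit 0x43453b8f02) (nat_lit 0x14b1f) (nat_lit 16)))
 (.n (.p (nat_lit 0x16ae16ac16aa16a816a40e0306) (nat_lit 0x100008c307) (nat_lit 51))
 (.p (nat_lit 0x5c935e6702) (nat_lit 0x2a0000000800) (nat_lit 36)))))
 (.n (.n (.n (.p (nat_lit 0x12c212c012bc12b810c910c506) (nat_lit 0x5000082500) (nat_lit 52))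
 (.p (nat_lit 0x1e661e641e601e5e1e5c420906) (nat_lit 0x400004e519) (nat_lit 51)))
 (.n (.p (nat_lit 0x112220e102) (nat_lit 0x405) (nat_lit 5))
 (.p (nat_lit 0x5c9304cf02) (nat_lit 0x2a0000000000) (nat_lit 40))))
 (.n (.n (.p (nat_lit 0x8b619ab02) (nat_lit 0x500102) (nat_lit 4))
 (.p (nat_lit 0x1d181d161d141d121d1035cb06) (nat_lit 0x10000016126) (nat_lit 51)))
 (.n (.p (nat_lit 0x21522150214e214a214846eb06) (nat_lit 0x200009030c) (nat_lit 51))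
 (.p (nat_lit 0x153a5fc302) (nat_lit 0x89832915800000000600) (nat_lit 49))))))
 (.n (.n (.n (.n (.p (nat_lit 0xbe00bde0bdc0bda0bd809cd06) (nat_lit 0x800048200) (nat_lit 51))
 (.p (nat_lit 0x16440c0702) (nat_lit 0x615) (nat_lit 4)))
 (.n (.p (nat_lit 0xa4e0a4c0a4a0a480a44168306) (nat_lit 0x1000004604) (nat_lit 52))
 (.p (nat_lit 0xea00e800e600e2000b038706) (nat_lit 0x290e305) (nat_lit 26))))
 (.n (.n (.p (nat_lit 0xf8c170f02) (nat_lit 0x40301) (nat_lit 5))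
 (.p (nat_lit 0xe820e800e7e0e7c0e7a09e506) (nat_lit 0x8000c6123) (nat_lit 51)))
 (.n (.p (nat_lit 0x2b02261b02) (nat_lit 0x300808) (nat_lit 4))
 (.p (nat_lit 0x5d65233b02) (nat_lit 0x180080000b00) (nat_lit 38)))))
 (.n (.n (.n (.p (nat_lit 0x1a421a401a3e1a3a1a38179706) (nat_lit 0x20000d4700) (nat_lit 52))
 (.p (nat_lit 0x101a101810141012101014e706) (nat_lit 0x40000c251c) (nat_lit 51)))
 (.n (.p (nat_lit 0x11b4de702) (nat_lit 0x440306) (nat_lit 30))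
 (.p (nat_lit 0x5d2d5e1902) (nat_lit 0x200060000400) (nat_lit 37))))
 (.n (.n (.p (nat_lit 0x2e25b702) (nat_lit 0x240b02) (nat_lit 1))
 (.p (nat_lit 0x2348234623442342233e0b5506) (nat_lit 0x100001622a) (nat_lit 51)))
 (.n (.p (nat_lit 0x1bde081902) (nat_lit 0x20080e) (nat_lit 4))
 (.p (nat_lit 0x234460b102) (nat_lit 0x3505223a4000500000600) (nat_lit 50))))))

def c512_116 : Tr := .n c1024_116 c1024_628

def c1024_372 : Tr :=
 .n (.n (.n (.n (.n (.n (.p (nat_lit 0x1a2019e019801a504) (nat_lit 0x1480040000a) (nat_lit 17))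
 (.p (nat_lit 0x1c44617702) (nat_lit 0x340c6ab84000200040600) (nat_lit 49)))
 (.p (nat_lit 0x246024d024935eb357d05) (nat_lit 0x44400411) (nat_lit 9)))
 (.n (.p (nat_lit 0x18dc18da18d818d618d4167f06) (nat_lit 0x10000094603) (nat_lit 51))
 (.p (nat_lit 0x29322aab02) (nat_lit 0x24032b) (nat_lit 4))))
 (.n (.n (.p (nat_lit 0x1d301f0d02) (nat_lit 0x440900) (nat_lit 4))
 (.p (nat_lit 0xd940d920d8e0d8c334d334706) (nat_lit 0x480008ea1e) (nat_lit 51)))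
 (.n (.p (nat_lit 0x14e0159015d065b04e905) (nat_lit 0xa1900207) (nat_lit 9))
 (.p (nat_lit 0x5d17181b02) (nat_lit 0x60040000700) (nat_lit 40)))))
 (.n (.n (.n (.p (nat_lit 0x11170df502) (nat_lit 0x12400) (nat_lit 16))
 (.p (nat_lit 0x35f635f435f235f035ee354706) (nat_lit 0x100000c8018) (nat_lit 52)))
 (.n (.p (nat_lit 0x8d6220302) (nat_lit 0x300105) (nat_lit 5))
 (.p (nat_lit 0x3aa03a403a203a00007043d06) (nat_lit 0x1c02023) (nat_lit 26))))
 (.n (.n (.p (nat_lit 0x2c2e2c2c2c2a2c282c262c24003821b321ab21a90a) (nat_lit 0x14800a01) (nat_lit 31))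
 (.p (nat_lit 0x27b427b227b027ae27ac03d127ab07) (nat_lit 0x40124) (nat_lit 7)))
 (.n (.p (nat_lit 0x3f143c8902) (nat_lit 0x34020b) (nat_lit 5))
 (.p (nat_lit 0x8ec5f7702) (nat_lit 0x3aa074b50000100040000) (nat_lit 49))))))
 (.n (.n (.n (.n (.p (nat_lit 0xa2f071f02) (nat_lit 0x154100) (nat_lit 16))
 (.p (nat_lit 0x14df124b02) (nat_lit 0x540415) (nat_lit 15)))
 (.n (.p (nat_lit 0x1120111e111c111a111600b7111907) (nat_lit 0x100404) (nat_lit 7))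
 (.p (nat_lit 0x2be58e502) (nat_lit 0x100202) (nat_lit 27))))
 (.n (.n (.p (nat_lit 0x26822680267e267c267a074d06) (nat_lit 0x8000c8001) (nat_lit 52))
 (.p (nat_lit 0x3ae03cf03b3115f0ff905) (nat_lit 0xb0840023) (nat_lit 9)))
 (.n (.p (nat_lit 0x3aed216b02) (nat_lit 0x510a07) (nat_lit 16))
 (.p (nat_lit 0x5d775ea502) (nat_lit 0x60080000a00) (nat_lit 36)))))
 (.n (.n (.n (.p (nat_lit 0x18ba18b818b618b418b218b006) (nat_lit 0x12700) (nat_lit 52))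
 (.p (nat_lit 0xbf60bf40bf20bf00bee088706) (nat_lit 0x1000000a11c) (nat_lit 51)))
 (.n (.p (nat_lit 0x62c234f02) (nat_lit 0x200006) (nat_lit 4))
 (.p (nat_lit 0x5cf95dfd02) (nat_lit 0x240040000300) (nat_lit 36))))
 (.n (.n (.p (nat_lit 0x23221a4102) (nat_lit 0x440a02) (nat_lit 4))
 (.p (nat_lit 0x89c089a089808960894043f089f07) (nat_lit 0x50012a) (nat_lit 7)))
 (.n (.p (nat_lit 0x4ee04ec04e804e61389138306) (nat_lit 0x1200000450e) (nat_lit 52))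
 (.p (nat_lit 0x1818607902) (nat_lit 0x4688ae154000100000600) (nat_lit 50))))))

def c1024_884 : Tr :=
 .n (.n (.n (.n (.n (.p (nat_lit 0x140064d02) (nat_lit 0x40000) (nat_lit 1))
 (.p (nat_lit 0x4a2a44f102) (nat_lit 0x340713) (nat_lit 4)))
 (.n (.p (nat_lit 0x129e129c12981296129425c506) (nat_lit 0x400004ab03) (nat_lit 52))
 (.p (nat_lit 0x3f2a413f02) (nat_lit 0x34022e) (nat_lit 5))))
 (.n (.n (.p (nat_lit 0x22ac22aa22a622a422a21ff906) (nat_lit 0x4000050a00) (nat_lit 52))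
 (.p (nat_lit 0x43443f7d02) (nat_lit 0xb20) (nat_lit 4)))
 (.n (.p (nat_lit 0x141814161414141010d310cf06) (nat_lit 0x2800082407) (nat_lit 51))
 (.p (nat_lit 0x5e781c4f02) (nat_lit 0x80040800) (nat_lit 46)))))
 (.n (.n (.n (.p (nat_lit 0x14ae14ac14aa14a814a6122706) (nat_lit 0x100000d4500) (nat_lit 52))
 (.p (nat_lit 0x49e045e102) (nat_lit 0x71a) (nat_lit 5)))
 (.n (.p (nat_lit 0x114180102) (nat_lit 0x140605) (nat_lit 1))
 (.p (nat_lit 0x5dc80b3d02) (nat_lit 0x2000a100) (nat_lit 47))))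
 (.n (.n (.p (nat_lit 0xfaf0fa302) (nat_lit 0x552302) (nat_lit 16))
 (.p (nat_lit 0x1e7e1e7c1e7a1e781e763df306) (nat_lit 0x800056127) (nat_lit 52)))
 (.n (.p (nat_lit 0x503e4af502) (nat_lit 0x30080d) (nat_lit 4))
 (.p (nat_lit 0xa465ff902) (nat_lit 0x466b80b44000200000000) (nat_lit 49))))))
 (.n (.n (.n (.n (.p (nat_lit 0xd860d820d800d7e0b390b3506) (nat_lit 0x1400000e300) (nat_lit 51))
 (.p (nat_lit 0x1eb60aef02) (nat_lit 0x300915) (nat_lit 4)))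
 (.n (.p (nat_lit 0x1956195419521950194e00b5194d07) (nat_lit 0x704) (nat_lit 7))
 (.p (nat_lit 0x1a201a0019c019a01ad023f06) (nat_lit 0x31420a) (nat_lit 26))))
 (.n (.n (.p (nat_lit 0x1c1e1c1c1c1a1c181c1600351c2107) (nat_lit 0x500801) (nat_lit 7))
 (.p (nat_lit 0x56ce56cc56ca56c856c656c403ac07) (nat_lit 0x623) (nat_lit 8)))
 (.n (.p (nat_lit 0x3260325e325c325a325830f906) (nat_lit 0x10000094409) (nat_lit 52))
 (.p (nat_lit 0xfda5eed02) (nat_lit 0x4a1d84344000400000000) (nat_lit 49)))))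
 (.n (.n (.n (.p (nat_lit 0x1be3190102) (nat_lit 0x402800) (nat_lit 16))
 (.p (nat_lit 0x1d5e0f0f02) (nat_lit 0x34081c) (nat_lit 4)))
 (.n (.p (nat_lit 0x1ad21ad01acc1aca1ac801191acf07) (nat_lit 0x340706) (nat_lit 7))
 (.p (nat_lit 0x5e2e05e702) (nat_lit 0x60006500) (nat_lit 47))))
 (.n (.n (.p (nat_lit 0x9400a700a11b1b1c8105) (nat_lit 0x84540103) (nat_lit 9))
 (.p (nat_lit 0x115c1158115611540f890f8106) (nat_lit 0x880004032a) (nat_lit 51)))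
 (.n (.p (nat_lit 0x2428536102) (nat_lit 0x400b0e) (nat_lit 29))
 (.p (nat_lit 0x1da660f902) (nat_lit 0x460d623a4000300000600) (nat_lit 49))))))

def c512_372 : Tr := .n c1024_372 c1024_884

def c256_116 : Tr := .n c512_116 c512_372

def c1024_244 : Tr :=
 .n (.n (.n (.n (.n (.n (.p (nat_lit 0xec00ea00e200ef04) (nat_lit 0x18800400005) (nat_lit 17))
 (.p (nat_lit 0x2074615902) (nat_lit 0x352829d84000400000600) (nat_lit 49)))
 (.p (nat_lit 0x32e62dfb02) (nat_lit 0x540910) (nat_lit 4)))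
 (.n (.p (nat_lit 0x60d13c302) (nat_lit 0x400503) (nat_lit 15))
 (.p (nat_lit 0x230a584102) (nat_lit 0x440a2a) (nat_lit 29))))
 (.n (.n (.p (nat_lit 0x1e661e641e601e5e1e5c1bc906) (nat_lit 0x400000e900) (nat_lit 51))
 (.p (nat_lit 0xea40ea20ea00e9e0e9c2c0b06) (nat_lit 0x1000004291d) (nat_lit 52)))
 (.n (.p (nat_lit 0x22882284228222801f011ef906) (nat_lit 0x880008c906) (nat_lit 51))
 (.p (nat_lit 0x5e4c2a1302) (nat_lit 0xa0042600) (nat_lit 47)))))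
 (.n (.n (.n (.p (nat_lit 0x101a10181016101410100df706) (nat_lit 0x1000082400) (nat_lit 51))
 (.p (nat_lit 0x1a421a401a3e1a3a1a38327d06) (nat_lit 0x20000d4517) (nat_lit 52)))
 (.n (.p (nat_lit 0x436f25cb02) (nat_lit 0x42b04) (nat_lit 16))
 (.p (nat_lit 0x30e030c030a03080363000b06) (nat_lit 0x51201c) (nat_lit 26))))
 (.n (.n (.p (nat_lit 0xd0e0d0c0d0a0d080d06205106) (nat_lit 0x10000046901) (nat_lit 52))
 (.p (nat_lit 0x244a120b02) (nat_lit 0x300b23) (nat_lit 5)))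
 (.n (.p (nat_lit 0x3ae6348b02) (nat_lit 0x200a0a) (nat_lit 5))
 (.p (nat_lit 0x20765f5902) (nat_lit 0x1a2262350000400000600) (nat_lit 50))))))
 (.n (.n (.n (.n (.p (nat_lit 0x90a0904090209000725072306) (nat_lit 0xc000046100) (nat_lit 51))
 (.p (nat_lit 0xd280d260d240d200d1e10eb06) (nat_lit 0x2000000415) (nat_lit 52)))
 (.n (.p (nat_lit 0x3ec83ec63ec43ebe0ce70ce506) (nat_lit 0x300004a204) (nat_lit 51))
 (.p (nat_lit 0x58885886588458825880018f003607) (nat_lit 0x510001) (nat_lit 25))))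
 (.n (.n (.p (nat_lit 0x16b322bd02) (nat_lit 0x140b00) (nat_lit 15))
 (.p (nat_lit 0x50ba50b850b650b450b0039550b307) (nat_lit 0x140822) (nat_lit 7)))
 (.n (.p (nat_lit 0x1d3a06d102) (nat_lit 0x340807) (nat_lit 5))
 (.p (nat_lit 0x5e94494b02) (nat_lit 0x44a00) (nat_lit 48)))))
 (.n (.n (.n (.p (nat_lit 0x1790178e178c178a178816b106) (nat_lit 0x8000d4600) (nat_lit 52))
 (.p (nat_lit 0x181e181c18181816073f073906) (nat_lit 0x1200004e01c) (nat_lit 51)))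
 (.n (.p (nat_lit 0x1e701e6c1e6a1e681c2d1c2906) (nat_lit 0x1400008e805) (nat_lit 51))
 (.p (nat_lit 0x5d515def02) (nat_lit 0x2c0080000200) (nat_lit 36))))
 (.n (.n (.p (nat_lit 0x63e063c063a0638063421b706) (nat_lit 0x1000080a02) (nat_lit 52))
 (.p (nat_lit 0x4fe84eeb02) (nat_lit 0x100729) (nat_lit 4)))
 (.n (.p (nat_lit 0xd100d0e0d0c0d0a0d06123706) (nat_lit 0x100004640e) (nat_lit 52))
 (.p (nat_lit 0xe7c605702) (nat_lit 0x506272b31000300040000) (nat_lit 50))))))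

def c1024_756 : Tr :=
 .n (.n (.n (.n (.n (.n (.p (nat_lit 0x50805060502050004fe04e106) (nat_lit 0x4000006000) (nat_lit 52))
 (.p (nat_lit 0x181e61d702) (nat_lit 0x542266c0c800100000600) (nat_lit 50)))
 (.p (nat_lit 0x436e3ddf02) (nat_lit 0x40b12) (nat_lit 4)))
 (.n (.p (nat_lit 0x19781976197419721970247306) (nat_lit 0x1000008eb03) (nat_lit 52))
 (.p (nat_lit 0x3918391639143912390e37e106) (nat_lit 0x100000232d) (nat_lit 51))))
 (.n (.n (.p (nat_lit 0x21e221e021de21dc21da21d806) (nat_lit 0x40a00) (nat_lit 3))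
 (.p (nat_lit 0x2ee3df102) (nat_lit 0x540120) (nat_lit 1)))
 (.n (.p (nat_lit 0x16a2169e169c169a16980f7106) (nat_lit 0x80000cc307) (nat_lit 52))
 (.p (nat_lit 0x5e6e3a6b02) (nat_lit 0x40044800) (nat_lit 48)))))
 (.n (.n (.n (.p (nat_lit 0x13d310c302) (nat_lit 0x14500) (nat_lit 16))
 (.p (nat_lit 0x4279437f02) (nat_lit 0x240b19) (nat_lit 15)))
 (.n (.p (nat_lit 0x1524226f02) (nat_lit 0x440505) (nat_lit 5))
 (.p (nat_lit 0x5dbc063b02) (nat_lit 0x60040000) (nat_lit 45))))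
 (.n (.n (.p (nat_lit 0xcd20cd00cce0cca007a0063005b0cd50ccd09) (nat_lit 0x2940202) (nat_lit 10))
 (.p (nat_lit 0x3a43b9f02) (nat_lit 0x200b26) (nat_lit 1)))
 (.n (.p (nat_lit 0x4a6e448902) (nat_lit 0x10080c) (nat_lit 5))
 (.p (nat_lit 0x113a5fd702) (nat_lit 0x3842a1c35000400040000) (nat_lit 49))))))
 (.n (.n (.n (.n (.p (nat_lit 0xcfd09cf02) (nat_lit 0x156200) (nat_lit 16))
 (.p (nat_lit 0x1933192702) (nat_lit 0x508715) (nat_lit 16)))
 (.n (.p (nat_lit 0x17fa17f617f417f200de00bf00bb17fd17f909) (nat_lit 0x2b40604) (nat_lit 10))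
 (.p (nat_lit 0x11a0118011601140001003506) (nat_lit 0x510706) (nat_lit 26))))
 (.n (.n (.p (nat_lit 0x13a62a1902) (nat_lit 0x200501) (nat_lit 29))
 (.p (nat_lit 0xd340d320d2e0d2c0b4d0b4706) (nat_lit 0x4800080223) (nat_lit 51)))
 (.n (.p (nat_lit 0x30132f3702) (nat_lit 0x400209) (nat_lit 15))
 (.p (nat_lit 0x181c5ed302) (nat_lit 0x4a1a36344000100000600) (nat_lit 50)))))
 (.n (.n (.n (.p (nat_lit 0x190218fc18fa18f8002400090007190118ff09) (nat_lit 0x2300800) (nat_lit 10))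
 (.p (nat_lit 0x1930192e192c19280328031103091933192b09) (nat_lit 0x290071c) (nat_lit 10)))
 (.n (.p (nat_lit 0x13e04f3b02) (nat_lit 0x100506) (nat_lit 29))
 (.p (nat_lit 0x5c9d5e2502) (nat_lit 0x200000000500) (nat_lit 37))))
 (.n (.n (.p (nat_lit 0x76a1aff02) (nat_lit 0x340003) (nat_lit 5))
 (.p (nat_lit 0xf830cb502) (nat_lit 0x14022a) (nat_lit 15)))
 (.n (.p (nat_lit 0x3d223d203d1c3d1a3d181eab06) (nat_lit 0x400000890e) (nat_lit 52))
 (.p (nat_lit 0x13fc60d902) (nat_lit 0x3542623b0000500040000) (nat_lit 50))))))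

def c512_244 : Tr := .n c1024_244 c1024_756

def c1024_500 : Tr :=
 .n (.n (.n (.n (.n (.n (.p (nat_lit 0x311030b03090307031205) (nat_lit 0x1380040001c) (nat_lit 18))
 (.p (nat_lit 0xbac619b02) (nat_lit 0x340aa5c14800200040000) (nat_lit 49)))
 (.p (nat_lit 0x23b53c702) (nat_lit 0x100b11) (nat_lit 30)))
 (.n (.p (nat_lit 0x9400af00991cfb1b9505) (nat_lit 0x8c100a03) (nat_lit 9))
 (.p (nat_lit 0x2faa31a502) (nat_lit 0x34022c) (nat_lit 5))))
 (.n (.n (.p (nat_lit 0x1ff01fec1fea1fe81fe61d3106) (nat_lit 0x80000d6900) (nat_lit 51))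
 (.p (nat_lit 0x3634378d02) (nat_lit 0x14011f) (nat_lit 5)))
 (.n (.p (nat_lit 0xca40ca20ca00c9c0152014501410c9f0c9b09) (nat_lit 0x1040207) (nat_lit 10))
 (.p (nat_lit 0x5d63197902) (nat_lit 0x1a0080000700) (nat_lit 39)))))
 (.n (.n (.n (.p (nat_lit 0x11f011ec11ea11e80f650f5d06) (nat_lit 0x88000d2400) (nat_lit 52))
 (.p (nat_lit 0x3b8c36a902) (nat_lit 0x500b18) (nat_lit 5)))
 (.n (.p (nat_lit 0xcf40cf20cf00cee011000ed00eb0cf90cf709) (nat_lit 0x2c40205) (nat_lit 10))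
 (.p (nat_lit 0x4625c3902) (nat_lit 0x62a) (nat_lit 27))))
 (.n (.n (.p (nat_lit 0x5fc182702) (nat_lit 0x200002) (nat_lit 5))
 (.p (nat_lit 0x18f618f418f218f018ec2e3506) (nat_lit 0x1000096125) (nat_lit 51)))
 (.n (.p (nat_lit 0x42643c3d02) (nat_lit 0x44060b) (nat_lit 4))
 (.p (nat_lit 0x1ae85f9502) (nat_lit 0x581a302a4000200000600) (nat_lit 50))))))
 (.n (.n (.n (.n (.p (nat_lit 0xade0adc0ad80ad60ad4087706) (nat_lit 0x4000010200) (nat_lit 52))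
 (.p (nat_lit 0x1399138d02) (nat_lit 0x108515) (nat_lit 16)))
 (.n (.p (nat_lit 0xbf412102) (nat_lit 0x500504) (nat_lit 30))
 (.p (nat_lit 0x8f594702) (nat_lit 0x400603) (nat_lit 28))))
 (.n (.n (.p (nat_lit 0xb64158102) (nat_lit 0x300201) (nat_lit 4))
 (.p (nat_lit 0xfde0fdc0fda0fd60fd4088d06) (nat_lit 0x2000008123) (nat_lit 52)))
 (.n (.p (nat_lit 0x25ab256f02) (nat_lit 0x248b07) (nat_lit 16))
 (.p (nat_lit 0x5cd75eb302) (nat_lit 0x160020000b00) (nat_lit 36)))))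
 (.n (.n (.n (.p (nat_lit 0x1967162302) (nat_lit 0x116700) (nat_lit 16))
 (.p (nat_lit 0x13a0139e139c139a13980307139707) (nat_lit 0x51c) (nat_lit 7)))
 (.n (.p (nat_lit 0x1194c2702) (nat_lit 0x340106) (nat_lit 30))
 (.p (nat_lit 0x5d810d1102) (nat_lit 0x2c00a0000300) (nat_lit 38))))
 (.n (.n (.p (nat_lit 0x33a5232502) (nat_lit 0x546a02) (nat_lit 16))
 (.p (nat_lit 0x69e069c06980696069409f706) (nat_lit 0x40000c812a) (nat_lit 52)))
 (.n (.p (nat_lit 0x1e752f902) (nat_lit 0x60e) (nat_lit 30))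
 (.p (nat_lit 0x1db6609502) (nat_lit 0x342529ca4000300000600) (nat_lit 50))))))

def c1024_1012 : Tr :=
 .n (.n (.n (.n (.n (.p (nat_lit 0x729064d02) (nat_lit 0x44000) (nat_lit 16))
 (.p (nat_lit 0x50084bdf02) (nat_lit 0x40714) (nat_lit 4)))
 (.n (.p (nat_lit 0x7701f2902) (nat_lit 0x40004) (nat_lit 5))
 (.p (nat_lit 0x43a6418302) (nat_lit 0x440b2e) (nat_lit 4))))
 (.n (.n (.p (nat_lit 0x23be23ba23b823b4215d215706) (nat_lit 0x9000088b00) (nat_lit 51))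
 (.p (nat_lit 0x495646c702) (nat_lit 0x40521) (nat_lit 4)))
 (.n (.p (nat_lit 0x135813541352134e1231122b06) (nat_lit 0x9000054407) (nat_lit 51))
 (.p (nat_lit 0x5cd15e8502) (nat_lit 0x1c0020000900) (nat_lit 37)))))
 (.n (.n (.n (.p (nat_lit 0x15e015de15dc15d81557154f06) (nat_lit 0x11000010600) (nat_lit 52))
 (.p (nat_lit 0x50544cd302) (nat_lit 0x20081b) (nat_lit 4)))
 (.n (.p (nat_lit 0x1c441c421c3e1c3c1c3a195f06) (nat_lit 0x4000090705) (nat_lit 52))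
 (.p (nat_lit 0x5dd40b4302) (nat_lit 0x8000a100) (nat_lit 47))))
 (.n (.n (.p (nat_lit 0x5d31fd02) (nat_lit 0x240502) (nat_lit 30))
 (.p (nat_lit 0x44ae47ff02) (nat_lit 0x340028) (nat_lit 5)))
 (.n (.p (nat_lit 0xc040c020c000bfe0bfc0e0d06) (nat_lit 0x80008a30e) (nat_lit 52))
 (.p (nat_lit 0xfe4601902) (nat_lit 0x46ab80b44000400000000) (nat_lit 50))))))
 (.n (.n (.n (.n (.p (nat_lit 0xe8e0e8a0e860e840c970c9306) (nat_lit 0xa000040300) (nat_lit 51))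
 (.p (nat_lit 0x22e20b1102) (nat_lit 0x240a15) (nat_lit 4)))
 (.n (.p (nat_lit 0xb742f902) (nat_lit 0x140704) (nat_lit 30))
 (.p (nat_lit 0x2125a8d02) (nat_lit 0x40060e) (nat_lit 27))))
 (.n (.n (.p (nat_lit 0x18ae18ac18aa18a61d811d7d06) (nat_lit 0x28000ca801) (nat_lit 51))
 (.p (nat_lit 0x1bfe106502) (nat_lit 0x823) (nat_lit 5)))
 (.n (.p (nat_lit 0x33ce2ce302) (nat_lit 0x200b09) (nat_lit 5))
 (.p (nat_lit 0x1ae05f1702) (nat_lit 0x3a2260b50000200000600) (nat_lit 50)))))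
 (.n (.n (.n (.p (nat_lit 0x1cb61cb41cb21cb01a671a6506) (nat_lit 0x18000048800) (nat_lit 51))
 (.p (nat_lit 0x21880f3102) (nat_lit 0x200a1c) (nat_lit 5)))
 (.n (.p (nat_lit 0x154a15481544154215401c3506) (nat_lit 0x400000c806) (nat_lit 51))
 (.p (nat_lit 0x5c99169902) (nat_lit 0x240000000600) (nat_lit 39))))
 (.n (.n (.p (nat_lit 0xe3c376702) (nat_lit 0x303) (nat_lit 29))
 (.p (nat_lit 0x43b57f702) (nat_lit 0x30072a) (nat_lit 30)))
 (.n (.p (nat_lit 0x2ade538302) (nat_lit 0x34050f) (nat_lit 29))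
 (.p (nat_lit 0x1542611d02) (nat_lit 0x35486a3a4000000000600) (nat_lit 50))))))

def c512_500 : Tr := .n c1024_500 c1024_1012

def c256_244 : Tr := .n c512_244 c512_500

def c128_116 : Tr := .n c256_116 c256_244

def c64_52 : Tr := .n c128_52 c128_116

def c32_20 : Tr := .n c64_20 c64_52

def c16_4 : Tr := .n c32_4 c32_20

def b4 : Tr := c16_4

theorem hb4_4 : allp (tst G49 true (getA DT)) b4 = true := by decide +kernel

end Vale.Agent.P032.H437.Ev2
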