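import Vale.Agent.P032.H437.Ev2.T

namespace Vale.Agent.P032.H437.Ev2
open Vale.Agent.P032.H859.Rup Vale.Agent.P032.H437

def c1024_5 : Tr :=
 .n (.n (.n (.n (.n (.n (.p (nat_lit 0xa01) (nat_lit 0x500000) (nat_lit 0))
 (.p (nat_lit 0x1f0a611f02) (nat_lit 0x35056a3a4000300040600) (nat_lit 49)))
 (.p (nat_lit 0x26ae26ac26aa26a826a42adb06) (nat_lit 0x10000d250f) (nat_lit 52)))
 (.n (.p (nat_lit 0x377c377a377837763774377206) (nat_lit 0x303) (nat_lit 52))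
 (.p (nat_lit 0x322c322a322832263224194106) (nat_lit 0x80000672a) (nat_lit 52))))
 (.n (.n (.p (nat_lit 0x1cdc1cda1cd61cd41a671a6106) (nat_lit 0x120000ca800) (nat_lit 51))
 (.p (nat_lit 0x218e0dcf02) (nat_lit 0x500a1c) (nat_lit 4)))
 (.n (.p (nat_lit 0x1da81da61da41da21da01c3906) (nat_lit 0x10000012806) (nat_lit 52))
 (.p (nat_lit 0x5e38196502) (nat_lit 0x14600) (nat_lit 47)))))
 (.n (.n (.n (.p (nat_lit 0xea60ea40ea20ea00e9e0e9c06) (nat_lit 0x42300) (nat_lit 52))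
 (.p (nat_lit 0x45d245d045ce45cc45ca22e906) (nat_lit 0x100000caa15) (nat_lit 51)))
 (.n (.p (nat_lit 0x1aba1fd902) (nat_lit 0x540704) (nat_lit 4))
 (.p (nat_lit 0x2385a9d02) (nat_lit 0x80e) (nat_lit 27))))
 (.n (.n (.p (nat_lit 0x18de18dc18da18d818d61d7d06) (nat_lit 0x8000d4801) (nat_lit 51))
 (.p (nat_lit 0x1c0811cd02) (nat_lit 0x500823) (nat_lit 4)))
 (.n (.p (nat_lit 0x33db33cf02) (nat_lit 0x204b09) (nat_lit 16))
 (.p (nat_lit 0x233c5f1902) (nat_lit 0x1a2274b50000500000600) (nat_lit 49))))))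
 (.n (.n (.n (.n (.p (nat_lit 0x74b065702) (nat_lit 0x548000) (nat_lit 16))
 (.p (nat_lit 0x50464beb02) (nat_lit 0x100814) (nat_lit 4)))
 (.n (.p (nat_lit 0x1b4077902) (nat_lit 0x440004) (nat_lit 1))
 (.p (nat_lit 0x460b452b02) (nat_lit 0x40012f) (nat_lit 15))))
 (.n (.n (.p (nat_lit 0x23e223e023da23d8215b215906) (nat_lit 0x600008eb00) (nat_lit 52))
 (.p (nat_lit 0x49ee473902) (nat_lit 0x100721) (nat_lit 4)))
 (.n (.p (nat_lit 0x4841122b02) (nat_lit 0x154407) (nat_lit 16))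
 (.p (nat_lit 0x5e823d7302) (nat_lit 0x20008900) (nat_lit 48)))))
 (.n (.n (.n (.p (nat_lit 0x15fa15f815f615f01551154f06) (nat_lit 0x3000012600) (nat_lit 52))
 (.p (nat_lit 0x50aa4ce102) (nat_lit 0x34081b) (nat_lit 4)))
 (.n (.p (nat_lit 0x2348234623422340233e195f06) (nat_lit 0x4000016705) (nat_lit 51))
 (.p (nat_lit 0x5d935ddb02) (nat_lit 0x1a00a0000100) (nat_lit 36))))
 (.n (.n (.p (nat_lit 0x3202320031fe31fc31fa31f8006614ff14fd14fb0a) (nat_lit 0xd140502) (nat_lit 31))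
 (.p (nat_lit 0x458f44b102) (nat_lit 0x440028) (nat_lit 15)))
 (.n (.p (nat_lit 0x52de52dc52da52d852d652d401f207) (nat_lit 0x4030e) (nat_lit 8))
 (.p (nat_lit 0x154a601f02) (nat_lit 0x4099a2354800000000600) (nat_lit 50))))))

def c1024_517 : Tr :=
 .n (.n (.n (.n (.n (.n (.p (nat_lit 0x310030c031503) (nat_lit 0x1400050001c) (nat_lit 17))
 (.p (nat_lit 0x13fc619d02) (nat_lit 0x380aa5c14800500040000) (nat_lit 50)))
 (.p (nat_lit 0x3b803b7e3b7c3b76024c023d023b3b7b3b7909) (nat_lit 0x1100b11) (nat_lit 10)))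
 (.n (.p (nat_lit 0x21c821c621c421c221c0009121cb07) (nat_lit 0x500a03) (nat_lit 7))
 (.p (nat_lit 0x1a4e1a4c1a4a1a442fa92fa706) (nat_lit 0x300005622c) (nat_lit 52))))
 (.n (.n (.p (nat_lit 0x20131d3102) (nat_lit 0x442900) (nat_lit 16))
 (.p (nat_lit 0x36f836f436f236f0363d363906) (nat_lit 0x1400004811f) (nat_lit 51)))
 (.n (.p (nat_lit 0x7e607e407e207de0c9f0c9b06) (nat_lit 0x280004a207) (nat_lit 51))
 (.p (nat_lit 0x5d55197902) (nat_lit 0x280080000700) (nat_lit 39)))))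
 (.n (.n (.n (.p (nat_lit 0x12290f5d02) (nat_lit 0x40400) (nat_lit 16))
 (.p (nat_lit 0x3bda373d02) (nat_lit 0x240b18) (nat_lit 4)))
 (.n (.p (nat_lit 0x468b0cf902) (nat_lit 0x548205) (nat_lit 16))
 (.p (nat_lit 0x43d5c4b02) (nat_lit 0x40072a) (nat_lit 28))))
 (.n (.n (.p (nat_lit 0x2c962c942c922c902c8e05fd06) (nat_lit 0x2000004002) (nat_lit 52))
 (.p (nat_lit 0x1a1e1a1c1a1a1a181a162ebb06) (nat_lit 0x800052125) (nat_lit 51)))
 (.n (.p (nat_lit 0x4307426102) (nat_lit 0x24060b) (nat_lit 15))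
 (.p (nat_lit 0x13f25f9702) (nat_lit 0x88bb0155800500040000) (nat_lit 49))))))
 (.n (.n (.n (.n (.p (nat_lit 0xb2c0b2a0b280b260873087106) (nat_lit 0x1800096200) (nat_lit 51))
 (.p (nat_lit 0x14d40a9902) (nat_lit 0x40515) (nat_lit 5)))
 (.n (.p (nat_lit 0x4140413e413c413a413813d106) (nat_lit 0x10000084504) (nat_lit 51))
 (.p (nat_lit 0x90008c008a0088000900b506) (nat_lit 0x2016a03) (nat_lit 26))))
 (.n (.n (.p (nat_lit 0x27d827d627d427d227ce0b6106) (nat_lit 0x100008a201) (nat_lit 51))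
 (.p (nat_lit 0x16ae16ac16aa16a816a4088b06) (nat_lit 0x100008c123) (nat_lit 51)))
 (.n (.p (nat_lit 0x2812265b02) (nat_lit 0x300208) (nat_lit 5))
 (.p (nat_lit 0x5eb24c8902) (nat_lit 0x20048b00) (nat_lit 48)))))
 (.n (.n (.n (.p (nat_lit 0x197f197302) (nat_lit 0x140700) (nat_lit 34))
 (.p (nat_lit 0x13a0139e139a13981396030d139d07) (nat_lit 0x30051c) (nat_lit 7)))
 (.n (.p (nat_lit 0x4c404c3e4c3a4c384c360a3f06) (nat_lit 0x40000c6106) (nat_lit 51))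
 (.p (nat_lit 0x5c970fe102) (nat_lit 0x260000000400) (nat_lit 40))))
 (.n (.n (.p (nat_lit 0x245e18e302) (nat_lit 0x100b02) (nat_lit 5))
 (.p (nat_lit 0xcb909f702) (nat_lit 0x34012a) (nat_lit 15)))
 (.n (.p (nat_lit 0x1642095302) (nat_lit 0x50060e) (nat_lit 4))
 (.p (nat_lit 0x12a712990fe10fdd0d1d0d090a550a4b07a9079f04d104c360980d) (nat_lit 0x342529ca4000000000000) (nat_lit 33))))))

def c512_5 : Tr := .n c1024_5 c1024_517

def c1024_261 : Tr :=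
 .n (.n (.n (.n (.n (.n (.p (nat_lit 0xfd00f900f003) (nat_lit 0x2b00005) (nat_lit 19))
 (.p (nat_lit 0x634615f02) (nat_lit 0x352829d84000000040000) (nat_lit 49)))
 (.p (nat_lit 0x33362e0102) (nat_lit 0x400a10) (nat_lit 5)))
 (.n (.p (nat_lit 0x150e150c150a150815040089150707) (nat_lit 0x140503) (nat_lit 7))
 (.p (nat_lit 0x2452136902) (nat_lit 0x100b2a) (nat_lit 4))))
 (.n (.n (.p (nat_lit 0x1e701e6e1e6c1e681bcd1bc506) (nat_lit 0x1100008e900) (nat_lit 51))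
 (.p (nat_lit 0x2d00303102) (nat_lit 0x20001e) (nat_lit 5)))
 (.n (.p (nat_lit 0x50e91f0102) (nat_lit 0x400906) (nat_lit 16))
 (.p (nat_lit 0x5cb35e5102) (nat_lit 0xa0000000700) (nat_lit 37)))))
 (.n (.n (.n (.p (nat_lit 0x102610221020101c0dfd0df706) (nat_lit 0x9000004400) (nat_lit 51))
 (.p (nat_lit 0x32ec2f6f02) (nat_lit 0x340917) (nat_lit 5)))
 (.n (.p (nat_lit 0x61c21e502) (nat_lit 0x5) (nat_lit 5))
 (.p (nat_lit 0x3075b8702) (nat_lit 0x51c) (nat_lit 28))))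
 (.n (.n (.p (nat_lit 0x154a1548154615441540204906) (nat_lit 0x100004c901) (nat_lit 51))
 (.p (nat_lit 0x4e5c4e5a4e584e564e52244706) (nat_lit 0x1000002b23) (nat_lit 52)))
 (.n (.p (nat_lit 0x1ae3b3302) (nat_lit 0x140a0a) (nat_lit 1))
 (.p (nat_lit 0x7985f5d02) (nat_lit 0x262530344000100000000) (nat_lit 49))))))
 (.n (.n (.n (.n (.p (nat_lit 0x922091c091a09180725072306) (nat_lit 0xc000048100) (nat_lit 51))
 (.p (nat_lit 0xea40ea20e9e0e9c10f110eb06) (nat_lit 0x12000002415) (nat_lit 52)))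
 (.n (.p (nat_lit 0x3f003efe3efc3efa0ced0ceb06) (nat_lit 0x180000ce204) (nat_lit 52))
 (.p (nat_lit 0x2ae589502) (nat_lit 0x201) (nat_lit 27))))
 (.n (.n (.p (nat_lit 0x258522bd02) (nat_lit 0x144b00) (nat_lit 16))
 (.p (nat_lit 0xea60ea20ea00e9e0e9c50b906) (nat_lit 0x8000042822) (nat_lit 52)))
 (.n (.p (nat_lit 0x20051d3b02) (nat_lit 0x340807) (nat_lit 15))
 (.p (nat_lit 0x5cdf5e9902) (nat_lit 0xe0020000a00) (nat_lit 36)))))
 (.n (.n (.n (.p (nat_lit 0x179f16b102) (nat_lit 0x40600) (nat_lit 16))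
 (.p (nat_lit 0x1daa1da81da41da21da0073b06) (nat_lit 0x400005201c) (nat_lit 52)))
 (.n (.p (nat_lit 0x1c391c2d02) (nat_lit 0x50c805) (nat_lit 16))
 (.p (nat_lit 0x5dec427d02) (nat_lit 0x80052200) (nat_lit 47))))
 (.n (.n (.p (nat_lit 0xd1c0d1a0d160d140d1221bb06) (nat_lit 0x4000006a02) (nat_lit 51))
 (.p (nat_lit 0x506a4ef502) (nat_lit 0x100829) (nat_lit 4)))
 (.n (.p (nat_lit 0x154a1548154615441540123706) (nat_lit 0x100004c40e) (nat_lit 51))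
 (.p (nat_lit 0x2332605d02) (nat_lit 0x506272b31000500000600) (nat_lit 49))))))

def c1024_773 : Tr :=
 .n (.n (.n (.n (.n (.n (.p (nat_lit 0x5140510050c050a04e304df06) (nat_lit 0xa000086000) (nat_lit 51))
 (.p (nat_lit 0x114261db02) (nat_lit 0x542266c0c800400040000) (nat_lit 49)))
 (.p (nat_lit 0x266437902) (nat_lit 0x540b12) (nat_lit 1)))
 (.n (.p (nat_lit 0x1f181f161f141f121f10247306) (nat_lit 0x10000092b03) (nat_lit 51))
 (.p (nat_lit 0x415a41584154415241503b2106) (nat_lit 0x400000ca2d) (nat_lit 52))))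
 (.n (.n (.p (nat_lit 0x21dd21d102) (nat_lit 0x240a00) (nat_lit 34))
 (.p (nat_lit 0x3ee03ede3eda3ed83ed63ded06) (nat_lit 0x400004c120) (nat_lit 52)))
 (.n (.p (nat_lit 0x1c441c401c3e1c3c0f710f6906) (nat_lit 0x88000d0307) (nat_lit 52))
 (.p (nat_lit 0x5d351c4d02) (nat_lit 0x180060000800) (nat_lit 41)))))
 (.n (.n (.n (.p (nat_lit 0x13f913ed02) (nat_lit 0x140500) (nat_lit 34))
 (.p (nat_lit 0x449a462d02) (nat_lit 0x54001a) (nat_lit 4)))
 (.n (.p (nat_lit 0x490c4908490449021525152106) (nat_lit 0xa0000c4505) (nat_lit 52))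
 (.p (nat_lit 0x5d5d04d702) (nat_lit 0x200080000000) (nat_lit 40))))
 (.n (.n (.p (nat_lit 0xcd90ccd02) (nat_lit 0x152202) (nat_lit 16))
 (.p (nat_lit 0x100e100c100a100610043b9f06) (nat_lit 0x2000002b26) (nat_lit 52)))
 (.n (.p (nat_lit 0x4cfa4ab702) (nat_lit 0x50020d) (nat_lit 4))
 (.p (nat_lit 0x1ada5fdf02) (nat_lit 0x3842a1c34000200000600) (nat_lit 49))))))
 (.n (.n (.n (.n (.p (nat_lit 0xb320d0b02) (nat_lit 0x200300) (nat_lit 4))
 (.p (nat_lit 0x1a840c2d02) (nat_lit 0x240715) (nat_lit 4)))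
 (.n (.p (nat_lit 0x8fe08fc08fa08f808f417f506) (nat_lit 0x10000c2604) (nat_lit 51))
 (.p (nat_lit 0xec59f102) (nat_lit 0x500906) (nat_lit 27))))
 (.n (.n (.p (nat_lit 0x2a322a302a2e2a2c2a2813a506) (nat_lit 0x1000004501) (nat_lit 52))
 (.p (nat_lit 0xf060f040f000efc0b4d0b4906) (nat_lit 0x5000010223) (nat_lit 52)))
 (.n (.p (nat_lit 0x2f92520302) (nat_lit 0x340209) (nat_lit 29))
 (.p (nat_lit 0x11405ed502) (nat_lit 0x4a1a22344000400040000) (nat_lit 49)))))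
 (.n (.n (.n (.p (nat_lit 0x1b1a1b181b141b1018ff18fb06) (nat_lit 0x5000082800) (nat_lit 51))
 (.p (nat_lit 0x42dd193102) (nat_lit 0x41271c) (nat_lit 16)))
 (.n (.p (nat_lit 0x62913df02) (nat_lit 0x506) (nat_lit 15))
 (.p (nat_lit 0x5e244a0302) (nat_lit 0x14500) (nat_lit 47))))
 (.n (.n (.p (nat_lit 0x34f634f234f034ee34ec076d06) (nat_lit 0x80000c6003) (nat_lit 52))
 (.p (nat_lit 0x46970cbd02) (nat_lit 0x55422a) (nat_lit 16)))
 (.n (.p (nat_lit 0x200a099102) (nat_lit 0x4090e) (nat_lit 5))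
 (.p (nat_lit 0x1adc60dd02) (nat_lit 0x3505623a4000200000600) (nat_lit 49))))))

def c512_261 : Tr := .n c1024_261 c1024_773

def c256_5 : Tr := .n c512_5 c512_261

def c1024_133 : Tr :=
 .n (.n (.n (.n (.n (.n (.p (nat_lit 0x8c00880086009304) (nat_lit 0x5800400003) (nat_lit 17))
 (.p (nat_lit 0x114e613f02) (nat_lit 0x352a21d84000400040000) (nat_lit 50)))
 (.p (nat_lit 0x30fc2e5702) (nat_lit 0x100410) (nat_lit 5)))
 (.n (.p (nat_lit 0x13bf110f02) (nat_lit 0x200403) (nat_lit 15))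
 (.p (nat_lit 0x41424140413e413c413a1ed506) (nat_lit 0x80008492a) (nat_lit 51))))
 (.n (.n (.p (nat_lit 0x1d991a6102) (nat_lit 0x256800) (nat_lit 16))
 (.p (nat_lit 0x259455ab02) (nat_lit 0x340b1c) (nat_lit 29)))
 (.n (.p (nat_lit 0x1c501c4e1c4c1c4a1c461d9706) (nat_lit 0x10000d0806) (nat_lit 51))
 (.p (nat_lit 0x5d39153b02) (nat_lit 0x140060000600) (nat_lit 38)))))
 (.n (.n (.n (.p (nat_lit 0xf930c9502) (nat_lit 0x34c300) (nat_lit 16))
 (.p (nat_lit 0x50532b1702) (nat_lit 0x114816) (nat_lit 16)))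
 (.n (.p (nat_lit 0x22ac22aa22a822a42479247506) (nat_lit 0x2800010b04) (nat_lit 52))
 (.p (nat_lit 0x2815b1102) (nat_lit 0x615) (nat_lit 28))))
 (.n (.n (.p (nat_lit 0x1c501c4e1c4c1c4a1c481ee106) (nat_lit 0x800090901) (nat_lit 51))
 (.p (nat_lit 0x1edd1ed102) (nat_lit 0x400923) (nat_lit 16)))
 (.n (.p (nat_lit 0x1d181d161d141d121d10386506) (nat_lit 0x1000005630a) (nat_lit 51))
 (.p (nat_lit 0xe725f3902) (nat_lit 0x3a2560c44000300040000) (nat_lit 49))))))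
 (.n (.n (.n (.n (.p (nat_lit 0x7f007ee07ec07e805c705bf06) (nat_lit 0x1100008a100) (nat_lit 51))
 (.p (nat_lit 0x72e0bd102) (nat_lit 0x340015) (nat_lit 4)))
 (.n (.p (nat_lit 0xa2f0a2302) (nat_lit 0x156104) (nat_lit 16))
 (.p (nat_lit 0x4a0c493102) (nat_lit 0x50072f) (nat_lit 5))))
 (.n (.n (.p (nat_lit 0x22c422c022be22bc22ba000922c307) (nat_lit 0x440b00) (nat_lit 7))
 (.p (nat_lit 0x4c084dff02) (nat_lit 0x400122) (nat_lit 4)))
 (.n (.p (nat_lit 0x145518902) (nat_lit 0x240707) (nat_lit 30))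
 (.p (nat_lit 0x5d675e8f02) (nat_lit 0x160080000900) (nat_lit 37)))))
 (.n (.n (.n (.p (nat_lit 0x16c616c416c216be16bc16b506) (nat_lit 0x2000040600) (nat_lit 52))
 (.p (nat_lit 0x1f161f141f121f1005df05dd06) (nat_lit 0x1800009201c) (nat_lit 51)))
 (.n (.p (nat_lit 0x1f1a1f181f161f141f101abf06) (nat_lit 0x10000d2705) (nat_lit 51))
 (.p (nat_lit 0x5de20f7702) (nat_lit 0x20040200) (nat_lit 48))))
 (.n (.n (.p (nat_lit 0x205a1a2902) (nat_lit 0x440902) (nat_lit 5))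
 (.p (nat_lit 0x100e100c100a100610044a4d06) (nat_lit 0x2000042728) (nat_lit 52)))
 (.n (.p (nat_lit 0x13f413f213ee13ec13ea10e106) (nat_lit 0x400008a40e) (nat_lit 52))
 (.p (nat_lit 0x1adc603f02) (nat_lit 0x4a8162340800200000600) (nat_lit 49))))))

def c1024_645 : Tr :=
 .n (.n (.n (.n (.n (.n (.p (nat_lit 0x4360434044303) (nat_lit 0x180050002a) (nat_lit 17))
 (.p (nat_lit 0x8ee61bd02) (nat_lit 0x322266c75000100040000) (nat_lit 49)))
 (.p (nat_lit 0x418853d302) (nat_lit 0x100512) (nat_lit 29)))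
 (.n (.p (nat_lit 0x1fd81fd61fd41fd21fd0232706) (nat_lit 0x8000cea03) (nat_lit 52))
 (.p (nat_lit 0x2a542a502a4e2a4c340b340306) (nat_lit 0x8800090b2c) (nat_lit 51))))
 (.n (.n (.p (nat_lit 0x2122211c211a21181e951e9306) (nat_lit 0xc00008ca00) (nat_lit 52))
 (.p (nat_lit 0x35555e702) (nat_lit 0x340b1f) (nat_lit 30)))
 (.n (.p (nat_lit 0x1c501c4e1c4c1c480e050e0106) (nat_lit 0x2800090307) (nat_lit 51))
 (.p (nat_lit 0x5e663a6702) (nat_lit 0x44800) (nat_lit 48)))))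
 (.n (.n (.n (.p (nat_lit 0x12ca12c812c612c410cd10cb06) (nat_lit 0x18000004500) (nat_lit 52))
 (.p (nat_lit 0x42303e3d02) (nat_lit 0x200619) (nat_lit 5)))
 (.n (.p (nat_lit 0x112c20e702) (nat_lit 0x500405) (nat_lit 5))
 (.p (nat_lit 0x5ced04d102) (nat_lit 0x20000000) (nat_lit 40))))
 (.n (.n (.p (nat_lit 0x2e482e462e442e422e402e3e006407) (nat_lit 0x40102) (nat_lit 8))
 (.p (nat_lit 0x3644389502) (nat_lit 0x340126) (nat_lit 5)))
 (.n (.p (nat_lit 0x4756475447524750474e01cf475907) (nat_lit 0x54030c) (nat_lit 7))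
 (.p (nat_lit 0x1ae65fc502) (nat_lit 0x8982e915800200000600) (nat_lit 50))))))
 (.n (.n (.n (.n (.p (nat_lit 0xbec0bea0be60be409d309cd06) (nat_lit 0x48000c8200) (nat_lit 51))
 (.p (nat_lit 0x28e02ad02a30aab0c0d05) (nat_lit 0xb1300615) (nat_lit 9)))
 (.n (.p (nat_lit 0xe760e740e700e6e0e6c168706) (nat_lit 0x4000086604) (nat_lit 52))
 (.p (nat_lit 0x59a859a659a459a259a0043900ee07) (nat_lit 0x20e505) (nat_lit 25))))
 (.n (.n (.p (nat_lit 0x28fc28fa28f828f628f428f206) (nat_lit 0xc0301) (nat_lit 52))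
 (.p (nat_lit 0x153e153c153a1538153409e706) (nat_lit 0x100004c123) (nat_lit 52)))
 (.n (.p (nat_lit 0x2b4a262102) (nat_lit 0x40808) (nat_lit 4))
 (.p (nat_lit 0x5d57249502) (nat_lit 0x260080000b00) (nat_lit 41)))))
 (.n (.n (.n (.p (nat_lit 0x1a4e1a4c1a4a1a441797179506) (nat_lit 0x3000056700) (nat_lit 52))
 (.p (nat_lit 0x105610541052105014e314e106) (nat_lit 0x180004e51c) (nat_lit 51)))
 (.n (.p (nat_lit 0x4e184e164e144e124e104e0e06) (nat_lit 0xd0306) (nat_lit 52))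
 (.p (nat_lit 0x5e184a4f02) (nat_lit 0x60054400) (nat_lit 47))))
 (.n (.n (.p (nat_lit 0x3425bd02) (nat_lit 0x540b02) (nat_lit 1))
 (.p (nat_lit 0x3e890b5d02) (nat_lit 0x51222a) (nat_lit 16)))
 (.n (.p (nat_lit 0x1be4532702) (nat_lit 0x50080e) (nat_lit 29))
 (.p (nat_lit 0x12a712990fe90fd50d1d0d090a550a4d07a7079f04d104c360bc0d) (nat_lit 0x35052a3a4000000000000) (nat_lit 33))))))

def c512_133 : Tr := .n c1024_133 c1024_645

def c1024_389 : Tr :=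
 .n (.n (.n (.n (.n (.n (.p (nat_lit 0x1f001e801e601f304) (nat_lit 0x1180040000e) (nat_lit 17))
 (.p (nat_lit 0x1140617b02) (nat_lit 0x521a86b11000400040000) (nat_lit 49)))
 (.p (nat_lit 0x1ce81ce61ce41ce21ce038e906) (nat_lit 0x1000000c411) (nat_lit 52)))
 (.n (.p (nat_lit 0x1685167902) (nat_lit 0x214603) (nat_lit 16))
 (.p (nat_lit 0x320c320a3208320632042b3b06) (nat_lit 0x800008282b) (nat_lit 51))))
 (.n (.n (.p (nat_lit 0x1f221f201f1e1f1c1d331d3106) (nat_lit 0x18000040900) (nat_lit 51))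
 (.p (nat_lit 0x33a233a0339e339c339a034d33a507) (nat_lit 0x540a1e) (nat_lit 7)))
 (.n (.p (nat_lit 0x14e0155015f066104ef05) (nat_lit 0x60c00207) (nat_lit 9))
 (.p (nat_lit 0x5cf1197502) (nat_lit 0x2c0040000700) (nat_lit 39)))))
 (.n (.n (.n (.p (nat_lit 0x11390dff02) (nat_lit 0x516400) (nat_lit 16))
 (.p (nat_lit 0x3982367102) (nat_lit 0x240418) (nat_lit 4)))
 (.n (.p (nat_lit 0xb9508d702) (nat_lit 0x300105) (nat_lit 15))
 (.p (nat_lit 0x3aa03a403a203a00403000706) (nat_lit 0x2312123) (nat_lit 26))))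
 (.n (.n (.p (nat_lit 0x254425422540253e253c21a906) (nat_lit 0x800010a01) (nat_lit 51))
 (.p (nat_lit 0x176c176a17681764176227af06) (nat_lit 0x2000052124) (nat_lit 51)))
 (.n (.p (nat_lit 0x3f943c9302) (nat_lit 0x20030b) (nat_lit 5))
 (.p (nat_lit 0xd185f7902) (nat_lit 0x560bb0344000300000000) (nat_lit 50))))))
 (.n (.n (.n (.n (.p (nat_lit 0x87a08780876087408720001087107) (nat_lit 0x200) (nat_lit 7))
 (.p (nat_lit 0x138e0bf302) (nat_lit 0x200515) (nat_lit 5)))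
 (.n (.p (nat_lit 0x11201f8702) (nat_lit 0x500404) (nat_lit 5))
 (.p (nat_lit 0x620060005c00580003048106) (nat_lit 0xb14502) (nat_lit 26))))
 (.n (.n (.p (nat_lit 0x75f075302) (nat_lit 0x350001) (nat_lit 16))
 (.p (nat_lit 0x74a074807440742074003a7074707) (nat_lit 0x340023) (nat_lit 7)))
 (.n (.p (nat_lit 0x22cc059f02) (nat_lit 0x340a07) (nat_lit 5))
 (.p (nat_lit 0x5d675ea702) (nat_lit 0x160080000a00) (nat_lit 37)))))
 (.n (.n (.n (.p (nat_lit 0x18c618c418c218c018be18bc06) (nat_lit 0x92700) (nat_lit 52))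
 (.p (nat_lit 0xc680c640c620c600887088306) (nat_lit 0x1400001411c) (nat_lit 51)))
 (.n (.p (nat_lit 0x4ac24ac04abe4abc4aba4ab806) (nat_lit 0x6006) (nat_lit 52))
 (.p (nat_lit 0x5d435e0302) (nat_lit 0xa0060000300) (nat_lit 37))))
 (.n (.n (.p (nat_lit 0x64a0646064406420640232306) (nat_lit 0x80000c0a02) (nat_lit 51))
 (.p (nat_lit 0x4fa04f804f604f404f2089f06) (nat_lit 0x1000008412a) (nat_lit 52)))
 (.n (.p (nat_lit 0x520051e051c05180516138306) (nat_lit 0x200000850e) (nat_lit 51))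
 (.p (nat_lit 0x1140607b02) (nat_lit 0x511a22b85000400040000) (nat_lit 49))))))

def c1024_901 : Tr :=
 .n (.n (.n (.n (.n (.p (nat_lit 0x654063d02) (nat_lit 0x440000) (nat_lit 4))
 (.p (nat_lit 0x4a7e44ff02) (nat_lit 0x400813) (nat_lit 4)))
 (.n (.p (nat_lit 0x181e181c181a1818181625c906) (nat_lit 0x1000004eb03) (nat_lit 51))
 (.p (nat_lit 0x1fd81fd61fd41fd21fd03f2506) (nat_lit 0x8000ce22e) (nat_lit 52))))
 (.n (.n (.p (nat_lit 0x22b822b422b022ae1ffb1ff706) (nat_lit 0xa0000d0a00) (nat_lit 52))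
 (.p (nat_lit 0x434e3f8502) (nat_lit 0x500b20) (nat_lit 4)))
 (.n (.p (nat_lit 0x12f012ee12ec12ea12e810d906) (nat_lit 0x10000086407) (nat_lit 51))
 (.p (nat_lit 0x5da15e7d02) (nat_lit 0xc00a0000800) (nat_lit 37)))))
 (.n (.n (.n (.p (nat_lit 0x14d5121d02) (nat_lit 0x44500) (nat_lit 16))
 (.p (nat_lit 0xa660a640a620a5e0a5c49e506) (nat_lit 0x200000071a) (nat_lit 51)))
 (.n (.p (nat_lit 0x180818041802180017fe00eb180707) (nat_lit 0x440605) (nat_lit 7))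
 (.p (nat_lit 0x5d155dcd02) (nat_lit 0x80040000100) (nat_lit 37))))
 (.n (.n (.p (nat_lit 0x1106188902) (nat_lit 0x400402) (nat_lit 4))
 (.p (nat_lit 0x3f1a404902) (nat_lit 0x40227) (nat_lit 5)))
 (.n (.p (nat_lit 0x50eb504302) (nat_lit 0x50080d) (nat_lit 15))
 (.p (nat_lit 0x114a5ffb02) (nat_lit 0x16a88cd50000400040000) (nat_lit 50))))))
 (.n (.n (.n (.n (.p (nat_lit 0xdb40db20dae0dac0b390b3306) (nat_lit 0x12000012300) (nat_lit 52))
 (.p (nat_lit 0x1ec51eb902) (nat_lit 0x408915) (nat_lit 16)))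
 (.n (.p (nat_lit 0x19521e6302) (nat_lit 0x300704) (nat_lit 5))
 (.p (nat_lit 0x4965a4f02) (nat_lit 0x40040a) (nat_lit 27))))
 (.n (.n (.p (nat_lit 0x184e184c184818441c1d1c1906) (nat_lit 0x5000082801) (nat_lit 51))
 (.p (nat_lit 0x3a956cd02) (nat_lit 0x400623) (nat_lit 30)))
 (.n (.p (nat_lit 0x18b520f02) (nat_lit 0x340409) (nat_lit 30))
 (.p (nat_lit 0x4c25ef302) (nat_lit 0x4a9d84344000000000000) (nat_lit 49)))))
 (.n (.n (.n (.p (nat_lit 0x1c0518ff02) (nat_lit 0x308800) (nat_lit 16))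
 (.p (nat_lit 0x380838063804380238001d5906) (nat_lit 0x8000c081c) (nat_lit 52)))
 (.n (.p (nat_lit 0x16c616c216be16bc1ad11acd06) (nat_lit 0xa000040706) (nat_lit 52))
 (.p (nat_lit 0x5d735e3102) (nat_lit 0xa0080000500) (nat_lit 36))))
 (.n (.n (.p (nat_lit 0x35f835f635f435f235ee0a1706) (nat_lit 0x10000c8103) (nat_lit 52))
 (.p (nat_lit 0x118c118a1186118411820f8706) (nat_lit 0x400004432a) (nat_lit 52)))
 (.n (.p (nat_lit 0x2437242b02) (nat_lit 0x506b0e) (nat_lit 16))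
 (.p (nat_lit 0x1da660fd02) (nat_lit 0x340a623b0000300000600) (nat_lit 49))))))

def c512_389 : Tr := .n c1024_389 c1024_901

def c256_133 : Tr := .n c512_133 c512_389

def c128_5 : Tr := .n c256_5 c256_133

def c1024_69 : Tr :=
 .n (.n (.n (.n (.n (.n (.p (nat_lit 0x490041003803) (nat_lit 0x60800001) (nat_lit 19))
 (.p (nat_lit 0x1da6613102) (nat_lit 0x35486a1b0000300000600) (nat_lit 49)))
 (.p (nat_lit 0x7cc07ca07c807c607c42b9f06) (nat_lit 0x1000000890f) (nat_lit 52)))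
 (.n (.p (nat_lit 0x384c384a3848384638440fa506) (nat_lit 0x800056303) (nat_lit 51))
 (.p (nat_lit 0x3a4c3a4a3a483a463a441c1306) (nat_lit 0x800001482a) (nat_lit 52))))
 (.n (.n (.p (nat_lit 0x1d261d241d221d1e1a611a5d06) (nat_lit 0x28000d6800) (nat_lit 52))
 (.p (nat_lit 0x259922f502) (nat_lit 0x540a1c) (nat_lit 15)))
 (.n (.p (nat_lit 0x4cc04c804c604c404c21d9d06) (nat_lit 0x8000040806) (nat_lit 52))
 (.p (nat_lit 0x5e3e2a7102) (nat_lit 0x20004600) (nat_lit 48)))))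
 (.n (.n (.n (.p (nat_lit 0xf060f040efe0efc0c950c9306) (nat_lit 0x6000050300) (nat_lit 52))
 (.p (nat_lit 0x17c1258d02) (nat_lit 0x540b15) (nat_lit 15)))
 (.n (.p (nat_lit 0x2476432f02) (nat_lit 0x100b04) (nat_lit 29))
 (.p (nat_lit 0x240023e023c023a01a3008706) (nat_lit 0x280a411) (nat_lit 26))))
 (.n (.n (.p (nat_lit 0x1eea1ee61ee21ee0004e0033002f1ee91ee509) (nat_lit 0x2200901) (nat_lit 10))
 (.p (nat_lit 0x388c38883886388438821d6d06) (nat_lit 0x8000042823) (nat_lit 52)))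
 (.n (.p (nat_lit 0x3f17374b02) (nat_lit 0x45420a) (nat_lit 16))
 (.p (nat_lit 0x2493248b21db21d51f1b1f0b1c471c3d1985197516a716995f2c0d) (nat_lit 0x3a6560c44000000040600) (nat_lit 33))))))
 (.n (.n (.n (.n (.p (nat_lit 0x5c605c205c005be05bc000905c507) (nat_lit 0x400100) (nat_lit 7))
 (.p (nat_lit 0x28753fb02) (nat_lit 0x300015) (nat_lit 30)))
 (.n (.p (nat_lit 0x3d583d543d523d503d4e08cd06) (nat_lit 0x800000e104) (nat_lit 52))
 (.p (nat_lit 0x212e212c212a21262124469106) (nat_lit 0x200004e22f) (nat_lit 52))))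
 (.n (.n (.p (nat_lit 0x2433215b02) (nat_lit 0x304b00) (nat_lit 16))
 (.p (nat_lit 0x4a494a3d02) (nat_lit 0x4a721) (nat_lit 16)))
 (.n (.p (nat_lit 0x1906054702) (nat_lit 0x100707) (nat_lit 4))
 (.p (nat_lit 0x5d491da702) (nat_lit 0x40060000900) (nat_lit 38)))))
 (.n (.n (.n (.p (nat_lit 0x166b154f02) (nat_lit 0x10a600) (nat_lit 16))
 (.p (nat_lit 0x79e079c079a0796079405d906) (nat_lit 0x200000201c) (nat_lit 52)))
 (.n (.p (nat_lit 0x79e079a079807941ac51abf06) (nat_lit 0x9000042705) (nat_lit 52))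
 (.p (nat_lit 0x5c8f0ba702) (nat_lit 0x2e0000000200) (nat_lit 39))))
 (.n (.n (.p (nat_lit 0x1b1a1b161b141b121ef51eed06) (nat_lit 0x8800082902) (nat_lit 51))
 (.p (nat_lit 0x4c8d458d02) (nat_lit 0x34c128) (nat_lit 16)))
 (.n (.p (nat_lit 0x12350f7502) (nat_lit 0x4030e) (nat_lit 15))
 (.p (nat_lit 0x180c602f02) (nat_lit 0x466a62335000100000600) (nat_lit 49))))))

def c1024_581 : Tr :=
 .n (.n (.n (.n (.n (.n (.p (nat_lit 0x3a403a203a003ad04) (nat_lit 0x3800400023) (nat_lit 17))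
 (.p (nat_lit 0x64a61ad02) (nat_lit 0x3421a9c14800000040000) (nat_lit 50)))
 (.p (nat_lit 0x408c408a4086408440820255408907) (nat_lit 0x300412) (nat_lit 7)))
 (.n (.p (nat_lit 0x3aed21cb02) (nat_lit 0x500a03) (nat_lit 16))
 (.p (nat_lit 0x436336102) (nat_lit 0x100a2c) (nat_lit 1))))
 (.n (.n (.p (nat_lit 0x1e96207502) (nat_lit 0x500a00) (nat_lit 4))
 (.p (nat_lit 0x3b443b403b3e3b3c3b3a03573b4307) (nat_lit 0x440a1f) (nat_lit 7)))
 (.n (.p (nat_lit 0xe0a067b02) (nat_lit 0x500307) (nat_lit 5))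
 (.p (nat_lit 0x5d89181502) (nat_lit 0x2400a0000700) (nat_lit 38)))))
 (.n (.n (.n (.p (nat_lit 0x12a3129702) (nat_lit 0x100500) (nat_lit 34))
 (.p (nat_lit 0x41983e2702) (nat_lit 0x300519) (nat_lit 4)))
 (.n (.p (nat_lit 0xfc020d902) (nat_lit 0x240305) (nat_lit 5))
 (.p (nat_lit 0x4b55c8d02) (nat_lit 0x50032f) (nat_lit 28))))
 (.n (.n (.p (nat_lit 0x2d3c2d3a2d382d360763076106) (nat_lit 0x180000c6002) (nat_lit 52))
 (.p (nat_lit 0x3b4733a702) (nat_lit 0x52a25) (nat_lit 16)))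
 (.n (.p (nat_lit 0x45fa43bb02) (nat_lit 0x20020c) (nat_lit 4))
 (.p (nat_lit 0x63a5fa702) (nat_lit 0x89832955800000040000) (nat_lit 49))))))
 (.n (.n (.n (.n (.p (nat_lit 0x28409d102) (nat_lit 0x240200) (nat_lit 1))
 (.p (nat_lit 0x181e181c181a1818181614df06) (nat_lit 0x1000004e515) (nat_lit 51)))
 (.n (.p (nat_lit 0x1525151902) (nat_lit 0x456504) (nat_lit 16))
 (.p (nat_lit 0xe4597f02) (nat_lit 0x100b04) (nat_lit 27))))
 (.n (.n (.p (nat_lit 0xe24170302) (nat_lit 0x301) (nat_lit 5))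
 (.p (nat_lit 0x4c17089302) (nat_lit 0x516123) (nat_lit 16)))
 (.n (.p (nat_lit 0x2924260702) (nat_lit 0x140308) (nat_lit 5))
 (.p (nat_lit 0x5d295eb902) (nat_lit 0x240060000b00) (nat_lit 37)))))
 (.n (.n (.n (.p (nat_lit 0x1a061a041a021a001795179306) (nat_lit 0x180004a700) (nat_lit 52))
 (.p (nat_lit 0x14ea14e814e614e414e2030714e107) (nat_lit 0x4051c) (nat_lit 7)))
 (.n (.p (nat_lit 0x4d644d624d604d5e4d5c4d5a011e07) (nat_lit 0x306) (nat_lit 8))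
 (.p (nat_lit 0x5e0e113d02) (nat_lit 0x20040400) (nat_lit 45))))
 (.n (.n (.p (nat_lit 0x1760175e175c17582461245d06) (nat_lit 0x2800090b02) (nat_lit 51))
 (.p (nat_lit 0x129e129c129a129612940b5706) (nat_lit 0x200000a22a) (nat_lit 52)))
 (.n (.p (nat_lit 0x1be5191b02) (nat_lit 0x50070e) (nat_lit 15))
 (.p (nat_lit 0x16a660a902) (nat_lit 0x344581ca4000000040600) (nat_lit 50))))))

def c512_69 : Tr := .n c1024_69 c1024_581

def c1024_325 : Tr :=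
 .n (.n (.n (.n (.n (.n (.p (nat_lit 0x14a01460142014d04) (nat_lit 0x15000400007) (nat_lit 17))
 (.p (nat_lit 0xe76616d02) (nat_lit 0x421aa4394000300040000) (nat_lit 49)))
 (.p (nat_lit 0x33de33dc33d833d60236022d022733e133db09) (nat_lit 0x2a00b10) (nat_lit 10)))
 (.n (.p (nat_lit 0x167c1b8302) (nat_lit 0x400603) (nat_lit 5))
 (.p (nat_lit 0x28202a3102) (nat_lit 0x40022b) (nat_lit 4))))
 (.n (.n (.p (nat_lit 0x1ed91bc702) (nat_lit 0x20a900) (nat_lit 16))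
 (.p (nat_lit 0x2f682f642f622f602f5e2eb706) (nat_lit 0x80000ca11e) (nat_lit 52)))
 (.n (.p (nat_lit 0x2270226e226c22682266206306) (nat_lit 0x20000ca906) (nat_lit 51))
 (.p (nat_lit 0x5cdd5e5502) (nat_lit 0x100020000700) (nat_lit 37)))))
 (.n (.n (.n (.p (nat_lit 0x10b210b010ae10ac0dff0df506) (nat_lit 0x10800016400) (nat_lit 52))
 (.p (nat_lit 0xaa20aa00a9e0a9a0a98339306) (nat_lit 0x20000caa17) (nat_lit 51)))
 (.n (.p (nat_lit 0x782442102) (nat_lit 0x340005) (nat_lit 29))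
 (.p (nat_lit 0x368036603640362038d031106) (nat_lit 0x2516620) (nat_lit 26))))
 (.n (.n (.p (nat_lit 0x2059204d02) (nat_lit 0x350901) (nat_lit 16))
 (.p (nat_lit 0x25ab259f02) (nat_lit 0x240b23) (nat_lit 16)))
 (.n (.p (nat_lit 0x6620660065e065c06583bc106) (nat_lit 0x1000044b0a) (nat_lit 51))
 (.p (nat_lit 0x181c5f6f02) (nat_lit 0x3aa074b50000100000600) (nat_lit 50))))))
 (.n (.n (.n (.n (.p (nat_lit 0x9cf071f02) (nat_lit 0x140100) (nat_lit 15))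
 (.p (nat_lit 0x124a542302) (nat_lit 0x540415) (nat_lit 29)))
 (.n (.p (nat_lit 0x3660fb502) (nat_lit 0x240304) (nat_lit 1))
 (.p (nat_lit 0x58c858c658c258c058be0007003607) (nat_lit 0x314801) (nat_lit 25))))
 (.n (.n (.p (nat_lit 0x5f625e102) (nat_lit 0x500001) (nat_lit 29))
 (.p (nat_lit 0x5686568456825680567e567c03ae05eb05e905e10a) (nat_lit 0x16000023) (nat_lit 31)))
 (.n (.p (nat_lit 0x3c3e3c3c3c3a3c3620031fff06) (nat_lit 0x28000cc907) (nat_lit 52))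
 (.p (nat_lit 0x5cf3207b02) (nat_lit 0x2a0040000a00) (nat_lit 40)))))
 (.n (.n (.n (.p (nat_lit 0x162a181502) (nat_lit 0x500700) (nat_lit 4))
 (.p (nat_lit 0x8800ea102) (nat_lit 0x20011c) (nat_lit 4)))
 (.n (.p (nat_lit 0x1e4e1e4c1e481e461e441d8f06) (nat_lit 0x400004c805) (nat_lit 52))
 (.p (nat_lit 0x5cdb5dfb02) (nat_lit 0x120020000300) (nat_lit 37))))
 (.n (.n (.p (nat_lit 0x21d421d221d021ce21cc21bf06) (nat_lit 0x10000094a02) (nat_lit 52))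
 (.p (nat_lit 0x1198119611941192119050bd06) (nat_lit 0x8000c4829) (nat_lit 52)))
 (.n (.p (nat_lit 0x4105123902) (nat_lit 0x25240e) (nat_lit 16))
 (.p (nat_lit 0x1ade606f02) (nat_lit 0x588172b40800200000600) (nat_lit 49))))))

def c1024_837 : Tr :=
 .n (.n (.n (.n (.n (.n (.p (nat_lit 0x5c904db02) (nat_lit 0x4000) (nat_lit 16))
 (.p (nat_lit 0x249261e702) (nat_lit 0x3422b0d64000500040600) (nat_lit 50)))
 (.p (nat_lit 0x493e455302) (nat_lit 0x40513) (nat_lit 4)))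
 (.n (.p (nat_lit 0x25c63bbb02) (nat_lit 0x440b03) (nat_lit 29))
 (.p (nat_lit 0x1418141614121410140e3c0106) (nat_lit 0x40000c2b2d) (nat_lit 51))))
 (.n (.n (.p (nat_lit 0x226e226a226822661ffd1ff906) (nat_lit 0x140000caa00) (nat_lit 51))
 (.p (nat_lit 0x428a4286428442820376036b03634289428109) (nat_lit 0x2040620) (nat_lit 10)))
 (.n (.p (nat_lit 0x4e1b0f6902) (nat_lit 0x56307) (nat_lit 16))
 (.p (nat_lit 0x5d691ae902) (nat_lit 0x140080000800) (nat_lit 40)))))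
 (.n (.n (.n (.p (nat_lit 0x143c143a143614321223121f06) (nat_lit 0x5000046500) (nat_lit 52))
 (.p (nat_lit 0x494a464502) (nat_lit 0x4051a) (nat_lit 4)))
 (.n (.p (nat_lit 0x23ca23c623c423c01695168f06) (nat_lit 0x900000a605) (nat_lit 51))
 (.p (nat_lit 0x5c9107a102) (nat_lit 0x2c0000000100) (nat_lit 40))))
 (.n (.n (.p (nat_lit 0xe470e3b02) (nat_lit 0x512302) (nat_lit 16))
 (.p (nat_lit 0x1e5a1e581e561e541e503d7306) (nat_lit 0x100008c127) (nat_lit 51)))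
 (.n (.p (nat_lit 0x1dd52a902) (nat_lit 0x24040d) (nat_lit 30))
 (.p (nat_lit 0x1db05fed02) (nat_lit 0x306a81d31000300000600) (nat_lit 50))))))
 (.n (.n (.n (.n (.p (nat_lit 0xd3c0d3a0d380d360b390b3706) (nat_lit 0x18000002300) (nat_lit 51))
 (.p (nat_lit 0x1d4e0ae302) (nat_lit 0x140815) (nat_lit 4)))
 (.n (.p (nat_lit 0x1db61db41db21dae1dac17f706) (nat_lit 0x2000052604) (nat_lit 51))
 (.p (nat_lit 0x5a245a225a205a1e5a1c01ed017a07) (nat_lit 0x312208) (nat_lit 25))))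
 (.n (.n (.p (nat_lit 0x2add14f102) (nat_lit 0x242501) (nat_lit 16))
 (.p (nat_lit 0xe9a0e960e940e920caf0ca706) (nat_lit 0x88000c0223) (nat_lit 52)))
 (.n (.p (nat_lit 0x308a2cb102) (nat_lit 0x40309) (nat_lit 5))
 (.p (nat_lit 0x12a85ee102) (nat_lit 0x4a8d84344000500000000) (nat_lit 50)))))
 (.n (.n (.n (.p (nat_lit 0x1b9a1b981b961b92190318fb06) (nat_lit 0x11000014800) (nat_lit 52))
 (.p (nat_lit 0x1bfa555902) (nat_lit 0x40081c) (nat_lit 29)))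
 (.n (.p (nat_lit 0x15e215de15dc15da15d8196d06) (nat_lit 0x8000010706) (nat_lit 52))
 (.p (nat_lit 0x5cf15e2b02) (nat_lit 0x2c0040000500) (nat_lit 37))))
 (.n (.n (.p (nat_lit 0x359435923590358e358c08bf06) (nat_lit 0x400000a103) (nat_lit 51))
 (.p (nat_lit 0x28e30e2102) (nat_lit 0x40c32a) (nat_lit 16)))
 (.n (.p (nat_lit 0x1e9534f02) (nat_lit 0x140a0e) (nat_lit 30))
 (.p (nat_lit 0xe7260f102) (nat_lit 0x440d623a4000300040000) (nat_lit 49))))))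

def c512_325 : Tr := .n c1024_325 c1024_837

def c256_69 : Tr := .n c512_69 c512_325

def c1024_197 : Tr :=
 .n (.n (.n (.n (.n (.n (.p (nat_lit 0xbc00b800c303) (nat_lit 0xa000500004) (nat_lit 17))
 (.p (nat_lit 0x2484614f02) (nat_lit 0x3503a0d84000500040600) (nat_lit 49)))
 (.p (nat_lit 0x31e62de502) (nat_lit 0x300510) (nat_lit 5)))
 (.n (.p (nat_lit 0x396d126b02) (nat_lit 0x340403) (nat_lit 16))
 (.p (nat_lit 0x43b583302) (nat_lit 0x300a2a) (nat_lit 30))))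
 (.n (.n (.p (nat_lit 0x1e1e1e1c1e161e141bc91bc706) (nat_lit 0x6000008900) (nat_lit 52))
 (.p (nat_lit 0x2b2428a302) (nat_lit 0x30081d) (nat_lit 5)))
 (.n (.p (nat_lit 0x1efc255702) (nat_lit 0x200906) (nat_lit 4))
 (.p (nat_lit 0x5d5b5e4b02) (nat_lit 0x220080000600) (nat_lit 36)))))
 (.n (.n (.n (.p (nat_lit 0xdfe0dfc0df80df60010000700010dfb0df509) (nat_lit 0x1800400) (nat_lit 10))
 (.p (nat_lit 0x34b72cf702) (nat_lit 0x212017) (nat_lit 16)))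
 (.n (.p (nat_lit 0x21ee21ea21e821e625d325cb06) (nat_lit 0x8800040b04) (nat_lit 51))
 (.p (nat_lit 0x2f55b5d02) (nat_lit 0x10041a) (nat_lit 28))))
 (.n (.n (.p (nat_lit 0x38004500471601177305) (nat_lit 0xa0a40901) (nat_lit 9))
 (.p (nat_lit 0x21a3219702) (nat_lit 0x300a23) (nat_lit 16)))
 (.n (.p (nat_lit 0x3a643a603a5e3a5c3a5a396f06) (nat_lit 0x80000d640a) (nat_lit 51))
 (.p (nat_lit 0x15485f5102) (nat_lit 0x1a1d22350000000000600) (nat_lit 50))))))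
 (.n (.n (.n (.n (.p (nat_lit 0x8c905c102) (nat_lit 0x212100) (nat_lit 16))
 (.p (nat_lit 0x5416541454125410540e540c028c07) (nat_lit 0x415) (nat_lit 8)))
 (.n (.p (nat_lit 0xb910b8502) (nat_lit 0x116204) (nat_lit 16))
 (.p (nat_lit 0x4d564f8502) (nat_lit 0x440230) (nat_lit 4))))
 (.n (.n (.p (nat_lit 0x254425422540253c253a22bf06) (nat_lit 0x2000050b00) (nat_lit 51))
 (.p (nat_lit 0x28a628a428a228a0289e502506) (nat_lit 0x2000050722) (nat_lit 51)))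
 (.n (.p (nat_lit 0x34f634f234f034ee34ec1bd706) (nat_lit 0x8000086807) (nat_lit 52))
 (.p (nat_lit 0x5e903d0b02) (nat_lit 0xa0046900) (nat_lit 48)))))
 (.n (.n (.n (.p (nat_lit 0x176c176a1768176616b316b106) (nat_lit 0x1800052600) (nat_lit 51))
 (.p (nat_lit 0x7aa07a807a407a207a0073b06) (nat_lit 0x400004201c) (nat_lit 51)))
 (.n (.p (nat_lit 0xf0010b0101214322a905) (nat_lit 0xa8b00805) (nat_lit 9))
 (.p (nat_lit 0x5d775ded02) (nat_lit 0x60080000200) (nat_lit 37))))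
 (.n (.n (.p (nat_lit 0x2323205b02) (nat_lit 0x440902) (nat_lit 15))
 (.p (nat_lit 0x4c8a4e6302) (nat_lit 0x240129) (nat_lit 5)))
 (.n (.p (nat_lit 0x310310e302) (nat_lit 0x40e40e) (nat_lit 16))
 (.p (nat_lit 0x2074604d02) (nat_lit 0x406a6254c800400000600) (nat_lit 49))))))

def c1024_709 : Tr :=
 .n (.n (.n (.n (.n (.n (.p (nat_lit 0x4e404e204de04dc04da000704e107) (nat_lit 0x300000) (nat_lit 7))
 (.p (nat_lit 0x8fc61cd02) (nat_lit 0x3421684a0800100040000) (nat_lit 50)))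
 (.p (nat_lit 0x7da07d807d607d207d0422506) (nat_lit 0x2000088612) (nat_lit 51)))
 (.n (.p (nat_lit 0xa4c0a4a0a480a460a44247306) (nat_lit 0x10000004b03) (nat_lit 52))
 (.p (nat_lit 0x36d636d436d236d036ce049936d907) (nat_lit 0x50022d) (nat_lit 7))))
 (.n (.n (.p (nat_lit 0x216d1e8d02) (nat_lit 0x2a00) (nat_lit 16))
 (.p (nat_lit 0x3d0a3d083d043d020374036903633d073d0109) (nat_lit 0x1840020) (nat_lit 10)))
 (.n (.p (nat_lit 0xf70051302) (nat_lit 0x440307) (nat_lit 5))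
 (.p (nat_lit 0x5e6a1c3d02) (nat_lit 0x20040800) (nat_lit 45)))))
 (.n (.n (.n (.p (nat_lit 0x137c13781376137410cb10c306) (nat_lit 0x8800096500) (nat_lit 52))
 (.p (nat_lit 0x2d242cd02) (nat_lit 0x200719) (nat_lit 1)))
 (.n (.p (nat_lit 0xe5486502) (nat_lit 0x100505) (nat_lit 30))
 (.p (nat_lit 0x5cf15db702) (nat_lit 0x2c0040000000) (nat_lit 37))))
 (.n (.n (.p (nat_lit 0x2c40b7302) (nat_lit 0x400202) (nat_lit 1))
 (.p (nat_lit 0x377c377a377837763772375106) (nat_lit 0x1000040226) (nat_lit 52)))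
 (.n (.p (nat_lit 0x49cc43f102) (nat_lit 0x20070c) (nat_lit 4))
 (.p (nat_lit 0x20805fcf02) (nat_lit 0x9582ec05000400000600) (nat_lit 50))))))
 (.n (.n (.n (.n (.p (nat_lit 0xc9b09cd02) (nat_lit 0x40200) (nat_lit 16))
 (.p (nat_lit 0x191e0c1f02) (nat_lit 0x100715) (nat_lit 4)))
 (.n (.p (nat_lit 0x421d168902) (nat_lit 0x400604) (nat_lit 16))
 (.p (nat_lit 0x59cc59ca59c859c659c201e9011e07) (nat_lit 0x110106) (nat_lit 25))))
 (.n (.n (.p (nat_lit 0x2d29a102) (nat_lit 0x140401) (nat_lit 30))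
 (.p (nat_lit 0x458f09ed02) (nat_lit 0x454123) (nat_lit 16)))
 (.n (.p (nat_lit 0x2be0263902) (nat_lit 0x240908) (nat_lit 5))
 (.p (nat_lit 0xd185ec502) (nat_lit 0x260b84344000300000000) (nat_lit 50)))))
 (.n (.n (.n (.p (nat_lit 0x1aaf179d02) (nat_lit 0x54a700) (nat_lit 16))
 (.p (nat_lit 0x17ca0ee102) (nat_lit 0x44061c) (nat_lit 4)))
 (.n (.p (nat_lit 0x128e250502) (nat_lit 0x340406) (nat_lit 4))
 (.p (nat_lit 0x5da35e1f02) (nat_lit 0xa00a0000400) (nat_lit 36))))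
 (.n (.n (.p (nat_lit 0x60a1af302) (nat_lit 0x300003) (nat_lit 5))
 (.p (nat_lit 0x12a812a412a212a00cbd0cb906) (nat_lit 0x1400004a22a) (nat_lit 51)))
 (.n (.p (nat_lit 0x358a35883586358435821d4106) (nat_lit 0x8000c880e) (nat_lit 51))
 (.p (nat_lit 0x13fc60d102) (nat_lit 0x35052a3a4000500040000) (nat_lit 50))))))

def c512_197 : Tr := .n c1024_197 c1024_709

def c1024_453 : Tr :=
 .n (.n (.n (.n (.n (.n (.p (nat_lit 0x2840280028f03) (nat_lit 0x2800500015) (nat_lit 17))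
 (.p (nat_lit 0x2484618902) (nat_lit 0x340b86c64000500040600) (nat_lit 49)))
 (.p (nat_lit 0x39e035fd02) (nat_lit 0x100511) (nat_lit 4)))
 (.n (.p (nat_lit 0x1a1e1a1c1a181a161a1417ed06) (nat_lit 0x4000052603) (nat_lit 51))
 (.p (nat_lit 0x2c222ad702) (nat_lit 0x54092b) (nat_lit 4))))
 (.n (.n (.p (nat_lit 0x1fc01fba1fb81fb61d311d2f06) (nat_lit 0xc0000cc900) (nat_lit 52))
 (.p (nat_lit 0x354e380502) (nat_lit 0x34001f) (nat_lit 4)))
 (.n (.p (nat_lit 0x2f310b3d02) (nat_lit 0x10e207) (nat_lit 16))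
 (.p (nat_lit 0x5d21197702) (nat_lit 0x2c0060000700) (nat_lit 39)))))
 (.n (.n (.n (.p (nat_lit 0x1180117e117c11760f610f5f06) (nat_lit 0x30000c2400) (nat_lit 52))
 (.p (nat_lit 0x3aa6369102) (nat_lit 0x200618) (nat_lit 5)))
 (.n (.p (nat_lit 0xb980b940b900b8e010800eb00e70b970b9309) (nat_lit 0x2200205) (nat_lit 10))
 (.p (nat_lit 0x402040003fe03fc03f703a106) (nat_lit 0x280e627) (nat_lit 26))))
 (.n (.n (.p (nat_lit 0x24e424e224de24dc2315230f06) (nat_lit 0x4800046a01) (nat_lit 52))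
 (.p (nat_lit 0x32b32bbb02) (nat_lit 0x110924) (nat_lit 16)))
 (.n (.p (nat_lit 0x40fc3cbb02) (nat_lit 0x44040b) (nat_lit 4))
 (.p (nat_lit 0x1da25f8d02) (nat_lit 0x581a30344000300000600) (nat_lit 49))))))
 (.n (.n (.n (.n (.p (nat_lit 0xa7e0a7a0a780a760879087106) (nat_lit 0x8800008200) (nat_lit 52))
 (.p (nat_lit 0x16a216a0169e169c169a138b06) (nat_lit 0x80008c515) (nat_lit 52)))
 (.n (.p (nat_lit 0x40ba40b840b640b440b240b006) (nat_lit 0xc2404) (nat_lit 52))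
 (.p (nat_lit 0x8b591f02) (nat_lit 0x200103) (nat_lit 28))))
 (.n (.n (.p (nat_lit 0xa0416e702) (nat_lit 0x440101) (nat_lit 5))
 (.p (nat_lit 0x8920890088e088c088a03a1088907) (nat_lit 0x123) (nat_lit 7)))
 (.n (.p (nat_lit 0x162d241502) (nat_lit 0xb07) (nat_lit 15))
 (.p (nat_lit 0x5cbb248d02) (nat_lit 0x20000000b00) (nat_lit 41)))))
 (.n (.n (.n (.p (nat_lit 0x1907162302) (nat_lit 0x100700) (nat_lit 16))
 (.p (nat_lit 0xbc80bc60bc40bc00bbe09dd06) (nat_lit 0x200004011c) (nat_lit 52)))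
 (.n (.p (nat_lit 0x8e24ba302) (nat_lit 0x300106) (nat_lit 29))
 (.p (nat_lit 0x5d5f0d1b02) (nat_lit 0x1e0080000300) (nat_lit 40))))
 (.n (.n (.p (nat_lit 0x1ade1adc1ada1ad81ad4231d06) (nat_lit 0x1000050a02) (nat_lit 52))
 (.p (nat_lit 0x9f6141502) (nat_lit 0x34012a) (nat_lit 5)))
 (.n (.p (nat_lit 0x4fc04f804f604f414d114c906) (nat_lit 0x88000c450e) (nat_lit 52))
 (.p (nat_lit 0x1142608d02) (nat_lit 0x342221ca4000400040000) (nat_lit 49))))))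

def c1024_965 : Tr :=
 .n (.n (.n (.n (.n (.p (nat_lit 0x69e069c069a06940651064f06) (nat_lit 0x30000c8000) (nat_lit 52))
 (.p (nat_lit 0x4f224c4f02) (nat_lit 0x140414) (nat_lit 4)))
 (.n (.p (nat_lit 0xb93c0b02) (nat_lit 0x200004) (nat_lit 30))
 (.p (nat_lit 0x140c140a140814061402429b06) (nat_lit 0x100004262e) (nat_lit 51))))
 (.n (.n (.p (nat_lit 0x2158233702) (nat_lit 0x200b00) (nat_lit 4))
 (.p (nat_lit 0x44a4471f02) (nat_lit 0x440021) (nat_lit 4)))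
 (.n (.p (nat_lit 0x1232069f02) (nat_lit 0x540407) (nat_lit 4))
 (.p (nat_lit 0x5c991f1102) (nat_lit 0x240000000900) (nat_lit 41)))))
 (.n (.n (.n (.p (nat_lit 0x1549153d02) (nat_lit 0x400600) (nat_lit 34))
 (.p (nat_lit 0x4f364cbb02) (nat_lit 0x54041b) (nat_lit 4)))
 (.n (.p (nat_lit 0x8fe08fc08fa08f808f4195b06) (nat_lit 0x1000082705) (nat_lit 51))
 (.p (nat_lit 0x5d2708ef02) (nat_lit 0x260060000100) (nat_lit 39))))
 (.n (.n (.p (nat_lit 0x66006f0079189b19ff05) (nat_lit 0x62100502) (nat_lit 9))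
 (.p (nat_lit 0x42e640db02) (nat_lit 0x300727) (nat_lit 4)))
 (.n (.p (nat_lit 0x1f4020901f7090307af05) (nat_lit 0xb010030e) (nat_lit 9))
 (.p (nat_lit 0x2332600f02) (nat_lit 0x405aa0b94800500000600) (nat_lit 49))))))
 (.n (.n (.n (.n (.p (nat_lit 0xe510b3702) (nat_lit 0x412300) (nat_lit 16))
 (.p (nat_lit 0x21820b0b02) (nat_lit 0x500a15) (nat_lit 4)))
 (.n (.p (nat_lit 0x1d1a1d181d141d121d10195306) (nat_lit 0x4000016704) (nat_lit 51))
 (.p (nat_lit 0x1f001ea01e801e60009028706) (nat_lit 0x230830e) (nat_lit 26))))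
 (.n (.n (.p (nat_lit 0x1d7c2b3f02) (nat_lit 0x40801) (nat_lit 29))
 (.p (nat_lit 0x30ce30cc30ca30c630c4193906) (nat_lit 0x2000082723) (nat_lit 51)))
 (.n (.p (nat_lit 0x67a0676067406720670332b06) (nat_lit 0x8000006a09) (nat_lit 51))
 (.p (nat_lit 0x1da65f0f02) (nat_lit 0x3a2570344000300000600) (nat_lit 49)))))
 (.n (.n (.n (.p (nat_lit 0x1a661a641a601a5c0018000700031a631a5f09) (nat_lit 0x1940800) (nat_lit 10))
 (.p (nat_lit 0x202c202a2028202620240307202307) (nat_lit 0x4091c) (nat_lit 7)))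
 (.n (.p (nat_lit 0x1c361c341c321c301c2e011d1c3907) (nat_lit 0x500806) (nat_lit 7))
 (.p (nat_lit 0x5d8b12ab02) (nat_lit 0x2200a0000500) (nat_lit 40))))
 (.n (.n (.p (nat_lit 0xb8d0b8102) (nat_lit 0x514203) (nat_lit 16))
 (.p (nat_lit 0x57ee57ec57ea57e857e657e4044007) (nat_lit 0x4062a) (nat_lit 8)))
 (.n (.p (nat_lit 0x2998275902) (nat_lit 0x30040f) (nat_lit 5))
 (.p (nat_lit 0x634611502) (nat_lit 0x3422621b0000000040000) (nat_lit 49))))))

def c512_453 : Tr := .n c1024_453 c1024_965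

def c256_197 : Tr := .n c512_197 c512_453

def c128_69 : Tr := .n c256_69 c256_197

def c64_5 : Tr := .n c128_5 c128_69

def c1024_37 : Tr :=
 .n (.n (.n (.n (.n (.n (.p (nat_lit 0x340030002c003704) (nat_lit 0x15000400001) (nat_lit 17))
 (.p (nat_lit 0x13ee612b02) (nat_lit 0x35486a3b0000500040000) (nat_lit 49)))
 (.p (nat_lit 0x2dfa2df82df62df42b0f2b0d06) (nat_lit 0x600009280f) (nat_lit 52)))
 (.n (.p (nat_lit 0xfae0fac0faa0fa60fa4008b0fa907) (nat_lit 0x240303) (nat_lit 7))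
 (.p (nat_lit 0x1aac580502) (nat_lit 0x44072a) (nat_lit 29))))
 (.n (.n (.p (nat_lit 0x1d021d001cfc1cfa1a631a5d06) (nat_lit 0x4800054800) (nat_lit 51))
 (.p (nat_lit 0x22ec0dd302) (nat_lit 0x140a1c) (nat_lit 4)))
 (.n (.p (nat_lit 0x508a50885086508450825080011e07) (nat_lit 0x40806) (nat_lit 8))
 (.p (nat_lit 0x5cd9153702) (nat_lit 0x140020000600) (nat_lit 38)))))
 (.n (.n (.n (.p (nat_lit 0xebc0eba0eb80eb40c990c9106) (nat_lit 0x1100004a300) (nat_lit 51))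
 (.p (nat_lit 0x2443243702) (nat_lit 0x508b15) (nat_lit 16)))
 (.n (.p (nat_lit 0x1ba81ba61ba41ba21b9e1ab306) (nat_lit 0x10000d4704) (nat_lit 52))
 (.p (nat_lit 0x5abc5aba5ab85ab65ab40031021607) (nat_lit 0x30a30f) (nat_lit 25))))
 (.n (.n (.p (nat_lit 0x1d9b1d8302) (nat_lit 0x354801) (nat_lit 16))
 (.p (nat_lit 0x506f1c0502) (nat_lit 0x316823) (nat_lit 16)))
 (.n (.p (nat_lit 0x35f835f435f235f035ee36bf06) (nat_lit 0x800008820a) (nat_lit 52))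
 (.p (nat_lit 0x20725f1f02) (nat_lit 0x1a2260b50000400000600) (nat_lit 49))))))
 (.n (.n (.n (.n (.p (nat_lit 0x78d065102) (nat_lit 0x256000) (nat_lit 16))
 (.p (nat_lit 0x7e607e407e207e007de509906) (nat_lit 0x80004a814) (nat_lit 51)))
 (.n (.p (nat_lit 0x3d09077902) (nat_lit 0x446004) (nat_lit 16))
 (.p (nat_lit 0x229422922290228e228c460306) (nat_lit 0x80000e22f) (nat_lit 51))))
 (.n (.n (.p (nat_lit 0x24062402240023fe23fc215d06) (nat_lit 0x8000012b00) (nat_lit 51))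
 (.p (nat_lit 0x385564102) (nat_lit 0x40721) (nat_lit 30)))
 (.n (.p (nat_lit 0x179e516d02) (nat_lit 0x40607) (nat_lit 29))
 (.p (nat_lit 0x5d011db102) (nat_lit 0x1c0040000900) (nat_lit 40)))))
 (.n (.n (.n (.p (nat_lit 0x1625155102) (nat_lit 0x200600) (nat_lit 15))
 (.p (nat_lit 0x5de05dc05d805d605d4030d05db07) (nat_lit 0x30001c) (nat_lit 7)))
 (.n (.p (nat_lit 0xe54a1102) (nat_lit 0x140705) (nat_lit 30))
 (.p (nat_lit 0x5cbb0a5102) (nat_lit 0x20000000200) (nat_lit 40))))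
 (.n (.n (.p (nat_lit 0x1eee18b302) (nat_lit 0x100902) (nat_lit 4))
 (.p (nat_lit 0x4586481102) (nat_lit 0x40128) (nat_lit 4)))
 (.n (.p (nat_lit 0x1f152df02) (nat_lit 0x54030e) (nat_lit 30))
 (.p (nat_lit 0x2074602502) (nat_lit 0x406a6252d000400000600) (nat_lit 49))))))

def c1024_549 : Tr :=
 .n (.n (.n (.n (.n (.n (.p (nat_lit 0x3560350034e035b04) (nat_lit 0x980040001f) (nat_lit 17))
 (.p (nat_lit 0xe7661a502) (nat_lit 0x3222a5c15000300040000) (nat_lit 49)))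
 (.p (nat_lit 0x7b607b407b207b007ae3bcb06) (nat_lit 0x800046b11) (nat_lit 52)))
 (.n (.p (nat_lit 0x1fc01fbe1fbc1fba1fb621c306) (nat_lit 0x100008ca03) (nat_lit 52))
 (.p (nat_lit 0x3130312e312a3128312630a906) (nat_lit 0x40000c232c) (nat_lit 52))))
 (.n (.n (.p (nat_lit 0x20531d2902) (nat_lit 0x4e900) (nat_lit 16))
 (.p (nat_lit 0x3a7c37a502) (nat_lit 0x54051f) (nat_lit 4)))
 (.n (.p (nat_lit 0x37450c9d02) (nat_lit 0x150207) (nat_lit 16))
 (.p (nat_lit 0x5da3182102) (nat_lit 0xa00a0000700) (nat_lit 40)))))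
 (.n (.n (.n (.p (nat_lit 0x12690f6102) (nat_lit 0x250400) (nat_lit 16))
 (.p (nat_lit 0x3cfc3e1d02) (nat_lit 0x440019) (nat_lit 5)))
 (.n (.p (nat_lit 0xe5e20d302) (nat_lit 0x500305) (nat_lit 5))
 (.p (nat_lit 0x4840480047e047c043d03df06) (nat_lit 0x201432c) (nat_lit 26))))
 (.n (.n (.p (nat_lit 0x75c2d0d02) (nat_lit 0x240002) (nat_lit 29))
 (.p (nat_lit 0x330430d502) (nat_lit 0x340925) (nat_lit 5)))
 (.n (.p (nat_lit 0x430c430a43064304430201b3430907) (nat_lit 0x34070b) (nat_lit 7))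
 (.p (nat_lit 0xbba5f9f02) (nat_lit 0x589832b44000200040000) (nat_lit 50))))))
 (.n (.n (.n (.n (.p (nat_lit 0xb6b087102) (nat_lit 0xe200) (nat_lit 16))
 (.p (nat_lit 0xbb00bae0bac0baa0ba814d506) (nat_lit 0x8000c4515) (nat_lit 52)))
 (.n (.p (nat_lit 0x15141e3d02) (nat_lit 0x240504) (nat_lit 4))
 (.p (nat_lit 0x404596702) (nat_lit 0x500404) (nat_lit 27))))
 (.n (.n (.p (nat_lit 0xcc216fb02) (nat_lit 0x240201) (nat_lit 5))
 (.p (nat_lit 0x21e021de21dc21da21d8089306) (nat_lit 0x10000094123) (nat_lit 51)))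
 (.n (.p (nat_lit 0x2f97287102) (nat_lit 0x550208) (nat_lit 16))
 (.p (nat_lit 0x5d4d249302) (nat_lit 0x60000b00) (nat_lit 41)))))
 (.n (.n (.n (.p (nat_lit 0x199e199c199a19981795179306) (nat_lit 0x18000c0700) (nat_lit 52))
 (.p (nat_lit 0x117e117c117a1178117613a106) (nat_lit 0x1000008251c) (nat_lit 52)))
 (.n (.p (nat_lit 0xba224cf02) (nat_lit 0x400206) (nat_lit 5))
 (.p (nat_lit 0x5cdf5e0f02) (nat_lit 0xe0020000400) (nat_lit 36))))
 (.n (.n (.p (nat_lit 0x2466246424622460006a005b0059245f245d09) (nat_lit 0x800b02) (nat_lit 10))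
 (.p (nat_lit 0x4d804d604d404d204ce0b5506) (nat_lit 0x100000022a) (nat_lit 51)))
 (.n (.p (nat_lit 0x1a7917af02) (nat_lit 0x24060e) (nat_lit 15))
 (.p (nat_lit 0x1f1a609f02) (nat_lit 0x344588ca4000300040600) (nat_lit 50))))))

def c512_37 : Tr := .n c1024_37 c1024_549

def c1024_293 : Tr :=
 .n (.n (.n (.n (.n (.n (.p (nat_lit 0x11a0112012103) (nat_lit 0x8800500006) (nat_lit 17))
 (.p (nat_lit 0x2070616302) (nat_lit 0x421aa4395000400000600) (nat_lit 49)))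
 (.p (nat_lit 0x7ce07cc07c807c607c4338906) (nat_lit 0x4000048a10) (nat_lit 52)))
 (.n (.p (nat_lit 0x76d150d02) (nat_lit 0x440503) (nat_lit 15))
 (.p (nat_lit 0x25ac584b02) (nat_lit 0x340b2a) (nat_lit 29))))
 (.n (.n (.p (nat_lit 0x1e931bc902) (nat_lit 0x300900) (nat_lit 15))
 (.p (nat_lit 0x18b818b618b418b218b02da706) (nat_lit 0x1000005201e) (nat_lit 52)))
 (.n (.p (nat_lit 0x117511d02) (nat_lit 0x240906) (nat_lit 30))
 (.p (nat_lit 0x5c8f5e5102) (nat_lit 0x2e0000000700) (nat_lit 37)))))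
 (.n (.n (.n (.p (nat_lit 0x106e106c106610640dfb0df906) (nat_lit 0x6000010400) (nat_lit 51))
 (.p (nat_lit 0xa960a920a900a8e0a8c334306) (nat_lit 0x800000aa17) (nat_lit 52)))
 (.n (.p (nat_lit 0x43d643d243ce43cc0625062106) (nat_lit 0xa000086005) (nat_lit 51))
 (.p (nat_lit 0x3580356035203500369008706) (nat_lit 0x181401f) (nat_lit 26))))
 (.n (.n (.p (nat_lit 0x207e207c207a20782076205106) (nat_lit 0x10000054901) (nat_lit 51))
 (.p (nat_lit 0x259c121302) (nat_lit 0x140b23) (nat_lit 5)))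
 (.n (.p (nat_lit 0x67a06760674067206703b7306) (nat_lit 0x8000006b0a) (nat_lit 51))
 (.p (nat_lit 0x12a65f6102) (nat_lit 0x3aa570344000500000000) (nat_lit 50))))))
 (.n (.n (.n (.n (.p (nat_lit 0x94409420940093c0727071f06) (nat_lit 0x110000ca100) (nat_lit 52))
 (.p (nat_lit 0x12400be302) (nat_lit 0x40415) (nat_lit 5)))
 (.n (.p (nat_lit 0xe4e1e0502) (nat_lit 0x300304) (nat_lit 5))
 (.p (nat_lit 0x46658b702) (nat_lit 0x200501) (nat_lit 27))))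
 (.n (.n (.p (nat_lit 0x25c722c302) (nat_lit 0x450b00) (nat_lit 16))
 (.p (nat_lit 0x5e4115702) (nat_lit 0x200023) (nat_lit 5)))
 (.n (.p (nat_lit 0x216b1ea302) (nat_lit 0x500907) (nat_lit 15))
 (.p (nat_lit 0x5e9846e902) (nat_lit 0x20000a00) (nat_lit 48)))))
 (.n (.n (.n (.p (nat_lit 0x17f516b302) (nat_lit 0x152600) (nat_lit 16))
 (.p (nat_lit 0x74b073f02) (nat_lit 0x54a01c) (nat_lit 16)))
 (.n (.p (nat_lit 0xeb4a8b02) (nat_lit 0x440805) (nat_lit 30))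
 (.p (nat_lit 0x5cb50d1302) (nat_lit 0x80000000300) (nat_lit 40))))
 (.n (.n (.p (nat_lit 0x18121810180e180c180a21bf06) (nat_lit 0x1000000ea02) (nat_lit 52))
 (.p (nat_lit 0x10321030102e102a1028506d06) (nat_lit 0x2000084829) (nat_lit 51)))
 (.n (.p (nat_lit 0x1f0e1f0a1f061f04123d123906) (nat_lit 0xa0000d240e) (nat_lit 52))
 (.p (nat_lit 0x233a606502) (nat_lit 0x85ab0335000500000600) (nat_lit 49))))))

def c1024_805 : Tr :=
 .n (.n (.n (.n (.n (.n (.p (nat_lit 0x5420540053e053c04dd04db06) (nat_lit 0x180008c000) (nat_lit 52))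
 (.p (nat_lit 0x8f461e302) (nat_lit 0x3302a5895000100040000) (nat_lit 50)))
 (.p (nat_lit 0x211621122110210e210c47e106) (nat_lit 0x800000c413) (nat_lit 52)))
 (.n (.p (nat_lit 0x3b95246f02) (nat_lit 0x306b03) (nat_lit 16))
 (.p (nat_lit 0x3bae3a5702) (nat_lit 0x400b2d) (nat_lit 5))))
 (.n (.n (.p (nat_lit 0x22062204220222001ff51ff306) (nat_lit 0x1800042a00) (nat_lit 51))
 (.p (nat_lit 0x42423fe902) (nat_lit 0x500620) (nat_lit 4)))
 (.n (.p (nat_lit 0x12310f7102) (nat_lit 0x440307) (nat_lit 15))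
 (.p (nat_lit 0x5e72397902) (nat_lit 0x60042800) (nat_lit 48)))))
 (.n (.n (.n (.p (nat_lit 0x141814161412140e1223121f06) (nat_lit 0x50000c2500) (nat_lit 51))
 (.p (nat_lit 0x4f2d485702) (nat_lit 0x4c41a) (nat_lit 16)))
 (.n (.p (nat_lit 0x1692227902) (nat_lit 0x300605) (nat_lit 5))
 (.p (nat_lit 0x5d8f04cd02) (nat_lit 0x1e00a0000000) (nat_lit 38))))
 (.n (.n (.p (nat_lit 0xe3a2fbb02) (nat_lit 0x500302) (nat_lit 29))
 (.p (nat_lit 0x117411721170116c116a3bf306) (nat_lit 0x2000042b26) (nat_lit 51)))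
 (.n (.p (nat_lit 0x255c2556255425524dc94dc706) (nat_lit 0xc00001230d) (nat_lit 52))
 (.p (nat_lit 0x4c25fe702) (nat_lit 0x38ac60b44000000000000) (nat_lit 49))))))
 (.n (.n (.n (.n (.p (nat_lit 0xd280d260d200d1e0b350b3306) (nat_lit 0x6000000300) (nat_lit 52))
 (.p (nat_lit 0x546a54685466546454625460028c07) (nat_lit 0x815) (nat_lit 8)))
 (.n (.p (nat_lit 0x129c12981296129417fd17f906) (nat_lit 0x1400004a604) (nat_lit 52))
 (.p (nat_lit 0x43459fd02) (nat_lit 0x407) (nat_lit 27))))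
 (.n (.n (.p (nat_lit 0x2f2a7f02) (nat_lit 0x240501) (nat_lit 30))
 (.p (nat_lit 0xcaa102d02) (nat_lit 0x240223) (nat_lit 5)))
 (.n (.p (nat_lit 0x300e2d2f02) (nat_lit 0x200309) (nat_lit 5))
 (.p (nat_lit 0xbae5edb02) (nat_lit 0x4a9d22344000200040000) (nat_lit 49)))))
 (.n (.n (.n (.p (nat_lit 0x1b761b721b701b6e190318ff06) (nat_lit 0x1400008a800) (nat_lit 52))
 (.p (nat_lit 0x1d5d1a9102) (nat_lit 0x24071c) (nat_lit 15)))
 (.n (.p (nat_lit 0x196823d102) (nat_lit 0x200706) (nat_lit 4))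
 (.p (nat_lit 0x5e2610d102) (nat_lit 0x20002500) (nat_lit 48))))
 (.n (.n (.p (nat_lit 0x8ba1b0702) (nat_lit 0x100103) (nat_lit 5))
 (.p (nat_lit 0xe200e1e0e1c0e1a044e043f04350e230e1909) (nat_lit 0x280032a) (nat_lit 10)))
 (.n (.p (nat_lit 0x2021201502) (nat_lit 0x54690e) (nat_lit 16))
 (.p (nat_lit 0xe8260eb02) (nat_lit 0x340d623a4000300040000) (nat_lit 50))))))

def c512_293 : Tr := .n c1024_293 c1024_805

def c256_37 : Tr := .n c512_37 c512_293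

def c1024_165 : Tr :=
 .n (.n (.n (.n (.n (.n (.p (nat_lit 0xa1009b009403) (nat_lit 0x2a00003) (nat_lit 19))
 (.p (nat_lit 0x8f0614b02) (nat_lit 0x3b0221d84000100040000) (nat_lit 49)))
 (.p (nat_lit 0x31722dd502) (nat_lit 0x40410) (nat_lit 5)))
 (.n (.p (nat_lit 0x126c1cc502) (nat_lit 0x440403) (nat_lit 5))
 (.p (nat_lit 0x2044582b02) (nat_lit 0x54092a) (nat_lit 29))))
 (.n (.n (.p (nat_lit 0x1dc21dc01dbc1dba1bc91bc306) (nat_lit 0x4800000900) (nat_lit 52))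
 (.p (nat_lit 0x26c4289b02) (nat_lit 0x44001d) (nat_lit 5)))
 (.n (.p (nat_lit 0x248a2486248424801d9d1d9706) (nat_lit 0x90000d6806) (nat_lit 52))
 (.p (nat_lit 0x5e4428d102) (nat_lit 0x60000600) (nat_lit 47)))))
 (.n (.n (.n (.p (nat_lit 0xdf40fd502) (nat_lit 0x400) (nat_lit 4))
 (.p (nat_lit 0x2bf6285502) (nat_lit 0x140916) (nat_lit 5)))
 (.n (.p (nat_lit 0x25d425d225d025ce25ca00b725cd07) (nat_lit 0x140b04) (nat_lit 7))
 (.p (nat_lit 0x2fa5b3902) (nat_lit 0x400a15) (nat_lit 27))))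
 (.n (.n (.p (nat_lit 0x2bab1eeb02) (nat_lit 0x504901) (nat_lit 16))
 (.p (nat_lit 0x2041203502) (nat_lit 0x340923) (nat_lit 16)))
 (.n (.p (nat_lit 0x3a2a3a283a263a243a2238dd06) (nat_lit 0x1000000440a) (nat_lit 51))
 (.p (nat_lit 0x1ae05f3f02) (nat_lit 0x3a2560c64000200000600) (nat_lit 50))))))
 (.n (.n (.n (.n (.p (nat_lit 0x88105c102) (nat_lit 0x206100) (nat_lit 16))
 (.p (nat_lit 0x7be07bc07ba07b80733073106) (nat_lit 0x180000c6015) (nat_lit 52)))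
 (.n (.p (nat_lit 0x2ee0b8d02) (nat_lit 0x500204) (nat_lit 1))
 (.p (nat_lit 0x12da12d812d612d412d04a5706) (nat_lit 0x10000c472f) (nat_lit 51))))
 (.n (.n (.p (nat_lit 0x24ee24ec24ea24e622c522bd06) (nat_lit 0x110000c6b00) (nat_lit 52))
 (.p (nat_lit 0x397566902) (nat_lit 0x240522) (nat_lit 30)))
 (.n (.p (nat_lit 0x1bd0055f02) (nat_lit 0x100807) (nat_lit 4))
 (.p (nat_lit 0x5da31f0f02) (nat_lit 0xa00a0000900) (nat_lit 39)))))
 (.n (.n (.n (.p (nat_lit 0x173c173a1736173416b716b106) (nat_lit 0x480004a600) (nat_lit 52))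
 (.p (nat_lit 0x441705dd02) (nat_lit 0x41401c) (nat_lit 16)))
 (.n (.p (nat_lit 0x4a451ac502) (nat_lit 0x446705) (nat_lit 16))
 (.p (nat_lit 0x5d450a5702) (nat_lit 0x80060000200) (nat_lit 40))))
 (.n (.n (.p (nat_lit 0x1b841b821b801b7e1b7a205506) (nat_lit 0x100004c902) (nat_lit 51))
 (.p (nat_lit 0x4c104e5702) (nat_lit 0x200129) (nat_lit 4)))
 (.n (.p (nat_lit 0x1db61db41db21dae1dac10df06) (nat_lit 0x200001240e) (nat_lit 51))
 (.p (nat_lit 0x1546604702) (nat_lit 0x40a96254c800000000600) (nat_lit 50))))))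

def c1024_677 : Tr :=
 .n (.n (.n (.n (.n (.n (.p (nat_lit 0x4820480047e048704) (nat_lit 0xe00040002c) (nat_lit 17))
 (.p (nat_lit 0x114661c302) (nat_lit 0x3221a9c15000400040000) (nat_lit 50)))
 (.p (nat_lit 0x41fe53e502) (nat_lit 0x440512) (nat_lit 29)))
 (.n (.p (nat_lit 0x24722470246c246a2468008d246f07) (nat_lit 0x300b03) (nat_lit 7))
 (.p (nat_lit 0x346a3468346634643462365506) (nat_lit 0x100000c612d) (nat_lit 51))))
 (.n (.n (.p (nat_lit 0x214621422140213e1e951e8d06) (nat_lit 0x8800010a00) (nat_lit 51))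
 (.p (nat_lit 0x3c623fb502) (nat_lit 0x200020) (nat_lit 5)))
 (.n (.p (nat_lit 0xe190e0102) (nat_lit 0x8307) (nat_lit 16))
 (.p (nat_lit 0x5cd71c4902) (nat_lit 0x160020000800) (nat_lit 41)))))
 (.n (.n (.n (.p (nat_lit 0x12f212ec12ea12e810cb10c906) (nat_lit 0xc000086500) (nat_lit 51))
 (.p (nat_lit 0x42783ee702) (nat_lit 0x240619) (nat_lit 4)))
 (.n (.p (nat_lit 0x128247f302) (nat_lit 0x340405) (nat_lit 29))
 (.p (nat_lit 0x5ccb04d102) (nat_lit 0x220020000000) (nat_lit 40))))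
 (.n (.n (.p (nat_lit 0x2e882e862e842e820a0d0a0906) (nat_lit 0x28000d2102) (nat_lit 51))
 (.p (nat_lit 0x3df9364502) (nat_lit 0x354126) (nat_lit 16)))
 (.n (.p (nat_lit 0x484043db02) (nat_lit 0x14040c) (nat_lit 5))
 (.p (nat_lit 0x15425fcb02) (nat_lit 0x9582ec05800000000600) (nat_lit 50))))))
 (.n (.n (.n (.n (.p (nat_lit 0xc240c220c200c1e09d709cd06) (nat_lit 0x1080004e200) (nat_lit 52))
 (.p (nat_lit 0x17b80c1502) (nat_lit 0x140615) (nat_lit 4)))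
 (.n (.p (nat_lit 0x1adc1ada1ad81ad61ad4168b06) (nat_lit 0x10000010604) (nat_lit 52))
 (.p (nat_lit 0xec00ea00e400e200b9000706) (nat_lit 0x1310705) (nat_lit 26))))
 (.n (.n (.p (nat_lit 0x3da10fd02) (nat_lit 0x500401) (nat_lit 1))
 (.p (nat_lit 0x21d621d421d221d021cc09e706) (nat_lit 0x10000d4123) (nat_lit 52)))
 (.n (.p (nat_lit 0x2b922b902b8e2b8c2b8a016f2b8907) (nat_lit 0x908) (nat_lit 7))
 (.p (nat_lit 0x5d8d5ec102) (nat_lit 0x2000a0000b00) (nat_lit 37)))))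
 (.n (.n (.n (.p (nat_lit 0x1a67179d02) (nat_lit 0x540700) (nat_lit 15))
 (.p (nat_lit 0x16520ecf02) (nat_lit 0x10061c) (nat_lit 4)))
 (.n (.p (nat_lit 0x11d4e3d02) (nat_lit 0x500406) (nat_lit 30))
 (.p (nat_lit 0x5d5b5e1d02) (nat_lit 0x220080000400) (nat_lit 37))))
 (.n (.n (.p (nat_lit 0x15fa15f615f415f215f025bb06) (nat_lit 0x8000052b02) (nat_lit 52))
 (.p (nat_lit 0x4ca04c804c604c404c20cbd06) (nat_lit 0x1000004022a) (nat_lit 52)))
 (.n (.p (nat_lit 0x2381d4102) (nat_lit 0x4080e) (nat_lit 1))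
 (.p (nat_lit 0x8fa60cd02) (nat_lit 0x3502623b0000100040000) (nat_lit 50))))))

def c512_165 : Tr := .n c1024_165 c1024_677

def c1024_421 : Tr :=
 .n (.n (.n (.n (.n (.n (.p (nat_lit 0x22a0222023103) (nat_lit 0x8800500010) (nat_lit 17))
 (.p (nat_lit 0x8f0618502) (nat_lit 0x421a86b95000100040000) (nat_lit 49)))
 (.p (nat_lit 0x8c397902) (nat_lit 0x340411) (nat_lit 1)))
 (.n (.p (nat_lit 0x94009900af1b8f1cf505) (nat_lit 0x21c40603) (nat_lit 9))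
 (.p (nat_lit 0x2bca2ac702) (nat_lit 0x30092b) (nat_lit 4))))
 (.n (.n (.p (nat_lit 0x1f841f821f801f7c1d331d2b06) (nat_lit 0x11000048900) (nat_lit 51))
 (.p (nat_lit 0x34c834c634c434c234be035134c107) (nat_lit 0x10001f) (nat_lit 7)))
 (.n (.p (nat_lit 0x93a0938093609300b3f0b3d06) (nat_lit 0x300000a207) (nat_lit 52))
 (.p (nat_lit 0x5d3b198302) (nat_lit 0x120060000700) (nat_lit 41)))))
 (.n (.n (.n (.p (nat_lit 0xf660f640f5e0f5c001e000700050f630f6109) (nat_lit 0x1a40400) (nat_lit 10))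
 (.p (nat_lit 0x419339eb02) (nat_lit 0x14518) (nat_lit 16)))
 (.n (.p (nat_lit 0xa3b0a2f02) (nat_lit 0x14c105) (nat_lit 16))
 (.p (nat_lit 0x33c5bf302) (nat_lit 0x300224) (nat_lit 27))))
 (.n (.n (.p (nat_lit 0x2d2c5102) (nat_lit 0x140a01) (nat_lit 30))
 (.p (nat_lit 0x2b30574302) (nat_lit 0x300824) (nat_lit 29)))
 (.n (.p (nat_lit 0x4018401640144010400e01b1401307) (nat_lit 0x24030b) (nat_lit 7))
 (.p (nat_lit 0x15425f8302) (nat_lit 0x581a32b44000000000600) (nat_lit 50))))))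
 (.n (.n (.n (.n (.p (nat_lit 0x87a087808760874000c000300010873087109) (nat_lit 0x800200) (nat_lit 10))
 (.p (nat_lit 0xa4e0a4c0a4a0a480a44138d06) (nat_lit 0x1000004515) (nat_lit 52)))
 (.n (.p (nat_lit 0x127a127812761274127000b7127307) (nat_lit 0x140404) (nat_lit 7))
 (.p (nat_lit 0x5b590502) (nat_lit 0x100b02) (nat_lit 28))))
 (.n (.n (.p (nat_lit 0x271a2718271627142712271006) (nat_lit 0x12101) (nat_lit 52))
 (.p (nat_lit 0x12da12d612d412d212d0074906) (nat_lit 0x80000c4023) (nat_lit 51)))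
 (.n (.p (nat_lit 0x14151cd02) (nat_lit 0xb07) (nat_lit 30))
 (.p (nat_lit 0x5ea6469502) (nat_lit 0x8004aa00) (nat_lit 47)))))
 (.n (.n (.n (.p (nat_lit 0x18ea18e818e618e418e0162306) (nat_lit 0x1000016700) (nat_lit 51))
 (.p (nat_lit 0x28209db02) (nat_lit 0x14011c) (nat_lit 1)))
 (.n (.p (nat_lit 0x11b4b3902) (nat_lit 0x440006) (nat_lit 30))
 (.p (nat_lit 0x5e000b4d02) (nat_lit 0x6000a300) (nat_lit 48))))
 (.n (.n (.p (nat_lit 0x114411421140113e113c231b06) (nat_lit 0x8000c8a02) (nat_lit 52))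
 (.p (nat_lit 0xb57089902) (nat_lit 0x20012a) (nat_lit 15)))
 (.n (.p (nat_lit 0x14d214d014cc14ca14c801ed14cf07) (nat_lit 0x34050e) (nat_lit 7))
 (.p (nat_lit 0x1980608302) (nat_lit 0x344380a64000100040600) (nat_lit 50))))))

def c1024_933 : Tr :=
 .n (.n (.n (.n (.n (.p (nat_lit 0x67a0678067406720670065306) (nat_lit 0x4000046000) (nat_lit 51))
 (.p (nat_lit 0x4d244d224d204d1e4d1c4e2706) (nat_lit 0x80004a314) (nat_lit 51)))
 (.n (.p (nat_lit 0x3bc725c702) (nat_lit 0x440b03) (nat_lit 16))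
 (.p (nat_lit 0x4258415902) (nat_lit 0x40062e) (nat_lit 4))))
 (.n (.n (.p (nat_lit 0x22ff1ffb02) (nat_lit 0x448a00) (nat_lit 16))
 (.p (nat_lit 0x4414471102) (nat_lit 0x300021) (nat_lit 5)))
 (.n (.p (nat_lit 0x1228052302) (nat_lit 0x40407) (nat_lit 5))
 (.p (nat_lit 0x5d811adf02) (nat_lit 0x2c00a0000800) (nat_lit 38)))))
 (.n (.n (.n (.p (nat_lit 0x1517122302) (nat_lit 0x352500) (nat_lit 16))
 (.p (nat_lit 0x4b144ca302) (nat_lit 0x20001b) (nat_lit 5)))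
 (.n (.p (nat_lit 0x49b117ff02) (nat_lit 0x40605) (nat_lit 16))
 (.p (nat_lit 0x5d4507a702) (nat_lit 0x80060000100) (nat_lit 40))))
 (.n (.n (.p (nat_lit 0x126019f902) (nat_lit 0x440402) (nat_lit 5))
 (.p (nat_lit 0x1198119611941190118e424906) (nat_lit 0x2000084627) (nat_lit 52)))
 (.n (.p (nat_lit 0x50e84b7902) (nat_lit 0x40090d) (nat_lit 4))
 (.p (nat_lit 0x1536600b02) (nat_lit 0x405aa2354800000000600) (nat_lit 49))))))
 (.n (.n (.n (.n (.p (nat_lit 0xe0f0b3102) (nat_lit 0x102300) (nat_lit 16))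
 (.p (nat_lit 0x22e1201902) (nat_lit 0x140915) (nat_lit 15)))
 (.n (.p (nat_lit 0x1b181b141b121b101957195306) (nat_lit 0x14000082704) (nat_lit 51))
 (.p (nat_lit 0x1a25a6302) (nat_lit 0x50070b) (nat_lit 27))))
 (.n (.n (.p (nat_lit 0x1a4c1a4a1a481a461a441c2106) (nat_lit 0x10000016801) (nat_lit 52))
 (.p (nat_lit 0x17d256d502) (nat_lit 0x240623) (nat_lit 29)))
 (.n (.p (nat_lit 0x3448344434423440343e32db06) (nat_lit 0x8000044909) (nat_lit 52))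
 (.p (nat_lit 0x11425ef702) (nat_lit 0x3a2530344000400040000) (nat_lit 49)))))
 (.n (.n (.n (.p (nat_lit 0x1c471c3b02) (nat_lit 0x40800) (nat_lit 34))
 (.p (nat_lit 0x1ec0556d02) (nat_lit 0x20091c) (nat_lit 29)))
 (.n (.p (nat_lit 0x1d9f1ad302) (nat_lit 0x540706) (nat_lit 15))
 (.p (nat_lit 0x5e30507d02) (nat_lit 0x80016500) (nat_lit 48))))
 (.n (.n (.p (nat_lit 0xb76365702) (nat_lit 0x203) (nat_lit 29))
 (.p (nat_lit 0x16721670166c166a1668043b166f07) (nat_lit 0x30062a) (nat_lit 7)))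
 (.n (.p (nat_lit 0x2580257e257c257a01f601e901e72579257709) (nat_lit 0x840b0e) (nat_lit 10))
 (.p (nat_lit 0x13fc610d02) (nat_lit 0x3425219b0000500040000) (nat_lit 50))))))

def c512_421 : Tr := .n c1024_421 c1024_933

def c256_165 : Tr := .n c512_165 c512_421

def c128_37 : Tr := .n c256_37 c256_165

def c1024_101 : Tr :=
 .n (.n (.n (.n (.n (.n (.p (nat_lit 0x620060006703) (nat_lit 0x18000500002) (nat_lit 17))
 (.p (nat_lit 0x1976613702) (nat_lit 0x3503a0d64000100040600) (nat_lit 49)))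
 (.p (nat_lit 0x920091e091c091a09182bf306) (nat_lit 0x1000004890f) (nat_lit 51)))
 (.n (.p (nat_lit 0x11101cb702) (nat_lit 0x300403) (nat_lit 5))
 (.p (nat_lit 0x3a383a323a303a2e1d791d7706) (nat_lit 0xc0000c482a) (nat_lit 52))))
 (.n (.n (.p (nat_lit 0x1d571a6702) (nat_lit 0x544800) (nat_lit 16))
 (.p (nat_lit 0x2440243e243c243a24380311244307) (nat_lit 0x500b1c) (nat_lit 7)))
 (.n (.p (nat_lit 0x12aa12a812a612a412a01d9706) (nat_lit 0x100004a806) (nat_lit 51))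
 (.p (nat_lit 0x5cfd153902) (nat_lit 0x200040000600) (nat_lit 38)))))
 (.n (.n (.n (.p (nat_lit 0xf4c0f4a0f480f440c990c9106) (nat_lit 0x11000056300) (nat_lit 51))
 (.p (nat_lit 0x2ae8283f02) (nat_lit 0x240516) (nat_lit 4)))
 (.n (.p (nat_lit 0x247e247a2476247400d800bd00b9247d247909) (nat_lit 0x2200b04) (nat_lit 10))
 (.p (nat_lit 0x2895b0302) (nat_lit 0x400015) (nat_lit 28))))
 (.n (.n (.p (nat_lit 0xfde0fdc0fda0fd80fd41ee306) (nat_lit 0x1000008901) (nat_lit 52))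
 (.p (nat_lit 0x1ecc11df02) (nat_lit 0x200923) (nat_lit 4)))
 (.n (.p (nat_lit 0x1bb21bb01bae1bac1baa37dd06) (nat_lit 0x1000001630a) (nat_lit 52))
 (.p (nat_lit 0x20725f3302) (nat_lit 0x3aa560c44000400000600) (nat_lit 49))))))
 (.n (.n (.n (.n (.p (nat_lit 0x7ce07cc07ca07c807c607c406) (nat_lit 0x8100) (nat_lit 52))
 (.p (nat_lit 0x82a082808260824082205c906) (nat_lit 0x800090015) (nat_lit 52)))
 (.n (.p (nat_lit 0xa283d8502) (nat_lit 0x440104) (nat_lit 29))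
 (.p (nat_lit 0x476c491d02) (nat_lit 0x54032f) (nat_lit 4))))
 (.n (.n (.p (nat_lit 0x247b215b02) (nat_lit 0x312b00) (nat_lit 16))
 (.p (nat_lit 0x4b8c4df302) (nat_lit 0x440022) (nat_lit 4)))
 (.n (.p (nat_lit 0x2d402d3e2d3a2d382d36190b06) (nat_lit 0x4000086707) (nat_lit 52))
 (.p (nat_lit 0x5d1f1da702) (nat_lit 0x2e0060000900) (nat_lit 38)))))
 (.n (.n (.n (.p (nat_lit 0x16b2169b02) (nat_lit 0x140600) (nat_lit 4))
 (.p (nat_lit 0x16a0169e169c169a169805df06) (nat_lit 0x1000008c01c) (nat_lit 52)))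
 (.n (.p (nat_lit 0x13f413f213f013ee13ec1abd06) (nat_lit 0x8000ca705) (nat_lit 52))
 (.p (nat_lit 0x5cd90bb502) (nat_lit 0x140020000200) (nat_lit 41))))
 (.n (.n (.p (nat_lit 0x21bd1ef502) (nat_lit 0x400902) (nat_lit 15))
 (.p (nat_lit 0x499647b502) (nat_lit 0x500628) (nat_lit 4)))
 (.n (.p (nat_lit 0x79e079a0798079410e310dd06) (nat_lit 0x900000240e) (nat_lit 52))
 (.p (nat_lit 0x207a603502) (nat_lit 0x4099a2335000400000600) (nat_lit 50))))))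

def c1024_613 : Tr :=
 .n (.n (.n (.n (.n (.n (.p (nat_lit 0x3cb03bf03ae03) (nat_lit 0x62100023) (nat_lit 19))
 (.p (nat_lit 0x114261b302) (nat_lit 0x522266c0d000400040000) (nat_lit 49)))
 (.p (nat_lit 0x41063da302) (nat_lit 0x340412) (nat_lit 4)))
 (.n (.p (nat_lit 0xbc232f02) (nat_lit 0x440a03) (nat_lit 1))
 (.p (nat_lit 0x12f212f012ee12ec12e8336106) (nat_lit 0x1000086a2c) (nat_lit 51))))
 (.n (.n (.p (nat_lit 0x20de20dc20d620d41e931e9106) (nat_lit 0x6000086a00) (nat_lit 51))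
 (.p (nat_lit 0xe9a0e980e960e940e903b9106) (nat_lit 0x1000080b1f) (nat_lit 52)))
 (.n (.p (nat_lit 0xfde0fdc0fd80fd60fd40e0706) (nat_lit 0x4000008307) (nat_lit 52))
 (.p (nat_lit 0x5cb31c4702) (nat_lit 0xa0000000800) (nat_lit 41)))))
 (.n (.n (.n (.p (nat_lit 0x12b612b412b012ae12ac10c906) (nat_lit 0x4000002500) (nat_lit 52))
 (.p (nat_lit 0x420c420a42064204420202eb420907) (nat_lit 0x340519) (nat_lit 7)))
 (.n (.p (nat_lit 0x12810fc102) (nat_lit 0x240305) (nat_lit 15))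
 (.p (nat_lit 0x5ca704c302) (nat_lit 0x160000000000) (nat_lit 38))))
 (.n (.n (.p (nat_lit 0x22208ad02) (nat_lit 0x102) (nat_lit 1))
 (.p (nat_lit 0x35c8388b02) (nat_lit 0x400126) (nat_lit 4)))
 (.n (.p (nat_lit 0x46ea444102) (nat_lit 0x20030c) (nat_lit 5))
 (.p (nat_lit 0x207a5fbf02) (nat_lit 0x89832955800400000600) (nat_lit 50))))))
 (.n (.n (.n (.n (.p (nat_lit 0xbd40bd20bd00bce0bcc0bca06) (nat_lit 0xc0200) (nat_lit 52))
 (.p (nat_lit 0x14e514d902) (nat_lit 0x248515) (nat_lit 16)))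
 (.n (.p (nat_lit 0x4d804d404d004ce1689168506) (nat_lit 0xa000000604) (nat_lit 51))
 (.p (nat_lit 0xec00ea00e400e2000702f706) (nat_lit 0x1a0e205) (nat_lit 26))))
 (.n (.n (.p (nat_lit 0x10fb0e2d02) (nat_lit 0x400301) (nat_lit 15))
 (.p (nat_lit 0x79e079c079a0798079409e706) (nat_lit 0x1000042123) (nat_lit 52)))
 (.n (.p (nat_lit 0x2aca2ac62ac42ac22ac02a0506) (nat_lit 0x8000052408) (nat_lit 52))
 (.p (nat_lit 0x5d7b234702) (nat_lit 0x20080000b00) (nat_lit 40)))))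
 (.n (.n (.n (.p (nat_lit 0x1a281a261a241a221a20179d06) (nat_lit 0x100000d2700) (nat_lit 51))
 (.p (nat_lit 0x14e814e614e414e214e0031114eb07) (nat_lit 0x54051c) (nat_lit 7)))
 (.n (.p (nat_lit 0xfca24e902) (nat_lit 0x140306) (nat_lit 4))
 (.p (nat_lit 0x5d450fdb02) (nat_lit 0x80060000400) (nat_lit 38))))
 (.n (.n (.p (nat_lit 0x246b245f02) (nat_lit 0x112b02) (nat_lit 16))
 (.p (nat_lit 0x1c421c401c3e1c3c1c3a0b5d06) (nat_lit 0x1000009022a) (nat_lit 52)))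
 (.n (.p (nat_lit 0x1a8b1a7f02) (nat_lit 0x54670e) (nat_lit 16))
 (.p (nat_lit 0x21cc60af02) (nat_lit 0x344589ca4000400040600) (nat_lit 49))))))

def c512_101 : Tr := .n c1024_101 c1024_613

def c1024_357 : Tr :=
 .n (.n (.n (.n (.n (.n (.p (nat_lit 0x17401720170017b04) (nat_lit 0x7000400008) (nat_lit 17))
 (.p (nat_lit 0x1548617502) (nat_lit 0x521a86b11000000000600) (nat_lit 50)))
 (.p (nat_lit 0x38e0357702) (nat_lit 0x100411) (nat_lit 4)))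
 (.n (.p (nat_lit 0x1a2a1a261a241a20167d167706) (nat_lit 0x9000092603) (nat_lit 51))
 (.p (nat_lit 0x176c1768176617641762288706) (nat_lit 0x800005222b) (nat_lit 51))))
 (.n (.n (.p (nat_lit 0x1d321d301d2e1d2c1d2800031d2b07) (nat_lit 0x140900) (nat_lit 7))
 (.p (nat_lit 0x3350307102) (nat_lit 0x500a1e) (nat_lit 5)))
 (.n (.p (nat_lit 0x513a51385136513451325130014c07) (nat_lit 0x207) (nat_lit 8))
 (.p (nat_lit 0x5e56317502) (nat_lit 0x20042700) (nat_lit 48)))))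
 (.n (.n (.n (.p (nat_lit 0x10f70df902) (nat_lit 0x20c400) (nat_lit 16))
 (.p (nat_lit 0x354036e902) (nat_lit 0x240018) (nat_lit 4)))
 (.n (.p (nat_lit 0x78f078302) (nat_lit 0x34c005) (nat_lit 16))
 (.p (nat_lit 0x39c039a039803920389030906) (nat_lit 0x1112822) (nat_lit 26))))
 (.n (.n (.p (nat_lit 0x21b221ae21ac21aa21a8003321b107) (nat_lit 0x400a01) (nat_lit 7))
 (.p (nat_lit 0x273c273a27382736273403db273f07) (nat_lit 0x500124) (nat_lit 7)))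
 (.n (.p (nat_lit 0x3e6a526b02) (nat_lit 0x10020b) (nat_lit 29))
 (.p (nat_lit 0x23405f7302) (nat_lit 0x1aa074b50000500000600) (nat_lit 50))))))
 (.n (.n (.n (.n (.p (nat_lit 0xa11072502) (nat_lit 0x44e100) (nat_lit 16))
 (.p (nat_lit 0xeb20eb00eaa0ea81247124506) (nat_lit 0x60000c2415) (nat_lit 52)))
 (.n (.p (nat_lit 0x12770fb702) (nat_lit 0x340304) (nat_lit 15))
 (.p (nat_lit 0x620060005c005a0007018506) (nat_lit 0x1814002) (nat_lit 26))))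
 (.n (.n (.p (nat_lit 0x2f264d02) (nat_lit 0x240001) (nat_lit 30))
 (.p (nat_lit 0x147614741470146e146c05e706) (nat_lit 0x4000010023) (nat_lit 52)))
 (.n (.p (nat_lit 0x443a4438443644344432216106) (nat_lit 0x800084a07) (nat_lit 51))
 (.p (nat_lit 0x5ea248c302) (nat_lit 0x60004a00) (nat_lit 47)))))
 (.n (.n (.n (.p (nat_lit 0x18721870186a18681627162506) (nat_lit 0x6000006700) (nat_lit 52))
 (.p (nat_lit 0xa720a6e0a6c0a6a0a68088506) (nat_lit 0x800008011c) (nat_lit 51)))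
 (.n (.p (nat_lit 0x4a971d8902) (nat_lit 0x44805) (nat_lit 16))
 (.p (nat_lit 0x5d130d1702) (nat_lit 0xa0040000300) (nat_lit 40))))
 (.n (.n (.p (nat_lit 0x232423222320231e231c0059231b07) (nat_lit 0x40a02) (nat_lit 7))
 (.p (nat_lit 0x89a12b302) (nat_lit 0x30012a) (nat_lit 4)))
 (.n (.p (nat_lit 0x1ed52e702) (nat_lit 0x30050e) (nat_lit 30))
 (.p (nat_lit 0x64a607502) (nat_lit 0x4688ae154000000040000) (nat_lit 50))))))

def c1024_869 : Tr :=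
 .n (.n (.n (.n (.n (.n (.p (nat_lit 0x60f04e502) (nat_lit 0x510000) (nat_lit 16))
 (.p (nat_lit 0xbba61f102) (nat_lit 0x382a31d05000200040000) (nat_lit 50)))
 (.p (nat_lit 0x49dc44e702) (nat_lit 0x400713) (nat_lit 4)))
 (.n (.p (nat_lit 0xd100d0e0d0a0d080d0625c506) (nat_lit 0x4000046b03) (nat_lit 52))
 (.p (nat_lit 0x1fb41fb21fb01fae1faa3e8106) (nat_lit 0x100000c22e) (nat_lit 51))))
 (.n (.n (.p (nat_lit 0x22a0229e229c229a22961ff506) (nat_lit 0x10000cea00) (nat_lit 52))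
 (.p (nat_lit 0x42de42da42d842d642d4036b42dd07) (nat_lit 0x400720) (nat_lit 7)))
 (.n (.p (nat_lit 0x14e015b0157051f069105) (nat_lit 0x44400407) (nat_lit 9))
 (.p (nat_lit 0x5d515e7702) (nat_lit 0x2c0080000800) (nat_lit 36)))))
 (.n (.n (.n (.p (nat_lit 0x14821480147c14781223121f06) (nat_lit 0x50000d0500) (nat_lit 52))
 (.p (nat_lit 0x2f754e902) (nat_lit 0x20061a) (nat_lit 30)))
 (.n (.p (nat_lit 0x4983168f02) (nat_lit 0x104605) (nat_lit 16))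
 (.p (nat_lit 0x5cd5079702) (nat_lit 0x180020000100) (nat_lit 38))))
 (.n (.n (.p (nat_lit 0x305a3058305630543052305006) (nat_lit 0xc2302) (nat_lit 52))
 (.p (nat_lit 0x1dc21dc01dbe1dba1db83df706) (nat_lit 0x2000040127) (nat_lit 52)))
 (.n (.p (nat_lit 0x500252b702) (nat_lit 0x34070d) (nat_lit 29))
 (.p (nat_lit 0x154a5ff702) (nat_lit 0x386a81c35000000000600) (nat_lit 50))))))
 (.n (.n (.n (.n (.p (nat_lit 0xd640d5e0d5c0d5a0b370b3506) (nat_lit 0xc00008a300) (nat_lit 52))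
 (.p (nat_lit 0x1d5f1d5302) (nat_lit 0x348815) (nat_lit 16)))
 (.n (.p (nat_lit 0x428b17fd02) (nat_lit 0x546604) (nat_lit 16))
 (.p (nat_lit 0x1895a4102) (nat_lit 0x200409) (nat_lit 28))))
 (.n (.n (.p (nat_lit 0x1c1c175102) (nat_lit 0x300801) (nat_lit 5))
 (.p (nat_lit 0xcbd0cb102) (nat_lit 0x540223) (nat_lit 16)))
 (.n (.p (nat_lit 0x18f418f218f018ee18ec309506) (nat_lit 0x100000d6309) (nat_lit 51))
 (.p (nat_lit 0x1aea5eeb02) (nat_lit 0x4a8876344000200000600) (nat_lit 50)))))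
 (.n (.n (.n (.p (nat_lit 0x1bc518fb02) (nat_lit 0x100800) (nat_lit 15))
 (.p (nat_lit 0x1d580f0902) (nat_lit 0x4081c) (nat_lit 4)))
 (.n (.p (nat_lit 0x1ac84ff302) (nat_lit 0x40706) (nat_lit 29))
 (.p (nat_lit 0x5d335e2f02) (nat_lit 0x1a0060000500) (nat_lit 37))))
 (.n (.n (.p (nat_lit 0x8b35db02) (nat_lit 0x240103) (nat_lit 30))
 (.p (nat_lit 0xf88144702) (nat_lit 0x44032a) (nat_lit 4)))
 (.n (.p (nat_lit 0x1e7535902) (nat_lit 0xb0e) (nat_lit 30))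
 (.p (nat_lit 0x181c60f702) (nat_lit 0x440d663a4000100000600) (nat_lit 50))))))

def c512_357 : Tr := .n c1024_357 c1024_869

def c256_101 : Tr := .n c512_101 c512_357

def c1024_229 : Tr :=
 .n (.n (.n (.n (.n (.n (.p (nat_lit 0xdf00d500cd00c404) (nat_lit 0xac800004) (nat_lit 20))
 (.p (nat_lit 0xbb6615702) (nat_lit 0x1503a8895800200040000) (nat_lit 50)))
 (.p (nat_lit 0x227539902) (nat_lit 0x200910) (nat_lit 30)))
 (.n (.p (nat_lit 0x13c41b6d02) (nat_lit 0x500503) (nat_lit 4))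
 (.p (nat_lit 0x2302135b02) (nat_lit 0x40a2a) (nat_lit 5))))
 (.n (.n (.p (nat_lit 0x1e4c1e481e461e441bcd1bc906) (nat_lit 0x1400000c900) (nat_lit 52))
 (.p (nat_lit 0x2c0228b702) (nat_lit 0x14091d) (nat_lit 4)))
 (.n (.p (nat_lit 0x20d220d020cc20c81eff1efb06) (nat_lit 0x5000006906) (nat_lit 51))
 (.p (nat_lit 0x5d9316a302) (nat_lit 0x1a00a0000600) (nat_lit 39)))))
 (.n (.n (.n (.p (nat_lit 0x10000ffe0ffa0ff80dff0df906) (nat_lit 0x12000080400) (nat_lit 52))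
 (.p (nat_lit 0x60328102) (nat_lit 0x440517) (nat_lit 1)))
 (.n (.p (nat_lit 0x214621442140213e213c25d106) (nat_lit 0x4000050b04) (nat_lit 51))
 (.p (nat_lit 0x30e030c030803060285000b06) (nat_lit 0x150201c) (nat_lit 26))))
 (.n (.n (.p (nat_lit 0xa4e0a4c0a4a0a480a46204706) (nat_lit 0x800044901) (nat_lit 52))
 (.p (nat_lit 0x2444572502) (nat_lit 0xb23) (nat_lit 29)))
 (.n (.p (nat_lit 0x3ac4525102) (nat_lit 0x4060a) (nat_lit 29))
 (.p (nat_lit 0x1ae05f5702) (nat_lit 0x1aa522350000200000600) (nat_lit 50))))))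
 (.n (.n (.n (.n (.p (nat_lit 0x72408fd02) (nat_lit 0x440100) (nat_lit 5))
 (.p (nat_lit 0x31010f102) (nat_lit 0x500415) (nat_lit 1)))
 (.n (.p (nat_lit 0x2ee0ced02) (nat_lit 0x540204) (nat_lit 1))
 (.p (nat_lit 0x50ce4f9b02) (nat_lit 0x340830) (nat_lit 4))))
 (.n (.n (.p (nat_lit 0x255a25562554255222c522c106) (nat_lit 0x14000052b00) (nat_lit 52))
 (.p (nat_lit 0xd400d3e0d3a0d380d36506306) (nat_lit 0x4000002822) (nat_lit 51)))
 (.n (.p (nat_lit 0x503b1bd102) (nat_lit 0x116807) (nat_lit 16))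
 (.p (nat_lit 0x5c9321d902) (nat_lit 0x2a0000000a00) (nat_lit 41)))))
 (.n (.n (.n (.p (nat_lit 0x178417821780177e177a16b306) (nat_lit 0x1000054600) (nat_lit 52))
 (.p (nat_lit 0x154a1548154615441540073706) (nat_lit 0x100004c01c) (nat_lit 51)))
 (.n (.p (nat_lit 0x1f781f761f741f701c2d1c2506) (nat_lit 0x11000086805) (nat_lit 52))
 (.p (nat_lit 0x5d5b5def02) (nat_lit 0x220080000200) (nat_lit 36))))
 (.n (.n (.p (nat_lit 0x21be21bc21b821b621b4005f21bb07) (nat_lit 0x300a02) (nat_lit 7))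
 (.p (nat_lit 0x4d46578702) (nat_lit 0x140229) (nat_lit 29)))
 (.n (.p (nat_lit 0x64a0646064406420640123d06) (nat_lit 0x80000c040e) (nat_lit 51))
 (.p (nat_lit 0xa46605502) (nat_lit 0x5858b0b44000200000000) (nat_lit 49))))))

def c1024_741 : Tr :=
 .n (.n (.n (.n (.n (.n (.p (nat_lit 0x4fc04fa04f804f404f204df06) (nat_lit 0x2000084000) (nat_lit 52))
 (.p (nat_lit 0x12ab12990fe10fdd0d150d0d0a550a4f07a9079504d504c561d20d) (nat_lit 0x54216ac0c800000000000) (nat_lit 33)))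
 (.p (nat_lit 0x42c03dd702) (nat_lit 0x200712) (nat_lit 5)))
 (.n (.p (nat_lit 0x153e153c153a15381534246b06) (nat_lit 0x100000cb03) (nat_lit 52))
 (.p (nat_lit 0x1d021d001cfe1cfa1cf8375f06) (nat_lit 0x200005422d) (nat_lit 51))))
 (.n (.n (.p (nat_lit 0x21af1e9302) (nat_lit 0x30ca00) (nat_lit 16))
 (.p (nat_lit 0x3de655ed02) (nat_lit 0x40120) (nat_lit 29)))
 (.n (.p (nat_lit 0xd0e0d0c0d0a0d080d060f7306) (nat_lit 0x10000046307) (nat_lit 52))
 (.p (nat_lit 0x5cf95e6f02) (nat_lit 0x240040000800) (nat_lit 36)))))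
 (.n (.n (.n (.p (nat_lit 0x13b510c902) (nat_lit 0x30e500) (nat_lit 16))
 (.p (nat_lit 0x437a3f0302) (nat_lit 0x40b19) (nat_lit 4)))
 (.n (.p (nat_lit 0xe348d502) (nat_lit 0x40505) (nat_lit 30))
 (.p (nat_lit 0x5d3504c902) (nat_lit 0x180060000000) (nat_lit 38))))
 (.n (.n (.p (nat_lit 0xcd019c902) (nat_lit 0x340202) (nat_lit 5))
 (.p (nat_lit 0x3b4e38b702) (nat_lit 0x440a26) (nat_lit 4)))
 (.n (.p (nat_lit 0x4a2043ff02) (nat_lit 0x44070c) (nat_lit 4))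
 (.p (nat_lit 0xa505fd502) (nat_lit 0x382c60b44000200000000) (nat_lit 50))))))
 (.n (.n (.n (.n (.p (nat_lit 0xcdf09d502) (nat_lit 0x450200) (nat_lit 16))
 (.p (nat_lit 0x2ef82ef62ef42ef22ef0192706) (nat_lit 0x1000008a715) (nat_lit 51)))
 (.n (.p (nat_lit 0x17f81fbd02) (nat_lit 0x340604) (nat_lit 4))
 (.p (nat_lit 0x59d859d659d459d259ce040b011e07) (nat_lit 0x112406) (nat_lit 25))))
 (.n (.n (.p (nat_lit 0x128d125102) (nat_lit 0x254401) (nat_lit 16))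
 (.p (nat_lit 0xb50102702) (nat_lit 0x500223) (nat_lit 5)))
 (.n (.p (nat_lit 0x4b044b024b004afe4afc2c5b06) (nat_lit 0x8000d0a08) (nat_lit 52))
 (.p (nat_lit 0x15345ed102) (nat_lit 0x4a1a22344000000000600) (nat_lit 49)))))
 (.n (.n (.n (.p (nat_lit 0x18fe1ae702) (nat_lit 0x300800) (nat_lit 5))
 (.p (nat_lit 0x30b553d02) (nat_lit 0x20071c) (nat_lit 30)))
 (.n (.p (nat_lit 0x152d128d02) (nat_lit 0x240406) (nat_lit 15))
 (.p (nat_lit 0x5cbd129502) (nat_lit 0x500) (nat_lit 38))))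
 (.n (.n (.p (nat_lit 0x7641c5f02) (nat_lit 0x40003) (nat_lit 4))
 (.p (nat_lit 0x1f181f161f141f121f100cbd06) (nat_lit 0x100000d222a) (nat_lit 51)))
 (.n (.p (nat_lit 0x1eaa083302) (nat_lit 0x30090e) (nat_lit 4))
 (.p (nat_lit 0xe7c60d702) (nat_lit 0x354a623b0000300040000) (nat_lit 50))))))

def c512_229 : Tr := .n c1024_229 c1024_741

def c1024_485 : Tr :=
 .n (.n (.n (.n (.n (.n (.p (nat_lit 0x2e302df02da03) (nat_lit 0xa1000018) (nat_lit 19))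
 (.p (nat_lit 0x64a619902) (nat_lit 0x3422a5c14800000040000) (nat_lit 50)))
 (.p (nat_lit 0x2523af302) (nat_lit 0x200a11) (nat_lit 1)))
 (.n (.p (nat_lit 0x17f917ed02) (nat_lit 0x354603) (nat_lit 16))
 (.p (nat_lit 0x2f44319d02) (nat_lit 0x50022c) (nat_lit 4))))
 (.n (.n (.p (nat_lit 0x1fe41fe21fe01fdc1d2d1d2906) (nat_lit 0x2800056900) (nat_lit 51))
 (.p (nat_lit 0x35ba380d02) (nat_lit 0x10011f) (nat_lit 4)))
 (.n (.p (nat_lit 0xca004f902) (nat_lit 0x340207) (nat_lit 4))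
 (.p (nat_lit 0x5d6f181f02) (nat_lit 0xe0080000700) (nat_lit 40)))))
 (.n (.n (.n (.p (nat_lit 0x119411921190118e0f670f6506) (nat_lit 0x180000c4400) (nat_lit 52))
 (.p (nat_lit 0x3f0a3f083f063f043b053afb06) (nat_lit 0x10800096a18) (nat_lit 52)))
 (.n (.p (nat_lit 0xcf4222702) (nat_lit 0x340205) (nat_lit 4))
 (.p (nat_lit 0x43e043c04360434047f000706) (nat_lit 0x130e22a) (nat_lit 26))))
 (.n (.n (.p (nat_lit 0x2c81231902) (nat_lit 0x548a01) (nat_lit 16))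
 (.p (nat_lit 0x355f2db102) (nat_lit 0x552025) (nat_lit 16)))
 (.n (.p (nat_lit 0x42b3421702) (nat_lit 0x10060b) (nat_lit 15))
 (.p (nat_lit 0x7985f9302) (nat_lit 0x580bb0344000100000000) (nat_lit 49))))))
 (.n (.n (.n (.n (.p (nat_lit 0xaa20a9e0a9c0a9a0a98087906) (nat_lit 0x800008a200) (nat_lit 51))
 (.p (nat_lit 0x21e221e021dc21da21d8139106) (nat_lit 0x4000094515) (nat_lit 51)))
 (.n (.p (nat_lit 0xb7411902) (nat_lit 0x100504) (nat_lit 30))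
 (.p (nat_lit 0x3f0593702) (nat_lit 0x200403) (nat_lit 27))))
 (.n (.n (.p (nat_lit 0xa430a0702) (nat_lit 0x554101) (nat_lit 16))
 (.p (nat_lit 0xa4e0a4c0a4a0a480a44088b06) (nat_lit 0x1000004123) (nat_lit 52)))
 (.n (.p (nat_lit 0x257251e102) (nat_lit 0x440b07) (nat_lit 29))
 (.p (nat_lit 0x5ce5233502) (nat_lit 0x80020000b00) (nat_lit 38)))))
 (.n (.n (.n (.p (nat_lit 0x1949162902) (nat_lit 0x40a700) (nat_lit 16))
 (.p (nat_lit 0x9ed09e102) (nat_lit 0x44a11c) (nat_lit 16)))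
 (.n (.p (nat_lit 0xa384c2102) (nat_lit 0x40106) (nat_lit 29))
 (.p (nat_lit 0x5d9b0d1d02) (nat_lit 0x1200a0000300) (nat_lit 40))))
 (.n (.n (.p (nat_lit 0x249624922490248e248c232306) (nat_lit 0x80000d6a02) (nat_lit 51))
 (.p (nat_lit 0x67a067606740672067009f906) (nat_lit 0x800004612a) (nat_lit 51)))
 (.n (.p (nat_lit 0x326f14cb02) (nat_lit 0x14e50e) (nat_lit 16))
 (.p (nat_lit 0x1ada609302) (nat_lit 0x356221ca4000200000600) (nat_lit 49))))))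

def c1024_997 : Tr :=
 .n (.n (.n (.n (.n (.p (nat_lit 0x70e070c070a0708064f064d06) (nat_lit 0x1800056000) (nat_lit 52))
 (.p (nat_lit 0x4b4e4b4a4b484b464b444fa906) (nat_lit 0x80000c6514) (nat_lit 52)))
 (.n (.p (nat_lit 0x3c4a3c463c443c420619061106) (nat_lit 0x880000e004) (nat_lit 52))
 (.p (nat_lit 0x4354417702) (nat_lit 0x300b2e) (nat_lit 4))))
 (.n (.n (.p (nat_lit 0x2378237623722370236e215b06) (nat_lit 0x4000082b00) (nat_lit 52))
 (.p (nat_lit 0x458246c302) (nat_lit 0x340121) (nat_lit 5)))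
 (.n (.p (nat_lit 0x12ce12cc12c812c612c4122f06) (nat_lit 0x4000044407) (nat_lit 52))
 (.p (nat_lit 0x5cdb5e8502) (nat_lit 0x120020000900) (nat_lit 37)))))
 (.n (.n (.n (.p (nat_lit 0x15d615d415d215cc1551154f06) (nat_lit 0x300008a600) (nat_lit 51))
 (.p (nat_lit 0x50144d3302) (nat_lit 0x4071b) (nat_lit 4)))
 (.n (.p (nat_lit 0x154a1546154415421540196106) (nat_lit 0x800000c705) (nat_lit 51))
 (.p (nat_lit 0x5d615dd702) (nat_lit 0x1c0080000100) (nat_lit 36))))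
 (.n (.n (.p (nat_lit 0x13c113b502) (nat_lit 0x312502) (nat_lit 16))
 (.p (nat_lit 0x439c577702) (nat_lit 0x540b27) (nat_lit 29)))
 (.n (.p (nat_lit 0xa720a700a6e0a6c0a680e0f06) (nat_lit 0x100008030e) (nat_lit 51))
 (.p (nat_lit 0x1daa601702) (nat_lit 0x405aa2335000300000600) (nat_lit 49))))))
 (.n (.n (.n (.n (.p (nat_lit 0xc960e8102) (nat_lit 0x440300) (nat_lit 5))
 (.p (nat_lit 0x333b217902) (nat_lit 0xea15) (nat_lit 16)))
 (.n (.p (nat_lit 0x195d195102) (nat_lit 0x216704) (nat_lit 16))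
 (.p (nat_lit 0x1425a7b02) (nat_lit 0x10050e) (nat_lit 27))))
 (.n (.n (.p (nat_lit 0x1d861d841d821d7e003e002f002b1d811d7d09) (nat_lit 0x1040801) (nat_lit 10))
 (.p (nat_lit 0x1aa01a9c1a9a1a9803cc03ab03a71aa31a9f09) (nat_lit 0x2b40723) (nat_lit 10)))
 (.n (.p (nat_lit 0x50805040502050004fe337f06) (nat_lit 0x8000046a09) (nat_lit 52))
 (.p (nat_lit 0x180e5f1502) (nat_lit 0x3aa530344000100000600) (nat_lit 49)))))
 (.n (.n (.n (.p (nat_lit 0x1c981c921c901c8e1a651a6306) (nat_lit 0xc0000c4800) (nat_lit 52))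
 (.p (nat_lit 0x2037202b02) (nat_lit 0x44a91c) (nat_lit 16)))
 (.n (.p (nat_lit 0xfde0fdc0fd80fd60fd41c3506) (nat_lit 0x4000008806) (nat_lit 52))
 (.p (nat_lit 0x5ca7153502) (nat_lit 0x160000000600) (nat_lit 38))))
 (.n (.n (.p (nat_lit 0x374d0ce102) (nat_lit 0x540203) (nat_lit 16))
 (.p (nat_lit 0x194057f102) (nat_lit 0x72a) (nat_lit 29)))
 (.n (.p (nat_lit 0x5386538453825380537e537c021607) (nat_lit 0x4050f) (nat_lit 8))
 (.p (nat_lit 0x2336611902) (nat_lit 0x342521ca4000500000600) (nat_lit 49))))))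

def c512_485 : Tr := .n c1024_485 c1024_997

def c256_229 : Tr := .n c512_229 c512_485

def c128_101 : Tr := .n c256_101 c256_229

def c64_37 : Tr := .n c128_37 c128_101

def c32_5 : Tr := .n c64_5 c64_37

def c1024_21 : Tr :=
 .n (.n (.n (.n (.n (.n (.p (nat_lit 0x290021001b0015000f000d06) (nat_lit 0x415100000) (nat_lit 22))
 (.p (nat_lit 0xe72612902) (nat_lit 0x35486a3a4000300040000) (nat_lit 49)))
 (.p (nat_lit 0x2b122b102b0e2b0a2b08020f2b0d07) (nat_lit 0x20080f) (nat_lit 7)))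
 (.n (.p (nat_lit 0xe4b0e3f02) (nat_lit 0x114303) (nat_lit 16))
 (.p (nat_lit 0x1aa457fd02) (nat_lit 0x4072a) (nat_lit 29))))
 (.n (.n (.p (nat_lit 0x1cf61cf41cf21cf01cee1cec06) (nat_lit 0xcc800) (nat_lit 52))
 (.p (nat_lit 0x2195218902) (nat_lit 0x20aa1c) (nat_lit 16)))
 (.n (.p (nat_lit 0x1efd1c3302) (nat_lit 0x200806) (nat_lit 15))
 (.p (nat_lit 0x5ce5154302) (nat_lit 0x80020000600) (nat_lit 40)))))
 (.n (.n (.n (.p (nat_lit 0xeb20eb00eae0eac0c910c8f06) (nat_lit 0x18000c2300) (nat_lit 52))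
 (.p (nat_lit 0x242c0b1902) (nat_lit 0xb15) (nat_lit 5)))
 (.n (.p (nat_lit 0x1cc41cc01cbe1cbc1abb1ab706) (nat_lit 0x140000c8704) (nat_lit 51))
 (.p (nat_lit 0x5aa45aa25aa05a9e5a9c022d01f207) (nat_lit 0x50c80e) (nat_lit 25))))
 (.n (.n (.p (nat_lit 0x204b1d8102) (nat_lit 0x240801) (nat_lit 15))
 (.p (nat_lit 0x38c438c238c038bc38ba1c0306) (nat_lit 0x2000016823) (nat_lit 52)))
 (.n (.p (nat_lit 0x3bc9342502) (nat_lit 0x552b09) (nat_lit 16))
 (.p (nat_lit 0x180e5f1d02) (nat_lit 0x3a2274350000100000600) (nat_lit 49))))))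
 (.n (.n (.n (.n (.p (nat_lit 0x76d065502) (nat_lit 0x450000) (nat_lit 16))
 (.p (nat_lit 0x92e092c092a09260924504906) (nat_lit 0x2000088814) (nat_lit 52)))
 (.n (.p (nat_lit 0x3cb03cae3cac3caa3ca83ca606) (nat_lit 0x48004) (nat_lit 52))
 (.p (nat_lit 0x460448f902) (nat_lit 0x10022f) (nat_lit 5))))
 (.n (.n (.p (nat_lit 0x23ee23e823e623e4215d215b06) (nat_lit 0xc000010b00) (nat_lit 52))
 (.p (nat_lit 0xd340d320d300d2e0d2c49ed06) (nat_lit 0x800080721) (nat_lit 51)))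
 (.n (.p (nat_lit 0x1907162f02) (nat_lit 0x100607) (nat_lit 15))
 (.p (nat_lit 0x5d195e8702) (nat_lit 0x40040000900) (nat_lit 36)))))
 (.n (.n (.n (.p (nat_lit 0x1604160215fe15fc1557155106) (nat_lit 0x12000092600) (nat_lit 51))
 (.p (nat_lit 0x51004d4302) (nat_lit 0x50091b) (nat_lit 5)))
 (.n (.p (nat_lit 0x49f1195d02) (nat_lit 0x206705) (nat_lit 16))
 (.p (nat_lit 0x5d7f08ff02) (nat_lit 0x2e00a0000100) (nat_lit 41))))
 (.n (.n (.p (nat_lit 0x3283150302) (nat_lit 0x544502) (nat_lit 16))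
 (.p (nat_lit 0x451e480d02) (nat_lit 0x400128) (nat_lit 5)))
 (.n (.p (nat_lit 0xf7a091302) (nat_lit 0x34030e) (nat_lit 5))
 (.p (nat_lit 0xbb2602102) (nat_lit 0x406a6252d000200040000) (nat_lit 50))))))

def c1024_533 : Tr :=
 .n (.n (.n (.n (.n (.n (.p (nat_lit 0x32b031b031403) (nat_lit 0x4180001c) (nat_lit 19))
 (.p (nat_lit 0x181e61a102) (nat_lit 0x3222a5c15000100000600) (nat_lit 50)))
 (.p (nat_lit 0x3bca362702) (nat_lit 0x40b11) (nat_lit 4)))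
 (.n (.p (nat_lit 0x1f481f461f421f4021cb21c506) (nat_lit 0x12000082a03) (nat_lit 52))
 (.p (nat_lit 0x301e585b02) (nat_lit 0x50032c) (nat_lit 29))))
 (.n (.n (.p (nat_lit 0x20331d2d02) (nat_lit 0x248900) (nat_lit 16))
 (.p (nat_lit 0x39fe379d02) (nat_lit 0x40051f) (nat_lit 4)))
 (.n (.p (nat_lit 0xf6b0c9d02) (nat_lit 0x140207) (nat_lit 15))
 (.p (nat_lit 0x5e5e328102) (nat_lit 0x80044700) (nat_lit 47)))))
 (.n (.n (.n (.p (nat_lit 0x12490f6502) (nat_lit 0x444400) (nat_lit 16))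
 (.p (nat_lit 0xb080b060b040b020b003be106) (nat_lit 0x10000054b18) (nat_lit 52)))
 (.n (.p (nat_lit 0xe5e0e5c0e5a0e580e5400e50e5707) (nat_lit 0x100305) (nat_lit 7))
 (.p (nat_lit 0x43d5c6102) (nat_lit 0x40092a) (nat_lit 28))))
 (.n (.n (.p (nat_lit 0x2d122d102d0e2d0c2d0a2d08006407) (nat_lit 0x40002) (nat_lit 8))
 (.p (nat_lit 0x307c307a3078307630722f9b06) (nat_lit 0x10000d4225) (nat_lit 51)))
 (.n (.p (nat_lit 0x42b8527d02) (nat_lit 0x40070b) (nat_lit 29))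
 (.p (nat_lit 0x4d05f9d02) (nat_lit 0x568bb0344000000000000) (nat_lit 50))))))
 (.n (.n (.n (.n (.p (nat_lit 0xb4b087502) (nat_lit 0x208200) (nat_lit 16))
 (.p (nat_lit 0x4d804d604d404d204ce14d706) (nat_lit 0x1000040515) (nat_lit 51)))
 (.n (.p (nat_lit 0x13d513c902) (nat_lit 0x116504) (nat_lit 16))
 (.p (nat_lit 0x2e8595702) (nat_lit 0x200204) (nat_lit 27))))
 (.n (.n (.p (nat_lit 0xba10b6502) (nat_lit 0x314201) (nat_lit 16))
 (.p (nat_lit 0x1c441c421c3e1c3c1c3a088f06) (nat_lit 0x4000090123) (nat_lit 52)))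
 (.n (.p (nat_lit 0x272627242722271e271c281106) (nat_lit 0x2000092208) (nat_lit 52))
 (.p (nat_lit 0x5d07233702) (nat_lit 0x160040000b00) (nat_lit 38)))))
 (.n (.n (.n (.p (nat_lit 0x19841978179b03) (nat_lit 0x440700) (nat_lit 6))
 (.p (nat_lit 0xff60ff40ff00fee0fec139d06) (nat_lit 0x400000051c) (nat_lit 52)))
 (.n (.p (nat_lit 0x4c9c4c9a4c984c964c944c92011e07) (nat_lit 0x206) (nat_lit 8))
 (.p (nat_lit 0x5e0c3b9b02) (nat_lit 0x10400) (nat_lit 47))))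
 (.n (.n (.p (nat_lit 0x246233c502) (nat_lit 0x300b02) (nat_lit 29))
 (.p (nat_lit 0xb54141d02) (nat_lit 0x10022a) (nat_lit 5)))
 (.n (.p (nat_lit 0x1915163d02) (nat_lit 0x20060e) (nat_lit 15))
 (.p (nat_lit 0x181e609d02) (nat_lit 0x346068ca4000100000600) (nat_lit 50))))))

def c512_21 : Tr := .n c1024_21 c1024_533

def c1024_277 : Tr :=
 .n (.n (.n (.n (.n (.n (.p (nat_lit 0x11601140112011f04) (nat_lit 0x3800400006) (nat_lit 17))
 (.p (nat_lit 0x1c3c616102) (nat_lit 0x3503a8d84000200040600) (nat_lit 49)))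
 (.p (nat_lit 0x33862e9b02) (nat_lit 0x240a10) (nat_lit 4)))
 (.n (.p (nat_lit 0x3a0c3a0a3a083a063a043a020094150f150b15090a) (nat_lit 0x15a40503) (nat_lit 31))
 (.p (nat_lit 0x3405245302) (nat_lit 0x10eb2a) (nat_lit 16))))
 (.n (.n (.p (nat_lit 0x1e7c1e7a1e761e741bcd1bc706) (nat_lit 0x12000016900) (nat_lit 52))
 (.p (nat_lit 0x582d9d02) (nat_lit 0x4001e) (nat_lit 1)))
 (.n (.p (nat_lit 0x206820662064206220600113205f07) (nat_lit 0x40906) (nat_lit 7))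
 (.p (nat_lit 0x5c9b5e5302) (nat_lit 0x220000000700) (nat_lit 36)))))
 (.n (.n (.n (.p (nat_lit 0x1030102e102c102a0dff0df506) (nat_lit 0x10800084400) (nat_lit 51))
 (.p (nat_lit 0x33402f1302) (nat_lit 0x300a17) (nat_lit 4)))
 (.n (.p (nat_lit 0x1cc062502) (nat_lit 0x400005) (nat_lit 1))
 (.p (nat_lit 0x3585ba302) (nat_lit 0x50081c) (nat_lit 27))))
 (.n (.n (.p (nat_lit 0x1ade1adc1ada1ad81ad6204706) (nat_lit 0x800050901) (nat_lit 52))
 (.p (nat_lit 0x245b244f02) (nat_lit 0x500b23) (nat_lit 16)))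
 (.n (.p (nat_lit 0x3b7034a102) (nat_lit 0x300b0a) (nat_lit 5))
 (.p (nat_lit 0xe6e5f5f02) (nat_lit 0x4a1d22344000300040000) (nat_lit 49))))))
 (.n (.n (.n (.n (.p (nat_lit 0x93a093809360934071f071d06) (nat_lit 0x180004a100) (nat_lit 52))
 (.p (nat_lit 0xdce0dcc0dca0dc610eb10e706) (nat_lit 0x2800014415) (nat_lit 52)))
 (.n (.p (nat_lit 0xcf90ced02) (nat_lit 0x556204) (nat_lit 16))
 (.p (nat_lit 0x58a658a458a258a0589e03db003607) (nat_lit 0x50a301) (nat_lit 25))))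
 (.n (.n (.p (nat_lit 0x25a522c502) (nat_lit 0x548b00) (nat_lit 16))
 (.p (nat_lit 0x510a4dbd02) (nat_lit 0x400922) (nat_lit 4)))
 (.n (.p (nat_lit 0x1e9c057902) (nat_lit 0x200907) (nat_lit 5))
 (.p (nat_lit 0x5cd35e9b02) (nat_lit 0x1a0020000a00) (nat_lit 37)))))
 (.n (.n (.n (.p (nat_lit 0x17cf16b102) (nat_lit 0x48600) (nat_lit 16))
 (.p (nat_lit 0x233c233a233823342332073906) (nat_lit 0x200005601c) (nat_lit 52)))
 (.n (.p (nat_lit 0x1d8c214d02) (nat_lit 0x240805) (nat_lit 5))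
 (.p (nat_lit 0x5d8f0a4f02) (nat_lit 0x1e00a0000200) (nat_lit 38))))
 (.n (.n (.p (nat_lit 0x129e129c12981296129421bb06) (nat_lit 0x400000aa02) (nat_lit 52))
 (.p (nat_lit 0x50724efd02) (nat_lit 0x500829) (nat_lit 4)))
 (.n (.p (nat_lit 0x1ade1adc1ad81ad61ad4123b06) (nat_lit 0x400005040e) (nat_lit 52))
 (.p (nat_lit 0x8ea606102) (nat_lit 0x85ab0335000100040000) (nat_lit 49))))))

def c1024_789 : Tr :=
 .n (.n (.n (.n (.n (.n (.p (nat_lit 0x52c052a0528052604dd04db06) (nat_lit 0x1800088000) (nat_lit 51))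
 (.p (nat_lit 0x169861df02) (nat_lit 0x3508a5d84000000040600) (nat_lit 49)))
 (.p (nat_lit 0x4e2b475f02) (nat_lit 0x24c313) (nat_lit 16)))
 (.n (.p (nat_lit 0x24882486248424822480247306) (nat_lit 0x10000096b03) (nat_lit 52))
 (.p (nat_lit 0x41e041de41dc41d841d63b5706) (nat_lit 0x20000cca2d) (nat_lit 51))))
 (.n (.n (.p (nat_lit 0x1ffa1ff81ff61ff41ff2000b1ffd07) (nat_lit 0x540a00) (nat_lit 7))
 (.p (nat_lit 0x308423b02) (nat_lit 0x100620) (nat_lit 1)))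
 (.n (.p (nat_lit 0x21e221e021de21dc21d80f6b06) (nat_lit 0x10000d4307) (nat_lit 51))
 (.p (nat_lit 0x5d271adb02) (nat_lit 0x260060000800) (nat_lit 38)))))
 (.n (.n (.n (.p (nat_lit 0x140113f502) (nat_lit 0x540500) (nat_lit 34))
 (.p (nat_lit 0x4858463102) (nat_lit 0x14041a) (nat_lit 5)))
 (.n (.p (nat_lit 0x168c227302) (nat_lit 0x605) (nat_lit 5))
 (.p (nat_lit 0x5dc0332b02) (nat_lit 0x8000e000) (nat_lit 48))))
 (.n (.n (.p (nat_lit 0xe3a0e380e360e320e30005d0e3507) (nat_lit 0x200302) (nat_lit 7))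
 (.p (nat_lit 0x3bf83bf63bf43bf23bee03ef3bf107) (nat_lit 0x140b26) (nat_lit 7)))
 (.n (.p (nat_lit 0x1184dc702) (nat_lit 0x30030d) (nat_lit 1))
 (.p (nat_lit 0x11485fe102) (nat_lit 0x3062a1c35000400040000) (nat_lit 50))))))
 (.n (.n (.n (.n (.p (nat_lit 0x3100b3902) (nat_lit 0x500300) (nat_lit 1))
 (.p (nat_lit 0x28b545f02) (nat_lit 0x540715) (nat_lit 30)))
 (.n (.p (nat_lit 0xd180d160d140d1217fd17fb06) (nat_lit 0x18000046604) (nat_lit 51))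
 (.p (nat_lit 0x14a0148014601440437000106) (nat_lit 0x808307) (nat_lit 26))))
 (.n (.n (.p (nat_lit 0x13e913ad02) (nat_lit 0x514501) (nat_lit 16))
 (.p (nat_lit 0x3060ca702) (nat_lit 0x40223) (nat_lit 1)))
 (.n (.p (nat_lit 0x2eaa2ea82ea62ea42f972f8d06) (nat_lit 0x10800056209) (nat_lit 52))
 (.p (nat_lit 0x4c25ed902) (nat_lit 0x4a0d84344000000000000) (nat_lit 49)))))
 (.n (.n (.n (.p (nat_lit 0x1b541b501b4e1b4c190118f906) (nat_lit 0x8800008800) (nat_lit 52))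
 (.p (nat_lit 0x1a920ef702) (nat_lit 0x34071c) (nat_lit 4)))
 (.n (.p (nat_lit 0x78d152d02) (nat_lit 0x240506) (nat_lit 15))
 (.p (nat_lit 0x5cdd129702) (nat_lit 0x100020000500) (nat_lit 38))))
 (.n (.n (.p (nat_lit 0x354f076b02) (nat_lit 0x346003) (nat_lit 16))
 (.p (nat_lit 0xe1e143902) (nat_lit 0x30032a) (nat_lit 4)))
 (.n (.p (nat_lit 0x1ef534902) (nat_lit 0x44090e) (nat_lit 30))
 (.p (nat_lit 0x206c60df02) (nat_lit 0x340d623a4000400000600) (nat_lit 49))))))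

def c512_277 : Tr := .n c1024_277 c1024_789

def c256_21 : Tr := .n c512_21 c512_277

def c1024_149 : Tr :=
 .n (.n (.n (.n (.n (.n (.p (nat_lit 0x8a0088009503) (nat_lit 0x3000500003) (nat_lit 17))
 (.p (nat_lit 0x12a7129f0fe90fd50d170d090a510a4b07ab079d04d104c361440d) (nat_lit 0x3b0221d84000000000000) (nat_lit 33)))
 (.p (nat_lit 0x18d218d018ce18cc18c830fd06) (nat_lit 0x1000014410) (nat_lit 52)))
 (.n (.p (nat_lit 0x126438f702) (nat_lit 0x40403) (nat_lit 29))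
 (.p (nat_lit 0x203c582302) (nat_lit 0x14092a) (nat_lit 29))))
 (.n (.n (.p (nat_lit 0xba1bc902) (nat_lit 0x300900) (nat_lit 1))
 (.p (nat_lit 0x17cb259702) (nat_lit 0x440b1c) (nat_lit 15)))
 (.n (.p (nat_lit 0x2080207e207c207a20781d9506) (nat_lit 0x800054806) (nat_lit 51))
 (.p (nat_lit 0x5d2f169f02) (nat_lit 0x1e0060000600) (nat_lit 39)))))
 (.n (.n (.n (.p (nat_lit 0xfb70c9502) (nat_lit 0x352300) (nat_lit 16))
 (.p (nat_lit 0x2ba6284d02) (nat_lit 0x300916) (nat_lit 5)))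
 (.n (.p (nat_lit 0x434f247f02) (nat_lit 0x506b04) (nat_lit 16))
 (.p (nat_lit 0x2835b2902) (nat_lit 0x100915) (nat_lit 28))))
 (.n (.n (.p (nat_lit 0x233c233a2338233423321ee506) (nat_lit 0x2000016901) (nat_lit 52))
 (.p (nat_lit 0x3a7571302) (nat_lit 0x340923) (nat_lit 30)))
 (.n (.p (nat_lit 0x38d834ff02) (nat_lit 0x30040a) (nat_lit 4))
 (.p (nat_lit 0x13fc5f3b02) (nat_lit 0x3a6560c44000500040000) (nat_lit 50))))))
 (.n (.n (.n (.n (.p (nat_lit 0x842083e083c083a05c505bd06) (nat_lit 0x8800092100) (nat_lit 52))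
 (.p (nat_lit 0x28b540b02) (nat_lit 0x540015) (nat_lit 30)))
 (.n (.p (nat_lit 0xb73e0d02) (nat_lit 0x100204) (nat_lit 30))
 (.p (nat_lit 0x4a54493302) (nat_lit 0x4072f) (nat_lit 5))))
 (.n (.n (.p (nat_lit 0x24ba24b824b224b022c122bf06) (nat_lit 0x6000042b00) (nat_lit 51))
 (.p (nat_lit 0x397565d02) (nat_lit 0x240122) (nat_lit 30)))
 (.n (.p (nat_lit 0x2d862d842d822d802d7c1a6b06) (nat_lit 0x10000d4707) (nat_lit 52))
 (.p (nat_lit 0x5d511da902) (nat_lit 0x2c0080000900) (nat_lit 38)))))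
 (.n (.n (.n (.p (nat_lit 0x16f416f216ec16ea16b716b506) (nat_lit 0x6000044600) (nat_lit 51))
 (.p (nat_lit 0x88105d902) (nat_lit 0x20001c) (nat_lit 15)))
 (.n (.p (nat_lit 0x233c233a2338233623321abf06) (nat_lit 0x1000056705) (nat_lit 52))
 (.p (nat_lit 0x5cf75de702) (nat_lit 0x260040000200) (nat_lit 36))))
 (.n (.n (.p (nat_lit 0x2058205620542052008400630061205d205b09) (nat_lit 0x2c40902) (nat_lit 10))
 (.p (nat_lit 0x4b9a4b984b964b924b9004214b9507) (nat_lit 0x240029) (nat_lit 7)))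
 (.n (.p (nat_lit 0x181e181c181a1818181610e506) (nat_lit 0x1000000e40e) (nat_lit 51))
 (.p (nat_lit 0x207a604102) (nat_lit 0x4a8176340800400000600) (nat_lit 50))))))

def c1024_661 : Tr :=
 .n (.n (.n (.n (.n (.n (.p (nat_lit 0x44f044d0449044404) (nat_lit 0x1620002a) (nat_lit 20))
 (.p (nat_lit 0x1daa61bf02) (nat_lit 0x3221a9c15000300000600) (nat_lit 49)))
 (.p (nat_lit 0x3c303c2e3c2c3c2a3c28419106) (nat_lit 0x1000000c512) (nat_lit 52)))
 (.n (.p (nat_lit 0x3b55232902) (nat_lit 0x14aa03) (nat_lit 16))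
 (.p (nat_lit 0x36d735d302) (nat_lit 0x40012d) (nat_lit 15))))
 (.n (.n (.p (nat_lit 0x213a21382134213221301e9306) (nat_lit 0x400008ea00) (nat_lit 51))
 (.p (nat_lit 0xd400d3c0d3a0d380d363beb06) (nat_lit 0x8000042b1f) (nat_lit 51)))
 (.n (.p (nat_lit 0x233c233a2338233623320e0306) (nat_lit 0x1000016307) (nat_lit 52))
 (.p (nat_lit 0x5ce11ae302) (nat_lit 0xc0020000800) (nat_lit 40)))))
 (.n (.n (.n (.p (nat_lit 0x12e612e212e012de12dc10cb06) (nat_lit 0x8000006500) (nat_lit 51))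
 (.p (nat_lit 0xbec0bea0be80be60be2422f06) (nat_lit 0x1000088619) (nat_lit 51)))
 (.n (.p (nat_lit 0x47f647f447f247f047ee47ec00ee07) (nat_lit 0x40405) (nat_lit 8))
 (.p (nat_lit 0x5cd95db502) (nat_lit 0x140020000000) (nat_lit 36))))
 (.n (.n (.p (nat_lit 0xa120a100a0c0a0a0a08005f0a0f07) (nat_lit 0x340102) (nat_lit 7))
 (.p (nat_lit 0x1b9a1b981b961b941b92364906) (nat_lit 0x10000054126) (nat_lit 52)))
 (.n (.p (nat_lit 0x22b822b422b222b022ae475706) (nat_lit 0x80000d030c) (nat_lit 52))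
 (.p (nat_lit 0x207a5fc702) (nat_lit 0x89832b05000400000600) (nat_lit 50))))))
 (.n (.n (.n (.n (.p (nat_lit 0xbf40bf20bf00bee09d709d506) (nat_lit 0x1800004a200) (nat_lit 51))
 (.p (nat_lit 0x27fa27f627f427f227f0164d06) (nat_lit 0x8000012615) (nat_lit 52)))
 (.n (.p (nat_lit 0x140013fc13fa13f813f6168906) (nat_lit 0x800008a604) (nat_lit 51))
 (.p (nat_lit 0xea00e800e600e2000b011506) (nat_lit 0x290e605) (nat_lit 26))))
 (.n (.n (.p (nat_lit 0x2b293b02) (nat_lit 0x401) (nat_lit 30))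
 (.p (nat_lit 0x198419821980197e197c09ef06) (nat_lit 0x100000ce123) (nat_lit 51)))
 (.n (.p (nat_lit 0x17951fb02) (nat_lit 0x540808) (nat_lit 30))
 (.p (nat_lit 0x5ebe248902) (nat_lit 0x80040b00) (nat_lit 45)))))
 (.n (.n (.n (.p (nat_lit 0x1a5a1a581a541a521799179306) (nat_lit 0x48000d6700) (nat_lit 52))
 (.p (nat_lit 0x73714e302) (nat_lit 0x14051c) (nat_lit 15)))
 (.n (.p (nat_lit 0x113223ad02) (nat_lit 0x200406) (nat_lit 5))
 (.p (nat_lit 0x5d6d0fe902) (nat_lit 0x100080000400) (nat_lit 40))))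
 (.n (.n (.p (nat_lit 0x1722171e171c171a25bd25b906) (nat_lit 0x14000048b02) (nat_lit 52))
 (.p (nat_lit 0xcb812d702) (nat_lit 0x34022a) (nat_lit 5)))
 (.n (.p (nat_lit 0x35b635b435b035ae1be11bdb06) (nat_lit 0x480009680e) (nat_lit 51))
 (.p (nat_lit 0x13ee60c902) (nat_lit 0x3505223a4000500040000) (nat_lit 49))))))

def c512_149 : Tr := .n c1024_149 c1024_661

def c1024_405 : Tr :=
 .n (.n (.n (.n (.n (.n (.p (nat_lit 0x20501ff01f403) (nat_lit 0x6110000e) (nat_lit 19))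
 (.p (nat_lit 0x12a912970fe10fdb0d170d0f0a530a4f07a7079504d904c7617e0d) (nat_lit 0x421a86b15000000000000) (nat_lit 33)))
 (.p (nat_lit 0x408538e102) (nat_lit 0x114411) (nat_lit 16)))
 (.n (.p (nat_lit 0x17ea1b8b02) (nat_lit 0x240603) (nat_lit 5))
 (.p (nat_lit 0x2b7a2a5502) (nat_lit 0x54082b) (nat_lit 5))))
 (.n (.n (.p (nat_lit 0x1f5e1f5c1f5a1f581d331d3106) (nat_lit 0x180000c4900) (nat_lit 52))
 (.p (nat_lit 0x33f0300502) (nat_lit 0x200b1e) (nat_lit 4)))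
 (.n (.p (nat_lit 0x7b607b407b207ae07ac0b3f06) (nat_lit 0x2000006207) (nat_lit 52))
 (.p (nat_lit 0x5d475e5b02) (nat_lit 0x60060000700) (nat_lit 37)))))
 (.n (.n (.n (.p (nat_lit 0x114d114102) (nat_lit 0x340400) (nat_lit 34))
 (.p (nat_lit 0x39f2370502) (nat_lit 0x400518) (nat_lit 5)))
 (.n (.p (nat_lit 0xa34221102) (nat_lit 0x440105) (nat_lit 5))
 (.p (nat_lit 0x3a55be702) (nat_lit 0x200b23) (nat_lit 28))))
 (.n (.n (.p (nat_lit 0x21bd21b102) (nat_lit 0x410a01) (nat_lit 16))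
 (.p (nat_lit 0x287429cd02) (nat_lit 0x140224) (nat_lit 4)))
 (.n (.p (nat_lit 0x1e5a1e581e541e521e503f9706) (nat_lit 0x400008c30b) (nat_lit 51))
 (.p (nat_lit 0x14005f7b02) (nat_lit 0x581a22b44000500040000) (nat_lit 50))))))
 (.n (.n (.n (.n (.p (nat_lit 0x8760a5702) (nat_lit 0x300200) (nat_lit 5))
 (.p (nat_lit 0x1394138e138c138a02a8028902871393139109) (nat_lit 0x2300515) (nat_lit 10)))
 (.n (.p (nat_lit 0x13c9111902) (nat_lit 0x100404) (nat_lit 15))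
 (.p (nat_lit 0x620060005a00580005008d06) (nat_lit 0x1314902) (nat_lit 26))))
 (.n (.n (.p (nat_lit 0x8a426d902) (nat_lit 0x200101) (nat_lit 29))
 (.p (nat_lit 0x74807460744074203ba03ab03a1074b074109) (nat_lit 0x2840023) (nat_lit 10)))
 (.n (.p (nat_lit 0x257322cf02) (nat_lit 0x440a07) (nat_lit 15))
 (.p (nat_lit 0x5d575ea702) (nat_lit 0x260080000a00) (nat_lit 37)))))
 (.n (.n (.n (.p (nat_lit 0x18d218ce18cc18ca18c8162906) (nat_lit 0x8000014700) (nat_lit 52))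
 (.p (nat_lit 0x35bb087f02) (nat_lit 0x11011c) (nat_lit 16)))
 (.n (.p (nat_lit 0x78a24a702) (nat_lit 0x140006) (nat_lit 5))
 (.p (nat_lit 0x5d330d1902) (nat_lit 0x1a0060000300) (nat_lit 40))))
 (.n (.n (.p (nat_lit 0xbb00bae0bac0baa0ba6231d06) (nat_lit 0x10000c4a02) (nat_lit 52))
 (.p (nat_lit 0x52c052a05260522089b089706) (nat_lit 0x500008812a) (nat_lit 51)))
 (.n (.p (nat_lit 0x14014c902) (nat_lit 0x4050e) (nat_lit 1))
 (.p (nat_lit 0x2348607f02) (nat_lit 0x511a22b85000500000600) (nat_lit 50))))))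

def c1024_917 : Tr :=
 .n (.n (.n (.n (.n (.p (nat_lit 0x662065e065c065a0655064d06) (nat_lit 0x8800044000) (nat_lit 51))
 (.p (nat_lit 0x4dd44c3502) (nat_lit 0x500314) (nat_lit 5)))
 (.n (.p (nat_lit 0x207420722070206e206a25c106) (nat_lit 0x1000054b03) (nat_lit 52))
 (.p (nat_lit 0x40ae40ac40a840a640a43fab06) (nat_lit 0x400000232e) (nat_lit 51))))
 (.n (.n (.p (nat_lit 0x22dd1ffd02) (nat_lit 0x542a00) (nat_lit 16))
 (.p (nat_lit 0x438e563102) (nat_lit 0x440b20) (nat_lit 29)))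
 (.n (.p (nat_lit 0x10e510d902) (nat_lit 0x504407) (nat_lit 16))
 (.p (nat_lit 0x5d8d1adf02) (nat_lit 0x2000a0000800) (nat_lit 38)))))
 (.n (.n (.n (.p (nat_lit 0x14f5122502) (nat_lit 0x44c500) (nat_lit 16))
 (.p (nat_lit 0x4a38467102) (nat_lit 0x44071a) (nat_lit 4)))
 (.n (.p (nat_lit 0x25422540253c253a1809180306) (nat_lit 0x12000050605) (nat_lit 51))
 (.p (nat_lit 0x5cf35dcd02) (nat_lit 0x2a0040000100) (nat_lit 37))))
 (.n (.n (.p (nat_lit 0x3110310e310c310a31083106006407) (nat_lit 0x40402) (nat_lit 8))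
 (.p (nat_lit 0x424a405902) (nat_lit 0x300627) (nat_lit 4)))
 (.n (.p (nat_lit 0x4f004ee04ea04e804e6509306) (nat_lit 0x400004480d) (nat_lit 52))
 (.p (nat_lit 0x636600102) (nat_lit 0x405aa2354800000040000) (nat_lit 49))))))
 (.n (.n (.n (.n (.p (nat_lit 0xdf20df00dec0dea0b350b2f06) (nat_lit 0x4800096300) (nat_lit 52))
 (.p (nat_lit 0x285548902) (nat_lit 0x240915) (nat_lit 30)))
 (.n (.p (nat_lit 0xc200d100cd1e671fcd05) (nat_lit 0x64500704) (nat_lit 9))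
 (.p (nat_lit 0x1b65a5902) (nat_lit 0x500a0a) (nat_lit 27))))
 (.n (.n (.p (nat_lit 0x18ba18b618b418b218b01c1f06) (nat_lit 0x8000012801) (nat_lit 52))
 (.p (nat_lit 0x166f166302) (nat_lit 0x300623) (nat_lit 16)))
 (.n (.p (nat_lit 0x32942d5f02) (nat_lit 0x200909) (nat_lit 4))
 (.p (nat_lit 0xa445ef502) (nat_lit 0x281d30344000200000000) (nat_lit 49)))))
 (.n (.n (.n (.p (nat_lit 0x1c2918ff02) (nat_lit 0x314800) (nat_lit 16))
 (.p (nat_lit 0x1d6d1d6102) (nat_lit 0x44a81c) (nat_lit 16)))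
 (.n (.p (nat_lit 0x16061604160215fe15fc1acd06) (nat_lit 0x20000d2706) (nat_lit 51))
 (.p (nat_lit 0x5d5d5e3302) (nat_lit 0x200080000500) (nat_lit 37))))
 (.n (.n (.p (nat_lit 0x363f0a1502) (nat_lit 0x48103) (nat_lit 16))
 (.p (nat_lit 0x166812f502) (nat_lit 0x62a) (nat_lit 4)))
 (.n (.p (nat_lit 0x257a09c502) (nat_lit 0x240b0e) (nat_lit 4))
 (.p (nat_lit 0x233660ff02) (nat_lit 0x3425219b0000500000600) (nat_lit 49))))))

def c512_405 : Tr := .n c1024_405 c1024_917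

def c256_149 : Tr := .n c512_149 c512_405

def c128_21 : Tr := .n c256_21 c256_149

def c1024_85 : Tr :=
 .n (.n (.n (.n (.n (.n (.p (nat_lit 0x62005c005a006504) (nat_lit 0x13000400002) (nat_lit 17))
 (.p (nat_lit 0x2336613302) (nat_lit 0x35486a3b0000500000600) (nat_lit 49)))
 (.p (nat_lit 0x2bea279902) (nat_lit 0x14090f) (nat_lit 5)))
 (.n (.p (nat_lit 0x3ec110b02) (nat_lit 0x403) (nat_lit 1))
 (.p (nat_lit 0x1d74133302) (nat_lit 0x24082a) (nat_lit 5))))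
 (.n (.n (.p (nat_lit 0x1d371a5f02) (nat_lit 0x140800) (nat_lit 16))
 (.p (nat_lit 0x243a0ddf02) (nat_lit 0x100b1c) (nat_lit 4)))
 (.n (.p (nat_lit 0xbae0bac0baa0ba80ba61d9f06) (nat_lit 0x100000c4806) (nat_lit 52))
 (.p (nat_lit 0x5d175e4102) (nat_lit 0x60040000600) (nat_lit 37)))))
 (.n (.n (.n (.p (nat_lit 0xf360f340f2e0f2c0c950c9306) (nat_lit 0x6000054300) (nat_lit 51))
 (.p (nat_lit 0x2a7427c902) (nat_lit 0x300516) (nat_lit 4)))
 (.n (.p (nat_lit 0xea247d02) (nat_lit 0x400b04) (nat_lit 1))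
 (.p (nat_lit 0x25802560252024e023b00bb06) (nat_lit 0xb0e412) (nat_lit 26))))
 (.n (.n (.p (nat_lit 0xa5a0a580a540a520a501ee706) (nat_lit 0x4000004901) (nat_lit 51))
 (.p (nat_lit 0x1d751d6902) (nat_lit 0x240823) (nat_lit 16)))
 (.n (.p (nat_lit 0x19f522702) (nat_lit 0x30030a) (nat_lit 30))
 (.p (nat_lit 0x181c5f3102) (nat_lit 0x3aa560b44000100000600) (nat_lit 50))))))
 (.n (.n (.n (.n (.p (nat_lit 0x7b607b407b207ae07ac05c106) (nat_lit 0x2000006100) (nat_lit 52))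
 (.p (nat_lit 0x91609140910090e05cf05c906) (nat_lit 0x4800086015) (nat_lit 51)))
 (.n (.p (nat_lit 0xa221f4302) (nat_lit 0x140104) (nat_lit 4))
 (.p (nat_lit 0x46fa491502) (nat_lit 0x40032f) (nat_lit 4))))
 (.n (.n (.p (nat_lit 0x2459215d02) (nat_lit 0x40ab00) (nat_lit 16))
 (.p (nat_lit 0x23e223e023de23dc23da4b1b06) (nat_lit 0x80008e022) (nat_lit 52)))
 (.n (.p (nat_lit 0x149518102) (nat_lit 0x400707) (nat_lit 30))
 (.p (nat_lit 0x5d351f1702) (nat_lit 0x180060000900) (nat_lit 41)))))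
 (.n (.n (.n (.p (nat_lit 0x168b155702) (nat_lit 0x512600) (nat_lit 16))
 (.p (nat_lit 0xe800e7e0e7c0e7a0e7805df06) (nat_lit 0x1000008601c) (nat_lit 51)))
 (.n (.p (nat_lit 0xe820e800e7e0e7c0e7a1abd06) (nat_lit 0x8000c6705) (nat_lit 51))
 (.p (nat_lit 0x5dde50a502) (nat_lit 0x56200) (nat_lit 48))))
 (.n (.n (.p (nat_lit 0x1b901b8a1b881b861ef51ef306) (nat_lit 0xc00008c902) (nat_lit 51))
 (.p (nat_lit 0x468a47a902) (nat_lit 0x540228) (nat_lit 5)))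
 (.n (.p (nat_lit 0x10e007cb02) (nat_lit 0x30040e) (nat_lit 4))
 (.p (nat_lit 0xe76603102) (nat_lit 0x4099a2335000300040000) (nat_lit 49))))))

def c1024_597 : Tr :=
 .n (.n (.n (.n (.n (.n (.p (nat_lit 0x3a603a403af03) (nat_lit 0x6000500023) (nat_lit 17))
 (.p (nat_lit 0x1ae261af02) (nat_lit 0x522266c0d000200000600) (nat_lit 50)))
 (.p (nat_lit 0x1e721e701e6e1e6c1e68408506) (nat_lit 0x100008e412) (nat_lit 51)))
 (.n (.p (nat_lit 0x23281ba102) (nat_lit 0x140a03) (nat_lit 4))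
 (.p (nat_lit 0x3368336433623360335e0483336707) (nat_lit 0x400a2c) (nat_lit 7))))
 (.n (.n (.p (nat_lit 0x20a420a0209e209a1e951e8f06) (nat_lit 0x9000002a00) (nat_lit 52))
 (.p (nat_lit 0x3b983b963b943b923b90034f3b8f07) (nat_lit 0xb1f) (nat_lit 7)))
 (.n (.p (nat_lit 0x8fe08fc08f808f608f40e0706) (nat_lit 0x4000082307) (nat_lit 51))
 (.p (nat_lit 0x5e642faf02) (nat_lit 0xa004a700) (nat_lit 48)))))
 (.n (.n (.n (.p (nat_lit 0x12a8129c10cb03) (nat_lit 0x400500) (nat_lit 6))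
 (.p (nat_lit 0x1e7e1e7c1e7a1e781e76419306) (nat_lit 0x800016519) (nat_lit 52)))
 (.n (.p (nat_lit 0xfc6470902) (nat_lit 0x540305) (nat_lit 29))
 (.p (nat_lit 0x5cbb064102) (nat_lit 0x20000000000) (nat_lit 41))))
 (.n (.n (.p (nat_lit 0x2d922d8e2d8c2d8a2d88076106) (nat_lit 0x8000056002) (nat_lit 52))
 (.p (nat_lit 0x3554390302) (nat_lit 0x40026) (nat_lit 5)))
 (.n (.p (nat_lit 0x44dc44da44d844d645ff45f706) (nat_lit 0x880008a20c) (nat_lit 51))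
 (.p (nat_lit 0x248d248921dd21d31f111f071c4f1c451983197116a7169d5fb00d) (nat_lit 0x89832b05000000040600) (nat_lit 33))))))
 (.n (.n (.n (.n (.p (nat_lit 0x9d409d209d009ce0014000b000109d709cd09) (nat_lit 0x2840200) (nat_lit 10))
 (.p (nat_lit 0x20742070206e206c206a14dd06) (nat_lit 0x8000054515) (nat_lit 52)))
 (.n (.p (nat_lit 0x16861fb102) (nat_lit 0x300604) (nat_lit 5))
 (.p (nat_lit 0xeb599102) (nat_lit 0x400005) (nat_lit 28))))
 (.n (.n (.p (nat_lit 0x31289102) (nat_lit 0x300301) (nat_lit 30))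
 (.p (nat_lit 0x9ea56a702) (nat_lit 0x340123) (nat_lit 29)))
 (.n (.p (nat_lit 0x4e25292d02) (nat_lit 0x554308) (nat_lit 16))
 (.p (nat_lit 0x5eb84d0302) (nat_lit 0x6000ab00) (nat_lit 47)))))
 (.n (.n (.n (.p (nat_lit 0x1a1e1a1c1a181a141799179506) (nat_lit 0x5000052700) (nat_lit 51))
 (.p (nat_lit 0x14e60d6102) (nat_lit 0x34051c) (nat_lit 4)))
 (.n (.p (nat_lit 0xe6a239b02) (nat_lit 0x500306) (nat_lit 5))
 (.p (nat_lit 0x5cfb5e1502) (nat_lit 0x220040000400) (nat_lit 37))))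
 (.n (.n (.p (nat_lit 0x33cb245d02) (nat_lit 0xb02) (nat_lit 16))
 (.p (nat_lit 0x16ac16aa16a616a40b5d0b5706) (nat_lit 0x1200008c22a) (nat_lit 51)))
 (.n (.p (nat_lit 0x1a7a096702) (nat_lit 0x34070e) (nat_lit 5))
 (.p (nat_lit 0xbac60ad02) (nat_lit 0x342521ca4000200040000) (nat_lit 49))))))

def c512_85 : Tr := .n c1024_85 c1024_597

def c1024_341 : Tr :=
 .n (.n (.n (.n (.n (.n (.p (nat_lit 0x14a015102) (nat_lit 0x10000600007) (nat_lit 17))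
 (.p (nat_lit 0x2334616f02) (nat_lit 0x421aa6315000500000600) (nat_lit 49)))
 (.p (nat_lit 0x2780277e277a27782776342d06) (nat_lit 0x4000050b10) (nat_lit 51)))
 (.n (.p (nat_lit 0x3a883a863a843a823a803a7e0094167f167d16750a) (nat_lit 0x16000603) (nat_lit 31))
 (.p (nat_lit 0x46e047504712a352a9305) (nat_lit 0x8e84022b) (nat_lit 9))))
 (.n (.n (.p (nat_lit 0x1efb1bc502) (nat_lit 0x116900) (nat_lit 16))
 (.p (nat_lit 0x339d32f502) (nat_lit 0x14091e) (nat_lit 15)))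
 (.n (.p (nat_lit 0x212c212a212821262124206906) (nat_lit 0x1000004e906) (nat_lit 52))
 (.p (nat_lit 0x5ccf197302) (nat_lit 0x1e0020000700) (nat_lit 39)))))
 (.n (.n (.n (.p (nat_lit 0x10d70dfd02) (nat_lit 0x400400) (nat_lit 16))
 (.p (nat_lit 0x34b636df02) (nat_lit 0x200018) (nat_lit 4)))
 (.n (.p (nat_lit 0x445a4458445644544452078306) (nat_lit 0x4000048005) (nat_lit 52))
 (.p (nat_lit 0x3955bc502) (nat_lit 0x100522) (nat_lit 28))))
 (.n (.n (.p (nat_lit 0x21aa2c2702) (nat_lit 0x100a01) (nat_lit 29))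
 (.p (nat_lit 0x4b9526cd02) (nat_lit 0x254024) (nat_lit 16)))
 (.n (.p (nat_lit 0x6c806c606c406c206be3bc106) (nat_lit 0x1000050b0a) (nat_lit 51))
 (.p (nat_lit 0x1dac5f7102) (nat_lit 0x3aa074c44000300000600) (nat_lit 50))))))
 (.n (.n (.n (.n (.p (nat_lit 0x9f1071d02) (nat_lit 0x4a100) (nat_lit 16))
 (.p (nat_lit 0xe8c0e8a0e880e860e84124b06) (nat_lit 0x10000040415) (nat_lit 51)))
 (.n (.p (nat_lit 0x3fc63fc23fbe3fbc0fb90fb506) (nat_lit 0xa0000c0304) (nat_lit 52))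
 (.p (nat_lit 0x58d458d258ce58cc58ca0007003607) (nat_lit 0x310a01) (nat_lit 25))))
 (.n (.n (.p (nat_lit 0x62d05f102) (nat_lit 0x214001) (nat_lit 16))
 (.p (nat_lit 0x142e142c142a1428142605eb06) (nat_lit 0x10000084023) (nat_lit 52)))
 (.n (.p (nat_lit 0x14351b702) (nat_lit 0x100a07) (nat_lit 30))
 (.p (nat_lit 0x5d3d5ea102) (nat_lit 0x100060000a00) (nat_lit 36)))))
 (.n (.n (.n (.p (nat_lit 0x18421840183e183c183a162306) (nat_lit 0x1000002700) (nat_lit 51))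
 (.p (nat_lit 0x8860d4102) (nat_lit 0x50011c) (nat_lit 5)))
 (.n (.p (nat_lit 0x1fd61fd41fd21fd01fce1d9306) (nat_lit 0x100000ce805) (nat_lit 52))
 (.p (nat_lit 0x5dfa3b9102) (nat_lit 0x20010300) (nat_lit 47))))
 (.n (.n (.p (nat_lit 0x334921b702) (nat_lit 0x106a02) (nat_lit 16))
 (.p (nat_lit 0x894140302) (nat_lit 0x12a) (nat_lit 5)))
 (.n (.p (nat_lit 0x1e752e102) (nat_lit 0x50e) (nat_lit 30))
 (.p (nat_lit 0x207a607102) (nat_lit 0x588162b40800400000600) (nat_lit 50))))))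

def c1024_853 : Tr :=
 .n (.n (.n (.n (.n (.n (.p (nat_lit 0x5e904e302) (nat_lit 0x408000) (nat_lit 16))
 (.p (nat_lit 0x180a61ed02) (nat_lit 0x382a31d05000100000600) (nat_lit 49)))
 (.p (nat_lit 0x4978456102) (nat_lit 0x200613) (nat_lit 4)))
 (.n (.p (nat_lit 0x7aa07a807a407a207a025c506) (nat_lit 0x4000042b03) (nat_lit 51))
 (.p (nat_lit 0x3c983c963c923c903c8e3e0506) (nat_lit 0x400004612e) (nat_lit 51))))
 (.n (.n (.p (nat_lit 0x2288228622822280227e1ff906) (nat_lit 0x40000cca00) (nat_lit 51))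
 (.p (nat_lit 0x363561102) (nat_lit 0x720) (nat_lit 30)))
 (.n (.p (nat_lit 0x14e016b015b0519068b05) (nat_lit 0xad100407) (nat_lit 9))
 (.p (nat_lit 0x5d5d1add02) (nat_lit 0x200080000800) (nat_lit 38)))))
 (.n (.n (.n (.p (nat_lit 0x144814441440143e1225122106) (nat_lit 0xa0000c6500) (nat_lit 52))
 (.p (nat_lit 0x229422922290228e228c494b06) (nat_lit 0x80004e51a) (nat_lit 51)))
 (.n (.p (nat_lit 0x255a2556255425521697169306) (nat_lit 0x14000012605) (nat_lit 52))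
 (.p (nat_lit 0x5ce15dc902) (nat_lit 0xc0020000100) (nat_lit 37))))
 (.n (.n (.p (nat_lit 0xf9e187b02) (nat_lit 0x340302) (nat_lit 4))
 (.p (nat_lit 0x45193d7302) (nat_lit 0x116127) (nat_lit 16)))
 (.n (.p (nat_lit 0x4f254f1902) (nat_lit 0x24440d) (nat_lit 16))
 (.p (nat_lit 0x13fc5fef02) (nat_lit 0x306a81c35000500040000) (nat_lit 50))))))
 (.n (.n (.n (.n (.p (nat_lit 0xd580d560d540d520d500b2f06) (nat_lit 0x80000a300) (nat_lit 52))
 (.p (nat_lit 0x1d560aeb02) (nat_lit 0x540815) (nat_lit 4)))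
 (.n (.p (nat_lit 0x233c233823362334233217fb06) (nat_lit 0x8000056604) (nat_lit 52))
 (.p (nat_lit 0x1855a3102) (nat_lit 0x209) (nat_lit 28))))
 (.n (.n (.p (nat_lit 0x3800490045174b15d905) (nat_lit 0x66800801) (nat_lit 9))
 (.p (nat_lit 0xd640d600d5e0d5a0caf0ca906) (nat_lit 0x90000ca223) (nat_lit 52)))
 (.n (.p (nat_lit 0x199e199c199a19981994308d06) (nat_lit 0x10000c0309) (nat_lit 52))
 (.p (nat_lit 0x15425ee902) (nat_lit 0x4a8866344000000000600) (nat_lit 50)))))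
 (.n (.n (.n (.p (nat_lit 0x1bb41bb01bae1bac190118f906) (nat_lit 0x8800016800) (nat_lit 52))
 (.p (nat_lit 0x385838563852384e1bf91bf506) (nat_lit 0x500009681c) (nat_lit 51)))
 (.n (.p (nat_lit 0x161e161c161816161614196b06) (nat_lit 0x4000094706) (nat_lit 51))
 (.p (nat_lit 0x5d45129b02) (nat_lit 0x80060000500) (nat_lit 38))))
 (.n (.n (.p (nat_lit 0x2380a1502) (nat_lit 0x40103) (nat_lit 1))
 (.p (nat_lit 0xf8a0f880f860f840f8204350f8107) (nat_lit 0x4032a) (nat_lit 7)))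
 (.n (.p (nat_lit 0x22dc22da22d422d2020401ed01eb22d922d709) (nat_lit 0x1a40a0e) (nat_lit 10))
 (.p (nat_lit 0x13fe60f302) (nat_lit 0x440d663a4000500040000) (nat_lit 50))))))

def c512_341 : Tr := .n c1024_341 c1024_853

def c256_85 : Tr := .n c512_85 c512_341

def c1024_213 : Tr :=
 .n (.n (.n (.n (.n (.n (.p (nat_lit 0xd300d100c700c404) (nat_lit 0x31800004) (nat_lit 20))
 (.p (nat_lit 0x1812615302) (nat_lit 0x1503a8895800100000600) (nat_lit 49)))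
 (.p (nat_lit 0x32742e7502) (nat_lit 0x440510) (nat_lit 4)))
 (.n (.p (nat_lit 0x13bc1b6502) (nat_lit 0x100503) (nat_lit 4))
 (.p (nat_lit 0x4898489648944892488e219f06) (nat_lit 0x1000006a2a) (nat_lit 51))))
 (.n (.n (.p (nat_lit 0x1e421e401e3e1e3a1e381bc706) (nat_lit 0x200008a900) (nat_lit 52))
 (.p (nat_lit 0x2bb2291102) (nat_lit 0x30091d) (nat_lit 5)))
 (.n (.p (nat_lit 0x1f0050dd02) (nat_lit 0x400906) (nat_lit 29))
 (.p (nat_lit 0x5da75e4d02) (nat_lit 0x600a0000600) (nat_lit 37)))))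
 (.n (.n (.n (.p (nat_lit 0xff40ff20ff00fee0dff0df506) (nat_lit 0x10800000400) (nat_lit 52))
 (.p (nat_lit 0x1a341a321a301a2e1a2c31f706) (nat_lit 0x10000014517) (nat_lit 51)))
 (.n (.p (nat_lit 0x227c227a22782276227225cd06) (nat_lit 0x100004cb04) (nat_lit 51))
 (.p (nat_lit 0x2f55b6702) (nat_lit 0x10061a) (nat_lit 28))))
 (.n (.n (.p (nat_lit 0x2050204e204a204800400031002b204d204709) (nat_lit 0x1840901) (nat_lit 10))
 (.p (nat_lit 0x2300120302) (nat_lit 0x540a23) (nat_lit 5)))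
 (.n (.p (nat_lit 0x3a90351502) (nat_lit 0x30060a) (nat_lit 5))
 (.p (nat_lit 0x20705f5302) (nat_lit 0x1a9d22350000400000600) (nat_lit 49))))))
 (.n (.n (.n (.n (.p (nat_lit 0x1e6071d02) (nat_lit 0x40100) (nat_lit 1))
 (.p (nat_lit 0x10f010ee10ec10e810e6028510eb07) (nat_lit 0x200415) (nat_lit 7)))
 (.n (.p (nat_lit 0xce61f5d02) (nat_lit 0x240204) (nat_lit 4))
 (.p (nat_lit 0x507a4f8f02) (nat_lit 0x300830) (nat_lit 4))))
 (.n (.n (.p (nat_lit 0x2550254a2548254622c322c106) (nat_lit 0xc0000d0b00) (nat_lit 52))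
 (.p (nat_lit 0x50644da502) (nat_lit 0x400822) (nat_lit 5)))
 (.n (.p (nat_lit 0x1e9f1bd502) (nat_lit 0x300807) (nat_lit 15))
 (.p (nat_lit 0x5ca7207702) (nat_lit 0x160000000a00) (nat_lit 40)))))
 (.n (.n (.n (.p (nat_lit 0x1778177617741772177016b106) (nat_lit 0x8000d2600) (nat_lit 52))
 (.p (nat_lit 0xd1a0d180d140d12073f073906) (nat_lit 0x1200004601c) (nat_lit 51)))
 (.n (.p (nat_lit 0x1c2c1c281c261c22010200eb00e51c2b1c2509) (nat_lit 0x2100805) (nat_lit 10))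
 (.p (nat_lit 0x5d675ded02) (nat_lit 0x160080000200) (nat_lit 37))))
 (.n (.n (.p (nat_lit 0x3311205902) (nat_lit 0x34a902) (nat_lit 16))
 (.p (nat_lit 0x253825362534253225304c8706) (nat_lit 0x8000ce129) (nat_lit 51)))
 (.n (.p (nat_lit 0x123607d302) (nat_lit 0x14040e) (nat_lit 5))
 (.p (nat_lit 0x2495248121dd21d71f131f0b1c471c431983197316af169d60500d) (nat_lit 0x40a962335000000040600) (nat_lit 33))))))

def c1024_725 : Tr :=
 .n (.n (.n (.n (.n (.n (.p (nat_lit 0x4e404e004dc04da00200009000504e304df09) (nat_lit 0x2200000) (nat_lit 10))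
 (.p (nat_lit 0x114261cf02) (nat_lit 0x3561684a0800400040000) (nat_lit 49)))
 (.p (nat_lit 0x1ee427102) (nat_lit 0x440612) (nat_lit 1)))
 (.n (.p (nat_lit 0x1150114e114c114a1148246906) (nat_lit 0x800088b03) (nat_lit 51))
 (.p (nat_lit 0x375a3a2f02) (nat_lit 0x4022d) (nat_lit 4))))
 (.n (.n (.p (nat_lit 0x218f1e9702) (nat_lit 0x506a00) (nat_lit 16))
 (.p (nat_lit 0x3de93d0302) (nat_lit 0x140020) (nat_lit 15)))
 (.n (.p (nat_lit 0x79e079c079a079607940f6d06) (nat_lit 0x2000042307) (nat_lit 52))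
 (.p (nat_lit 0x5d135e7102) (nat_lit 0xa0040000800) (nat_lit 37)))))
 (.n (.n (.n (.p (nat_lit 0x138f10c702) (nat_lit 0x204500) (nat_lit 16))
 (.p (nat_lit 0x37063704370036fe36fc42cf06) (nat_lit 0x400000a719) (nat_lit 51)))
 (.n (.p (nat_lit 0x4880487e487c487a4878487606) (nat_lit 0x4505) (nat_lit 52))
 (.p (nat_lit 0x5d435dbd02) (nat_lit 0xa0060000000) (nat_lit 36))))
 (.n (.n (.p (nat_lit 0xcca185d02) (nat_lit 0x40202) (nat_lit 4))
 (.p (nat_lit 0x3b12394702) (nat_lit 0x200a26) (nat_lit 5)))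
 (.n (.p (nat_lit 0x508050605040502050049c906) (nat_lit 0x80000670c) (nat_lit 52))
 (.p (nat_lit 0x15425fd302) (nat_lit 0x95a32b05000000000600) (nat_lit 50))))))
 (.n (.n (.n (.n (.p (nat_lit 0xcbd09d702) (nat_lit 0x54a200) (nat_lit 16))
 (.p (nat_lit 0x1924545102) (nat_lit 0x400715) (nat_lit 29)))
 (.n (.p (nat_lit 0x4255168502) (nat_lit 0x20a604) (nat_lit 16))
 (.p (nat_lit 0x11559d102) (nat_lit 0x100406) (nat_lit 28))))
 (.n (.n (.p (nat_lit 0x125629a902) (nat_lit 0x540401) (nat_lit 29))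
 (.p (nat_lit 0x30a0b4b02) (nat_lit 0x200223) (nat_lit 1)))
 (.n (.p (nat_lit 0x52a05280526052405222be706) (nat_lit 0x100000c8908) (nat_lit 51))
 (.p (nat_lit 0x13fe5ec702) (nat_lit 0x4a1a34344000500040000) (nat_lit 50)))))
 (.n (.n (.n (.p (nat_lit 0x1ad1179b02) (nat_lit 0x456700) (nat_lit 16))
 (.p (nat_lit 0x55425540553e553c553a5538031207) (nat_lit 0x71c) (nat_lit 8)))
 (.n (.p (nat_lit 0x1290128e128c128a012a011d01131293128909) (nat_lit 0x2840406) (nat_lit 10))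
 (.p (nat_lit 0x5d8d0feb02) (nat_lit 0x2000a0000400) (nat_lit 40))))
 (.n (.n (.p (nat_lit 0x348e348c348a34883486060f06) (nat_lit 0x10000014003) (nat_lit 51))
 (.p (nat_lit 0x197a19761974197219700cbb06) (nat_lit 0x80000ce22a) (nat_lit 52)))
 (.n (.p (nat_lit 0x2b5d1d4902) (nat_lit 0x44c80e) (nat_lit 16))
 (.p (nat_lit 0x8f660d502) (nat_lit 0x354a621b0000100040000) (nat_lit 50))))))

def c512_213 : Tr := .n c1024_213 c1024_725

def c1024_469 : Tr :=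
 .n (.n (.n (.n (.n (.n (.p (nat_lit 0x2ad0297028e03) (nat_lit 0x82800015) (nat_lit 19))
 (.p (nat_lit 0x154a618f02) (nat_lit 0x3422a5c14800000000600) (nat_lit 50)))
 (.p (nat_lit 0x3a9a359902) (nat_lit 0x200611) (nat_lit 5)))
 (.n (.p (nat_lit 0x18d018ce18cc18ca18c817f106) (nat_lit 0x10000054603) (nat_lit 52))
 (.p (nat_lit 0x2eca318f02) (nat_lit 0x34012c) (nat_lit 4))))
 (.n (.n (.p (nat_lit 0x1fca1fc81fc41fc21d331d2d06) (nat_lit 0x1200004e900) (nat_lit 52))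
 (.p (nat_lit 0x1b8e1b8c1b8a1b881b86355306) (nat_lit 0x100000cc01f) (nat_lit 51)))
 (.n (.p (nat_lit 0xc9a066502) (nat_lit 0x40207) (nat_lit 5))
 (.p (nat_lit 0x5d7d5e5f02) (nat_lit 0x80000700) (nat_lit 37)))))
 (.n (.n (.n (.p (nat_lit 0x118a1188118611840f670f5d06) (nat_lit 0x10800044400) (nat_lit 52))
 (.p (nat_lit 0x42373aad02) (nat_lit 0x514618) (nat_lit 16)))
 (.n (.p (nat_lit 0xba50b9902) (nat_lit 0x50c205) (nat_lit 16))
 (.p (nat_lit 0x14a5c2b02) (nat_lit 0x50012a) (nat_lit 27))))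
 (.n (.n (.p (nat_lit 0x23ee23ec23ea23e623e4231306) (nat_lit 0x2000050a01) (nat_lit 52))
 (.p (nat_lit 0x2c4a29f902) (nat_lit 0x400a24) (nat_lit 5)))
 (.n (.p (nat_lit 0x421e421a42184216421401b5421d07) (nat_lit 0x40060b) (nat_lit 7))
 (.p (nat_lit 0x233a5f8f02) (nat_lit 0x581a303a4000500000600) (nat_lit 49))))))
 (.n (.n (.n (.n (.p (nat_lit 0xa960a940a900a8e0a8c087706) (nat_lit 0x400000a200) (nat_lit 52))
 (.p (nat_lit 0x1c501c4e1c4c1c4a1c46138d06) (nat_lit 0x1000090515) (nat_lit 51)))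
 (.n (.p (nat_lit 0x127f127302) (nat_lit 0x156404) (nat_lit 16))
 (.p (nat_lit 0x352592b02) (nat_lit 0x200303) (nat_lit 27))))
 (.n (.n (.p (nat_lit 0x277e277c277a277827760a0706) (nat_lit 0x10000050101) (nat_lit 51))
 (.p (nat_lit 0x3a9569d02) (nat_lit 0x400123) (nat_lit 30)))
 (.n (.p (nat_lit 0x256a071102) (nat_lit 0x40b07) (nat_lit 4))
 (.p (nat_lit 0x5eac4b1b02) (nat_lit 0x6b00) (nat_lit 47)))))
 (.n (.n (.n (.p (nat_lit 0x1927162b02) (nat_lit 0x504700) (nat_lit 16))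
 (.p (nat_lit 0xa940a920a900a8e0a8c09e306) (nat_lit 0x1000004a11c) (nat_lit 52)))
 (.n (.p (nat_lit 0x4ba64ba44ba24ba04b9e4b9c012008e508df08dd0a) (nat_lit 0x10800106) (nat_lit 31))
 (.p (nat_lit 0x5e062bb502) (nat_lit 0x8000c300) (nat_lit 47))))
 (.n (.n (.p (nat_lit 0x1f0c1f0a1f081f061f04232506) (nat_lit 0x100000d2a02) (nat_lit 52))
 (.p (nat_lit 0x9fa09f809f609f204480439043509f509f109) (nat_lit 0x104012a) (nat_lit 10)))
 (.n (.p (nat_lit 0x69e069a06980696069414d106) (nat_lit 0x80000c850e) (nat_lit 52))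
 (.p (nat_lit 0x1534609102) (nat_lit 0x342221ca4000000000600) (nat_lit 49))))))

def c1024_981 : Tr :=
 .n (.n (.n (.n (.n (.p (nat_lit 0x6b206b006ac06aa0657065106) (nat_lit 0x1200004e000) (nat_lit 51))
 (.p (nat_lit 0x2550254e254c254a25464f2306) (nat_lit 0x10000d0414) (nat_lit 52)))
 (.n (.p (nat_lit 0xc200cf00df1f271dc305) (nat_lit 0x45d00004) (nat_lit 9))
 (.p (nat_lit 0x3a643a623a603a5e3a5a42ef06) (nat_lit 0x100009672e) (nat_lit 51))))
 (.n (.n (.p (nat_lit 0x215e215c21562154001e00070005215b215909) (nat_lit 0x1a00b00) (nat_lit 10))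
 (.p (nat_lit 0x21522150214e214a214844a106) (nat_lit 0x20000d0021) (nat_lit 51)))
 (.n (.p (nat_lit 0x140c140a140614041402122f06) (nat_lit 0x4000042407) (nat_lit 51))
 (.p (nat_lit 0x5e7e410102) (nat_lit 0x42900) (nat_lit 48)))))
 (.n (.n (.n (.p (nat_lit 0x157615721570156e1557155306) (nat_lit 0x14000082600) (nat_lit 52))
 (.p (nat_lit 0x4fac4cbd02) (nat_lit 0x4051b) (nat_lit 5)))
 (.n (.p (nat_lit 0xd0e0d0c0d0a0d080d06196306) (nat_lit 0x10000006705) (nat_lit 52))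
 (.p (nat_lit 0x5dd20ca102) (nat_lit 0x6004a100) (nat_lit 48))))
 (.n (.n (.p (nat_lit 0x13b81a0702) (nat_lit 0x500502) (nat_lit 4))
 (.p (nat_lit 0x431e40e702) (nat_lit 0x440727) (nat_lit 4)))
 (.n (.p (nat_lit 0x1ef52d102) (nat_lit 0x40030e) (nat_lit 30))
 (.p (nat_lit 0x8fa601302) (nat_lit 0x405aa2335000100040000) (nat_lit 50))))))
 (.n (.n (.n (.n (.p (nat_lit 0xc8e0e7902) (nat_lit 0x40300) (nat_lit 5))
 (.p (nat_lit 0x465a4658465646544650217b06) (nat_lit 0x100000ca15) (nat_lit 52)))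
 (.n (.p (nat_lit 0x42cf195302) (nat_lit 0x304704) (nat_lit 16))
 (.p (nat_lit 0x1ec01ea01e801e60243000906) (nat_lit 0x2c1040e) (nat_lit 26))))
 (.n (.n (.p (nat_lit 0x1d82175d02) (nat_lit 0x340801) (nat_lit 5))
 (.p (nat_lit 0x1a9c11bb02) (nat_lit 0x240723) (nat_lit 4)))
 (.n (.p (nat_lit 0x144337b02) (nat_lit 0x240a09) (nat_lit 1))
 (.p (nat_lit 0x233c5f1102) (nat_lit 0x3a2270350000500000600) (nat_lit 49)))))
 (.n (.n (.n (.p (nat_lit 0x1c801c7e1c7c1c7a1c781a5d06) (nat_lit 0x8000c2800) (nat_lit 52))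
 (.p (nat_lit 0x202a557d02) (nat_lit 0x44091c) (nat_lit 29)))
 (.n (.p (nat_lit 0xa5a0a580a560a540a521c2f06) (nat_lit 0x800004806) (nat_lit 51))
 (.p (nat_lit 0x5cbb16a502) (nat_lit 0x20000000600) (nat_lit 41))))
 (.n (.n (.p (nat_lit 0xce00cde0cda0cd8009c008d00870cdd0cd709) (nat_lit 0x1840203) (nat_lit 10))
 (.p (nat_lit 0x43d57ed02) (nat_lit 0x44062a) (nat_lit 30)))
 (.n (.p (nat_lit 0x302a0f02) (nat_lit 0x34040f) (nat_lit 1))
 (.p (nat_lit 0xbb2611702) (nat_lit 0x3562621b0000200040000) (nat_lit 50))))))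

def c512_469 : Tr := .n c1024_469 c1024_981

def c256_213 : Tr := .n c512_213 c512_469

def c128_85 : Tr := .n c256_85 c256_213

def c64_21 : Tr := .n c128_21 c128_85

def c1024_53 : Tr :=
 .n (.n (.n (.n (.n (.n (.p (nat_lit 0x34003b02) (nat_lit 0x10000600001) (nat_lit 17))
 (.p (nat_lit 0x8f2612f02) (nat_lit 0x35486a1b0000100040000) (nat_lit 49)))
 (.p (nat_lit 0x2b98278f02) (nat_lit 0x20090f) (nat_lit 5)))
 (.n (.p (nat_lit 0xfae37f302) (nat_lit 0x540303) (nat_lit 29))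
 (.p (nat_lit 0x1c0c146f02) (nat_lit 0x10082a) (nat_lit 4))))
 (.n (.n (.p (nat_lit 0x1d0a1d081d061d041a671a6506) (nat_lit 0x180000d4800) (nat_lit 51))
 (.p (nat_lit 0x38e22f502) (nat_lit 0x540a1c) (nat_lit 1)))
 (.n (.p (nat_lit 0x1d9a508702) (nat_lit 0x340806) (nat_lit 29))
 (.p (nat_lit 0x5ccf169b02) (nat_lit 0x1e0020000600) (nat_lit 39)))))
 (.n (.n (.n (.p (nat_lit 0xed60ed40ed00ecc0c950c9106) (nat_lit 0x500004c300) (nat_lit 52))
 (.p (nat_lit 0x258a0c8b02) (nat_lit 0x440b15) (nat_lit 4)))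
 (.n (.p (nat_lit 0x43231ab102) (nat_lit 0x4a704) (nat_lit 16))
 (.p (nat_lit 0x22d5ad102) (nat_lit 0x500510) (nat_lit 28))))
 (.n (.n (.p (nat_lit 0x3800530051176715f505) (nat_lit 0x8ea00901) (nat_lit 9))
 (.p (nat_lit 0x1d6a11d502) (nat_lit 0x340823) (nat_lit 4)))
 (.n (.p (nat_lit 0x240374b02) (nat_lit 0x44020a) (nat_lit 1))
 (.p (nat_lit 0x6345f2302) (nat_lit 0x3a2560b44000000040000) (nat_lit 49))))))
 (.n (.n (.n (.n (.p (nat_lit 0x5c605c405c205c005bc000305bf07) (nat_lit 0x100100) (nat_lit 7))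
 (.p (nat_lit 0x5d205d005ce05cc05ca028105c907) (nat_lit 0x15) (nat_lit 7)))
 (.n (.p (nat_lit 0x8ca1f3b02) (nat_lit 0x300104) (nat_lit 4))
 (.p (nat_lit 0x469646944692468e468c04af469107) (nat_lit 0x24022f) (nat_lit 7))))
 (.n (.n (.p (nat_lit 0x1553215b02) (nat_lit 0x300b00) (nat_lit 15))
 (.p (nat_lit 0x4a46474d02) (nat_lit 0x540721) (nat_lit 4)))
 (.n (.p (nat_lit 0x14b517702) (nat_lit 0x540607) (nat_lit 30))
 (.p (nat_lit 0x5cf15e8702) (nat_lit 0x2c0040000900) (nat_lit 36)))))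
 (.n (.n (.n (.p (nat_lit 0x1645154d02) (nat_lit 0x4600) (nat_lit 16))
 (.p (nat_lit 0x314032b03350e8f0d2905) (nat_lit 0x6a50001c) (nat_lit 9)))
 (.n (.p (nat_lit 0x1ac6213b02) (nat_lit 0x540705) (nat_lit 5))
 (.p (nat_lit 0x5c990a4502) (nat_lit 0x240000000200) (nat_lit 38))))
 (.n (.n (.p (nat_lit 0x1ef61ef21ef01eee1eec00611ef507) (nat_lit 0x400902) (nat_lit 7))
 (.p (nat_lit 0x20d220d020ce20cc20ca458706) (nat_lit 0x800046128) (nat_lit 51)))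
 (.n (.p (nat_lit 0xbd20bce0bcc0bca0f7f0f7b06) (nat_lit 0x140000c030e) (nat_lit 52))
 (.p (nat_lit 0x2495248121db21d71f151f0b1c471c431983197316af169d60280d) (nat_lit 0x406a62335000000040600) (nat_lit 33))))))

def c1024_565 : Tr :=
 .n (.n (.n (.n (.n (.n (.p (nat_lit 0x36c037302) (nat_lit 0x10000600020) (nat_lit 17))
 (.p (nat_lit 0x233661a702) (nat_lit 0x3421a9c14800500000600) (nat_lit 49)))
 (.p (nat_lit 0x3f9e3d8b02) (nat_lit 0x200312) (nat_lit 5)))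
 (.n (.p (nat_lit 0x1e721e701e6e1e6a21c521c106) (nat_lit 0x280008ea03) (nat_lit 51))
 (.p (nat_lit 0x48e330b02) (nat_lit 0x4092c) (nat_lit 1))))
 (.n (.n (.p (nat_lit 0xe41e8f02) (nat_lit 0x100a00) (nat_lit 1))
 (.p (nat_lit 0x3fe63fe43fe23fe03fde3b0f06) (nat_lit 0x1000000ca1f) (nat_lit 52)))
 (.n (.p (nat_lit 0xe04050302) (nat_lit 0x200307) (nat_lit 4))
 (.p (nat_lit 0x5d955e6502) (nat_lit 0x1800a0000700) (nat_lit 36)))))
 (.n (.n (.n (.p (nat_lit 0x12890f5d02) (nat_lit 0x56400) (nat_lit 16))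
 (.p (nat_lit 0x410c3eb502) (nat_lit 0x140419) (nat_lit 5)))
 (.n (.p (nat_lit 0x46f50e5702) (nat_lit 0x10a305) (nat_lit 16))
 (.p (nat_lit 0x49804940492048e03ef008f06) (nat_lit 0xc0622d) (nat_lit 26))))
 (.n (.n (.p (nat_lit 0x7622d1302) (nat_lit 0x540002) (nat_lit 29))
 (.p (nat_lit 0x100210000ffe0ffa0ff8335706) (nat_lit 0x2000080a25) (nat_lit 52)))
 (.n (.p (nat_lit 0x440043fe43fc43fa43f8433906) (nat_lit 0x80008eb0b) (nat_lit 52))
 (.p (nat_lit 0x20705fa302) (nat_lit 0x589832b44000400000600) (nat_lit 49))))))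
 (.n (.n (.n (.n (.p (nat_lit 0xb91087302) (nat_lit 0x114200) (nat_lit 16))
 (.p (nat_lit 0x129e129c129a1296129414d906) (nat_lit 0x200004a515) (nat_lit 52)))
 (.n (.p (nat_lit 0xbf41a902) (nat_lit 0x540504) (nat_lit 30))
 (.p (nat_lit 0xbc00ba00b800b40091000306) (nat_lit 0x290e604) (nat_lit 26))))
 (.n (.n (.p (nat_lit 0xcc80cc60cc20cbe00480031002d0cc50cc109) (nat_lit 0x1940201) (nat_lit 10))
 (.p (nat_lit 0x273f089302) (nat_lit 0x50c123) (nat_lit 16)))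
 (.n (.p (nat_lit 0x28d4260302) (nat_lit 0x500308) (nat_lit 4))
 (.p (nat_lit 0x5d355ebb02) (nat_lit 0x180060000b00) (nat_lit 36)))))
 (.n (.n (.n (.p (nat_lit 0x19cc19c619c419c2179b179906) (nat_lit 0xc0000c4700) (nat_lit 51))
 (.p (nat_lit 0x10b410b210b010aa139b139906) (nat_lit 0x300001651c) (nat_lit 52)))
 (.n (.p (nat_lit 0xcfc24d302) (nat_lit 0x140206) (nat_lit 5))
 (.p (nat_lit 0x5cd15e1102) (nat_lit 0x1c0020000400) (nat_lit 37))))
 (.n (.n (.p (nat_lit 0x170c170a170817042461245d06) (nat_lit 0x2800006b02) (nat_lit 51))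
 (.p (nat_lit 0xbae0bac0baa0ba80ba60b5d06) (nat_lit 0x1000008422a) (nat_lit 52)))
 (.n (.p (nat_lit 0x1918080502) (nat_lit 0x40070e) (nat_lit 4))
 (.p (nat_lit 0x114860a502) (nat_lit 0x346068ca4000400040000) (nat_lit 50))))))

def c512_53 : Tr := .n c1024_53 c1024_565

def c1024_309 : Tr :=
 .n (.n (.n (.n (.n (.n (.p (nat_lit 0x13d012f012003) (nat_lit 0x62900006) (nat_lit 19))
 (.p (nat_lit 0x12a912970fe10fdb0d170d110a530a4507a7079d04d904c761660d) (nat_lit 0x421aa4395000000000000) (nat_lit 33)))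
 (.p (nat_lit 0x33d853a302) (nat_lit 0x100b10) (nat_lit 29)))
 (.n (.p (nat_lit 0x16763a8102) (nat_lit 0x100603) (nat_lit 29))
 (.p (nat_lit 0x178274702) (nat_lit 0x50012b) (nat_lit 1))))
 (.n (.n (.p (nat_lit 0x1eb51bc702) (nat_lit 0x204900) (nat_lit 16))
 (.p (nat_lit 0x2e2c304b02) (nat_lit 0x30011e) (nat_lit 4)))
 (.n (.p (nat_lit 0x2068512302) (nat_lit 0x540906) (nat_lit 29))
 (.p (nat_lit 0x5e502ebb02) (nat_lit 0x48700) (nat_lit 47)))))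
 (.n (.n (.n (.p (nat_lit 0x109c109a109810961094109206) (nat_lit 0x14400) (nat_lit 52))
 (.p (nat_lit 0x33922f8502) (nat_lit 0x240a17) (nat_lit 5)))
 (.n (.p (nat_lit 0x633062702) (nat_lit 0x50c005) (nat_lit 16))
 (.p (nat_lit 0x36a03680364036203ff00bf06) (nat_lit 0x150a020) (nat_lit 26))))
 (.n (.n (.p (nat_lit 0x2bdf204902) (nat_lit 0x140901) (nat_lit 16))
 (.p (nat_lit 0x25a4121b02) (nat_lit 0x540b23) (nat_lit 5)))
 (.n (.p (nat_lit 0x3bbe353102) (nat_lit 0x40b0a) (nat_lit 4))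
 (.p (nat_lit 0x248f248b21dd21d51f111f0b1c511c3d1983197516ad16995f6a0d) (nat_lit 0x1aa074b50000000040600) (nat_lit 33))))))
 (.n (.n (.n (.n (.p (nat_lit 0x97409720970096e0727071d06) (nat_lit 0x10800050100) (nat_lit 51))
 (.p (nat_lit 0x12460be902) (nat_lit 0x340415) (nat_lit 5)))
 (.n (.p (nat_lit 0x111d0e4f02) (nat_lit 0x300304) (nat_lit 15))
 (.p (nat_lit 0x320030002c002a0005046d06) (nat_lit 0x1512501) (nat_lit 26))))
 (.n (.n (.p (nat_lit 0x2d25d902) (nat_lit 0x100001) (nat_lit 30))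
 (.p (nat_lit 0x3ae03b303cf115b0ff505) (nat_lit 0x22c00023) (nat_lit 9)))
 (.n (.p (nat_lit 0x1b2200502) (nat_lit 0x340907) (nat_lit 1))
 (.p (nat_lit 0x5e9a206102) (nat_lit 0x2004ca00) (nat_lit 47)))))
 (.n (.n (.n (.p (nat_lit 0x1622180d02) (nat_lit 0x100700) (nat_lit 4))
 (.p (nat_lit 0x44a7073f02) (nat_lit 0x55401c) (nat_lit 16)))
 (.n (.p (nat_lit 0x1dce1dcc1dca1dc81dc61d8906) (nat_lit 0x8000c0805) (nat_lit 52))
 (.p (nat_lit 0x5df4505d02) (nat_lit 0x16300) (nat_lit 48))))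
 (.n (.n (.p (nat_lit 0x1c501c4e1c4c1c4a1c4621b706) (nat_lit 0x1000090a02) (nat_lit 51))
 (.p (nat_lit 0x3aa50c702) (nat_lit 0x540829) (nat_lit 1)))
 (.n (.p (nat_lit 0x14c9123502) (nat_lit 0x4040e) (nat_lit 15))
 (.p (nat_lit 0x8ec606902) (nat_lit 0x588172b40800100040000) (nat_lit 49))))))

def c1024_821 : Tr :=
 .n (.n (.n (.n (.n (.n (.p (nat_lit 0x59605940592059004dd04db06) (nat_lit 0x1800014000) (nat_lit 51))
 (.p (nat_lit 0x1dac61e502) (nat_lit 0x14e0a8c74000300000600) (nat_lit 50)))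
 (.p (nat_lit 0x485244d302) (nat_lit 0x440413) (nat_lit 5)))
 (.n (.p (nat_lit 0x25c825c625c425c225c0008725bf07) (nat_lit 0x40b03) (nat_lit 7))
 (.p (nat_lit 0x3bfc39d502) (nat_lit 0x140b2d) (nat_lit 4))))
 (.n (.n (.p (nat_lit 0x224c224a2248224422421ff706) (nat_lit 0x2000048a00) (nat_lit 52))
 (.p (nat_lit 0x42dd424102) (nat_lit 0x400620) (nat_lit 15)))
 (.n (.p (nat_lit 0x308f0f6d02) (nat_lit 0x24e307) (nat_lit 16))
 (.p (nat_lit 0x5d735e7902) (nat_lit 0xa0080000800) (nat_lit 37)))))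
 (.n (.n (.n (.p (nat_lit 0x14221420141c141a1227122106) (nat_lit 0x12000044500) (nat_lit 51))
 (.p (nat_lit 0x2116211421122110210c48bf06) (nat_lit 0x100000c51a) (nat_lit 52)))
 (.n (.p (nat_lit 0xed496d02) (nat_lit 0x500605) (nat_lit 30))
 (.p (nat_lit 0x5cbb5dc502) (nat_lit 0x20000000100) (nat_lit 37))))
 (.n (.n (.p (nat_lit 0x2fe42fe22fe02fde2fdc0e3b06) (nat_lit 0x10000092302) (nat_lit 52))
 (.p (nat_lit 0x3d72402902) (nat_lit 0x100127) (nat_lit 4)))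
 (.n (.p (nat_lit 0x23ee23ec23ea23e623e44e1f06) (nat_lit 0x200005030d) (nat_lit 52))
 (.p (nat_lit 0xbac5fe902) (nat_lit 0x306a81d31000200040000) (nat_lit 49))))))
 (.n (.n (.n (.n (.p (nat_lit 0xd340d2e0d2c0d2a0b370b3506) (nat_lit 0xc000080300) (nat_lit 51))
 (.p (nat_lit 0x1bf00c3b02) (nat_lit 0x500815) (nat_lit 5)))
 (.n (.p (nat_lit 0x16aa16a816a616a417fd17fb06) (nat_lit 0x180000cc604) (nat_lit 51))
 (.p (nat_lit 0x5a105a0c5a0a5a085a060061014c07) (nat_lit 0x406707) (nat_lit 25))))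
 (.n (.n (.p (nat_lit 0x14f414f214f014ec004a0035002d14f714ef09) (nat_lit 0x2940501) (nat_lit 10))
 (.p (nat_lit 0x3ae03c103bb1033119905) (nat_lit 0x84540223) (nat_lit 9)))
 (.n (.p (nat_lit 0x18d218d018ce18cc18c8300d06) (nat_lit 0x1000014309) (nat_lit 52))
 (.p (nat_lit 0x1db65edf02) (nat_lit 0x4a9d22344000300000600) (nat_lit 50)))))
 (.n (.n (.n (.p (nat_lit 0x1b901b8c1b8a1b88190118f906) (nat_lit 0x880008c800) (nat_lit 51))
 (.p (nat_lit 0x1bf40d9902) (nat_lit 0x10081c) (nat_lit 5)))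
 (.n (.p (nat_lit 0x196e23d702) (nat_lit 0x500706) (nat_lit 4))
 (.p (nat_lit 0x5cfd5e2b02) (nat_lit 0x200040000500) (nat_lit 37))))
 (.n (.n (.p (nat_lit 0x24208c302) (nat_lit 0x500103) (nat_lit 1))
 (.p (nat_lit 0x11741170116e116c116a0e2106) (nat_lit 0x800000232a) (nat_lit 51)))
 (.n (.p (nat_lit 0x2423216f02) (nat_lit 0x100a0e) (nat_lit 15))
 (.p (nat_lit 0x64260ef02) (nat_lit 0x440d6a3a4000000040000) (nat_lit 50))))))

def c512_309 : Tr := .n c1024_309 c1024_821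

def c256_53 : Tr := .n c512_53 c512_309

def c1024_181 : Tr :=
 .n (.n (.n (.n (.n (.n (.p (nat_lit 0xbc00ba00b400c104) (nat_lit 0xc800400004) (nat_lit 17))
 (.p (nat_lit 0xe6e614d02) (nat_lit 0x3b0221d85000300040000) (nat_lit 49)))
 (.p (nat_lit 0x18c418c218c018be18bc317d06) (nat_lit 0x100000d2410) (nat_lit 52)))
 (.n (.p (nat_lit 0x392439223920391e391a126706) (nat_lit 0x10000c2403) (nat_lit 52))
 (.p (nat_lit 0x435582d02) (nat_lit 0xa2a) (nat_lit 30))))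
 (.n (.n (.p (nat_lit 0x1de61de21dde1ddc1bcb1bc706) (nat_lit 0xa000082900) (nat_lit 51))
 (.p (nat_lit 0x272a290102) (nat_lit 0x10011d) (nat_lit 4)))
 (.n (.p (nat_lit 0x50c31d9b02) (nat_lit 0x348806) (nat_lit 16))
 (.p (nat_lit 0x5d775e4902) (nat_lit 0x60080000600) (nat_lit 37)))))
 (.n (.n (.n (.p (nat_lit 0xdfa0fdb02) (nat_lit 0x300400) (nat_lit 4))
 (.p (nat_lit 0x2c44286502) (nat_lit 0x500a16) (nat_lit 5)))
 (.n (.p (nat_lit 0x25d425d025ce25cc25ca00bd25d307) (nat_lit 0x440b04) (nat_lit 7))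
 (.p (nat_lit 0x2585b4f02) (nat_lit 0x500019) (nat_lit 27))))
 (.n (.n (.p (nat_lit 0x1eff1ee702) (nat_lit 0x314901) (nat_lit 16))
 (.p (nat_lit 0x219811f702) (nat_lit 0x400a23) (nat_lit 5)))
 (.n (.p (nat_lit 0x396c350b02) (nat_lit 0x34040a) (nat_lit 4))
 (.p (nat_lit 0x8ec5f4302) (nat_lit 0x1a1d22350000100040000) (nat_lit 49))))))
 (.n (.n (.n (.n (.p (nat_lit 0x8a705c302) (nat_lit 0x30c100) (nat_lit 16))
 (.p (nat_lit 0x842083e083c08380731072b06) (nat_lit 0x90000d2015) (nat_lit 52)))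
 (.n (.p (nat_lit 0x3e403e3e3e3c3e3a3e380b8d06) (nat_lit 0x1000000c204) (nat_lit 51))
 (.p (nat_lit 0x4d024f4902) (nat_lit 0x300230) (nat_lit 4))))
 (.n (.n (.p (nat_lit 0x252c252825262524252222c306) (nat_lit 0x800004eb00) (nat_lit 51))
 (.p (nat_lit 0x5020567102) (nat_lit 0x40722) (nat_lit 29)))
 (.n (.p (nat_lit 0x1bd81bd61bd21bd01bce01471bd507) (nat_lit 0x300807) (nat_lit 7))
 (.p (nat_lit 0x5d8d5e9302) (nat_lit 0x2000a0000900) (nat_lit 37)))))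
 (.n (.n (.n (.p (nat_lit 0x1754174e174c174a16b916b706) (nat_lit 0xc000050600) (nat_lit 51))
 (.p (nat_lit 0x73a0e9702) (nat_lit 0x34001c) (nat_lit 4)))
 (.n (.p (nat_lit 0x1c24213f02) (nat_lit 0x100805) (nat_lit 5))
 (.p (nat_lit 0x5d330bad02) (nat_lit 0x1a0060000200) (nat_lit 39))))
 (.n (.n (.p (nat_lit 0x1d021d001cfe1cfa1cf8205706) (nat_lit 0x2000054902) (nat_lit 51))
 (.p (nat_lit 0x23ee23ec23ea23e623e44c1106) (nat_lit 0x2000010129) (nat_lit 52)))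
 (.n (.p (nat_lit 0x233c233823362334233210e306) (nat_lit 0x800001640e) (nat_lit 52))
 (.p (nat_lit 0xbb2604902) (nat_lit 0x406a6254c800200040000) (nat_lit 50))))))

def c1024_693 : Tr :=
 .n (.n (.n (.n (.n (.n (.p (nat_lit 0x4e404e204e004de04dc000104db07) (nat_lit 0x0) (nat_lit 7))
 (.p (nat_lit 0x16a661c702) (nat_lit 0x340d89ca4000000040600) (nat_lit 50)))
 (.p (nat_lit 0x422a42284226422242200253422507) (nat_lit 0x200612) (nat_lit 7)))
 (.n (.p (nat_lit 0x4cc04ca04c804c604c2246b06) (nat_lit 0x1000000b03) (nat_lit 52))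
 (.p (nat_lit 0x36d03a2502) (nat_lit 0x10022d) (nat_lit 5))))
 (.n (.n (.p (nat_lit 0x2152214e214c21481e951e8f06) (nat_lit 0x9000090a00) (nat_lit 51))
 (.p (nat_lit 0x3d003fbd02) (nat_lit 0x40020) (nat_lit 4)))
 (.n (.p (nat_lit 0x46f10e0b02) (nat_lit 0x514307) (nat_lit 16))
 (.p (nat_lit 0x5ccb1ad702) (nat_lit 0x220020000800) (nat_lit 38)))))
 (.n (.n (.n (.p (nat_lit 0x133613341330132e10cb10c706) (nat_lit 0xa000090500) (nat_lit 51))
 (.p (nat_lit 0xa960a940a920a900a8c427706) (nat_lit 0x100004a619) (nat_lit 52)))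
 (.n (.p (nat_lit 0x151d127d02) (nat_lit 0x40405) (nat_lit 15))
 (.p (nat_lit 0x5db409f302) (nat_lit 0x20048000) (nat_lit 48))))
 (.n (.n (.p (nat_lit 0x2ed82ed62ed42ed22ed02ece006407) (nat_lit 0x202) (nat_lit 8))
 (.p (nat_lit 0x36cc392f02) (nat_lit 0x500226) (nat_lit 4)))
 (.n (.p (nat_lit 0x4ac24ac04abe4abc4aba496f06) (nat_lit 0x80000660c) (nat_lit 52))
 (.p (nat_lit 0x1ae85fcd02) (nat_lit 0x95832b05000200000600) (nat_lit 50))))))
 (.n (.n (.n (.n (.p (nat_lit 0xc680c660c640c6009d709cf06) (nat_lit 0x11000054200) (nat_lit 51))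
 (.p (nat_lit 0x28b544702) (nat_lit 0x540615) (nat_lit 30)))
 (.n (.p (nat_lit 0x21e221e021de21dc21da168106) (nat_lit 0x800094604) (nat_lit 51))
 (.p (nat_lit 0x59c059be59bc59b859b6000500ee07) (nat_lit 0x20c805) (nat_lit 25))))
 (.n (.n (.p (nat_lit 0x10ff10f302) (nat_lit 0x10401) (nat_lit 16))
 (.p (nat_lit 0x9fb09ef02) (nat_lit 0x540123) (nat_lit 16)))
 (.n (.p (nat_lit 0x66c066a0668066606642b9306) (nat_lit 0x10000084908) (nat_lit 51))
 (.p (nat_lit 0x5ec2248b02) (nat_lit 0xa0040b00) (nat_lit 45)))))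
 (.n (.n (.n (.p (nat_lit 0x1a89179b02) (nat_lit 0x444700) (nat_lit 16))
 (.p (nat_lit 0x1931165902) (nat_lit 0x40061c) (nat_lit 15)))
 (.n (.p (nat_lit 0x4eb84eb64eb44eb24eb04eae011e07) (nat_lit 0x40406) (nat_lit 8))
 (.p (nat_lit 0x5e1c139f02) (nat_lit 0x80004400) (nat_lit 47))))
 (.n (.n (.p (nat_lit 0x25bf25b302) (nat_lit 0x52b02) (nat_lit 16))
 (.p (nat_lit 0xd1c0d180d160d140d120cbb06) (nat_lit 0x800004622a) (nat_lit 51)))
 (.n (.p (nat_lit 0x1d46532f02) (nat_lit 0x34080e) (nat_lit 29))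
 (.p (nat_lit 0xe8260cf02) (nat_lit 0x35056a3a4000300040000) (nat_lit 50))))))

def c512_181 : Tr := .n c1024_181 c1024_693

def c1024_437 : Tr :=
 .n (.n (.n (.n (.n (.n (.p (nat_lit 0x28602840282028d04) (nat_lit 0x7000400015) (nat_lit 17))
 (.p (nat_lit 0x1da8618702) (nat_lit 0x54c88a970000300000600) (nat_lit 49)))
 (.p (nat_lit 0x1b901b8c1b8a1b881b86397b06) (nat_lit 0x80000cc411) (nat_lit 51)))
 (.n (.p (nat_lit 0x17ec17ea17e817e600b20091008f17f117ef09) (nat_lit 0x2c40603) (nat_lit 10))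
 (.p (nat_lit 0x12e612e412e012de12dc2bcb06) (nat_lit 0x400000692b) (nat_lit 51))))
 (.n (.n (.p (nat_lit 0x1fb41fb01fac1faa1d311d2d06) (nat_lit 0xa00004c900) (nat_lit 51))
 (.p (nat_lit 0x1d1a1d161d141d121d1034c706) (nat_lit 0x800001601f) (nat_lit 51)))
 (.n (.p (nat_lit 0x9a609a409a209a0099c0b3d06) (nat_lit 0x1000014207) (nat_lit 52))
 (.p (nat_lit 0x5d2f181102) (nat_lit 0x1e0060000700) (nat_lit 38)))))
 (.n (.n (.n (.p (nat_lit 0x116811641162115e0f650f5f06) (nat_lit 0x90000c0400) (nat_lit 51))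
 (.p (nat_lit 0x3a70368b02) (nat_lit 0x540518) (nat_lit 5)))
 (.n (.p (nat_lit 0xb980b960b940b900b8e00e70b9307) (nat_lit 0x200205) (nat_lit 7))
 (.p (nat_lit 0x3e803e603e203de005f047d06) (nat_lit 0x1902025) (nat_lit 26))))
 (.n (.n (.p (nat_lit 0x2316161d02) (nat_lit 0x440a01) (nat_lit 5))
 (.p (nat_lit 0x2bbc297902) (nat_lit 0x200924) (nat_lit 5)))
 (.n (.p (nat_lit 0x1fd81fd41fd21fd01fce401706) (nat_lit 0x80000ce30b) (nat_lit 52))
 (.p (nat_lit 0xbba5f8502) (nat_lit 0x581a32b44000200040000) (nat_lit 50))))))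
 (.n (.n (.n (.n (.p (nat_lit 0xa720a700a6a0a680877087506) (nat_lit 0x6000080200) (nat_lit 51))
 (.p (nat_lit 0xe800e7e0e7c0e7a0e78139506) (nat_lit 0x10000086515) (nat_lit 51)))
 (.n (.p (nat_lit 0x127840a102) (nat_lit 0x440404) (nat_lit 29))
 (.p (nat_lit 0x8d591502) (nat_lit 0x300003) (nat_lit 28))))
 (.n (.n (.p (nat_lit 0x9fc274902) (nat_lit 0x40101) (nat_lit 29))
 (.p (nat_lit 0x9ed074902) (nat_lit 0x440023) (nat_lit 15)))
 (.n (.p (nat_lit 0x241c05ad02) (nat_lit 0x400b07) (nat_lit 5))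
 (.p (nat_lit 0x5d895eab02) (nat_lit 0x2400a0000a00) (nat_lit 37)))))
 (.n (.n (.n (.p (nat_lit 0x18f618f418f018ec1627162306) (nat_lit 0x5000096700) (nat_lit 51))
 (.p (nat_lit 0x30d550f02) (nat_lit 0x34011c) (nat_lit 30)))
 (.n (.p (nat_lit 0x8dc24b102) (nat_lit 0x106) (nat_lit 5))
 (.p (nat_lit 0x5d730d1b02) (nat_lit 0xa0080000300) (nat_lit 40))))
 (.n (.n (.p (nat_lit 0x16ac16aa16a816a616a4232506) (nat_lit 0x100000cca02) (nat_lit 51))
 (.p (nat_lit 0x4420451044b140f12b905) (nat_lit 0x4584012a) (nat_lit 9)))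
 (.n (.p (nat_lit 0x1f152f702) (nat_lit 0x54050e) (nat_lit 30))
 (.p (nat_lit 0xbac608b02) (nat_lit 0x354221ca4000200040000) (nat_lit 49))))))

def c1024_949 : Tr :=
 .n (.n (.n (.n (.n (.p (nat_lit 0x6840682067e067c0657065106) (nat_lit 0x120000c6000) (nat_lit 52))
 (.p (nat_lit 0x4ea04c4b02) (nat_lit 0x500414) (nat_lit 5)))
 (.n (.p (nat_lit 0x25cb25bf02) (nat_lit 0x54b03) (nat_lit 16))
 (.p (nat_lit 0x14481446144414404255425106) (nat_lit 0x280008662e) (nat_lit 52))))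
 (.n (.n (.p (nat_lit 0x23231ffb02) (nat_lit 0x44ea00) (nat_lit 16))
 (.p (nat_lit 0x229e229c229a22982296441906) (nat_lit 0x1000008e021) (nat_lit 52)))
 (.n (.p (nat_lit 0x145516502) (nat_lit 0x240407) (nat_lit 30))
 (.p (nat_lit 0x5e7c364902) (nat_lit 0xa0048800) (nat_lit 47)))))
 (.n (.n (.n (.p (nat_lit 0x1541153502) (nat_lit 0x600) (nat_lit 34))
 (.p (nat_lit 0x4da64da24da04d9e4d9c4eab06) (nat_lit 0x800001041b) (nat_lit 51)))
 (.n (.p (nat_lit 0x195e49c302) (nat_lit 0x300705) (nat_lit 29))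
 (.p (nat_lit 0x5d355dd302) (nat_lit 0x180060000100) (nat_lit 36))))
 (.n (.n (.p (nat_lit 0x14fb125b02) (nat_lit 0x140402) (nat_lit 15))
 (.p (nat_lit 0x4296406902) (nat_lit 0x540627) (nat_lit 4)))
 (.n (.p (nat_lit 0x512e52c702) (nat_lit 0x54090d) (nat_lit 29))
 (.p (nat_lit 0x1ae0600d02) (nat_lit 0x405aa0b54800200000600) (nat_lit 50))))))
 (.n (.n (.n (.n (.p (nat_lit 0xe310b2f02) (nat_lit 0xe300) (nat_lit 16))
 (.p (nat_lit 0x217a549302) (nat_lit 0x100a15) (nat_lit 29)))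
 (.n (.p (nat_lit 0x1b9c1b9a1b981b961b92194f06) (nat_lit 0x1000014704) (nat_lit 52))
 (.p (nat_lit 0x1e201e001dc01d8014304bd06) (nat_lit 0xb1040d) (nat_lit 26))))
 (.n (.n (.p (nat_lit 0x2b131c2102) (nat_lit 0x502801) (nat_lit 16))
 (.p (nat_lit 0x3ad517d902) (nat_lit 0x550623) (nat_lit 16)))
 (.n (.p (nat_lit 0x332a2d7902) (nat_lit 0x400a09) (nat_lit 4))
 (.p (nat_lit 0x180e5f0d02) (nat_lit 0x3a2530344000100000600) (nat_lit 49)))))
 (.n (.n (.n (.p (nat_lit 0x1c4d1c4102) (nat_lit 0x340800) (nat_lit 34))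
 (.p (nat_lit 0x3f443f423f403f3e3f3c1ebd06) (nat_lit 0x80000091c) (nat_lit 52)))
 (.n (.p (nat_lit 0x1c30253d02) (nat_lit 0x100806) (nat_lit 5))
 (.p (nat_lit 0x5da713f502) (nat_lit 0x600a0000500) (nat_lit 39))))
 (.n (.n (.p (nat_lit 0xb80366102) (nat_lit 0x500203) (nat_lit 29))
 (.p (nat_lit 0x2a322a302a2c2a2a2a28166f06) (nat_lit 0x400000462a) (nat_lit 52)))
 (.n (.p (nat_lit 0x20b537102) (nat_lit 0x30f) (nat_lit 30))
 (.p (nat_lit 0x8f6611102) (nat_lit 0x3425221b0000100040000) (nat_lit 50))))))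

def c512_437 : Tr := .n c1024_437 c1024_949

def c256_181 : Tr := .n c512_181 c512_437

def c128_53 : Tr := .n c256_53 c256_181

def c1024_117 : Tr :=
 .n (.n (.n (.n (.n (.n (.p (nat_lit 0x7f006d006603) (nat_lit 0x42000002) (nat_lit 19))
 (.p (nat_lit 0xbb2613d02) (nat_lit 0x342a21d84000200040000) (nat_lit 50)))
 (.p (nat_lit 0x30982dc102) (nat_lit 0x140310) (nat_lit 4)))
 (.n (.p (nat_lit 0x388c3888388638843882111306) (nat_lit 0x8000002403) (nat_lit 52))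
 (.p (nat_lit 0x1ed8581902) (nat_lit 0x20092a) (nat_lit 29))))
 (.n (.n (.p (nat_lit 0x1d791a6502) (nat_lit 0x44a800) (nat_lit 16))
 (.p (nat_lit 0x3b8f243902) (nat_lit 0x10b1c) (nat_lit 16)))
 (.n (.p (nat_lit 0x16a216a0169c169a16981d9b06) (nat_lit 0x40000cc806) (nat_lit 52))
 (.p (nat_lit 0x5e4026c102) (nat_lit 0x40046600) (nat_lit 47)))))
 (.n (.n (.n (.p (nat_lit 0xf730c9902) (nat_lit 0x540300) (nat_lit 16))
 (.p (nat_lit 0x15ee15ec15ea15e815e42ae706) (nat_lit 0x10000d0516) (nat_lit 52)))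
 (.n (.p (nat_lit 0x2116211421122110210c247706) (nat_lit 0x100000cb04) (nat_lit 52))
 (.p (nat_lit 0x28a0288028402820007030706) (nat_lit 0x180a415) (nat_lit 26))))
 (.n (.n (.p (nat_lit 0x16ae16ac16aa16a816a41ee306) (nat_lit 0x100008c901) (nat_lit 51))
 (.p (nat_lit 0x1ed2108702) (nat_lit 0x500923) (nat_lit 5)))
 (.n (.p (nat_lit 0x386234f502) (nat_lit 0x44030a) (nat_lit 4))
 (.p (nat_lit 0x15425f3702) (nat_lit 0x3a6560c44000000000600) (nat_lit 50))))))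
 (.n (.n (.n (.n (.p (nat_lit 0x7da07d607d407d207d005c506) (nat_lit 0x8000088100) (nat_lit 51))
 (.p (nat_lit 0x540a54085406540454025400028c07) (nat_lit 0x40015) (nat_lit 8)))
 (.n (.p (nat_lit 0x3dc23dbe3dbc3dba0a2b0a2706) (nat_lit 0x1400004c104) (nat_lit 52))
 (.p (nat_lit 0x4a0248a502) (nat_lit 0x72f) (nat_lit 4))))
 (.n (.n (.p (nat_lit 0x248f248302) (nat_lit 0x140b00) (nat_lit 34))
 (.p (nat_lit 0x255c255a255625544b8b4b8506) (nat_lit 0x4800052022) (nat_lit 52)))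
 (.n (.p (nat_lit 0x42b9190d02) (nat_lit 0x412707) (nat_lit 16))
 (.p (nat_lit 0x5d7b1da902) (nat_lit 0x20080000900) (nat_lit 38)))))
 (.n (.n (.n (.p (nat_lit 0x16ab169f02) (nat_lit 0x340600) (nat_lit 34))
 (.p (nat_lit 0x1c441c401c3e1c3c1c3a05dd06) (nat_lit 0x800009001c) (nat_lit 52)))
 (.n (.p (nat_lit 0x18121810180e180c180a1ac706) (nat_lit 0x1000004e705) (nat_lit 52))
 (.p (nat_lit 0x5ccd0a4702) (nat_lit 0x200020000200) (nat_lit 38))))
 (.n (.n (.p (nat_lit 0x205418bf02) (nat_lit 0x140902) (nat_lit 4))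
 (.p (nat_lit 0x4a524a504a4e4a4c4a4a04094a4907) (nat_lit 0x40728) (nat_lit 7)))
 (.n (.p (nat_lit 0xe820e800e7e0e7c0e7a10db06) (nat_lit 0x80008640e) (nat_lit 51))
 (.p (nat_lit 0x640603902) (nat_lit 0x4a8162340800000040000) (nat_lit 50))))))

def c1024_629 : Tr :=
 .n (.n (.n (.n (.n (.n (.p (nat_lit 0x426041e041c042904) (nat_lit 0x11800400029) (nat_lit 17))
 (.p (nat_lit 0x12a712970fe10fdd0d170d0d0a530a4f07a9079504d904c761b60d) (nat_lit 0x322266c15000000000000) (nat_lit 33)))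
 (.p (nat_lit 0x1e5a1e581e541e521e50410706) (nat_lit 0x40000cc412) (nat_lit 51)))
 (.n (.p (nat_lit 0x1e2a1e281e241e20232d232906) (nat_lit 0x50000c8a03) (nat_lit 52))
 (.p (nat_lit 0x33bc326302) (nat_lit 0x540a2c) (nat_lit 4))))
 (.n (.n (.p (nat_lit 0x21162114210e210c1e931e9106) (nat_lit 0x600000ca00) (nat_lit 52))
 (.p (nat_lit 0x43493b9302) (nat_lit 0x214b1f) (nat_lit 16)))
 (.n (.p (nat_lit 0x16ae16ac16aa16a616a40e0506) (nat_lit 0x200008c307) (nat_lit 51))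
 (.p (nat_lit 0x5c931ad502) (nat_lit 0x2a0000000800) (nat_lit 38)))))
 (.n (.n (.n (.p (nat_lit 0x12c212c012ba12b810c910c706) (nat_lit 0x6000082500) (nat_lit 52))
 (.p (nat_lit 0x1e721e701e6e1e6c1e6a420306) (nat_lit 0x8000ce519) (nat_lit 51)))
 (.n (.p (nat_lit 0xe3476f02) (nat_lit 0x405) (nat_lit 30))
 (.p (nat_lit 0x5c93064102) (nat_lit 0x2a0000000000) (nat_lit 41))))
 (.n (.n (.p (nat_lit 0x8b6184302) (nat_lit 0x500102) (nat_lit 5))
 (.p (nat_lit 0x1bc01bbe1bbc1bb81bb635c506) (nat_lit 0x2000096126) (nat_lit 51)))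
 (.n (.p (nat_lit 0x47d746f102) (nat_lit 0x50030c) (nat_lit 15))
 (.p (nat_lit 0x154a5fc302) (nat_lit 0x89832915800000000600) (nat_lit 50))))))
 (.n (.n (.n (.n (.p (nat_lit 0xbe00bde0bdc0bd80bd609d106) (nat_lit 0x2000048200) (nat_lit 51))
 (.p (nat_lit 0x16440aa502) (nat_lit 0x615) (nat_lit 5)))
 (.n (.p (nat_lit 0xa4e0a4c0a4a0a460a44168506) (nat_lit 0x2000004604) (nat_lit 52))
 (.p (nat_lit 0xec00ea00e800e20003038906) (nat_lit 0xa0e305) (nat_lit 26))))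
 (.n (.n (.p (nat_lit 0x2b28e702) (nat_lit 0x40301) (nat_lit 30))
 (.p (nat_lit 0xe820e800e7e0e7a0e7809e906) (nat_lit 0x20000c6123) (nat_lit 51)))
 (.n (.p (nat_lit 0x2b02268902) (nat_lit 0x300808) (nat_lit 5))
 (.p (nat_lit 0x5d65248902) (nat_lit 0x180080000b00) (nat_lit 39)))))
 (.n (.n (.n (.p (nat_lit 0x1a421a401a3e1a3a1797179306) (nat_lit 0x28000d4700) (nat_lit 52))
 (.p (nat_lit 0x101a101610141012101014e906) (nat_lit 0x80000c251c) (nat_lit 51)))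
 (.n (.p (nat_lit 0xfd224f102) (nat_lit 0x540306) (nat_lit 4))
 (.p (nat_lit 0x5d295e1902) (nat_lit 0x240060000400) (nat_lit 37))))
 (.n (.n (.p (nat_lit 0x25b61a5502) (nat_lit 0x240b02) (nat_lit 4))
 (.p (nat_lit 0x2348234623422340233e0b5906) (nat_lit 0x400001622a) (nat_lit 51)))
 (.n (.p (nat_lit 0x1bde097102) (nat_lit 0x20080e) (nat_lit 5))
 (.p (nat_lit 0x169860b302) (nat_lit 0x350521a84000000040600) (nat_lit 49))))))

def c512_117 : Tr := .n c1024_117 c1024_629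

def c1024_373 : Tr :=
 .n (.n (.n (.n (.n (.n (.p (nat_lit 0x1a201a0019801a504) (nat_lit 0x1880040000a) (nat_lit 17))
 (.p (nat_lit 0x1c4a617702) (nat_lit 0x340c6ab84000200040600) (nat_lit 50)))
 (.p (nat_lit 0x9038e902) (nat_lit 0x500411) (nat_lit 1)))
 (.n (.p (nat_lit 0x18dc18da18d618d4167f167906) (nat_lit 0x12000094603) (nat_lit 51))
 (.p (nat_lit 0x29382aad02) (nat_lit 0x54032b) (nat_lit 4))))
 (.n (.n (.p (nat_lit 0x1d301f1902) (nat_lit 0x440900) (nat_lit 5))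
 (.p (nat_lit 0x33f7335102) (nat_lit 0x500a1e) (nat_lit 15)))
 (.n (.p (nat_lit 0x1ea0b3f02) (nat_lit 0x200207) (nat_lit 1))
 (.p (nat_lit 0x5d17198102) (nat_lit 0x60040000700) (nat_lit 41)))))
 (.n (.n (.n (.p (nat_lit 0x11190df702) (nat_lit 0x112400) (nat_lit 16))
 (.p (nat_lit 0x362436223620361c361a354106) (nat_lit 0x2000056018) (nat_lit 52)))
 (.n (.p (nat_lit 0x8d644bb02) (nat_lit 0x300105) (nat_lit 29))
 (.p (nat_lit 0x5bd65bd45bd25bd05bce000303ac07) (nat_lit 0x104023) (nat_lit 25))))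
 (.n (.n (.p (nat_lit 0x2360235c235a2358235621b106) (nat_lit 0x8000080a01) (nat_lit 52))
 (.p (nat_lit 0x27ac29c102) (nat_lit 0x140124) (nat_lit 4)))
 (.n (.p (nat_lit 0x3f163c8b02) (nat_lit 0x44020b) (nat_lit 5))
 (.p (nat_lit 0x8fa5f7702) (nat_lit 0x3aa074b50000100040000) (nat_lit 50))))))
 (.n (.n (.n (.n (.p (nat_lit 0xa31072102) (nat_lit 0x254100) (nat_lit 16))
 (.p (nat_lit 0x3985124702) (nat_lit 0x350415) (nat_lit 16)))
 (.n (.p (nat_lit 0xb7401d02) (nat_lit 0x100404) (nat_lit 30))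
 (.p (nat_lit 0x2c058e702) (nat_lit 0x200202) (nat_lit 27))))
 (.n (.n (.p (nat_lit 0x26822680267e267c2678074f06) (nat_lit 0x10000c8001) (nat_lit 52))
 (.p (nat_lit 0x7420ffb02) (nat_lit 0x140023) (nat_lit 4)))
 (.n (.p (nat_lit 0x51ca51c851c651c451c251c0014c07) (nat_lit 0x40a07) (nat_lit 8))
 (.p (nat_lit 0x5d755ea502) (nat_lit 0x80080000a00) (nat_lit 36)))))
 (.n (.n (.n (.p (nat_lit 0x18ba18b818b618b418b2162106) (nat_lit 0x800012700) (nat_lit 52))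
 (.p (nat_lit 0xbf60bf40bf20bee0887087f06) (nat_lit 0x1100000a11c) (nat_lit 51)))
 (.n (.p (nat_lit 0x62c249d02) (nat_lit 0x200006) (nat_lit 5))
 (.p (nat_lit 0x5cf75dfd02) (nat_lit 0x260040000300) (nat_lit 36))))
 (.n (.n (.p (nat_lit 0x232218dd02) (nat_lit 0x440a02) (nat_lit 5))
 (.p (nat_lit 0x89e57a702) (nat_lit 0x50012a) (nat_lit 29)))
 (.n (.p (nat_lit 0x66e066c066a06680666137f06) (nat_lit 0x80008450e) (nat_lit 51))
 (.p (nat_lit 0x1adc607902) (nat_lit 0x4688ae154000200000600) (nat_lit 49))))))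

def c1024_885 : Tr :=
 .n (.n (.n (.n (.n (.p (nat_lit 0x64c063502) (nat_lit 0x40000) (nat_lit 4))
 (.p (nat_lit 0x4a2a457702) (nat_lit 0x340713) (nat_lit 5)))
 (.n (.p (nat_lit 0x129e129a12981296129425c706) (nat_lit 0x800004ab03) (nat_lit 52))
 (.p (nat_lit 0x3f2c41c702) (nat_lit 0x44022e) (nat_lit 4))))
 (.n (.n (.p (nat_lit 0x22ac22aa22a622a21ff91ff506) (nat_lit 0x5000050a00) (nat_lit 52))
 (.p (nat_lit 0x4344400302) (nat_lit 0xb20) (nat_lit 5)))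
 (.n (.p (nat_lit 0x141814161414140e10d310d106) (nat_lit 0x3000082407) (nat_lit 51))
 (.p (nat_lit 0x5e76386302) (nat_lit 0x80040800) (nat_lit 48)))))
 (.n (.n (.n (.p (nat_lit 0x14ae14ac14aa14a81227121d06) (nat_lit 0x108000d4500) (nat_lit 52))
 (.p (nat_lit 0x49ea49e849e649e449e202f349e107) (nat_lit 0x71a) (nat_lit 7)))
 (.n (.p (nat_lit 0x1800211b02) (nat_lit 0x140605) (nat_lit 4))
 (.p (nat_lit 0x5dc82b9702) (nat_lit 0x2000c100) (nat_lit 47))))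
 (.n (.n (.p (nat_lit 0x30b830b630b430b230b030ae006407) (nat_lit 0x402) (nat_lit 8))
 (.p (nat_lit 0x1e7e1e7c1e7a1e761e743df706) (nat_lit 0x2000056127) (nat_lit 52)))
 (.n (.p (nat_lit 0x503e4b6302) (nat_lit 0x30080d) (nat_lit 5))
 (.p (nat_lit 0xa505ff902) (nat_lit 0x466b80b44000200000000) (nat_lit 50))))))
 (.n (.n (.n (.n (.p (nat_lit 0xd840d820d800d7e0b390b3706) (nat_lit 0x1800000e300) (nat_lit 51))
 (.p (nat_lit 0x1eb60c4f02) (nat_lit 0x300915) (nat_lit 5)))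
 (.n (.p (nat_lit 0x194c42a502) (nat_lit 0x704) (nat_lit 29))
 (.p (nat_lit 0x1a201a0019a019801b1023f06) (nat_lit 0x131420a) (nat_lit 26))))
 (.n (.n (.p (nat_lit 0x1c202afb02) (nat_lit 0x500801) (nat_lit 29))
 (.p (nat_lit 0x165c103502) (nat_lit 0x623) (nat_lit 4)))
 (.n (.p (nat_lit 0x310130f502) (nat_lit 0x304409) (nat_lit 16))
 (.p (nat_lit 0xfe05eed02) (nat_lit 0x4a1d84344000400000000) (nat_lit 50)))))
 (.n (.n (.n (.p (nat_lit 0x1be5190302) (nat_lit 0x502800) (nat_lit 16))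
 (.p (nat_lit 0x1d5e0da702) (nat_lit 0x34081c) (nat_lit 5)))
 (.n (.p (nat_lit 0x1ace4ff902) (nat_lit 0x340706) (nat_lit 29))
 (.p (nat_lit 0x5e2c2bcb02) (nat_lit 0x6000c500) (nat_lit 48))))
 (.n (.n (.p (nat_lit 0x9400af00a11b1b1c8105) (nat_lit 0x8c540103) (nat_lit 9))
 (.p (nat_lit 0x115c1156115411520f890f8706) (nat_lit 0xc00004032a) (nat_lit 51)))
 (.n (.p (nat_lit 0x1ef536102) (nat_lit 0x400b0e) (nat_lit 30))
 (.p (nat_lit 0x1db660f902) (nat_lit 0x460d623a4000300000600) (nat_lit 50))))))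

def c512_373 : Tr := .n c1024_373 c1024_885

def c256_117 : Tr := .n c512_117 c512_373

def c1024_245 : Tr :=
 .n (.n (.n (.n (.n (.n (.p (nat_lit 0xec00ea00e400ef04) (nat_lit 0x19000400005) (nat_lit 17))
 (.p (nat_lit 0x207e615902) (nat_lit 0x352829d84000400000600) (nat_lit 50)))
 (.p (nat_lit 0x32e62e8902) (nat_lit 0x540910) (nat_lit 5)))
 (.n (.p (nat_lit 0x60f13c502) (nat_lit 0x500503) (nat_lit 15))
 (.p (nat_lit 0x43d584102) (nat_lit 0x440a2a) (nat_lit 30))))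
 (.n (.n (.p (nat_lit 0x1e661e641e601e5e1bc91bc306) (nat_lit 0x480000e900) (nat_lit 51))
 (.p (nat_lit 0xeca0ec80ec40ec20ec02c0706) (nat_lit 0x40000ca91d) (nat_lit 51)))
 (.n (.p (nat_lit 0x228822842280227e1f011efd06) (nat_lit 0xa00008c906) (nat_lit 51))
 (.p (nat_lit 0x5e4c25bd02) (nat_lit 0xa0050600) (nat_lit 47)))))
 (.n (.n (.n (.p (nat_lit 0x101a10181014101210100dfb06) (nat_lit 0x4000082400) (nat_lit 51))
 (.p (nat_lit 0x1a421a3e1a3c1a3a1a38328106) (nat_lit 0x80000d4517) (nat_lit 52)))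
 (.n (.p (nat_lit 0x437125cd02) (nat_lit 0x142b04) (nat_lit 16))
 (.p (nat_lit 0x30e030c030a03060365000b06) (nat_lit 0xd1201c) (nat_lit 26))))
 (.n (.n (.p (nat_lit 0xe760e740e720e700e6c204906) (nat_lit 0x10000c6901) (nat_lit 52))
 (.p (nat_lit 0x244a572b02) (nat_lit 0x300b23) (nat_lit 29)))
 (.n (.p (nat_lit 0x19d526102) (nat_lit 0x200a0a) (nat_lit 30))
 (.p (nat_lit 0x233c5f5902) (nat_lit 0x1a2262350000500000600) (nat_lit 49))))))
 (.n (.n (.n (.n (.p (nat_lit 0x9080906090409020727071d06) (nat_lit 0x10800046100) (nat_lit 51))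
 (.p (nat_lit 0xd280d260d220d200d1e10ed06) (nat_lit 0x4000000415) (nat_lit 52)))
 (.n (.p (nat_lit 0x3ec83ec43ec23ec00ceb0ce306) (nat_lit 0x880004a204) (nat_lit 51))
 (.p (nat_lit 0x58885886588458825880014b003607) (nat_lit 0x512001) (nat_lit 25))))
 (.n (.n (.p (nat_lit 0x16b522bf02) (nat_lit 0x240b00) (nat_lit 15))
 (.p (nat_lit 0x50b44e1302) (nat_lit 0x240822) (nat_lit 4)))
 (.n (.p (nat_lit 0x1d3a51a302) (nat_lit 0x340807) (nat_lit 29))
 (.p (nat_lit 0x5e94449d02) (nat_lit 0x46a00) (nat_lit 48)))))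
 (.n (.n (.n (.p (nat_lit 0x1790178e178c178a178616b306) (nat_lit 0x10000d4600) (nat_lit 52))
 (.p (nat_lit 0x1986198419821980197c073706) (nat_lit 0x10000ce01c) (nat_lit 51)))
 (.n (.p (nat_lit 0x1e7e1e7c1e7a1e781e741c2506) (nat_lit 0x1000016805) (nat_lit 52))
 (.p (nat_lit 0x5d510a4d02) (nat_lit 0x2c0080000200) (nat_lit 38))))
 (.n (.n (.p (nat_lit 0x63e063c063a0636063421b906) (nat_lit 0x2000080a02) (nat_lit 52))
 (.p (nat_lit 0x4fe84e7502) (nat_lit 0x100729) (nat_lit 5)))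
 (.n (.p (nat_lit 0xd100d0e0d0a0d080d06123b06) (nat_lit 0x400004640e) (nat_lit 52))
 (.p (nat_lit 0x1142605702) (nat_lit 0x506272b31000400040000) (nat_lit 49))))))

def c1024_757 : Tr :=
 .n (.n (.n (.n (.n (.n (.p (nat_lit 0x50805060502050004e104db06) (nat_lit 0x4800006000) (nat_lit 52))
 (.p (nat_lit 0x1ade61d702) (nat_lit 0x542266c0c800200000600) (nat_lit 49)))
 (.p (nat_lit 0x436e3d5b02) (nat_lit 0x40b12) (nat_lit 5)))
 (.n (.p (nat_lit 0x1ade1adc1ada1ad81ad6246906) (nat_lit 0x800010b03) (nat_lit 52))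
 (.p (nat_lit 0x3898389438923890388e37e506) (nat_lit 0x800008232d) (nat_lit 51))))
 (.n (.n (.p (nat_lit 0xe21ff302) (nat_lit 0x40a00) (nat_lit 1))
 (.p (nat_lit 0x3df03fdd02) (nat_lit 0x540120) (nat_lit 4)))
 (.n (.p (nat_lit 0x16a0169e169c169a16980f7306) (nat_lit 0x100000cc307) (nat_lit 52))
 (.p (nat_lit 0x5e6e205702) (nat_lit 0x4004c800) (nat_lit 48)))))
 (.n (.n (.n (.p (nat_lit 0x13d510c502) (nat_lit 0x114500) (nat_lit 16))
 (.p (nat_lit 0x4402461b02) (nat_lit 0x1a) (nat_lit 4)))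
 (.n (.p (nat_lit 0x152615221520151e151c00eb152507) (nat_lit 0x440505) (nat_lit 7))
 (.p (nat_lit 0x5dbc09f702) (nat_lit 0x60048000) (nat_lit 48))))
 (.n (.n (.p (nat_lit 0x2f502f4e2f4c2f4a2f482f4600660cd30cd10ccd0a) (nat_lit 0x11940202) (nat_lit 31))
 (.p (nat_lit 0x3b9e38bf02) (nat_lit 0x200b26) (nat_lit 4)))
 (.n (.p (nat_lit 0x4a70448b02) (nat_lit 0x20080c) (nat_lit 5))
 (.p (nat_lit 0x11485fd702) (nat_lit 0x3842a1c35000400040000) (nat_lit 50))))))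
 (.n (.n (.n (.n (.p (nat_lit 0xd0109d302) (nat_lit 0x356200) (nat_lit 16))
 (.p (nat_lit 0x42d3192702) (nat_lit 0x512715) (nat_lit 16)))
 (.n (.p (nat_lit 0x17f817f617f417f200e000bf00bd17fd17fb09) (nat_lit 0x2c40604) (nat_lit 10))
 (.p (nat_lit 0x1180116011401120009003506) (nat_lit 0x2510706) (nat_lit 26))))
 (.n (.n (.p (nat_lit 0x2f2a1902) (nat_lit 0x200501) (nat_lit 30))
 (.p (nat_lit 0xd340d300d2e0d2c0d2a0b4f06) (nat_lit 0x8000080223) (nat_lit 51)))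
 (.n (.p (nat_lit 0x36b72f2f02) (nat_lit 0x12209) (nat_lit 16))
 (.p (nat_lit 0x1adc5ed302) (nat_lit 0x4a1a36344000200000600) (nat_lit 49)))))
 (.n (.n (.n (.p (nat_lit 0x18fe18fc18fa18f80028000b00091903190109) (nat_lit 0x2c00800) (nat_lit 10))
 (.p (nat_lit 0x1932192e192a1928032c030f030b1931192d09) (nat_lit 0x220071c) (nat_lit 10)))
 (.n (.p (nat_lit 0x1154f3b02) (nat_lit 0x100506) (nat_lit 30))
 (.p (nat_lit 0x5c9b5e2502) (nat_lit 0x220000000500) (nat_lit 37))))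
 (.n (.n (.p (nat_lit 0x76e076c076807660764008d076b07) (nat_lit 0x340003) (nat_lit 7))
 (.p (nat_lit 0xf870cb902) (nat_lit 0x34022a) (nat_lit 15)))
 (.n (.p (nat_lit 0x3da43da23da03d9e3d9c1eaf06) (nat_lit 0x1000008890e) (nat_lit 52))
 (.p (nat_lit 0x63460db02) (nat_lit 0x340a621b0000000040000) (nat_lit 49))))))

def c512_245 : Tr := .n c1024_245 c1024_757

def c1024_501 : Tr :=
 .n (.n (.n (.n (.n (.n (.p (nat_lit 0x310030c0306031304) (nat_lit 0x1480040001c) (nat_lit 17))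
 (.p (nat_lit 0xbb4619b02) (nat_lit 0x340aa5c14800200040000) (nat_lit 50)))
 (.p (nat_lit 0x3b7a361f02) (nat_lit 0x200b11) (nat_lit 4)))
 (.n (.p (nat_lit 0xb821c502) (nat_lit 0x200a03) (nat_lit 1))
 (.p (nat_lit 0x2fac322102) (nat_lit 0x44022c) (nat_lit 4))))
 (.n (.n (.p (nat_lit 0x1ff01fea1fe81fe61d311d2f06) (nat_lit 0xc0000d6900) (nat_lit 51))
 (.p (nat_lit 0x363455cb02) (nat_lit 0x14011f) (nat_lit 29)))
 (.n (.p (nat_lit 0xca40ca20c9e0c9c0154014701410ca10c9b09) (nat_lit 0x1840207) (nat_lit 10))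
 (.p (nat_lit 0x5d615e6102) (nat_lit 0x1c0080000700) (nat_lit 36)))))
 (.n (.n (.n (.p (nat_lit 0x11f011ea11e811e60f650f6306) (nat_lit 0xc0000d2400) (nat_lit 52))
 (.p (nat_lit 0x3b8a3b883b863b843b8202d73b8d07) (nat_lit 0x500b18) (nat_lit 7)))
 (.n (.p (nat_lit 0x46424640463e463c463a0cef06) (nat_lit 0x80004a205) (nat_lit 51))
 (.p (nat_lit 0x4355c3902) (nat_lit 0x62a) (nat_lit 28))))
 (.n (.n (.p (nat_lit 0x602060005fe05fa05f8005d05fd07) (nat_lit 0x200002) (nat_lit 7))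
 (.p (nat_lit 0x35c92e3b02) (nat_lit 0x412125) (nat_lit 16)))
 (.n (.p (nat_lit 0x42643cd302) (nat_lit 0x44060b) (nat_lit 5))
 (.p (nat_lit 0x1da25f9502) (nat_lit 0x581a302a4000300000600) (nat_lit 49))))))
 (.n (.n (.n (.n (.p (nat_lit 0xade0ada0ad80ad60879087106) (nat_lit 0x8800010200) (nat_lit 52))
 (.p (nat_lit 0x139d139102) (nat_lit 0x308515) (nat_lit 16)))
 (.n (.p (nat_lit 0x13d013ce13cc13ca00c600b700b513c913c709) (nat_lit 0x800504) (nat_lit 10))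
 (.p (nat_lit 0x62594902) (nat_lit 0x500603) (nat_lit 27))))
 (.n (.n (.p (nat_lit 0xb6416f102) (nat_lit 0x300201) (nat_lit 5))
 (.p (nat_lit 0xfde0fdc0fda0fd6088d088906) (nat_lit 0x2800008123) (nat_lit 52)))
 (.n (.p (nat_lit 0x25af257302) (nat_lit 0x448b07) (nat_lit 16))
 (.p (nat_lit 0x5cd7248302) (nat_lit 0x160020000b00) (nat_lit 39)))))
 (.n (.n (.n (.p (nat_lit 0x1969162502) (nat_lit 0x216700) (nat_lit 16))
 (.p (nat_lit 0x307551502) (nat_lit 0x51c) (nat_lit 30)))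
 (.n (.p (nat_lit 0x2700a4102) (nat_lit 0x440106) (nat_lit 1))
 (.p (nat_lit 0x5d7f0d1102) (nat_lit 0x2e00a0000300) (nat_lit 38))))
 (.n (.n (.p (nat_lit 0x33ab231f02) (nat_lit 0x248a02) (nat_lit 16))
 (.p (nat_lit 0x69c069a06980696069409fb06) (nat_lit 0x100000c812a) (nat_lit 52)))
 (.n (.p (nat_lit 0x163a094b02) (nat_lit 0x10060e) (nat_lit 4))
 (.p (nat_lit 0x2072609502) (nat_lit 0x342529ca4000400000600) (nat_lit 49))))))

def c1024_1013 : Tr :=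
 .n (.n (.n (.n (.n (.p (nat_lit 0x72b064f02) (nat_lit 0x144000) (nat_lit 16))
 (.p (nat_lit 0x500a4c6102) (nat_lit 0x140714) (nat_lit 5)))
 (.n (.p (nat_lit 0x7703c6b02) (nat_lit 0x40004) (nat_lit 29))
 (.p (nat_lit 0x43a8418502) (nat_lit 0x540b2e) (nat_lit 4))))
 (.n (.n (.p (nat_lit 0x23ca23c823c623c423c2215506) (nat_lit 0x80000ab00) (nat_lit 51))
 (.p (nat_lit 0x4960495e495c495a49580385495707) (nat_lit 0x40521) (nat_lit 7)))
 (.n (.p (nat_lit 0x1356135413521350134e123306) (nat_lit 0x10000054407) (nat_lit 51))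
 (.p (nat_lit 0x5cd11daf02) (nat_lit 0x1c0020000900) (nat_lit 40)))))
 (.n (.n (.n (.p (nat_lit 0x15e015de15da15d81557155106) (nat_lit 0x12000010600) (nat_lit 52))
 (.p (nat_lit 0x286505702) (nat_lit 0x30081b) (nat_lit 1)))
 (.n (.p (nat_lit 0x1daa1da81da61da41da0195b06) (nat_lit 0x1000012705) (nat_lit 52))
 (.p (nat_lit 0x5dd6422902) (nat_lit 0x80012100) (nat_lit 48))))
 (.n (.n (.p (nat_lit 0x14fe1a0f02) (nat_lit 0x340502) (nat_lit 4))
 (.p (nat_lit 0x44ae577f02) (nat_lit 0x340028) (nat_lit 29)))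
 (.n (.p (nat_lit 0xc040c020c000bfc0bfa0e1106) (nat_lit 0x200008a30e) (nat_lit 52))
 (.p (nat_lit 0x129a601902) (nat_lit 0x46ab80b44000500000000) (nat_lit 49))))))
 (.n (.n (.n (.n (.p (nat_lit 0xe8c0e8a0e880e860e840c9906) (nat_lit 0x10000040300) (nat_lit 51))
 (.p (nat_lit 0x22e20c7102) (nat_lit 0x240a15) (nat_lit 5)))
 (.n (.p (nat_lit 0x8a1ab502) (nat_lit 0x240704) (nat_lit 1))
 (.p (nat_lit 0x1ef5a8d02) (nat_lit 0x40060e) (nat_lit 28))))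
 (.n (.n (.p (nat_lit 0x18ae18ac18aa18a41d811d7f06) (nat_lit 0x30000ca801) (nat_lit 51))
 (.p (nat_lit 0x1bfe56e902) (nat_lit 0x823) (nat_lit 29)))
 (.n (.p (nat_lit 0x33d433d233d033cc33ca018933cf07) (nat_lit 0x200b09) (nat_lit 7))
 (.p (nat_lit 0x1da65f1702) (nat_lit 0x3a2260b50000300000600) (nat_lit 49)))))
 (.n (.n (.n (.p (nat_lit 0x1cc61cc41cc01cbe1a631a5d06) (nat_lit 0x48000c8800) (nat_lit 51))
 (.p (nat_lit 0x2188558502) (nat_lit 0x200a1c) (nat_lit 29)))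
 (.n (.p (nat_lit 0x154a15461544154215401c3706) (nat_lit 0x800000c806) (nat_lit 51))
 (.p (nat_lit 0x5c99154102) (nat_lit 0x240000000600) (nat_lit 40))))
 (.n (.n (.p (nat_lit 0xe3e1b3502) (nat_lit 0x100303) (nat_lit 4))
 (.p (nat_lit 0x1948131502) (nat_lit 0x40072a) (nat_lit 4)))
 (.n (.p (nat_lit 0x1762ae102) (nat_lit 0x44050f) (nat_lit 1))
 (.p (nat_lit 0x1814611d02) (nat_lit 0x35486a3a4000100000600) (nat_lit 49))))))

def c512_501 : Tr := .n c1024_501 c1024_1013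

def c256_245 : Tr := .n c512_245 c512_501

def c128_117 : Tr := .n c256_117 c256_245

def c64_53 : Tr := .n c128_53 c128_117

def c32_21 : Tr := .n c64_21 c64_53

def c16_5 : Tr := .n c32_5 c32_21

def b5 : Tr := c16_5

theorem hb4_5 : allp (tst G49 true (getA DT)) b5 = true := by decide +kernel

end Vale.Agent.P032.H437.Ev2
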