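import Vale.Agent.P032.H437.Ev2.T

namespace Vale.Agent.P032.H437.Ev2
open Vale.Agent.P032.H859.Rup Vale.Agent.P032.H437

def c1024_6 : Tr :=
 .n (.n (.n (.n (.n (.n (.p (nat_lit 0x1500130011000d04) (nat_lit 0x511900000) (nat_lit 21))
 (.p (nat_lit 0x1f1a611f02) (nat_lit 0x35056a3a4000300040600) (nat_lit 50)))
 (.p (nat_lit 0x26ba26b826b626b226b02add06) (nat_lit 0x20000d450f) (nat_lit 52)))
 (.n (.p (nat_lit 0x377c377a3778377637720e3f06) (nat_lit 0x1000000303) (nat_lit 52))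
 (.p (nat_lit 0x3236323432323230322e194506) (nat_lit 0x200008672a) (nat_lit 52))))
 (.n (.n (.p (nat_lit 0x1cdc1cd81cd61cd41a671a6306) (nat_lit 0x140000ca800) (nat_lit 51))
 (.p (nat_lit 0x218e0f3702) (nat_lit 0x500a1c) (nat_lit 5)))
 (.n (.p (nat_lit 0x1f0e1f0c1f0a1f081f041c3106) (nat_lit 0x1000092806) (nat_lit 52))
 (.p (nat_lit 0x5e3816a502) (nat_lit 0x40600) (nat_lit 46)))))
 (.n (.n (.n (.p (nat_lit 0xea60ea40ea20ea00e9e0c8f06) (nat_lit 0x800042300) (nat_lit 52))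
 (.p (nat_lit 0x45de45dc45da45d845d622e306) (nat_lit 0x200004ca15) (nat_lit 51)))
 (.n (.p (nat_lit 0x1aba1e7302) (nat_lit 0x540704) (nat_lit 5))
 (.p (nat_lit 0x1e75a9d02) (nat_lit 0x80e) (nat_lit 28))))
 (.n (.n (.p (nat_lit 0x18de18dc18da18d618d41d8106) (nat_lit 0x20000d4801) (nat_lit 51))
 (.p (nat_lit 0x1c08106f02) (nat_lit 0x500823) (nat_lit 5)))
 (.n (.p (nat_lit 0x3b6b33cb02) (nat_lit 0x12b09) (nat_lit 16))
 (.p (nat_lit 0x23405f1902) (nat_lit 0x1a2274b50000500000600) (nat_lit 50))))))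
 (.n (.n (.n (.n (.p (nat_lit 0x74d064d02) (nat_lit 0x4c000) (nat_lit 16))
 (.p (nat_lit 0x50464c6d02) (nat_lit 0x100814) (nat_lit 5)))
 (.n (.p (nat_lit 0x7781dcd02) (nat_lit 0x440004) (nat_lit 4))
 (.p (nat_lit 0x459248eb02) (nat_lit 0x4012f) (nat_lit 5))))
 (.n (.n (.p (nat_lit 0x23e223de23dc23da23d8215d06) (nat_lit 0x800008eb00) (nat_lit 52))
 (.p (nat_lit 0x49ee46d102) (nat_lit 0x100721) (nat_lit 5)))
 (.n (.p (nat_lit 0x4847123102) (nat_lit 0x454407) (nat_lit 16))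
 (.p (nat_lit 0x5e8421c302) (nat_lit 0x2000e900) (nat_lit 47)))))
 (.n (.n (.n (.p (nat_lit 0x15fa15f815f415f01553154f06) (nat_lit 0x5000012600) (nat_lit 52))
 (.p (nat_lit 0x50ac4ce302) (nat_lit 0x44081b) (nat_lit 4)))
 (.n (.p (nat_lit 0x2346234423422340233e196306) (nat_lit 0x10000016705) (nat_lit 51))
 (.p (nat_lit 0x5d93079f02) (nat_lit 0x1a00a0000100) (nat_lit 38))))
 (.n (.n (.p (nat_lit 0x32223220321e321c321a321806) (nat_lit 0xc4502) (nat_lit 52))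
 (.p (nat_lit 0x459144b302) (nat_lit 0x540028) (nat_lit 15)))
 (.n (.p (nat_lit 0x2800f7502) (nat_lit 0x4030e) (nat_lit 1))
 (.p (nat_lit 0x180e601f02) (nat_lit 0x4099a2354800100000600) (nat_lit 49))))))

def c1024_518 : Tr :=
 .n (.n (.n (.n (.n (.n (.p (nat_lit 0x310030e031503) (nat_lit 0x1800050001c) (nat_lit 17))
 (.p (nat_lit 0x638619f02) (nat_lit 0x380aa5c15000000040000) (nat_lit 49)))
 (.p (nat_lit 0x90a09080906090409023b7706) (nat_lit 0x800006b11) (nat_lit 51)))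
 (.n (.p (nat_lit 0x21ca3ae102) (nat_lit 0x500a03) (nat_lit 29))
 (.p (nat_lit 0x1a4e1a4a1a461a442fad2fa906) (nat_lit 0xa00005622c) (nat_lit 52))))
 (.n (.n (.p (nat_lit 0x20151d3302) (nat_lit 0x542900) (nat_lit 16))
 (.p (nat_lit 0x367e367a367836763674363b06) (nat_lit 0x800004a11f) (nat_lit 52)))
 (.n (.p (nat_lit 0x7e607e407e207dc0c9f0c9d06) (nat_lit 0x300004a207) (nat_lit 51))
 (.p (nat_lit 0x5d535e6102) (nat_lit 0x2a0080000700) (nat_lit 36)))))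
 (.n (.n (.n (.p (nat_lit 0x122b0f5f02) (nat_lit 0x140400) (nat_lit 16))
 (.p (nat_lit 0x3bda36af02) (nat_lit 0x240b18) (nat_lit 5)))
 (.n (.p (nat_lit 0x468f0cf102) (nat_lit 0x14a205) (nat_lit 16))
 (.p (nat_lit 0x4845c4d02) (nat_lit 0x50072a) (nat_lit 27))))
 (.n (.n (.p (nat_lit 0x2ca22c9e2c9c2c9a2c98060106) (nat_lit 0x8000084002) (nat_lit 52))
 (.p (nat_lit 0x1a2a1a281a241a221a202ec106) (nat_lit 0x40000d2125) (nat_lit 51)))
 (.n (.p (nat_lit 0x426d426102) (nat_lit 0x24460b) (nat_lit 16))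
 (.p (nat_lit 0x13f65f9702) (nat_lit 0x88bb0155800500040000) (nat_lit 50))))))
 (.n (.n (.n (.n (.p (nat_lit 0xb2c0b280b260b240879087106) (nat_lit 0x8800096200) (nat_lit 51))
 (.p (nat_lit 0x14de14dc14da14d814d6028114d507) (nat_lit 0x40515) (nat_lit 7)))
 (.n (.p (nat_lit 0x4140413e413a413813d113cb06) (nat_lit 0x12000084504) (nat_lit 51))
 (.p (nat_lit 0x90008e008c008a000100b706) (nat_lit 0x116a03) (nat_lit 26))))
 (.n (.n (.p (nat_lit 0x27e427e227e027de27dc27da06) (nat_lit 0x10201) (nat_lit 52))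
 (.p (nat_lit 0x16ae16aa16a816a616a4089106) (nat_lit 0x800008c123) (nat_lit 51)))
 (.n (.p (nat_lit 0x281251eb02) (nat_lit 0x300208) (nat_lit 29))
 (.p (nat_lit 0x5eb24d5102) (nat_lit 0x2004ab00) (nat_lit 48)))))
 (.n (.n (.n (.p (nat_lit 0x5c179702) (nat_lit 0x240700) (nat_lit 1))
 (.p (nat_lit 0x139c551b02) (nat_lit 0x30051c) (nat_lit 29)))
 (.n (.p (nat_lit 0x4c3e4c3c4c3a4c384c360a4306) (nat_lit 0x100000c6106) (nat_lit 51))
 (.p (nat_lit 0x5c97114702) (nat_lit 0x260000000400) (nat_lit 41))))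
 (.n (.n (.p (nat_lit 0x2466246424622460245c005b245f07) (nat_lit 0x100b02) (nat_lit 7))
 (.p (nat_lit 0xcbb09f902) (nat_lit 0x44012a) (nat_lit 15)))
 (.n (.p (nat_lit 0x164207fb02) (nat_lit 0x50060e) (nat_lit 5))
 (.p (nat_lit 0x634609b02) (nat_lit 0x342529ca4000000040000) (nat_lit 49))))))

def c512_6 : Tr := .n c1024_6 c1024_518

def c1024_262 : Tr :=
 .n (.n (.n (.n (.n (.n (.p (nat_lit 0xfb00f700f500f204) (nat_lit 0x11100005) (nat_lit 20))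
 (.p (nat_lit 0x642615f02) (nat_lit 0x352829d84000000040000) (nat_lit 50)))
 (.p (nat_lit 0x33382e9502) (nat_lit 0x500a10) (nat_lit 4)))
 (.n (.p (nat_lit 0x15063a0502) (nat_lit 0x140503) (nat_lit 29))
 (.p (nat_lit 0x245214b302) (nat_lit 0x100b2a) (nat_lit 5))))
 (.n (.n (.p (nat_lit 0x1e701e6e1e6a1e681bcd1bc706) (nat_lit 0x1200008e900) (nat_lit 51))
 (.p (nat_lit 0x2d022fc302) (nat_lit 0x30001e) (nat_lit 4)))
 (.n (.p (nat_lit 0x50eb1f0302) (nat_lit 0x500906) (nat_lit 16))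
 (.p (nat_lit 0x5cb3181702) (nat_lit 0xa0000000700) (nat_lit 40)))))
 (.n (.n (.n (.p (nat_lit 0x102410221020101e101c0dff06) (nat_lit 0x10000004400) (nat_lit 51))
 (.p (nat_lit 0x32ee2f0b02) (nat_lit 0x440917) (nat_lit 4)))
 (.n (.p (nat_lit 0x61c43ab02) (nat_lit 0x5) (nat_lit 29))
 (.p (nat_lit 0x3095b8902) (nat_lit 0x10051c) (nat_lit 28))))
 (.n (.n (.p (nat_lit 0x154a1548154415421540204d06) (nat_lit 0x400004c901) (nat_lit 51))
 (.p (nat_lit 0x4edc4eda4ed84ed64ed4244506) (nat_lit 0x800082b23) (nat_lit 52)))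
 (.n (.p (nat_lit 0x3b32349302) (nat_lit 0x140a0a) (nat_lit 5))
 (.p (nat_lit 0x7a65f5d02) (nat_lit 0x262530344000100000000) (nat_lit 50))))))
 (.n (.n (.n (.n (.p (nat_lit 0x920091e091c091a0918072706) (nat_lit 0x10000048100) (nat_lit 51))
 (.p (nat_lit 0xd4c0d4a0d480d460d4410e706) (nat_lit 0x800082415) (nat_lit 51)))
 (.n (.p (nat_lit 0xfb10ce302) (nat_lit 0x40204) (nat_lit 15))
 (.p (nat_lit 0x2d589702) (nat_lit 0x100201) (nat_lit 28))))
 (.n (.n (.p (nat_lit 0x258722bf02) (nat_lit 0x244b00) (nat_lit 16))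
 (.p (nat_lit 0xea40ea20ea00e9e0e9c50bb06) (nat_lit 0x10000042822) (nat_lit 52)))
 (.n (.p (nat_lit 0x1d411d3502) (nat_lit 0x44807) (nat_lit 16))
 (.p (nat_lit 0x5cdf206d02) (nat_lit 0xe0020000a00) (nat_lit 38)))))
 (.n (.n (.n (.p (nat_lit 0x17a116b302) (nat_lit 0x140600) (nat_lit 16))
 (.p (nat_lit 0x1daa1da61da41da21da0073d06) (nat_lit 0x800005201c) (nat_lit 52)))
 (.n (.p (nat_lit 0x4a8c4a8a4a884a864a844a8200ee07) (nat_lit 0x40805) (nat_lit 8))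
 (.p (nat_lit 0x5da95df102) (nat_lit 0x400a0000200) (nat_lit 37))))
 (.n (.n (.p (nat_lit 0xd1c0d180d160d140d1221bd06) (nat_lit 0x8000006a02) (nat_lit 51))
 (.p (nat_lit 0x506a4e8102) (nat_lit 0x100829) (nat_lit 5)))
 (.n (.p (nat_lit 0x154a1548154415421540123b06) (nat_lit 0x400004c40e) (nat_lit 51))
 (.p (nat_lit 0x2348605d02) (nat_lit 0x506272b31000500000600) (nat_lit 50))))))

def c1024_774 : Tr :=
 .n (.n (.n (.n (.n (.n (.p (nat_lit 0x5120510050e050c050a04e506) (nat_lit 0x10000086000) (nat_lit 51))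
 (.p (nat_lit 0x114661db02) (nat_lit 0x542266c0c800400040000) (nat_lit 50)))
 (.p (nat_lit 0x437853f302) (nat_lit 0x540b12) (nat_lit 29)))
 (.n (.p (nat_lit 0x2080207e207c207a2078246906) (nat_lit 0x800014b03) (nat_lit 51))
 (.p (nat_lit 0x4166416441624160415c3b1d06) (nat_lit 0x100008ca2d) (nat_lit 52))))
 (.n (.n (.p (nat_lit 0xe81ff902) (nat_lit 0x340a00) (nat_lit 1))
 (.p (nat_lit 0x3ee03edc3eda3ed83ed63def06) (nat_lit 0x800004c120) (nat_lit 52)))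
 (.n (.p (nat_lit 0x1c421c401c3e1c3c1c3a0f7306) (nat_lit 0x100000d0307) (nat_lit 52))
 (.p (nat_lit 0x5d335e7502) (nat_lit 0x1a0060000800) (nat_lit 37)))))
 (.n (.n (.n (.p (nat_lit 0x438122102) (nat_lit 0x240500) (nat_lit 1))
 (.p (nat_lit 0x4550454e454c454a4548449106) (nat_lit 0x8000c801a) (nat_lit 52)))
 (.n (.p (nat_lit 0x4930492e492c492a4926151f06) (nat_lit 0x100004e505) (nat_lit 51))
 (.p (nat_lit 0x5d5b5dbf02) (nat_lit 0x220080000000) (nat_lit 37))))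
 (.n (.n (.p (nat_lit 0xcdb0ccf02) (nat_lit 0x252202) (nat_lit 16))
 (.p (nat_lit 0x100e100a1008100610043ba306) (nat_lit 0x8000002b26) (nat_lit 52)))
 (.n (.p (nat_lit 0x4cfa529702) (nat_lit 0x50020d) (nat_lit 29))
 (.p (nat_lit 0x1ae05fdf02) (nat_lit 0x3842a1c34000200000600) (nat_lit 50))))))
 (.n (.n (.n (.n (.p (nat_lit 0xb320d1702) (nat_lit 0x200300) (nat_lit 5))
 (.p (nat_lit 0x1a840acd02) (nat_lit 0x240715) (nat_lit 5)))
 (.n (.p (nat_lit 0x8fe08fc08f808f608f417f906) (nat_lit 0x40000c2604) (nat_lit 51))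
 (.p (nat_lit 0x11d59f102) (nat_lit 0x500906) (nat_lit 28))))
 (.n (.n (.p (nat_lit 0x2a602a5e2a5a2a582a5613a906) (nat_lit 0x4000012501) (nat_lit 51))
 (.p (nat_lit 0xf120f100f0e0f0c0f080b4906) (nat_lit 0x1000090223) (nat_lit 52)))
 (.n (.p (nat_lit 0x2f942ca102) (nat_lit 0x440209) (nat_lit 4))
 (.p (nat_lit 0x11465ed502) (nat_lit 0x4a1a22344000400040000) (nat_lit 50)))))
 (.n (.n (.n (.p (nat_lit 0x1b1a1b161b141b12190118f906) (nat_lit 0x8800082800) (nat_lit 51))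
 (.p (nat_lit 0x554e554c554a554855465544031207) (nat_lit 0x4071c) (nat_lit 8)))
 (.n (.p (nat_lit 0x62d13e302) (nat_lit 0x200506) (nat_lit 15))
 (.p (nat_lit 0x5e22507502) (nat_lit 0x16500) (nat_lit 48))))
 (.n (.n (.p (nat_lit 0x34f234f034ee34ec076f076d06) (nat_lit 0x180000c6003) (nat_lit 52))
 (.p (nat_lit 0x4d590cbd02) (nat_lit 0x55622a) (nat_lit 16)))
 (.n (.p (nat_lit 0x200a534102) (nat_lit 0x4090e) (nat_lit 29))
 (.p (nat_lit 0x1ae060dd02) (nat_lit 0x3505623a4000200000600) (nat_lit 50))))))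

def c512_262 : Tr := .n c1024_262 c1024_774

def c256_6 : Tr := .n c512_6 c512_262

def c1024_134 : Tr :=
 .n (.n (.n (.n (.n (.n (.p (nat_lit 0x8c008a0086009304) (nat_lit 0x6800400003) (nat_lit 17))
 (.p (nat_lit 0x13ee613f02) (nat_lit 0x352a21d84000500040000) (nat_lit 49)))
 (.p (nat_lit 0x30fe2dcd02) (nat_lit 0x200410) (nat_lit 4)))
 (.n (.p (nat_lit 0x13c5111502) (nat_lit 0x500403) (nat_lit 15))
 (.p (nat_lit 0x414e414c414a414841461ed506) (nat_lit 0x80000692a) (nat_lit 51))))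
 (.n (.n (.p (nat_lit 0x1d9b1a6302) (nat_lit 0x356800) (nat_lit 16))
 (.p (nat_lit 0x39a259702) (nat_lit 0x440b1c) (nat_lit 1)))
 (.n (.p (nat_lit 0x1c501c4e1c4a1c481c461d9b06) (nat_lit 0x40000d0806) (nat_lit 51))
 (.p (nat_lit 0x5d39169f02) (nat_lit 0x140060000600) (nat_lit 39)))))
 (.n (.n (.n (.p (nat_lit 0xf970c9902) (nat_lit 0x54c300) (nat_lit 16))
 (.p (nat_lit 0x2b5e27e702) (nat_lit 0x40816) (nat_lit 4)))
 (.n (.p (nat_lit 0x22ac22aa22a622a422a2247b06) (nat_lit 0x4000010b04) (nat_lit 52))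
 (.p (nat_lit 0x2835b1302) (nat_lit 0x100615) (nat_lit 28))))
 (.n (.n (.p (nat_lit 0x1c501c4e1c4c1c4a1c461ee306) (nat_lit 0x1000090901) (nat_lit 51))
 (.p (nat_lit 0x2bc11ed102) (nat_lit 0x40c923) (nat_lit 16)))
 (.n (.p (nat_lit 0x1bc01bbe1bbc1bba1bb8385b06) (nat_lit 0x8000d630a) (nat_lit 51))
 (.p (nat_lit 0xe825f3902) (nat_lit 0x3a2560c44000300040000) (nat_lit 50))))))
 (.n (.n (.n (.n (.p (nat_lit 0x80608040802080007fc05bf06) (nat_lit 0x100000e100) (nat_lit 52))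
 (.p (nat_lit 0x72e0a6f02) (nat_lit 0x340015) (nat_lit 5)))
 (.n (.p (nat_lit 0xa310a2502) (nat_lit 0x256104) (nat_lit 16))
 (.p (nat_lit 0x140c140a140614024a094a0506) (nat_lit 0x500000272f) (nat_lit 51))))
 (.n (.n (.p (nat_lit 0x2495248902) (nat_lit 0x440b00) (nat_lit 34))
 (.p (nat_lit 0x4c084d8302) (nat_lit 0x400122) (nat_lit 5)))
 (.n (.p (nat_lit 0x18a1a6f02) (nat_lit 0x340707) (nat_lit 1))
 (.p (nat_lit 0x5d655e8f02) (nat_lit 0x180080000900) (nat_lit 37)))))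
 (.n (.n (.n (.p (nat_lit 0x16c616c416be16bc16b716b506) (nat_lit 0x6000040600) (nat_lit 52))
 (.p (nat_lit 0x2080207e207c207a207805d506) (nat_lit 0x80001401c) (nat_lit 51)))
 (.n (.p (nat_lit 0x1f1a1f181f141f121f101ac306) (nat_lit 0x40000d2705) (nat_lit 51))
 (.p (nat_lit 0x5de009db02) (nat_lit 0x20048200) (nat_lit 47))))
 (.n (.n (.p (nat_lit 0x205c20582056205420520061205b07) (nat_lit 0x440902) (nat_lit 7))
 (.p (nat_lit 0x100e100a1008100610044a5106) (nat_lit 0x8000042728) (nat_lit 52)))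
 (.n (.p (nat_lit 0x13f413f013ee13ec13ea10e306) (nat_lit 0x800008a40e) (nat_lit 52))
 (.p (nat_lit 0x1ae0603f02) (nat_lit 0x4a8162340800200000600) (nat_lit 50))))))

def c1024_646 : Tr :=
 .n (.n (.n (.n (.n (.n (.p (nat_lit 0x4380436044303) (nat_lit 0x300050002a) (nat_lit 17))
 (.p (nat_lit 0x8fc61bd02) (nat_lit 0x322266c75000100040000) (nat_lit 50)))
 (.p (nat_lit 0x1b0418b02) (nat_lit 0x200512) (nat_lit 1)))
 (.n (.p (nat_lit 0x1fd81fd61fd41fd22329232706) (nat_lit 0x18000cea03) (nat_lit 52))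
 (.p (nat_lit 0x2a6a2a682a662a642a62340d06) (nat_lit 0x10000092b2c) (nat_lit 51))))
 (.n (.n (.p (nat_lit 0x2120211e211c211a21181e9706) (nat_lit 0x1000008ca00) (nat_lit 52))
 (.p (nat_lit 0x3bea37cf02) (nat_lit 0x440b1f) (nat_lit 4)))
 (.n (.p (nat_lit 0x1c501c4c1c4a1c481c460e0906) (nat_lit 0x8000090307) (nat_lit 51))
 (.p (nat_lit 0x5e68354902) (nat_lit 0x46800) (nat_lit 47)))))
 (.n (.n (.n (.p (nat_lit 0x12da12d812d612d412d010c506) (nat_lit 0x1000084500) (nat_lit 51))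
 (.p (nat_lit 0x286423302) (nat_lit 0x300619) (nat_lit 1)))
 (.n (.p (nat_lit 0x112c477902) (nat_lit 0x500405) (nat_lit 29))
 (.p (nat_lit 0x5ceb04d102) (nat_lit 0x20020000000) (nat_lit 40))))
 (.n (.n (.p (nat_lit 0x2220a0902) (nat_lit 0x40102) (nat_lit 1))
 (.p (nat_lit 0x3646392302) (nat_lit 0x440126) (nat_lit 4)))
 (.n (.p (nat_lit 0x1d201d501d743d7445105) (nat_lit 0x8154030c) (nat_lit 9))
 (.p (nat_lit 0x1da25fc502) (nat_lit 0x8982e915800300000600) (nat_lit 49))))))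
 (.n (.n (.n (.n (.p (nat_lit 0xbec0bea0be60be209d309cf06) (nat_lit 0x50000c8200) (nat_lit 51))
 (.p (nat_lit 0x164c0c0f02) (nat_lit 0x400615) (nat_lit 4)))
 (.n (.p (nat_lit 0xe760e720e700e6e0e6c168906) (nat_lit 0x8000086604) (nat_lit 52))
 (.p (nat_lit 0xec00ea00e400e2000704af06) (nat_lit 0x1a0e505) (nat_lit 26))))
 (.n (.n (.p (nat_lit 0x2908290629042902290028fe06) (nat_lit 0x42301) (nat_lit 52))
 (.p (nat_lit 0x153e153c153a1536153409e906) (nat_lit 0x200004c123) (nat_lit 52)))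
 (.n (.p (nat_lit 0x2b4a268f02) (nat_lit 0x40808) (nat_lit 5))
 (.p (nat_lit 0x5d555ebd02) (nat_lit 0x280080000b00) (nat_lit 37)))))
 (.n (.n (.n (.p (nat_lit 0x1a4e1a4c1a481a461a44179906) (nat_lit 0x4000056700) (nat_lit 52))
 (.p (nat_lit 0x10621060105c105814e714e306) (nat_lit 0x50000ce51c) (nat_lit 51)))
 (.n (.p (nat_lit 0x4e230fd102) (nat_lit 0x440306) (nat_lit 16))
 (.p (nat_lit 0x5e1850c302) (nat_lit 0x60056400) (nat_lit 47))))
 (.n (.n (.p (nat_lit 0x25bc1a5b02) (nat_lit 0x540b02) (nat_lit 4))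
 (.p (nat_lit 0x46070b5702) (nat_lit 0x21422a) (nat_lit 16)))
 (.n (.p (nat_lit 0x1f1532702) (nat_lit 0x50080e) (nat_lit 30))
 (.p (nat_lit 0x12a712990fe10fd70d170d0d0a510a4d07a7079f04d704c360be0d) (nat_lit 0x340a623b0000000000000) (nat_lit 33))))))

def c512_134 : Tr := .n c1024_134 c1024_646

def c1024_390 : Tr :=
 .n (.n (.n (.n (.n (.n (.p (nat_lit 0x1f001ea01e601f304) (nat_lit 0x1280040000e) (nat_lit 17))
 (.p (nat_lit 0x1146617b02) (nat_lit 0x521a86b11000400040000) (nat_lit 50)))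
 (.p (nat_lit 0x1cf61cf41cf01cee1cec38e506) (nat_lit 0x400008c411) (nat_lit 52)))
 (.n (.p (nat_lit 0x1689167d02) (nat_lit 0x414603) (nat_lit 16))
 (.p (nat_lit 0x31a631a431a231a0319e2b3d06) (nat_lit 0x1000008482b) (nat_lit 51))))
 (.n (.n (.p (nat_lit 0x1f321f301f2e1f2c1f281d2b06) (nat_lit 0x10000c0900) (nat_lit 51))
 (.p (nat_lit 0xe8e0e8c0e880e860e8433a106) (nat_lit 0x4000040a1e) (nat_lit 51)))
 (.n (.p (nat_lit 0x1f00b4502) (nat_lit 0x500207) (nat_lit 1))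
 (.p (nat_lit 0x5cf1181b02) (nat_lit 0x2c0040000700) (nat_lit 40)))))
 (.n (.n (.n (.p (nat_lit 0x3a00f5d02) (nat_lit 0x40400) (nat_lit 1))
 (.p (nat_lit 0x3984367302) (nat_lit 0x340418) (nat_lit 4)))
 (.n (.p (nat_lit 0xb9908db02) (nat_lit 0x500105) (nat_lit 15))
 (.p (nat_lit 0x3aa03a603a403a203fb000906) (nat_lit 0x412123) (nat_lit 26))))
 (.n (.n (.p (nat_lit 0x254425422540253c253a21ad06) (nat_lit 0x2000010a01) (nat_lit 51))
 (.p (nat_lit 0x176c176817661764176227b306) (nat_lit 0x8000052124) (nat_lit 51)))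
 (.n (.p (nat_lit 0x3f963c1902) (nat_lit 0x30030b) (nat_lit 4))
 (.p (nat_lit 0xfd65f7902) (nat_lit 0x560bb0344000400000000) (nat_lit 49))))))
 (.n (.n (.n (.n (.p (nat_lit 0xa510a4502) (nat_lit 0x200) (nat_lit 34))
 (.p (nat_lit 0x138e542902) (nat_lit 0x200515) (nat_lit 29)))
 (.n (.p (nat_lit 0xbf402502) (nat_lit 0x500404) (nat_lit 30))
 (.p (nat_lit 0x620060005a00580005048106) (nat_lit 0x1314502) (nat_lit 26))))
 (.n (.n (.p (nat_lit 0x761075502) (nat_lit 0x450001) (nat_lit 16))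
 (.p (nat_lit 0x746568f02) (nat_lit 0x340023) (nat_lit 29)))
 (.n (.p (nat_lit 0x22cc51c702) (nat_lit 0x340a07) (nat_lit 29))
 (.p (nat_lit 0x5d67207f02) (nat_lit 0x160080000a00) (nat_lit 40)))))
 (.n (.n (.n (.p (nat_lit 0x18c618c418c218c018be162106) (nat_lit 0x800092700) (nat_lit 52))
 (.p (nat_lit 0xb220b200b1e0b1c0b18087f06) (nat_lit 0x100001611c) (nat_lit 51)))
 (.n (.p (nat_lit 0x4ada4ad84ad44ad24ad0062f06) (nat_lit 0x4000088006) (nat_lit 51))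
 (.p (nat_lit 0x5d430d1902) (nat_lit 0xa0060000300) (nat_lit 40))))
 (.n (.n (.p (nat_lit 0x6480646064406420640232506) (nat_lit 0x100000c0a02) (nat_lit 51))
 (.p (nat_lit 0x5080506050405020500089506) (nat_lit 0x80000612a) (nat_lit 52)))
 (.n (.p (nat_lit 0x52c052a052605240522138506) (nat_lit 0x400008850e) (nat_lit 51))
 (.p (nat_lit 0x114e607b02) (nat_lit 0x511a22b85000400040000) (nat_lit 50))))))

def c1024_902 : Tr :=
 .n (.n (.n (.n (.n (.p (nat_lit 0x654064902) (nat_lit 0x440000) (nat_lit 5))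
 (.p (nat_lit 0x4a80450102) (nat_lit 0x500813) (nat_lit 4)))
 (.n (.p (nat_lit 0x198619841982197e197c25c306) (nat_lit 0x20000ceb03) (nat_lit 51))
 (.p (nat_lit 0x1fd81fd41fd21fd01fce3f2d06) (nat_lit 0x80000ce22e) (nat_lit 52))))
 (.n (.n (.p (nat_lit 0x22bb1ff302) (nat_lit 0x40a00) (nat_lit 15))
 (.p (nat_lit 0x434e400d02) (nat_lit 0x500b20) (nat_lit 5)))
 (.n (.p (nat_lit 0x1460145e145c145810d310cf06) (nat_lit 0x280000e407) (nat_lit 51))
 (.p (nat_lit 0x5da11c5102) (nat_lit 0xc00a0000800) (nat_lit 41)))))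
 (.n (.n (.n (.p (nat_lit 0x14d7121f02) (nat_lit 0x144500) (nat_lit 16))
 (.p (nat_lit 0xa720a700a6c0a6a0a6849e706) (nat_lit 0x400008071a) (nat_lit 51)))
 (.n (.p (nat_lit 0x180649ad02) (nat_lit 0x440605) (nat_lit 29))
 (.p (nat_lit 0x5d0d079902) (nat_lit 0x100040000100) (nat_lit 38))))
 (.n (.n (.p (nat_lit 0x110619ed02) (nat_lit 0x400402) (nat_lit 5))
 (.p (nat_lit 0x3f1c404b02) (nat_lit 0x140227) (nat_lit 5)))
 (.n (.p (nat_lit 0x504b503f02) (nat_lit 0x30480d) (nat_lit 16))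
 (.p (nat_lit 0x13f05ffb02) (nat_lit 0x16a88cd50000500040000) (nat_lit 49))))))
 (.n (.n (.n (.n (.p (nat_lit 0xdb40db00dae0dac0b390b3506) (nat_lit 0x14000012300) (nat_lit 52))
 (.p (nat_lit 0x1ec71ebb02) (nat_lit 0x508915) (nat_lit 16)))
 (.n (.p (nat_lit 0x195619541950194e194c00bb195307) (nat_lit 0x300704) (nat_lit 7))
 (.p (nat_lit 0x1a201a0019e01980189049106) (nat_lit 0x110c40a) (nat_lit 26))))
 (.n (.n (.p (nat_lit 0x19c019be19bc19b81c1d1c1906) (nat_lit 0x5000004801) (nat_lit 51))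
 (.p (nat_lit 0x1666103f02) (nat_lit 0x500623) (nat_lit 4)))
 (.n (.p (nat_lit 0x482316f02) (nat_lit 0x440409) (nat_lit 1))
 (.p (nat_lit 0x4d05ef302) (nat_lit 0x4a9d84344000000000000) (nat_lit 50)))))
 (.n (.n (.n (.p (nat_lit 0x1c07190102) (nat_lit 0x408800) (nat_lit 16))
 (.p (nat_lit 0x380838063804380037fe1d5d06) (nat_lit 0x20000c081c) (nat_lit 52)))
 (.n (.p (nat_lit 0x156c1568156415621ad11acd06) (nat_lit 0xa000042706) (nat_lit 52))
 (.p (nat_lit 0x5d715e3102) (nat_lit 0xc0080000500) (nat_lit 36))))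
 (.n (.n (.p (nat_lit 0x35f835f635f235f035ee0a1b06) (nat_lit 0x40000c8103) (nat_lit 52))
 (.p (nat_lit 0x118c118a118611840f870f8106) (nat_lit 0x480004432a) (nat_lit 52)))
 (.n (.p (nat_lit 0x33d9242302) (nat_lit 0x10eb0e) (nat_lit 16))
 (.p (nat_lit 0x1db060fd02) (nat_lit 0x340a623b0000300000600) (nat_lit 50))))))

def c512_390 : Tr := .n c1024_390 c1024_902

def c256_134 : Tr := .n c512_134 c512_390

def c128_6 : Tr := .n c256_6 c256_134

def c1024_70 : Tr :=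
 .n (.n (.n (.n (.n (.n (.p (nat_lit 0x550049003803) (nat_lit 0x62900001) (nat_lit 19))
 (.p (nat_lit 0x1dac613102) (nat_lit 0x35486a1b0000300000600) (nat_lit 50)))
 (.p (nat_lit 0x92e092c092a092809262b9506) (nat_lit 0x80008890f) (nat_lit 52)))
 (.n (.p (nat_lit 0x385838563850384e0fab0fa906) (nat_lit 0x60000d6303) (nat_lit 51))
 (.p (nat_lit 0x39d039ce39cc39c839c61c0f06) (nat_lit 0x200001682a) (nat_lit 52))))
 (.n (.n (.p (nat_lit 0x1d261d241d221d1c1a611a5f06) (nat_lit 0x30000d6800) (nat_lit 52))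
 (.p (nat_lit 0x22f722eb02) (nat_lit 0x4aa1c) (nat_lit 16)))
 (.n (.p (nat_lit 0x63e063c063a063806361d9506) (nat_lit 0x8000c0806) (nat_lit 52))
 (.p (nat_lit 0x5e3e245f02) (nat_lit 0x20010600) (nat_lit 48)))))
 (.n (.n (.n (.p (nat_lit 0xf060f020efe0efc0c970c9306) (nat_lit 0xa000050300) (nat_lit 52))
 (.p (nat_lit 0x258f258302) (nat_lit 0x48b15) (nat_lit 16)))
 (.n (.p (nat_lit 0xb7432f02) (nat_lit 0x100b04) (nat_lit 30))
 (.p (nat_lit 0x240023e023c023801a3008906) (nat_lit 0x290a411) (nat_lit 26))))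
 (.n (.n (.p (nat_lit 0x1ee81ee61ee21ee000500035002f1eeb1ee509) (nat_lit 0x2a00901) (nat_lit 10))
 (.p (nat_lit 0x392439223920391e391c1d6506) (nat_lit 0x8000c2823) (nat_lit 52)))
 (.n (.p (nat_lit 0x522a5228522652245222522001a407) (nat_lit 0x30a) (nat_lit 8))
 (.p (nat_lit 0x15345f2f02) (nat_lit 0x3a2560b44000000000600) (nat_lit 49))))))
 (.n (.n (.n (.n (.p (nat_lit 0x7a9079d02) (nat_lit 0x400100) (nat_lit 34))
 (.p (nat_lit 0x1ee05d102) (nat_lit 0x400015) (nat_lit 1)))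
 (.n (.p (nat_lit 0xb8308c502) (nat_lit 0x104) (nat_lit 15))
 (.p (nat_lit 0x212c212a212821262124469706) (nat_lit 0x1000004e22f) (nat_lit 52))))
 (.n (.n (.p (nat_lit 0x2435215d02) (nat_lit 0x404b00) (nat_lit 16))
 (.p (nat_lit 0x4a4d4a4102) (nat_lit 0x24a721) (nat_lit 16)))
 (.n (.p (nat_lit 0x190606ad02) (nat_lit 0x100707) (nat_lit 5))
 (.p (nat_lit 0x5d475e8b02) (nat_lit 0x60060000900) (nat_lit 36)))))
 (.n (.n (.n (.p (nat_lit 0x166d155102) (nat_lit 0x20a600) (nat_lit 16))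
 (.p (nat_lit 0x8f208f008ee08ea08e805d906) (nat_lit 0x200008201c) (nat_lit 52)))
 (.n (.p (nat_lit 0x8f208f008ee08ec08e81abf06) (nat_lit 0x10000c2705) (nat_lit 52))
 (.p (nat_lit 0x5dde0a4502) (nat_lit 0x200) (nat_lit 45))))
 (.n (.n (.p (nat_lit 0x1cae1cac1caa1ca61ef11eed06) (nat_lit 0x2800086902) (nat_lit 51))
 (.p (nat_lit 0x4c8f458f02) (nat_lit 0x44c128) (nat_lit 16)))
 (.n (.p (nat_lit 0x12390f7902) (nat_lit 0x24030e) (nat_lit 15))
 (.p (nat_lit 0x181c602f02) (nat_lit 0x466a62335000100000600) (nat_lit 50))))))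

def c1024_582 : Tr :=
 .n (.n (.n (.n (.n (.n (.p (nat_lit 0x3a603a403a003ad04) (nat_lit 0x6800400023) (nat_lit 17))
 (.p (nat_lit 0x8e861ad02) (nat_lit 0x3421a9c14800100040000) (nat_lit 49)))
 (.p (nat_lit 0x408a3d2102) (nat_lit 0x400412) (nat_lit 4)))
 (.n (.p (nat_lit 0x3aef21c102) (nat_lit 0x2a03) (nat_lit 16))
 (.p (nat_lit 0x3360324f02) (nat_lit 0x100a2c) (nat_lit 4))))
 (.n (.n (.p (nat_lit 0x1e96208102) (nat_lit 0x500a00) (nat_lit 5))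
 (.p (nat_lit 0x3b4255dd02) (nat_lit 0x440a1f) (nat_lit 29)))
 (.n (.p (nat_lit 0xe080e060e040e020e00014b0e0b07) (nat_lit 0x500307) (nat_lit 7))
 (.p (nat_lit 0x5d875e6502) (nat_lit 0x2600a0000700) (nat_lit 36)))))
 (.n (.n (.n (.p (nat_lit 0x43810c702) (nat_lit 0x200500) (nat_lit 1))
 (.p (nat_lit 0x41983ec502) (nat_lit 0x300519) (nat_lit 5)))
 (.n (.p (nat_lit 0xfc0470302) (nat_lit 0x240305) (nat_lit 29))
 (.p (nat_lit 0x5c8c5c8a5c885c865c8403a704b607) (nat_lit 0x30e32f) (nat_lit 25))))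
 (.n (.n (.p (nat_lit 0x2d4c2d4a2d482d462d442d4206) (nat_lit 0x48002) (nat_lit 52))
 (.p (nat_lit 0x57525750574e574c574a574803ea07) (nat_lit 0xb25) (nat_lit 8)))
 (.n (.p (nat_lit 0x45fa442902) (nat_lit 0x20020c) (nat_lit 5))
 (.p (nat_lit 0x64a5fa702) (nat_lit 0x89832955800000040000) (nat_lit 50))))))
 (.n (.n (.n (.n (.p (nat_lit 0x9d00bab02) (nat_lit 0x240200) (nat_lit 4))
 (.p (nat_lit 0x198619841982197e197c14d906) (nat_lit 0x20000ce515) (nat_lit 51)))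
 (.n (.p (nat_lit 0x1527151b02) (nat_lit 0x556504) (nat_lit 16))
 (.p (nat_lit 0xb7597f02) (nat_lit 0x100b04) (nat_lit 28))))
 (.n (.n (.p (nat_lit 0xe24288b02) (nat_lit 0x301) (nat_lit 29))
 (.p (nat_lit 0x56aa56a856a656a456a256a003ac07) (nat_lit 0x40123) (nat_lit 8)))
 (.n (.p (nat_lit 0x2926267102) (nat_lit 0x240308) (nat_lit 4))
 (.p (nat_lit 0x5d29234502) (nat_lit 0x240060000b00) (nat_lit 40)))))
 (.n (.n (.n (.p (nat_lit 0x1a061a041a0019fe1799179306) (nat_lit 0x480004a700) (nat_lit 52))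
 (.p (nat_lit 0x14e0552102) (nat_lit 0x4051c) (nat_lit 29)))
 (.n (.p (nat_lit 0xe60239302) (nat_lit 0x306) (nat_lit 5))
 (.p (nat_lit 0x5e10114902) (nat_lit 0x20040400) (nat_lit 46))))
 (.n (.n (.p (nat_lit 0x1760175e175c17562461245f06) (nat_lit 0x3000090b02) (nat_lit 51))
 (.p (nat_lit 0x129e129c129a12960b570b5306) (nat_lit 0x280000a22a) (nat_lit 52)))
 (.n (.p (nat_lit 0x191f191302) (nat_lit 0x10670e) (nat_lit 16))
 (.p (nat_lit 0x197a60a902) (nat_lit 0x344581ca4000100040600) (nat_lit 49))))))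

def c512_70 : Tr := .n c1024_70 c1024_582

def c1024_326 : Tr :=
 .n (.n (.n (.n (.n (.n (.p (nat_lit 0x14a01460144014d04) (nat_lit 0x16000400007) (nat_lit 17))
 (.p (nat_lit 0xe7c616d02) (nat_lit 0x421aa4394000300040000) (nat_lit 50)))
 (.p (nat_lit 0x26f626f426f226f026ec33d906) (nat_lit 0x1000088b10) (nat_lit 51)))
 (.n (.p (nat_lit 0x167e167a167816761674008f167d07) (nat_lit 0x400603) (nat_lit 7))
 (.p (nat_lit 0x28202a8f02) (nat_lit 0x40022b) (nat_lit 5))))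
 (.n (.n (.p (nat_lit 0x1edb1bc902) (nat_lit 0x30a900) (nat_lit 16))
 (.p (nat_lit 0x2f722f702f6e2f6c2f6a2eaf06) (nat_lit 0x8000d211e) (nat_lit 51)))
 (.n (.p (nat_lit 0x227c227a227822762274205f06) (nat_lit 0x80004c906) (nat_lit 51))
 (.p (nat_lit 0x5cdd181902) (nat_lit 0x100020000700) (nat_lit 40)))))
 (.n (.n (.n (.p (nat_lit 0x10b210b010ae10aa0dff0df706) (nat_lit 0x11000016400) (nat_lit 52))
 (.p (nat_lit 0xaa20a9e0a9c0a9a0a98339706) (nat_lit 0x80000caa17) (nat_lit 51)))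
 (.n (.p (nat_lit 0xe9442102) (nat_lit 0x340005) (nat_lit 30))
 (.p (nat_lit 0x36c036803640362038d035306) (nat_lit 0x2216720) (nat_lit 26))))
 (.n (.n (.p (nat_lit 0x205b204f02) (nat_lit 0x450901) (nat_lit 16))
 (.p (nat_lit 0x3bf725a302) (nat_lit 0x450b23) (nat_lit 16)))
 (.n (.p (nat_lit 0x6620660065c065a06583bc506) (nat_lit 0x4000044b0a) (nat_lit 51))
 (.p (nat_lit 0x1ad65f6f02) (nat_lit 0x3aa074b50000200000600) (nat_lit 49))))))
 (.n (.n (.n (.n (.p (nat_lit 0x9d1072102) (nat_lit 0x240100) (nat_lit 15))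
 (.p (nat_lit 0x28b542302) (nat_lit 0x540415) (nat_lit 30)))
 (.n (.p (nat_lit 0xfb41f7502) (nat_lit 0x240304) (nat_lit 4))
 (.p (nat_lit 0x58c658c458c258c058be000b003607) (nat_lit 0x514801) (nat_lit 25))))
 (.n (.n (.p (nat_lit 0x3525e102) (nat_lit 0x500001) (nat_lit 30))
 (.p (nat_lit 0x5686568456825680567e567c03ae05eb05e905e70a) (nat_lit 0x16300023) (nat_lit 31)))
 (.n (.p (nat_lit 0x22d1200902) (nat_lit 0x540907) (nat_lit 15))
 (.p (nat_lit 0x5cf321dd02) (nat_lit 0x2a0040000a00) (nat_lit 41)))))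
 (.n (.n (.n (.p (nat_lit 0x162a182102) (nat_lit 0x500700) (nat_lit 5))
 (.p (nat_lit 0x8800d3b02) (nat_lit 0x20011c) (nat_lit 5)))
 (.n (.p (nat_lit 0x1e4e1e4a1e481e461e441d9106) (nat_lit 0x800004c805) (nat_lit 52))
 (.p (nat_lit 0x5cd95dfb02) (nat_lit 0x140020000300) (nat_lit 37))))
 (.n (.n (.p (nat_lit 0x233c233a23382336233221b706) (nat_lit 0x1000016a02) (nat_lit 52))
 (.p (nat_lit 0x1198119611941190118e50c106) (nat_lit 0x20000c4829) (nat_lit 52)))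
 (.n (.p (nat_lit 0x4109123d02) (nat_lit 0x45240e) (nat_lit 16))
 (.p (nat_lit 0x1ae8606f02) (nat_lit 0x588172b40800200000600) (nat_lit 50))))))

def c1024_838 : Tr :=
 .n (.n (.n (.n (.n (.n (.p (nat_lit 0x5cb04dd02) (nat_lit 0x104000) (nat_lit 16))
 (.p (nat_lit 0x12a312990fe70fdd0d130d110a550a4707a9079b04d904c361e80d) (nat_lit 0x14e0a8c74000000000000) (nat_lit 33)))
 (.p (nat_lit 0x4940455502) (nat_lit 0x140513) (nat_lit 4)))
 (.n (.p (nat_lit 0x8f3bbb02) (nat_lit 0x440b03) (nat_lit 30))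
 (.p (nat_lit 0x142414221420141c141a3bff06) (nat_lit 0x2000044b2d) (nat_lit 51))))
 (.n (.n (.p (nat_lit 0x227c227a2278227622741ff306) (nat_lit 0x80004ca00) (nat_lit 51))
 (.p (nat_lit 0xd280d240d220d200d1e428906) (nat_lit 0x8000040620) (nat_lit 52)))
 (.n (.p (nat_lit 0x4e210f6f02) (nat_lit 0x356307) (nat_lit 16))
 (.p (nat_lit 0x5d691c4f02) (nat_lit 0x140080000800) (nat_lit 41)))))
 (.n (.n (.n (.p (nat_lit 0x143c143a143414321223122106) (nat_lit 0x6000046500) (nat_lit 52))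
 (.p (nat_lit 0x494a45cb02) (nat_lit 0x4051a) (nat_lit 5)))
 (.n (.p (nat_lit 0x23e223e023de23da23d8169106) (nat_lit 0x200008e605) (nat_lit 52))
 (.p (nat_lit 0x5c9108f502) (nat_lit 0x2c0000000100) (nat_lit 41))))
 (.n (.n (.p (nat_lit 0x302a30283026302430223020006407) (nat_lit 0x40302) (nat_lit 8))
 (.p (nat_lit 0x1e5a1e581e561e521e503d7506) (nat_lit 0x200008c127) (nat_lit 51)))
 (.n (.p (nat_lit 0x4f1a4b5702) (nat_lit 0x34040d) (nat_lit 4))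
 (.p (nat_lit 0x20745fed02) (nat_lit 0x306a81d31000400000600) (nat_lit 49))))))
 (.n (.n (.n (.n (.p (nat_lit 0xd4c0d4a0d480d460d440b2f06) (nat_lit 0x800082300) (nat_lit 51))
 (.p (nat_lit 0x1d4e0c3f02) (nat_lit 0x140815) (nat_lit 5)))
 (.n (.p (nat_lit 0x1db61db21dae1dac17fb17f706) (nat_lit 0xa000052604) (nat_lit 51))
 (.p (nat_lit 0x176017401720170014b020b06) (nat_lit 0x2812208) (nat_lit 26))))
 (.n (.n (.p (nat_lit 0x2adf14f302) (nat_lit 0x342501) (nat_lit 16))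
 (.p (nat_lit 0xe980e960e940e920e900cb106) (nat_lit 0x100000c0223) (nat_lit 52)))
 (.n (.p (nat_lit 0x309430923090308e308c0185308b07) (nat_lit 0x40309) (nat_lit 7))
 (.p (nat_lit 0x6345ee302) (nat_lit 0x4a8866344000000040000) (nat_lit 49)))))
 (.n (.n (.n (.p (nat_lit 0x1b981b961b941b921903190106) (nat_lit 0x18000014800) (nat_lit 52))
 (.p (nat_lit 0x1bfc0f0702) (nat_lit 0x50081c) (nat_lit 4)))
 (.n (.p (nat_lit 0x15fa15f815f615f415f0196706) (nat_lit 0x1000012706) (nat_lit 52))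
 (.p (nat_lit 0x5cf112a502) (nat_lit 0x2c0040000500) (nat_lit 40))))
 (.n (.n (.p (nat_lit 0x35aa35a835a635a435a008bb06) (nat_lit 0x1000016103) (nat_lit 51))
 (.p (nat_lit 0x301b0e1f02) (nat_lit 0x30e32a) (nat_lit 16)))
 (.n (.p (nat_lit 0x22d609ad02) (nat_lit 0x240a0e) (nat_lit 4))
 (.p (nat_lit 0xe8260f102) (nat_lit 0x440d623a4000300040000) (nat_lit 50))))))

def c512_326 : Tr := .n c1024_326 c1024_838

def c256_70 : Tr := .n c512_70 c512_326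

def c1024_198 : Tr :=
 .n (.n (.n (.n (.n (.n (.p (nat_lit 0xbc00ba00c303) (nat_lit 0xc000500004) (nat_lit 17))
 (.p (nat_lit 0x2492614f02) (nat_lit 0x3503a0d84000500040600) (nat_lit 50)))
 (.p (nat_lit 0x31e82de702) (nat_lit 0x400510) (nat_lit 5)))
 (.n (.p (nat_lit 0x3973126502) (nat_lit 0x42403) (nat_lit 16))
 (.p (nat_lit 0x21a414a302) (nat_lit 0x400a2a) (nat_lit 4))))
 (.n (.n (.p (nat_lit 0x1e1c1e1a1e181e161bcd1bc306) (nat_lit 0x10800008900) (nat_lit 52))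
 (.p (nat_lit 0x33d55b702) (nat_lit 0x30081d) (nat_lit 30)))
 (.n (.p (nat_lit 0x1efc240102) (nat_lit 0x200906) (nat_lit 5))
 (.p (nat_lit 0x5d59154902) (nat_lit 0x240080000600) (nat_lit 40)))))
 (.n (.n (.n (.p (nat_lit 0xdfe0dfa0df80df60012000900010dfd0df509) (nat_lit 0x2000400) (nat_lit 10))
 (.p (nat_lit 0x31ec2ee502) (nat_lit 0x517) (nat_lit 4)))
 (.n (.p (nat_lit 0x21fa21f821f621f421f225cb06) (nat_lit 0x8000c0b04) (nat_lit 51))
 (.p (nat_lit 0x3885b5f02) (nat_lit 0x20041a) (nat_lit 27))))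
 (.n (.n (.p (nat_lit 0x204c177502) (nat_lit 0x340901) (nat_lit 4))
 (.p (nat_lit 0x2c4d219b02) (nat_lit 0x50ca23) (nat_lit 16)))
 (.n (.p (nat_lit 0x3975396902) (nat_lit 0x14440a) (nat_lit 16))
 (.p (nat_lit 0x181c5f5102) (nat_lit 0x1a1d22350000100000600) (nat_lit 50))))))
 (.n (.n (.n (.n (.p (nat_lit 0x8cb05c302) (nat_lit 0x312100) (nat_lit 16))
 (.p (nat_lit 0x30610e702) (nat_lit 0x415) (nat_lit 1)))
 (.n (.p (nat_lit 0xb950b8902) (nat_lit 0x316204) (nat_lit 16))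
 (.p (nat_lit 0x4d584f8702) (nat_lit 0x540230) (nat_lit 4))))
 (.n (.n (.p (nat_lit 0x254425422540253c22bf22bb06) (nat_lit 0x2800050b00) (nat_lit 51))
 (.p (nat_lit 0x2920291e291c291a2916502306) (nat_lit 0x10000d2722) (nat_lit 51)))
 (.n (.p (nat_lit 0x3502350034fe34fc34f81bd106) (nat_lit 0x1000008807) (nat_lit 52))
 (.p (nat_lit 0x5e923dfd02) (nat_lit 0xa0048900) (nat_lit 47)))))
 (.n (.n (.n (.p (nat_lit 0x176c176a17681764176216b506) (nat_lit 0x2000052600) (nat_lit 51))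
 (.p (nat_lit 0x7aa07a607a407a207a0073d06) (nat_lit 0x800004201c) (nat_lit 51)))
 (.n (.p (nat_lit 0xf000f50107214322a905) (nat_lit 0x21300805) (nat_lit 9))
 (.p (nat_lit 0x5d770a5902) (nat_lit 0x60080000200) (nat_lit 40))))
 (.n (.n (.p (nat_lit 0x2325205d02) (nat_lit 0x540902) (nat_lit 15))
 (.p (nat_lit 0x4c904c8e4c8c4c884c8604214c8b07) (nat_lit 0x240129) (nat_lit 7)))
 (.n (.p (nat_lit 0x310510e502) (nat_lit 0x50e40e) (nat_lit 16))
 (.p (nat_lit 0x2078604d02) (nat_lit 0x406a6254c800400000600) (nat_lit 50))))))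

def c1024_710 : Tr :=
 .n (.n (.n (.n (.n (.n (.p (nat_lit 0x4d504c902) (nat_lit 0x300000) (nat_lit 34))
 (.p (nat_lit 0xbb661cd02) (nat_lit 0x3421684a0800200040000) (nat_lit 50)))
 (.p (nat_lit 0x7da07d607d407d207d0422906) (nat_lit 0x8000088612) (nat_lit 51)))
 (.n (.p (nat_lit 0xbb00bae0bac0baa0ba6246b06) (nat_lit 0x1000084b03) (nat_lit 52))
 (.p (nat_lit 0x499587f02) (nat_lit 0x50022d) (nat_lit 30))))
 (.n (.n (.p (nat_lit 0x216f1e8f02) (nat_lit 0x102a00) (nat_lit 16))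
 (.p (nat_lit 0x3d0a3d063d043d000378036b03653d093d0309) (nat_lit 0x2140020) (nat_lit 10)))
 (.n (.p (nat_lit 0xf720f6e0f6c0f6a0f6801490f7107) (nat_lit 0x440307) (nat_lit 7))
 (.p (nat_lit 0x5e6c1c4902) (nat_lit 0x20040800) (nat_lit 46)))))
 (.n (.n (.n (.p (nat_lit 0x137a13761374137210cd10c906) (nat_lit 0x14000096500) (nat_lit 52))
 (.p (nat_lit 0x42cc3ef302) (nat_lit 0x200719) (nat_lit 4)))
 (.n (.p (nat_lit 0x13d620f902) (nat_lit 0x200505) (nat_lit 4))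
 (.p (nat_lit 0x5cef5db702) (nat_lit 0x2e0040000000) (nat_lit 37))))
 (.n (.n (.p (nat_lit 0xb72185902) (nat_lit 0x400202) (nat_lit 4))
 (.p (nat_lit 0x377c3778377637743772375706) (nat_lit 0x8000040226) (nat_lit 52)))
 (.n (.p (nat_lit 0x49cc447502) (nat_lit 0x20070c) (nat_lit 5))
 (.p (nat_lit 0x233a5fcf02) (nat_lit 0x9582ec05000500000600) (nat_lit 49))))))
 (.n (.n (.n (.n (.p (nat_lit 0xc9d09cf02) (nat_lit 0x140200) (nat_lit 16))
 (.p (nat_lit 0x191e0abf02) (nat_lit 0x100715) (nat_lit 5)))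
 (.n (.p (nat_lit 0x4221168102) (nat_lit 0x2604) (nat_lit 16))
 (.p (nat_lit 0x59cc59ca59c659c459c201ed011e07) (nat_lit 0x310106) (nat_lit 25))))
 (.n (.n (.p (nat_lit 0x1250172b02) (nat_lit 0x240401) (nat_lit 4))
 (.p (nat_lit 0x459109ef02) (nat_lit 0x554123) (nat_lit 16)))
 (.n (.p (nat_lit 0x2be226ab02) (nat_lit 0x340908) (nat_lit 4))
 (.p (nat_lit 0xfd65ec502) (nat_lit 0x260b84344000400000000) (nat_lit 49)))))
 (.n (.n (.n (.p (nat_lit 0x1ab1179302) (nat_lit 0x52700) (nat_lit 16))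
 (.p (nat_lit 0x17ca0d7b02) (nat_lit 0x44061c) (nat_lit 5)))
 (.n (.p (nat_lit 0x128e23bb02) (nat_lit 0x340406) (nat_lit 5))
 (.p (nat_lit 0x5da30fdf02) (nat_lit 0xa00a0000400) (nat_lit 38))))
 (.n (.n (.p (nat_lit 0x8d343902) (nat_lit 0x300003) (nat_lit 30))
 (.p (nat_lit 0x12a612a412a212a00cbd0cbb06) (nat_lit 0x1800004a22a) (nat_lit 51)))
 (.n (.p (nat_lit 0x358a35883584358235801d4706) (nat_lit 0x40000c880e) (nat_lit 51))
 (.p (nat_lit 0x63460d302) (nat_lit 0x340a623b0000000040000) (nat_lit 49))))))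

def c512_198 : Tr := .n c1024_198 c1024_710

def c1024_454 : Tr :=
 .n (.n (.n (.n (.n (.n (.p (nat_lit 0x2860284028f03) (nat_lit 0x6000500015) (nat_lit 17))
 (.p (nat_lit 0x2492618902) (nat_lit 0x340b86c64000500040600) (nat_lit 50)))
 (.p (nat_lit 0x39e0358f02) (nat_lit 0x100511) (nat_lit 5)))
 (.n (.p (nat_lit 0x1a1e1a1c1a181a1617ed17e706) (nat_lit 0x4800052603) (nat_lit 51))
 (.p (nat_lit 0x2c222a6d02) (nat_lit 0x54092b) (nat_lit 5))))
 (.n (.n (.p (nat_lit 0x1fbe1fbc1fba1fb81fb61d3306) (nat_lit 0x100000cc900) (nat_lit 52))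
 (.p (nat_lit 0x354e378502) (nat_lit 0x34001f) (nat_lit 5)))
 (.n (.p (nat_lit 0x2f350b4102) (nat_lit 0x30e207) (nat_lit 16))
 (.p (nat_lit 0x5d21181d02) (nat_lit 0x2c0060000700) (nat_lit 40)))))
 (.n (.n (.n (.p (nat_lit 0x1180117e117a117811760f6306) (nat_lit 0x40000c2400) (nat_lit 52))
 (.p (nat_lit 0x3aa654c502) (nat_lit 0x200618) (nat_lit 29)))
 (.n (.p (nat_lit 0x45bc45ba45b845b645b445b206) (nat_lit 0x88205) (nat_lit 52))
 (.p (nat_lit 0x412040e040a040800eb04af06) (nat_lit 0x2202028) (nat_lit 26))))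
 (.n (.n (.p (nat_lit 0x24fc24fa24f624f22315231106) (nat_lit 0x5000048a01) (nat_lit 52))
 (.p (nat_lit 0x2c0c29e902) (nat_lit 0x40924) (nat_lit 4)))
 (.n (.p (nat_lit 0x40fe3cbd02) (nat_lit 0x54040b) (nat_lit 4))
 (.p (nat_lit 0x1db05f8d02) (nat_lit 0x581a30344000300000600) (nat_lit 50))))))
 (.n (.n (.n (.n (.p (nat_lit 0xa7e0a7a0a760a740879087506) (nat_lit 0xa000008200) (nat_lit 52))
 (.p (nat_lit 0x16a216a0169e169c1698138d06) (nat_lit 0x100008c515) (nat_lit 52)))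
 (.n (.p (nat_lit 0x40b840b640b440b240b0127b06) (nat_lit 0x100000c2404) (nat_lit 52))
 (.p (nat_lit 0x23e592102) (nat_lit 0x300103) (nat_lit 27))))
 (.n (.n (.p (nat_lit 0xa060a020a0009fe09fc00330a0507) (nat_lit 0x440101) (nat_lit 7))
 (.p (nat_lit 0x888569502) (nat_lit 0x123) (nat_lit 29)))
 (.n (.p (nat_lit 0x162f241702) (nat_lit 0x100b07) (nat_lit 15))
 (.p (nat_lit 0x5cb9248d02) (nat_lit 0x40000000b00) (nat_lit 41)))))
 (.n (.n (.n (.p (nat_lit 0x1909162502) (nat_lit 0x200700) (nat_lit 16))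
 (.p (nat_lit 0xbc80bc40bc00bbe09e109dd06) (nat_lit 0xa00004011c) (nat_lit 52)))
 (.n (.p (nat_lit 0x1194ba302) (nat_lit 0x300106) (nat_lit 30))
 (.p (nat_lit 0x5d5d0d0f02) (nat_lit 0x200080000300) (nat_lit 38))))
 (.n (.n (.p (nat_lit 0x1ade1adc1ad81ad61ad4232106) (nat_lit 0x4000050a02) (nat_lit 52))
 (.p (nat_lit 0x9fa09f809f409f209f0043b09f707) (nat_lit 0x34012a) (nat_lit 7)))
 (.n (.p (nat_lit 0x4fa04f804f604f414d314c906) (nat_lit 0x108000c450e) (nat_lit 52))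
 (.p (nat_lit 0x1146608d02) (nat_lit 0x342221ca4000400040000) (nat_lit 50))))))

def c1024_966 : Tr :=
 .n (.n (.n (.n (.n (.p (nat_lit 0x69e069c069806960694065306) (nat_lit 0x40000c8000) (nat_lit 52))
 (.p (nat_lit 0x4f224bc102) (nat_lit 0x140414) (nat_lit 5)))
 (.n (.p (nat_lit 0xc200df00cf1f211dbd05) (nat_lit 0xaca00004) (nat_lit 9))
 (.p (nat_lit 0x14181416141414121410429906) (nat_lit 0x8000c262e) (nat_lit 51))))
 (.n (.n (.p (nat_lit 0x2158234302) (nat_lit 0x200b00) (nat_lit 5))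
 (.p (nat_lit 0x44a446b902) (nat_lit 0x440021) (nat_lit 5)))
 (.n (.p (nat_lit 0x1232052d02) (nat_lit 0x540407) (nat_lit 5))
 (.p (nat_lit 0x5c975e7f02) (nat_lit 0x260000000900) (nat_lit 36)))))
 (.n (.n (.n (.p (nat_lit 0x34155702) (nat_lit 0x500600) (nat_lit 1))
 (.p (nat_lit 0x4f364d1b02) (nat_lit 0x54041b) (nat_lit 5)))
 (.n (.p (nat_lit 0x8fe08fc08f808f608f4195f06) (nat_lit 0x4000082705) (nat_lit 51))
 (.p (nat_lit 0x5d2507a702) (nat_lit 0x280060000100) (nat_lit 40))))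
 (.n (.n (.p (nat_lit 0x47e13b302) (nat_lit 0x200502) (nat_lit 1))
 (.p (nat_lit 0x42e6407102) (nat_lit 0x300727) (nat_lit 5)))
 (.n (.p (nat_lit 0x2840e1102) (nat_lit 0x20030e) (nat_lit 1))
 (.p (nat_lit 0x2346600f02) (nat_lit 0x405aa0b94800500000600) (nat_lit 50))))))
 (.n (.n (.n (.n (.p (nat_lit 0xe530b3902) (nat_lit 0x512300) (nat_lit 16))
 (.p (nat_lit 0x21820c6b02) (nat_lit 0x500a15) (nat_lit 5)))
 (.n (.p (nat_lit 0x1d1a1d161d141d121d10195506) (nat_lit 0x8000016704) (nat_lit 51))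
 (.p (nat_lit 0x1f001ec01ea01e80001028906) (nat_lit 0x40830e) (nat_lit 26))))
 (.n (.n (.p (nat_lit 0x2b2b3f02) (nat_lit 0x40801) (nat_lit 30))
 (.p (nat_lit 0x313c313831363132193d193706) (nat_lit 0x9000084723) (nat_lit 52)))
 (.n (.p (nat_lit 0x51405120510050c050a332706) (nat_lit 0x2000086a09) (nat_lit 51))
 (.p (nat_lit 0x1db65f0f02) (nat_lit 0x3a2570344000300000600) (nat_lit 50)))))
 (.n (.n (.n (.p (nat_lit 0x1a661a621a601a5c001a000900031a651a5f09) (nat_lit 0x2140800) (nat_lit 10))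
 (.p (nat_lit 0x307557502) (nat_lit 0x4091c) (nat_lit 30)))
 (.n (.p (nat_lit 0x1c38503702) (nat_lit 0x500806) (nat_lit 29))
 (.p (nat_lit 0x5d8912ab02) (nat_lit 0x2400a0000500) (nat_lit 40))))
 (.n (.n (.p (nat_lit 0xcd61c8f02) (nat_lit 0x40203) (nat_lit 4))
 (.p (nat_lit 0x17da130102) (nat_lit 0x4062a) (nat_lit 4)))
 (.n (.p (nat_lit 0x299a26e902) (nat_lit 0x40040f) (nat_lit 4))
 (.p (nat_lit 0x648611502) (nat_lit 0x3422621b0000000040000) (nat_lit 50))))))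

def c512_454 : Tr := .n c1024_454 c1024_966

def c256_198 : Tr := .n c512_198 c512_454

def c128_70 : Tr := .n c256_70 c256_198

def c64_6 : Tr := .n c128_6 c128_70

def c1024_38 : Tr :=
 .n (.n (.n (.n (.n (.n (.p (nat_lit 0x340030002e003704) (nat_lit 0x16000400001) (nat_lit 17))
 (.p (nat_lit 0x13fc612b02) (nat_lit 0x35486a3b0000500040000) (nat_lit 50)))
 (.p (nat_lit 0x2e942e922e902e8e2e8c2b0906) (nat_lit 0x80001480f) (nat_lit 52)))
 (.n (.p (nat_lit 0xfa837ed02) (nat_lit 0x240303) (nat_lit 29))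
 (.p (nat_lit 0x43d580502) (nat_lit 0x44072a) (nat_lit 30))))
 (.n (.n (.p (nat_lit 0x1d021cfe1cfc1cfa1a651a5d06) (nat_lit 0x8800054800) (nat_lit 51))
 (.p (nat_lit 0x22ec0f3b02) (nat_lit 0x140a1c) (nat_lit 5)))
 (.n (.p (nat_lit 0x1d94254702) (nat_lit 0x40806) (nat_lit 4))
 (.p (nat_lit 0x5cd9169b02) (nat_lit 0x140020000600) (nat_lit 39)))))
 (.n (.n (.n (.p (nat_lit 0xebc0eba0eb60eb40c990c9306) (nat_lit 0x1200004a300) (nat_lit 51))
 (.p (nat_lit 0x54b254b054ae54ac54aa54a8028c07) (nat_lit 0x40b15) (nat_lit 8)))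
 (.n (.p (nat_lit 0x1ba81ba61ba41ba21ab31ab106) (nat_lit 0x18000d4704) (nat_lit 52))
 (.p (nat_lit 0x2120210020e020c017902af06) (nat_lit 0x280a30f) (nat_lit 26))))
 (.n (.n (.p (nat_lit 0x1d9d1d8502) (nat_lit 0x454801) (nat_lit 16))
 (.p (nat_lit 0x50731c0902) (nat_lit 0x516823) (nat_lit 16)))
 (.n (.p (nat_lit 0x35f635f435f235f035ee36c106) (nat_lit 0x1000008820a) (nat_lit 52))
 (.p (nat_lit 0x20765f1f02) (nat_lit 0x1a2260b50000400000600) (nat_lit 50))))))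
 (.n (.n (.n (.n (.p (nat_lit 0x78f065302) (nat_lit 0x356000) (nat_lit 16))
 (.p (nat_lit 0x50ec4c7502) (nat_lit 0x914) (nat_lit 5)))
 (.n (.p (nat_lit 0x783077702) (nat_lit 0x356004) (nat_lit 16))
 (.p (nat_lit 0x22942290228e228c228a460b06) (nat_lit 0x800000e22f) (nat_lit 51))))
 (.n (.n (.p (nat_lit 0x24062402240023fe215d215506) (nat_lit 0x8800012b00) (nat_lit 51))
 (.p (nat_lit 0x4a3e474502) (nat_lit 0x140721) (nat_lit 4)))
 (.n (.p (nat_lit 0x17a0053b02) (nat_lit 0x140607) (nat_lit 4))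
 (.p (nat_lit 0x5d011f1502) (nat_lit 0x1c0040000900) (nat_lit 41)))))
 (.n (.n (.n (.p (nat_lit 0x1627155302) (nat_lit 0x300600) (nat_lit 15))
 (.p (nat_lit 0x5da54f702) (nat_lit 0x30001c) (nat_lit 29)))
 (.n (.p (nat_lit 0x1ac0229b02) (nat_lit 0x240705) (nat_lit 4))
 (.p (nat_lit 0x5cbb0bb302) (nat_lit 0x20000000200) (nat_lit 41))))
 (.n (.n (.p (nat_lit 0x1eee1a1702) (nat_lit 0x100902) (nat_lit 5))
 (.p (nat_lit 0x4586479302) (nat_lit 0x40128) (nat_lit 5)))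
 (.n (.p (nat_lit 0xf7e0f7c0f780f7601fa01ed01e70f7b0f7509) (nat_lit 0x184030e) (nat_lit 10))
 (.p (nat_lit 0x2078602502) (nat_lit 0x406a6252d000400000600) (nat_lit 50))))))

def c1024_550 : Tr :=
 .n (.n (.n (.n (.n (.n (.p (nat_lit 0x3560352034e035b04) (nat_lit 0xa80040001f) (nat_lit 17))
 (.p (nat_lit 0xe7c61a502) (nat_lit 0x3222a5c15000300040000) (nat_lit 50)))
 (.p (nat_lit 0x7b607b407b207b007ac3bcd06) (nat_lit 0x1000046b11) (nat_lit 52)))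
 (.n (.p (nat_lit 0x1fc01fbe1fbc1fb81fb621c506) (nat_lit 0x200008ca03) (nat_lit 52))
 (.p (nat_lit 0x32bc323902) (nat_lit 0x92c) (nat_lit 4))))
 (.n (.n (.p (nat_lit 0x20551d2b02) (nat_lit 0x14e900) (nat_lit 16))
 (.p (nat_lit 0x3918391439123910390e3a7b06) (nat_lit 0x800004251f) (nat_lit 51)))
 (.n (.p (nat_lit 0x37470c9f02) (nat_lit 0x250207) (nat_lit 16))
 (.p (nat_lit 0x5da3198702) (nat_lit 0xa00a0000700) (nat_lit 41)))))
 (.n (.n (.n (.p (nat_lit 0x126b0f6302) (nat_lit 0x350400) (nat_lit 16))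
 (.p (nat_lit 0x3cfe3ea902) (nat_lit 0x540019) (nat_lit 4)))
 (.n (.p (nat_lit 0xe5e46a302) (nat_lit 0x500305) (nat_lit 29))
 (.p (nat_lit 0x4840480047e047a043d03e106) (nat_lit 0x211432c) (nat_lit 26))))
 (.n (.n (.p (nat_lit 0x5d2d0d02) (nat_lit 0x240002) (nat_lit 30))
 (.p (nat_lit 0x3306315102) (nat_lit 0x440925) (nat_lit 4)))
 (.n (.p (nat_lit 0x1ba01bf01c33cdd3c5305) (nat_lit 0x82b4070b) (nat_lit 9))
 (.p (nat_lit 0xe6e5f9f02) (nat_lit 0x589832b44000300040000) (nat_lit 49))))))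
 (.n (.n (.n (.n (.p (nat_lit 0xb6d087302) (nat_lit 0x10e200) (nat_lit 16))
 (.p (nat_lit 0xbb00bae0bac0baa0ba614d706) (nat_lit 0x10000c4515) (nat_lit 52)))
 (.n (.p (nat_lit 0x15141fa302) (nat_lit 0x240504) (nat_lit 5))
 (.p (nat_lit 0xbf596702) (nat_lit 0x500404) (nat_lit 28))))
 (.n (.n (.p (nat_lit 0xcc80cc60cc40cc00cbe002f0cc307) (nat_lit 0x240201) (nat_lit 7))
 (.p (nat_lit 0x2348234623442342233e088b06) (nat_lit 0x1000016123) (nat_lit 51)))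
 (.n (.p (nat_lit 0x28ca25f902) (nat_lit 0x308) (nat_lit 4))
 (.p (nat_lit 0x5d4b249302) (nat_lit 0x20060000b00) (nat_lit 41)))))
 (.n (.n (.n (.p (nat_lit 0x199e199a19981996179b179306) (nat_lit 0x88000c0700) (nat_lit 52))
 (.p (nat_lit 0x118c118a11861184139d139706) (nat_lit 0x480000451c) (nat_lit 52)))
 (.n (.p (nat_lit 0x11b4c9b02) (nat_lit 0x400206) (nat_lit 30))
 (.p (nat_lit 0x5cdf0fd702) (nat_lit 0xe0020000400) (nat_lit 38))))
 (.n (.n (.p (nat_lit 0x246624642462245e006c005d00592461245d09) (nat_lit 0x1000b02) (nat_lit 10))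
 (.p (nat_lit 0x64a06480646064406400b5506) (nat_lit 0x100008022a) (nat_lit 51)))
 (.n (.p (nat_lit 0x17b917ad02) (nat_lit 0x14660e) (nat_lit 16))
 (.p (nat_lit 0x21cc609f02) (nat_lit 0x344588ca4000400040600) (nat_lit 49))))))

def c512_38 : Tr := .n c1024_38 c1024_550

def c1024_294 : Tr :=
 .n (.n (.n (.n (.n (.n (.p (nat_lit 0x11a0118012103) (nat_lit 0xc000500006) (nat_lit 17))
 (.p (nat_lit 0x2076616302) (nat_lit 0x421aa4395000400000600) (nat_lit 50)))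
 (.p (nat_lit 0x7ce07ca07c807c607c4338b06) (nat_lit 0x8000048a10) (nat_lit 52)))
 (.n (.p (nat_lit 0x76f150f02) (nat_lit 0x540503) (nat_lit 15))
 (.p (nat_lit 0x43b584b02) (nat_lit 0x340b2a) (nat_lit 30))))
 (.n (.n (.p (nat_lit 0x1e951bcb02) (nat_lit 0x400900) (nat_lit 15))
 (.p (nat_lit 0x18c418c218c018be18bc2da706) (nat_lit 0x100000d201e) (nat_lit 52)))
 (.n (.p (nat_lit 0xe8206502) (nat_lit 0x340906) (nat_lit 1))
 (.p (nat_lit 0x5c8f181702) (nat_lit 0x2e0000000700) (nat_lit 40)))))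
 (.n (.n (.n (.p (nat_lit 0x106e106a106810660dfd0df506) (nat_lit 0x8800010400) (nat_lit 51))
 (.p (nat_lit 0xa940a920a900a8e0a8c334506) (nat_lit 0x1000000aa17) (nat_lit 52)))
 (.n (.p (nat_lit 0x43d243d043ce43cc0627062506) (nat_lit 0x18000086005) (nat_lit 51))
 (.p (nat_lit 0x3580356035203500363008d06) (nat_lit 0x31401f) (nat_lit 26))))
 (.n (.n (.p (nat_lit 0x21e221e021de21dc21da204706) (nat_lit 0x8000d4901) (nat_lit 51))
 (.p (nat_lit 0x259c573302) (nat_lit 0x140b23) (nat_lit 29)))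
 (.n (.p (nat_lit 0x67806760674067206703b7506) (nat_lit 0x10000006b0a) (nat_lit 51))
 (.p (nat_lit 0x6345f6302) (nat_lit 0x3aa074b44000000040000) (nat_lit 49))))))
 (.n (.n (.n (.n (.p (nat_lit 0x9440942093e093c0727072106) (nat_lit 0x120000ca100) (nat_lit 52))
 (.p (nat_lit 0x1240541902) (nat_lit 0x40415) (nat_lit 29)))
 (.n (.p (nat_lit 0xe4e3f3702) (nat_lit 0x300304) (nat_lit 29))
 (.p (nat_lit 0x2f58b702) (nat_lit 0x200501) (nat_lit 28))))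
 (.n (.n (.p (nat_lit 0x25c922c502) (nat_lit 0x550b00) (nat_lit 16))
 (.p (nat_lit 0x5ea05e805e605e205e003a505e507) (nat_lit 0x200023) (nat_lit 7)))
 (.n (.p (nat_lit 0x1eab1e9f02) (nat_lit 0x304907) (nat_lit 16))
 (.p (nat_lit 0x5e9847db02) (nat_lit 0x20002a00) (nat_lit 48)))))
 (.n (.n (.n (.p (nat_lit 0x17f716b502) (nat_lit 0x252600) (nat_lit 16))
 (.p (nat_lit 0x26c1073902) (nat_lit 0x24c01c) (nat_lit 16)))
 (.n (.p (nat_lit 0xbe1d9302) (nat_lit 0x540805) (nat_lit 1))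
 (.p (nat_lit 0x5cb35df702) (nat_lit 0xa0000000300) (nat_lit 37))))
 (.n (.n (.p (nat_lit 0x18121810180e180a21bf21b706) (nat_lit 0x1100000ea02) (nat_lit 52))
 (.p (nat_lit 0x10b210b010ae10ac5073506906) (nat_lit 0x10800016829) (nat_lit 52)))
 (.n (.p (nat_lit 0x1f0c1f0a1f081f061f04123f06) (nat_lit 0x100000d240e) (nat_lit 52))
 (.p (nat_lit 0x233e606502) (nat_lit 0x85ab0335000500000600) (nat_lit 50))))))

def c1024_806 : Tr :=
 .n (.n (.n (.n (.n (.n (.p (nat_lit 0x54e054c054a054804dd04db06) (nat_lit 0x180000e000) (nat_lit 52))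
 (.p (nat_lit 0xbac61e302) (nat_lit 0x3302a5895000200040000) (nat_lit 49)))
 (.p (nat_lit 0x21222120211e211c211a47d906) (nat_lit 0x80008c413) (nat_lit 52)))
 (.n (.p (nat_lit 0x3b97247102) (nat_lit 0x406b03) (nat_lit 16))
 (.p (nat_lit 0x3bb039d102) (nat_lit 0x500b2d) (nat_lit 4))))
 (.n (.n (.p (nat_lit 0x22062202220021fe1ffb1ff306) (nat_lit 0x8800042a00) (nat_lit 51))
 (.p (nat_lit 0x42423f6502) (nat_lit 0x500620) (nat_lit 5)))
 (.n (.p (nat_lit 0x12330f7302) (nat_lit 0x540307) (nat_lit 15))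
 (.p (nat_lit 0x5e74354f02) (nat_lit 0x60046800) (nat_lit 47)))))
 (.n (.n (.n (.p (nat_lit 0x141814161410140e1223122106) (nat_lit 0x60000c2500) (nat_lit 51))
 (.p (nat_lit 0x4f31485b02) (nat_lit 0x24c41a) (nat_lit 16)))
 (.n (.p (nat_lit 0x169616941690168e168c00e9169307) (nat_lit 0x300605) (nat_lit 7))
 (.p (nat_lit 0x5d8d04d902) (nat_lit 0x2000a0000000) (nat_lit 40))))
 (.n (.n (.p (nat_lit 0x632fbb02) (nat_lit 0x500302) (nat_lit 30))
 (.p (nat_lit 0x11721170116e116c116a3bf906) (nat_lit 0x10000042b26) (nat_lit 51)))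
 (.n (.p (nat_lit 0x255a25582556255425524dcb06) (nat_lit 0x1000001230d) (nat_lit 52))
 (.p (nat_lit 0x4d05fe702) (nat_lit 0x38ac60b44000000000000) (nat_lit 50))))))
 (.n (.n (.n (.n (.p (nat_lit 0xd280d240d220d200d1e0b3706) (nat_lit 0x8000000300) (nat_lit 52))
 (.p (nat_lit 0x2ce1be702) (nat_lit 0x815) (nat_lit 1)))
 (.n (.p (nat_lit 0x129a12981296129417fd17fb06) (nat_lit 0x1800004a604) (nat_lit 52))
 (.p (nat_lit 0x14159fd02) (nat_lit 0x407) (nat_lit 28))))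
 (.n (.n (.p (nat_lit 0x14f2174502) (nat_lit 0x340501) (nat_lit 4))
 (.p (nat_lit 0xcb00cae0cac0ca80ca603a50cab07) (nat_lit 0x240223) (nat_lit 7)))
 (.n (.p (nat_lit 0x5e301102) (nat_lit 0x300309) (nat_lit 1))
 (.p (nat_lit 0xbb25edb02) (nat_lit 0x4a9d22344000200040000) (nat_lit 50)))))
 (.n (.n (.n (.p (nat_lit 0x1b841b821b801b7a18fd18fb06) (nat_lit 0x300000c800) (nat_lit 51))
 (.p (nat_lit 0x1d5f1a9302) (nat_lit 0x34071c) (nat_lit 15)))
 (.n (.p (nat_lit 0x1968252702) (nat_lit 0x200706) (nat_lit 5))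
 (.p (nat_lit 0x5e2805e302) (nat_lit 0x20006500) (nat_lit 47))))
 (.n (.n (.p (nat_lit 0x8ba356302) (nat_lit 0x100103) (nat_lit 29))
 (.p (nat_lit 0xe220e200e1e0e180450043904370e1d0e1b09) (nat_lit 0x110032a) (nat_lit 10)))
 (.n (.p (nat_lit 0x216c099d02) (nat_lit 0xa0e) (nat_lit 4))
 (.p (nat_lit 0x13ee60eb02) (nat_lit 0x340d623a4000500040000) (nat_lit 49))))))

def c512_294 : Tr := .n c1024_294 c1024_806

def c256_38 : Tr := .n c512_38 c512_294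

def c1024_166 : Tr :=
 .n (.n (.n (.n (.n (.n (.p (nat_lit 0xab009b009403) (nat_lit 0x41800003) (nat_lit 19))
 (.p (nat_lit 0x8fe614b02) (nat_lit 0x3b0221d84000100040000) (nat_lit 50)))
 (.p (nat_lit 0x317c317a3178317631740223317307) (nat_lit 0x40410) (nat_lit 7)))
 (.n (.p (nat_lit 0x126e126a126812661264008f126d07) (nat_lit 0x440403) (nat_lit 7))
 (.p (nat_lit 0x43f582b02) (nat_lit 0x54092a) (nat_lit 30))))
 (.n (.n (.p (nat_lit 0x1dc21dc01dba1db81bc91bc706) (nat_lit 0x6000000900) (nat_lit 52))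
 (.p (nat_lit 0x26c628fd02) (nat_lit 0x54001d) (nat_lit 4)))
 (.n (.p (nat_lit 0x248a2484248224801d9d1d9b06) (nat_lit 0xc0000d6806) (nat_lit 52))
 (.p (nat_lit 0x5e46299902) (nat_lit 0x60002600) (nat_lit 48)))))
 (.n (.n (.n (.p (nat_lit 0xdf40fe102) (nat_lit 0x400) (nat_lit 5))
 (.p (nat_lit 0x2bf827ff02) (nat_lit 0x240916) (nat_lit 4)))
 (.n (.p (nat_lit 0x25cc435d02) (nat_lit 0x140b04) (nat_lit 29))
 (.p (nat_lit 0x2fc5b3b02) (nat_lit 0x500a15) (nat_lit 27))))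
 (.n (.n (.p (nat_lit 0x2bad1ee102) (nat_lit 0x6901) (nat_lit 16))
 (.p (nat_lit 0x57225720571e571c571a571803ac07) (nat_lit 0xa23) (nat_lit 8)))
 (.n (.p (nat_lit 0x39ce39cc39ca39c839c638dd06) (nat_lit 0x1000001640a) (nat_lit 52))
 (.p (nat_lit 0x1db65f3f02) (nat_lit 0x3a2560c64000300000600) (nat_lit 50))))))
 (.n (.n (.n (.n (.p (nat_lit 0x88305c302) (nat_lit 0x306100) (nat_lit 16))
 (.p (nat_lit 0x7ce07cc07ca07c807c4072b06) (nat_lit 0x1000048015) (nat_lit 52)))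
 (.n (.p (nat_lit 0xb8c1f5702) (nat_lit 0x500204) (nat_lit 4))
 (.p (nat_lit 0x12da12d612d412d212d04a5d06) (nat_lit 0x80000c472f) (nat_lit 51))))
 (.n (.n (.p (nat_lit 0x24fc24fa24f824f624f422bb06) (nat_lit 0x800048b00) (nat_lit 52))
 (.p (nat_lit 0x4fbe4d8d02) (nat_lit 0x340522) (nat_lit 4)))
 (.n (.p (nat_lit 0x1bd006c102) (nat_lit 0x100807) (nat_lit 5))
 (.p (nat_lit 0x5da11f0f02) (nat_lit 0xc00a0000900) (nat_lit 39)))))
 (.n (.n (.n (.p (nat_lit 0x174817461744173e16b516b306) (nat_lit 0x30000ca600) (nat_lit 52))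
 (.p (nat_lit 0x441905df02) (nat_lit 0x51401c) (nat_lit 16)))
 (.n (.p (nat_lit 0x4a471ac702) (nat_lit 0x546705) (nat_lit 16))
 (.p (nat_lit 0x5d435de902) (nat_lit 0xa0060000200) (nat_lit 37))))
 (.n (.n (.p (nat_lit 0x1b841b821b7e1b7a2059205506) (nat_lit 0x500004c902) (nat_lit 51))
 (.p (nat_lit 0x4c104ecb02) (nat_lit 0x200129) (nat_lit 5)))
 (.n (.p (nat_lit 0x1db41db21db01dae1dac10e506) (nat_lit 0x1000001240e) (nat_lit 51))
 (.p (nat_lit 0x180e604702) (nat_lit 0x40a96254c800100000600) (nat_lit 49))))))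

def c1024_678 : Tr :=
 .n (.n (.n (.n (.n (.n (.p (nat_lit 0x4840480047c048704) (nat_lit 0x1500040002c) (nat_lit 17))
 (.p (nat_lit 0x13ec61c302) (nat_lit 0x3221a9c15000500040000) (nat_lit 49)))
 (.p (nat_lit 0x42003db902) (nat_lit 0x540512) (nat_lit 4)))
 (.n (.p (nat_lit 0x246e3b6502) (nat_lit 0x300b03) (nat_lit 29))
 (.p (nat_lit 0x3478347634743472346e364d06) (nat_lit 0x100004812d) (nat_lit 51))))
 (.n (.n (.p (nat_lit 0x214621422140213c1e951e8f06) (nat_lit 0x9000010a00) (nat_lit 51))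
 (.p (nat_lit 0x3c683c663c643c603c5e03673c6307) (nat_lit 0x200020) (nat_lit 7)))
 (.n (.p (nat_lit 0xe1d0e0502) (nat_lit 0x208307) (nat_lit 16))
 (.p (nat_lit 0x5cd55e6d02) (nat_lit 0x180020000800) (nat_lit 37)))))
 (.n (.n (.n (.p (nat_lit 0x12f012ee12ec12ea12e810cd06) (nat_lit 0x10000086500) (nat_lit 51))
 (.p (nat_lit 0x42783e4902) (nat_lit 0x240619) (nat_lit 5)))
 (.n (.p (nat_lit 0x1284225702) (nat_lit 0x440405) (nat_lit 4))
 (.p (nat_lit 0x5ccb064302) (nat_lit 0x220020000000) (nat_lit 41))))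
 (.n (.n (.p (nat_lit 0x2e942e922e902e8e2e8c2e8a06) (nat_lit 0x54102) (nat_lit 52))
 (.p (nat_lit 0x575e575c575a57585756575403f807) (nat_lit 0x226) (nat_lit 8)))
 (.n (.p (nat_lit 0x4842446102) (nat_lit 0x24040c) (nat_lit 4))
 (.p (nat_lit 0x180a5fcb02) (nat_lit 0x9582ec05800100000600) (nat_lit 49))))))
 (.n (.n (.n (.n (.p (nat_lit 0xc240c220c1e0c1c09d709d106) (nat_lit 0x1200004e200) (nat_lit 52))
 (.p (nat_lit 0x17b80ab302) (nat_lit 0x140615) (nat_lit 5)))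
 (.n (.p (nat_lit 0x1c441c421c3e1c3c1c3a168706) (nat_lit 0x4000090604) (nat_lit 52))
 (.p (nat_lit 0xec00e800e600e400b5000906) (nat_lit 0x410705) (nat_lit 26))))
 (.n (.n (.p (nat_lit 0x10fc172502) (nat_lit 0x500401) (nat_lit 4))
 (.p (nat_lit 0x21d621d421d021ce21cc09eb06) (nat_lit 0x40000d4123) (nat_lit 52)))
 (.n (.p (nat_lit 0x2b8a269b02) (nat_lit 0x100908) (nat_lit 4))
 (.p (nat_lit 0x5d8b5ec102) (nat_lit 0x2200a0000b00) (nat_lit 37)))))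
 (.n (.n (.n (.p (nat_lit 0x1a69179302) (nat_lit 0x40700) (nat_lit 16))
 (.p (nat_lit 0x16520d6902) (nat_lit 0x10061c) (nat_lit 5)))
 (.n (.p (nat_lit 0x4e504e4e4e4c4e4a4e48113306) (nat_lit 0x2000080406) (nat_lit 52))
 (.p (nat_lit 0x5d5b0fe902) (nat_lit 0x220080000400) (nat_lit 40))))
 (.n (.n (.p (nat_lit 0x15f815f615f415f215f025bd06) (nat_lit 0x10000052b02) (nat_lit 52))
 (.p (nat_lit 0x63e063c063a063806360cb306) (nat_lit 0x8000c022a) (nat_lit 52)))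
 (.n (.p (nat_lit 0x1d40082102) (nat_lit 0x4080e) (nat_lit 4))
 (.p (nat_lit 0xbae60cd02) (nat_lit 0x3502623b0000200040000) (nat_lit 49))))))

def c512_166 : Tr := .n c1024_166 c1024_678

def c1024_422 : Tr :=
 .n (.n (.n (.n (.n (.n (.p (nat_lit 0x22a0224023103) (nat_lit 0x9000500010) (nat_lit 17))
 (.p (nat_lit 0x8fa618502) (nat_lit 0x421a86b95000100040000) (nat_lit 50)))
 (.p (nat_lit 0x397835f502) (nat_lit 0x340411) (nat_lit 4)))
 (.n (.p (nat_lit 0x94009900b31b8f1cf505) (nat_lit 0x22c40603) (nat_lit 9))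
 (.p (nat_lit 0x2bca2a5d02) (nat_lit 0x30092b) (nat_lit 5))))
 (.n (.n (.p (nat_lit 0x1f921f901f8c1f8a1f881d2f06) (nat_lit 0x40000c8900) (nat_lit 51))
 (.p (nat_lit 0x34c2377702) (nat_lit 0x20001f) (nat_lit 4)))
 (.n (.p (nat_lit 0x93a0938093409320b410b3b06) (nat_lit 0x480000a207) (nat_lit 52))
 (.p (nat_lit 0x5d39181102) (nat_lit 0x140060000700) (nat_lit 38)))))
 (.n (.n (.n (.p (nat_lit 0xf660f620f5e0f5c0020000900050f650f6109) (nat_lit 0x2240400) (nat_lit 10))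
 (.p (nat_lit 0x419739ef02) (nat_lit 0x214518) (nat_lit 16)))
 (.n (.p (nat_lit 0xa3d0a3102) (nat_lit 0x24c105) (nat_lit 16))
 (.p (nat_lit 0x3d95bf502) (nat_lit 0x400224) (nat_lit 28))))
 (.n (.n (.p (nat_lit 0x38004500491617178905) (nat_lit 0xa1940a01) (nat_lit 9))
 (.p (nat_lit 0x3d9574502) (nat_lit 0x400824) (nat_lit 30)))
 (.n (.p (nat_lit 0x40143ca102) (nat_lit 0x34030b) (nat_lit 4))
 (.p (nat_lit 0x180e5f8302) (nat_lit 0x581a32b44000100000600) (nat_lit 49))))))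
 (.n (.n (.n (.n (.p (nat_lit 0x87a0878087408720010000700010877087109) (nat_lit 0x1800200) (nat_lit 10))
 (.p (nat_lit 0xa4e0a4c0a480a460a44139106) (nat_lit 0x4000004515) (nat_lit 52)))
 (.n (.p (nat_lit 0x1272409b02) (nat_lit 0x140404) (nat_lit 29))
 (.p (nat_lit 0x5d590702) (nat_lit 0x200b02) (nat_lit 28))))
 (.n (.n (.p (nat_lit 0x2718271627142712271008ab06) (nat_lit 0x10000012101) (nat_lit 52))
 (.p (nat_lit 0x12d812d612d412d212d0074b06) (nat_lit 0x100000c4023) (nat_lit 51)))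
 (.n (.p (nat_lit 0x1da241702) (nat_lit 0x100b07) (nat_lit 1))
 (.p (nat_lit 0x5ea6206702) (nat_lit 0x8004ca00) (nat_lit 47)))))
 (.n (.n (.n (.p (nat_lit 0x18ea18e818e618e218e0162506) (nat_lit 0x2000016700) (nat_lit 51))
 (.p (nat_lit 0x9da0eab02) (nat_lit 0x14011c) (nat_lit 4)))
 (.n (.p (nat_lit 0x792236102) (nat_lit 0x540006) (nat_lit 4))
 (.p (nat_lit 0x5e022bb302) (nat_lit 0x6000c300) (nat_lit 47))))
 (.n (.n (.p (nat_lit 0x11441142113e113c113a232106) (nat_lit 0x40000c8a02) (nat_lit 52))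
 (.p (nat_lit 0xb5b089d02) (nat_lit 0x40012a) (nat_lit 15)))
 (.n (.p (nat_lit 0x14ce52f302) (nat_lit 0x34050e) (nat_lit 29))
 (.p (nat_lit 0x1c3c608302) (nat_lit 0x344380a64000200040600) (nat_lit 49))))))

def c1024_934 : Tr :=
 .n (.n (.n (.n (.n (.p (nat_lit 0x67a0678067406700653064f06) (nat_lit 0x5000046000) (nat_lit 51))
 (.p (nat_lit 0x4cd84cd44cd24cd04cce4e2f06) (nat_lit 0x8000050314) (nat_lit 52)))
 (.n (.p (nat_lit 0x3bc925c902) (nat_lit 0x540b03) (nat_lit 16))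
 (.p (nat_lit 0x425841d302) (nat_lit 0x40062e) (nat_lit 5))))
 (.n (.n (.p (nat_lit 0x23011ffd02) (nat_lit 0x548a00) (nat_lit 16))
 (.p (nat_lit 0x441646ad02) (nat_lit 0x400021) (nat_lit 4)))
 (.n (.p (nat_lit 0x12321230122e122c122a0141122907) (nat_lit 0x40407) (nat_lit 7))
 (.p (nat_lit 0x5d811c4502) (nat_lit 0x2c00a0000800) (nat_lit 39)))))
 (.n (.n (.n (.p (nat_lit 0x1519122502) (nat_lit 0x452500) (nat_lit 16))
 (.p (nat_lit 0x4b164ca502) (nat_lit 0x30001b) (nat_lit 5)))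
 (.n (.p (nat_lit 0x49b7180502) (nat_lit 0x340605) (nat_lit 16))
 (.p (nat_lit 0x5d435dd102) (nat_lit 0xa0060000100) (nat_lit 37))))
 (.n (.n (.p (nat_lit 0x1260310f02) (nat_lit 0x440402) (nat_lit 29))
 (.p (nat_lit 0x4253424702) (nat_lit 0x100627) (nat_lit 16)))
 (.n (.p (nat_lit 0x50ea4b7b02) (nat_lit 0x50090d) (nat_lit 4))
 (.p (nat_lit 0x154a600b02) (nat_lit 0x405aa2354800000000600) (nat_lit 50))))))
 (.n (.n (.n (.n (.p (nat_lit 0xe110b3302) (nat_lit 0x202300) (nat_lit 16))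
 (.p (nat_lit 0x22e3201b02) (nat_lit 0x240915) (nat_lit 15)))
 (.n (.p (nat_lit 0x1c8c1c8a1c861c821953194f06) (nat_lit 0x5000004704) (nat_lit 52))
 (.p (nat_lit 0x5a625a605a5e5a5c5a5a023f01b807) (nat_lit 0x30470b) (nat_lit 25))))
 (.n (.n (.p (nat_lit 0x18f618f418f018ee18ec1c1d06) (nat_lit 0x4000096801) (nat_lit 51))
 (.p (nat_lit 0x17d4104702) (nat_lit 0x340623) (nat_lit 4)))
 (.n (.p (nat_lit 0x3460345e345a3458345632d906) (nat_lit 0x4000046909) (nat_lit 52))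
 (.p (nat_lit 0x11465ef702) (nat_lit 0x3a2530344000400040000) (nat_lit 50)))))
 (.n (.n (.n (.p (nat_lit 0x881a5f02) (nat_lit 0x140800) (nat_lit 1))
 (.p (nat_lit 0x30b556d02) (nat_lit 0x20091c) (nat_lit 30)))
 (.n (.p (nat_lit 0x50011acd02) (nat_lit 0x240706) (nat_lit 16))
 (.p (nat_lit 0x5e3013f302) (nat_lit 0x80040500) (nat_lit 45))))
 (.n (.n (.p (nat_lit 0xb781c8502) (nat_lit 0x100203) (nat_lit 4))
 (.p (nat_lit 0x166e57df02) (nat_lit 0x30062a) (nat_lit 29)))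
 (.n (.p (nat_lit 0x536e536c536a53685366536401f42581257f25770a) (nat_lit 0x16040b0e) (nat_lit 31))
 (.p (nat_lit 0x634610f02) (nat_lit 0x3425299b0000000040000) (nat_lit 49))))))

def c512_422 : Tr := .n c1024_422 c1024_934

def c256_166 : Tr := .n c512_166 c512_422

def c128_38 : Tr := .n c256_38 c256_166

def c1024_102 : Tr :=
 .n (.n (.n (.n (.n (.n (.p (nat_lit 0x5a006902) (nat_lit 0x1000600002) (nat_lit 17))
 (.p (nat_lit 0x1986613702) (nat_lit 0x3503a0d64000100040600) (nat_lit 50)))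
 (.p (nat_lit 0x7da07d807d607d207d02bed06) (nat_lit 0x20000c890f) (nat_lit 51)))
 (.n (.p (nat_lit 0x1110387d02) (nat_lit 0x300403) (nat_lit 29))
 (.p (nat_lit 0x39dc39d639d439d21d791d7706) (nat_lit 0xc0000d682a) (nat_lit 52))))
 (.n (.n (.p (nat_lit 0x1d591a5d02) (nat_lit 0x46800) (nat_lit 16))
 (.p (nat_lit 0x31155a302) (nat_lit 0x500b1c) (nat_lit 30)))
 (.n (.p (nat_lit 0x12aa12a812a612a212a01d9906) (nat_lit 0x200004a806) (nat_lit 51))
 (.p (nat_lit 0x5cfb153902) (nat_lit 0x220040000600) (nat_lit 38)))))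
 (.n (.n (.n (.p (nat_lit 0xf5a0f580f560f540c910c8f06) (nat_lit 0x18000d6300) (nat_lit 51))
 (.p (nat_lit 0x2ae827d302) (nat_lit 0x240516) (nat_lit 5)))
 (.n (.p (nat_lit 0x208c208820842082247d247906) (nat_lit 0xa000000b04) (nat_lit 52))
 (.p (nat_lit 0x1f05b0502) (nat_lit 0x500015) (nat_lit 27))))
 (.n (.n (.p (nat_lit 0xfde0fdc0fd80fd60fd41ee706) (nat_lit 0x4000008901) (nat_lit 52))
 (.p (nat_lit 0x1ecc108102) (nat_lit 0x200923) (nat_lit 5)))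
 (.n (.p (nat_lit 0x1d261d221d201d1e1d1c37db06) (nat_lit 0x800009630a) (nat_lit 52))
 (.p (nat_lit 0x207a5f3302) (nat_lit 0x3aa560c44000400000600) (nat_lit 50))))))
 (.n (.n (.n (.n (.p (nat_lit 0x7ce07cc07ca07c807c405bf06) (nat_lit 0x1000008100) (nat_lit 52))
 (.p (nat_lit 0x82a08280824082205cf05c906) (nat_lit 0x4800090015) (nat_lit 52)))
 (.n (.p (nat_lit 0x2580a2b02) (nat_lit 0x540104) (nat_lit 1))
 (.p (nat_lit 0x48184816481448124810476d06) (nat_lit 0x100000c232f) (nat_lit 52))))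
 (.n (.n (.p (nat_lit 0x247d215d02) (nat_lit 0x412b00) (nat_lit 16))
 (.p (nat_lit 0x4b8c4d7902) (nat_lit 0x440022) (nat_lit 5)))
 (.n (.p (nat_lit 0x2d3e2d3c2d3a2d382d36190f06) (nat_lit 0x10000086707) (nat_lit 52))
 (.p (nat_lit 0x5e8c1db302) (nat_lit 0x60000900) (nat_lit 46)))))
 (.n (.n (.n (.p (nat_lit 0x16b216a702) (nat_lit 0x140600) (nat_lit 5))
 (.p (nat_lit 0x16a0169c169a169805df05db06) (nat_lit 0x1400008c01c) (nat_lit 52)))
 (.n (.p (nat_lit 0x13f413f213ee13ec13ea1ac306) (nat_lit 0x40000ca705) (nat_lit 52))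
 (.p (nat_lit 0x5cd75de102) (nat_lit 0x160020000200) (nat_lit 37))))
 (.n (.n (.p (nat_lit 0x21bf1ef702) (nat_lit 0x500902) (nat_lit 15))
 (.p (nat_lit 0x4996483102) (nat_lit 0x500628) (nat_lit 5)))
 (.n (.p (nat_lit 0x79e079a0796079410e310df06) (nat_lit 0xa00000240e) (nat_lit 52))
 (.p (nat_lit 0x2332603502) (nat_lit 0x4099a2335000500000600) (nat_lit 49))))))

def c1024_614 : Tr :=
 .n (.n (.n (.n (.n (.n (.p (nat_lit 0x3cb03bf03b703b004) (nat_lit 0x70800023) (nat_lit 20))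
 (.p (nat_lit 0x114661b302) (nat_lit 0x522266c0d000400040000) (nat_lit 50)))
 (.p (nat_lit 0x41063d2b02) (nat_lit 0x340412) (nat_lit 5)))
 (.n (.p (nat_lit 0x232e1ba702) (nat_lit 0x440a03) (nat_lit 4))
 (.p (nat_lit 0x131613121310130e130c336706) (nat_lit 0x800000ea2c) (nat_lit 52))))
 (.n (.n (.p (nat_lit 0x20de20da20d820d41e951e8f06) (nat_lit 0x9000086a00) (nat_lit 51))
 (.p (nat_lit 0xe9a0e980e960e920e903b9306) (nat_lit 0x2000080b1f) (nat_lit 52)))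
 (.n (.p (nat_lit 0xfde0fdc0fd80fd60e070e0106) (nat_lit 0x4800008307) (nat_lit 52))
 (.p (nat_lit 0x5cb11c4702) (nat_lit 0xc0000000800) (nat_lit 41)))))
 (.n (.n (.n (.p (nat_lit 0x12b612b412b012ac10c910c506) (nat_lit 0x5000002500) (nat_lit 52))
 (.p (nat_lit 0x420a3ed302) (nat_lit 0x440519) (nat_lit 4)))
 (.n (.p (nat_lit 0x12830fc302) (nat_lit 0x340305) (nat_lit 15))
 (.p (nat_lit 0x5ca504c302) (nat_lit 0x180000000000) (nat_lit 38))))
 (.n (.n (.p (nat_lit 0x8ac19a102) (nat_lit 0x102) (nat_lit 4))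
 (.p (nat_lit 0x35c8391702) (nat_lit 0x400126) (nat_lit 5)))
 (.n (.p (nat_lit 0xe846ed02) (nat_lit 0x30030c) (nat_lit 1))
 (.p (nat_lit 0x233a5fbf02) (nat_lit 0x89832955800500000600) (nat_lit 49))))))
 (.n (.n (.n (.n (.p (nat_lit 0xbd40bd20bd00bce0bca09cf06) (nat_lit 0x10000c0200) (nat_lit 52))
 (.p (nat_lit 0x14e914dd02) (nat_lit 0x448515) (nat_lit 16)))
 (.n (.p (nat_lit 0x4d604d404d004ce168b168506) (nat_lit 0x12000000604) (nat_lit 51))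
 (.p (nat_lit 0xec00e800e600e4000102fb06) (nat_lit 0x40e205) (nat_lit 26))))
 (.n (.n (.p (nat_lit 0x28cd0e2702) (nat_lit 0x100301) (nat_lit 16))
 (.p (nat_lit 0x79e079c079a0796079409e906) (nat_lit 0x2000042123) (nat_lit 52)))
 (.n (.p (nat_lit 0x2a0b29ff02) (nat_lit 0x144408) (nat_lit 16))
 (.p (nat_lit 0x5d7b249502) (nat_lit 0x20080000b00) (nat_lit 41)))))
 (.n (.n (.n (.p (nat_lit 0x1a281a241a221a20179d179906) (nat_lit 0x140000d2700) (nat_lit 51))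
 (.p (nat_lit 0x311552b02) (nat_lit 0x54051c) (nat_lit 30)))
 (.n (.p (nat_lit 0xfca239f02) (nat_lit 0x140306) (nat_lit 5))
 (.p (nat_lit 0x5d435e1702) (nat_lit 0xa0060000400) (nat_lit 36))))
 (.n (.n (.p (nat_lit 0x246f246302) (nat_lit 0x312b02) (nat_lit 16))
 (.p (nat_lit 0x1c421c401c3c1c3a0b5d0b5706) (nat_lit 0x1200009022a) (nat_lit 52)))
 (.n (.p (nat_lit 0x4a291a7902) (nat_lit 0x25470e) (nat_lit 16))
 (.p (nat_lit 0x21da60af02) (nat_lit 0x344589ca4000400040600) (nat_lit 50))))))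

def c512_102 : Tr := .n c1024_102 c1024_614

def c1024_358 : Tr :=
 .n (.n (.n (.n (.n (.n (.p (nat_lit 0x1760170016e017b04) (nat_lit 0x9800400008) (nat_lit 17))
 (.p (nat_lit 0x180a617502) (nat_lit 0x521a86b11000100000600) (nat_lit 49)))
 (.p (nat_lit 0x38e035e502) (nat_lit 0x100411) (nat_lit 5)))
 (.n (.p (nat_lit 0x1a2a1a261a221a20167d167906) (nat_lit 0xa000092603) (nat_lit 51))
 (.p (nat_lit 0x160616041602160015fe287f06) (nat_lit 0x8000d222b) (nat_lit 51))))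
 (.n (.n (.p (nat_lit 0x1f131f0702) (nat_lit 0x140900) (nat_lit 34))
 (.p (nat_lit 0xd280d260d240d200d1e334b06) (nat_lit 0x2000000a1e) (nat_lit 52)))
 (.n (.p (nat_lit 0x1e60b3b02) (nat_lit 0x207) (nat_lit 1))
 (.p (nat_lit 0x5e54327b02) (nat_lit 0x20044700) (nat_lit 47)))))
 (.n (.n (.n (.p (nat_lit 0x10f90dfb02) (nat_lit 0x30c400) (nat_lit 16))
 (.p (nat_lit 0x3540366502) (nat_lit 0x240018) (nat_lit 5)))
 (.n (.p (nat_lit 0x791078502) (nat_lit 0x44c005) (nat_lit 16))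
 (.p (nat_lit 0x39c039a039803940385030b06) (nat_lit 0x212822) (nat_lit 26))))
 (.n (.n (.p (nat_lit 0x21b02c2d02) (nat_lit 0x400a01) (nat_lit 29))
 (.p (nat_lit 0x15e215e015de15dc15da273506) (nat_lit 0x800010124) (nat_lit 52)))
 (.n (.p (nat_lit 0x3e6c3c7b02) (nat_lit 0x20020b) (nat_lit 5))
 (.p (nat_lit 0x6345f7502) (nat_lit 0x1aa074b50000000040000) (nat_lit 49))))))
 (.n (.n (.n (.n (.p (nat_lit 0xa13072702) (nat_lit 0x54e100) (nat_lit 16))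
 (.p (nat_lit 0xebc0eb80eb60eb4124b124706) (nat_lit 0x1400004a415) (nat_lit 51)))
 (.n (.p (nat_lit 0x12790fb902) (nat_lit 0x440304) (nat_lit 15))
 (.p (nat_lit 0x62005e005c005a0009018506) (nat_lit 0x2014002) (nat_lit 26))))
 (.n (.n (.p (nat_lit 0x174075302) (nat_lit 0x340001) (nat_lit 1))
 (.p (nat_lit 0x14821480147e147a147805e506) (nat_lit 0x2000090023) (nat_lit 52)))
 (.n (.p (nat_lit 0x43d643d243d043ce43cc216906) (nat_lit 0x8000086a07) (nat_lit 51))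
 (.p (nat_lit 0x5ea2441502) (nat_lit 0x60006a00) (nat_lit 47)))))
 (.n (.n (.n (.p (nat_lit 0x1872186c186a18681629162706) (nat_lit 0xc000006700) (nat_lit 52))
 (.p (nat_lit 0xa700a6e0a6c0a6a0a68088706) (nat_lit 0x1000008011c) (nat_lit 51)))
 (.n (.p (nat_lit 0x4a9f1d9302) (nat_lit 0x544805) (nat_lit 16))
 (.p (nat_lit 0x5d130e7d02) (nat_lit 0xa0040000300) (nat_lit 41))))
 (.n (.n (.p (nat_lit 0x231a336b02) (nat_lit 0x40a02) (nat_lit 29))
 (.p (nat_lit 0x89a140902) (nat_lit 0x30012a) (nat_lit 5)))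
 (.n (.p (nat_lit 0x1386093902) (nat_lit 0x40050e) (nat_lit 4))
 (.p (nat_lit 0x8ec607502) (nat_lit 0x4688ae154000100040000) (nat_lit 49))))))

def c1024_870 : Tr :=
 .n (.n (.n (.n (.n (.n (.p (nat_lit 0x61104db02) (nat_lit 0x12000) (nat_lit 16))
 (.p (nat_lit 0xe6e61f102) (nat_lit 0x382a31d05000300040000) (nat_lit 49)))
 (.p (nat_lit 0x49dc456f02) (nat_lit 0x400713) (nat_lit 5)))
 (.n (.p (nat_lit 0xd100d0c0d0a0d080d0625c706) (nat_lit 0x8000046b03) (nat_lit 52))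
 (.p (nat_lit 0x1e661e641e621e601e5c3e8106) (nat_lit 0x100000e22e) (nat_lit 51))))
 (.n (.n (.p (nat_lit 0x22a0229e229c229a1ff51ff306) (nat_lit 0x18000cea00) (nat_lit 52))
 (.p (nat_lit 0x42dc561902) (nat_lit 0x400720) (nat_lit 29)))
 (.n (.p (nat_lit 0x43e10d902) (nat_lit 0x500407) (nat_lit 1))
 (.p (nat_lit 0x5d511add02) (nat_lit 0x2c0080000800) (nat_lit 38)))))
 (.n (.n (.n (.p (nat_lit 0x1480147e147a14781227122106) (nat_lit 0x120000d0500) (nat_lit 52))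
 (.p (nat_lit 0x4986465702) (nat_lit 0x30061a) (nat_lit 4)))
 (.n (.p (nat_lit 0x4989169502) (nat_lit 0x404605) (nat_lit 16))
 (.p (nat_lit 0x5cd35dcb02) (nat_lit 0x1a0020000100) (nat_lit 36))))
 (.n (.n (.p (nat_lit 0x3070306e306c306a30680f9906) (nat_lit 0x800054302) (nat_lit 51))
 (.p (nat_lit 0x1e4e1e4c1e4a1e481e443df506) (nat_lit 0x100004c127) (nat_lit 52)))
 (.n (.p (nat_lit 0x50044aeb02) (nat_lit 0x44070d) (nat_lit 4))
 (.p (nat_lit 0x180c5ff702) (nat_lit 0x386a81c35000100000600) (nat_lit 49))))))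
 (.n (.n (.n (.n (.p (nat_lit 0xd620d600d5e0d5c0b390b2f06) (nat_lit 0x1080008a300) (nat_lit 52))
 (.p (nat_lit 0x1d611d5502) (nat_lit 0x448815) (nat_lit 16)))
 (.n (.p (nat_lit 0x429317f902) (nat_lit 0x348604) (nat_lit 16))
 (.p (nat_lit 0x18b5a4302) (nat_lit 0x300409) (nat_lit 28))))
 (.n (.n (.p (nat_lit 0x1c201c1e1c1a1c181c1600311c1d07) (nat_lit 0x300801) (nat_lit 7))
 (.p (nat_lit 0x28730ca702) (nat_lit 0x4c223) (nat_lit 16)))
 (.n (.p (nat_lit 0x3169308d02) (nat_lit 0x140309) (nat_lit 15))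
 (.p (nat_lit 0x1da65eeb02) (nat_lit 0x4a8876344000300000600) (nat_lit 49)))))
 (.n (.n (.n (.p (nat_lit 0x1bc718fd02) (nat_lit 0x200800) (nat_lit 15))
 (.p (nat_lit 0x1d580da102) (nat_lit 0x4081c) (nat_lit 5)))
 (.n (.p (nat_lit 0x1134ff302) (nat_lit 0x40706) (nat_lit 30))
 (.p (nat_lit 0x5d3312a702) (nat_lit 0x1a0060000500) (nat_lit 40))))
 (.n (.n (.p (nat_lit 0x94009d00a31b151c7b05) (nat_lit 0x60a40103) (nat_lit 9))
 (.p (nat_lit 0xf8812f102) (nat_lit 0x44032a) (nat_lit 5)))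
 (.n (.p (nat_lit 0x242209b702) (nat_lit 0x100b0e) (nat_lit 4))
 (.p (nat_lit 0x1adc60f702) (nat_lit 0x440d663a4000200000600) (nat_lit 49))))))

def c512_358 : Tr := .n c1024_358 c1024_870

def c256_102 : Tr := .n c512_102 c512_358

def c1024_230 : Tr :=
 .n (.n (.n (.n (.n (.n (.p (nat_lit 0xe600e400e200ef04) (nat_lit 0x3800400005) (nat_lit 17))
 (.p (nat_lit 0xe76615702) (nat_lit 0x1503a8895800300040000) (nat_lit 49)))
 (.p (nat_lit 0x32a22e7d02) (nat_lit 0x300910) (nat_lit 5)))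
 (.n (.p (nat_lit 0x13c41cd302) (nat_lit 0x500503) (nat_lit 5))
 (.p (nat_lit 0x230c230a2308230623040435230307) (nat_lit 0x40a2a) (nat_lit 7))))
 (.n (.n (.p (nat_lit 0x1e5a1e581e561e541e501bc506) (nat_lit 0x100008c900) (nat_lit 51))
 (.p (nat_lit 0x2c02291902) (nat_lit 0x14091d) (nat_lit 5)))
 (.n (.p (nat_lit 0x20de20d820d620d41f011eff06) (nat_lit 0xc000086906) (nat_lit 51))
 (.p (nat_lit 0x5d9116a302) (nat_lit 0x1c00a0000600) (nat_lit 39)))))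
 (.n (.n (.n (.p (nat_lit 0xffe0ffc0ffa0ff80dff0dfd06) (nat_lit 0x18000080400) (nat_lit 52))
 (.p (nat_lit 0x32802f6702) (nat_lit 0x440517) (nat_lit 4)))
 (.n (.p (nat_lit 0x214621442140213c25d125cd06) (nat_lit 0x5000050b04) (nat_lit 51))
 (.p (nat_lit 0x30e030c030a030803ab000106) (nat_lit 0x280a01c) (nat_lit 26))))
 (.n (.n (.p (nat_lit 0xa4e0a4c0a4a0a480a44204906) (nat_lit 0x1000044901) (nat_lit 52))
 (.p (nat_lit 0x3a1572502) (nat_lit 0xb23) (nat_lit 30)))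
 (.n (.p (nat_lit 0x19b525302) (nat_lit 0x14060a) (nat_lit 30))
 (.p (nat_lit 0x1da25f5702) (nat_lit 0x1aa522350000300000600) (nat_lit 49))))))
 (.n (.n (.n (.n (.p (nat_lit 0x8fd08f102) (nat_lit 0x440100) (nat_lit 34))
 (.p (nat_lit 0x10f00a7f02) (nat_lit 0x500415) (nat_lit 4)))
 (.n (.p (nat_lit 0xcec1f6302) (nat_lit 0x540204) (nat_lit 4))
 (.p (nat_lit 0x50d04f9d02) (nat_lit 0x440830) (nat_lit 4))))
 (.n (.n (.p (nat_lit 0x255825562554255222c522c306) (nat_lit 0x18000052b00) (nat_lit 52))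
 (.p (nat_lit 0xd4c0d4a0d480d460d44505d06) (nat_lit 0x800082822) (nat_lit 51)))
 (.n (.p (nat_lit 0x50431bd902) (nat_lit 0x516807) (nat_lit 16))
 (.p (nat_lit 0x5c91206b02) (nat_lit 0x2c0000000a00) (nat_lit 38)))))
 (.n (.n (.n (.p (nat_lit 0x178417821780177e16b316b106) (nat_lit 0x1800054600) (nat_lit 52))
 (.p (nat_lit 0x154a1548154415421540073b06) (nat_lit 0x400004c01c) (nat_lit 51)))
 (.n (.p (nat_lit 0x1fb41fb21fb01fae1fac1c2306) (nat_lit 0x80000c805) (nat_lit 51))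
 (.p (nat_lit 0x5d5b0a4d02) (nat_lit 0x220080000200) (nat_lit 38))))
 (.n (.n (.p (nat_lit 0x5f331d02) (nat_lit 0x300a02) (nat_lit 30))
 (.p (nat_lit 0x4d484ee302) (nat_lit 0x240229) (nat_lit 4)))
 (.n (.p (nat_lit 0x6480646064406420640123f06) (nat_lit 0x100000c040e) (nat_lit 51))
 (.p (nat_lit 0xa58605502) (nat_lit 0x5858b0b44000200000000) (nat_lit 50))))))

def c1024_742 : Tr :=
 .n (.n (.n (.n (.n (.n (.p (nat_lit 0x4fc04fa04f604f404f204e106) (nat_lit 0x4000084000) (nat_lit 52))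
 (.p (nat_lit 0x63661d502) (nat_lit 0x54216ac0c800000040000) (nat_lit 49)))
 (.p (nat_lit 0x42c23d5502) (nat_lit 0x300712) (nat_lit 4)))
 (.n (.p (nat_lit 0x153e153c153a15361534246d06) (nat_lit 0x200000cb03) (nat_lit 52))
 (.p (nat_lit 0x1d0e1d0c1d081d061d04376106) (nat_lit 0x40000d422d) (nat_lit 51))))
 (.n (.n (.p (nat_lit 0x21b11e9502) (nat_lit 0x40ca00) (nat_lit 16))
 (.p (nat_lit 0x3de83fd502) (nat_lit 0x140120) (nat_lit 4)))
 (.n (.p (nat_lit 0xfea0fe80fe60fe20fe00f6d06) (nat_lit 0x2000048307) (nat_lit 51))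
 (.p (nat_lit 0x5cf75e6f02) (nat_lit 0x260040000800) (nat_lit 36)))))
 (.n (.n (.n (.p (nat_lit 0x13b710cb02) (nat_lit 0x40e500) (nat_lit 16))
 (.p (nat_lit 0x437a3e6102) (nat_lit 0x40b19) (nat_lit 5)))
 (.n (.p (nat_lit 0x151e210302) (nat_lit 0x140505) (nat_lit 4))
 (.p (nat_lit 0x5d3304c902) (nat_lit 0x1a0060000000) (nat_lit 38))))
 (.n (.n (.p (nat_lit 0xcd02f4d02) (nat_lit 0x340202) (nat_lit 29))
 (.p (nat_lit 0x3b4e576902) (nat_lit 0x440a26) (nat_lit 29)))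
 (.n (.p (nat_lit 0x4a20448302) (nat_lit 0x44070c) (nat_lit 5))
 (.p (nat_lit 0xd0c5fd502) (nat_lit 0x382c60b44000300000000) (nat_lit 49))))))
 (.n (.n (.n (.n (.p (nat_lit 0xce109d702) (nat_lit 0x550200) (nat_lit 16))
 (.p (nat_lit 0x2f162f142f122f102f0c191f06) (nat_lit 0x1000014715) (nat_lit 52)))
 (.n (.p (nat_lit 0x17f81e5702) (nat_lit 0x340604) (nat_lit 5))
 (.p (nat_lit 0x59d859d459d259d059ce0411011e07) (nat_lit 0x412406) (nat_lit 25))))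
 (.n (.n (.p (nat_lit 0x1291125502) (nat_lit 0x454401) (nat_lit 16))
 (.p (nat_lit 0xb4e0b4c0b4a0b480b4603ab0b5107) (nat_lit 0x500223) (nat_lit 7)))
 (.n (.p (nat_lit 0x2222f2f02) (nat_lit 0x209) (nat_lit 1))
 (.p (nat_lit 0x15425ed102) (nat_lit 0x4a1a22344000000000600) (nat_lit 50)))))
 (.n (.n (.n (.p (nat_lit 0x1ae71adb02) (nat_lit 0x300800) (nat_lit 34))
 (.p (nat_lit 0x192e0eeb02) (nat_lit 0x30071c) (nat_lit 4)))
 (.n (.p (nat_lit 0x1531129102) (nat_lit 0x440406) (nat_lit 15))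
 (.p (nat_lit 0x5cbd13f702) (nat_lit 0x500) (nat_lit 41))))
 (.n (.n (.p (nat_lit 0x7641af902) (nat_lit 0x40003) (nat_lit 5))
 (.p (nat_lit 0x2080207e207c207a20780cb306) (nat_lit 0x80005422a) (nat_lit 51)))
 (.n (.p (nat_lit 0x1eaa098b02) (nat_lit 0x30090e) (nat_lit 5))
 (.p (nat_lit 0x113c60d702) (nat_lit 0x354a623b0000400040000) (nat_lit 49))))))

def c512_230 : Tr := .n c1024_230 c1024_742

def c1024_486 : Tr :=
 .n (.n (.n (.n (.n (.n (.p (nat_lit 0x2ea02e802e602f104) (nat_lit 0x7000400019) (nat_lit 17))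
 (.p (nat_lit 0x8e8619902) (nat_lit 0x3422a5c14800100040000) (nat_lit 49)))
 (.p (nat_lit 0x3af2361302) (nat_lit 0x200a11) (nat_lit 4)))
 (.n (.p (nat_lit 0x17fb17ef02) (nat_lit 0x454603) (nat_lit 16))
 (.p (nat_lit 0x2f44321702) (nat_lit 0x50022c) (nat_lit 5))))
 (.n (.n (.p (nat_lit 0x1fe41fe21fe01fda1d2d1d2b06) (nat_lit 0x3000056900) (nat_lit 51))
 (.p (nat_lit 0x35ba55bf02) (nat_lit 0x10011f) (nat_lit 29)))
 (.n (.p (nat_lit 0xca0066b02) (nat_lit 0x340207) (nat_lit 5))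
 (.p (nat_lit 0x5d6f198502) (nat_lit 0xe0080000700) (nat_lit 41)))))
 (.n (.n (.n (.p (nat_lit 0x11a411a0119e119c0f650f5d06) (nat_lit 0x880004c400) (nat_lit 51))
 (.p (nat_lit 0x3b893b0102) (nat_lit 0x300a18) (nat_lit 15)))
 (.n (.p (nat_lit 0xcf420c302) (nat_lit 0x340205) (nat_lit 5))
 (.p (nat_lit 0x43e043c043604340493000706) (nat_lit 0x131022a) (nat_lit 26))))
 (.n (.n (.p (nat_lit 0x231b230f02) (nat_lit 0x50a01) (nat_lit 16))
 (.p (nat_lit 0x2e3230bb02) (nat_lit 0x125) (nat_lit 4)))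
 (.n (.p (nat_lit 0x4223421702) (nat_lit 0x10460b) (nat_lit 16))
 (.p (nat_lit 0x7a65f9302) (nat_lit 0x580bb0344000100000000) (nat_lit 50))))))
 (.n (.n (.n (.n (.p (nat_lit 0xaa20a9e0a9c0a9a0879087106) (nat_lit 0x880008a200) (nat_lit 51))
 (.p (nat_lit 0x21e221de21dc21da21d8139306) (nat_lit 0x8000094515) (nat_lit 51)))
 (.n (.p (nat_lit 0x13ca1e3102) (nat_lit 0x200504) (nat_lit 4))
 (.p (nat_lit 0x8d593902) (nat_lit 0x300403) (nat_lit 28))))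
 (.n (.n (.p (nat_lit 0x27c027be27bc27ba27b827b6003607) (nat_lit 0x201) (nat_lit 8))
 (.p (nat_lit 0xa4e0a4a0a460a440891088d06) (nat_lit 0xa000004123) (nat_lit 52)))
 (.n (.p (nat_lit 0x2574071b02) (nat_lit 0x540b07) (nat_lit 4))
 (.p (nat_lit 0x5ce5248302) (nat_lit 0x80020000b00) (nat_lit 39)))))
 (.n (.n (.n (.p (nat_lit 0x194b162b02) (nat_lit 0x50a700) (nat_lit 16))
 (.p (nat_lit 0x9ef09e302) (nat_lit 0x54a11c) (nat_lit 16)))
 (.n (.p (nat_lit 0x1134c2102) (nat_lit 0x40106) (nat_lit 30))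
 (.p (nat_lit 0x5d990d1d02) (nat_lit 0x1400a0000300) (nat_lit 40))))
 (.n (.n (.p (nat_lit 0x24962492248e248c2323231f06) (nat_lit 0xa0000d6a02) (nat_lit 51))
 (.p (nat_lit 0x678067606740672067009fb06) (nat_lit 0x1000004612a) (nat_lit 51)))
 (.n (.p (nat_lit 0x327714d302) (nat_lit 0x54e50e) (nat_lit 16))
 (.p (nat_lit 0x1ae0609302) (nat_lit 0x356221ca4000200000600) (nat_lit 50))))))

def c1024_998 : Tr :=
 .n (.n (.n (.n (.n (.p (nat_lit 0x70e070c070a07060704065106) (nat_lit 0x2000056000) (nat_lit 52))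
 (.p (nat_lit 0x20a4fdb02) (nat_lit 0x714) (nat_lit 1)))
 (.n (.p (nat_lit 0x8c5061102) (nat_lit 0x4) (nat_lit 15))
 (.p (nat_lit 0x435441f102) (nat_lit 0x300b2e) (nat_lit 5))))
 (.n (.n (.p (nat_lit 0x237823762372236e215b215706) (nat_lit 0x5000082b00) (nat_lit 52))
 (.p (nat_lit 0x458446c502) (nat_lit 0x440121) (nat_lit 5)))
 (.n (.p (nat_lit 0x12ce12cc12c612c4122f122d06) (nat_lit 0x6000044407) (nat_lit 52))
 (.p (nat_lit 0x5cdb1daf02) (nat_lit 0x120020000900) (nat_lit 40)))))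
 (.n (.n (.n (.p (nat_lit 0x15d415d215ce15cc1557155106) (nat_lit 0x1200008a600) (nat_lit 51))
 (.p (nat_lit 0x50144cc502) (nat_lit 0x4071b) (nat_lit 5)))
 (.n (.p (nat_lit 0x15481546154415421540196306) (nat_lit 0x1000000c705) (nat_lit 51))
 (.p (nat_lit 0x5d5f5dd702) (nat_lit 0x1e0080000100) (nat_lit 36))))
 (.n (.n (.p (nat_lit 0x3202320031fe31fc31fa31f8006407) (nat_lit 0x40502) (nat_lit 8))
 (.p (nat_lit 0x480e480c480a48084806439306) (nat_lit 0x800042b27) (nat_lit 51)))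
 (.n (.p (nat_lit 0xa720a700a6c0a6a0e130e0d06) (nat_lit 0x480008030e) (nat_lit 51))
 (.p (nat_lit 0x1db0601702) (nat_lit 0x405aa2335000300000600) (nat_lit 50))))))
 (.n (.n (.n (.n (.p (nat_lit 0xe810e7502) (nat_lit 0x440300) (nat_lit 34))
 (.p (nat_lit 0x333d217b02) (nat_lit 0x10ea15) (nat_lit 16)))
 (.n (.p (nat_lit 0x1961195502) (nat_lit 0x416704) (nat_lit 16))
 (.p (nat_lit 0x1445a7d02) (nat_lit 0x20050e) (nat_lit 27))))
 (.n (.n (.p (nat_lit 0x1d861d841d801d7e00400031002b1d831d7d09) (nat_lit 0x1840801) (nat_lit 10))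
 (.p (nat_lit 0x30c230c030be30bc30ba1aa306) (nat_lit 0x10000042723) (nat_lit 52)))
 (.n (.p (nat_lit 0x50605040502050004fe338106) (nat_lit 0x10000046a09) (nat_lit 52))
 (.p (nat_lit 0x181c5f1502) (nat_lit 0x3aa530344000100000600) (nat_lit 50)))))
 (.n (.n (.n (.p (nat_lit 0x1c961c941c921c901c8e1a6706) (nat_lit 0x100000c4800) (nat_lit 52))
 (.p (nat_lit 0x32f7202702) (nat_lit 0x24e91c) (nat_lit 16)))
 (.n (.p (nat_lit 0xfde0fda0fd80fd60fd41c3706) (nat_lit 0x8000008806) (nat_lit 52))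
 (.p (nat_lit 0x5ca7169902) (nat_lit 0x160000000600) (nat_lit 39))))
 (.n (.n (.p (nat_lit 0x37510cd902) (nat_lit 0x148203) (nat_lit 16))
 (.p (nat_lit 0x43557f102) (nat_lit 0x72a) (nat_lit 30)))
 (.n (.p (nat_lit 0x2ad8276b02) (nat_lit 0x4050f) (nat_lit 4))
 (.p (nat_lit 0x2344611902) (nat_lit 0x342521ca4000500000600) (nat_lit 50))))))

def c512_486 : Tr := .n c1024_486 c1024_998

def c256_230 : Tr := .n c512_230 c512_486

def c128_102 : Tr := .n c256_102 c256_230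

def c64_38 : Tr := .n c128_38 c128_102

def c32_6 : Tr := .n c64_6 c64_38

def c1024_22 : Tr :=
 .n (.n (.n (.n (.n (.n (.p (nat_lit 0x27001f0011001d0017000d06) (nat_lit 0x335000000) (nat_lit 22))
 (.p (nat_lit 0xe78612902) (nat_lit 0x35486a3a4000300040000) (nat_lit 50)))
 (.p (nat_lit 0x20f538d02) (nat_lit 0x20080f) (nat_lit 30)))
 (.n (.p (nat_lit 0xe4f0e4302) (nat_lit 0x314303) (nat_lit 16))
 (.p (nat_lit 0x43557fd02) (nat_lit 0x4072a) (nat_lit 30))))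
 (.n (.n (.p (nat_lit 0x1cf61cf41cf21cf01cee1a5d06) (nat_lit 0x8000cc800) (nat_lit 52))
 (.p (nat_lit 0x2197218b02) (nat_lit 0x30aa1c) (nat_lit 16)))
 (.n (.p (nat_lit 0x1f011c3702) (nat_lit 0x400806) (nat_lit 15))
 (.p (nat_lit 0x5ce516a702) (nat_lit 0x80020000600) (nat_lit 41)))))
 (.n (.n (.n (.p (nat_lit 0xeb20eb00eae0eaa0ea80c9306) (nat_lit 0x20000c2300) (nat_lit 52))
 (.p (nat_lit 0x242e0c7b02) (nat_lit 0x100b15) (nat_lit 4)))
 (.n (.p (nat_lit 0x1b781b761b721b701b6e1ab706) (nat_lit 0x40000ca704) (nat_lit 52))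
 (.p (nat_lit 0x2685aa902) (nat_lit 0xb0e) (nat_lit 27))))
 (.n (.n (.p (nat_lit 0x204d1d8302) (nat_lit 0x340801) (nat_lit 15))
 (.p (nat_lit 0x38c438c238be38bc1c051bff06) (nat_lit 0x4800016823) (nat_lit 52)))
 (.n (.p (nat_lit 0x521e521c521a52185216521401a407) (nat_lit 0x20a) (nat_lit 8))
 (.p (nat_lit 0x181c5f1d02) (nat_lit 0x3a2274350000100000600) (nat_lit 50))))))
 (.n (.n (.n (.n (.p (nat_lit 0x76f065702) (nat_lit 0x550000) (nat_lit 16))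
 (.p (nat_lit 0x92e092a092809260924504d06) (nat_lit 0x8000088814) (nat_lit 52)))
 (.n (.p (nat_lit 0x3cbc3cba3cb83cb63cb43cb206) (nat_lit 0xc8004) (nat_lit 52))
 (.p (nat_lit 0x4606487b02) (nat_lit 0x20022f) (nat_lit 4))))
 (.n (.n (.p (nat_lit 0x23ec23ea23e823e623e4215f06) (nat_lit 0x10000010b00) (nat_lit 52))
 (.p (nat_lit 0xd340d320d300d2c0d2a49f106) (nat_lit 0x2000080721) (nat_lit 51)))
 (.n (.p (nat_lit 0x1909163102) (nat_lit 0x200607) (nat_lit 15))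
 (.p (nat_lit 0x5d191f0902) (nat_lit 0x40040000900) (nat_lit 39)))))
 (.n (.n (.n (.p (nat_lit 0x1602160015fe15fc1557155506) (nat_lit 0x18000092600) (nat_lit 51))
 (.p (nat_lit 0x45c845c645c445c245c050f906) (nat_lit 0x80000a91b) (nat_lit 52)))
 (.n (.p (nat_lit 0x49fd195d02) (nat_lit 0x208705) (nat_lit 16))
 (.p (nat_lit 0x5dd807ab02) (nat_lit 0xa0000100) (nat_lit 46))))
 (.n (.n (.p (nat_lit 0x150514f902) (nat_lit 0x52502) (nat_lit 16))
 (.p (nat_lit 0x4520479102) (nat_lit 0x500128) (nat_lit 4)))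
 (.n (.p (nat_lit 0xf7e0f7c0f780f760f7401ed0f7b07) (nat_lit 0x34030e) (nat_lit 7))
 (.p (nat_lit 0xe72602102) (nat_lit 0x406a6252d000300040000) (nat_lit 49))))))

def c1024_534 : Tr :=
 .n (.n (.n (.n (.n (.n (.p (nat_lit 0x32d031b031403) (nat_lit 0x4200001c) (nat_lit 19))
 (.p (nat_lit 0x1ada61a102) (nat_lit 0x3222a5c15000200000600) (nat_lit 49)))
 (.p (nat_lit 0x3bca35ad02) (nat_lit 0x40b11) (nat_lit 5)))
 (.n (.p (nat_lit 0x1e061e041e021e0021c921c106) (nat_lit 0x8800006a03) (nat_lit 51))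
 (.p (nat_lit 0x485585b02) (nat_lit 0x50032c) (nat_lit 30))))
 (.n (.n (.p (nat_lit 0x20351d2f02) (nat_lit 0x348900) (nat_lit 16))
 (.p (nat_lit 0x39fe382302) (nat_lit 0x40051f) (nat_lit 5)))
 (.n (.p (nat_lit 0xf6d0c9f02) (nat_lit 0x240207) (nat_lit 15))
 (.p (nat_lit 0x5e602fad02) (nat_lit 0x8004a700) (nat_lit 48)))))
 (.n (.n (.n (.p (nat_lit 0x124b0f6702) (nat_lit 0x544400) (nat_lit 16))
 (.p (nat_lit 0x3beb3bdf02) (nat_lit 0x448b18) (nat_lit 16)))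
 (.n (.p (nat_lit 0xe56469b02) (nat_lit 0x100305) (nat_lit 29))
 (.p (nat_lit 0x43f5c6302) (nat_lit 0x50092a) (nat_lit 28))))
 (.n (.n (.p (nat_lit 0x758199502) (nat_lit 0x40002) (nat_lit 4))
 (.p (nat_lit 0x307c307a3076307430722f9f06) (nat_lit 0x40000d4225) (nat_lit 51)))
 (.n (.p (nat_lit 0x1b5527d02) (nat_lit 0x40070b) (nat_lit 30))
 (.p (nat_lit 0x7985f9d02) (nat_lit 0x568bb0344000100000000) (nat_lit 49))))))
 (.n (.n (.n (.n (.p (nat_lit 0xb4d087702) (nat_lit 0x308200) (nat_lit 16))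
 (.p (nat_lit 0x4d804d604d204d004ce14db06) (nat_lit 0x4000040515) (nat_lit 51)))
 (.n (.p (nat_lit 0x13d713cb02) (nat_lit 0x216504) (nat_lit 16))
 (.p (nat_lit 0xbb595902) (nat_lit 0x300204) (nat_lit 28))))
 (.n (.n (.p (nat_lit 0xba50b6902) (nat_lit 0x514201) (nat_lit 16))
 (.p (nat_lit 0x1c441c401c3e1c3c1c3a089106) (nat_lit 0x8000090123) (nat_lit 52)))
 (.n (.p (nat_lit 0x2823281702) (nat_lit 0x508208) (nat_lit 16))
 (.p (nat_lit 0x5d07248502) (nat_lit 0x160040000b00) (nat_lit 39)))))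
 (.n (.n (.n (.p (nat_lit 0x179c17981796179417920009179b07) (nat_lit 0x440700) (nat_lit 7))
 (.p (nat_lit 0xff60ff40fee0fec139d139b06) (nat_lit 0x600000051c) (nat_lit 52)))
 (.n (.p (nat_lit 0xb9a237b02) (nat_lit 0x206) (nat_lit 4))
 (.p (nat_lit 0x5e0a49f902) (nat_lit 0x14400) (nat_lit 48))))
 (.n (.n (.p (nat_lit 0x5f33c502) (nat_lit 0x300b02) (nat_lit 30))
 (.p (nat_lit 0xb5612c902) (nat_lit 0x20022a) (nat_lit 4)))
 (.n (.p (nat_lit 0x1917163f02) (nat_lit 0x30060e) (nat_lit 15))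
 (.p (nat_lit 0x1ad6609d02) (nat_lit 0x346068ca4000200000600) (nat_lit 49))))))

def c512_22 : Tr := .n c1024_22 c1024_534

def c1024_278 : Tr :=
 .n (.n (.n (.n (.n (.n (.p (nat_lit 0x11801160114011f04) (nat_lit 0x7000400006) (nat_lit 17))
 (.p (nat_lit 0x1c4a616102) (nat_lit 0x3503a8d84000200040600) (nat_lit 50)))
 (.p (nat_lit 0x33862e0902) (nat_lit 0x240a10) (nat_lit 5)))
 (.n (.p (nat_lit 0x3a163a143a123a103a0e150906) (nat_lit 0x2000042503) (nat_lit 51))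
 (.p (nat_lit 0x3ba7245102) (nat_lit 0x10b2a) (nat_lit 16))))
 (.n (.n (.p (nat_lit 0x1e8a1e881e861e841e821bc306) (nat_lit 0x800096900) (nat_lit 52))
 (.p (nat_lit 0x2d9c303902) (nat_lit 0x4001e) (nat_lit 4)))
 (.n (.p (nat_lit 0x205e511902) (nat_lit 0x40906) (nat_lit 29))
 (.p (nat_lit 0x5c9b180b02) (nat_lit 0x220000000700) (nat_lit 38)))))
 (.n (.n (.n (.p (nat_lit 0x1030102e102a10280dff0df906) (nat_lit 0x12000084400) (nat_lit 51))
 (.p (nat_lit 0x33402f7b02) (nat_lit 0x300a17) (nat_lit 5)))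
 (.n (.p (nat_lit 0x624208b02) (nat_lit 0x400005) (nat_lit 4))
 (.p (nat_lit 0x5ba25ba05b9e5b9c5b9a0365031207) (nat_lit 0x11481c) (nat_lit 25))))
 (.n (.n (.p (nat_lit 0x1ade1adc1ada1ad81ad4204906) (nat_lit 0x1000050901) (nat_lit 52))
 (.p (nat_lit 0x33fd244902) (nat_lit 0x20eb23) (nat_lit 16)))
 (.n (.p (nat_lit 0x3b743b723b6e3b6c3b6a019f3b7107) (nat_lit 0x300b0a) (nat_lit 7))
 (.p (nat_lit 0xe825f5f02) (nat_lit 0x4a1d22344000300040000) (nat_lit 50))))))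
 (.n (.n (.n (.n (.p (nat_lit 0x93a0938093409300723071f06) (nat_lit 0x500004a100) (nat_lit 52))
 (.p (nat_lit 0xdce0dca0dc60dc410ef10eb06) (nat_lit 0xa000014415) (nat_lit 52)))
 (.n (.p (nat_lit 0x3f3a3f383f363f343f323f3000c007) (nat_lit 0x304) (nat_lit 8))
 (.p (nat_lit 0x320030002c002a000b033b06) (nat_lit 0x2a12301) (nat_lit 26))))
 (.n (.n (.p (nat_lit 0x25a722bb02) (nat_lit 0x4ab00) (nat_lit 16))
 (.p (nat_lit 0x510c4dbf02) (nat_lit 0x500922) (nat_lit 4)))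
 (.n (.p (nat_lit 0x1e9e06dd02) (nat_lit 0x300907) (nat_lit 4))
 (.p (nat_lit 0x5cd3207902) (nat_lit 0x1a0020000a00) (nat_lit 40)))))
 (.n (.n (.n (.p (nat_lit 0x17d116b302) (nat_lit 0x148600) (nat_lit 16))
 (.p (nat_lit 0x248a2488248624822480073906) (nat_lit 0x20000d601c) (nat_lit 52)))
 (.n (.p (nat_lit 0x1d921d901d8e1d8a1d8800e71d8d07) (nat_lit 0x240805) (nat_lit 7))
 (.p (nat_lit 0x5d8d5df302) (nat_lit 0x2000a0000200) (nat_lit 36))))
 (.n (.n (.p (nat_lit 0x129e129a12981296129421bd06) (nat_lit 0x800000aa02) (nat_lit 52))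
 (.p (nat_lit 0x50724e8902) (nat_lit 0x500829) (nat_lit 5)))
 (.n (.p (nat_lit 0x1ade1ada1ad81ad61ad4123d06) (nat_lit 0x800005040e) (nat_lit 52))
 (.p (nat_lit 0x8fa606102) (nat_lit 0x85ab0335000100040000) (nat_lit 50))))))

def c1024_790 : Tr :=
 .n (.n (.n (.n (.n (.n (.p (nat_lit 0x52c052a0528052204df04dd06) (nat_lit 0x3000088000) (nat_lit 51))
 (.p (nat_lit 0x16a661df02) (nat_lit 0x3508a5d84000000040600) (nat_lit 50)))
 (.p (nat_lit 0x4e31476502) (nat_lit 0x54c313) (nat_lit 16)))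
 (.n (.p (nat_lit 0x1677246b02) (nat_lit 0x100b03) (nat_lit 15))
 (.p (nat_lit 0x3bfb3b5302) (nat_lit 0x40a2d) (nat_lit 15))))
 (.n (.n (.p (nat_lit 0x21e321d702) (nat_lit 0x540a00) (nat_lit 34))
 (.p (nat_lit 0x423a3fe102) (nat_lit 0x100620) (nat_lit 4)))
 (.n (.p (nat_lit 0x21e221e021dc21da21d80f6f06) (nat_lit 0x40000d4307) (nat_lit 51))
 (.p (nat_lit 0x5d271c4102) (nat_lit 0x260060000800) (nat_lit 39)))))
 (.n (.n (.n (.p (nat_lit 0x122612221220121e0012000900011225121d09) (nat_lit 0x2040500) (nat_lit 10))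
 (.p (nat_lit 0x485854db02) (nat_lit 0x14041a) (nat_lit 29)))
 (.n (.p (nat_lit 0x1696169416921690168e00e3168d07) (nat_lit 0x605) (nat_lit 7))
 (.p (nat_lit 0x5dc03b7302) (nat_lit 0x80010000) (nat_lit 48))))
 (.n (.n (.p (nat_lit 0xe342fb502) (nat_lit 0x200302) (nat_lit 29))
 (.p (nat_lit 0x3a43bf302) (nat_lit 0x240b26) (nat_lit 1)))
 (.n (.p (nat_lit 0x4dc64abf02) (nat_lit 0x30030d) (nat_lit 4))
 (.p (nat_lit 0x13ea5fe102) (nat_lit 0x3062a1c35000500040000) (nat_lit 49))))))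
 (.n (.n (.n (.n (.p (nat_lit 0xb380d1102) (nat_lit 0x500300) (nat_lit 4))
 (.p (nat_lit 0x2f682f662f642f622f601a8106) (nat_lit 0x8000ca715) (nat_lit 52)))
 (.n (.p (nat_lit 0xe820e800e7e0e7c0e7a17f306) (nat_lit 0x8000c6604) (nat_lit 51))
 (.p (nat_lit 0x14a0148014601440435000306) (nat_lit 0x108307) (nat_lit 26))))
 (.n (.n (.p (nat_lit 0x2a842a822a802a7e2a7c2a7a003607) (nat_lit 0x40501) (nat_lit 8))
 (.p (nat_lit 0xca6118f02) (nat_lit 0x40223) (nat_lit 4)))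
 (.n (.p (nat_lit 0x30912f9302) (nat_lit 0x340209) (nat_lit 15))
 (.p (nat_lit 0x4d05ed902) (nat_lit 0x4a0d84344000000000000) (nat_lit 50)))))
 (.n (.n (.n (.p (nat_lit 0x1b521b501b4e1b4c190318f906) (nat_lit 0x10800008800) (nat_lit 52))
 (.p (nat_lit 0x1a920d9102) (nat_lit 0x34071c) (nat_lit 5)))
 (.n (.p (nat_lit 0x78f152f02) (nat_lit 0x340506) (nat_lit 15))
 (.p (nat_lit 0x5cdb5e2702) (nat_lit 0x120020000500) (nat_lit 36))))
 (.n (.n (.p (nat_lit 0x3553076f02) (nat_lit 0x546003) (nat_lit 16))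
 (.p (nat_lit 0xe1e12e302) (nat_lit 0x30032a) (nat_lit 5)))
 (.n (.p (nat_lit 0x2014084302) (nat_lit 0x54090e) (nat_lit 4))
 (.p (nat_lit 0x207660df02) (nat_lit 0x340d623a4000400000600) (nat_lit 50))))))

def c512_278 : Tr := .n c1024_278 c1024_790

def c256_22 : Tr := .n c512_22 c512_278

def c1024_150 : Tr :=
 .n (.n (.n (.n (.n (.n (.p (nat_lit 0x8c0088009503) (nat_lit 0x5000500003) (nat_lit 17))
 (.p (nat_lit 0x12a7129f0fe90fd50d170d090a510a4b07ab079d04d104c761460d) (nat_lit 0x3b0221d85000000000000) (nat_lit 33)))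
 (.p (nat_lit 0x18d218d018cc18ca18c8310106) (nat_lit 0x4000014410) (nat_lit 52)))
 (.n (.p (nat_lit 0x8738f702) (nat_lit 0x40403) (nat_lit 30))
 (.p (nat_lit 0x437582302) (nat_lit 0x14092a) (nat_lit 30))))
 (.n (.n (.p (nat_lit 0x1bc81da702) (nat_lit 0x300900) (nat_lit 4))
 (.p (nat_lit 0x17cd259902) (nat_lit 0x540b1c) (nat_lit 15)))
 (.n (.p (nat_lit 0x2080207c207a207820761d9d06) (nat_lit 0x8000054806) (nat_lit 51))
 (.p (nat_lit 0x5d2d5e4702) (nat_lit 0x200060000600) (nat_lit 36)))))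
 (.n (.n (.n (.p (nat_lit 0xfb90c9702) (nat_lit 0x452300) (nat_lit 16))
 (.p (nat_lit 0x2ba827f902) (nat_lit 0x400916) (nat_lit 4)))
 (.n (.p (nat_lit 0x4351247702) (nat_lit 0x10ab04) (nat_lit 16))
 (.p (nat_lit 0x2e85b2b02) (nat_lit 0x200915) (nat_lit 27))))
 (.n (.n (.p (nat_lit 0x233c23382336233423321ee906) (nat_lit 0x8000016901) (nat_lit 52))
 (.p (nat_lit 0x203611ef02) (nat_lit 0x440923) (nat_lit 4)))
 (.n (.p (nat_lit 0x38d8347502) (nat_lit 0x30040a) (nat_lit 5))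
 (.p (nat_lit 0x6345f3d02) (nat_lit 0x3a2560c64000000040000) (nat_lit 49))))))
 (.n (.n (.n (.n (.p (nat_lit 0x84a08480846084405c305c106) (nat_lit 0x6000014100) (nat_lit 51))
 (.p (nat_lit 0x732072e072c0728029e028902830731072b09) (nat_lit 0x2140015) (nat_lit 10)))
 (.n (.p (nat_lit 0x2e80b8702) (nat_lit 0x200204) (nat_lit 1))
 (.p (nat_lit 0x4a5648b302) (nat_lit 0x14072f) (nat_lit 4))))
 (.n (.n (.p (nat_lit 0x24ba24b624b424b222c322bb06) (nat_lit 0x8800042b00) (nat_lit 51))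
 (.p (nat_lit 0x4c82565f02) (nat_lit 0x340122) (nat_lit 29)))
 (.n (.p (nat_lit 0x2d922d902d8c2d8a2d881a6f06) (nat_lit 0x4000056707) (nat_lit 52))
 (.p (nat_lit 0x5d4f1da902) (nat_lit 0x2e0080000900) (nat_lit 38)))))
 (.n (.n (.n (.p (nat_lit 0x16f216f016ec16ea16bb16b506) (nat_lit 0x12000044600) (nat_lit 51))
 (.p (nat_lit 0x88505dd02) (nat_lit 0x40001c) (nat_lit 15)))
 (.n (.p (nat_lit 0x233c233a2338233423321ac106) (nat_lit 0x2000056705) (nat_lit 52))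
 (.p (nat_lit 0x5cf55de702) (nat_lit 0x280040000200) (nat_lit 36))))
 (.n (.n (.p (nat_lit 0x32d232d032ce32cc32ca32c80066205d205b20530a) (nat_lit 0x16040902) (nat_lit 31))
 (.p (nat_lit 0x4b964e4d02) (nat_lit 0x340029) (nat_lit 4)))
 (.n (.p (nat_lit 0x1986198419821980197c10dd06) (nat_lit 0x100008e40e) (nat_lit 51))
 (.p (nat_lit 0x2346604102) (nat_lit 0x4a8176340800500000600) (nat_lit 50))))))

def c1024_662 : Tr :=
 .n (.n (.n (.n (.n (.n (.p (nat_lit 0x4550447044203) (nat_lit 0x2200002a) (nat_lit 19))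
 (.p (nat_lit 0x1dae61bf02) (nat_lit 0x3221a9c15000300000600) (nat_lit 50)))
 (.p (nat_lit 0x3c543c523c503c4e3c4c419106) (nat_lit 0x1000008e512) (nat_lit 52)))
 (.n (.p (nat_lit 0x3b59232d02) (nat_lit 0x34aa03) (nat_lit 16))
 (.p (nat_lit 0x198364b02) (nat_lit 0x4012d) (nat_lit 1))))
 (.n (.n (.p (nat_lit 0x213a2136213421321e951e8d06) (nat_lit 0x880008ea00) (nat_lit 51))
 (.p (nat_lit 0xd3e0d3c0d3a0d380d363bed06) (nat_lit 0x10000042b1f) (nat_lit 51)))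
 (.n (.p (nat_lit 0x233c233a2338233423320e0506) (nat_lit 0x2000016307) (nat_lit 52))
 (.p (nat_lit 0x5ce11c4902) (nat_lit 0xc0020000800) (nat_lit 41)))))
 (.n (.n (.n (.p (nat_lit 0x12e612e212e012de10cb10c306) (nat_lit 0x8800006500) (nat_lit 51))
 (.p (nat_lit 0xbf80bf60bf40bf20bee422f06) (nat_lit 0x100000a619) (nat_lit 51)))
 (.n (.p (nat_lit 0x408127d02) (nat_lit 0x40405) (nat_lit 1))
 (.p (nat_lit 0x5cd904c502) (nat_lit 0x140020000000) (nat_lit 38))))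
 (.n (.n (.p (nat_lit 0x5f2e4502) (nat_lit 0x340102) (nat_lit 30))
 (.p (nat_lit 0x1ba81ba61ba21ba01b9e364506) (nat_lit 0x40000d4126) (nat_lit 52)))
 (.n (.p (nat_lit 0x22b622b422b222b022ae475906) (nat_lit 0x100000d030c) (nat_lit 52))
 (.p (nat_lit 0x233a5fc702) (nat_lit 0x89832b05000500000600) (nat_lit 49))))))
 (.n (.n (.n (.n (.p (nat_lit 0xc040c020c000bfe0bfc0bfa06) (nat_lit 0xca200) (nat_lit 52))
 (.p (nat_lit 0x286428622860285e285c164b06) (nat_lit 0x4000014615) (nat_lit 51)))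
 (.n (.p (nat_lit 0x16a216a0169e169c169a168106) (nat_lit 0x80008c604) (nat_lit 52))
 (.p (nat_lit 0xec00ea00e800e20003011706) (nat_lit 0xa0e605) (nat_lit 26))))
 (.n (.n (.p (nat_lit 0x10f4171d02) (nat_lit 0x100401) (nat_lit 4))
 (.p (nat_lit 0x1aea1ae81ae61ae41ae209e506) (nat_lit 0x800050123) (nat_lit 51)))
 (.n (.p (nat_lit 0x2d342d322d2e2d2c2d2a2b5106) (nat_lit 0x4000046808) (nat_lit 51))
 (.p (nat_lit 0x5ebc249502) (nat_lit 0x80040b00) (nat_lit 46)))))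
 (.n (.n (.n (.p (nat_lit 0x1a5a1a581a541a501799179506) (nat_lit 0x50000d6700) (nat_lit 52))
 (.p (nat_lit 0x73914e502) (nat_lit 0x24051c) (nat_lit 15)))
 (.n (.p (nat_lit 0x11324e3702) (nat_lit 0x200406) (nat_lit 29))
 (.p (nat_lit 0x5d6b0fe902) (nat_lit 0x120080000400) (nat_lit 40))))
 (.n (.n (.p (nat_lit 0x175417521750174e174a25b506) (nat_lit 0x1000050b02) (nat_lit 51))
 (.p (nat_lit 0xcbc0cba0cb60cb40cb2043b0cb907) (nat_lit 0x34022a) (nat_lit 7)))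
 (.n (.p (nat_lit 0x35b635b235b035ae35ac1be306) (nat_lit 0x800009680e) (nat_lit 51))
 (.p (nat_lit 0x13fc60c902) (nat_lit 0x3505223a4000500040000) (nat_lit 50))))))

def c512_150 : Tr := .n c1024_150 c1024_662

def c1024_406 : Tr :=
 .n (.n (.n (.n (.n (.n (.p (nat_lit 0x20701ff01f403) (nat_lit 0x6210000e) (nat_lit 19))
 (.p (nat_lit 0x12a912970fe10fdb0d170d0f0a530a4f07a7079d04d904c761800d) (nat_lit 0x421a86b95000000000000) (nat_lit 33)))
 (.p (nat_lit 0x408738e302) (nat_lit 0x214411) (nat_lit 16)))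
 (.n (.p (nat_lit 0x17f017ee17ec17e817e6008b17eb07) (nat_lit 0x240603) (nat_lit 7))
 (.p (nat_lit 0x3190318e318c318a2b792b7506) (nat_lit 0xa0000c282b) (nat_lit 52))))
 (.n (.n (.p (nat_lit 0x1f6e1f6c1f681f661d2f1d2906) (nat_lit 0x4800046900) (nat_lit 52))
 (.p (nat_lit 0x33f0308302) (nat_lit 0x200b1e) (nat_lit 5)))
 (.n (.p (nat_lit 0x7b607b207b007ae07ac0b4306) (nat_lit 0x8000006207) (nat_lit 52))
 (.p (nat_lit 0x5d47181d02) (nat_lit 0x60060000700) (nat_lit 40)))))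
 (.n (.n (.n (.p (nat_lit 0x3a80f6502) (nat_lit 0x440400) (nat_lit 1))
 (.p (nat_lit 0x39f439f039ee39ec39ea02d539f307) (nat_lit 0x400518) (nat_lit 7)))
 (.n (.p (nat_lit 0xa3620af02) (nat_lit 0x540105) (nat_lit 4))
 (.p (nat_lit 0x4225be902) (nat_lit 0x300b23) (nat_lit 27))))
 (.n (.n (.p (nat_lit 0x21bf21b302) (nat_lit 0x510a01) (nat_lit 16))
 (.p (nat_lit 0x2874296d02) (nat_lit 0x140224) (nat_lit 5)))
 (.n (.p (nat_lit 0x1e661e641e601e5e1e5c3f9706) (nat_lit 0x400000e30b) (nat_lit 51))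
 (.p (nat_lit 0x2497248921d921d31f151f071c471c451983197516a716995f7c0d) (nat_lit 0x581a22b44000000040600) (nat_lit 33))))))
 (.n (.n (.n (.n (.p (nat_lit 0xa560a4a087703) (nat_lit 0x300200) (nat_lit 6))
 (.p (nat_lit 0x1392138e138c138a02aa028b02871395139109) (nat_lit 0x2b00515) (nat_lit 10)))
 (.n (.p (nat_lit 0x13cb111b02) (nat_lit 0x200404) (nat_lit 15))
 (.p (nat_lit 0x62005e005c00580003008f06) (nat_lit 0xc14902) (nat_lit 26))))
 (.n (.n (.p (nat_lit 0x2f26d902) (nat_lit 0x200101) (nat_lit 30))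
 (.p (nat_lit 0x74a07480744074003be03a703a30747074309) (nat_lit 0x1940023) (nat_lit 10)))
 (.n (.p (nat_lit 0x257522d102) (nat_lit 0x540a07) (nat_lit 15))
 (.p (nat_lit 0x5d555ea702) (nat_lit 0x280080000a00) (nat_lit 37)))))
 (.n (.n (.n (.p (nat_lit 0x18d018ce18cc18ca18c8162b06) (nat_lit 0x10000014700) (nat_lit 52))
 (.p (nat_lit 0x35bd088502) (nat_lit 0x41011c) (nat_lit 16)))
 (.n (.p (nat_lit 0x78a4b3302) (nat_lit 0x140006) (nat_lit 29))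
 (.p (nat_lit 0x5d315e0302) (nat_lit 0x1c0060000300) (nat_lit 37))))
 (.n (.n (.p (nat_lit 0xbb00bae0baa0ba80ba6232106) (nat_lit 0x40000c4a02) (nat_lit 52))
 (.p (nat_lit 0x52c0528052605240522089d06) (nat_lit 0x800008812a) (nat_lit 51)))
 (.n (.p (nat_lit 0x14c8093d02) (nat_lit 0x4050e) (nat_lit 4))
 (.p (nat_lit 0x1534608102) (nat_lit 0x354221ca4000000000600) (nat_lit 49))))))

def c1024_918 : Tr :=
 .n (.n (.n (.n (.n (.p (nat_lit 0x660065e065a06580657065106) (nat_lit 0x12000044000) (nat_lit 51))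
 (.p (nat_lit 0x4d304d2e4d2a4d284d264dd106) (nat_lit 0x400008a314) (nat_lit 52)))
 (.n (.p (nat_lit 0x21d621d421d221d021ce25bf06) (nat_lit 0x8000d4b03) (nat_lit 52))
 (.p (nat_lit 0x46f33fa502) (nat_lit 0x1632e) (nat_lit 16))))
 (.n (.n (.p (nat_lit 0x22df1ff302) (nat_lit 0x44a00) (nat_lit 16))
 (.p (nat_lit 0x43903f8f02) (nat_lit 0x540b20) (nat_lit 4)))
 (.n (.p (nat_lit 0x298f10d702) (nat_lit 0x40c407) (nat_lit 16))
 (.p (nat_lit 0x5d8d1c4502) (nat_lit 0x2000a0000800) (nat_lit 39)))))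
 (.n (.n (.n (.p (nat_lit 0x14f7122702) (nat_lit 0x54c500) (nat_lit 16))
 (.p (nat_lit 0x4a3a467302) (nat_lit 0x54071a) (nat_lit 4)))
 (.n (.p (nat_lit 0x23fa23f823f623f423f0180106) (nat_lit 0x10000d0605) (nat_lit 51))
 (.p (nat_lit 0x5cf15dcd02) (nat_lit 0x2c0040000100) (nat_lit 37))))
 (.n (.n (.p (nat_lit 0x1258188d02) (nat_lit 0x40402) (nat_lit 4))
 (.p (nat_lit 0x424a40c302) (nat_lit 0x300627) (nat_lit 5)))
 (.n (.p (nat_lit 0x4fc04fa04f804f604f4508d06) (nat_lit 0x8000c480d) (nat_lit 52))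
 (.p (nat_lit 0x64a600102) (nat_lit 0x405aa2354800000040000) (nat_lit 50))))))
 (.n (.n (.n (.n (.p (nat_lit 0xdf20dee0dec0de80b370b3106) (nat_lit 0x9000096300) (nat_lit 52))
 (.p (nat_lit 0x201c0afb02) (nat_lit 0x340915) (nat_lit 4)))
 (.n (.p (nat_lit 0xc200d300df1e671fcd05) (nat_lit 0x85d00704) (nat_lit 9))
 (.p (nat_lit 0x5a585a565a545a525a50025101a407) (nat_lit 0x104a0a) (nat_lit 25))))
 (.n (.n (.p (nat_lit 0x18c618c418c218c018be1c1706) (nat_lit 0x800092801) (nat_lit 52))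
 (.p (nat_lit 0x1671166502) (nat_lit 0x400623) (nat_lit 16)))
 (.n (.p (nat_lit 0x32962d6102) (nat_lit 0x300909) (nat_lit 4))
 (.p (nat_lit 0xa585ef502) (nat_lit 0x281d30344000200000000) (nat_lit 50)))))
 (.n (.n (.n (.p (nat_lit 0x1c2b190102) (nat_lit 0x414800) (nat_lit 16))
 (.p (nat_lit 0x1d6f1d6302) (nat_lit 0x54a81c) (nat_lit 16)))
 (.n (.p (nat_lit 0x16061604160215fe1acd1ac906) (nat_lit 0x28000d2706) (nat_lit 51))
 (.p (nat_lit 0x5d5b5e3302) (nat_lit 0x220080000500) (nat_lit 37))))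
 (.n (.n (.p (nat_lit 0x36410a1702) (nat_lit 0x148103) (nat_lit 16))
 (.p (nat_lit 0x1668144b02) (nat_lit 0x62a) (nat_lit 5)))
 (.n (.p (nat_lit 0x257a086902) (nat_lit 0x240b0e) (nat_lit 5))
 (.p (nat_lit 0x234460ff02) (nat_lit 0x3425219b0000500000600) (nat_lit 50))))))

def c512_406 : Tr := .n c1024_406 c1024_918

def c256_150 : Tr := .n c512_150 c512_406

def c128_22 : Tr := .n c256_22 c256_150

def c1024_86 : Tr :=
 .n (.n (.n (.n (.n (.n (.p (nat_lit 0x62005e0058006504) (nat_lit 0x14800400002) (nat_lit 17))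
 (.p (nat_lit 0x2344613302) (nat_lit 0x35486a3b0000500000600) (nat_lit 50)))
 (.p (nat_lit 0x2bec272102) (nat_lit 0x24090f) (nat_lit 4)))
 (.n (.p (nat_lit 0x110a1b4b02) (nat_lit 0x403) (nat_lit 4))
 (.p (nat_lit 0x1d7a1d781d761d721d7004391d7507) (nat_lit 0x24082a) (nat_lit 7))))
 (.n (.n (.p (nat_lit 0x1d391a6102) (nat_lit 0x240800) (nat_lit 16))
 (.p (nat_lit 0x243a0f4702) (nat_lit 0x100b1c) (nat_lit 5)))
 (.n (.p (nat_lit 0xd1c0d1a0d180d160d141d9506) (nat_lit 0x800046806) (nat_lit 51))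
 (.p (nat_lit 0x5d1716a902) (nat_lit 0x60040000600) (nat_lit 41)))))
 (.n (.n (.n (.p (nat_lit 0xf360f320f300f2e0c970c8f06) (nat_lit 0x8800054300) (nat_lit 51))
 (.p (nat_lit 0x2a7627cb02) (nat_lit 0x400516) (nat_lit 4)))
 (.n (.p (nat_lit 0x247c1e7d02) (nat_lit 0x400b04) (nat_lit 4))
 (.p (nat_lit 0x25602520250024e024300bb06) (nat_lit 0x2b0e412) (nat_lit 26))))
 (.n (.n (.p (nat_lit 0xa5a0a560a540a520a501ee906) (nat_lit 0x8000004901) (nat_lit 51))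
 (.p (nat_lit 0x1d771d6b02) (nat_lit 0x340823) (nat_lit 16)))
 (.n (.p (nat_lit 0x37da345f02) (nat_lit 0x40030a) (nat_lit 4))
 (.p (nat_lit 0x1ad65f3102) (nat_lit 0x3aa560b44000200000600) (nat_lit 49))))))
 (.n (.n (.n (.n (.p (nat_lit 0x7b607b407ae07ac05c305c106) (nat_lit 0x6000006100) (nat_lit 52))
 (.p (nat_lit 0x91609120910090e05d105c906) (nat_lit 0x8800086015) (nat_lit 51)))
 (.n (.p (nat_lit 0xa221ddf02) (nat_lit 0x140104) (nat_lit 5))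
 (.p (nat_lit 0x46fa489702) (nat_lit 0x40032f) (nat_lit 5))))
 (.n (.n (.p (nat_lit 0x245b215f02) (nat_lit 0x50ab00) (nat_lit 16))
 (.p (nat_lit 0x23ee23ec23ea23e623e44b1f06) (nat_lit 0x2000010022) (nat_lit 52)))
 (.n (.p (nat_lit 0x14e015b015706b3054d05) (nat_lit 0x44400707) (nat_lit 9))
 (.p (nat_lit 0x5d335e8d02) (nat_lit 0x1a0060000900) (nat_lit 37)))))
 (.n (.n (.n (.p (nat_lit 0x168d154d02) (nat_lit 0x14600) (nat_lit 16))
 (.p (nat_lit 0xfea0fe80fe60fe40fe005d706) (nat_lit 0x100000801c) (nat_lit 51)))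
 (.n (.p (nat_lit 0xe820e800e7e0e7a0e781ac106) (nat_lit 0x20000c6705) (nat_lit 51))
 (.p (nat_lit 0x5ce55de102) (nat_lit 0x80020000200) (nat_lit 37))))
 (.n (.n (.p (nat_lit 0x1b8e1b8c1b8a1b881ef71eed06) (nat_lit 0x1080008c902) (nat_lit 51))
 (.p (nat_lit 0x468a468846844680041a040f040b4687468309) (nat_lit 0x1940228) (nat_lit 10)))
 (.n (.p (nat_lit 0x10e0091f02) (nat_lit 0x30040e) (nat_lit 5))
 (.p (nat_lit 0xe7a603102) (nat_lit 0x4099a2335000300040000) (nat_lit 50))))))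

def c1024_598 : Tr :=
 .n (.n (.n (.n (.n (.n (.p (nat_lit 0x3a803a003af03) (nat_lit 0x8800500023) (nat_lit 17))
 (.p (nat_lit 0x1da661af02) (nat_lit 0x522266c0d000300000600) (nat_lit 49)))
 (.p (nat_lit 0x1e7e1e7c1e7a1e781e76408306) (nat_lit 0x800016412) (nat_lit 52)))
 (.n (.p (nat_lit 0x23281d0702) (nat_lit 0x140a03) (nat_lit 5))
 (.p (nat_lit 0x483586502) (nat_lit 0x400a2c) (nat_lit 30))))
 (.n (.n (.p (nat_lit 0x20ba20b620b420b21e951e8d06) (nat_lit 0x8800004a00) (nat_lit 51))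
 (.p (nat_lit 0x3083b9102) (nat_lit 0x100b1f) (nat_lit 1)))
 (.n (.p (nat_lit 0x8fc08fa08f808f608f40e0b06) (nat_lit 0x10000082307) (nat_lit 51))
 (.p (nat_lit 0x5e641d8702) (nat_lit 0xa0056700) (nat_lit 48)))))
 (.n (.n (.n (.p (nat_lit 0x10cc10c810c610c410c2000910cb07) (nat_lit 0x400500) (nat_lit 7))
 (.p (nat_lit 0x1e7e1e7c1e7a1e781e74419506) (nat_lit 0x1000016519) (nat_lit 52)))
 (.n (.p (nat_lit 0xed470902) (nat_lit 0x540305) (nat_lit 30))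
 (.p (nat_lit 0x5cb95daf02) (nat_lit 0x40000000000) (nat_lit 37))))
 (.n (.n (.p (nat_lit 0x2d922d8e2d8a2d880761075d06) (nat_lit 0xa000056002) (nat_lit 52))
 (.p (nat_lit 0x3556390502) (nat_lit 0x140026) (nat_lit 5)))
 (.n (.p (nat_lit 0x457a457845764574457245fb06) (nat_lit 0x200008e20c) (nat_lit 51))
 (.p (nat_lit 0x248d248921e321d31f111f071c4d1c451985197116af169f5fb20d) (nat_lit 0x9582ec15800000040600) (nat_lit 33))))))
 (.n (.n (.n (.n (.p (nat_lit 0x9d609d209d009cc001a0009000309d509cf09) (nat_lit 0x2140200) (nat_lit 10))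
 (.p (nat_lit 0x21d621d421d221d021ce14d506) (nat_lit 0x8000d4515) (nat_lit 52)))
 (.n (.p (nat_lit 0x168a168816841682168000bb168707) (nat_lit 0x300604) (nat_lit 7))
 (.p (nat_lit 0x1ce599302) (nat_lit 0x500005) (nat_lit 27))))
 (.n (.n (.p (nat_lit 0xe2c159b02) (nat_lit 0x400301) (nat_lit 4))
 (.p (nat_lit 0x9ec117f02) (nat_lit 0x440123) (nat_lit 4)))
 (.n (.p (nat_lit 0x462298b02) (nat_lit 0x408) (nat_lit 1))
 (.p (nat_lit 0x5eba21af02) (nat_lit 0x6000eb00) (nat_lit 48)))))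
 (.n (.n (.n (.p (nat_lit 0x1a1e1a1c1a161a141799179706) (nat_lit 0x6000052700) (nat_lit 51))
 (.p (nat_lit 0x14e60ec702) (nat_lit 0x34051c) (nat_lit 5)))
 (.n (.p (nat_lit 0xe6a4d6502) (nat_lit 0x500306) (nat_lit 29))
 (.p (nat_lit 0x5cf70fe502) (nat_lit 0x260040000400) (nat_lit 40))))
 (.n (.n (.p (nat_lit 0x33cf246102) (nat_lit 0x200b02) (nat_lit 16))
 (.p (nat_lit 0x1820181e181c181a18180b5306) (nat_lit 0x80000e22a) (nat_lit 51)))
 (.n (.p (nat_lit 0x1ed531702) (nat_lit 0x34070e) (nat_lit 30))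
 (.p (nat_lit 0xbb260ad02) (nat_lit 0x342521ca4000200040000) (nat_lit 50))))))

def c512_86 : Tr := .n c1024_86 c1024_598

def c1024_342 : Tr :=
 .n (.n (.n (.n (.n (.n (.p (nat_lit 0x1570153014e03) (nat_lit 0x2200007) (nat_lit 19))
 (.p (nat_lit 0x2346616f02) (nat_lit 0x421aa6315000500000600) (nat_lit 50)))
 (.p (nat_lit 0x271a2716271427122710342f06) (nat_lit 0x8000052b10) (nat_lit 52)))
 (.n (.p (nat_lit 0x187e187c187a18781677167506) (nat_lit 0x1800086603) (nat_lit 52))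
 (.p (nat_lit 0x28802a9502) (nat_lit 0x14022b) (nat_lit 4))))
 (.n (.n (.p (nat_lit 0x1efd1bc702) (nat_lit 0x216900) (nat_lit 16))
 (.p (nat_lit 0x330932fd02) (nat_lit 0x54a91e) (nat_lit 16)))
 (.n (.p (nat_lit 0x22a0229e229c229a2298205f06) (nat_lit 0x8000ce906) (nat_lit 52))
 (.p (nat_lit 0x5cc9180d02) (nat_lit 0x240020000700) (nat_lit 38)))))
 (.n (.n (.n (.p (nat_lit 0x10d90dff02) (nat_lit 0x500400) (nat_lit 16))
 (.p (nat_lit 0x34bc34ba34b834b434b202d334b707) (nat_lit 0x200018) (nat_lit 7)))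
 (.n (.p (nat_lit 0x4466446444624460445e445c06) (nat_lit 0xc8005) (nat_lit 52))
 (.p (nat_lit 0x4205bc702) (nat_lit 0x200522) (nat_lit 27))))
 (.n (.n (.p (nat_lit 0x2d2c2702) (nat_lit 0x100a01) (nat_lit 30))
 (.p (nat_lit 0x2734295302) (nat_lit 0x124) (nat_lit 4)))
 (.n (.p (nat_lit 0x6c806c606c206c006be3bc506) (nat_lit 0x4000050b0a) (nat_lit 51))
 (.p (nat_lit 0x20725f7102) (nat_lit 0x3aa074c44000400000600) (nat_lit 49))))))
 (.n (.n (.n (.n (.p (nat_lit 0x9f3071f02) (nat_lit 0x14a100) (nat_lit 16))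
 (.p (nat_lit 0xe8c0e8a0e880e84124b124306) (nat_lit 0x11000040415) (nat_lit 51)))
 (.n (.p (nat_lit 0x3fd03fce3fcc3fca3fc80fbb06) (nat_lit 0x10000042304) (nat_lit 52))
 (.p (nat_lit 0x58d258d058ce58cc58ca000b003607) (nat_lit 0x510a01) (nat_lit 25))))
 (.n (.n (.p (nat_lit 0x62f05f302) (nat_lit 0x314001) (nat_lit 16))
 (.p (nat_lit 0x143c143814361434143205e906) (nat_lit 0x8000006023) (nat_lit 52)))
 (.n (.p (nat_lit 0x216406f102) (nat_lit 0x200a07) (nat_lit 4))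
 (.p (nat_lit 0x5d3d21d302) (nat_lit 0x100060000a00) (nat_lit 39)))))
 (.n (.n (.n (.p (nat_lit 0x1842183e183c183a1629162306) (nat_lit 0x9000002700) (nat_lit 51))
 (.p (nat_lit 0x88408820880087e087c0311088707) (nat_lit 0x50011c) (nat_lit 7)))
 (.n (.p (nat_lit 0x1fd61fd41fd21fd01d931d8906) (nat_lit 0x108000ce805) (nat_lit 52))
 (.p (nat_lit 0x5df8423b02) (nat_lit 0x20012300) (nat_lit 48))))
 (.n (.n (.p (nat_lit 0x334d21bb02) (nat_lit 0x306a02) (nat_lit 16))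
 (.p (nat_lit 0x894579d02) (nat_lit 0x12a) (nat_lit 29)))
 (.n (.p (nat_lit 0x142138102) (nat_lit 0x10050e) (nat_lit 1))
 (.p (nat_lit 0x233a607102) (nat_lit 0x588162b40800500000600) (nat_lit 49))))))

def c1024_854 : Tr :=
 .n (.n (.n (.n (.n (.n (.p (nat_lit 0x5eb04e502) (nat_lit 0x508000) (nat_lit 16))
 (.p (nat_lit 0x182061ed02) (nat_lit 0x382a31d05000100000600) (nat_lit 50)))
 (.p (nat_lit 0x497a456302) (nat_lit 0x300613) (nat_lit 4)))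
 (.n (.p (nat_lit 0x7aa07a607a407a225c725bf06) (nat_lit 0x8800042b03) (nat_lit 51))
 (.p (nat_lit 0x3c963c943c923c903c8e3e0906) (nat_lit 0x1000004612e) (nat_lit 51))))
 (.n (.n (.p (nat_lit 0x22882286228222801ff91ff306) (nat_lit 0x48000cca00) (nat_lit 51))
 (.p (nat_lit 0x42d63ff902) (nat_lit 0x100720) (nat_lit 4)))
 (.n (.p (nat_lit 0x43810d302) (nat_lit 0x200407) (nat_lit 1))
 (.p (nat_lit 0x5d5d1c4302) (nat_lit 0x200080000800) (nat_lit 39)))))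
 (.n (.n (.n (.p (nat_lit 0x144814421440143e1225122306) (nat_lit 0xc0000c6500) (nat_lit 52))
 (.p (nat_lit 0x22922290228e228c228a495506) (nat_lit 0x1000004e51a) (nat_lit 51)))
 (.n (.p (nat_lit 0x24122410240e240c240a168d06) (nat_lit 0x800092605) (nat_lit 51))
 (.p (nat_lit 0x5cdf5dc902) (nat_lit 0xe0020000100) (nat_lit 37))))
 (.n (.n (.p (nat_lit 0xf9e19e102) (nat_lit 0x340302) (nat_lit 5))
 (.p (nat_lit 0x3df240b102) (nat_lit 0x40127) (nat_lit 4)))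
 (.n (.p (nat_lit 0x4fd04add02) (nat_lit 0x70d) (nat_lit 4))
 (.p (nat_lit 0x2493248121db21d71f151f0d1c471c411985197316af169d5ff00d) (nat_lit 0x306a81c35000000040600) (nat_lit 33))))))
 (.n (.n (.n (.n (.p (nat_lit 0xd580d560d540d520b310b2f06) (nat_lit 0x180000a300) (nat_lit 52))
 (.p (nat_lit 0x1d560c4702) (nat_lit 0x540815) (nat_lit 5)))
 (.n (.p (nat_lit 0x248a248824862482248017f706) (nat_lit 0x20000d6604) (nat_lit 52))
 (.p (nat_lit 0x2245a3302) (nat_lit 0x100209) (nat_lit 27))))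
 (.n (.n (.p (nat_lit 0x5a1c1902) (nat_lit 0x100801) (nat_lit 1))
 (.p (nat_lit 0xd620d600d5e0d5c0cb10ca706) (nat_lit 0x108000ca223) (nat_lit 52)))
 (.n (.p (nat_lit 0x18721870186e186c186a308b06) (nat_lit 0x800046309) (nat_lit 52))
 (.p (nat_lit 0x180e5ee902) (nat_lit 0x4a8866344000100000600) (nat_lit 49)))))
 (.n (.n (.n (.p (nat_lit 0x1bb41bb01bae1baa190118fb06) (nat_lit 0x9000016800) (nat_lit 52))
 (.p (nat_lit 0x385638523850384e1bfd1bf906) (nat_lit 0x1400009681c) (nat_lit 51)))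
 (.n (.p (nat_lit 0x161e161c16181614196b196706) (nat_lit 0x5000094706) (nat_lit 51))
 (.p (nat_lit 0x5d435e2d02) (nat_lit 0xa0060000500) (nat_lit 36))))
 (.n (.n (.p (nat_lit 0xa141c7702) (nat_lit 0x40103) (nat_lit 4))
 (.p (nat_lit 0x43557cd02) (nat_lit 0x4032a) (nat_lit 30)))
 (.n (.p (nat_lit 0x44c844c644c444c244c022d906) (nat_lit 0x4000048a0e) (nat_lit 52))
 (.p (nat_lit 0x153460f502) (nat_lit 0x440d623a4000000000600) (nat_lit 49))))))

def c512_342 : Tr := .n c1024_342 c1024_854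

def c256_86 : Tr := .n c512_86 c512_342

def c1024_214 : Tr :=
 .n (.n (.n (.n (.n (.n (.p (nat_lit 0xd500d100c700c404) (nat_lit 0x35800004) (nat_lit 20))
 (.p (nat_lit 0x1816615302) (nat_lit 0x1503a8895800100000600) (nat_lit 50)))
 (.p (nat_lit 0x32742df102) (nat_lit 0x440510) (nat_lit 5)))
 (.n (.p (nat_lit 0x13bc1ccb02) (nat_lit 0x100503) (nat_lit 5))
 (.p (nat_lit 0x4898489648944890488e21a106) (nat_lit 0x2000006a2a) (nat_lit 51))))
 (.n (.n (.p (nat_lit 0x1e421e401e3c1e3a1bc91bc306) (nat_lit 0x480008a900) (nat_lit 52))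
 (.p (nat_lit 0x2bb428b102) (nat_lit 0x40091d) (nat_lit 4)))
 (.n (.p (nat_lit 0x11b50dd02) (nat_lit 0x400906) (nat_lit 30))
 (.p (nat_lit 0x5da7154b02) (nat_lit 0x600a0000600) (nat_lit 40)))))
 (.n (.n (.n (.p (nat_lit 0xff40ff20fee0fec0dff0df906) (nat_lit 0x12000000400) (nat_lit 52))
 (.p (nat_lit 0x18de18dc18da18d618d431f106) (nat_lit 0x2000094517) (nat_lit 51)))
 (.n (.p (nat_lit 0x227c227a22762274227225d106) (nat_lit 0x400004cb04) (nat_lit 51))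
 (.p (nat_lit 0x2f75b6902) (nat_lit 0x20061a) (nat_lit 28))))
 (.n (.n (.p (nat_lit 0x2050204e204c20460046002f002d204b204909) (nat_lit 0x1140901) (nat_lit 10))
 (.p (nat_lit 0x230022fe22f822f603c403a703a522fd22fb09) (nat_lit 0x1a40a23) (nat_lit 10)))
 (.n (.p (nat_lit 0x3a90524b02) (nat_lit 0x30060a) (nat_lit 29))
 (.p (nat_lit 0x207a5f5302) (nat_lit 0x1a9d22350000400000600) (nat_lit 50))))))
 (.n (.n (.n (.n (.p (nat_lit 0x71c08e902) (nat_lit 0x40100) (nat_lit 4))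
 (.p (nat_lit 0x10ea541102) (nat_lit 0x200415) (nat_lit 29)))
 (.n (.p (nat_lit 0xce61df902) (nat_lit 0x240204) (nat_lit 5))
 (.p (nat_lit 0x507a4f5d02) (nat_lit 0x300830) (nat_lit 5))))
 (.n (.n (.p (nat_lit 0x254e254c254a2548254622c506) (nat_lit 0x100000d0b00) (nat_lit 52))
 (.p (nat_lit 0x506650625060505e505c039b506507) (nat_lit 0x400822) (nat_lit 7)))
 (.n (.p (nat_lit 0x1ea11bd702) (nat_lit 0x400807) (nat_lit 15))
 (.p (nat_lit 0x5ca5207702) (nat_lit 0x180000000a00) (nat_lit 40)))))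
 (.n (.n (.n (.p (nat_lit 0x1778177617741772176e16b306) (nat_lit 0x10000d2600) (nat_lit 52))
 (.p (nat_lit 0xd1a0d160d140d12073f073b06) (nat_lit 0x1400004601c) (nat_lit 51)))
 (.n (.p (nat_lit 0x1c2a1c281c261c22010400ed00e51c2d1c2509) (nat_lit 0x2900805) (nat_lit 10))
 (.p (nat_lit 0x5d670a5902) (nat_lit 0x160080000200) (nat_lit 40))))
 (.n (.n (.p (nat_lit 0x3313205b02) (nat_lit 0x44a902) (nat_lit 16))
 (.p (nat_lit 0x254425422540253c253a4c8b06) (nat_lit 0x2000050129) (nat_lit 51)))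
 (.n (.p (nat_lit 0x1238092902) (nat_lit 0x24040e) (nat_lit 4))
 (.p (nat_lit 0x1538605302) (nat_lit 0x40a962335000000000600) (nat_lit 49))))))

def c1024_726 : Tr :=
 .n (.n (.n (.n (.n (.n (.p (nat_lit 0x4f004ee04ec04ea04e804e606) (nat_lit 0x4000) (nat_lit 52))
 (.p (nat_lit 0x115061cf02) (nat_lit 0x3561684a0800400040000) (nat_lit 50)))
 (.p (nat_lit 0x42703dcf02) (nat_lit 0x440612) (nat_lit 4)))
 (.n (.p (nat_lit 0x1150114e114c114a1146246b06) (nat_lit 0x1000088b03) (nat_lit 51))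
 (.p (nat_lit 0x375c3a3102) (nat_lit 0x14022d) (nat_lit 4))))
 (.n (.n (.p (nat_lit 0x21911e8d02) (nat_lit 0x8a00) (nat_lit 16))
 (.p (nat_lit 0x3ded3d0702) (nat_lit 0x340020) (nat_lit 15)))
 (.n (.p (nat_lit 0x8f208f008ee08ec08e80f6b06) (nat_lit 0x10000c2307) (nat_lit 52))
 (.p (nat_lit 0x5d131ae502) (nat_lit 0xa0040000800) (nat_lit 40)))))
 (.n (.n (.n (.p (nat_lit 0x139110c902) (nat_lit 0x304500) (nat_lit 16))
 (.p (nat_lit 0x36b436b236b036ae36ac42c906) (nat_lit 0x800096719) (nat_lit 51)))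
 (.n (.p (nat_lit 0x488a48884886488213dd13d506) (nat_lit 0x11000084505) (nat_lit 51))
 (.p (nat_lit 0x5d4304c902) (nat_lit 0xa0060000000) (nat_lit 38))))
 (.n (.n (.p (nat_lit 0xcca19c302) (nat_lit 0x40202) (nat_lit 5))
 (.p (nat_lit 0x3b14394902) (nat_lit 0x300a26) (nat_lit 5)))
 (.n (.p (nat_lit 0x50805040502050004fe49d106) (nat_lit 0x800000670c) (nat_lit 52))
 (.p (nat_lit 0x180a5fd302) (nat_lit 0x95a32b05000100000600) (nat_lit 49))))))
 (.n (.n (.n (.n (.p (nat_lit 0xcbf09cd02) (nat_lit 0x4c200) (nat_lit 16))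
 (.p (nat_lit 0x289545102) (nat_lit 0x400715) (nat_lit 30)))
 (.n (.p (nat_lit 0x4259168902) (nat_lit 0x40a604) (nat_lit 16))
 (.p (nat_lit 0x42059d302) (nat_lit 0x200406) (nat_lit 27))))
 (.n (.n (.p (nat_lit 0x3529a902) (nat_lit 0x540401) (nat_lit 30))
 (.p (nat_lit 0xb4a118702) (nat_lit 0x200223) (nat_lit 4)))
 (.n (.p (nat_lit 0x56605640562055e055c2be106) (nat_lit 0x2000050908) (nat_lit 52))
 (.p (nat_lit 0x2495248b21d921d31f151f071c511c3b1983197516a716995ec80d) (nat_lit 0x4a1a34344000000040600) (nat_lit 33)))))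
 (.n (.n (.n (.p (nat_lit 0x1ad3179d02) (nat_lit 0x556700) (nat_lit 16))
 (.p (nat_lit 0x344192902) (nat_lit 0x71c) (nat_lit 1)))
 (.n (.p (nat_lit 0x1290128e128c12880132011d01151293128b09) (nat_lit 0x2940406) (nat_lit 10))
 (.p (nat_lit 0x5d8b5e2102) (nat_lit 0x2200a0000400) (nat_lit 37))))
 (.n (.n (.p (nat_lit 0x34983496349434923490060906) (nat_lit 0x2000094003) (nat_lit 51))
 (.p (nat_lit 0x197a1974197219700cbb0cb906) (nat_lit 0xc0000ce22a) (nat_lit 52)))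
 (.n (.p (nat_lit 0x533e533c533a53385336533401f207) (nat_lit 0x90e) (nat_lit 8))
 (.p (nat_lit 0xbae60d502) (nat_lit 0x354a621b0000200040000) (nat_lit 49))))))

def c512_214 : Tr := .n c1024_214 c1024_726

def c1024_470 : Tr :=
 .n (.n (.n (.n (.n (.n (.p (nat_lit 0x2a5029f028e03) (nat_lit 0x81100015) (nat_lit 19))
 (.p (nat_lit 0x180a618f02) (nat_lit 0x3422a5c14800100000600) (nat_lit 49)))
 (.p (nat_lit 0x3a9c360b02) (nat_lit 0x300611) (nat_lit 4)))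
 (.n (.p (nat_lit 0x18d018ce18cc18c817f117e906) (nat_lit 0x11000054603) (nat_lit 52))
 (.p (nat_lit 0x2eca320b02) (nat_lit 0x34012c) (nat_lit 5))))
 (.n (.n (.p (nat_lit 0x1fca1fc61fc41fc21d331d2f06) (nat_lit 0x1400004e900) (nat_lit 52))
 (.p (nat_lit 0x1b9c1b9a1b981b961b94354906) (nat_lit 0x80005401f) (nat_lit 52)))
 (.n (.p (nat_lit 0xca40ca20ca00c9e0c9c01410c9b07) (nat_lit 0x40207) (nat_lit 7))
 (.p (nat_lit 0x5d7d181f02) (nat_lit 0x80000700) (nat_lit 40)))))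
 (.n (.n (.n (.p (nat_lit 0x11981196119411921190118e06) (nat_lit 0xc4400) (nat_lit 52))
 (.p (nat_lit 0x3afa372102) (nat_lit 0xa18) (nat_lit 5)))
 (.n (.p (nat_lit 0x46184616461446124610460e00ee07) (nat_lit 0x40205) (nat_lit 8))
 (.p (nat_lit 0x43f5c2b02) (nat_lit 0x50012a) (nat_lit 28))))
 (.n (.n (.p (nat_lit 0x23ee23ec23ea23e62313230f06) (nat_lit 0x2800050a01) (nat_lit 52))
 (.p (nat_lit 0x2c4c29fb02) (nat_lit 0x500a24) (nat_lit 5)))
 (.n (.p (nat_lit 0x14a421f02) (nat_lit 0x50060b) (nat_lit 1))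
 (.p (nat_lit 0x23485f8f02) (nat_lit 0x581a303a4000500000600) (nat_lit 50))))))
 (.n (.n (.n (.n (.p (nat_lit 0xa960a940a900a8c0877087306) (nat_lit 0x500000a200) (nat_lit 52))
 (.p (nat_lit 0x1c501c4e1c4a1c481c46139106) (nat_lit 0x4000090515) (nat_lit 51)))
 (.n (.p (nat_lit 0x1281127502) (nat_lit 0x256404) (nat_lit 16))
 (.p (nat_lit 0x8b592b02) (nat_lit 0x200303) (nat_lit 28))))
 (.n (.n (.p (nat_lit 0x279427922790278e278a09ff06) (nat_lit 0x1000052101) (nat_lit 51))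
 (.p (nat_lit 0x892100f02) (nat_lit 0x500123) (nat_lit 4)))
 (.n (.p (nat_lit 0x256a05b102) (nat_lit 0x40b07) (nat_lit 5))
 (.p (nat_lit 0x5eac4c0d02) (nat_lit 0x8b00) (nat_lit 47)))))
 (.n (.n (.n (.p (nat_lit 0x1929162102) (nat_lit 0x6700) (nat_lit 16))
 (.p (nat_lit 0xc040c020c000bfe0bfc09d906) (nat_lit 0x8000ca11c) (nat_lit 52)))
 (.n (.p (nat_lit 0x4ba64ba44ba24ba04b9e4b9c012008e708e308e10a) (nat_lit 0x15a00106) (nat_lit 31))
 (.p (nat_lit 0x5e06334f02) (nat_lit 0x8000e300) (nat_lit 47))))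
 (.n (.n (.p (nat_lit 0x1f0c1f0a1f061f042325231f06) (nat_lit 0x120000d2a02) (nat_lit 52))
 (.p (nat_lit 0x9fa09f809f409f2044a043b043509f709f109) (nat_lit 0x184012a) (nat_lit 10)))
 (.n (.p (nat_lit 0x6b206b006ae06ac06aa14d306) (nat_lit 0x1000004e50e) (nat_lit 51))
 (.p (nat_lit 0x1542609102) (nat_lit 0x342221ca4000000000600) (nat_lit 50))))))

def c1024_982 : Tr :=
 .n (.n (.n (.n (.n (.p (nat_lit 0x6b206ae06ac06aa0657065306) (nat_lit 0x1400004e000) (nat_lit 51))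
 (.p (nat_lit 0x2550254e254a254825464f2706) (nat_lit 0x40000d0414) (nat_lit 52)))
 (.n (.p (nat_lit 0x61806160614061200cc00bf00b5061b061109) (nat_lit 0x2800004) (nat_lit 10))
 (.p (nat_lit 0x3a643a623a5e3a5c3a5a42f306) (nat_lit 0x400009672e) (nat_lit 51))))
 (.n (.n (.p (nat_lit 0x215e215821562154002400090007215d215b09) (nat_lit 0x2300b00) (nat_lit 10))
 (.p (nat_lit 0x44ab449f02) (nat_lit 0x14a021) (nat_lit 16)))
 (.n (.p (nat_lit 0x140c140a14061402122f122b06) (nat_lit 0x5000042407) (nat_lit 51))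
 (.p (nat_lit 0x5e7e420302) (nat_lit 0x44900) (nat_lit 48)))))
 (.n (.n (.n (.p (nat_lit 0x158415821580157a1551154f06) (nat_lit 0x3000004600) (nat_lit 52))
 (.p (nat_lit 0x4fae4d2902) (nat_lit 0x14051b) (nat_lit 4)))
 (.n (.p (nat_lit 0xe760e740e720e700e6c195b06) (nat_lit 0x1000086705) (nat_lit 52))
 (.p (nat_lit 0x5dd22bef02) (nat_lit 0x6004c100) (nat_lit 48))))
 (.n (.n (.p (nat_lit 0x13b818a302) (nat_lit 0x500502) (nat_lit 5))
 (.p (nat_lit 0x432040e902) (nat_lit 0x540727) (nat_lit 4)))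
 (.n (.p (nat_lit 0x1f401fb0209090907b505) (nat_lit 0x62c0030e) (nat_lit 9))
 (.p (nat_lit 0xbae601302) (nat_lit 0x405aa2335000200040000) (nat_lit 49))))))
 (.n (.n (.n (.n (.p (nat_lit 0xe790e6d02) (nat_lit 0x40300) (nat_lit 34))
 (.p (nat_lit 0x4666466446624660465e217906) (nat_lit 0x80000ea15) (nat_lit 52)))
 (.n (.p (nat_lit 0x42d1195502) (nat_lit 0x404704) (nat_lit 16))
 (.p (nat_lit 0x1ec01ea01e801e60241000b06) (nat_lit 0x251040e) (nat_lit 26))))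
 (.n (.n (.p (nat_lit 0x1d822b4502) (nat_lit 0x340801) (nat_lit 29))
 (.p (nat_lit 0x1a9c105d02) (nat_lit 0x240723) (nat_lit 5)))
 (.n (.p (nat_lit 0x337a2d8102) (nat_lit 0x240a09) (nat_lit 4))
 (.p (nat_lit 0x23445f1102) (nat_lit 0x3a2270350000500000600) (nat_lit 50)))))
 (.n (.n (.n (.p (nat_lit 0x1c801c7e1c7c1c7a1a5f1a5d06) (nat_lit 0x18000c2800) (nat_lit 52))
 (.p (nat_lit 0x202c0dc302) (nat_lit 0x54091c) (nat_lit 4)))
 (.n (.p (nat_lit 0xa5a0a580a560a540a501c3106) (nat_lit 0x1000004806) (nat_lit 51))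
 (.p (nat_lit 0x5cb95e3902) (nat_lit 0x40000000600) (nat_lit 37))))
 (.n (.n (.p (nat_lit 0x36e236e036de36dc36da0cdf06) (nat_lit 0x8000040203) (nat_lit 52))
 (.p (nat_lit 0x17e4130b02) (nat_lit 0x54062a) (nat_lit 4)))
 (.n (.p (nat_lit 0x2a0e276502) (nat_lit 0x34040f) (nat_lit 4))
 (.p (nat_lit 0xe72611702) (nat_lit 0x3562621b0000300040000) (nat_lit 49))))))

def c512_470 : Tr := .n c1024_470 c1024_982

def c256_214 : Tr := .n c512_214 c512_470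

def c128_86 : Tr := .n c256_86 c256_214

def c64_22 : Tr := .n c128_22 c128_86

def c1024_54 : Tr :=
 .n (.n (.n (.n (.n (.n (.p (nat_lit 0x450041003803) (nat_lit 0x2b00001) (nat_lit 19))
 (.p (nat_lit 0x8f6612f02) (nat_lit 0x35486a1b0000100040000) (nat_lit 50)))
 (.p (nat_lit 0x2b9a271702) (nat_lit 0x30090f) (nat_lit 4)))
 (.n (.p (nat_lit 0x9137f302) (nat_lit 0x540303) (nat_lit 30))
 (.p (nat_lit 0x1c0c132502) (nat_lit 0x10082a) (nat_lit 5))))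
 (.n (.n (.p (nat_lit 0x1d1a1d181d161d141d101a5f06) (nat_lit 0x1000056800) (nat_lit 51))
 (.p (nat_lit 0x22f40ddb02) (nat_lit 0x540a1c) (nat_lit 4)))
 (.n (.p (nat_lit 0x119508702) (nat_lit 0x340806) (nat_lit 30))
 (.p (nat_lit 0x5ccd153702) (nat_lit 0x200020000600) (nat_lit 38)))))
 (.n (.n (.n (.p (nat_lit 0xed60ed40ece0ecc0c950c9306) (nat_lit 0x600004c300) (nat_lit 52))
 (.p (nat_lit 0x258a0b2b02) (nat_lit 0x440b15) (nat_lit 5)))
 (.n (.p (nat_lit 0x1abf1ab302) (nat_lit 0x156704) (nat_lit 16))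
 (.p (nat_lit 0x22c0228022602240239018d06) (nat_lit 0x412510) (nat_lit 26))))
 (.n (.n (.p (nat_lit 0x1ee615f702) (nat_lit 0x300901) (nat_lit 4))
 (.p (nat_lit 0x1d6a107702) (nat_lit 0x340823) (nat_lit 5)))
 (.n (.p (nat_lit 0x374a345302) (nat_lit 0x44020a) (nat_lit 4))
 (.p (nat_lit 0x6425f2302) (nat_lit 0x3a2560b44000000040000) (nat_lit 50))))))
 (.n (.n (.n (.n (.p (nat_lit 0x7a3079702) (nat_lit 0x100100) (nat_lit 34))
 (.p (nat_lit 0x5c853f502) (nat_lit 0x15) (nat_lit 29)))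
 (.n (.p (nat_lit 0x8ca1dd702) (nat_lit 0x300104) (nat_lit 5))
 (.p (nat_lit 0xe8469302) (nat_lit 0x34022f) (nat_lit 1))))
 (.n (.n (.p (nat_lit 0x1555215d02) (nat_lit 0x400b00) (nat_lit 15))
 (.p (nat_lit 0x4a4646e502) (nat_lit 0x540721) (nat_lit 5)))
 (.n (.p (nat_lit 0x265e265a26582656265417a706) (nat_lit 0x8000044607) (nat_lit 51))
 (.p (nat_lit 0x5cf11f0902) (nat_lit 0x2c0040000900) (nat_lit 39)))))
 (.n (.n (.n (.p (nat_lit 0x1647154f02) (nat_lit 0x104600) (nat_lit 16))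
 (.p (nat_lit 0x5de05dc05d805d40324030d030905db05d709) (nat_lit 0x190001c) (nat_lit 10)))
 (.n (.p (nat_lit 0x1ac41ac21ac01abe1abc00ed1ac707) (nat_lit 0x540705) (nat_lit 7))
 (.p (nat_lit 0x5c990ba702) (nat_lit 0x240000000200) (nat_lit 39))))
 (.n (.n (.p (nat_lit 0x1ef4328d02) (nat_lit 0x400902) (nat_lit 29))
 (.p (nat_lit 0x211621142110210e210c458d06) (nat_lit 0x400004c128) (nat_lit 52)))
 (.n (.p (nat_lit 0xbd00bce0bcc0bca0f7f0f7d06) (nat_lit 0x180000c030e) (nat_lit 52))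
 (.p (nat_lit 0x2495248721db21d71f151f0b1c471c431983197316af169d602a0d) (nat_lit 0x466a62335000000040600) (nat_lit 33))))))

def c1024_566 : Tr :=
 .n (.n (.n (.n (.n (.n (.p (nat_lit 0x381037d037003) (nat_lit 0x62200020) (nat_lit 19))
 (.p (nat_lit 0x234461a702) (nat_lit 0x3421a9c14800500000600) (nat_lit 50)))
 (.p (nat_lit 0x3fa03d8d02) (nat_lit 0x400312) (nat_lit 5)))
 (.n (.p (nat_lit 0x1e721e701e6e1e6821c521c306) (nat_lit 0x300008ea03) (nat_lit 51))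
 (.p (nat_lit 0x330a324502) (nat_lit 0x4092c) (nat_lit 4))))
 (.n (.n (.p (nat_lit 0x1e8e206d02) (nat_lit 0x100a00) (nat_lit 4))
 (.p (nat_lit 0x55de55dc55da55d855d655d4035a07) (nat_lit 0x40a1f) (nat_lit 8)))
 (.n (.p (nat_lit 0xe04067502) (nat_lit 0x200307) (nat_lit 5))
 (.p (nat_lit 0x5d95181502) (nat_lit 0x1800a0000700) (nat_lit 38)))))
 (.n (.n (.n (.p (nat_lit 0x128b0f5f02) (nat_lit 0x156400) (nat_lit 16))
 (.p (nat_lit 0x410e3eb702) (nat_lit 0x240419) (nat_lit 5)))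
 (.n (.p (nat_lit 0x46f90e5b02) (nat_lit 0x30a305) (nat_lit 16))
 (.p (nat_lit 0x49804940492048e047d008f06) (nat_lit 0xc0c22d) (nat_lit 26))))
 (.n (.n (.p (nat_lit 0x632d1302) (nat_lit 0x540002) (nat_lit 30))
 (.p (nat_lit 0x10321030102e102c102a335306) (nat_lit 0x800084a25) (nat_lit 51)))
 (.n (.p (nat_lit 0x4217433b02) (nat_lit 0x100b0b) (nat_lit 15))
 (.p (nat_lit 0x207a5fa302) (nat_lit 0x589832b44000400000600) (nat_lit 50))))))
 (.n (.n (.n (.n (.p (nat_lit 0xb93087502) (nat_lit 0x214200) (nat_lit 16))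
 (.p (nat_lit 0x129e129c129a129614d914d506) (nat_lit 0x280004a515) (nat_lit 52)))
 (.n (.p (nat_lit 0x151a15181516151200c800b900b51515151109) (nat_lit 0x1040504) (nat_lit 10))
 (.p (nat_lit 0xbe00bc00b600b4008d000506) (nat_lit 0x1a0e604) (nat_lit 26))))
 (.n (.n (.p (nat_lit 0x282e282c282a28282826282400380cc50cc30cc10a) (nat_lit 0xd140201) (nat_lit 31))
 (.p (nat_lit 0x2e37088d02) (nat_lit 0x20e123) (nat_lit 16)))
 (.n (.p (nat_lit 0x28d4266b02) (nat_lit 0x500308) (nat_lit 5))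
 (.p (nat_lit 0x5d35233902) (nat_lit 0x180060000b00) (nat_lit 38)))))
 (.n (.n (.n (.p (nat_lit 0x19d819d619d419d21795179306) (nat_lit 0x1800046700) (nat_lit 51))
 (.p (nat_lit 0x10b410b010ae10ac10aa139f06) (nat_lit 0x800001651c) (nat_lit 52)))
 (.n (.p (nat_lit 0xcfe238b02) (nat_lit 0x240206) (nat_lit 4))
 (.p (nat_lit 0x5cd10fe302) (nat_lit 0x1c0020000400) (nat_lit 40))))
 (.n (.n (.p (nat_lit 0x170c170a170817022461245f06) (nat_lit 0x3000006b02) (nat_lit 51))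
 (.p (nat_lit 0xd100d0e0d0c0d0a0d080b5306) (nat_lit 0x80000622a) (nat_lit 52)))
 (.n (.p (nat_lit 0x1918530d02) (nat_lit 0x40070e) (nat_lit 29))
 (.p (nat_lit 0x13ee60a502) (nat_lit 0x346068ca4000500040000) (nat_lit 49))))))

def c512_54 : Tr := .n c1024_54 c1024_566

def c1024_310 : Tr :=
 .n (.n (.n (.n (.n (.n (.p (nat_lit 0x13b0131012003) (nat_lit 0x81900006) (nat_lit 19))
 (.p (nat_lit 0x12a912970fe10fdb0d170d110a530a4507a7079d04d904c361680d) (nat_lit 0x421aa4394000000000000) (nat_lit 33)))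
 (.p (nat_lit 0x33da2ea702) (nat_lit 0x200b10) (nat_lit 4)))
 (.n (.p (nat_lit 0x893a8102) (nat_lit 0x100603) (nat_lit 30))
 (.p (nat_lit 0x27462a2702) (nat_lit 0x50012b) (nat_lit 4))))
 (.n (.n (.p (nat_lit 0x1eb71bc902) (nat_lit 0x304900) (nat_lit 16))
 (.p (nat_lit 0x2e2c2fd902) (nat_lit 0x30011e) (nat_lit 5)))
 (.n (.p (nat_lit 0x11d512302) (nat_lit 0x540906) (nat_lit 30))
 (.p (nat_lit 0x5e5017e702) (nat_lit 0x52700) (nat_lit 47)))))
 (.n (.n (.n (.p (nat_lit 0x109c109a1098109610920df706) (nat_lit 0x1000014400) (nat_lit 52))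
 (.p (nat_lit 0x286339502) (nat_lit 0x340a17) (nat_lit 1)))
 (.n (.p (nat_lit 0x442444224420441e441c441a00ee07) (nat_lit 0x40005) (nat_lit 8))
 (.p (nat_lit 0x36c036a03680366034f00b706) (nat_lit 0x10e020) (nat_lit 26))))
 (.n (.n (.p (nat_lit 0x2be9204702) (nat_lit 0x42901) (nat_lit 16))
 (.p (nat_lit 0x25a4573b02) (nat_lit 0x540b23) (nat_lit 29)))
 (.n (.p (nat_lit 0x3bbe34a702) (nat_lit 0x40b0a) (nat_lit 5))
 (.p (nat_lit 0x15345f6d02) (nat_lit 0x3aa074b44000000000600) (nat_lit 49))))))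
 (.n (.n (.n (.n (.p (nat_lit 0x9740972096e096c0727072106) (nat_lit 0x12000050100) (nat_lit 51))
 (.p (nat_lit 0x124a12481244124212400287124707) (nat_lit 0x340415) (nat_lit 7)))
 (.n (.p (nat_lit 0x111f0e5102) (nat_lit 0x400304) (nat_lit 15))
 (.p (nat_lit 0x5858bf02) (nat_lit 0x801) (nat_lit 27))))
 (.n (.n (.p (nat_lit 0x5f016c102) (nat_lit 0x200001) (nat_lit 4))
 (.p (nat_lit 0x43e05eb02) (nat_lit 0x500023) (nat_lit 1)))
 (.n (.p (nat_lit 0x200406e702) (nat_lit 0x340907) (nat_lit 4))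
 (.p (nat_lit 0x5e9825cd02) (nat_lit 0x20050a00) (nat_lit 48)))))
 (.n (.n (.n (.p (nat_lit 0x1622181902) (nat_lit 0x100700) (nat_lit 5))
 (.p (nat_lit 0x4b89073902) (nat_lit 0x25601c) (nat_lit 16)))
 (.n (.p (nat_lit 0x1dcc1dca1dc81dc61dc41d9306) (nat_lit 0x100000c0805) (nat_lit 52))
 (.p (nat_lit 0x5df40e6d02) (nat_lit 0x40300) (nat_lit 45))))
 (.n (.n (.p (nat_lit 0x1c501c4c1c4a1c481c4621bd06) (nat_lit 0x8000090a02) (nat_lit 51))
 (.p (nat_lit 0x50c64f0902) (nat_lit 0x540829) (nat_lit 4)))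
 (.n (.p (nat_lit 0x14cd123902) (nat_lit 0x24040e) (nat_lit 15))
 (.p (nat_lit 0x8fa606902) (nat_lit 0x588172b40800100040000) (nat_lit 50))))))

def c1024_822 : Tr :=
 .n (.n (.n (.n (.n (.n (.p (nat_lit 0x59605940592058c04df04dd06) (nat_lit 0x3000014000) (nat_lit 51))
 (.p (nat_lit 0x207261e502) (nat_lit 0x14e0a8c74000400000600) (nat_lit 49)))
 (.p (nat_lit 0xec485502) (nat_lit 0x540413) (nat_lit 1)))
 (.n (.p (nat_lit 0x25be3bb302) (nat_lit 0x40b03) (nat_lit 29))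
 (.p (nat_lit 0x3bfc3a5d02) (nat_lit 0x140b2d) (nat_lit 5))))
 (.n (.n (.p (nat_lit 0x224c224a224422421ff91ff706) (nat_lit 0x6000048a00) (nat_lit 52))
 (.p (nat_lit 0x42803feb02) (nat_lit 0x40620) (nat_lit 4)))
 (.n (.p (nat_lit 0x30930f7102) (nat_lit 0x44e307) (nat_lit 16))
 (.p (nat_lit 0x5d731ae902) (nat_lit 0xa0080000800) (nat_lit 40)))))
 (.n (.n (.n (.p (nat_lit 0x1420141e141c141a1227122506) (nat_lit 0x18000044500) (nat_lit 51))
 (.p (nat_lit 0x211621142110210e210c48c306) (nat_lit 0x400000c51a) (nat_lit 52)))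
 (.n (.p (nat_lit 0x169416921690168e00fc00ed00e31697168d09) (nat_lit 0x2800605) (nat_lit 10))
 (.p (nat_lit 0x5cb95dc502) (nat_lit 0x40000000100) (nat_lit 37))))
 (.n (.n (.p (nat_lit 0x2ff22ff02fee2fea2fe80e3506) (nat_lit 0x2000014302) (nat_lit 52))
 (.p (nat_lit 0x3d7240a702) (nat_lit 0x100127) (nat_lit 5)))
 (.n (.p (nat_lit 0x2550254e254c254a25464e1d06) (nat_lit 0x10000d030d) (nat_lit 52))
 (.p (nat_lit 0xbb25fe902) (nat_lit 0x306a81d31000200040000) (nat_lit 50))))))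
 (.n (.n (.n (.n (.p (nat_lit 0xd320d300d2e0d2c0d2a0b3906) (nat_lit 0x10000080300) (nat_lit 51))
 (.p (nat_lit 0x1bf0546b02) (nat_lit 0x500815) (nat_lit 29)))
 (.n (.p (nat_lit 0x1820181e181c181a181817f306) (nat_lit 0x80004e604) (nat_lit 51))
 (.p (nat_lit 0x5a105a0c5a0a5a085a060483014c07) (nat_lit 0x408707) (nat_lit 25))))
 (.n (.n (.p (nat_lit 0x2a842a822a802a7e2a7c2a7a003814f714f314ef0a) (nat_lit 0x15940501) (nat_lit 31))
 (.p (nat_lit 0xcb00cae0cac0caa03b203a303a10ca90ca709) (nat_lit 0x840223) (nat_lit 10)))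
 (.n (.p (nat_lit 0x18d218d018cc18ca18c8301106) (nat_lit 0x4000014309) (nat_lit 52))
 (.p (nat_lit 0x20705edf02) (nat_lit 0x4a9d22344000400000600) (nat_lit 49)))))
 (.n (.n (.n (.p (nat_lit 0x1b901b8a1b881b86190118ff06) (nat_lit 0xc00008c800) (nat_lit 51))
 (.p (nat_lit 0x1bfc1bfa1bf81bf61bf203091bf507) (nat_lit 0x10081c) (nat_lit 7)))
 (.n (.p (nat_lit 0x196e252d02) (nat_lit 0x500706) (nat_lit 5))
 (.p (nat_lit 0x5cfd12a502) (nat_lit 0x200040000500) (nat_lit 40))))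
 (.n (.n (.p (nat_lit 0x8c21c7502) (nat_lit 0x500103) (nat_lit 4))
 (.p (nat_lit 0x101a10181016101410100e1b06) (nat_lit 0x100008232a) (nat_lit 51)))
 (.n (.p (nat_lit 0x242b217702) (nat_lit 0x500a0e) (nat_lit 15))
 (.p (nat_lit 0x8f260ef02) (nat_lit 0x440d6a3a4000100040000) (nat_lit 49))))))

def c512_310 : Tr := .n c1024_310 c1024_822

def c256_54 : Tr := .n c512_54 c512_310

def c1024_182 : Tr :=
 .n (.n (.n (.n (.n (.n (.p (nat_lit 0xbc00ba00b600c104) (nat_lit 0xd000400004) (nat_lit 17))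
 (.p (nat_lit 0xe7c614d02) (nat_lit 0x3b0221d85000300040000) (nat_lit 50)))
 (.p (nat_lit 0x18c418c218c018be317d317306) (nat_lit 0x108000d2410) (nat_lit 52)))
 (.n (.p (nat_lit 0x392439223920391c391a126906) (nat_lit 0x20000c2403) (nat_lit 52))
 (.p (nat_lit 0x4ac219f02) (nat_lit 0x100a2a) (nat_lit 1))))
 (.n (.n (.p (nat_lit 0x1de41de21de01ddc1bcd1bc506) (nat_lit 0x11000082900) (nat_lit 51))
 (.p (nat_lit 0x2b2272d02) (nat_lit 0x20011d) (nat_lit 1)))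
 (.n (.p (nat_lit 0x50c51d9d02) (nat_lit 0x448806) (nat_lit 16))
 (.p (nat_lit 0x5d77154902) (nat_lit 0x60080000600) (nat_lit 40)))))
 (.n (.n (.n (.p (nat_lit 0xdfa0fe702) (nat_lit 0x300400) (nat_lit 5))
 (.p (nat_lit 0x4d2e4d2c4d2a4d284d262c4506) (nat_lit 0x1000008aa16) (nat_lit 52)))
 (.n (.p (nat_lit 0x25d2436302) (nat_lit 0x440b04) (nat_lit 29))
 (.p (nat_lit 0x2ef5b4f02) (nat_lit 0x500019) (nat_lit 28))))
 (.n (.n (.p (nat_lit 0x1f011ee902) (nat_lit 0x414901) (nat_lit 16))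
 (.p (nat_lit 0x3a9572102) (nat_lit 0x400a23) (nat_lit 30)))
 (.n (.p (nat_lit 0x396c523f02) (nat_lit 0x34040a) (nat_lit 29))
 (.p (nat_lit 0x8fa5f4302) (nat_lit 0x1a1d22350000100040000) (nat_lit 50))))))
 (.n (.n (.n (.n (.p (nat_lit 0x8a905c502) (nat_lit 0x40c100) (nat_lit 16))
 (.p (nat_lit 0x9b009ae09ac09aa09a8073306) (nat_lit 0x100000d4015) (nat_lit 52)))
 (.n (.p (nat_lit 0x3e4e3e4c3e4a3e483e460b8306) (nat_lit 0x80008c204) (nat_lit 51))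
 (.p (nat_lit 0x4d024f7902) (nat_lit 0x300230) (nat_lit 5))))
 (.n (.n (.p (nat_lit 0x252c25262524252222c322c106) (nat_lit 0xc00004eb00) (nat_lit 51))
 (.p (nat_lit 0x50224d9502) (nat_lit 0x140722) (nat_lit 5)))
 (.n (.p (nat_lit 0x1bd4519702) (nat_lit 0x300807) (nat_lit 29))
 (.p (nat_lit 0x5d8b5e9302) (nat_lit 0x2200a0000900) (nat_lit 37)))))
 (.n (.n (.n (.p (nat_lit 0x17521750174e174c174a16bb06) (nat_lit 0x10000050600) (nat_lit 51))
 (.p (nat_lit 0x73a0d3102) (nat_lit 0x34001c) (nat_lit 5)))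
 (.n (.p (nat_lit 0x1c2c1c2a1c281c261c2200e51c2507) (nat_lit 0x100805) (nat_lit 7))
 (.p (nat_lit 0x5d310a4b02) (nat_lit 0x1c0060000200) (nat_lit 38))))
 (.n (.n (.p (nat_lit 0x1d021cfe1cfc1cfa205b205306) (nat_lit 0x8800054902) (nat_lit 51))
 (.p (nat_lit 0x2550254e254a254825464c1306) (nat_lit 0x4000090129) (nat_lit 52)))
 (.n (.p (nat_lit 0x248a248824862484248010dd06) (nat_lit 0x100009640e) (nat_lit 52))
 (.p (nat_lit 0xe72604902) (nat_lit 0x406a6254c800300040000) (nat_lit 49))))))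

def c1024_694 : Tr :=
 .n (.n (.n (.n (.n (.n (.p (nat_lit 0x4cf04c302) (nat_lit 0x0) (nat_lit 34))
 (.p (nat_lit 0x197a61c702) (nat_lit 0x340d89ca4000100040600) (nat_lit 49)))
 (.p (nat_lit 0x1ec422702) (nat_lit 0x300612) (nat_lit 1)))
 (.n (.p (nat_lit 0x4cc04c804c604c404c2247106) (nat_lit 0x8000000b03) (nat_lit 52))
 (.p (nat_lit 0x36d836d636d436d236ce049136d107) (nat_lit 0x10022d) (nat_lit 7))))
 (.n (.n (.p (nat_lit 0x2152214c214a21481e951e9306) (nat_lit 0xc000090a00) (nat_lit 51))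
 (.p (nat_lit 0x3d003f4702) (nat_lit 0x40020) (nat_lit 5)))
 (.n (.p (nat_lit 0x4dc50e0502) (nat_lit 0x216307) (nat_lit 16))
 (.p (nat_lit 0x5ccb1c3d02) (nat_lit 0x220020000800) (nat_lit 39)))))
 (.n (.n (.n (.p (nat_lit 0x1340133e133c133a133810cb06) (nat_lit 0x8000012500) (nat_lit 51))
 (.p (nat_lit 0xa960a940a900a8e0a8c427b06) (nat_lit 0x400004a619) (nat_lit 52)))
 (.n (.p (nat_lit 0x151f127f02) (nat_lit 0x140405) (nat_lit 15))
 (.p (nat_lit 0x5db4425f02) (nat_lit 0x20052000) (nat_lit 48))))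
 (.n (.n (.p (nat_lit 0xb6a185102) (nat_lit 0x202) (nat_lit 4))
 (.p (nat_lit 0x3f7575f02) (nat_lit 0x500226) (nat_lit 30)))
 (.n (.p (nat_lit 0x49cf497102) (nat_lit 0x30060c) (nat_lit 15))
 (.p (nat_lit 0x1da25fcd02) (nat_lit 0x95832b05000300000600) (nat_lit 49))))))
 (.n (.n (.n (.n (.p (nat_lit 0xc760c740c720c6e0c6c09d106) (nat_lit 0x20000d4200) (nat_lit 51))
 (.p (nat_lit 0x284428422840283e283a17b906) (nat_lit 0x10000ca615) (nat_lit 52)))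
 (.n (.p (nat_lit 0x21e221e021dc21da21d8168706) (nat_lit 0x4000094604) (nat_lit 51))
 (.p (nat_lit 0x59c059be59ba59b859b6000700ee07) (nat_lit 0x30c805) (nat_lit 25))))
 (.n (.n (.p (nat_lit 0x110310f702) (nat_lit 0x210401) (nat_lit 16))
 (.p (nat_lit 0x27ad09e702) (nat_lit 0x14c123) (nat_lit 16)))
 (.n (.p (nat_lit 0x67a06780676067206702b8d06) (nat_lit 0x2000006908) (nat_lit 51))
 (.p (nat_lit 0x5ec0249702) (nat_lit 0xa0040b00) (nat_lit 46)))))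
 (.n (.n (.n (.p (nat_lit 0x1a8b179d02) (nat_lit 0x544700) (nat_lit 16))
 (.p (nat_lit 0x165f165302) (nat_lit 0x10a61c) (nat_lit 16)))
 (.n (.p (nat_lit 0x128824ff02) (nat_lit 0x40406) (nat_lit 4))
 (.p (nat_lit 0x5e1c3ba302) (nat_lit 0x80010400) (nat_lit 47))))
 (.n (.n (.p (nat_lit 0x25c325b702) (nat_lit 0x252b02) (nat_lit 16))
 (.p (nat_lit 0xd1a0d180d160d140d120cbd06) (nat_lit 0x1000004622a) (nat_lit 51)))
 (.n (.p (nat_lit 0x1ed532f02) (nat_lit 0x34080e) (nat_lit 30))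
 (.p (nat_lit 0x113a60cf02) (nat_lit 0x35056a3a4000400040000) (nat_lit 49))))))

def c512_182 : Tr := .n c1024_182 c1024_694

def c1024_438 : Tr :=
 .n (.n (.n (.n (.n (.n (.p (nat_lit 0x28802820280028d04) (nat_lit 0x9800400015) (nat_lit 17))
 (.p (nat_lit 0x1dac618702) (nat_lit 0x54c88a970000300000600) (nat_lit 50)))
 (.p (nat_lit 0x1d021d001cfe1cfc1cfa397306) (nat_lit 0x800054411) (nat_lit 51)))
 (.n (.p (nat_lit 0x3ac23ac03abe3abc3aba3ab8009417ef17ed17e70a) (nat_lit 0x11840603) (nat_lit 31))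
 (.p (nat_lit 0x32c52bcd02) (nat_lit 0x41092b) (nat_lit 16))))
 (.n (.n (.p (nat_lit 0x1fb41fae1fac1faa1d311d2f06) (nat_lit 0xc00004c900) (nat_lit 51))
 (.p (nat_lit 0x1d181d161d141d121d1034c906) (nat_lit 0x1000001601f) (nat_lit 51)))
 (.n (.p (nat_lit 0x9a609a409a0099e099c0b4106) (nat_lit 0x4000014207) (nat_lit 52))
 (.p (nat_lit 0x5d2f197702) (nat_lit 0x1e0060000700) (nat_lit 39)))))
 (.n (.n (.n (.p (nat_lit 0x116811621160115e0f650f6306) (nat_lit 0xc0000c0400) (nat_lit 51))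
 (.p (nat_lit 0x1b841b801b7e1b7c1b7a3a6f06) (nat_lit 0x800004c518) (nat_lit 51)))
 (.n (.p (nat_lit 0xb9245a302) (nat_lit 0x200205) (nat_lit 29))
 (.p (nat_lit 0x3e803e403e203de03a903ef06) (nat_lit 0x2114925) (nat_lit 26))))
 (.n (.n (.p (nat_lit 0x2318231423122310230e0033231707) (nat_lit 0x440a01) (nat_lit 7))
 (.p (nat_lit 0x2bbe29e302) (nat_lit 0x300924) (nat_lit 4)))
 (.n (.p (nat_lit 0x1fe41fe21fe01fde1fdc400f06) (nat_lit 0x80005630b) (nat_lit 51))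
 (.p (nat_lit 0xe6e5f8502) (nat_lit 0x581a32b44000300040000) (nat_lit 49))))))
 (.n (.n (.n (.n (.p (nat_lit 0xa720a6e0a6c0a6a0a68087906) (nat_lit 0x8000080200) (nat_lit 51))
 (.p (nat_lit 0x1150114e114c114a1148138b06) (nat_lit 0x800088515) (nat_lit 51)))
 (.n (.p (nat_lit 0x127a1e2b02) (nat_lit 0x540404) (nat_lit 4))
 (.p (nat_lit 0x8f591702) (nat_lit 0x400003) (nat_lit 28))))
 (.n (.n (.p (nat_lit 0x2b274902) (nat_lit 0x40101) (nat_lit 30))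
 (.p (nat_lit 0x9ef074b02) (nat_lit 0x540023) (nat_lit 15)))
 (.n (.p (nat_lit 0x241c51d502) (nat_lit 0x400b07) (nat_lit 29))
 (.p (nat_lit 0x5d875eab02) (nat_lit 0x2600a0000a00) (nat_lit 37)))))
 (.n (.n (.n (.p (nat_lit 0x18f618f418ee18ec1627162506) (nat_lit 0x6000096700) (nat_lit 51))
 (.p (nat_lit 0x28809e102) (nat_lit 0x44011c) (nat_lit 1)))
 (.n (.p (nat_lit 0x8e608e408e208e008de011308dd07) (nat_lit 0x106) (nat_lit 7))
 (.p (nat_lit 0x5d715e0702) (nat_lit 0xc0080000300) (nat_lit 37))))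
 (.n (.n (.p (nat_lit 0x1820181e181c181a1818231b06) (nat_lit 0x80004ea02) (nat_lit 51))
 (.p (nat_lit 0x442045b044b140f12b905) (nat_lit 0x8984012a) (nat_lit 9)))
 (.n (.p (nat_lit 0x14d214d014cc14c801fe01ed01e914cf14cb09) (nat_lit 0x194050e) (nat_lit 10))
 (.p (nat_lit 0xbb2608b02) (nat_lit 0x354221ca4000200040000) (nat_lit 50))))))

def c1024_950 : Tr :=
 .n (.n (.n (.n (.n (.p (nat_lit 0x6920690068e068c068a064d06) (nat_lit 0x800048000) (nat_lit 52))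
 (.p (nat_lit 0x4ea04e9c4e9a4e98027a027102694e9f4e9709) (nat_lit 0x2000414) (nat_lit 10)))
 (.n (.p (nat_lit 0x25cf25c302) (nat_lit 0x254b03) (nat_lit 16))
 (.p (nat_lit 0x134c1348134613441342425906) (nat_lit 0x800009262e) (nat_lit 51))))
 (.n (.n (.p (nat_lit 0x23251ffd02) (nat_lit 0x54ea00) (nat_lit 16))
 (.p (nat_lit 0x22ac22aa22a822a622a2441106) (nat_lit 0x1000010021) (nat_lit 52)))
 (.n (.p (nat_lit 0x43a122f02) (nat_lit 0x340407) (nat_lit 1))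
 (.p (nat_lit 0x5e7c376502) (nat_lit 0xa004a800) (nat_lit 47)))))
 (.n (.n (.n (.p (nat_lit 0x2c154f02) (nat_lit 0x100600) (nat_lit 1))
 (.p (nat_lit 0x4da44da24da04d9e4d9c4ead06) (nat_lit 0x1000001041b) (nat_lit 51)))
 (.n (.p (nat_lit 0x1960212d02) (nat_lit 0x400705) (nat_lit 4))
 (.p (nat_lit 0x5d3508ef02) (nat_lit 0x180060000100) (nat_lit 39))))
 (.n (.n (.p (nat_lit 0x14fd125d02) (nat_lit 0x240402) (nat_lit 15))
 (.p (nat_lit 0x429640d302) (nat_lit 0x540627) (nat_lit 5)))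
 (.n (.p (nat_lit 0x43f643f443f243f043ec512706) (nat_lit 0x100004e90d) (nat_lit 52))
 (.p (nat_lit 0x1daa600d02) (nat_lit 0x405aa0b54800300000600) (nat_lit 49))))))
 (.n (.n (.n (.n (.p (nat_lit 0xe330b3102) (nat_lit 0x10e300) (nat_lit 16))
 (.p (nat_lit 0x283549302) (nat_lit 0x100a15) (nat_lit 30)))
 (.n (.p (nat_lit 0x1b9c1b9a1b981b96194f194d06) (nat_lit 0x1800014704) (nat_lit 52))
 (.p (nat_lit 0x1e201e001de01d80143017306) (nat_lit 0xa1070d) (nat_lit 26))))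
 (.n (.n (.p (nat_lit 0x2b151c1702) (nat_lit 0x4801) (nat_lit 16))
 (.p (nat_lit 0x3de193502) (nat_lit 0x723) (nat_lit 1)))
 (.n (.p (nat_lit 0x332a2ccf02) (nat_lit 0x400a09) (nat_lit 5))
 (.p (nat_lit 0x181c5f0d02) (nat_lit 0x3a2530344000100000600) (nat_lit 50)))))
 (.n (.n (.n (.p (nat_lit 0x8e1a6502) (nat_lit 0x440800) (nat_lit 1))
 (.p (nat_lit 0x3fc63fc43fc23fc03fbe1ebd06) (nat_lit 0x80008091c) (nat_lit 52)))
 (.n (.p (nat_lit 0x1c30502f02) (nat_lit 0x100806) (nat_lit 29))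
 (.p (nat_lit 0x5da55e3502) (nat_lit 0x800a0000500) (nat_lit 36))))
 (.n (.n (.p (nat_lit 0x91366102) (nat_lit 0x500203) (nat_lit 30))
 (.p (nat_lit 0x2a322a2e2a2c2a2a2a28167106) (nat_lit 0x800000462a) (nat_lit 52)))
 (.n (.p (nat_lit 0x28d6537302) (nat_lit 0x10030f) (nat_lit 29))
 (.p (nat_lit 0xbb2611102) (nat_lit 0x3425221b0000200040000) (nat_lit 50))))))

def c512_438 : Tr := .n c1024_438 c1024_950

def c256_182 : Tr := .n c512_182 c512_438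

def c128_54 : Tr := .n c256_54 c256_182

def c1024_118 : Tr :=
 .n (.n (.n (.n (.n (.n (.p (nat_lit 0x81006d006603) (nat_lit 0x42800002) (nat_lit 19))
 (.p (nat_lit 0xe6e613d02) (nat_lit 0x342a21d84000300040000) (nat_lit 49)))
 (.p (nat_lit 0x30982e4d02) (nat_lit 0x140310) (nat_lit 5)))
 (.n (.p (nat_lit 0x3898389638943890388e110f06) (nat_lit 0x2000082403) (nat_lit 51))
 (.p (nat_lit 0x439581902) (nat_lit 0x20092a) (nat_lit 30))))
 (.n (.n (.p (nat_lit 0x1d7b1a6702) (nat_lit 0x54a800) (nat_lit 16))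
 (.p (nat_lit 0x3b93243d02) (nat_lit 0x210b1c) (nat_lit 16)))
 (.n (.p (nat_lit 0x16a2169e169c169a16981d9d06) (nat_lit 0x80000cc806) (nat_lit 52))
 (.p (nat_lit 0x5e4025b702) (nat_lit 0x40050600) (nat_lit 47)))))
 (.n (.n (.n (.p (nat_lit 0xf750c8f02) (nat_lit 0x42300) (nat_lit 16))
 (.p (nat_lit 0x15fa15f615f415f215f02aed06) (nat_lit 0x8000052516) (nat_lit 52)))
 (.n (.p (nat_lit 0x211621122110210e210c247d06) (nat_lit 0x800000cb04) (nat_lit 52))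
 (.p (nat_lit 0x28a0286028402820009030706) (nat_lit 0x200a415) (nat_lit 26))))
 (.n (.n (.p (nat_lit 0x16ae16ac16aa16a41ee51ee306) (nat_lit 0x300008c901) (nat_lit 51))
 (.p (nat_lit 0x1ed2570b02) (nat_lit 0x500923) (nat_lit 29)))
 (.n (.p (nat_lit 0x3862346b02) (nat_lit 0x44030a) (nat_lit 5))
 (.p (nat_lit 0x181e5f3702) (nat_lit 0x3a6560c44000100000600) (nat_lit 50))))))
 (.n (.n (.n (.n (.p (nat_lit 0x7da07d607d207d005c505c106) (nat_lit 0xa000088100) (nat_lit 51))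
 (.p (nat_lit 0x7280bcb02) (nat_lit 0x40015) (nat_lit 4)))
 (.n (.p (nat_lit 0x3dd03dce3dcc3dca3dc83dc606) (nat_lit 0xcc104) (nat_lit 52))
 (.p (nat_lit 0x4a02492702) (nat_lit 0x72f) (nat_lit 5))))
 (.n (.n (.p (nat_lit 0x11622bf02) (nat_lit 0x240b00) (nat_lit 1))
 (.p (nat_lit 0x5656565456525650564e564c039e07) (nat_lit 0x122) (nat_lit 8)))
 (.n (.p (nat_lit 0x49c9190502) (nat_lit 0x14707) (nat_lit 16))
 (.p (nat_lit 0x5d7b1f0d02) (nat_lit 0x20080000900) (nat_lit 39)))))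
 (.n (.n (.n (.p (nat_lit 0x3216b902) (nat_lit 0x440600) (nat_lit 1))
 (.p (nat_lit 0x1c421c401c3e1c3c1c3a05df06) (nat_lit 0x1000009001c) (nat_lit 52)))
 (.n (.p (nat_lit 0x18121810180e180a1ac71abf06) (nat_lit 0x1100004e705) (nat_lit 52))
 (.p (nat_lit 0x5ccb5de302) (nat_lit 0x220020000200) (nat_lit 36))))
 (.n (.n (.p (nat_lit 0x20541a2302) (nat_lit 0x140902) (nat_lit 5))
 (.p (nat_lit 0x4a4a483502) (nat_lit 0x140728) (nat_lit 4)))
 (.n (.p (nat_lit 0xe820e800e7e0e7c0e7810dd06) (nat_lit 0x100008640e) (nat_lit 51))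
 (.p (nat_lit 0x8ec603902) (nat_lit 0x4a8162340800100040000) (nat_lit 49))))))

def c1024_630 : Tr :=
 .n (.n (.n (.n (.n (.n (.p (nat_lit 0x420041c042b03) (nat_lit 0x2800500029) (nat_lit 17))
 (.p (nat_lit 0x12a712970fe10fdd0d170d0d0a530a4f07a9079b04d904c761b80d) (nat_lit 0x322266c75000000000000) (nat_lit 33)))
 (.p (nat_lit 0x1e5a1e561e541e521e50410906) (nat_lit 0x80000cc412) (nat_lit 51)))
 (.n (.p (nat_lit 0x1fb41fb21fb01fae1fac232706) (nat_lit 0x80004ca03) (nat_lit 51))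
 (.p (nat_lit 0x33bc587302) (nat_lit 0x540a2c) (nat_lit 29))))
 (.n (.n (.p (nat_lit 0x211621122110210e210c1e9506) (nat_lit 0x800000ca00) (nat_lit 52))
 (.p (nat_lit 0x55ea55e855e655e455e255e0035a07) (nat_lit 0x40b1f) (nat_lit 8)))
 (.n (.p (nat_lit 0x16ae16ac16aa16a40e050e0306) (nat_lit 0x300008c307) (nat_lit 51))
 (.p (nat_lit 0x5c915e6702) (nat_lit 0x2c0000000800) (nat_lit 36)))))
 (.n (.n (.n (.p (nat_lit 0x12c212be12bc12ba12b810cb06) (nat_lit 0x8000082500) (nat_lit 52))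
 (.p (nat_lit 0x1e721e6e1e6c1e6a1e68420b06) (nat_lit 0x80000ce519) (nat_lit 51)))
 (.n (.p (nat_lit 0x1124224502) (nat_lit 0x100405) (nat_lit 4))
 (.p (nat_lit 0x5c915daf02) (nat_lit 0x2c0000000000) (nat_lit 37))))
 (.n (.n (.p (nat_lit 0x8b408b208b008ae08ac006308b707) (nat_lit 0x500102) (nat_lit 7))
 (.p (nat_lit 0x1bc01bbc1bba1bb81bb635c906) (nat_lit 0x8000096126) (nat_lit 51)))
 (.n (.p (nat_lit 0xe2474f02) (nat_lit 0x4030c) (nat_lit 1))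
 (.p (nat_lit 0x180a5fc302) (nat_lit 0x89832915800100000600) (nat_lit 49))))))
 (.n (.n (.n (.n (.p (nat_lit 0xbe00bde0bdc0bd809d109cd06) (nat_lit 0x2800048200) (nat_lit 51))
 (.p (nat_lit 0x1644543102) (nat_lit 0x615) (nat_lit 29)))
 (.n (.p (nat_lit 0xa4e0a4c0a4a0a441685168306) (nat_lit 0x3000004604) (nat_lit 52))
 (.p (nat_lit 0xec00ea00e400e20007038906) (nat_lit 0x1a0e305) (nat_lit 26))))
 (.n (.n (.p (nat_lit 0xf8e15a102) (nat_lit 0x140301) (nat_lit 4))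
 (.p (nat_lit 0xe820e800e7c0e7a0e7809eb06) (nat_lit 0x40000c6123) (nat_lit 51)))
 (.n (.p (nat_lit 0x2b04261d02) (nat_lit 0x400808) (nat_lit 4))
 (.p (nat_lit 0x5d63233b02) (nat_lit 0x1a0080000b00) (nat_lit 38)))))
 (.n (.n (.n (.p (nat_lit 0x1a421a401a3a1a381799179706) (nat_lit 0x60000d4700) (nat_lit 52))
 (.p (nat_lit 0x1018101610141012101014eb06) (nat_lit 0x100000c251c) (nat_lit 51)))
 (.n (.p (nat_lit 0xfd223a702) (nat_lit 0x540306) (nat_lit 5))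
 (.p (nat_lit 0x5d275e1902) (nat_lit 0x260060000400) (nat_lit 37))))
 (.n (.n (.p (nat_lit 0x25b618f102) (nat_lit 0x240b02) (nat_lit 5))
 (.p (nat_lit 0x2348234423422340233e0b5b06) (nat_lit 0x800001622a) (nat_lit 51)))
 (.n (.p (nat_lit 0x1bde532102) (nat_lit 0x20080e) (nat_lit 29))
 (.p (nat_lit 0x16a660b302) (nat_lit 0x350521a84000000040600) (nat_lit 50))))))

def c512_118 : Tr := .n c1024_118 c1024_630

def c1024_374 : Tr :=
 .n (.n (.n (.n (.n (.n (.p (nat_lit 0x1a0019801a703) (nat_lit 0x880050000a) (nat_lit 17))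
 (.p (nat_lit 0x1f0a617702) (nat_lit 0x340c6ab84000300040600) (nat_lit 49)))
 (.p (nat_lit 0x38e8357f02) (nat_lit 0x500411) (nat_lit 4)))
 (.n (.p (nat_lit 0x18f618f418f018ee18ec167b06) (nat_lit 0x4000096603) (nat_lit 51))
 (.p (nat_lit 0x2936293429322930292e046d293907) (nat_lit 0x54032b) (nat_lit 7))))
 (.n (.n (.p (nat_lit 0x1d321d2e1d2c1d2a1d2800091d3107) (nat_lit 0x440900) (nat_lit 7))
 (.p (nat_lit 0x335d335102) (nat_lit 0x50aa1e) (nat_lit 16)))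
 (.n (.p (nat_lit 0xb3e04eb02) (nat_lit 0x200207) (nat_lit 4))
 (.p (nat_lit 0x5d155e5902) (nat_lit 0x80040000700) (nat_lit 37)))))
 (.n (.n (.n (.p (nat_lit 0x111b0df902) (nat_lit 0x212400) (nat_lit 16))
 (.p (nat_lit 0x3549353d02) (nat_lit 0x48018) (nat_lit 16)))
 (.n (.p (nat_lit 0x26408d902) (nat_lit 0x400105) (nat_lit 1))
 (.p (nat_lit 0x3aa03a803a603a40309000106) (nat_lit 0x804123) (nat_lit 26))))
 (.n (.n (.p (nat_lit 0x236c236a2368236221ad21ab06) (nat_lit 0x3000002a01) (nat_lit 52))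
 (.p (nat_lit 0x27ac296102) (nat_lit 0x140124) (nat_lit 5)))
 (.n (.p (nat_lit 0x3f183c8d02) (nat_lit 0x54020b) (nat_lit 5))
 (.p (nat_lit 0xba85f7702) (nat_lit 0x3aa074b50000200040000) (nat_lit 49))))))
 (.n (.n (.n (.n (.p (nat_lit 0xa33072302) (nat_lit 0x354100) (nat_lit 16))
 (.p (nat_lit 0x410d124302) (nat_lit 0x152415) (nat_lit 16)))
 (.n (.p (nat_lit 0x111a1e1902) (nat_lit 0x200404) (nat_lit 4))
 (.p (nat_lit 0x6158e902) (nat_lit 0x400202) (nat_lit 28))))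
 (.n (.n (.p (nat_lit 0x268c268a268826862684074d06) (nat_lit 0x800050001) (nat_lit 51))
 (.p (nat_lit 0x742116102) (nat_lit 0x140023) (nat_lit 5)))
 (.n (.p (nat_lit 0x22c606f902) (nat_lit 0x40a07) (nat_lit 4))
 (.p (nat_lit 0x5d7521d502) (nat_lit 0x80080000a00) (nat_lit 39)))))
 (.n (.n (.n (.p (nat_lit 0x18ba18b818b618b218b0162506) (nat_lit 0x2000012700) (nat_lit 52))
 (.p (nat_lit 0xaa20aa00a9e0a9c0a9a087d06) (nat_lit 0x80008a11c) (nat_lit 51)))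
 (.n (.p (nat_lit 0x1174aa502) (nat_lit 0x200006) (nat_lit 30))
 (.p (nat_lit 0x5cf55dfd02) (nat_lit 0x280040000300) (nat_lit 36))))
 (.n (.n (.p (nat_lit 0x23242320231e231c231a0061232307) (nat_lit 0x440a02) (nat_lit 7))
 (.p (nat_lit 0x43f57a702) (nat_lit 0x50012a) (nat_lit 30)))
 (.n (.p (nat_lit 0x66e066c066a06661383137f06) (nat_lit 0x280008450e) (nat_lit 51))
 (.p (nat_lit 0x1ae6607902) (nat_lit 0x4688ae154000200000600) (nat_lit 50))))))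

def c1024_886 : Tr :=
 .n (.n (.n (.n (.n (.p (nat_lit 0x64c064102) (nat_lit 0x40000) (nat_lit 5))
 (.p (nat_lit 0x4a2c44f302) (nat_lit 0x440713) (nat_lit 4)))
 (.n (.p (nat_lit 0x129c129a12981296129425c906) (nat_lit 0x1000004ab03) (nat_lit 52))
 (.p (nat_lit 0x3f2c414102) (nat_lit 0x44022e) (nat_lit 5))))
 (.n (.n (.p (nat_lit 0x22ac22aa22a422a21ff91ff706) (nat_lit 0x6000050a00) (nat_lit 52))
 (.p (nat_lit 0x4344561d02) (nat_lit 0xb20) (nat_lit 29)))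
 (.n (.p (nat_lit 0x141814161412141010d510cf06) (nat_lit 0x4800082407) (nat_lit 51))
 (.p (nat_lit 0x5e76397b02) (nat_lit 0x80042800) (nat_lit 48)))))
 (.n (.n (.n (.p (nat_lit 0x14ba14b814b614b414b2121d06) (nat_lit 0x800056500) (nat_lit 51))
 (.p (nat_lit 0x49e2465f02) (nat_lit 0x10071a) (nat_lit 4)))
 (.n (.p (nat_lit 0x1800228102) (nat_lit 0x140605) (nat_lit 5))
 (.p (nat_lit 0x5dca333102) (nat_lit 0x2000e100) (nat_lit 48))))
 (.n (.n (.p (nat_lit 0x10fe188102) (nat_lit 0x402) (nat_lit 4))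
 (.p (nat_lit 0x1e8a1e881e861e841e803df506) (nat_lit 0x10000d6127) (nat_lit 52)))
 (.n (.p (nat_lit 0x148504102) (nat_lit 0x40080d) (nat_lit 1))
 (.p (nat_lit 0xd0e5ff902) (nat_lit 0x466b80b44000300000000) (nat_lit 49))))))
 (.n (.n (.n (.n (.p (nat_lit 0xd940d920d900d8e0b310b2f06) (nat_lit 0x180008e300) (nat_lit 51))
 (.p (nat_lit 0x1eb6547f02) (nat_lit 0x300915) (nat_lit 29)))
 (.n (.p (nat_lit 0xc200df00c71e5d1fc305) (nat_lit 0xac800704) (nat_lit 9))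
 (.p (nat_lit 0x1a0019e019c019a014b023906) (nat_lit 0x281620a) (nat_lit 26))))
 (.n (.n (.p (nat_lit 0x352afb02) (nat_lit 0x500801) (nat_lit 30))
 (.p (nat_lit 0x165c119b02) (nat_lit 0x623) (nat_lit 5)))
 (.n (.p (nat_lit 0x38d530f102) (nat_lit 0x112409) (nat_lit 16))
 (.p (nat_lit 0x129e5eed02) (nat_lit 0x4a1d84344000500000000) (nat_lit 49)))))
 (.n (.n (.n (.p (nat_lit 0x1be718f902) (nat_lit 0x4800) (nat_lit 16))
 (.p (nat_lit 0x1d621d601d5c1d5a1d58030d1d5f07) (nat_lit 0x34081c) (nat_lit 7)))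
 (.n (.p (nat_lit 0x1194ff902) (nat_lit 0x340706) (nat_lit 30))
 (.p (nat_lit 0x5e2c336502) (nat_lit 0x6000e500) (nat_lit 48))))
 (.n (.n (.p (nat_lit 0xa1e0a1c0a1a0a16009a008b00870a190a1509) (nat_lit 0x1040103) (nat_lit 10))
 (.p (nat_lit 0x115a11581156115411520f8b06) (nat_lit 0x1000004032a) (nat_lit 51)))
 (.n (.p (nat_lit 0x272242b02) (nat_lit 0x500b0e) (nat_lit 1))
 (.p (nat_lit 0x206c60f902) (nat_lit 0x460d623a4000400000600) (nat_lit 49))))))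

def c512_374 : Tr := .n c1024_374 c1024_886

def c256_118 : Tr := .n c512_118 c512_374

def c1024_246 : Tr :=
 .n (.n (.n (.n (.n (.n (.p (nat_lit 0xec00ea00e600ef04) (nat_lit 0x1a000400005) (nat_lit 17))
 (.p (nat_lit 0x2336615902) (nat_lit 0x352829d84000500000600) (nat_lit 49)))
 (.p (nat_lit 0x35ec35e835e635e435e232e506) (nat_lit 0x8000048910) (nat_lit 51)))
 (.n (.p (nat_lit 0x39df13bb02) (nat_lit 0x2503) (nat_lit 16))
 (.p (nat_lit 0x230c14b102) (nat_lit 0x540a2a) (nat_lit 4))))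
 (.n (.n (.p (nat_lit 0x1e661e641e601e5c1bc91bc506) (nat_lit 0x500000e900) (nat_lit 51))
 (.p (nat_lit 0xeca0ec60ec40ec20ec02c0906) (nat_lit 0x80000ca91d) (nat_lit 51)))
 (.n (.p (nat_lit 0x228822822280227e1f011eff06) (nat_lit 0xc00008c906) (nat_lit 51))
 (.p (nat_lit 0x5e4e1ad302) (nat_lit 0xa0054600) (nat_lit 48)))))
 (.n (.n (.n (.p (nat_lit 0x101a1018101410100dfb0df706) (nat_lit 0x5000082400) (nat_lit 51))
 (.p (nat_lit 0x18ea18e818e418e218e0327f06) (nat_lit 0x4000056517) (nat_lit 51)))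
 (.n (.p (nat_lit 0x437725d302) (nat_lit 0x442b04) (nat_lit 16))
 (.p (nat_lit 0x310030e030a0308038b000106) (nat_lit 0x181401c) (nat_lit 26))))
 (.n (.n (.p (nat_lit 0xe760e740e700e6e0e6c204d06) (nat_lit 0x40000c6901) (nat_lit 52))
 (.p (nat_lit 0x3a7572b02) (nat_lit 0x300b23) (nat_lit 30)))
 (.n (.p (nat_lit 0x3ae8351f02) (nat_lit 0x300a0a) (nat_lit 4))
 (.p (nat_lit 0x23405f5902) (nat_lit 0x1a2262350000500000600) (nat_lit 50))))))
 (.n (.n (.n (.n (.p (nat_lit 0x9080906090409000727071f06) (nat_lit 0x11000046100) (nat_lit 51))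
 (.p (nat_lit 0xd280d240d220d200d1e10ef06) (nat_lit 0x8000000415) (nat_lit 52)))
 (.n (.p (nat_lit 0x3ec63ec43ec23ec03ebe0ced06) (nat_lit 0x1000004a204) (nat_lit 51))
 (.p (nat_lit 0x340030002e002c0009016f06) (nat_lit 0x2012001) (nat_lit 26))))
 (.n (.n (.p (nat_lit 0x16b722c102) (nat_lit 0x340b00) (nat_lit 15))
 (.p (nat_lit 0x50b44dad02) (nat_lit 0x240822) (nat_lit 5)))
 (.n (.p (nat_lit 0x1d3c057102) (nat_lit 0x440807) (nat_lit 4))
 (.p (nat_lit 0x5e94458702) (nat_lit 0x48a00) (nat_lit 48)))))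
 (.n (.n (.n (.p (nat_lit 0x1790178e178c1788178616b506) (nat_lit 0x20000d4600) (nat_lit 52))
 (.p (nat_lit 0x198619841982197e197c073906) (nat_lit 0x20000ce01c) (nat_lit 51)))
 (.n (.p (nat_lit 0x1e7e1e7c1e7a1e761e741c2706) (nat_lit 0x2000016805) (nat_lit 52))
 (.p (nat_lit 0x5d510baf02) (nat_lit 0x2c0080000200) (nat_lit 39))))
 (.n (.n (.p (nat_lit 0x79e079c079a0798079421b706) (nat_lit 0x1000002a02) (nat_lit 52))
 (.p (nat_lit 0x4fea4e7702) (nat_lit 0x200729) (nat_lit 5)))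
 (.n (.p (nat_lit 0xd100d0c0d0a0d080d06123d06) (nat_lit 0x800004640e) (nat_lit 52))
 (.p (nat_lit 0x1148605702) (nat_lit 0x506272b31000400040000) (nat_lit 50))))))

def c1024_758 : Tr :=
 .n (.n (.n (.n (.n (.n (.p (nat_lit 0x50805040502050004fe04e306) (nat_lit 0x8000006000) (nat_lit 52))
 (.p (nat_lit 0x1ae261d702) (nat_lit 0x542266c0c800200000600) (nat_lit 50)))
 (.p (nat_lit 0x436e53e902) (nat_lit 0x40b12) (nat_lit 29)))
 (.n (.p (nat_lit 0x1ade1adc1ada1ad81ad4246b06) (nat_lit 0x1000010b03) (nat_lit 52))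
 (.p (nat_lit 0x38a238a0389e389c389a37e706) (nat_lit 0x1000000432d) (nat_lit 51))))
 (.n (.n (.p (nat_lit 0x1ff221cd02) (nat_lit 0x40a00) (nat_lit 4))
 (.p (nat_lit 0x3df03f5b02) (nat_lit 0x540120) (nat_lit 5)))
 (.n (.p (nat_lit 0x16a0169e169c169a0f730f6906) (nat_lit 0x108000cc307) (nat_lit 52))
 (.p (nat_lit 0x5d4d1adb02) (nat_lit 0x60000800) (nat_lit 38)))))
 (.n (.n (.n (.p (nat_lit 0x13d710c702) (nat_lit 0x214500) (nat_lit 16))
 (.p (nat_lit 0x260440702) (nat_lit 0x20001a) (nat_lit 1)))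
 (.n (.p (nat_lit 0x152448dd02) (nat_lit 0x440505) (nat_lit 29))
 (.p (nat_lit 0x5dba3bc502) (nat_lit 0x60050000) (nat_lit 47))))
 (.n (.n (.p (nat_lit 0x2f502f4e2f4c2f4a2f482f4600660cd50cd10ccd0a) (nat_lit 0x15940202) (nat_lit 31))
 (.p (nat_lit 0x3b9e395302) (nat_lit 0x200b26) (nat_lit 5)))
 (.n (.p (nat_lit 0x4a72448d02) (nat_lit 0x30080c) (nat_lit 5))
 (.p (nat_lit 0x13f25fd702) (nat_lit 0x3842a1c35000500040000) (nat_lit 49))))))
 (.n (.n (.n (.n (.p (nat_lit 0xd0309d502) (nat_lit 0x456200) (nat_lit 16))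
 (.p (nat_lit 0x49e1191d02) (nat_lit 0x14715) (nat_lit 16)))
 (.n (.p (nat_lit 0x4cc04ca04c804c604c417f306) (nat_lit 0x800040604) (nat_lit 52))
 (.p (nat_lit 0x59e459e259e059de59da0003011e07) (nat_lit 0x112706) (nat_lit 25))))
 (.n (.n (.p (nat_lit 0x46813a902) (nat_lit 0x300501) (nat_lit 1))
 (.p (nat_lit 0xd320d300d2e0d2c0d2a0b5106) (nat_lit 0x10000080223) (nat_lit 51)))
 (.n (.p (nat_lit 0x520652045202520051fe51fc019007) (nat_lit 0x40209) (nat_lit 8))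
 (.p (nat_lit 0x1aea5ed302) (nat_lit 0x4a1a36344000200000600) (nat_lit 50)))))
 (.n (.n (.n (.p (nat_lit 0x1af61af01aee1aec190118ff06) (nat_lit 0xc000000800) (nat_lit 51))
 (.p (nat_lit 0x192e192c192a192803340311030f1933193109) (nat_lit 0x2c0071c) (nat_lit 10)))
 (.n (.p (nat_lit 0x13e2250f02) (nat_lit 0x200506) (nat_lit 4))
 (.p (nat_lit 0x5c995e2502) (nat_lit 0x240000000500) (nat_lit 37))))
 (.n (.n (.p (nat_lit 0x76a34d102) (nat_lit 0x340003) (nat_lit 29))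
 (.p (nat_lit 0xf890cbb02) (nat_lit 0x44022a) (nat_lit 15)))
 (.n (.p (nat_lit 0x3dc43dc23dc03dbc3dba1ea906) (nat_lit 0x200000c90e) (nat_lit 52))
 (.p (nat_lit 0x64860db02) (nat_lit 0x340a621b0000000040000) (nat_lit 50))))))

def c512_246 : Tr := .n c1024_246 c1024_758

def c1024_502 : Tr :=
 .n (.n (.n (.n (.n (.n (.p (nat_lit 0x310030c030a031304) (nat_lit 0x1600040001c) (nat_lit 17))
 (.p (nat_lit 0xe76619b02) (nat_lit 0x340aa5c14800300040000) (nat_lit 49)))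
 (.p (nat_lit 0x3b7a35a502) (nat_lit 0x200b11) (nat_lit 5)))
 (.n (.p (nat_lit 0x21c41b9702) (nat_lit 0x200a03) (nat_lit 4))
 (.p (nat_lit 0x2fac31a702) (nat_lit 0x44022c) (nat_lit 5))))
 (.n (.n (.p (nat_lit 0x1fee1fec1fea1fe81fe61d3306) (nat_lit 0x100000d6900) (nat_lit 51))
 (.p (nat_lit 0x3636381702) (nat_lit 0x24011f) (nat_lit 4)))
 (.n (.p (nat_lit 0xca20ca00c9e0c9c0158014b01410ca50c9b09) (nat_lit 0x2840207) (nat_lit 10))
 (.p (nat_lit 0x5d61197902) (nat_lit 0x1c0080000700) (nat_lit 39)))))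
 (.n (.n (.n (.p (nat_lit 0x11ee11ec11ea11e60f670f5f06) (nat_lit 0x110000d2400) (nat_lit 52))
 (.p (nat_lit 0xbd40bd20bce0bcc0bca3b8906) (nat_lit 0x4000080b18) (nat_lit 52)))
 (.n (.p (nat_lit 0x464e464c464a46484646464406) (nat_lit 0xca205) (nat_lit 52))
 (.p (nat_lit 0x4645c3b02) (nat_lit 0x10062a) (nat_lit 27))))
 (.n (.n (.p (nat_lit 0x5fc2c8702) (nat_lit 0x200002) (nat_lit 29))
 (.p (nat_lit 0x582ebb02) (nat_lit 0x40125) (nat_lit 1)))
 (.n (.p (nat_lit 0x14a426702) (nat_lit 0x54060b) (nat_lit 1))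
 (.p (nat_lit 0x1db05f9502) (nat_lit 0x581a302a4000300000600) (nat_lit 50))))))
 (.n (.n (.n (.n (.p (nat_lit 0xaea0ae80ae60ae40873087106) (nat_lit 0x1800090200) (nat_lit 52))
 (.p (nat_lit 0x139f139302) (nat_lit 0x408515) (nat_lit 16)))
 (.n (.p (nat_lit 0x13d013cc13ca13c600d200bd00b713cf13c909) (nat_lit 0x2100504) (nat_lit 10))
 (.p (nat_lit 0x91594902) (nat_lit 0x500603) (nat_lit 28))))
 (.n (.n (.p (nat_lit 0xb6427bd02) (nat_lit 0x300201) (nat_lit 29))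
 (.p (nat_lit 0xfde0fda0fd80fd60fd4089106) (nat_lit 0x8000008123) (nat_lit 52)))
 (.n (.p (nat_lit 0x25b1257502) (nat_lit 0x548b07) (nat_lit 16))
 (.p (nat_lit 0x5cd55eb302) (nat_lit 0x180020000b00) (nat_lit 36)))))
 (.n (.n (.n (.p (nat_lit 0x196b162702) (nat_lit 0x316700) (nat_lit 16))
 (.p (nat_lit 0x3a2139902) (nat_lit 0x10051c) (nat_lit 1)))
 (.n (.p (nat_lit 0xa40237702) (nat_lit 0x440106) (nat_lit 4))
 (.p (nat_lit 0x5e0810f102) (nat_lit 0xa0002300) (nat_lit 47))))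
 (.n (.n (.p (nat_lit 0x33b1232502) (nat_lit 0x548a02) (nat_lit 16))
 (.p (nat_lit 0x536053405320530052e09fb06) (nat_lit 0x1000004c12a) (nat_lit 52)))
 (.n (.p (nat_lit 0x163a52fb02) (nat_lit 0x10060e) (nat_lit 29))
 (.p (nat_lit 0x2076609502) (nat_lit 0x342529ca4000400000600) (nat_lit 50))))))

def c1024_1014 : Tr :=
 .n (.n (.n (.n (.n (.p (nat_lit 0x72d065102) (nat_lit 0x244000) (nat_lit 16))
 (.p (nat_lit 0x500c4be102) (nat_lit 0x240714) (nat_lit 4)))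
 (.n (.p (nat_lit 0xb53c6b02) (nat_lit 0x40004) (nat_lit 30))
 (.p (nat_lit 0x4930492e492a4928492643a506) (nat_lit 0x400004eb2e) (nat_lit 51))))
 (.n (.n (.p (nat_lit 0x23d623d423d223d023ce23cc06) (nat_lit 0xeb00) (nat_lit 52))
 (.p (nat_lit 0x385563502) (nat_lit 0x40521) (nat_lit 30)))
 (.n (.p (nat_lit 0x14c614c414c214c0122b122906) (nat_lit 0x18000d6407) (nat_lit 51))
 (.p (nat_lit 0x5ccf5e8502) (nat_lit 0x1e0020000900) (nat_lit 37)))))
 (.n (.n (.n (.p (nat_lit 0x15e015dc15da15d81557155306) (nat_lit 0x14000010600) (nat_lit 52))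
 (.p (nat_lit 0x50564cd502) (nat_lit 0x30081b) (nat_lit 4)))
 (.n (.p (nat_lit 0x1daa1da81da41da21da0195f06) (nat_lit 0x4000012705) (nat_lit 52))
 (.p (nat_lit 0x5dd4073102) (nat_lit 0x80046100) (nat_lit 47))))
 (.n (.n (.p (nat_lit 0x14fe18ab02) (nat_lit 0x340502) (nat_lit 5))
 (.p (nat_lit 0x44b0478302) (nat_lit 0x440028) (nat_lit 4)))
 (.n (.p (nat_lit 0xc040c000bfe0bfc0bfa0e1506) (nat_lit 0x800008a30e) (nat_lit 52))
 (.p (nat_lit 0x12a8601902) (nat_lit 0x46ab80b44000500000000) (nat_lit 50))))))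
 (.n (.n (.n (.n (.p (nat_lit 0xe8c0e8a0e880e860c990c8f06) (nat_lit 0x10800040300) (nat_lit 51))
 (.p (nat_lit 0x22e822e622e422e022de028522e307) (nat_lit 0x240a15) (nat_lit 7)))
 (.n (.p (nat_lit 0x1ab41fd302) (nat_lit 0x240704) (nat_lit 4))
 (.p (nat_lit 0x2145a8f02) (nat_lit 0x50060e) (nat_lit 27))))
 (.n (.n (.p (nat_lit 0x18ae18aa18a618a41d851d8106) (nat_lit 0xa0000ca801) (nat_lit 51))
 (.p (nat_lit 0x1c0011c502) (nat_lit 0x100823) (nat_lit 4)))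
 (.n (.p (nat_lit 0x33d02d8f02) (nat_lit 0x300b09) (nat_lit 4))
 (.p (nat_lit 0x1db05f1702) (nat_lit 0x3a2260b50000300000600) (nat_lit 50)))))
 (.n (.n (.n (.p (nat_lit 0x1cc61cc41cbe1cbc1a631a6106) (nat_lit 0x60000c8800) (nat_lit 51))
 (.p (nat_lit 0x30b558502) (nat_lit 0x200a1c) (nat_lit 30)))
 (.n (.p (nat_lit 0x154815461544154215401c3906) (nat_lit 0x1000000c806) (nat_lit 51))
 (.p (nat_lit 0x5c975e3902) (nat_lit 0x260000000600) (nat_lit 37))))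
 (.n (.n (.p (nat_lit 0xe3e1c9d02) (nat_lit 0x100303) (nat_lit 5))
 (.p (nat_lit 0x1948145f02) (nat_lit 0x40072a) (nat_lit 5)))
 (.n (.p (nat_lit 0x2ae0277302) (nat_lit 0x44050f) (nat_lit 4))
 (.p (nat_lit 0x181c611d02) (nat_lit 0x35486a3a4000100000600) (nat_lit 50))))))

def c512_502 : Tr := .n c1024_502 c1024_1014

def c256_246 : Tr := .n c512_246 c512_502

def c128_118 : Tr := .n c256_118 c256_246

def c64_54 : Tr := .n c128_54 c128_118

def c32_22 : Tr := .n c64_22 c64_54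

def c16_6 : Tr := .n c32_6 c32_22

def b6 : Tr := c16_6

theorem hb4_6 : allp (tst G49 true (getA DT)) b6 = true := by decide +kernel

end Vale.Agent.P032.H437.Ev2
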