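import Vale.Agent.P032.H437.Ev2.T

namespace Vale.Agent.P032.H437.Ev2
open Vale.Agent.P032.H859.Rup Vale.Agent.P032.H437

def c1024_7 : Tr :=
 .n (.n (.n (.n (.n (.n (.p (nat_lit 0x1b00190017000d04) (nat_lit 0x42d000000) (nat_lit 21))
 (.p (nat_lit 0x21cc611f02) (nat_lit 0x35056a3a4000400040600) (nat_lit 49)))
 (.p (nat_lit 0x2aeb2adf02) (nat_lit 0x34650f) (nat_lit 16)))
 (.n (.p (nat_lit 0x3788378637843780377e0e4106) (nat_lit 0x2000080303) (nat_lit 51))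
 (.p (nat_lit 0x325632543252324e1945194106) (nat_lit 0x280001472a) (nat_lit 52))))
 (.n (.n (.p (nat_lit 0x1cea1ce81ce61ce41ce21ce006) (nat_lit 0x4c800) (nat_lit 52))
 (.p (nat_lit 0x218e558b02) (nat_lit 0x500a1c) (nat_lit 29)))
 (.n (.p (nat_lit 0x207420722070206e206a1c3106) (nat_lit 0x1000014806) (nat_lit 52))
 (.p (nat_lit 0x5e382a0902) (nat_lit 0x42600) (nat_lit 47)))))
 (.n (.n (.n (.p (nat_lit 0xea60ea40ea20ea00e9c0c9106) (nat_lit 0x1000042300) (nat_lit 52))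
 (.p (nat_lit 0x45ea45e645e445e022e722e106) (nat_lit 0x900004ea15) (nat_lit 51)))
 (.n (.p (nat_lit 0x1ab81ab61ab41ab21ab000bf1abb07) (nat_lit 0x540704) (nat_lit 7))
 (.p (nat_lit 0x23a5a9f02) (nat_lit 0x10080e) (nat_lit 27))))
 (.n (.n (.p (nat_lit 0x18de18dc18da18d61d811d7d06) (nat_lit 0x28000d4801) (nat_lit 51))
 (.p (nat_lit 0x1c061c041c021c001bfe03ab1c0907) (nat_lit 0x500823) (nat_lit 7)))
 (.n (.p (nat_lit 0x341a2d9502) (nat_lit 0x40b09) (nat_lit 4))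
 (.p (nat_lit 0x15345f1b02) (nat_lit 0x3a2274b50000000000600) (nat_lit 49))))))
 (.n (.n (.n (.n (.p (nat_lit 0x74f064f02) (nat_lit 0x14c000) (nat_lit 16))
 (.p (nat_lit 0x50484bed02) (nat_lit 0x200814) (nat_lit 4)))
 (.n (.p (nat_lit 0x7781f3102) (nat_lit 0x440004) (nat_lit 5))
 (.p (nat_lit 0x459448ed02) (nat_lit 0x14012f) (nat_lit 5))))
 (.n (.n (.p (nat_lit 0x23e223de23dc23da215d215506) (nat_lit 0x880008eb00) (nat_lit 52))
 (.p (nat_lit 0x49f0473b02) (nat_lit 0x200721) (nat_lit 4)))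
 (.n (.p (nat_lit 0x4f15122902) (nat_lit 0x56407) (nat_lit 16))
 (.p (nat_lit 0x5e821c2502) (nat_lit 0x20016900) (nat_lit 48)))))
 (.n (.n (.n (.p (nat_lit 0x15fa15f615f415f215f0155506) (nat_lit 0x8000012600) (nat_lit 52))
 (.p (nat_lit 0x50ae4ce502) (nat_lit 0x54081b) (nat_lit 4)))
 (.n (.p (nat_lit 0x249624942492248e248c195d06) (nat_lit 0x2000096705) (nat_lit 51))
 (.p (nat_lit 0x5d915ddb02) (nat_lit 0x1c00a0000100) (nat_lit 36))))
 (.n (.n (.p (nat_lit 0x32223220321e321c321814fb06) (nat_lit 0x10000c4502) (nat_lit 52))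
 (.p (nat_lit 0x4b9144a902) (nat_lit 0x4c028) (nat_lit 16)))
 (.n (.p (nat_lit 0xf7407b902) (nat_lit 0x4030e) (nat_lit 4))
 (.p (nat_lit 0x181c601f02) (nat_lit 0x4099a2354800100000600) (nat_lit 50))))))

def c1024_519 : Tr :=
 .n (.n (.n (.n (.n (.n (.p (nat_lit 0x306031702) (nat_lit 0x80060001c) (nat_lit 17))
 (.p (nat_lit 0x64a619f02) (nat_lit 0x380aa5c15000000040000) (nat_lit 50)))
 (.p (nat_lit 0x916091409120910090e3b7706) (nat_lit 0x800086b11) (nat_lit 51)))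
 (.n (.p (nat_lit 0x913ae102) (nat_lit 0x500a03) (nat_lit 30))
 (.p (nat_lit 0x30ad2faf02) (nat_lit 0x54022c) (nat_lit 15))))
 (.n (.n (.p (nat_lit 0x20171d2902) (nat_lit 0x44900) (nat_lit 16))
 (.p (nat_lit 0x37123710370e370c3708363506) (nat_lit 0x10000ca11f) (nat_lit 52)))
 (.n (.p (nat_lit 0x7e607e407e007de0ca10c9b06) (nat_lit 0x480004a207) (nat_lit 51))
 (.p (nat_lit 0x5d53181302) (nat_lit 0x2a0080000700) (nat_lit 38)))))
 (.n (.n (.n (.p (nat_lit 0x122d0f6102) (nat_lit 0x240400) (nat_lit 16))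
 (.p (nat_lit 0x2863bdd02) (nat_lit 0x340b18) (nat_lit 1)))
 (.n (.p (nat_lit 0x46910cf302) (nat_lit 0x24a205) (nat_lit 16))
 (.p (nat_lit 0x43f5c4d02) (nat_lit 0x50072a) (nat_lit 28))))
 (.n (.n (.p (nat_lit 0x2ca02c9e2c9c2c9a2c98060306) (nat_lit 0x10000084002) (nat_lit 52))
 (.p (nat_lit 0x1a421a401a3e1a3a1a382ebf06) (nat_lit 0x20000d4125) (nat_lit 52)))
 (.n (.p (nat_lit 0x4271426502) (nat_lit 0x44460b) (nat_lit 16))
 (.p (nat_lit 0x248d248921dd21cf1f171f0f1c4f1c3b197f197516af169f5f980d) (nat_lit 0x88bb0155800000040600) (nat_lit 33))))))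
 (.n (.n (.n (.n (.p (nat_lit 0xb2f087102) (nat_lit 0x200) (nat_lit 15))
 (.p (nat_lit 0x14d60bfd02) (nat_lit 0x140515) (nat_lit 4)))
 (.n (.p (nat_lit 0x4140413c413a413813d113cd06) (nat_lit 0x14000084504) (nat_lit 51))
 (.p (nat_lit 0x90008e008c0086000500b706) (nat_lit 0x1116a03) (nat_lit 26))))
 (.n (.n (.p (nat_lit 0x27fa27f827f627f427f227f006) (nat_lit 0x12201) (nat_lit 52))
 (.p (nat_lit 0x16ac16aa16a816a60893088906) (nat_lit 0x1080008c123) (nat_lit 51)))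
 (.n (.p (nat_lit 0x281425eb02) (nat_lit 0x400208) (nat_lit 4))
 (.p (nat_lit 0x5eb2180102) (nat_lit 0x20052b00) (nat_lit 48)))))
 (.n (.n (.n (.p (nat_lit 0x1796197502) (nat_lit 0x240700) (nat_lit 4))
 (.p (nat_lit 0x30d551b02) (nat_lit 0x30051c) (nat_lit 30)))
 (.n (.p (nat_lit 0x4c564c544c524c504c4e4c4c06) (nat_lit 0xc8106) (nat_lit 52))
 (.p (nat_lit 0x5c950fd502) (nat_lit 0x280000000400) (nat_lit 38))))
 (.n (.n (.p (nat_lit 0x245e33c102) (nat_lit 0x100b02) (nat_lit 29))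
 (.p (nat_lit 0xcbd09fb02) (nat_lit 0x54012a) (nat_lit 15)))
 (.n (.p (nat_lit 0x1642530302) (nat_lit 0x50060e) (nat_lit 29))
 (.p (nat_lit 0x642609b02) (nat_lit 0x342529ca4000000040000) (nat_lit 50))))))

def c512_7 : Tr := .n c1024_7 c1024_519

def c1024_263 : Tr :=
 .n (.n (.n (.n (.n (.n (.p (nat_lit 0x10100ff00f003) (nat_lit 0x21a00005) (nat_lit 19))
 (.p (nat_lit 0x8f0615f02) (nat_lit 0x352829d84000100040000) (nat_lit 49)))
 (.p (nat_lit 0x33382e0302) (nat_lit 0x500a10) (nat_lit 5)))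
 (.n (.p (nat_lit 0x15081b7302) (nat_lit 0x240503) (nat_lit 4))
 (.p (nat_lit 0x2454136b02) (nat_lit 0x200b2a) (nat_lit 4))))
 (.n (.n (.p (nat_lit 0x1e701e6c1e6a1e681bcd1bc906) (nat_lit 0x1400008e900) (nat_lit 51))
 (.p (nat_lit 0x2d02303302) (nat_lit 0x30001e) (nat_lit 5)))
 (.n (.p (nat_lit 0x50ed1ef902) (nat_lit 0x2906) (nat_lit 16))
 (.p (nat_lit 0x5cb15e5102) (nat_lit 0xc0000000700) (nat_lit 37)))))
 (.n (.n (.n (.p (nat_lit 0x102410221020101e0dff0df506) (nat_lit 0x10800004400) (nat_lit 51))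
 (.p (nat_lit 0x32ee2f7102) (nat_lit 0x440917) (nat_lit 5)))
 (.n (.p (nat_lit 0xe343ab02) (nat_lit 0x5) (nat_lit 30))
 (.p (nat_lit 0x3a45b8b02) (nat_lit 0x20051c) (nat_lit 27))))
 (.n (.n (.p (nat_lit 0x154a1546154415421540204f06) (nat_lit 0x800004c901) (nat_lit 51))
 (.p (nat_lit 0x4edc4eda4ed84ed44ed2244906) (nat_lit 0x2000082b23) (nat_lit 52)))
 (.n (.p (nat_lit 0x3b34349502) (nat_lit 0x340a0a) (nat_lit 5))
 (.p (nat_lit 0xa445f5d02) (nat_lit 0x262530344000200000000) (nat_lit 49))))))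
 (.n (.n (.n (.n (.p (nat_lit 0x920091e091c09180727071f06) (nat_lit 0x11000048100) (nat_lit 51))
 (.p (nat_lit 0xd4c0d4a0d480d440d4210eb06) (nat_lit 0x2000082415) (nat_lit 51)))
 (.n (.p (nat_lit 0xfb50ce702) (nat_lit 0x240204) (nat_lit 15))
 (.p (nat_lit 0x2f589902) (nat_lit 0x200201) (nat_lit 28))))
 (.n (.n (.p (nat_lit 0x258922c102) (nat_lit 0x344b00) (nat_lit 16))
 (.p (nat_lit 0xeb20eb00eae0eac0eaa50b106) (nat_lit 0x8000c2822) (nat_lit 52)))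
 (.n (.p (nat_lit 0x1d451d3902) (nat_lit 0x244807) (nat_lit 16))
 (.p (nat_lit 0x5cdd5e9902) (nat_lit 0x100020000a00) (nat_lit 36)))))
 (.n (.n (.n (.p (nat_lit 0x17a316b502) (nat_lit 0x240600) (nat_lit 16))
 (.p (nat_lit 0x1da81da61da41da21da0073f06) (nat_lit 0x1000005201c) (nat_lit 52)))
 (.n (.p (nat_lit 0xb41d8902) (nat_lit 0x40805) (nat_lit 1))
 (.p (nat_lit 0x5da75df102) (nat_lit 0x600a0000200) (nat_lit 37))))
 (.n (.n (.p (nat_lit 0xd1a0d180d160d140d1221bf06) (nat_lit 0x10000006a02) (nat_lit 51))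
 (.p (nat_lit 0x506a579302) (nat_lit 0x100829) (nat_lit 29)))
 (.n (.p (nat_lit 0x154a1546154415421540123d06) (nat_lit 0x800004c40e) (nat_lit 51))
 (.p (nat_lit 0x1538605f02) (nat_lit 0x506272831000000000600) (nat_lit 49))))))

def c1024_775 : Tr :=
 .n (.n (.n (.n (.n (.n (.p (nat_lit 0x5120510050c050a04e504df06) (nat_lit 0x12000086000) (nat_lit 51))
 (.p (nat_lit 0x13ee61db02) (nat_lit 0x542266c0c800500040000) (nat_lit 49)))
 (.p (nat_lit 0x4550454e454c454a4548436f06) (nat_lit 0x8000c8b12) (nat_lit 52)))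
 (.n (.p (nat_lit 0x2080207c207a20782076247106) (nat_lit 0x8000014b03) (nat_lit 51))
 (.p (nat_lit 0x3bab3b1f02) (nat_lit 0x200a2d) (nat_lit 15))))
 (.n (.n (.p (nat_lit 0x1ff821d302) (nat_lit 0x340a00) (nat_lit 4))
 (.p (nat_lit 0x3df33de702) (nat_lit 0x4a120) (nat_lit 16)))
 (.n (.p (nat_lit 0x1db61db41db21db01dae0f6906) (nat_lit 0x800052307) (nat_lit 51))
 (.p (nat_lit 0x5d331c4d02) (nat_lit 0x1a0060000800) (nat_lit 41)))))
 (.n (.n (.n (.p (nat_lit 0x122013ef02) (nat_lit 0x240500) (nat_lit 4))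
 (.p (nat_lit 0x449d449102) (nat_lit 0x4801a) (nat_lit 16)))
 (.n (.p (nat_lit 0x4930492e492a49284926152306) (nat_lit 0x400004e505) (nat_lit 51))
 (.p (nat_lit 0x5d5b04d702) (nat_lit 0x220080000000) (nat_lit 40))))
 (.n (.n (.p (nat_lit 0x2fba2fb82fb62fb42fb22fb0006407) (nat_lit 0x302) (nat_lit 8))
 (.p (nat_lit 0x100c100a1008100610043ba506) (nat_lit 0x10000002b26) (nat_lit 52)))
 (.n (.p (nat_lit 0x4bb04bae4bac4baa4ba84cf506) (nat_lit 0x200008620d) (nat_lit 52))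
 (.p (nat_lit 0x1daa5fdf02) (nat_lit 0x3842a1c34000300000600) (nat_lit 49))))))
 (.n (.n (.n (.n (.p (nat_lit 0xd160d0a0b3303) (nat_lit 0x200300) (nat_lit 6))
 (.p (nat_lit 0x1a84545902) (nat_lit 0x240715) (nat_lit 29)))
 (.n (.p (nat_lit 0x8fe08fa08f808f608f417fb06) (nat_lit 0x80000c2604) (nat_lit 51))
 (.p (nat_lit 0x59f059ee59ea59e859e60007011e07) (nat_lit 0x30e906) (nat_lit 25))))
 (.n (.n (.p (nat_lit 0x2a6c2a6a2a682a662a6413a306) (nat_lit 0x800092501) (nat_lit 51))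
 (.p (nat_lit 0xf120f0e0f0c0f0a0f080b4f06) (nat_lit 0x8000090223) (nat_lit 52)))
 (.n (.p (nat_lit 0x18d520502) (nat_lit 0x440209) (nat_lit 30))
 (.p (nat_lit 0x13f45ed502) (nat_lit 0x4a1a22344000500040000) (nat_lit 49)))))
 (.n (.n (.n (.p (nat_lit 0x1b181b161b141b10190318fb06) (nat_lit 0x11000082800) (nat_lit 51))
 (.p (nat_lit 0x1a8c0ef102) (nat_lit 0x4071c) (nat_lit 4)))
 (.n (.p (nat_lit 0x63313e902) (nat_lit 0x500506) (nat_lit 15))
 (.p (nat_lit 0x5e2413f702) (nat_lit 0x40500) (nat_lit 46))))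
 (.n (.n (.p (nat_lit 0x3502350034fe34fc34fa34f806) (nat_lit 0x48003) (nat_lit 52))
 (.p (nat_lit 0x57ca57c857c657c457c257c0044007) (nat_lit 0x32a) (nat_lit 8)))
 (.n (.p (nat_lit 0x1e7534102) (nat_lit 0x4090e) (nat_lit 30))
 (.p (nat_lit 0x1da660dd02) (nat_lit 0x3505623a4000300000600) (nat_lit 49))))))

def c512_263 : Tr := .n c1024_263 c1024_775

def c256_7 : Tr := .n c512_7 c512_263

def c1024_135 : Tr :=
 .n (.n (.n (.n (.n (.n (.p (nat_lit 0x8c008a0088009304) (nat_lit 0x7000400003) (nat_lit 17))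
 (.p (nat_lit 0x13fc613f02) (nat_lit 0x352a21d84000500040000) (nat_lit 50)))
 (.p (nat_lit 0x30fe2e5902) (nat_lit 0x200410) (nat_lit 5)))
 (.n (.p (nat_lit 0x38d5110d02) (nat_lit 0x100403) (nat_lit 16))
 (.p (nat_lit 0x41ea41e841e641e441e21edd06) (nat_lit 0x800000e92a) (nat_lit 51))))
 (.n (.n (.p (nat_lit 0x1d9d1a6502) (nat_lit 0x456800) (nat_lit 16))
 (.p (nat_lit 0x25960df102) (nat_lit 0x440b1c) (nat_lit 4)))
 (.n (.p (nat_lit 0x1c501c4e1c4a1c461d9b1d9706) (nat_lit 0x50000d0806) (nat_lit 51))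
 (.p (nat_lit 0x5d375e4702) (nat_lit 0x160060000600) (nat_lit 36)))))
 (.n (.n (.n (.p (nat_lit 0xf990c8f02) (nat_lit 0x4e300) (nat_lit 16))
 (.p (nat_lit 0x2b6027e902) (nat_lit 0x140816) (nat_lit 4)))
 (.n (.p (nat_lit 0x22ac22a822a622a2247d247706) (nat_lit 0x9000010b04) (nat_lit 52))
 (.p (nat_lit 0x2b25b1502) (nat_lit 0x200615) (nat_lit 27))))
 (.n (.n (.p (nat_lit 0x1c501c4c1c4a1c481c461ee906) (nat_lit 0x8000090901) (nat_lit 51))
 (.p (nat_lit 0x5716571457125710570e570c03ac07) (nat_lit 0x40923) (nat_lit 8)))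
 (.n (.p (nat_lit 0x1bc01bbe1bbc1bb81bb6385f06) (nat_lit 0x20000d630a) (nat_lit 51))
 (.p (nat_lit 0x11425f3902) (nat_lit 0x3a2560c44000400040000) (nat_lit 49))))))
 (.n (.n (.n (.n (.p (nat_lit 0x80608040802080005bf05bd06) (nat_lit 0x180000e100) (nat_lit 52))
 (.p (nat_lit 0x7320730072c072a07280287072f07) (nat_lit 0x340015) (nat_lit 7)))
 (.n (.p (nat_lit 0xa330a2702) (nat_lit 0x356104) (nat_lit 16))
 (.p (nat_lit 0x141814161414141214104a0306) (nat_lit 0x80008272f) (nat_lit 51))))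
 (.n (.n (.p (nat_lit 0x11c22c502) (nat_lit 0x540b00) (nat_lit 1))
 (.p (nat_lit 0x39b565502) (nat_lit 0x400122) (nat_lit 30)))
 (.n (.p (nat_lit 0x1a6e055702) (nat_lit 0x340707) (nat_lit 4))
 (.p (nat_lit 0x5d651db502) (nat_lit 0x180080000900) (nat_lit 40)))))
 (.n (.n (.n (.p (nat_lit 0x16d216d016ce16cc16b316b106) (nat_lit 0x18000c0600) (nat_lit 52))
 (.p (nat_lit 0x2080207c207a2078207605dd06) (nat_lit 0x800001401c) (nat_lit 51)))
 (.n (.p (nat_lit 0x1f1a1f161f141f121f101ac506) (nat_lit 0x80000d2705) (nat_lit 51))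
 (.p (nat_lit 0x5de2339102) (nat_lit 0x2004e200) (nat_lit 48))))
 (.n (.n (.p (nat_lit 0x6132d102) (nat_lit 0x440902) (nat_lit 30))
 (.p (nat_lit 0x117e117c117a117811764a5306) (nat_lit 0x100000c2728) (nat_lit 52)))
 (.n (.p (nat_lit 0x13f213f013ee13ec13ea10e506) (nat_lit 0x1000008a40e) (nat_lit 52))
 (.p (nat_lit 0x1da6603f02) (nat_lit 0x4a8162340800300000600) (nat_lit 49))))))

def c1024_647 : Tr :=
 .n (.n (.n (.n (.n (.n (.p (nat_lit 0x43a0436044303) (nat_lit 0x500050002a) (nat_lit 17))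
 (.p (nat_lit 0xbb061bd02) (nat_lit 0x322266c75000200040000) (nat_lit 49)))
 (.p (nat_lit 0x418a3dab02) (nat_lit 0x200512) (nat_lit 4)))
 (.n (.p (nat_lit 0x1fd61fd41fd21fce2331232906) (nat_lit 0x110000cea03) (nat_lit 52))
 (.p (nat_lit 0x35cc399302) (nat_lit 0x12d) (nat_lit 4))))
 (.n (.n (.p (nat_lit 0x212e212c212a21282126212406) (nat_lit 0xea00) (nat_lit 52))
 (.p (nat_lit 0x3bea385702) (nat_lit 0x440b1f) (nat_lit 5)))
 (.n (.p (nat_lit 0x1daa1da81da41da21da00e0706) (nat_lit 0x4000012307) (nat_lit 52))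
 (.p (nat_lit 0x5e68363f02) (nat_lit 0x48800) (nat_lit 47)))))
 (.n (.n (.n (.p (nat_lit 0x12da12d812d412d212d010c906) (nat_lit 0x4000084500) (nat_lit 51))
 (.p (nat_lit 0x42323edd02) (nat_lit 0x300619) (nat_lit 4)))
 (.n (.p (nat_lit 0x112c112811241122010800eb00e7112b112709) (nat_lit 0x2200405) (nat_lit 10))
 (.p (nat_lit 0x5ce904d102) (nat_lit 0x40020000000) (nat_lit 40))))
 (.n (.n (.p (nat_lit 0xa0819ad02) (nat_lit 0x40102) (nat_lit 4))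
 (.p (nat_lit 0x3646389702) (nat_lit 0x440126) (nat_lit 5)))
 (.n (.p (nat_lit 0x475647544750474e01d601cf01c94759475309) (nat_lit 0x2a4030c) (nat_lit 10))
 (.p (nat_lit 0x1dac5fc502) (nat_lit 0x8982e915800300000600) (nat_lit 50))))))
 (.n (.n (.n (.n (.p (nat_lit 0xbec0bea0be40be209d309d106) (nat_lit 0x60000c8200) (nat_lit 51))
 (.p (nat_lit 0x164c0aad02) (nat_lit 0x400615) (nat_lit 5)))
 (.n (.p (nat_lit 0xe740e720e700e6e0e6c168b06) (nat_lit 0x10000086604) (nat_lit 52))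
 (.p (nat_lit 0xec00e800e400e2000904af06) (nat_lit 0x220e505) (nat_lit 26))))
 (.n (.n (.p (nat_lit 0x29142912290e290c290a0f9306) (nat_lit 0x4000052301) (nat_lit 51))
 (.p (nat_lit 0x153e153c15381536153409eb06) (nat_lit 0x400004c123) (nat_lit 52)))
 (.n (.p (nat_lit 0x2b4a51f102) (nat_lit 0x40808) (nat_lit 29))
 (.p (nat_lit 0x5d55249502) (nat_lit 0x280080000b00) (nat_lit 41)))))
 (.n (.n (.n (.p (nat_lit 0x1a4e1a4c1a481a461799179306) (nat_lit 0x4800056700) (nat_lit 52))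
 (.p (nat_lit 0x11cc11ca11c811c611c214e306) (nat_lit 0x100005051c) (nat_lit 52)))
 (.n (.p (nat_lit 0x4e250fd302) (nat_lit 0x540306) (nat_lit 16))
 (.p (nat_lit 0x5d7d5e1b02) (nat_lit 0x80000400) (nat_lit 36))))
 (.n (.n (.p (nat_lit 0x25bc18f702) (nat_lit 0x540b02) (nat_lit 5))
 (.p (nat_lit 0x460d0b5d02) (nat_lit 0x51422a) (nat_lit 16)))
 (.n (.p (nat_lit 0x357e357c357a357835761bdb06) (nat_lit 0x80000880e) (nat_lit 52))
 (.p (nat_lit 0x12a712990feb0fd70d170d0d0a510a4d07a3079f04d704c360c00d) (nat_lit 0x354a621b0000000000000) (nat_lit 33))))))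

def c512_135 : Tr := .n c1024_135 c1024_647

def c1024_391 : Tr :=
 .n (.n (.n (.n (.n (.n (.p (nat_lit 0x1f001ea01e801f304) (nat_lit 0x1300040000e) (nat_lit 17))
 (.p (nat_lit 0x13ec617b02) (nat_lit 0x521a86b11000500040000) (nat_lit 49)))
 (.p (nat_lit 0x1cf61cf21cf01cee1cec38e706) (nat_lit 0x800008c411) (nat_lit 52)))
 (.n (.p (nat_lit 0x168b167f02) (nat_lit 0x514603) (nat_lit 16))
 (.p (nat_lit 0x324a3248324632442b3b2b3706) (nat_lit 0xa00009282b) (nat_lit 52))))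
 (.n (.n (.p (nat_lit 0x1f321f2c1f2a1f281d311d2f06) (nat_lit 0xc0000c0900) (nat_lit 51))
 (.p (nat_lit 0xe8e0e8a0e880e860e8433a306) (nat_lit 0x8000040a1e) (nat_lit 51)))
 (.n (.p (nat_lit 0xb4404f102) (nat_lit 0x500207) (nat_lit 4))
 (.p (nat_lit 0x5cef5e5902) (nat_lit 0x2e0040000700) (nat_lit 37)))))
 (.n (.n (.n (.p (nat_lit 0xf5c113b02) (nat_lit 0x40400) (nat_lit 4))
 (.p (nat_lit 0x3788378637843780377e398306) (nat_lit 0x20000c0418) (nat_lit 51)))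
 (.n (.p (nat_lit 0x452708d502) (nat_lit 0x20a105) (nat_lit 16))
 (.p (nat_lit 0x3aa03a403a203a00401000906) (nat_lit 0x1c12123) (nat_lit 26))))
 (.n (.n (.p (nat_lit 0x25422540253e253c253a21b306) (nat_lit 0x10000010a01) (nat_lit 51))
 (.p (nat_lit 0x160616041602160015fe27ab06) (nat_lit 0x8000d2124) (nat_lit 51)))
 (.n (.p (nat_lit 0x3f963c9502) (nat_lit 0x30030b) (nat_lit 5))
 (.p (nat_lit 0xfe05f7902) (nat_lit 0x560bb0344000400000000) (nat_lit 50))))))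
 (.n (.n (.n (.n (.p (nat_lit 0x282087302) (nat_lit 0x100200) (nat_lit 1))
 (.p (nat_lit 0x13900a9302) (nat_lit 0x300515) (nat_lit 4)))
 (.n (.p (nat_lit 0x1120111e111c111a00c600b700b51119111709) (nat_lit 0x800404) (nat_lit 10))
 (.p (nat_lit 0x62005e005c005a0001048306) (nat_lit 0x414502) (nat_lit 26))))
 (.n (.n (.p (nat_lit 0x78d075102) (nat_lit 0x254001) (nat_lit 16))
 (.p (nat_lit 0x3a7568f02) (nat_lit 0x340023) (nat_lit 30)))
 (.n (.p (nat_lit 0x22ce070102) (nat_lit 0x440a07) (nat_lit 4))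
 (.p (nat_lit 0x5d6721e102) (nat_lit 0x160080000a00) (nat_lit 41)))))
 (.n (.n (.n (.p (nat_lit 0x18c618c418c218c018bc162306) (nat_lit 0x1000092700) (nat_lit 52))
 (.p (nat_lit 0xb220b1e0b1c0b1a0b18088506) (nat_lit 0x800001611c) (nat_lit 51)))
 (.n (.p (nat_lit 0x4af84af64af44af24af04aee06) (nat_lit 0x10006) (nat_lit 52))
 (.p (nat_lit 0x5d415e0302) (nat_lit 0xc0060000300) (nat_lit 37))))
 (.n (.n (.p (nat_lit 0x7aa07a807a607a207a0231f06) (nat_lit 0x2000042a02) (nat_lit 51))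
 (.p (nat_lit 0x50805060502050004fe089b06) (nat_lit 0x400000612a) (nat_lit 52)))
 (.n (.p (nat_lit 0x5420540053e053c053a137f06) (nat_lit 0x80008c50e) (nat_lit 52))
 (.p (nat_lit 0x13ea607b02) (nat_lit 0x511a22b85000500040000) (nat_lit 49))))))

def c1024_903 : Tr :=
 .n (.n (.n (.n (.n (.p (nat_lit 0x649063d02) (nat_lit 0x440000) (nat_lit 34))
 (.p (nat_lit 0x3d223d203d1a3d184a7d4a7b06) (nat_lit 0x6000008813) (nat_lit 52)))
 (.n (.p (nat_lit 0x198619821980197e197c25c706) (nat_lit 0x80000ceb03) (nat_lit 51))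
 (.p (nat_lit 0x1e7e1e7c1e7a1e781e763f2506) (nat_lit 0x80005622e) (nat_lit 52))))
 (.n (.n (.p (nat_lit 0x22bd1ff502) (nat_lit 0x140a00) (nat_lit 15))
 (.p (nat_lit 0x36d562702) (nat_lit 0x500b20) (nat_lit 30)))
 (.n (.p (nat_lit 0x1460145e145c145610d310d106) (nat_lit 0x300000e407) (nat_lit 51))
 (.p (nat_lit 0x5d9f5e7d02) (nat_lit 0xe00a0000800) (nat_lit 37)))))
 (.n (.n (.n (.p (nat_lit 0x14d9122102) (nat_lit 0x244500) (nat_lit 16))
 (.p (nat_lit 0xa8a0a880a840a820a8049e706) (nat_lit 0x400008871a) (nat_lit 52)))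
 (.n (.p (nat_lit 0xeb49ad02) (nat_lit 0x440605) (nat_lit 30))
 (.p (nat_lit 0x5d0b079902) (nat_lit 0x120040000100) (nat_lit 38))))
 (.n (.n (.p (nat_lit 0x110630b702) (nat_lit 0x400402) (nat_lit 29))
 (.p (nat_lit 0x3f1e404d02) (nat_lit 0x240227) (nat_lit 5)))
 (.n (.p (nat_lit 0x5077503b02) (nat_lit 0x10880d) (nat_lit 16))
 (.p (nat_lit 0x13f85ffb02) (nat_lit 0x16a88cd50000500040000) (nat_lit 50))))))
 (.n (.n (.n (.n (.p (nat_lit 0xdb20db00dae0dac0b390b3706) (nat_lit 0x18000012300) (nat_lit 52))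
 (.p (nat_lit 0x32af1eb902) (nat_lit 0x40e915) (nat_lit 16)))
 (.n (.p (nat_lit 0x195242ab02) (nat_lit 0x300704) (nat_lit 29))
 (.p (nat_lit 0x5a4e5a4c5a4a5a485a46043f01a407) (nat_lit 0x51640a) (nat_lit 25))))
 (.n (.n (.p (nat_lit 0x19be19bc19ba19b81c211c1d06) (nat_lit 0x14000004801) (nat_lit 51))
 (.p (nat_lit 0x166611a502) (nat_lit 0x500623) (nat_lit 5)))
 (.n (.p (nat_lit 0x316e2d5702) (nat_lit 0x440409) (nat_lit 4))
 (.p (nat_lit 0x7985ef302) (nat_lit 0x4a9d84344000100000000) (nat_lit 49)))))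
 (.n (.n (.n (.p (nat_lit 0x1c09190302) (nat_lit 0x508800) (nat_lit 16))
 (.p (nat_lit 0x3810380e380c380a1d5f1d5d06) (nat_lit 0x600004281c) (nat_lit 52)))
 (.n (.p (nat_lit 0x171817141710170e1ad11acd06) (nat_lit 0xa0000c6706) (nat_lit 51))
 (.p (nat_lit 0x5d71129d02) (nat_lit 0xc0080000500) (nat_lit 38))))
 (.n (.n (.p (nat_lit 0x35f835f435f235ee0a1d0a1706) (nat_lit 0x90000c8103) (nat_lit 52))
 (.p (nat_lit 0x104a1046104210400f890f8506) (nat_lit 0xa0000cc32a) (nat_lit 52)))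
 (.n (.p (nat_lit 0x33df242902) (nat_lit 0x40eb0e) (nat_lit 16))
 (.p (nat_lit 0x206c60fd02) (nat_lit 0x340a623b0000400000600) (nat_lit 49))))))

def c512_391 : Tr := .n c1024_391 c1024_903

def c256_135 : Tr := .n c512_135 c512_391

def c128_7 : Tr := .n c256_7 c256_135

def c1024_71 : Tr :=
 .n (.n (.n (.n (.n (.n (.p (nat_lit 0x510045003803) (nat_lit 0xa1000001) (nat_lit 19))
 (.p (nat_lit 0x206c613102) (nat_lit 0x35486a1b0000400000600) (nat_lit 49)))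
 (.p (nat_lit 0x92e092c092a092609242b9906) (nat_lit 0x200008890f) (nat_lit 52)))
 (.n (.p (nat_lit 0x3856385438523850384e0faf06) (nat_lit 0x100000d6303) (nat_lit 51))
 (.p (nat_lit 0x39d039ce39c839c61c111c0f06) (nat_lit 0x600001682a) (nat_lit 52))))
 (.n (.n (.p (nat_lit 0x1d261d241d201d1e1d1c1a6306) (nat_lit 0x40000d6800) (nat_lit 52))
 (.p (nat_lit 0x22fb22ef02) (nat_lit 0x24aa1c) (nat_lit 16)))
 (.n (.p (nat_lit 0x63e063c063a063606341d9906) (nat_lit 0x20000c0806) (nat_lit 52))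
 (.p (nat_lit 0x5e3c196702) (nat_lit 0x20014600) (nat_lit 47)))))
 (.n (.n (.n (.p (nat_lit 0xf040f020f000efe0c990c8f06) (nat_lit 0x10800050300) (nat_lit 52))
 (.p (nat_lit 0x2591258502) (nat_lit 0x148b15) (nat_lit 16)))
 (.n (.p (nat_lit 0xc200df00cf1fdd1e7705) (nat_lit 0xad100b04) (nat_lit 9))
 (.p (nat_lit 0x242023e023c023a0223008f06) (nat_lit 0x40c411) (nat_lit 26))))
 (.n (.n (.p (nat_lit 0x4cc04ca04c804c604c41ee106) (nat_lit 0x800000901) (nat_lit 52))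
 (.p (nat_lit 0x392439223920391e391a1d6706) (nat_lit 0x10000c2823) (nat_lit 52)))
 (.n (.p (nat_lit 0x8637d302) (nat_lit 0x30a) (nat_lit 1))
 (.p (nat_lit 0x15425f2f02) (nat_lit 0x3a2560b44000000000600) (nat_lit 50))))))
 (.n (.n (.n (.n (.p (nat_lit 0x1f005c702) (nat_lit 0x500100) (nat_lit 1))
 (.p (nat_lit 0x5d00bc702) (nat_lit 0x400015) (nat_lit 4)))
 (.n (.p (nat_lit 0xb8508c702) (nat_lit 0x100104) (nat_lit 15))
 (.p (nat_lit 0x22a0229e229c229a2296468f06) (nat_lit 0x10000ce22f) (nat_lit 52))))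
 (.n (.n (.p (nat_lit 0x2437215f02) (nat_lit 0x504b00) (nat_lit 16))
 (.p (nat_lit 0x50274a4302) (nat_lit 0x34c721) (nat_lit 16)))
 (.n (.p (nat_lit 0x1906517b02) (nat_lit 0x100707) (nat_lit 29))
 (.p (nat_lit 0x5d471da702) (nat_lit 0x60060000900) (nat_lit 38)))))
 (.n (.n (.n (.p (nat_lit 0x166f155302) (nat_lit 0x30a600) (nat_lit 16))
 (.p (nat_lit 0x8f208ee08ec08ea08e805dd06) (nat_lit 0x800008201c) (nat_lit 52)))
 (.n (.p (nat_lit 0x8f208f008ee08ea08e81ac106) (nat_lit 0x20000c2705) (nat_lit 52))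
 (.p (nat_lit 0x5ddc0a5102) (nat_lit 0x200) (nat_lit 46))))
 (.n (.n (.p (nat_lit 0x1cae1ca81ca61ca41ef51ef306) (nat_lit 0xc000086902) (nat_lit 51))
 (.p (nat_lit 0x4680481d02) (nat_lit 0x40228) (nat_lit 4)))
 (.n (.p (nat_lit 0x123d0f7d02) (nat_lit 0x44030e) (nat_lit 15))
 (.p (nat_lit 0x1adc602f02) (nat_lit 0x466a62335000200000600) (nat_lit 49))))))

def c1024_583 : Tr :=
 .n (.n (.n (.n (.n (.n (.p (nat_lit 0x3a603a403a203ad04) (nat_lit 0x7000400023) (nat_lit 17))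
 (.p (nat_lit 0x8fc61ad02) (nat_lit 0x3421a9c14800100040000) (nat_lit 50)))
 (.p (nat_lit 0x408a3d9902) (nat_lit 0x400412) (nat_lit 5)))
 (.n (.p (nat_lit 0x3af921cb02) (nat_lit 0x502a03) (nat_lit 16))
 (.p (nat_lit 0x336031cd02) (nat_lit 0x100a2c) (nat_lit 5))))
 (.n (.n (.p (nat_lit 0x2081207502) (nat_lit 0x500a00) (nat_lit 34))
 (.p (nat_lit 0x36c3b4502) (nat_lit 0x540a1f) (nat_lit 1)))
 (.n (.p (nat_lit 0xe0a515302) (nat_lit 0x500307) (nat_lit 29))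
 (.p (nat_lit 0x5d87181502) (nat_lit 0x2600a0000700) (nat_lit 38)))))
 (.n (.n (.n (.p (nat_lit 0x10c6129902) (nat_lit 0x200500) (nat_lit 4))
 (.p (nat_lit 0x419a3e2902) (nat_lit 0x400519) (nat_lit 4)))
 (.n (.p (nat_lit 0xe7470302) (nat_lit 0x240305) (nat_lit 30))
 (.p (nat_lit 0x4b404b204b004ae04a504b906) (nat_lit 0x81062f) (nat_lit 26))))
 (.n (.n (.p (nat_lit 0x2d582d562d542d522d50075906) (nat_lit 0x8000c8002) (nat_lit 52))
 (.p (nat_lit 0x3d033f902) (nat_lit 0xb25) (nat_lit 1)))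
 (.n (.p (nat_lit 0x45fa528502) (nat_lit 0x20020c) (nat_lit 29))
 (.p (nat_lit 0x8ec5fa702) (nat_lit 0x89832955800100040000) (nat_lit 49))))))
 (.n (.n (.n (.n (.p (nat_lit 0x9d00bb702) (nat_lit 0x240200) (nat_lit 5))
 (.p (nat_lit 0x198619821980197e197c14dd06) (nat_lit 0x80000ce515) (nat_lit 51)))
 (.n (.p (nat_lit 0x16801e4502) (nat_lit 0x604) (nat_lit 4))
 (.p (nat_lit 0xb9598102) (nat_lit 0x200b04) (nat_lit 28))))
 (.n (.n (.p (nat_lit 0x2b288b02) (nat_lit 0x301) (nat_lit 30))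
 (.p (nat_lit 0x9e4117702) (nat_lit 0x40123) (nat_lit 4)))
 (.n (.p (nat_lit 0x292c292a2928292429220173292707) (nat_lit 0x240308) (nat_lit 7))
 (.p (nat_lit 0x5d29249302) (nat_lit 0x240060000b00) (nat_lit 41)))))
 (.n (.n (.n (.p (nat_lit 0x1a061a021a0019fe179b179306) (nat_lit 0x880004a700) (nat_lit 52))
 (.p (nat_lit 0x307552102) (nat_lit 0x4051c) (nat_lit 30)))
 (.n (.p (nat_lit 0xe604d5b02) (nat_lit 0x306) (nat_lit 29))
 (.p (nat_lit 0x5e100f8302) (nat_lit 0x20040400) (nat_lit 47))))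
 (.n (.n (.p (nat_lit 0x1760175e175a17582463245d06) (nat_lit 0x4800090b02) (nat_lit 51))
 (.p (nat_lit 0x129e129c1298129612940b5906) (nat_lit 0x400000a22a) (nat_lit 52)))
 (.n (.p (nat_lit 0x1925191902) (nat_lit 0x40670e) (nat_lit 16))
 (.p (nat_lit 0x198460a902) (nat_lit 0x344581ca4000100040600) (nat_lit 50))))))

def c512_71 : Tr := .n c1024_71 c1024_583

def c1024_327 : Tr :=
 .n (.n (.n (.n (.n (.n (.p (nat_lit 0x14a01480144014d04) (nat_lit 0x1a000400007) (nat_lit 17))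
 (.p (nat_lit 0x1140616d02) (nat_lit 0x421aa4394000400040000) (nat_lit 49)))
 (.p (nat_lit 0x278827862784278233e133d706) (nat_lit 0x10800090b10) (nat_lit 51)))
 (.n (.p (nat_lit 0x167c3a8702) (nat_lit 0x400603) (nat_lit 29))
 (.p (nat_lit 0x28222a3302) (nat_lit 0x50022b) (nat_lit 4))))
 (.n (.n (.p (nat_lit 0x1edf1bcd02) (nat_lit 0x50a900) (nat_lit 16))
 (.p (nat_lit 0x2f222f202f1c2f1a2f182eb506) (nat_lit 0x40000d411e) (nat_lit 52)))
 (.n (.p (nat_lit 0x227c227a227822762272206106) (nat_lit 0x100004c906) (nat_lit 51))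
 (.p (nat_lit 0x5cdd197f02) (nat_lit 0x100020000700) (nat_lit 41)))))
 (.n (.n (.n (.p (nat_lit 0x10b210b010ac10aa0dff0df906) (nat_lit 0x12000016400) (nat_lit 52))
 (.p (nat_lit 0xb080b040b020b003399339506) (nat_lit 0x14000054a17) (nat_lit 52)))
 (.n (.p (nat_lit 0x784209702) (nat_lit 0x440005) (nat_lit 4))
 (.p (nat_lit 0x38e038a03860384040d00eb06) (nat_lit 0x140a021) (nat_lit 26))))
 (.n (.n (.p (nat_lit 0x205d205102) (nat_lit 0x550901) (nat_lit 16))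
 (.p (nat_lit 0x462264102) (nat_lit 0x24) (nat_lit 1)))
 (.n (.p (nat_lit 0x660065e065c065a06583bc906) (nat_lit 0x10000044b0a) (nat_lit 51))
 (.p (nat_lit 0x1aea5f6f02) (nat_lit 0x3aa074b50000200000600) (nat_lit 50))))))
 (.n (.n (.n (.n (.p (nat_lit 0x9d3072302) (nat_lit 0x340100) (nat_lit 15))
 (.p (nat_lit 0x28e02a302a10bed0a8b05) (nat_lit 0x68d40415) (nat_lit 9)))
 (.n (.p (nat_lit 0xfb41e0d02) (nat_lit 0x240304) (nat_lit 5))
 (.p (nat_lit 0x3400320030002e0115000106) (nat_lit 0x814901) (nat_lit 26))))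
 (.n (.n (.p (nat_lit 0x5f405f005ee05ec00540035003105f705f309) (nat_lit 0x2b00001) (nat_lit 10))
 (.p (nat_lit 0x12b612b412b212b012ac05e306) (nat_lit 0x1000002023) (nat_lit 52)))
 (.n (.p (nat_lit 0x2015200902) (nat_lit 0x544907) (nat_lit 16))
 (.p (nat_lit 0x5cf121dd02) (nat_lit 0x2c0040000a00) (nat_lit 41)))))
 (.n (.n (.n (.p (nat_lit 0x1821181502) (nat_lit 0x500700) (nat_lit 34))
 (.p (nat_lit 0x880550102) (nat_lit 0x20011c) (nat_lit 29)))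
 (.n (.p (nat_lit 0x1e4c1e4a1e481e461e441d9306) (nat_lit 0x1000004c805) (nat_lit 52))
 (.p (nat_lit 0x5cd75dfb02) (nat_lit 0x160020000300) (nat_lit 37))))
 (.n (.n (.p (nat_lit 0x233c233a23382334233221b906) (nat_lit 0x2000016a02) (nat_lit 52))
 (.p (nat_lit 0x104a104610441042104050c506) (nat_lit 0x80000cc829) (nat_lit 52)))
 (.n (.p (nat_lit 0x410b123f02) (nat_lit 0x55240e) (nat_lit 16))
 (.p (nat_lit 0x1da6606f02) (nat_lit 0x588172b40800300000600) (nat_lit 49))))))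

def c1024_839 : Tr :=
 .n (.n (.n (.n (.n (.n (.p (nat_lit 0x5cd04df02) (nat_lit 0x204000) (nat_lit 16))
 (.p (nat_lit 0x63461eb02) (nat_lit 0x14e0a8c74000000040000) (nat_lit 49)))
 (.p (nat_lit 0x494044d702) (nat_lit 0x140513) (nat_lit 5)))
 (.n (.p (nat_lit 0x25c81d2702) (nat_lit 0x540b03) (nat_lit 4))
 (.p (nat_lit 0x12da12d812d612d412d03bfd06) (nat_lit 0x10000c4b2d) (nat_lit 51))))
 (.n (.n (.p (nat_lit 0x227c227a2278227622721ff506) (nat_lit 0x100004ca00) (nat_lit 51))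
 (.p (nat_lit 0xe9a0e980e960e920e90428506) (nat_lit 0x20000c0620) (nat_lit 52)))
 (.n (.p (nat_lit 0x4e230f7102) (nat_lit 0x456307) (nat_lit 16))
 (.p (nat_lit 0x5d675e7902) (nat_lit 0x160080000800) (nat_lit 37)))))
 (.n (.n (.n (.p (nat_lit 0x143c1438143614321225121f06) (nat_lit 0x9000046500) (nat_lit 52))
 (.p (nat_lit 0x494c464702) (nat_lit 0x14051a) (nat_lit 4)))
 (.n (.p (nat_lit 0x23ee23ec23ea23e823e6168d06) (nat_lit 0x800010605) (nat_lit 52))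
 (.p (nat_lit 0x5c8f5dc502) (nat_lit 0x2e0000000100) (nat_lit 37))))
 (.n (.n (.p (nat_lit 0x3440f9902) (nat_lit 0x40302) (nat_lit 1))
 (.p (nat_lit 0x1e5a1e581e541e521e503d7706) (nat_lit 0x400008c127) (nat_lit 51)))
 (.n (.p (nat_lit 0x4f1a4ad702) (nat_lit 0x34040d) (nat_lit 5))
 (.p (nat_lit 0x20785fed02) (nat_lit 0x306a81d31000400000600) (nat_lit 50))))))
 (.n (.n (.n (.n (.p (nat_lit 0xd4c0d4a0d480d460d420b3106) (nat_lit 0x1000082300) (nat_lit 51))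
 (.p (nat_lit 0x1d4e546f02) (nat_lit 0x140815) (nat_lit 29)))
 (.n (.p (nat_lit 0x1db41db21db01dae1dac17fd06) (nat_lit 0x10000052604) (nat_lit 51))
 (.p (nat_lit 0x17401720170016e014b021306) (nat_lit 0x2c12208) (nat_lit 26))))
 (.n (.n (.p (nat_lit 0x2ae114f502) (nat_lit 0x442501) (nat_lit 16))
 (.p (nat_lit 0xeb20eb00eae0eac0ea80ca906) (nat_lit 0x10000c2223) (nat_lit 52)))
 (.n (.p (nat_lit 0x5a308d02) (nat_lit 0x140309) (nat_lit 1))
 (.p (nat_lit 0x6425ee302) (nat_lit 0x4a8866344000000040000) (nat_lit 50)))))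
 (.n (.n (.n (.p (nat_lit 0x1ba81ba61ba41ba21b9e18fb06) (nat_lit 0x1000094800) (nat_lit 52))
 (.p (nat_lit 0x1bfa1bf81bf61bf41bf203111bfd07) (nat_lit 0x50081c) (nat_lit 7)))
 (.n (.p (nat_lit 0x15fa15f615f415f215f0196d06) (nat_lit 0x8000012706) (nat_lit 52))
 (.p (nat_lit 0x5cf113fb02) (nat_lit 0x2c0040000500) (nat_lit 41))))
 (.n (.n (.p (nat_lit 0x35aa35a835a435a235a008bf06) (nat_lit 0x4000016103) (nat_lit 51))
 (.p (nat_lit 0x301d0e2102) (nat_lit 0x40e32a) (nat_lit 16)))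
 (.n (.p (nat_lit 0x22d6085102) (nat_lit 0x240a0e) (nat_lit 5))
 (.p (nat_lit 0x113c60f102) (nat_lit 0x440d623a4000400040000) (nat_lit 49))))))

def c512_327 : Tr := .n c1024_327 c1024_839

def c256_71 : Tr := .n c512_71 c512_327

def c1024_199 : Tr :=
 .n (.n (.n (.n (.n (.n (.p (nat_lit 0xbe00b400c303) (nat_lit 0x10800500004) (nat_lit 17))
 (.p (nat_lit 0x634615102) (nat_lit 0x2b0221d84000000040000) (nat_lit 49)))
 (.p (nat_lit 0x31ea2de902) (nat_lit 0x500510) (nat_lit 5)))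
 (.n (.p (nat_lit 0x3975126702) (nat_lit 0x142403) (nat_lit 16))
 (.p (nat_lit 0x21a4135702) (nat_lit 0x400a2a) (nat_lit 5))))
 (.n (.n (.p (nat_lit 0x1e1c1e181e161e141bcd1bc906) (nat_lit 0x14000008900) (nat_lit 52))
 (.p (nat_lit 0x2b2628a502) (nat_lit 0x40081d) (nat_lit 5)))
 (.n (.p (nat_lit 0x1efc50d902) (nat_lit 0x200906) (nat_lit 29))
 (.p (nat_lit 0x5d57154902) (nat_lit 0x260080000600) (nat_lit 40)))))
 (.n (.n (.n (.p (nat_lit 0xdfc0dfa0df80df60014000b00010dff0df509) (nat_lit 0x2800400) (nat_lit 10))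
 (.p (nat_lit 0x31ec2f5302) (nat_lit 0x517) (nat_lit 5)))
 (.n (.p (nat_lit 0x21fa21f621f421f025d325cd06) (nat_lit 0x90000c0b04) (nat_lit 51))
 (.p (nat_lit 0x2f75b5f02) (nat_lit 0x20041a) (nat_lit 28))))
 (.n (.n (.p (nat_lit 0x204c160302) (nat_lit 0x340901) (nat_lit 5))
 (.p (nat_lit 0x3b15219702) (nat_lit 0x310a23) (nat_lit 16)))
 (.n (.p (nat_lit 0x3977396b02) (nat_lit 0x24440a) (nat_lit 16))
 (.p (nat_lit 0x1adc5f5102) (nat_lit 0x1a1d22350000200000600) (nat_lit 49))))))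
 (.n (.n (.n (.n (.p (nat_lit 0x8cd05c502) (nat_lit 0x412100) (nat_lit 16))
 (.p (nat_lit 0x10e60a7502) (nat_lit 0x415) (nat_lit 4)))
 (.n (.p (nat_lit 0xb970b8b02) (nat_lit 0x416204) (nat_lit 16))
 (.p (nat_lit 0x254425422540253c253a4d5306) (nat_lit 0x2000050230) (nat_lit 51))))
 (.n (.n (.p (nat_lit 0x25442542253c253a22c122bf06) (nat_lit 0x6000050b00) (nat_lit 51))
 (.p (nat_lit 0x291e291c291a29182916502b06) (nat_lit 0x100000d2722) (nat_lit 51)))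
 (.n (.p (nat_lit 0x3502350034fe34f81bd31bd106) (nat_lit 0x3000008807) (nat_lit 52))
 (.p (nat_lit 0x5e921d9302) (nat_lit 0xa0056900) (nat_lit 47)))))
 (.n (.n (.n (.p (nat_lit 0x176c176a1768176216b516b306) (nat_lit 0x3000052600) (nat_lit 51))
 (.p (nat_lit 0x7a807a607a407a207a0073f06) (nat_lit 0x1000004201c) (nat_lit 51)))
 (.n (.p (nat_lit 0x1c2a22ab02) (nat_lit 0x400805) (nat_lit 4))
 (.p (nat_lit 0x5d755ded02) (nat_lit 0x80080000200) (nat_lit 37))))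
 (.n (.n (.p (nat_lit 0x32dd205d02) (nat_lit 0x540902) (nat_lit 16))
 (.p (nat_lit 0x4c8c4ed902) (nat_lit 0x340129) (nat_lit 4)))
 (.n (.p (nat_lit 0x38e110dd02) (nat_lit 0x11040e) (nat_lit 16))
 (.p (nat_lit 0x2332604d02) (nat_lit 0x406a6254c800500000600) (nat_lit 49))))))

def c1024_711 : Tr :=
 .n (.n (.n (.n (.n (.n (.p (nat_lit 0x14804e302) (nat_lit 0x400000) (nat_lit 1))
 (.p (nat_lit 0xe7261cd02) (nat_lit 0x3421684a0800300040000) (nat_lit 49)))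
 (.p (nat_lit 0x7e607e407e207e007de422106) (nat_lit 0x80000a612) (nat_lit 51)))
 (.n (.p (nat_lit 0xbb00bae0baa0ba80ba6246f06) (nat_lit 0x4000084b03) (nat_lit 52))
 (.p (nat_lit 0x36d436d236d036ce04a00499049736d936d709) (nat_lit 0x2c0022d) (nat_lit 10))))
 (.n (.n (.p (nat_lit 0x21711e9102) (nat_lit 0x202a00) (nat_lit 16))
 (.p (nat_lit 0x1dc21dc01dbc1dba1db83d0706) (nat_lit 0x4000040020) (nat_lit 52)))
 (.n (.p (nat_lit 0xf72068702) (nat_lit 0x540307) (nat_lit 4))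
 (.p (nat_lit 0x5e6a397502) (nat_lit 0x20042800) (nat_lit 48)))))
 (.n (.n (.n (.p (nat_lit 0x137813761374137210cd10cb06) (nat_lit 0x18000096500) (nat_lit 52))
 (.p (nat_lit 0x42cc3e5302) (nat_lit 0x200719) (nat_lit 5)))
 (.n (.p (nat_lit 0x13d6225f02) (nat_lit 0x200505) (nat_lit 5))
 (.p (nat_lit 0x5db604d302) (nat_lit 0x40000000) (nat_lit 46))))
 (.n (.n (.p (nat_lit 0xb7219bf02) (nat_lit 0x400202) (nat_lit 5))
 (.p (nat_lit 0x377a3778377637743772375906) (nat_lit 0x10000040226) (nat_lit 52)))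
 (.n (.p (nat_lit 0x14649cf02) (nat_lit 0x30070c) (nat_lit 1))
 (.p (nat_lit 0x233e5fcf02) (nat_lit 0x9582ec05000500000600) (nat_lit 50))))))
 (.n (.n (.n (.n (.p (nat_lit 0xc9f09d102) (nat_lit 0x240200) (nat_lit 16))
 (.p (nat_lit 0x191e544b02) (nat_lit 0x100715) (nat_lit 29)))
 (.n (.p (nat_lit 0x4223168302) (nat_lit 0x102604) (nat_lit 16))
 (.p (nat_lit 0x11c0118011601140009026906) (nat_lit 0x2010106) (nat_lit 26))))
 (.n (.n (.p (nat_lit 0x125015b902) (nat_lit 0x240401) (nat_lit 5))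
 (.p (nat_lit 0x4c8909e702) (nat_lit 0x156123) (nat_lit 16)))
 (.n (.p (nat_lit 0x2be2263b02) (nat_lit 0x340908) (nat_lit 5))
 (.p (nat_lit 0xfe05ec502) (nat_lit 0x260b84344000400000000) (nat_lit 50)))))
 (.n (.n (.n (.p (nat_lit 0x1ab3179502) (nat_lit 0x152700) (nat_lit 16))
 (.p (nat_lit 0x17ca553502) (nat_lit 0x44061c) (nat_lit 29)))
 (.n (.p (nat_lit 0x128e4eb502) (nat_lit 0x340406) (nat_lit 29))
 (.p (nat_lit 0x5da15e1f02) (nat_lit 0xc00a0000400) (nat_lit 36))))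
 (.n (.n (.p (nat_lit 0x60c1c5b02) (nat_lit 0x400003) (nat_lit 4))
 (.p (nat_lit 0x13f413f013ee13ec13ea0cbb06) (nat_lit 0x80000ca22a) (nat_lit 52)))
 (.n (.p (nat_lit 0x358a35863584358235801d4906) (nat_lit 0x80000c880e) (nat_lit 51))
 (.p (nat_lit 0x64860d302) (nat_lit 0x340a623b0000000040000) (nat_lit 50))))))

def c512_199 : Tr := .n c1024_199 c1024_711

def c1024_455 : Tr :=
 .n (.n (.n (.n (.n (.n (.p (nat_lit 0x2880280028f03) (nat_lit 0x8800500015) (nat_lit 17))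
 (.p (nat_lit 0x12ab12990fe70fd70d130d0f0a550a4f07a3079b04d704c3618a0d) (nat_lit 0x54c88a970000000000000) (nat_lit 33)))
 (.p (nat_lit 0x39e235ff02) (nat_lit 0x200511) (nat_lit 4)))
 (.n (.p (nat_lit 0x1a1e1a1a1a181a161a1417ef06) (nat_lit 0x8000052603) (nat_lit 51))
 (.p (nat_lit 0x2c202c1e2c1c2c1a0470046d04632c232c1909) (nat_lit 0x284092b) (nat_lit 10))))
 (.n (.n (.p (nat_lit 0x1fbe1fbc1fba1fb81d331d2906) (nat_lit 0x108000cc900) (nat_lit 52))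
 (.p (nat_lit 0x3550380702) (nat_lit 0x44001f) (nat_lit 4)))
 (.n (.p (nat_lit 0x36b90b3d02) (nat_lit 0x110207) (nat_lit 16))
 (.p (nat_lit 0x5d1f181d02) (nat_lit 0x2e0060000700) (nat_lit 40)))))
 (.n (.n (.n (.p (nat_lit 0x1180117e117811760f630f6106) (nat_lit 0x60000c2400) (nat_lit 52))
 (.p (nat_lit 0x3aa8371b02) (nat_lit 0x300618) (nat_lit 4)))
 (.n (.p (nat_lit 0x45c845c645c445c245c045be06) (nat_lit 0xa205) (nat_lit 52))
 (.p (nat_lit 0x410040e040c040a0405041d06) (nat_lit 0x2810628) (nat_lit 26))))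
 (.n (.n (.p (nat_lit 0x24fa24f824f624f42319230f06) (nat_lit 0x10800048a01) (nat_lit 52))
 (.p (nat_lit 0x2c0e29eb02) (nat_lit 0x140924) (nat_lit 4)))
 (.n (.p (nat_lit 0x41c841c641c441c041be40f906) (nat_lit 0x20000c440b) (nat_lit 52))
 (.p (nat_lit 0x20705f8d02) (nat_lit 0x581a30344000400000600) (nat_lit 49))))))
 (.n (.n (.n (.n (.p (nat_lit 0xa8a0a880a860a840a820a8006) (nat_lit 0x88200) (nat_lit 52))
 (.p (nat_lit 0x16a216a0169c169a1698139106) (nat_lit 0x400008c515) (nat_lit 52)))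
 (.n (.p (nat_lit 0x40b840b640b440b2127b127106) (nat_lit 0x108000c2404) (nat_lit 52))
 (.p (nat_lit 0x8d592102) (nat_lit 0x300103) (nat_lit 28))))
 (.n (.n (.p (nat_lit 0xa04275102) (nat_lit 0x440101) (nat_lit 29))
 (.p (nat_lit 0x88a100702) (nat_lit 0x100123) (nat_lit 4)))
 (.n (.p (nat_lit 0x1631241902) (nat_lit 0x200b07) (nat_lit 15))
 (.p (nat_lit 0x5cb75eaf02) (nat_lit 0x60000000b00) (nat_lit 36)))))
 (.n (.n (.n (.p (nat_lit 0x190b162702) (nat_lit 0x300700) (nat_lit 16))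
 (.p (nat_lit 0xbe00bde0bdc0bda0bd809d906) (nat_lit 0x80004811c) (nat_lit 51)))
 (.n (.p (nat_lit 0x27008e502) (nat_lit 0x400106) (nat_lit 1))
 (.p (nat_lit 0x5d5b5e0502) (nat_lit 0x220080000300) (nat_lit 36))))
 (.n (.n (.p (nat_lit 0x1ade1ada1ad81ad61ad4232306) (nat_lit 0x8000050a02) (nat_lit 52))
 (.p (nat_lit 0x9f657af02) (nat_lit 0x34012a) (nat_lit 29)))
 (.n (.p (nat_lit 0x50805060504050204fe14cb06) (nat_lit 0x100004650e) (nat_lit 52))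
 (.p (nat_lit 0x13ee608d02) (nat_lit 0x342221ca4000500040000) (nat_lit 49))))))

def c1024_967 : Tr :=
 .n (.n (.n (.n (.n (.p (nat_lit 0x69e069c069806940653064f06) (nat_lit 0x50000c8000) (nat_lit 52))
 (.p (nat_lit 0x1164f2502) (nat_lit 0x240414) (nat_lit 1)))
 (.n (.p (nat_lit 0x6161dbf02) (nat_lit 0x300004) (nat_lit 4))
 (.p (nat_lit 0x1418141614141410140e429d06) (nat_lit 0x20000c262e) (nat_lit 51))))
 (.n (.n (.p (nat_lit 0x2343233702) (nat_lit 0x200b00) (nat_lit 34))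
 (.p (nat_lit 0x44a6472102) (nat_lit 0x540021) (nat_lit 4)))
 (.n (.p (nat_lit 0x1230122e122c122a1228014b123307) (nat_lit 0x540407) (nat_lit 7))
 (.p (nat_lit 0x5c955e7f02) (nat_lit 0x280000000900) (nat_lit 36)))))
 (.n (.n (.n (.p (nat_lit 0x1556153f02) (nat_lit 0x500600) (nat_lit 4))
 (.p (nat_lit 0x4d844d824d804d7e4d7c4f3106) (nat_lit 0x200004241b) (nat_lit 51)))
 (.n (.p (nat_lit 0x8fe08fa08f808f608f4196106) (nat_lit 0x8000082705) (nat_lit 51))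
 (.p (nat_lit 0x5d2307a702) (nat_lit 0x2a0060000100) (nat_lit 40))))
 (.n (.n (.p (nat_lit 0x13b21a0102) (nat_lit 0x200502) (nat_lit 4))
 (.p (nat_lit 0x42e840dd02) (nat_lit 0x400727) (nat_lit 4)))
 (.n (.p (nat_lit 0xe1007b102) (nat_lit 0x20030e) (nat_lit 4))
 (.p (nat_lit 0x1538601102) (nat_lit 0x405aa0b95000000000600) (nat_lit 49))))))
 (.n (.n (.n (.n (.p (nat_lit 0xe550b2f02) (nat_lit 0x14300) (nat_lit 16))
 (.p (nat_lit 0x2180217e217c217a2178028b218307) (nat_lit 0x500a15) (nat_lit 7)))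
 (.n (.p (nat_lit 0x1d1a1d161d141d101955194f06) (nat_lit 0x9000016704) (nat_lit 51))
 (.p (nat_lit 0x1ec01ea01e801e60009028b06) (nat_lit 0x250830e) (nat_lit 26))))
 (.n (.n (.p (nat_lit 0x5a1d7f02) (nat_lit 0x140801) (nat_lit 1))
 (.p (nat_lit 0x31523150314e314c314a193906) (nat_lit 0x2000092723) (nat_lit 52)))
 (.n (.p (nat_lit 0x5140510050e050c050a332b06) (nat_lit 0x8000086a09) (nat_lit 51))
 (.p (nat_lit 0x20725f0f02) (nat_lit 0x3a2570344000400000600) (nat_lit 49)))))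
 (.n (.n (.n (.p (nat_lit 0x1a641a621a601a5c001c000b00031a671a5f09) (nat_lit 0x2940800) (nat_lit 10))
 (.p (nat_lit 0x20240dbb02) (nat_lit 0x14091c) (nat_lit 4)))
 (.n (.p (nat_lit 0x1c381c361c341c300126011701131c331c2f09) (nat_lit 0x1000806) (nat_lit 10))
 (.p (nat_lit 0x5e34129f02) (nat_lit 0xa0000500) (nat_lit 45))))
 (.n (.n (.p (nat_lit 0xcd61b2702) (nat_lit 0x40203) (nat_lit 5))
 (.p (nat_lit 0x17da57e502) (nat_lit 0x4062a) (nat_lit 29)))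
 (.n (.p (nat_lit 0x299a275b02) (nat_lit 0x40040f) (nat_lit 5))
 (.p (nat_lit 0x8f2611502) (nat_lit 0x3422621b0000100040000) (nat_lit 49))))))

def c512_455 : Tr := .n c1024_455 c1024_967

def c256_199 : Tr := .n c512_199 c512_455

def c128_71 : Tr := .n c256_71 c256_199

def c64_7 : Tr := .n c128_7 c128_71

def c1024_39 : Tr :=
 .n (.n (.n (.n (.n (.n (.p (nat_lit 0x340032002a003704) (nat_lit 0x18800400001) (nat_lit 17))
 (.p (nat_lit 0x634612d02) (nat_lit 0x45486a3a4000000040000) (nat_lit 49)))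
 (.p (nat_lit 0x2b972b0b02) (nat_lit 0x10080f) (nat_lit 15)))
 (.n (.p (nat_lit 0x8b37ed02) (nat_lit 0x240303) (nat_lit 30))
 (.p (nat_lit 0x1aae132102) (nat_lit 0x54072a) (nat_lit 4))))
 (.n (.n (.p (nat_lit 0x1d021cfe1cfc1cf81a651a5f06) (nat_lit 0x9000054800) (nat_lit 51))
 (.p (nat_lit 0x22ec558f02) (nat_lit 0x140a1c) (nat_lit 29)))
 (.n (.p (nat_lit 0x1d9423f102) (nat_lit 0x40806) (nat_lit 5))
 (.p (nat_lit 0x5cd75e3f02) (nat_lit 0x160020000600) (nat_lit 36)))))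
 (.n (.n (.n (.p (nat_lit 0xebc0eb80eb60eb40c990c9506) (nat_lit 0x1400004a300) (nat_lit 51))
 (.p (nat_lit 0x25820c8302) (nat_lit 0x40b15) (nat_lit 4)))
 (.n (.p (nat_lit 0x1bb41bb21bb01bae1baa1ab306) (nat_lit 0x1000056704) (nat_lit 52))
 (.p (nat_lit 0x21402120210020e01e902af06) (nat_lit 0x81230f) (nat_lit 26))))
 (.n (.n (.p (nat_lit 0x1d9f1d8702) (nat_lit 0x554801) (nat_lit 16))
 (.p (nat_lit 0x56fe56fc56fa56f856f656f403ac07) (nat_lit 0x40823) (nat_lit 8)))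
 (.n (.p (nat_lit 0x35aa35a835a635a235a036bb06) (nat_lit 0x200001620a) (nat_lit 51))
 (.p (nat_lit 0x233c5f1f02) (nat_lit 0x1a2260b50000500000600) (nat_lit 49))))))
 (.n (.n (.n (.n (.p (nat_lit 0x791065502) (nat_lit 0x456000) (nat_lit 16))
 (.p (nat_lit 0x50ee4c7702) (nat_lit 0x100914) (nat_lit 5)))
 (.n (.p (nat_lit 0x785077902) (nat_lit 0x456004) (nat_lit 16))
 (.p (nat_lit 0x213a2138213621342130460506) (nat_lit 0x100008e22f) (nat_lit 51))))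
 (.n (.n (.p (nat_lit 0x2406240023fe23fc215d215b06) (nat_lit 0xc000012b00) (nat_lit 51))
 (.p (nat_lit 0x4a3e46dd02) (nat_lit 0x140721) (nat_lit 5)))
 (.n (.p (nat_lit 0x17a006a302) (nat_lit 0x140607) (nat_lit 5))
 (.p (nat_lit 0x5cff5e8902) (nat_lit 0x1e0040000900) (nat_lit 37)))))
 (.n (.n (.n (.p (nat_lit 0x1629155502) (nat_lit 0x400600) (nat_lit 15))
 (.p (nat_lit 0x314032303330e8b0d2505) (nat_lit 0x46b0001c) (nat_lit 9)))
 (.n (.p (nat_lit 0x1ac0213502) (nat_lit 0x240705) (nat_lit 5))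
 (.p (nat_lit 0x5cb95ddd02) (nat_lit 0x40000000200) (nat_lit 37))))
 (.n (.n (.p (nat_lit 0x1ef61ef41ef21ef01eec005b1eef07) (nat_lit 0x100902) (nat_lit 7))
 (.p (nat_lit 0x4588481302) (nat_lit 0x140128) (nat_lit 4)))
 (.n (.p (nat_lit 0xf7e0f780f760f74020601ef01ed0f7d0f7b09) (nat_lit 0x234030e) (nat_lit 10))
 (.p (nat_lit 0x2332602502) (nat_lit 0x406a6252d000500000600) (nat_lit 49))))))

def c1024_551 : Tr :=
 .n (.n (.n (.n (.n (.n (.p (nat_lit 0x35803520350035b04) (nat_lit 0x1300040001f) (nat_lit 17))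
 (.p (nat_lit 0x114261a502) (nat_lit 0x3222a5c15000400040000) (nat_lit 49)))
 (.p (nat_lit 0x7b607b207b007ae07ac3bd306) (nat_lit 0x8000046b11) (nat_lit 52)))
 (.n (.p (nat_lit 0x1fc01fbe1fba1fb81fb621c706) (nat_lit 0x400008ca03) (nat_lit 52))
 (.p (nat_lit 0x32bc31b702) (nat_lit 0x92c) (nat_lit 5))))
 (.n (.n (.p (nat_lit 0x20571d2d02) (nat_lit 0x24e900) (nat_lit 16))
 (.p (nat_lit 0x39423940393e393c39383a7506) (nat_lit 0x10000cc51f) (nat_lit 51)))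
 (.n (.p (nat_lit 0x37490ca102) (nat_lit 0x350207) (nat_lit 16))
 (.p (nat_lit 0x5da15e6302) (nat_lit 0xc00a0000700) (nat_lit 37)))))
 (.n (.n (.n (.p (nat_lit 0x126d0f6502) (nat_lit 0x450400) (nat_lit 16))
 (.p (nat_lit 0x3cfe3e1f02) (nat_lit 0x540019) (nat_lit 5)))
 (.n (.p (nat_lit 0xed46a302) (nat_lit 0x500305) (nat_lit 30))
 (.p (nat_lit 0x4840480047e047c043d048f06) (nat_lit 0x201492c) (nat_lit 26))))
 (.n (.n (.p (nat_lit 0x18a075f02) (nat_lit 0x340002) (nat_lit 1))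
 (.p (nat_lit 0x330630d702) (nat_lit 0x440925) (nat_lit 5)))
 (.n (.p (nat_lit 0x430a3c5502) (nat_lit 0x44070b) (nat_lit 4))
 (.p (nat_lit 0xe785f9f02) (nat_lit 0x589832b44000300040000) (nat_lit 50))))))
 (.n (.n (.n (.n (.p (nat_lit 0xb6f087502) (nat_lit 0x20e200) (nat_lit 16))
 (.p (nat_lit 0xbb00bac0baa0ba80ba614dd06) (nat_lit 0x80000c4515) (nat_lit 52)))
 (.n (.p (nat_lit 0x151441a302) (nat_lit 0x240504) (nat_lit 29))
 (.p (nat_lit 0x5966596459625960595e036500c007) (nat_lit 0x104404) (nat_lit 25))))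
 (.n (.n (.p (nat_lit 0x2f282902) (nat_lit 0x240201) (nat_lit 30))
 (.p (nat_lit 0x2348234623422340233e088f06) (nat_lit 0x4000016123) (nat_lit 51)))
 (.n (.p (nat_lit 0x28ca266102) (nat_lit 0x308) (nat_lit 5))
 (.p (nat_lit 0x5d49249302) (nat_lit 0x40060000b00) (nat_lit 41)))))
 (.n (.n (.n (.p (nat_lit 0x199e199a19961994179b179706) (nat_lit 0xa0000c0700) (nat_lit 52))
 (.p (nat_lit 0x118c118a11861182139d139906) (nat_lit 0x500000451c) (nat_lit 52)))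
 (.n (.p (nat_lit 0xba4238502) (nat_lit 0x500206) (nat_lit 4))
 (.p (nat_lit 0x5cdf113d02) (nat_lit 0xe0020000400) (nat_lit 39))))
 (.n (.n (.p (nat_lit 0x246624642460245e006e005f00592463245d09) (nat_lit 0x1800b02) (nat_lit 10))
 (.p (nat_lit 0x64a06460644064206400b5b06) (nat_lit 0x800008022a) (nat_lit 51)))
 (.n (.p (nat_lit 0x17c117b502) (nat_lit 0x54660e) (nat_lit 16))
 (.p (nat_lit 0x21da609f02) (nat_lit 0x344588ca4000400040600) (nat_lit 50))))))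

def c512_39 : Tr := .n c1024_39 c1024_551

def c1024_295 : Tr :=
 .n (.n (.n (.n (.n (.n (.p (nat_lit 0x11c0116012103) (nat_lit 0x12000500006) (nat_lit 17))
 (.p (nat_lit 0x2334616302) (nat_lit 0x421aa4395000500000600) (nat_lit 49)))
 (.p (nat_lit 0x7cc07ca07c807c607c4338d06) (nat_lit 0x10000048a10) (nat_lit 52)))
 (.n (.p (nat_lit 0x3a77150902) (nat_lit 0x246503) (nat_lit 16))
 (.p (nat_lit 0x25ae137b02) (nat_lit 0x440b2a) (nat_lit 4))))
 (.n (.n (.p (nat_lit 0x1e971bcd02) (nat_lit 0x500900) (nat_lit 15))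
 (.p (nat_lit 0x1a421a401a3e1a3a1a382da106) (nat_lit 0x20000d401e) (nat_lit 52)))
 (.n (.p (nat_lit 0x2064256502) (nat_lit 0x340906) (nat_lit 4))
 (.p (nat_lit 0x5c8f197d02) (nat_lit 0x2e0000000700) (nat_lit 41)))))
 (.n (.n (.n (.p (nat_lit 0x106c106a106810640dff0df706) (nat_lit 0x11000010400) (nat_lit 51))
 (.p (nat_lit 0xc040c020c000bfe0bfc333b06) (nat_lit 0x80008aa17) (nat_lit 52)))
 (.n (.p (nat_lit 0x43e043de43dc43da43d8062706) (nat_lit 0x10000088005) (nat_lit 51))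
 (.p (nat_lit 0x35603520350034e030d03f706) (nat_lit 0x1d1651f) (nat_lit 26))))
 (.n (.n (.p (nat_lit 0x21e221de21dc21da21d8204f06) (nat_lit 0x80000d4901) (nat_lit 51))
 (.p (nat_lit 0x3a3573302) (nat_lit 0x140b23) (nat_lit 30)))
 (.n (.p (nat_lit 0x51405120510050e050a3b6d06) (nat_lit 0x1000086b0a) (nat_lit 51))
 (.p (nat_lit 0x6425f6302) (nat_lit 0x3aa074b44000000040000) (nat_lit 50))))))
 (.n (.n (.n (.n (.p (nat_lit 0x9440940093e093c0727072306) (nat_lit 0x140000ca100) (nat_lit 52))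
 (.p (nat_lit 0x281541902) (nat_lit 0x40415) (nat_lit 30)))
 (.n (.p (nat_lit 0xbb3f3702) (nat_lit 0x300304) (nat_lit 30))
 (.p (nat_lit 0x46858b902) (nat_lit 0x300501) (nat_lit 27))))
 (.n (.n (.p (nat_lit 0x25cb22bb02) (nat_lit 0x52b00) (nat_lit 16))
 (.p (nat_lit 0x5e4568102) (nat_lit 0x200023) (nat_lit 29)))
 (.n (.p (nat_lit 0x1ead1ea102) (nat_lit 0x404907) (nat_lit 16))
 (.p (nat_lit 0x5e9a48bf02) (nat_lit 0x20004a00) (nat_lit 47)))))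
 (.n (.n (.n (.p (nat_lit 0x17f916b702) (nat_lit 0x352600) (nat_lit 16))
 (.p (nat_lit 0x26c5073d02) (nat_lit 0x44c01c) (nat_lit 16)))
 (.n (.p (nat_lit 0x1d9222b902) (nat_lit 0x540805) (nat_lit 4))
 (.p (nat_lit 0x5cb30d1302) (nat_lit 0xa0000000300) (nat_lit 40))))
 (.n (.n (.p (nat_lit 0x1812180e180c180a21bf21bb06) (nat_lit 0x1400000ea02) (nat_lit 52))
 (.p (nat_lit 0x50bc4eff02) (nat_lit 0x40829) (nat_lit 4)))
 (.n (.p (nat_lit 0x2080207e207c207a2078123506) (nat_lit 0x80005440e) (nat_lit 51))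
 (.p (nat_lit 0x4c2606702) (nat_lit 0x5898b0b44000000000000) (nat_lit 49))))))

def c1024_807 : Tr :=
 .n (.n (.n (.n (.n (.n (.p (nat_lit 0x54e054c054a054404df04dd06) (nat_lit 0x300000e000) (nat_lit 52))
 (.p (nat_lit 0xbb461e302) (nat_lit 0x3302a5895000200040000) (nat_lit 50)))
 (.p (nat_lit 0x229422922290228e228c47d906) (nat_lit 0x80000e413) (nat_lit 51)))
 (.n (.p (nat_lit 0x3b99247302) (nat_lit 0x506b03) (nat_lit 16))
 (.p (nat_lit 0x3bb03a5902) (nat_lit 0x500b2d) (nat_lit 5))))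
 (.n (.n (.p (nat_lit 0x22122210220e220c1ff51ff306) (nat_lit 0x18000c2a00) (nat_lit 51))
 (.p (nat_lit 0x4242560f02) (nat_lit 0x500620) (nat_lit 29)))
 (.n (.p (nat_lit 0xf770f6b02) (nat_lit 0x144307) (nat_lit 16))
 (.p (nat_lit 0x5e74364502) (nat_lit 0x60048800) (nat_lit 47)))))
 (.n (.n (.n (.p (nat_lit 0x14181414141214101225121d06) (nat_lit 0x88000c2500) (nat_lit 51))
 (.p (nat_lit 0x48bc45bf02) (nat_lit 0x51a) (nat_lit 4)))
 (.n (.p (nat_lit 0x1692496902) (nat_lit 0x300605) (nat_lit 29))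
 (.p (nat_lit 0x5d8b5dc302) (nat_lit 0x2200a0000000) (nat_lit 37))))
 (.n (.n (.p (nat_lit 0xe3a0e380e360e34006a005b00590e330e3109) (nat_lit 0x800302) (nat_lit 10))
 (.p (nat_lit 0x101a10181016101410103bf106) (nat_lit 0x10000c2b26) (nat_lit 51)))
 (.n (.p (nat_lit 0x256825662564256225604dc106) (nat_lit 0x80009230d) (nat_lit 52))
 (.p (nat_lit 0x7985fe702) (nat_lit 0x38ac60b44000100000000) (nat_lit 49))))))
 (.n (.n (.n (.n (.p (nat_lit 0xd280d240d220d1e0b370b3106) (nat_lit 0x9000000300) (nat_lit 52))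
 (.p (nat_lit 0x1be60ad502) (nat_lit 0x815) (nat_lit 4)))
 (.n (.p (nat_lit 0x13f413f213f013ee13ec17f306) (nat_lit 0x8000ca604) (nat_lit 52))
 (.p (nat_lit 0x43659ff02) (nat_lit 0x100407) (nat_lit 27))))
 (.n (.n (.p (nat_lit 0x14f215d302) (nat_lit 0x340501) (nat_lit 5))
 (.p (nat_lit 0xcaa56bd02) (nat_lit 0x240223) (nat_lit 29)))
 (.n (.p (nat_lit 0x30102cab02) (nat_lit 0x300309) (nat_lit 4))
 (.p (nat_lit 0xe6e5edb02) (nat_lit 0x4a9d22344000300040000) (nat_lit 49)))))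
 (.n (.n (.n (.p (nat_lit 0x1b841b821b7e1b7c1b7a18ff06) (nat_lit 0x400000c800) (nat_lit 51))
 (.p (nat_lit 0x1a991a8d02) (nat_lit 0x4a71c) (nat_lit 16)))
 (.n (.p (nat_lit 0x19684fc902) (nat_lit 0x200706) (nat_lit 29))
 (.p (nat_lit 0x5e262bc702) (nat_lit 0x2000c500) (nat_lit 48))))
 (.n (.n (.p (nat_lit 0x89356302) (nat_lit 0x100103) (nat_lit 30))
 (.p (nat_lit 0xe220e1e0e1c0e180454043d04370e210e1b09) (nat_lit 0x210032a) (nat_lit 10)))
 (.n (.p (nat_lit 0x216c084502) (nat_lit 0xa0e) (nat_lit 5))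
 (.p (nat_lit 0x13fc60eb02) (nat_lit 0x340d623a4000500040000) (nat_lit 50))))))

def c512_295 : Tr := .n c1024_295 c1024_807

def c256_39 : Tr := .n c512_39 c512_295

def c1024_167 : Tr :=
 .n (.n (.n (.n (.n (.n (.p (nat_lit 0xad00a3009403) (nat_lit 0x42900003) (nat_lit 19))
 (.p (nat_lit 0xbac614b02) (nat_lit 0x3b0221d84000200040000) (nat_lit 49)))
 (.p (nat_lit 0x31742e6302) (nat_lit 0x140410) (nat_lit 4)))
 (.n (.p (nat_lit 0x126c38ff02) (nat_lit 0x440403) (nat_lit 29))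
 (.p (nat_lit 0x413641344130412e412c204106) (nat_lit 0x400004492a) (nat_lit 52))))
 (.n (.n (.p (nat_lit 0x1dc01dbc1dba1db81bcd1bc906) (nat_lit 0x14000000900) (nat_lit 52))
 (.p (nat_lit 0x26c6289d02) (nat_lit 0x54001d) (nat_lit 5)))
 (.n (.p (nat_lit 0x24862484248224801d9f1d9d06) (nat_lit 0x180000d6806) (nat_lit 52))
 (.p (nat_lit 0x5e44273b02) (nat_lit 0x60008600) (nat_lit 47)))))
 (.n (.n (.n (.p (nat_lit 0xfe00fd40df503) (nat_lit 0x400) (nat_lit 6))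
 (.p (nat_lit 0x2bf8285702) (nat_lit 0x240916) (nat_lit 5)))
 (.n (.p (nat_lit 0xc200df00d31fe91e8305) (nat_lit 0xae140b04) (nat_lit 9))
 (.p (nat_lit 0x5b3a5b365b345b325b300265028c07) (nat_lit 0x400a15) (nat_lit 25))))
 (.n (.n (.p (nat_lit 0x2baf1ee302) (nat_lit 0x106901) (nat_lit 16))
 (.p (nat_lit 0x2190109302) (nat_lit 0xa23) (nat_lit 4)))
 (.n (.p (nat_lit 0x38e538d902) (nat_lit 0x30440a) (nat_lit 16))
 (.p (nat_lit 0x6345f4102) (nat_lit 0x3a2260b50000000040000) (nat_lit 49))))))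
 (.n (.n (.n (.n (.p (nat_lit 0x88505c502) (nat_lit 0x406100) (nat_lit 16))
 (.p (nat_lit 0x7ce07cc07c807c607c4072f06) (nat_lit 0x4000048015) (nat_lit 52)))
 (.n (.p (nat_lit 0xb8c1df302) (nat_lit 0x500204) (nat_lit 5))
 (.p (nat_lit 0x4c184f6b02) (nat_lit 0x130) (nat_lit 5))))
 (.n (.n (.p (nat_lit 0x24fc24fa24f424f222c122bf06) (nat_lit 0x6000048b00) (nat_lit 52))
 (.p (nat_lit 0x4fbe566b02) (nat_lit 0x340522) (nat_lit 29)))
 (.n (.p (nat_lit 0x1bd81bd61bd41bd21bce01431bd107) (nat_lit 0x100807) (nat_lit 7))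
 (.p (nat_lit 0x5da11db702) (nat_lit 0xc00a0000900) (nat_lit 40)))))
 (.n (.n (.n (.p (nat_lit 0x174817461740173e16b716b506) (nat_lit 0x60000ca600) (nat_lit 52))
 (.p (nat_lit 0x4b2105db02) (nat_lit 0x31601c) (nat_lit 16)))
 (.n (.p (nat_lit 0x4a4b1abf02) (nat_lit 0x148705) (nat_lit 16))
 (.p (nat_lit 0x5d430a5702) (nat_lit 0xa0060000200) (nat_lit 40))))
 (.n (.n (.p (nat_lit 0x1b841b801b7e1b7a205b205506) (nat_lit 0x900004c902) (nat_lit 51))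
 (.p (nat_lit 0x1184c1302) (nat_lit 0x300129) (nat_lit 1)))
 (.n (.p (nat_lit 0x1f1a1f181f161f141f1010dd06) (nat_lit 0x100009240e) (nat_lit 51))
 (.p (nat_lit 0x1820604702) (nat_lit 0x40a96254c800100000600) (nat_lit 50))))))

def c1024_679 : Tr :=
 .n (.n (.n (.n (.n (.n (.p (nat_lit 0x4840480047e048704) (nat_lit 0x1600040002c) (nat_lit 17))
 (.p (nat_lit 0x13fc61c302) (nat_lit 0x3221a9c15000500040000) (nat_lit 50)))
 (.p (nat_lit 0x42003d3902) (nat_lit 0x540512) (nat_lit 5)))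
 (.n (.p (nat_lit 0x9400a100af1d171bb105) (nat_lit 0xa2300b03) (nat_lit 9))
 (.p (nat_lit 0x34843482347e347c347a365106) (nat_lit 0x400004c12d) (nat_lit 52))))
 (.n (.n (.p (nat_lit 0x21462140213e213c1e951e9306) (nat_lit 0xc000010a00) (nat_lit 51))
 (.p (nat_lit 0x3c643f4102) (nat_lit 0x300020) (nat_lit 4)))
 (.n (.p (nat_lit 0xe1f0e0702) (nat_lit 0x308307) (nat_lit 16))
 (.p (nat_lit 0x5cd51ae302) (nat_lit 0x180020000800) (nat_lit 40)))))
 (.n (.n (.n (.p (nat_lit 0x12f012ec12ea12e810cd10c906) (nat_lit 0x14000086500) (nat_lit 51))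
 (.p (nat_lit 0x427e427c427a4276427402e9427907) (nat_lit 0x240619) (nat_lit 7)))
 (.n (.p (nat_lit 0x128420f102) (nat_lit 0x440405) (nat_lit 5))
 (.p (nat_lit 0x5cc95db302) (nat_lit 0x240020000000) (nat_lit 37))))
 (.n (.n (.p (nat_lit 0x2ea02e9e2e9c2e9a2e982e9606) (nat_lit 0xd4102) (nat_lit 52))
 (.p (nat_lit 0x36c2392702) (nat_lit 0x226) (nat_lit 4)))
 (.n (.p (nat_lit 0x484243dd02) (nat_lit 0x24040c) (nat_lit 5))
 (.p (nat_lit 0x181e5fcb02) (nat_lit 0x9582ec05800100000600) (nat_lit 50))))))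
 (.n (.n (.n (.n (.p (nat_lit 0xc220c200c1e0c1c09d709d506) (nat_lit 0x1800004e200) (nat_lit 52))
 (.p (nat_lit 0x17b8543f02) (nat_lit 0x140615) (nat_lit 29)))
 (.n (.p (nat_lit 0x1c441c401c3e1c3c1c3a168906) (nat_lit 0x8000090604) (nat_lit 52))
 (.p (nat_lit 0xea00e800e600e200b7000b06) (nat_lit 0xd10705) (nat_lit 26))))
 (.n (.n (.p (nat_lit 0x10fc15b302) (nat_lit 0x500401) (nat_lit 5))
 (.p (nat_lit 0x21d621d421d021cc09eb09e706) (nat_lit 0x50000d4123) (nat_lit 52)))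
 (.n (.p (nat_lit 0x2b8a262d02) (nat_lit 0x100908) (nat_lit 5))
 (.p (nat_lit 0x5d895ec102) (nat_lit 0x2400a0000b00) (nat_lit 37)))))
 (.n (.n (.n (.p (nat_lit 0x1a6d179702) (nat_lit 0x240700) (nat_lit 16))
 (.p (nat_lit 0x16540ed102) (nat_lit 0x20061c) (nat_lit 4)))
 (.n (.p (nat_lit 0x4e5c4e5a4e584e564e544e5206) (nat_lit 0x2406) (nat_lit 52))
 (.p (nat_lit 0x5d595e1d02) (nat_lit 0x240080000400) (nat_lit 37))))
 (.n (.n (.p (nat_lit 0x15f815f615f415f025bd25b506) (nat_lit 0x11000052b02) (nat_lit 52))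
 (.p (nat_lit 0x63e063c063a063606340cb706) (nat_lit 0x20000c022a) (nat_lit 52)))
 (.n (.p (nat_lit 0x1d40097902) (nat_lit 0x4080e) (nat_lit 5))
 (.p (nat_lit 0xbb260cd02) (nat_lit 0x3502623b0000200040000) (nat_lit 50))))))

def c512_167 : Tr := .n c1024_167 c1024_679

def c1024_423 : Tr :=
 .n (.n (.n (.n (.n (.n (.p (nat_lit 0x2370235023003) (nat_lit 0x42900010) (nat_lit 19))
 (.p (nat_lit 0xbb0618502) (nat_lit 0x421a86b95000200040000) (nat_lit 49)))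
 (.p (nat_lit 0x3978358702) (nat_lit 0x340411) (nat_lit 5)))
 (.n (.p (nat_lit 0x6217f102) (nat_lit 0x540603) (nat_lit 1))
 (.p (nat_lit 0x43c2bcd02) (nat_lit 0x40092b) (nat_lit 1))))
 (.n (.n (.p (nat_lit 0x1f901f8e1f8c1f8a1f881d3306) (nat_lit 0x100000c8900) (nat_lit 51))
 (.p (nat_lit 0x34c237f702) (nat_lit 0x20001f) (nat_lit 5)))
 (.n (.p (nat_lit 0x93a0938093409300b410b3d06) (nat_lit 0x500000a207) (nat_lit 52))
 (.p (nat_lit 0x5d39198302) (nat_lit 0x140060000700) (nat_lit 41)))))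
 (.n (.n (.n (.p (nat_lit 0x115c115a1158115611540f5d06) (nat_lit 0x800040400) (nat_lit 51))
 (.p (nat_lit 0x863a6702) (nat_lit 0x40518) (nat_lit 1)))
 (.n (.p (nat_lit 0xa410a3502) (nat_lit 0x44c105) (nat_lit 16))
 (.p (nat_lit 0x3405bf702) (nat_lit 0x500224) (nat_lit 27))))
 (.n (.n (.p (nat_lit 0x116231302) (nat_lit 0x240a01) (nat_lit 1))
 (.p (nat_lit 0x3db574702) (nat_lit 0x500824) (nat_lit 30)))
 (.n (.p (nat_lit 0x40143c2302) (nat_lit 0x34030b) (nat_lit 5))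
 (.p (nat_lit 0x181c5f8302) (nat_lit 0x581a32b44000100000600) (nat_lit 50))))))
 (.n (.n (.n (.n (.p (nat_lit 0x87a0876087408720012000900010879087109) (nat_lit 0x2000200) (nat_lit 10))
 (.p (nat_lit 0xa4e0a4c0a480a441391138d06) (nat_lit 0x5000004515) (nat_lit 52)))
 (.n (.p (nat_lit 0xb7409b02) (nat_lit 0x140404) (nat_lit 30))
 (.p (nat_lit 0x5f590902) (nat_lit 0x300b02) (nat_lit 28))))
 (.n (.n (.p (nat_lit 0x2726272427222720271e271c06) (nat_lit 0x92101) (nat_lit 52))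
 (.p (nat_lit 0x12e612e412e012dc0747074306) (nat_lit 0x5000046023) (nat_lit 51)))
 (.n (.p (nat_lit 0x2416070702) (nat_lit 0x100b07) (nat_lit 4))
 (.p (nat_lit 0x5ea425d302) (nat_lit 0x80050a00) (nat_lit 48)))))
 (.n (.n (.n (.p (nat_lit 0x18ea18e818e618e01625162306) (nat_lit 0x3000016700) (nat_lit 51))
 (.p (nat_lit 0x9da0d4502) (nat_lit 0x14011c) (nat_lit 5)))
 (.n (.p (nat_lit 0x79224af02) (nat_lit 0x540006) (nat_lit 5))
 (.p (nat_lit 0x5e02334d02) (nat_lit 0x6000e300) (nat_lit 47))))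
 (.n (.n (.p (nat_lit 0x11441140113e113c113a232306) (nat_lit 0x80000c8a02) (nat_lit 52))
 (.p (nat_lit 0xb5d089f02) (nat_lit 0x50012a) (nat_lit 15)))
 (.n (.p (nat_lit 0x1ed52f302) (nat_lit 0x34050e) (nat_lit 30))
 (.p (nat_lit 0x1c46608302) (nat_lit 0x344380a64000200040600) (nat_lit 50))))))

def c1024_935 : Tr :=
 .n (.n (.n (.n (.n (.p (nat_lit 0x67a0678067206700653065106) (nat_lit 0x6000046000) (nat_lit 51))
 (.p (nat_lit 0x4f214e2702) (nat_lit 0x40314) (nat_lit 15)))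
 (.n (.p (nat_lit 0x3bcb25bf02) (nat_lit 0x42b03) (nat_lit 16))
 (.p (nat_lit 0x43e425b02) (nat_lit 0x50062e) (nat_lit 1))))
 (.n (.n (.p (nat_lit 0x23031ff302) (nat_lit 0x4aa00) (nat_lit 16))
 (.p (nat_lit 0x4416471302) (nat_lit 0x400021) (nat_lit 5)))
 (.n (.p (nat_lit 0x1228516102) (nat_lit 0x40407) (nat_lit 29))
 (.p (nat_lit 0x5d7f1adf02) (nat_lit 0x2e00a0000800) (nat_lit 38)))))
 (.n (.n (.n (.p (nat_lit 0x151b122702) (nat_lit 0x552500) (nat_lit 16))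
 (.p (nat_lit 0x4b184ca702) (nat_lit 0x40001b) (nat_lit 5)))
 (.n (.p (nat_lit 0x49c649c449c249c049be49bc00ee07) (nat_lit 0x705) (nat_lit 8))
 (.p (nat_lit 0x5d4307a702) (nat_lit 0xa0060000100) (nat_lit 40))))
 (.n (.n (.p (nat_lit 0x61310f02) (nat_lit 0x440402) (nat_lit 30))
 (.p (nat_lit 0x425b424f02) (nat_lit 0x500627) (nat_lit 16)))
 (.n (.p (nat_lit 0x50ea4b0f02) (nat_lit 0x50090d) (nat_lit 5))
 (.p (nat_lit 0x180e600b02) (nat_lit 0x405aa2354800100000600) (nat_lit 49))))))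
 (.n (.n (.n (.n (.p (nat_lit 0xe130b3502) (nat_lit 0x302300) (nat_lit 16))
 (.p (nat_lit 0x2023201702) (nat_lit 0x48915) (nat_lit 16)))
 (.n (.p (nat_lit 0x1c981c961c921c901c8e195306) (nat_lit 0x4000084704) (nat_lit 52))
 (.p (nat_lit 0x1b601b201ae01ac01cd019d06) (nat_lit 0x221670b) (nat_lit 26))))
 (.n (.n (.p (nat_lit 0x18f618f418f018ee1c1d1c1706) (nat_lit 0x4800096801) (nat_lit 51))
 (.p (nat_lit 0x17d411ad02) (nat_lit 0x340623) (nat_lit 5)))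
 (.n (.p (nat_lit 0x34f434f234f034ee34ec32dd06) (nat_lit 0x100000c6909) (nat_lit 52))
 (.p (nat_lit 0x13f45ef702) (nat_lit 0x3a2530344000500040000) (nat_lit 49)))))
 (.n (.n (.n (.p (nat_lit 0x1a5e1c3d02) (nat_lit 0x140800) (nat_lit 4))
 (.p (nat_lit 0x3681ec302) (nat_lit 0x30091c) (nat_lit 1)))
 (.n (.p (nat_lit 0x50051ad102) (nat_lit 0x440706) (nat_lit 16))
 (.p (nat_lit 0x5e3213ff02) (nat_lit 0x80040500) (nat_lit 46))))
 (.n (.n (.p (nat_lit 0xb781b1f02) (nat_lit 0x100203) (nat_lit 5))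
 (.p (nat_lit 0x43b57df02) (nat_lit 0x30062a) (nat_lit 30)))
 (.n (.p (nat_lit 0x4bbc4bba4bb84bb64bb4257706) (nat_lit 0x800048b0e) (nat_lit 52))
 (.p (nat_lit 0x648610f02) (nat_lit 0x3425299b0000000040000) (nat_lit 50))))))

def c512_423 : Tr := .n c1024_423 c1024_935

def c256_167 : Tr := .n c512_167 c512_423

def c128_39 : Tr := .n c256_39 c256_167

def c1024_103 : Tr :=
 .n (.n (.n (.n (.n (.n (.p (nat_lit 0x5c006902) (nat_lit 0x2000600002) (nat_lit 17))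
 (.p (nat_lit 0x1c3c613702) (nat_lit 0x3503a0d64000200040600) (nat_lit 49)))
 (.p (nat_lit 0x7da07d607d407d207d02bf106) (nat_lit 0x80000c890f) (nat_lit 51)))
 (.n (.p (nat_lit 0x8d387d02) (nat_lit 0x300403) (nat_lit 30))
 (.p (nat_lit 0x203f1d7502) (nat_lit 0x24082a) (nat_lit 15))))
 (.n (.n (.p (nat_lit 0x1d5b1a5f02) (nat_lit 0x146800) (nat_lit 16))
 (.p (nat_lit 0x24422440243c24380324030d0309243f243b09) (nat_lit 0x1900b1c) (nat_lit 10)))
 (.n (.p (nat_lit 0x12aa12a812a412a212a01d9b06) (nat_lit 0x400004a806) (nat_lit 51))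
 (.p (nat_lit 0x5cf55e4102) (nat_lit 0x280040000600) (nat_lit 37)))))
 (.n (.n (.n (.p (nat_lit 0xf5a0f580f560f500c930c9106) (nat_lit 0x30000d6300) (nat_lit 51))
 (.p (nat_lit 0x302aeb02) (nat_lit 0x340516) (nat_lit 1)))
 (.n (.p (nat_lit 0x208a2088208620842082247f06) (nat_lit 0x10000000b04) (nat_lit 52))
 (.p (nat_lit 0x5b045b025b005afe5afc0001028c07) (nat_lit 0x8015) (nat_lit 25))))
 (.n (.n (.p (nat_lit 0xfde0fda0fd80fd60fd41ee906) (nat_lit 0x8000008901) (nat_lit 52))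
 (.p (nat_lit 0x1ed21ed01ece1eca1ec803a51ecd07) (nat_lit 0x200923) (nat_lit 7)))
 (.n (.p (nat_lit 0x3f9337d502) (nat_lit 0x11430a) (nat_lit 16))
 (.p (nat_lit 0x233c5f3302) (nat_lit 0x3aa560c44000500000600) (nat_lit 49))))))
 (.n (.n (.n (.n (.p (nat_lit 0x7ce07cc07ca07c405c105bf06) (nat_lit 0x3000008100) (nat_lit 52))
 (.p (nat_lit 0x82a08260824082205d105c906) (nat_lit 0x8800090015) (nat_lit 52)))
 (.n (.p (nat_lit 0xa2a1f4b02) (nat_lit 0x540104) (nat_lit 4))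
 (.p (nat_lit 0x482648244820481e481c476b06) (nat_lit 0x40000c432f) (nat_lit 52))))
 (.n (.n (.p (nat_lit 0x247f215f02) (nat_lit 0x512b00) (nat_lit 16))
 (.p (nat_lit 0x4b8e4b8a4b884b864b84039b4b8d07) (nat_lit 0x440022) (nat_lit 7)))
 (.n (.p (nat_lit 0x2cdc2cda2cd82cd62cd2190706) (nat_lit 0x1000094707) (nat_lit 51))
 (.p (nat_lit 0x5e8a3f9702) (nat_lit 0x60000900) (nat_lit 48)))))
 (.n (.n (.n (.p (nat_lit 0x16a6169a16b303) (nat_lit 0x140600) (nat_lit 6))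
 (.p (nat_lit 0x169e169c169a169805df05dd06) (nat_lit 0x1800008c01c) (nat_lit 52)))
 (.n (.p (nat_lit 0x13f413f013ee13ec13ea1ac506) (nat_lit 0x80000ca705) (nat_lit 52))
 (.p (nat_lit 0x5cd70a5302) (nat_lit 0x160020000200) (nat_lit 40))))
 (.n (.n (.p (nat_lit 0x32971ef302) (nat_lit 0x300902) (nat_lit 16))
 (.p (nat_lit 0x4f084f064f044f004efe499106) (nat_lit 0x2000090628) (nat_lit 52)))
 (.n (.p (nat_lit 0x79c079a0796079410e510df06) (nat_lit 0x1200000240e) (nat_lit 52))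
 (.p (nat_lit 0x2346603502) (nat_lit 0x4099a2335000500000600) (nat_lit 50))))))

def c1024_615 : Tr :=
 .n (.n (.n (.n (.n (.n (.p (nat_lit 0x3cb03c503bf03b004) (nat_lit 0x71100023) (nat_lit 20))
 (.p (nat_lit 0x13ec61b302) (nat_lit 0x522266c0d000500040000) (nat_lit 49)))
 (.p (nat_lit 0x410a41084104410241000255410707) (nat_lit 0x340412) (nat_lit 7)))
 (.n (.p (nat_lit 0x232e1d0d02) (nat_lit 0x440a03) (nat_lit 5))
 (.p (nat_lit 0x13161312130e130c3367336306) (nat_lit 0xa00000ea2c) (nat_lit 52))))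
 (.n (.n (.p (nat_lit 0x20dc20da20d620d41e971e9106) (nat_lit 0x12000086a00) (nat_lit 51))
 (.p (nat_lit 0xe9a0e980e940e920e903b9506) (nat_lit 0x4000080b1f) (nat_lit 52)))
 (.n (.p (nat_lit 0xfdc0fda0fd80fd60fd40e0b06) (nat_lit 0x10000008307) (nat_lit 52))
 (.p (nat_lit 0x5ca11ad502) (nat_lit 0x1c0000000800) (nat_lit 38)))))
 (.n (.n (.n (.p (nat_lit 0x12b612b212b012ae12ac10cb06) (nat_lit 0x8000002500) (nat_lit 52))
 (.p (nat_lit 0x420a3e3502) (nat_lit 0x440519) (nat_lit 5)))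
 (.n (.p (nat_lit 0x12850fc502) (nat_lit 0x440305) (nat_lit 15))
 (.p (nat_lit 0x5ca304c302) (nat_lit 0x1a0000000000) (nat_lit 38))))
 (.n (.n (.p (nat_lit 0x8ac183b02) (nat_lit 0x102) (nat_lit 5))
 (.p (nat_lit 0x9035cb02) (nat_lit 0x500126) (nat_lit 1)))
 (.n (.p (nat_lit 0x46ec43c702) (nat_lit 0x30030c) (nat_lit 4))
 (.p (nat_lit 0x233e5fbf02) (nat_lit 0x89832955800500000600) (nat_lit 50))))))
 (.n (.n (.n (.n (.p (nat_lit 0xbd40bd20bce0bcc0bca09d306) (nat_lit 0x40000c0200) (nat_lit 52))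
 (.p (nat_lit 0x14eb14df02) (nat_lit 0x548515) (nat_lit 16)))
 (.n (.p (nat_lit 0x64a0648064606440642168106) (nat_lit 0x800080604) (nat_lit 51))
 (.p (nat_lit 0xe3599502) (nat_lit 0x305) (nat_lit 28))))
 (.n (.n (.p (nat_lit 0x28d10e2b02) (nat_lit 0x300301) (nat_lit 16))
 (.p (nat_lit 0x79e079c07980796079409eb06) (nat_lit 0x4000042123) (nat_lit 52)))
 (.n (.p (nat_lit 0x2a132a0702) (nat_lit 0x544408) (nat_lit 16))
 (.p (nat_lit 0x5d79249502) (nat_lit 0x40080000b00) (nat_lit 41)))))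
 (.n (.n (.n (.p (nat_lit 0x1a261a241a221a20179d179b06) (nat_lit 0x180000d2700) (nat_lit 51))
 (.p (nat_lit 0x314032503210ecb0d6505) (nat_lit 0x6454051c) (nat_lit 9)))
 (.n (.p (nat_lit 0x1154de102) (nat_lit 0x140306) (nat_lit 30))
 (.p (nat_lit 0x5d430fdb02) (nat_lit 0xa0060000400) (nat_lit 38))))
 (.n (.n (.p (nat_lit 0x2471246502) (nat_lit 0x412b02) (nat_lit 16))
 (.p (nat_lit 0x1daa1da81da61da41da00b5506) (nat_lit 0x100001222a) (nat_lit 52)))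
 (.n (.p (nat_lit 0x50131a7f02) (nat_lit 0x55670e) (nat_lit 16))
 (.p (nat_lit 0x248460af02) (nat_lit 0x344589ca4000500040600) (nat_lit 49))))))

def c512_103 : Tr := .n c1024_103 c1024_615

def c1024_359 : Tr :=
 .n (.n (.n (.n (.n (.n (.p (nat_lit 0x17601740170017b04) (nat_lit 0xd000400008) (nat_lit 17))
 (.p (nat_lit 0x181c617502) (nat_lit 0x521a86b11000100000600) (nat_lit 50)))
 (.p (nat_lit 0x38e053af02) (nat_lit 0x100411) (nat_lit 29)))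
 (.n (.p (nat_lit 0x1a281a261a241a22167f167506) (nat_lit 0x10800092603) (nat_lit 51))
 (.p (nat_lit 0x16121610160e160a1608288306) (nat_lit 0x200005422b) (nat_lit 51))))
 (.n (.n (.p (nat_lit 0xb81d2d02) (nat_lit 0x240900) (nat_lit 1))
 (.p (nat_lit 0xd280d260d220d200d1e334d06) (nat_lit 0x4000000a1e) (nat_lit 52)))
 (.n (.p (nat_lit 0xb3a04e702) (nat_lit 0x207) (nat_lit 4))
 (.p (nat_lit 0x5e542d9f02) (nat_lit 0x20046700) (nat_lit 47)))))
 (.n (.n (.n (.p (nat_lit 0x10fb0dfd02) (nat_lit 0x40c400) (nat_lit 16))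
 (.p (nat_lit 0x354054b902) (nat_lit 0x240018) (nat_lit 29)))
 (.n (.p (nat_lit 0x793078702) (nat_lit 0x54c005) (nat_lit 16))
 (.p (nat_lit 0x39c039a039803920387030b06) (nat_lit 0xa12822) (nat_lit 26))))
 (.n (.n (.p (nat_lit 0x11c21b302) (nat_lit 0x500a01) (nat_lit 1))
 (.p (nat_lit 0x15e215e015de15dc15d8273706) (nat_lit 0x1000010124) (nat_lit 52)))
 (.n (.p (nat_lit 0x3e6c526d02) (nat_lit 0x20020b) (nat_lit 29))
 (.p (nat_lit 0x6485f7502) (nat_lit 0x1aa074b50000000040000) (nat_lit 50))))))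
 (.n (.n (.n (.n (.p (nat_lit 0xa15071d02) (nat_lit 0x50100) (nat_lit 16))
 (.p (nat_lit 0xeca0ec80ec40ec20ec0124706) (nat_lit 0x40000ca415) (nat_lit 51)))
 (.n (.p (nat_lit 0xfbd0fb102) (nat_lit 0x56304) (nat_lit 16))
 (.p (nat_lit 0x620060005e005c0001018706) (nat_lit 0x114002) (nat_lit 26))))
 (.n (.n (.p (nat_lit 0x75216cf02) (nat_lit 0x340001) (nat_lit 4))
 (.p (nat_lit 0x14821480147a147805e705e506) (nat_lit 0x6000090023) (nat_lit 52)))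
 (.n (.p (nat_lit 0x43ea43e843e643e443e2216b06) (nat_lit 0x1000008ca07) (nat_lit 52))
 (.p (nat_lit 0x5ea2451d02) (nat_lit 0x60008a00) (nat_lit 47)))))
 (.n (.n (.n (.p (nat_lit 0x1870186e186a1868162b162506) (nat_lit 0x12000006700) (nat_lit 52))
 (.p (nat_lit 0xa7e0a7c0a7a0a760a74088106) (nat_lit 0x200000811c) (nat_lit 52)))
 (.n (.p (nat_lit 0x1d971d8b02) (nat_lit 0x14c805) (nat_lit 16))
 (.p (nat_lit 0x5d115dff02) (nat_lit 0xc0040000300) (nat_lit 37))))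
 (.n (.n (.p (nat_lit 0x59336b02) (nat_lit 0x40a02) (nat_lit 30))
 (.p (nat_lit 0x89e089c089808960894043b089b07) (nat_lit 0x30012a) (nat_lit 7)))
 (.n (.p (nat_lit 0x138607e502) (nat_lit 0x40050e) (nat_lit 5))
 (.p (nat_lit 0x8f6607502) (nat_lit 0x4688ae154000100040000) (nat_lit 50))))))

def c1024_871 : Tr :=
 .n (.n (.n (.n (.n (.n (.p (nat_lit 0x61304dd02) (nat_lit 0x112000) (nat_lit 16))
 (.p (nat_lit 0xe7c61f102) (nat_lit 0x382a31d05000300040000) (nat_lit 50)))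
 (.p (nat_lit 0x1f049df02) (nat_lit 0x500713) (nat_lit 1)))
 (.n (.p (nat_lit 0xd100d0c0d0a0d0825c725bf06) (nat_lit 0x8800046b03) (nat_lit 52))
 (.p (nat_lit 0x1fe41fe21fe01fde1fdc3e7f06) (nat_lit 0x80001622e) (nat_lit 51))))
 (.n (.n (.p (nat_lit 0x22a0229e229a229822961ff906) (nat_lit 0x40000cea00) (nat_lit 52))
 (.p (nat_lit 0x36b561902) (nat_lit 0x400720) (nat_lit 30)))
 (.n (.p (nat_lit 0x10d8069302) (nat_lit 0x500407) (nat_lit 4))
 (.p (nat_lit 0x5d511c4302) (nat_lit 0x2c0080000800) (nat_lit 39)))))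
 (.n (.n (.n (.p (nat_lit 0x148e148c148614841223122106) (nat_lit 0x6000052500) (nat_lit 52))
 (.p (nat_lit 0x498645db02) (nat_lit 0x30061a) (nat_lit 5)))
 (.n (.p (nat_lit 0x498b169702) (nat_lit 0x504605) (nat_lit 16))
 (.p (nat_lit 0x5cd3079702) (nat_lit 0x1a0020000100) (nat_lit 38))))
 (.n (.n (.p (nat_lit 0x3070306e306a306830660f9f06) (nat_lit 0x4000054302) (nat_lit 51))
 (.p (nat_lit 0x1e4e1e4c1e4a1e461e443df706) (nat_lit 0x200004c127) (nat_lit 52)))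
 (.n (.p (nat_lit 0x1e152b902) (nat_lit 0x44070d) (nat_lit 30))
 (.p (nat_lit 0x181e5ff702) (nat_lit 0x386a81c35000100000600) (nat_lit 50))))))
 (.n (.n (.n (.n (.p (nat_lit 0xd620d600d5e0d5a0b390b3106) (nat_lit 0x1100008a300) (nat_lit 52))
 (.p (nat_lit 0x1d631d5702) (nat_lit 0x548815) (nat_lit 16)))
 (.n (.p (nat_lit 0x429717fd02) (nat_lit 0x548604) (nat_lit 16))
 (.p (nat_lit 0x4825a4502) (nat_lit 0x400409) (nat_lit 27))))
 (.n (.n (.p (nat_lit 0x1c1c2af702) (nat_lit 0x300801) (nat_lit 29))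
 (.p (nat_lit 0x28770cab02) (nat_lit 0x24c223) (nat_lit 16)))
 (.n (.p (nat_lit 0x316f309302) (nat_lit 0x440309) (nat_lit 15))
 (.p (nat_lit 0x1dac5eeb02) (nat_lit 0x4a8876344000300000600) (nat_lit 50)))))
 (.n (.n (.n (.p (nat_lit 0x1bc918ff02) (nat_lit 0x300800) (nat_lit 15))
 (.p (nat_lit 0x1d58555d02) (nat_lit 0x4081c) (nat_lit 29)))
 (.n (.p (nat_lit 0x2c1acb02) (nat_lit 0x140706) (nat_lit 1))
 (.p (nat_lit 0x5d3313fd02) (nat_lit 0x1a0060000500) (nat_lit 41))))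
 (.n (.n (.p (nat_lit 0x23e0a1b02) (nat_lit 0x340103) (nat_lit 1))
 (.p (nat_lit 0xf8a0f860f840f820f80043d0f8907) (nat_lit 0x44032a) (nat_lit 7)))
 (.n (.p (nat_lit 0x2422085b02) (nat_lit 0x100b0e) (nat_lit 5))
 (.p (nat_lit 0x1ae260f702) (nat_lit 0x440d663a4000200000600) (nat_lit 50))))))

def c512_359 : Tr := .n c1024_359 c1024_871

def c256_103 : Tr := .n c512_103 c512_359

def c1024_231 : Tr :=
 .n (.n (.n (.n (.n (.n (.p (nat_lit 0xe800e600e200ef04) (nat_lit 0x6800400005) (nat_lit 17))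
 (.p (nat_lit 0xe7e615702) (nat_lit 0x1503a8895800300040000) (nat_lit 50)))
 (.p (nat_lit 0x32a2539b02) (nat_lit 0x300910) (nat_lit 29)))
 (.n (.p (nat_lit 0x13c4399102) (nat_lit 0x500503) (nat_lit 29))
 (.p (nat_lit 0x435583902) (nat_lit 0x40a2a) (nat_lit 30))))
 (.n (.n (.p (nat_lit 0x1e5a1e581e561e521e501bc706) (nat_lit 0x200008c900) (nat_lit 51))
 (.p (nat_lit 0x2c0428b902) (nat_lit 0x24091d) (nat_lit 4)))
 (.n (.p (nat_lit 0x20fe20fa20f820f620f41f0106) (nat_lit 0x800000a906) (nat_lit 52))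
 (.p (nat_lit 0x5d8f16a302) (nat_lit 0x1e00a0000600) (nat_lit 39)))))
 (.n (.n (.n (.p (nat_lit 0x100e100c100a10081006100406) (nat_lit 0x2400) (nat_lit 52))
 (.p (nat_lit 0x32802ef902) (nat_lit 0x440517) (nat_lit 5)))
 (.n (.p (nat_lit 0x21462140213e213c25d325d106) (nat_lit 0xc000050b04) (nat_lit 51))
 (.p (nat_lit 0x30e030c030a030603ab000306) (nat_lit 0x290a01c) (nat_lit 26))))
 (.n (.n (.p (nat_lit 0xa4e0a4c0a4a0a460a44204b06) (nat_lit 0x2000044901) (nat_lit 52))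
 (.p (nat_lit 0x41e244702) (nat_lit 0x100b23) (nat_lit 1)))
 (.n (.p (nat_lit 0x19d525502) (nat_lit 0x24060a) (nat_lit 30))
 (.p (nat_lit 0x1db65f5702) (nat_lit 0x1aa522350000300000600) (nat_lit 50))))))
 (.n (.n (.n (.n (.p (nat_lit 0x1f0072702) (nat_lit 0x540100) (nat_lit 1))
 (.p (nat_lit 0x10f00be102) (nat_lit 0x500415) (nat_lit 5)))
 (.n (.p (nat_lit 0xcec1dff02) (nat_lit 0x540204) (nat_lit 5))
 (.p (nat_lit 0x50d24f9f02) (nat_lit 0x540830) (nat_lit 4))))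
 (.n (.n (.p (nat_lit 0x25682566256425622560255e06) (nat_lit 0xd2b00) (nat_lit 52))
 (.p (nat_lit 0xd4c0d4a0d480d440d42506106) (nat_lit 0x2000082822) (nat_lit 51)))
 (.n (.p (nat_lit 0x51a651a451a251a0519e519c014c07) (nat_lit 0x40807) (nat_lit 8))
 (.p (nat_lit 0x5c9121d902) (nat_lit 0x2c0000000a00) (nat_lit 41)))))
 (.n (.n (.n (.p (nat_lit 0x178417821780177c177a16b506) (nat_lit 0x2000054600) (nat_lit 52))
 (.p (nat_lit 0x154a1546154415421540073d06) (nat_lit 0x800004c01c) (nat_lit 51)))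
 (.n (.p (nat_lit 0x1fb41fb21fae1fac1faa1c2906) (nat_lit 0x400000c805) (nat_lit 51))
 (.p (nat_lit 0x5d5b0baf02) (nat_lit 0x220080000200) (nat_lit 39))))
 (.n (.n (.p (nat_lit 0x21bc18d102) (nat_lit 0x400a02) (nat_lit 4))
 (.p (nat_lit 0x4d484e6f02) (nat_lit 0x240229) (nat_lit 5)))
 (.n (.p (nat_lit 0x7aa07a807a407a207a0123b06) (nat_lit 0x400004240e) (nat_lit 51))
 (.p (nat_lit 0xd10605502) (nat_lit 0x5858b0b44000300000000) (nat_lit 49))))))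

def c1024_743 : Tr :=
 .n (.n (.n (.n (.n (.n (.p (nat_lit 0x4fc04fa04f604f404e104db06) (nat_lit 0x4800084000) (nat_lit 52))
 (.p (nat_lit 0x64661d502) (nat_lit 0x54216ac0c800000040000) (nat_lit 50)))
 (.p (nat_lit 0x42c23dd902) (nat_lit 0x300712) (nat_lit 5)))
 (.n (.p (nat_lit 0x16a216a0169e169c169a246906) (nat_lit 0x80008cb03) (nat_lit 52))
 (.p (nat_lit 0x1bb41bb01bae1bac1baa376306) (nat_lit 0x800005622d) (nat_lit 52))))
 (.n (.n (.p (nat_lit 0x21b31e9702) (nat_lit 0x50ca00) (nat_lit 16))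
 (.p (nat_lit 0x3de83f5302) (nat_lit 0x140120) (nat_lit 5)))
 (.n (.p (nat_lit 0xfea0fe60fe40fe20fe00f7106) (nat_lit 0x8000048307) (nat_lit 51))
 (.p (nat_lit 0x5cf55e6f02) (nat_lit 0x280040000800) (nat_lit 36)))))
 (.n (.n (.n (.p (nat_lit 0x13b910cd02) (nat_lit 0x50e500) (nat_lit 16))
 (.p (nat_lit 0x437c3f0502) (nat_lit 0x140b19) (nat_lit 4)))
 (.n (.p (nat_lit 0x151e226902) (nat_lit 0x140505) (nat_lit 5))
 (.p (nat_lit 0x5d3104c902) (nat_lit 0x1c0060000000) (nat_lit 38))))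
 (.n (.n (.p (nat_lit 0x5f2f4d02) (nat_lit 0x340202) (nat_lit 30))
 (.p (nat_lit 0x3b5038b902) (nat_lit 0x540a26) (nat_lit 4)))
 (.n (.p (nat_lit 0x14a4a2302) (nat_lit 0x54070c) (nat_lit 1))
 (.p (nat_lit 0xd1a5fd502) (nat_lit 0x382c60b44000300000000) (nat_lit 50))))))
 (.n (.n (.n (.n (.p (nat_lit 0xce309cd02) (nat_lit 0x52200) (nat_lit 16))
 (.p (nat_lit 0x2f162f142f122f0e2f0c192106) (nat_lit 0x2000014715) (nat_lit 52)))
 (.n (.p (nat_lit 0x17fc17fa17f617f417f200bb17f907) (nat_lit 0x340604) (nat_lit 7))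
 (.p (nat_lit 0x11c011801160114000904b906) (nat_lit 0x2010506) (nat_lit 26))))
 (.n (.n (.p (nat_lit 0x1293125702) (nat_lit 0x554401) (nat_lit 16))
 (.p (nat_lit 0xb5056b702) (nat_lit 0x500223) (nat_lit 29)))
 (.n (.p (nat_lit 0x2f2e2c8f02) (nat_lit 0x209) (nat_lit 4))
 (.p (nat_lit 0x180e5ed102) (nat_lit 0x4a1a22344000100000600) (nat_lit 49)))))
 (.n (.n (.n (.p (nat_lit 0x8e190102) (nat_lit 0x400800) (nat_lit 1))
 (.p (nat_lit 0x192e0d8502) (nat_lit 0x30071c) (nat_lit 5)))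
 (.n (.p (nat_lit 0x1533129302) (nat_lit 0x540406) (nat_lit 15))
 (.p (nat_lit 0x5cbb5e2302) (nat_lit 0x20000000500) (nat_lit 36))))
 (.n (.n (.p (nat_lit 0x76434cb02) (nat_lit 0x40003) (nat_lit 29))
 (.p (nat_lit 0x2080207c207a207820760cbb06) (nat_lit 0x800005422a) (nat_lit 51)))
 (.n (.p (nat_lit 0x1eae1eac1ea81ea61ea401ed1eab07) (nat_lit 0x30090e) (nat_lit 7))
 (.p (nat_lit 0x115060d702) (nat_lit 0x354a623b0000400040000) (nat_lit 50))))))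

def c512_231 : Tr := .n c1024_231 c1024_743

def c1024_487 : Tr :=
 .n (.n (.n (.n (.n (.n (.p (nat_lit 0x2ec02ea02e802f104) (nat_lit 0xe000400019) (nat_lit 17))
 (.p (nat_lit 0x8fc619902) (nat_lit 0x3422a5c14800100040000) (nat_lit 50)))
 (.p (nat_lit 0x2543af502) (nat_lit 0x300a11) (nat_lit 1)))
 (.n (.p (nat_lit 0x17fd17f102) (nat_lit 0x554603) (nat_lit 16))
 (.p (nat_lit 0x18ba18b618b418b218b02f4306) (nat_lit 0x800001222c) (nat_lit 52))))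
 (.n (.n (.p (nat_lit 0x1fe41fe01fde1fdc1fda1d3106) (nat_lit 0x8000056900) (nat_lit 51))
 (.p (nat_lit 0x35355c102) (nat_lit 0x20011f) (nat_lit 30)))
 (.n (.p (nat_lit 0xca40ca20c9e0c9c0c9a01470ca107) (nat_lit 0x340207) (nat_lit 7))
 (.p (nat_lit 0x5d6d181f02) (nat_lit 0x100080000700) (nat_lit 40)))))
 (.n (.n (.n (.p (nat_lit 0x11ac11aa11a811a60f670f6506) (nat_lit 0x180000cc400) (nat_lit 51))
 (.p (nat_lit 0x3b073afb02) (nat_lit 0x8a18) (nat_lit 16)))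
 (.n (.p (nat_lit 0xcf4461502) (nat_lit 0x340205) (nat_lit 29))
 (.p (nat_lit 0x43e043c0438043404a5000706) (nat_lit 0xb1222a) (nat_lit 26))))
 (.n (.n (.p (nat_lit 0x231f231302) (nat_lit 0x250a01) (nat_lit 16))
 (.p (nat_lit 0x2e32311d02) (nat_lit 0x125) (nat_lit 5)))
 (.n (.p (nat_lit 0x422b421f02) (nat_lit 0x50460b) (nat_lit 16))
 (.p (nat_lit 0xa445f9302) (nat_lit 0x580bb0344000200000000) (nat_lit 49))))))
 (.n (.n (.n (.n (.p (nat_lit 0xaa20a9e0a9a0a980879087506) (nat_lit 0xa00008a200) (nat_lit 51))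
 (.p (nat_lit 0x21e221de21dc21d81393138d06) (nat_lit 0x9000094515) (nat_lit 51)))
 (.n (.p (nat_lit 0x13ca1f9902) (nat_lit 0x200504) (nat_lit 5))
 (.p (nat_lit 0x8f593b02) (nat_lit 0x400403) (nat_lit 28))))
 (.n (.n (.p (nat_lit 0xb5e157b02) (nat_lit 0x201) (nat_lit 4))
 (.p (nat_lit 0xbb00bae0bac0baa0ba8088906) (nat_lit 0x800084123) (nat_lit 52)))
 (.n (.p (nat_lit 0x257405bb02) (nat_lit 0x540b07) (nat_lit 5))
 (.p (nat_lit 0x5ce35eb302) (nat_lit 0xa0020000b00) (nat_lit 36)))))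
 (.n (.n (.n (.p (nat_lit 0x194d162102) (nat_lit 0x12700) (nat_lit 16))
 (.p (nat_lit 0x2eb109db02) (nat_lit 0x14e11c) (nat_lit 16)))
 (.n (.p (nat_lit 0xa3a237102) (nat_lit 0x140106) (nat_lit 4))
 (.p (nat_lit 0x5d975e0902) (nat_lit 0x1600a0000300) (nat_lit 37))))
 (.n (.n (.p (nat_lit 0x249424922490248e248c232506) (nat_lit 0x100000d6a02) (nat_lit 51))
 (.p (nat_lit 0x67806760672067009fb09f506) (nat_lit 0x1200004612a) (nat_lit 51)))
 (.n (.p (nat_lit 0x41f914cb02) (nat_lit 0x15250e) (nat_lit 16))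
 (.p (nat_lit 0x1da2609302) (nat_lit 0x356221ca4000300000600) (nat_lit 49))))))

def c1024_999 : Tr :=
 .n (.n (.n (.n (.n (.p (nat_lit 0x70e070c070a07040651064f06) (nat_lit 0x3000056000) (nat_lit 52))
 (.p (nat_lit 0x4fda4bd702) (nat_lit 0x714) (nat_lit 4)))
 (.n (.p (nat_lit 0x8c7061302) (nat_lit 0x100004) (nat_lit 15))
 (.p (nat_lit 0x435641f302) (nat_lit 0x400b2e) (nat_lit 5))))
 (.n (.n (.p (nat_lit 0x2378237423722370215d215506) (nat_lit 0x8800082b00) (nat_lit 52))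
 (.p (nat_lit 0x45c845c445c245c045be458506) (nat_lit 0x800004a121) (nat_lit 52)))
 (.n (.p (nat_lit 0x12cc12ca12c812c612c4123306) (nat_lit 0x10000044407) (nat_lit 52))
 (.p (nat_lit 0x5cdb1f1302) (nat_lit 0x120020000900) (nat_lit 41)))))
 (.n (.n (.n (.p (nat_lit 0x15d415d015ce15cc1557155306) (nat_lit 0x1400008a600) (nat_lit 51))
 (.p (nat_lit 0x2b0501702) (nat_lit 0x14071b) (nat_lit 1)))
 (.n (.p (nat_lit 0x16ae16ac16aa16a816a6195906) (nat_lit 0x80008c705) (nat_lit 51))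
 (.p (nat_lit 0x5d5d5dd702) (nat_lit 0x200080000100) (nat_lit 36))))
 (.n (.n (.p (nat_lit 0x14f81a0902) (nat_lit 0x40502) (nat_lit 4))
 (.p (nat_lit 0x47ca47c847c447c247c0439906) (nat_lit 0x40000ceb27) (nat_lit 51)))
 (.n (.p (nat_lit 0xa720a700a6c0a680e130e0f06) (nat_lit 0x500008030e) (nat_lit 51))
 (.p (nat_lit 0x2070601702) (nat_lit 0x405aa2335000400000600) (nat_lit 49))))))
 (.n (.n (.n (.n (.p (nat_lit 0x3100c9902) (nat_lit 0x540300) (nat_lit 1))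
 (.p (nat_lit 0x333f217d02) (nat_lit 0x20ea15) (nat_lit 16)))
 (.n (.p (nat_lit 0x1963195702) (nat_lit 0x516704) (nat_lit 16))
 (.p (nat_lit 0x1465a7f02) (nat_lit 0x30050e) (nat_lit 27))))
 (.n (.n (.p (nat_lit 0x1d861d841d821d7c0046002f002d1d811d7f09) (nat_lit 0x1140801) (nat_lit 10))
 (.p (nat_lit 0x30c230be30bc30ba1aa31a9f06) (nat_lit 0x14000042723) (nat_lit 52)))
 (.n (.p (nat_lit 0x686068406820680067c337906) (nat_lit 0x10000c6a09) (nat_lit 52))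
 (.p (nat_lit 0x1ad45f1502) (nat_lit 0x3aa530344000200000600) (nat_lit 49)))))
 (.n (.n (.n (.p (nat_lit 0x1c961c941c921c8e1a671a5f06) (nat_lit 0x110000c4800) (nat_lit 52))
 (.p (nat_lit 0x32f9202902) (nat_lit 0x34e91c) (nat_lit 16)))
 (.n (.p (nat_lit 0x114411421140113e113c1c2f06) (nat_lit 0x800088806) (nat_lit 52))
 (.p (nat_lit 0x5ca5153502) (nat_lit 0x180000000600) (nat_lit 38))))
 (.n (.n (.p (nat_lit 0x37550cdd02) (nat_lit 0x348203) (nat_lit 16))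
 (.p (nat_lit 0x47c194302) (nat_lit 0x10072a) (nat_lit 1)))
 (.n (.p (nat_lit 0x2ad826f902) (nat_lit 0x4050f) (nat_lit 5))
 (.p (nat_lit 0x1698611b02) (nat_lit 0x350522264000000040600) (nat_lit 49))))))

def c512_487 : Tr := .n c1024_487 c1024_999

def c256_231 : Tr := .n c512_231 c512_487

def c128_103 : Tr := .n c256_103 c256_231

def c64_39 : Tr := .n c128_39 c128_103

def c32_7 : Tr := .n c64_7 c64_39

def c1024_23 : Tr :=
 .n (.n (.n (.n (.n (.n (.p (nat_lit 0x270025001f001d001b001706) (nat_lit 0x336200000) (nat_lit 22))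
 (.p (nat_lit 0x113c612902) (nat_lit 0x35486a3a4000400040000) (nat_lit 49)))
 (.p (nat_lit 0x2180221021d277b270905) (nat_lit 0xb1a0080f) (nat_lit 9)))
 (.n (.p (nat_lit 0x37f237f037ee37ec37ea37e8009207) (nat_lit 0x40303) (nat_lit 8))
 (.p (nat_lit 0x47c1aa702) (nat_lit 0x14072a) (nat_lit 1))))
 (.n (.n (.p (nat_lit 0x1cf61cf41cf21cf01cec1a5f06) (nat_lit 0x10000cc800) (nat_lit 52))
 (.p (nat_lit 0x2199218d02) (nat_lit 0x40aa1c) (nat_lit 16)))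
 (.n (.p (nat_lit 0x50391c2f02) (nat_lit 0x806) (nat_lit 16))
 (.p (nat_lit 0x5ce35e3d02) (nat_lit 0xa0020000600) (nat_lit 37)))))
 (.n (.n (.n (.p (nat_lit 0xeb20eb00eae0ea80c930c9106) (nat_lit 0x30000c2300) (nat_lit 52))
 (.p (nat_lit 0x242e0b1b02) (nat_lit 0x100b15) (nat_lit 5)))
 (.n (.p (nat_lit 0x1b781b741b721b701b6e1ab906) (nat_lit 0x80000ca704) (nat_lit 52))
 (.p (nat_lit 0x1e95aab02) (nat_lit 0x100b0e) (nat_lit 28))))
 (.n (.n (.p (nat_lit 0x204f1d8502) (nat_lit 0x440801) (nat_lit 15))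
 (.p (nat_lit 0x38c438c038be38bc38ba1c0706) (nat_lit 0x8000016823) (nat_lit 52)))
 (.n (.p (nat_lit 0x36b6343f02) (nat_lit 0x20a) (nat_lit 4))
 (.p (nat_lit 0x1ad45f1d02) (nat_lit 0x3a2274350000200000600) (nat_lit 49))))))
 (.n (.n (.n (.n (.p (nat_lit 0x771064d02) (nat_lit 0x52000) (nat_lit 16))
 (.p (nat_lit 0x93a0938093609340932504506) (nat_lit 0x80000a814) (nat_lit 52)))
 (.n (.p (nat_lit 0x3cc83cc63cc43cc23cbe077306) (nat_lit 0x100004c004) (nat_lit 51))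
 (.p (nat_lit 0x460648fb02) (nat_lit 0x20022f) (nat_lit 5))))
 (.n (.n (.p (nat_lit 0x23ec23ea23e623e4215f215906) (nat_lit 0x12000010b00) (nat_lit 52))
 (.p (nat_lit 0xd320d300d2e0d2c0d2a49f706) (nat_lit 0x10000080721) (nat_lit 51)))
 (.n (.p (nat_lit 0x190b163302) (nat_lit 0x300607) (nat_lit 15))
 (.p (nat_lit 0x5d175e8702) (nat_lit 0x60040000900) (nat_lit 36)))))
 (.n (.n (.n (.p (nat_lit 0x16121610160e160c160a154d06) (nat_lit 0x800014600) (nat_lit 51))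
 (.p (nat_lit 0x54fa54f854f654f454f254f0031207) (nat_lit 0x1c) (nat_lit 8)))
 (.n (.p (nat_lit 0x4a03195902) (nat_lit 0xa705) (nat_lit 16))
 (.p (nat_lit 0x5dda05d302) (nat_lit 0xa0006100) (nat_lit 48))))
 (.n (.n (.p (nat_lit 0x150714fb02) (nat_lit 0x152502) (nat_lit 16))
 (.p (nat_lit 0x4520480f02) (nat_lit 0x500128) (nat_lit 5)))
 (.n (.p (nat_lit 0xf7a52db02) (nat_lit 0x34030e) (nat_lit 29))
 (.p (nat_lit 0xe7c602102) (nat_lit 0x406a6252d000300040000) (nat_lit 50))))))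

def c1024_535 : Tr :=
 .n (.n (.n (.n (.n (.n (.p (nat_lit 0x32b0323031403) (nat_lit 0x4190001c) (nat_lit 19))
 (.p (nat_lit 0x1ae261a102) (nat_lit 0x3222a5c15000200000600) (nat_lit 50)))
 (.p (nat_lit 0x3bcc362902) (nat_lit 0x140b11) (nat_lit 4)))
 (.n (.p (nat_lit 0x1f901f8e1f8c1f8a21cb21c106) (nat_lit 0x10800088a03) (nat_lit 51))
 (.p (nat_lit 0x312431223120311e311c301906) (nat_lit 0x200000232c) (nat_lit 51))))
 (.n (.n (.p (nat_lit 0x20371d3102) (nat_lit 0x448900) (nat_lit 16))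
 (.p (nat_lit 0x3a00382502) (nat_lit 0x50051f) (nat_lit 5)))
 (.n (.p (nat_lit 0xf6f0ca102) (nat_lit 0x340207) (nat_lit 15))
 (.p (nat_lit 0x5e5e17ef02) (nat_lit 0x80052700) (nat_lit 47)))))
 (.n (.n (.n (.p (nat_lit 0x124d0f5d02) (nat_lit 0x4c400) (nat_lit 16))
 (.p (nat_lit 0x3c563e9702) (nat_lit 0x19) (nat_lit 4)))
 (.n (.p (nat_lit 0xe5469b02) (nat_lit 0x100305) (nat_lit 30))
 (.p (nat_lit 0x5c625c605c5e5c5c5c580491044007) (nat_lit 0x10e92a) (nat_lit 25))))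
 (.n (.n (.p (nat_lit 0x758182f02) (nat_lit 0x40002) (nat_lit 5))
 (.p (nat_lit 0x32b0313f02) (nat_lit 0x925) (nat_lit 4)))
 (.n (.p (nat_lit 0x42ba3c4b02) (nat_lit 0x50070b) (nat_lit 4))
 (.p (nat_lit 0x7a65f9d02) (nat_lit 0x568bb0344000100000000) (nat_lit 50))))))
 (.n (.n (.n (.n (.p (nat_lit 0xb4f087902) (nat_lit 0x408200) (nat_lit 16))
 (.p (nat_lit 0x64a064806460644064214d506) (nat_lit 0x8000c0515) (nat_lit 51)))
 (.n (.p (nat_lit 0x13d913cd02) (nat_lit 0x316504) (nat_lit 16))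
 (.p (nat_lit 0x2ec595b02) (nat_lit 0x400204) (nat_lit 27))))
 (.n (.n (.p (nat_lit 0x282e282c282a282828262824003607) (nat_lit 0x40201) (nat_lit 8))
 (.p (nat_lit 0x1daa1da81da61da41da0088b06) (nat_lit 0x1000012123) (nat_lit 52)))
 (.n (.p (nat_lit 0x2f33281102) (nat_lit 0x210208) (nat_lit 16))
 (.p (nat_lit 0x5d05233702) (nat_lit 0x180040000b00) (nat_lit 38)))))
 (.n (.n (.n (.p (nat_lit 0x1985197902) (nat_lit 0x440700) (nat_lit 34))
 (.p (nat_lit 0xff60ff20ff00fee0fec139f06) (nat_lit 0x800000051c) (nat_lit 52)))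
 (.n (.p (nat_lit 0xb9a24c902) (nat_lit 0x206) (nat_lit 5))
 (.p (nat_lit 0x5e0a506902) (nat_lit 0x16400) (nat_lit 48))))
 (.n (.n (.p (nat_lit 0x660075006f18e71a4b05) (nat_lit 0x44300b02) (nat_lit 9))
 (.p (nat_lit 0xb56141f02) (nat_lit 0x20022a) (nat_lit 5)))
 (.n (.p (nat_lit 0x1645163902) (nat_lit 0x660e) (nat_lit 16))
 (.p (nat_lit 0x1ae4609d02) (nat_lit 0x346068ca4000200000600) (nat_lit 50))))))

def c512_23 : Tr := .n c1024_23 c1024_535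

def c1024_279 : Tr :=
 .n (.n (.n (.n (.n (.n (.p (nat_lit 0x11a01140112011f04) (nat_lit 0x9800400006) (nat_lit 17))
 (.p (nat_lit 0x1f0e616102) (nat_lit 0x3503a8d84000300040600) (nat_lit 49)))
 (.p (nat_lit 0x33882e9d02) (nat_lit 0x340a10) (nat_lit 4)))
 (.n (.p (nat_lit 0x3a2c3a2a3a283a261507150506) (nat_lit 0x1800044503) (nat_lit 51))
 (.p (nat_lit 0x4351245302) (nat_lit 0x112b2a) (nat_lit 16))))
 (.n (.n (.p (nat_lit 0x1e8a1e881e861e841e801bc506) (nat_lit 0x1000096900) (nat_lit 52))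
 (.p (nat_lit 0x2d9c2fc902) (nat_lit 0x4001e) (nat_lit 5)))
 (.n (.p (nat_lit 0x113511902) (nat_lit 0x40906) (nat_lit 30))
 (.p (nat_lit 0x5c995e5302) (nat_lit 0x240000000700) (nat_lit 36)))))
 (.n (.n (.n (.p (nat_lit 0x103e103c1038103610340dfb06) (nat_lit 0x400000c400) (nat_lit 52))
 (.p (nat_lit 0x33422f1502) (nat_lit 0x400a17) (nat_lit 4)))
 (.n (.p (nat_lit 0x62421ed02) (nat_lit 0x400005) (nat_lit 5))
 (.p (nat_lit 0x340033e033c033803d5002b06) (nat_lit 0x100a01d) (nat_lit 26))))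
 (.n (.n (.p (nat_lit 0x1ade1adc1ad81ad61ad4204d06) (nat_lit 0x4000050901) (nat_lit 52))
 (.p (nat_lit 0x33ff244b02) (nat_lit 0x30eb23) (nat_lit 16)))
 (.n (.p (nat_lit 0x1483b7302) (nat_lit 0x400b0a) (nat_lit 1))
 (.p (nat_lit 0x11405f5f02) (nat_lit 0x4a1d22344000400040000) (nat_lit 49))))))
 (.n (.n (.n (.n (.p (nat_lit 0x93a0936093409320725071d06) (nat_lit 0x880004a100) (nat_lit 52))
 (.p (nat_lit 0xdcc0dca0dc80dc610f110e706) (nat_lit 0x10800014415) (nat_lit 52)))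
 (.n (.p (nat_lit 0xe481f6502) (nat_lit 0x304) (nat_lit 4))
 (.p (nat_lit 0x320030002c002a0005034106) (nat_lit 0x1512301) (nat_lit 26))))
 (.n (.n (.p (nat_lit 0x25a922bd02) (nat_lit 0x14ab00) (nat_lit 16))
 (.p (nat_lit 0x46ae46ac46aa46a846a6510306) (nat_lit 0x800000922) (nat_lit 52)))
 (.n (.p (nat_lit 0x1e9e057b02) (nat_lit 0x300907) (nat_lit 5))
 (.p (nat_lit 0x5cd321db02) (nat_lit 0x1a0020000a00) (nat_lit 41)))))
 (.n (.n (.n (.p (nat_lit 0x17d316b502) (nat_lit 0x248600) (nat_lit 16))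
 (.p (nat_lit 0x248a2488248624800739073706) (nat_lit 0x30000d601c) (nat_lit 52)))
 (.n (.p (nat_lit 0xe74a8702) (nat_lit 0x240805) (nat_lit 30))
 (.p (nat_lit 0x5d8d0a4f02) (nat_lit 0x2000a0000200) (nat_lit 38))))
 (.n (.n (.p (nat_lit 0x129e12981296129421bd21bb06) (nat_lit 0xc00000aa02) (nat_lit 52))
 (.p (nat_lit 0x5072579b02) (nat_lit 0x500829) (nat_lit 29)))
 (.n (.p (nat_lit 0x1adc1ada1ad81ad61ad4123f06) (nat_lit 0x1000005040e) (nat_lit 52))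
 (.p (nat_lit 0xba6606102) (nat_lit 0x85ab0335000200040000) (nat_lit 49))))))

def c1024_791 : Tr :=
 .n (.n (.n (.n (.n (.n (.p (nat_lit 0x52c052a05260524052204e106) (nat_lit 0x4000088000) (nat_lit 51))
 (.p (nat_lit 0x197861df02) (nat_lit 0x3508a5d84000100040600) (nat_lit 49)))
 (.p (nat_lit 0x47d844c102) (nat_lit 0x413) (nat_lit 4)))
 (.n (.p (nat_lit 0x167b246f02) (nat_lit 0x300b03) (nat_lit 15))
 (.p (nat_lit 0x4343ba702) (nat_lit 0xb2d) (nat_lit 1))))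
 (.n (.n (.p (nat_lit 0x1ffc1ffa1ff61ff40010000700011ff91ff309) (nat_lit 0x1840a00) (nat_lit 10))
 (.p (nat_lit 0x423a3f5f02) (nat_lit 0x100620) (nat_lit 5)))
 (.n (.p (nat_lit 0x21e221de21dc21da21d80f7106) (nat_lit 0x80000d4307) (nat_lit 51))
 (.p (nat_lit 0x5d251adb02) (nat_lit 0x280060000800) (nat_lit 38)))))
 (.n (.n (.n (.p (nat_lit 0x12241220121e121c0026000b00071227122309) (nat_lit 0x2b40500) (nat_lit 10))
 (.p (nat_lit 0x485a45b702) (nat_lit 0x24041a) (nat_lit 4)))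
 (.n (.p (nat_lit 0x168c496302) (nat_lit 0x605) (nat_lit 29))
 (.p (nat_lit 0x5dc009f902) (nat_lit 0x80048000) (nat_lit 48))))
 (.n (.n (.p (nat_lit 0x5d2fb502) (nat_lit 0x200302) (nat_lit 30))
 (.p (nat_lit 0x3bf238cb02) (nat_lit 0x240b26) (nat_lit 4)))
 (.n (.p (nat_lit 0x1df529f02) (nat_lit 0x30030d) (nat_lit 30))
 (.p (nat_lit 0x13fc5fe102) (nat_lit 0x3062a1c35000500040000) (nat_lit 50))))))
 (.n (.n (.n (.n (.p (nat_lit 0xb380d1d02) (nat_lit 0x500300) (nat_lit 5))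
 (.p (nat_lit 0x2f7e2f7c2f7a2f782f761a8106) (nat_lit 0x800054715) (nat_lit 51)))
 (.n (.p (nat_lit 0xe820e800e7e0e7c0e7817f506) (nat_lit 0x10000c6604) (nat_lit 51))
 (.p (nat_lit 0x14a0148014601400439000306) (nat_lit 0x1108307) (nat_lit 26))))
 (.n (.n (.p (nat_lit 0x14ec173f02) (nat_lit 0x40501) (nat_lit 4))
 (.p (nat_lit 0xca6102902) (nat_lit 0x40223) (nat_lit 5)))
 (.n (.p (nat_lit 0x2fa52f8d02) (nat_lit 0x48209) (nat_lit 16))
 (.p (nat_lit 0x7985ed902) (nat_lit 0x4a0d84344000100000000) (nat_lit 49)))))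
 (.n (.n (.n (.p (nat_lit 0x1b501b4e1b4c1b4a1903190106) (nat_lit 0x18000008800) (nat_lit 52))
 (.p (nat_lit 0x1a92554b02) (nat_lit 0x34071c) (nat_lit 29)))
 (.n (.p (nat_lit 0x791153102) (nat_lit 0x440506) (nat_lit 15))
 (.p (nat_lit 0x5cdb129702) (nat_lit 0x120020000500) (nat_lit 38))))
 (.n (.n (.p (nat_lit 0x3557076702) (nat_lit 0x148003) (nat_lit 16))
 (.p (nat_lit 0xe220e200e1c0e1a0e18043b0e1f07) (nat_lit 0x30032a) (nat_lit 7)))
 (.n (.p (nat_lit 0x2014099b02) (nat_lit 0x54090e) (nat_lit 5))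
 (.p (nat_lit 0x233660df02) (nat_lit 0x340d623a4000500000600) (nat_lit 49))))))

def c512_279 : Tr := .n c1024_279 c1024_791

def c256_23 : Tr := .n c512_23 c512_279

def c1024_151 : Tr :=
 .n (.n (.n (.n (.n (.n (.p (nat_lit 0x8c008a009503) (nat_lit 0x6000500003) (nat_lit 17))
 (.p (nat_lit 0x634614902) (nat_lit 0x350221d84000000040000) (nat_lit 49)))
 (.p (nat_lit 0x18d018ce18cc18ca18c8310506) (nat_lit 0x10000014410) (nat_lit 52)))
 (.n (.p (nat_lit 0x12661b5902) (nat_lit 0x140403) (nat_lit 4))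
 (.p (nat_lit 0x203e134702) (nat_lit 0x24092a) (nat_lit 5))))
 (.n (.n (.p (nat_lit 0x1bc81db302) (nat_lit 0x300900) (nat_lit 5))
 (.p (nat_lit 0x259b258f02) (nat_lit 0x4ab1c) (nat_lit 16)))
 (.n (.p (nat_lit 0x207e207c207a207820761d9f06) (nat_lit 0x10000054806) (nat_lit 51))
 (.p (nat_lit 0x5d2d169f02) (nat_lit 0x200060000600) (nat_lit 39)))))
 (.n (.n (.n (.p (nat_lit 0xfbb0c9902) (nat_lit 0x552300) (nat_lit 16))
 (.p (nat_lit 0x2ba8284f02) (nat_lit 0x400916) (nat_lit 5)))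
 (.n (.p (nat_lit 0x4353247902) (nat_lit 0x20ab04) (nat_lit 16))
 (.p (nat_lit 0x2ea5b2d02) (nat_lit 0x300915) (nat_lit 27))))
 (.n (.n (.p (nat_lit 0x248a24882486248224801ee506) (nat_lit 0x2000096901) (nat_lit 52))
 (.p (nat_lit 0x3a9571502) (nat_lit 0x440923) (nat_lit 30)))
 (.n (.p (nat_lit 0x38dc38da38d638d438d2019f38d907) (nat_lit 0x30040a) (nat_lit 7))
 (.p (nat_lit 0x6425f3d02) (nat_lit 0x3a2560c64000000040000) (nat_lit 50))))))
 (.n (.n (.n (.n (.p (nat_lit 0x856085408520850084c05bf06) (nat_lit 0x1000094100) (nat_lit 51))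
 (.p (nat_lit 0x72e072c072a072802ac028b02890733073109) (nat_lit 0x2c40015) (nat_lit 10)))
 (.n (.p (nat_lit 0xb861f5102) (nat_lit 0x200204) (nat_lit 4))
 (.p (nat_lit 0x4a56493502) (nat_lit 0x14072f) (nat_lit 5))))
 (.n (.n (.p (nat_lit 0x24b624b424b224b022c522c306) (nat_lit 0x18000042b00) (nat_lit 51))
 (.p (nat_lit 0x3024c8502) (nat_lit 0x440122) (nat_lit 1)))
 (.n (.p (nat_lit 0x1d351a6902) (nat_lit 0x40707) (nat_lit 15))
 (.p (nat_lit 0x5e8e408b02) (nat_lit 0x80002900) (nat_lit 47)))))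
 (.n (.n (.n (.p (nat_lit 0x170016fe16fc16fa16b316b106) (nat_lit 0x18000c4600) (nat_lit 51))
 (.p (nat_lit 0x88705df02) (nat_lit 0x50001c) (nat_lit 15)))
 (.n (.p (nat_lit 0x233c23382336233423321ac506) (nat_lit 0x8000056705) (nat_lit 52))
 (.p (nat_lit 0x5cf35de702) (nat_lit 0x2a0040000200) (nat_lit 36))))
 (.n (.n (.p (nat_lit 0x1af61af01aee1aec205b205906) (nat_lit 0xc000040902) (nat_lit 51))
 (.p (nat_lit 0x4b964ec102) (nat_lit 0x340029) (nat_lit 5)))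
 (.n (.p (nat_lit 0x198619841982197e197c10df06) (nat_lit 0x200008e40e) (nat_lit 51))
 (.p (nat_lit 0x636604302) (nat_lit 0x40a96254c800000040000) (nat_lit 49))))))

def c1024_663 : Tr :=
 .n (.n (.n (.n (.n (.n (.p (nat_lit 0x4510449044203) (nat_lit 0x4080002a) (nat_lit 19))
 (.p (nat_lit 0x207261bf02) (nat_lit 0x3221a9c15000400000600) (nat_lit 49)))
 (.p (nat_lit 0x53e653e453e253e053de53dc025a07) (nat_lit 0x40512) (nat_lit 8)))
 (.n (.p (nat_lit 0x3b683b663b643b623b603b5e009207) (nat_lit 0xb03) (nat_lit 8))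
 (.p (nat_lit 0x364a399b02) (nat_lit 0x4012d) (nat_lit 4))))
 (.n (.n (.p (nat_lit 0x213a2136213421301e951e8f06) (nat_lit 0x900008ea00) (nat_lit 51))
 (.p (nat_lit 0xd4c0d4a0d480d460d443be306) (nat_lit 0x8000c2b1f) (nat_lit 51)))
 (.n (.p (nat_lit 0x233c23382336233423320e0906) (nat_lit 0x8000016307) (nat_lit 52))
 (.p (nat_lit 0x5cdf5e6d02) (nat_lit 0xe0020000800) (nat_lit 37)))))
 (.n (.n (.n (.p (nat_lit 0x12e612e212e012dc10cb10c506) (nat_lit 0x9000006500) (nat_lit 51))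
 (.p (nat_lit 0xbf80bf60bf20bf00bee423306) (nat_lit 0x400000a619) (nat_lit 51)))
 (.n (.p (nat_lit 0x127c224f02) (nat_lit 0x40405) (nat_lit 4))
 (.p (nat_lit 0x5cd9063702) (nat_lit 0x140020000000) (nat_lit 39))))
 (.n (.n (.p (nat_lit 0x22a0a1102) (nat_lit 0x440102) (nat_lit 1))
 (.p (nat_lit 0x1bb41bb21bb01bae1baa364106) (nat_lit 0x1000056126) (nat_lit 52)))
 (.n (.p (nat_lit 0x4843475302) (nat_lit 0x24030c) (nat_lit 15))
 (.p (nat_lit 0x233e5fc702) (nat_lit 0x89832b05000500000600) (nat_lit 50))))))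
 (.n (.n (.n (.n (.p (nat_lit 0xc040c020c000bfe0bfc09cd06) (nat_lit 0x8000ca200) (nat_lit 52))
 (.p (nat_lit 0x1653164702) (nat_lit 0x108615) (nat_lit 16)))
 (.n (.p (nat_lit 0x16a216a0169c169a1698168706) (nat_lit 0x400008c604) (nat_lit 52))
 (.p (nat_lit 0xec00ea00e400e20007011706) (nat_lit 0x1a0e605) (nat_lit 26))))
 (.n (.n (.p (nat_lit 0x10f415ad02) (nat_lit 0x100401) (nat_lit 5))
 (.p (nat_lit 0x1aea1ae81ae61ae41ae009e706) (nat_lit 0x1000050123) (nat_lit 51)))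
 (.n (.p (nat_lit 0x2d342d302d2e2d2c2d2a2b5306) (nat_lit 0x8000046808) (nat_lit 51))
 (.p (nat_lit 0x5ebc4f2902) (nat_lit 0x80042b00) (nat_lit 47)))))
 (.n (.n (.n (.p (nat_lit 0x1a5a1a581a521a501799179706) (nat_lit 0x60000d6700) (nat_lit 52))
 (.p (nat_lit 0x73b14e702) (nat_lit 0x34051c) (nat_lit 15)))
 (.n (.p (nat_lit 0x1174e3702) (nat_lit 0x200406) (nat_lit 30))
 (.p (nat_lit 0x5d695e1d02) (nat_lit 0x140080000400) (nat_lit 37))))
 (.n (.n (.p (nat_lit 0x17541752174e174c174a25b906) (nat_lit 0x4000050b02) (nat_lit 51))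
 (.p (nat_lit 0x43b57bb02) (nat_lit 0x34022a) (nat_lit 30)))
 (.n (.p (nat_lit 0x35b435b235b035ae35ac1be506) (nat_lit 0x1000009680e) (nat_lit 51))
 (.p (nat_lit 0x63460cb02) (nat_lit 0x3505623a4000000040000) (nat_lit 49))))))

def c512_151 : Tr := .n c1024_151 c1024_663

def c1024_407 : Tr :=
 .n (.n (.n (.n (.n (.n (.p (nat_lit 0x207020101f403) (nat_lit 0x8190000e) (nat_lit 19))
 (.p (nat_lit 0x638618302) (nat_lit 0x421a86b15000000040000) (nat_lit 49)))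
 (.p (nat_lit 0x408938e502) (nat_lit 0x314411) (nat_lit 16)))
 (.n (.p (nat_lit 0x17ea3abd02) (nat_lit 0x240603) (nat_lit 29))
 (.p (nat_lit 0x319c319a319631922b772b7306) (nat_lit 0x500004482b) (nat_lit 52))))
 (.n (.n (.p (nat_lit 0x1f6e1f6a1f681f641d311d2b06) (nat_lit 0x9000046900) (nat_lit 52))
 (.p (nat_lit 0x33f2300702) (nat_lit 0x300b1e) (nat_lit 4)))
 (.n (.p (nat_lit 0x7b607b207ae07ac0b430b3f06) (nat_lit 0xa000006207) (nat_lit 52))
 (.p (nat_lit 0x5d455e5b02) (nat_lit 0x80060000700) (nat_lit 37)))))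
 (.n (.n (.n (.p (nat_lit 0xf64114302) (nat_lit 0x440400) (nat_lit 4))
 (.p (nat_lit 0x39f4367f02) (nat_lit 0x500518) (nat_lit 4)))
 (.n (.p (nat_lit 0xa36221302) (nat_lit 0x540105) (nat_lit 5))
 (.p (nat_lit 0x3a75be902) (nat_lit 0x300b23) (nat_lit 28))))
 (.n (.n (.p (nat_lit 0x2c582c562c542c522c502c4e003607) (nat_lit 0x40a01) (nat_lit 8))
 (.p (nat_lit 0x287629cf02) (nat_lit 0x240224) (nat_lit 4)))
 (.n (.p (nat_lit 0x1e661e621e601e5e1e5c3f9906) (nat_lit 0x800000e30b) (nat_lit 51))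
 (.p (nat_lit 0x2497248921d921d31f151f071c4f1c451983197516a716995f7e0d) (nat_lit 0x581a32b44000000040600) (nat_lit 33))))))
 (.n (.n (.n (.n (.p (nat_lit 0x87a08780874087208700007087707) (nat_lit 0x300200) (nat_lit 7))
 (.p (nat_lit 0x1390138e138c138a02ac028b02891395139309) (nat_lit 0x2c00515) (nat_lit 10)))
 (.n (.p (nat_lit 0x13cd111d02) (nat_lit 0x300404) (nat_lit 15))
 (.p (nat_lit 0x590058fe58fc58fa58f80001006407) (nat_lit 0x16902) (nat_lit 25))))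
 (.n (.n (.p (nat_lit 0x8a6156902) (nat_lit 0x300101) (nat_lit 4))
 (.p (nat_lit 0x74a07480742074003c403a703a50747074509) (nat_lit 0x1a40023) (nat_lit 10)))
 (.n (.p (nat_lit 0x22d322c702) (nat_lit 0x44a07) (nat_lit 16))
 (.p (nat_lit 0x5d5121e102) (nat_lit 0x2c0080000a00) (nat_lit 41)))))
 (.n (.n (.n (.p (nat_lit 0x18d018ce18cc18c8162b162306) (nat_lit 0x11000014700) (nat_lit 52))
 (.p (nat_lit 0x3d67087f02) (nat_lit 0x11211c) (nat_lit 16)))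
 (.n (.p (nat_lit 0x1154b3302) (nat_lit 0x140006) (nat_lit 30))
 (.p (nat_lit 0x5d310d1902) (nat_lit 0x1c0060000300) (nat_lit 40))))
 (.n (.n (.p (nat_lit 0xbb00bac0baa0ba80ba6232306) (nat_lit 0x80000c4a02) (nat_lit 52))
 (.p (nat_lit 0x52c052805260522089d089706) (nat_lit 0x900008812a) (nat_lit 51)))
 (.n (.p (nat_lit 0x14c807e902) (nat_lit 0x4050e) (nat_lit 5))
 (.p (nat_lit 0x1542608102) (nat_lit 0x354221ca4000000000600) (nat_lit 50))))))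

def c1024_919 : Tr :=
 .n (.n (.n (.n (.n (.p (nat_lit 0x660065c065a06580657065306) (nat_lit 0x14000044000) (nat_lit 51))
 (.p (nat_lit 0x4e9b4dcf02) (nat_lit 0x200314) (nat_lit 15)))
 (.n (.p (nat_lit 0x21d621d421d221d021cc25c106) (nat_lit 0x10000d4b03) (nat_lit 52))
 (.p (nat_lit 0x46f53fa702) (nat_lit 0x11632e) (nat_lit 16))))
 (.n (.n (.p (nat_lit 0x22e11ff502) (nat_lit 0x144a00) (nat_lit 16))
 (.p (nat_lit 0x36d563302) (nat_lit 0x540b20) (nat_lit 30)))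
 (.n (.p (nat_lit 0x30ef10cf02) (nat_lit 0xe407) (nat_lit 16))
 (.p (nat_lit 0x5d8b5e7b02) (nat_lit 0x2200a0000800) (nat_lit 36)))))
 (.n (.n (.n (.p (nat_lit 0x14f9121d02) (nat_lit 0x4e500) (nat_lit 16))
 (.p (nat_lit 0x4a384a364a344a324a3002fd4a3b07) (nat_lit 0x54071a) (nat_lit 7)))
 (.n (.p (nat_lit 0x23fa23f823f423f223f0180506) (nat_lit 0x40000d0605) (nat_lit 51))
 (.p (nat_lit 0x5cef5dcd02) (nat_lit 0x2e0040000100) (nat_lit 37))))
 (.n (.n (.p (nat_lit 0x125819f102) (nat_lit 0x40402) (nat_lit 5))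
 (.p (nat_lit 0x424c405b02) (nat_lit 0x400627) (nat_lit 4)))
 (.n (.p (nat_lit 0x67a0678067606720670509106) (nat_lit 0x200004680d) (nat_lit 51))
 (.p (nat_lit 0x8ec600102) (nat_lit 0x405aa2354800100040000) (nat_lit 49))))))
 (.n (.n (.n (.n (.p (nat_lit 0xdf00dee0dea0de80b390b3306) (nat_lit 0x12000096300) (nat_lit 52))
 (.p (nat_lit 0x201c0c5b02) (nat_lit 0x340915) (nat_lit 5)))
 (.n (.p (nat_lit 0xc200d900df1e671fcd05) (nat_lit 0x89d00704) (nat_lit 9))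
 (.p (nat_lit 0x1a2019e019c019a014101b506) (nat_lit 0x416a0a) (nat_lit 26))))
 (.n (.n (.p (nat_lit 0x18c618c418c018be18bc1c1d06) (nat_lit 0x4000092801) (nat_lit 52))
 (.p (nat_lit 0x1673166702) (nat_lit 0x500623) (nat_lit 16)))
 (.n (.p (nat_lit 0x32982d6302) (nat_lit 0x400909) (nat_lit 4))
 (.p (nat_lit 0xd085ef502) (nat_lit 0x281d30344000300000000) (nat_lit 49)))))
 (.n (.n (.n (.p (nat_lit 0x1c2d190302) (nat_lit 0x514800) (nat_lit 16))
 (.p (nat_lit 0x50bb1d6302) (nat_lit 0x55681c) (nat_lit 16)))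
 (.n (.p (nat_lit 0x16061604160015fe15fc1acf06) (nat_lit 0x40000d2706) (nat_lit 51))
 (.p (nat_lit 0x5d595e3302) (nat_lit 0x240080000500) (nat_lit 37))))
 (.n (.n (.p (nat_lit 0x36430a1902) (nat_lit 0x248103) (nat_lit 16))
 (.p (nat_lit 0x166857d902) (nat_lit 0x62a) (nat_lit 29)))
 (.n (.p (nat_lit 0x257a536902) (nat_lit 0x240b0e) (nat_lit 29))
 (.p (nat_lit 0x12a712990fe10fdd0d1d0d090a510a4b07a3079f04d704c361000d) (nat_lit 0x3425219b0000000000000) (nat_lit 33))))))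

def c512_407 : Tr := .n c1024_407 c1024_919

def c256_151 : Tr := .n c512_151 c512_407

def c128_23 : Tr := .n c256_23 c256_151

def c1024_87 : Tr :=
 .n (.n (.n (.n (.n (.n (.p (nat_lit 0x62005e005c006504) (nat_lit 0x16000400002) (nat_lit 17))
 (.p (nat_lit 0x1534613502) (nat_lit 0x342a21d84000000000600) (nat_lit 49)))
 (.p (nat_lit 0x2bf22bf02bee2bea2be8020f2bed07) (nat_lit 0x24090f) (nat_lit 7)))
 (.n (.p (nat_lit 0x110a1cb102) (nat_lit 0x403) (nat_lit 5))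
 (.p (nat_lit 0x1d74580d02) (nat_lit 0x24082a) (nat_lit 29))))
 (.n (.n (.p (nat_lit 0x1d3b1a6302) (nat_lit 0x340800) (nat_lit 16))
 (.p (nat_lit 0x24422440243e243c24380309243b07) (nat_lit 0x100b1c) (nat_lit 7)))
 (.n (.p (nat_lit 0xd1c0d1a0d180d160d121d9706) (nat_lit 0x1000046806) (nat_lit 51))
 (.p (nat_lit 0x5d155e4102) (nat_lit 0x80040000600) (nat_lit 37)))))
 (.n (.n (.n (.p (nat_lit 0xf360f320f2e0f2c0c970c9306) (nat_lit 0xa000054300) (nat_lit 51))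
 (.p (nat_lit 0x2a76283702) (nat_lit 0x400516) (nat_lit 5)))
 (.n (.p (nat_lit 0x247c1fe302) (nat_lit 0x400b04) (nat_lit 5))
 (.p (nat_lit 0x25602520250024e023f00bf06) (nat_lit 0x1d0e412) (nat_lit 26))))
 (.n (.n (.p (nat_lit 0xa580a560a540a520a501eeb06) (nat_lit 0x10000004901) (nat_lit 51))
 (.p (nat_lit 0x1d791d6d02) (nat_lit 0x440823) (nat_lit 16)))
 (.n (.p (nat_lit 0x37dc37d837d637d437d201a137db07) (nat_lit 0x40030a) (nat_lit 7))
 (.p (nat_lit 0x1ae05f3102) (nat_lit 0x3aa560b44000200000600) (nat_lit 50))))))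
 (.n (.n (.n (.n (.p (nat_lit 0x7b607b207b007ae07ac05c506) (nat_lit 0x8000006100) (nat_lit 52))
 (.p (nat_lit 0x9160910090e090c05d105cf06) (nat_lit 0xc000086015) (nat_lit 51)))
 (.n (.p (nat_lit 0xa2a0a280a260a240a2000b70a2307) (nat_lit 0x140104) (nat_lit 7))
 (.p (nat_lit 0x46fc489902) (nat_lit 0x50032f) (nat_lit 5))))
 (.n (.n (.p (nat_lit 0x245d215502) (nat_lit 0xeb00) (nat_lit 16))
 (.p (nat_lit 0x240624042402240023fc4b1d06) (nat_lit 0x1000012022) (nat_lit 51)))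
 (.n (.p (nat_lit 0x18e190f02) (nat_lit 0x500707) (nat_lit 1))
 (.p (nat_lit 0x5d331f1702) (nat_lit 0x1a0060000900) (nat_lit 41)))))
 (.n (.n (.n (.p (nat_lit 0x168f154f02) (nat_lit 0x114600) (nat_lit 16))
 (.p (nat_lit 0x1150114e114c1148114605d906) (nat_lit 0x200008801c) (nat_lit 51)))
 (.n (.p (nat_lit 0xe820e800e7c0e7a0e781ac306) (nat_lit 0x40000c6705) (nat_lit 51))
 (.p (nat_lit 0x5ce50a5302) (nat_lit 0x80020000200) (nat_lit 40))))
 (.n (.n (.p (nat_lit 0x1b8e1b8c1b8a1b861ef71eef06) (nat_lit 0x1100008c902) (nat_lit 51))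
 (.p (nat_lit 0x46ae46ac46aa46a646a4468506) (nat_lit 0x2000040228) (nat_lit 52)))
 (.n (.p (nat_lit 0x10e410e210de10dc10da01ed10e107) (nat_lit 0x30040e) (nat_lit 7))
 (.p (nat_lit 0x1140603102) (nat_lit 0x4099a2335000400040000) (nat_lit 49))))))

def c1024_599 : Tr :=
 .n (.n (.n (.n (.n (.n (.p (nat_lit 0x3a803a203af03) (nat_lit 0x9000500023) (nat_lit 17))
 (.p (nat_lit 0x1db061af02) (nat_lit 0x522266c0d000300000600) (nat_lit 50)))
 (.p (nat_lit 0x1e7e1e7c1e7a1e781e74408506) (nat_lit 0x1000016412) (nat_lit 52)))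
 (.n (.p (nat_lit 0x2330232e232c232a23260089232907) (nat_lit 0x140a03) (nat_lit 7))
 (.p (nat_lit 0x3368325702) (nat_lit 0x500a2c) (nat_lit 4))))
 (.n (.n (.p (nat_lit 0x20ba20b620b220b01e951e9106) (nat_lit 0xa000004a00) (nat_lit 51))
 (.p (nat_lit 0x3b9037bd02) (nat_lit 0x100b1f) (nat_lit 4)))
 (.n (.p (nat_lit 0xa5a0a580a560a540a520e0106) (nat_lit 0x800004307) (nat_lit 51))
 (.p (nat_lit 0x5cbd5e6702) (nat_lit 0x800) (nat_lit 36)))))
 (.n (.n (.n (.p (nat_lit 0x12a9129d02) (nat_lit 0x400500) (nat_lit 34))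
 (.p (nat_lit 0x1e7c1e7a1e781e761e74419d06) (nat_lit 0x10000016519) (nat_lit 52)))
 (.n (.p (nat_lit 0xfc60fc40fc20fc000f400e500e30fbf0fbd09) (nat_lit 0x840305) (nat_lit 10))
 (.p (nat_lit 0x5cb904cf02) (nat_lit 0x40000000000) (nat_lit 40))))
 (.n (.n (.p (nat_lit 0x2d922d8c2d8a2d880761075f06) (nat_lit 0xc000056002) (nat_lit 52))
 (.p (nat_lit 0x3558390702) (nat_lit 0x240026) (nat_lit 5)))
 (.n (.p (nat_lit 0x4cf945ff02) (nat_lit 0x40c20c) (nat_lit 16))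
 (.p (nat_lit 0x248d248921e321d31f111f071c4d1c451985197116a7169f5fb40d) (nat_lit 0x9582ec05800000040600) (nat_lit 33))))))
 (.n (.n (.n (.n (.p (nat_lit 0x9d409d209d009cc001c000b000309d709cf09) (nat_lit 0x2940200) (nat_lit 10))
 (.p (nat_lit 0x21d621d421d221d021cc14d706) (nat_lit 0x10000d4515) (nat_lit 52)))
 (.n (.p (nat_lit 0x16881e4d02) (nat_lit 0x400604) (nat_lit 4))
 (.p (nat_lit 0xed599302) (nat_lit 0x500005) (nat_lit 28))))
 (.n (.n (.p (nat_lit 0xe2c170b02) (nat_lit 0x400301) (nat_lit 5))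
 (.p (nat_lit 0x9ec101902) (nat_lit 0x440123) (nat_lit 5)))
 (.n (.p (nat_lit 0x298a260f02) (nat_lit 0x408) (nat_lit 5))
 (.p (nat_lit 0x5eb8169302) (nat_lit 0x60012b00) (nat_lit 47)))))
 (.n (.n (.n (.p (nat_lit 0x1a1e1a1a1a181a161a14179b06) (nat_lit 0x8000052700) (nat_lit 51))
 (.p (nat_lit 0x14ea14e814e414e214e0030d14e707) (nat_lit 0x34051c) (nat_lit 7)))
 (.n (.p (nat_lit 0xe6a0e660e620e600136011b01170e690e6509) (nat_lit 0x2200306) (nat_lit 10))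
 (.p (nat_lit 0x5cf50fd902) (nat_lit 0x280040000400) (nat_lit 38))))
 (.n (.n (.p (nat_lit 0x33d1246302) (nat_lit 0x300b02) (nat_lit 16))
 (.p (nat_lit 0x1820181e181c181a18160b5506) (nat_lit 0x100000e22a) (nat_lit 51)))
 (.n (.p (nat_lit 0x22a1a7d02) (nat_lit 0x44070e) (nat_lit 1))
 (.p (nat_lit 0xe6e60ad02) (nat_lit 0x342521ca4000300040000) (nat_lit 49))))))

def c512_87 : Tr := .n c1024_87 c1024_599

def c1024_343 : Tr :=
 .n (.n (.n (.n (.n (.n (.p (nat_lit 0x1590153014e03) (nat_lit 0x2a00007) (nat_lit 19))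
 (.p (nat_lit 0x12a912970fe10fdb0d170d110a530a4d07a7079504d904c761700d) (nat_lit 0x421aa6315000000000000) (nat_lit 33)))
 (.p (nat_lit 0x2726272427222720271e342706) (nat_lit 0x8000d2b10) (nat_lit 52)))
 (.n (.p (nat_lit 0x187e187c187818761874167b06) (nat_lit 0x4000086603) (nat_lit 52))
 (.p (nat_lit 0x28802a3702) (nat_lit 0x14022b) (nat_lit 5))))
 (.n (.n (.p (nat_lit 0x1eff1bc902) (nat_lit 0x316900) (nat_lit 16))
 (.p (nat_lit 0x306334702) (nat_lit 0xa1e) (nat_lit 1)))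
 (.n (.p (nat_lit 0x22a0229e229c229a2296206106) (nat_lit 0x10000ce906) (nat_lit 52))
 (.p (nat_lit 0x5cc1181902) (nat_lit 0x2c0020000700) (nat_lit 40)))))
 (.n (.n (.n (.p (nat_lit 0x10db0df502) (nat_lit 0x2400) (nat_lit 16))
 (.p (nat_lit 0x23e34b902) (nat_lit 0x300018) (nat_lit 1)))
 (.n (.p (nat_lit 0x4466446444624460445c077f06) (nat_lit 0x10000c8005) (nat_lit 52))
 (.p (nat_lit 0x3995bc902) (nat_lit 0x300522) (nat_lit 28))))
 (.n (.n (.p (nat_lit 0x3800450047160b177d05) (nat_lit 0xa1100a01) (nat_lit 9))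
 (.p (nat_lit 0x273429b302) (nat_lit 0x124) (nat_lit 5)))
 (.n (.p (nat_lit 0x5ba05b805b405b205b03bc506) (nat_lit 0x40000d6b0a) (nat_lit 51))
 (.p (nat_lit 0x207a5f7102) (nat_lit 0x3aa074c44000400000600) (nat_lit 50))))))
 (.n (.n (.n (.n (.p (nat_lit 0x9f5072102) (nat_lit 0x24a100) (nat_lit 16))
 (.p (nat_lit 0xd340d320d300d2e0d2c124106) (nat_lit 0x8000c0415) (nat_lit 51)))
 (.n (.p (nat_lit 0x3fdc3fda3fd83fd43fd20fb506) (nat_lit 0x20000c2304) (nat_lit 52))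
 (.p (nat_lit 0x18458d702) (nat_lit 0x2) (nat_lit 27))))
 (.n (.n (.p (nat_lit 0x63105f502) (nat_lit 0x414001) (nat_lit 16))
 (.p (nat_lit 0x143c14361434143205e905e706) (nat_lit 0xc000006023) (nat_lit 52)))
 (.n (.p (nat_lit 0x2164059102) (nat_lit 0x200a07) (nat_lit 5))
 (.p (nat_lit 0x5d3b5ea102) (nat_lit 0x120060000a00) (nat_lit 36)))))
 (.n (.n (.n (.p (nat_lit 0x184e184c184a18481846162106) (nat_lit 0x800082700) (nat_lit 51))
 (.p (nat_lit 0x311550702) (nat_lit 0x50011c) (nat_lit 30)))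
 (.n (.p (nat_lit 0x1fe41fe21fe01fde1fdc1d8906) (nat_lit 0x800056805) (nat_lit 51))
 (.p (nat_lit 0x5df849ef02) (nat_lit 0x20014300) (nat_lit 48))))
 (.n (.n (.p (nat_lit 0x334f21bd02) (nat_lit 0x406a02) (nat_lit 16))
 (.p (nat_lit 0x142089702) (nat_lit 0x10012a) (nat_lit 1)))
 (.n (.p (nat_lit 0x1380093302) (nat_lit 0x10050e) (nat_lit 4))
 (.p (nat_lit 0x2348607102) (nat_lit 0x588162b40800500000600) (nat_lit 50))))))

def c1024_855 : Tr :=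
 .n (.n (.n (.n (.n (.n (.p (nat_lit 0x5ed04db02) (nat_lit 0xc000) (nat_lit 16))
 (.p (nat_lit 0x1ada61ed02) (nat_lit 0x382a31d05000200000600) (nat_lit 49)))
 (.p (nat_lit 0x497c456502) (nat_lit 0x400613) (nat_lit 4)))
 (.n (.p (nat_lit 0x7a807a607a407a207a025c906) (nat_lit 0x10000042b03) (nat_lit 51))
 (.p (nat_lit 0x3f2f3e0902) (nat_lit 0x54012e) (nat_lit 15))))
 (.n (.n (.p (nat_lit 0x2288228422822280227e1ffb06) (nat_lit 0x80000cca00) (nat_lit 51))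
 (.p (nat_lit 0x42d63f7502) (nat_lit 0x100720) (nat_lit 5)))
 (.n (.p (nat_lit 0x10d2068d02) (nat_lit 0x200407) (nat_lit 4))
 (.p (nat_lit 0x5d5b5e7702) (nat_lit 0x220080000800) (nat_lit 36)))))
 (.n (.n (.n (.p (nat_lit 0x1446144414421440143e122706) (nat_lit 0x100000c6500) (nat_lit 52))
 (.p (nat_lit 0x213a2138213421322130495106) (nat_lit 0x40000ce51a) (nat_lit 51)))
 (.n (.p (nat_lit 0x24122410240c240a1693168d06) (nat_lit 0x4800092605) (nat_lit 51))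
 (.p (nat_lit 0x5cdf07a302) (nat_lit 0xe0020000100) (nat_lit 40))))
 (.n (.n (.p (nat_lit 0x5f302702) (nat_lit 0x340302) (nat_lit 30))
 (.p (nat_lit 0x3df2403302) (nat_lit 0x40127) (nat_lit 5)))
 (.n (.p (nat_lit 0x4fd24adf02) (nat_lit 0x10070d) (nat_lit 4))
 (.p (nat_lit 0x2493248921db21d71f151f0d1c471c411985197316af169d5ff20d) (nat_lit 0x386a81c35000000040600) (nat_lit 33))))))
 (.n (.n (.n (.n (.p (nat_lit 0xd580d560d540d500b330b2f06) (nat_lit 0x280000a300) (nat_lit 52))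
 (.p (nat_lit 0x1d56547702) (nat_lit 0x540815) (nat_lit 29)))
 (.n (.p (nat_lit 0x1ab317f502) (nat_lit 0x140604) (nat_lit 15))
 (.p (nat_lit 0x1895a3502) (nat_lit 0x200209) (nat_lit 28))))
 (.n (.n (.p (nat_lit 0x1c1815db02) (nat_lit 0x100801) (nat_lit 4))
 (.p (nat_lit 0xd620d600d5c0d5a0cb10cab06) (nat_lit 0x120000ca223) (nat_lit 52)))
 (.n (.p (nat_lit 0x1a1e1a1c1a1a1a181a16308b06) (nat_lit 0x800052309) (nat_lit 51))
 (.p (nat_lit 0x181c5ee902) (nat_lit 0x4a8866344000100000600) (nat_lit 50)))))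
 (.n (.n (.n (.p (nat_lit 0x1bb41bae1bac1baa190118ff06) (nat_lit 0xc000016800) (nat_lit 52))
 (.p (nat_lit 0x1ebd1bf302) (nat_lit 0x81c) (nat_lit 15)))
 (.n (.p (nat_lit 0x161e161a16181614196d196706) (nat_lit 0x9000094706) (nat_lit 51))
 (.p (nat_lit 0x5d43129b02) (nat_lit 0xa0060000500) (nat_lit 38))))
 (.n (.n (.p (nat_lit 0xa141b1102) (nat_lit 0x40103) (nat_lit 5))
 (.p (nat_lit 0x4420461044b12e9143f05) (nat_lit 0xb184032a) (nat_lit 9)))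
 (.n (.p (nat_lit 0x4570456e456c456a456822d906) (nat_lit 0x400004ea0e) (nat_lit 51))
 (.p (nat_lit 0x154260f502) (nat_lit 0x440d623a4000000000600) (nat_lit 50))))))

def c512_343 : Tr := .n c1024_343 c1024_855

def c256_87 : Tr := .n c512_87 c512_343

def c1024_215 : Tr :=
 .n (.n (.n (.n (.n (.n (.p (nat_lit 0xd500d300d100c404) (nat_lit 0x36300004) (nat_lit 20))
 (.p (nat_lit 0x1ad6615302) (nat_lit 0x1503a8895800200000600) (nat_lit 49)))
 (.p (nat_lit 0x32762e7702) (nat_lit 0x540510) (nat_lit 4)))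
 (.n (.p (nat_lit 0x89398902) (nat_lit 0x100503) (nat_lit 30))
 (.p (nat_lit 0x489648944890488e21a721a106) (nat_lit 0x12000006a2a) (nat_lit 51))))
 (.n (.n (.p (nat_lit 0x1e421e401e3a1e381bc91bc706) (nat_lit 0x600008a900) (nat_lit 52))
 (.p (nat_lit 0x2bb4291302) (nat_lit 0x40091d) (nat_lit 5)))
 (.n (.p (nat_lit 0x120012b013b2405255b05) (nat_lit 0xa1c00906) (nat_lit 9))
 (.p (nat_lit 0x5da55e4d02) (nat_lit 0x800a0000600) (nat_lit 37)))))
 (.n (.n (.n (.p (nat_lit 0xff40ff00fee0fec0dff0dfb06) (nat_lit 0x14000000400) (nat_lit 52))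
 (.p (nat_lit 0x18dc18da18d818d618d431f706) (nat_lit 0x10000094517) (nat_lit 51)))
 (.n (.p (nat_lit 0x227c227822762274227225d306) (nat_lit 0x800004cb04) (nat_lit 51))
 (.p (nat_lit 0x3005b6b02) (nat_lit 0x30061a) (nat_lit 27))))
 (.n (.n (.p (nat_lit 0x204e204c2048204600500035002f2051204b09) (nat_lit 0x2a40901) (nat_lit 10))
 (.p (nat_lit 0x4802480047fe47fc47fa22f706) (nat_lit 0x8000c0a23) (nat_lit 51)))
 (.n (.p (nat_lit 0x3a92348302) (nat_lit 0x40060a) (nat_lit 4))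
 (.p (nat_lit 0x233c5f5302) (nat_lit 0x1a9d22350000500000600) (nat_lit 49))))))
 (.n (.n (.n (.n (.p (nat_lit 0x71c08f502) (nat_lit 0x40100) (nat_lit 5))
 (.p (nat_lit 0x285541102) (nat_lit 0x200415) (nat_lit 30)))
 (.n (.p (nat_lit 0xce63e8f02) (nat_lit 0x240204) (nat_lit 29))
 (.p (nat_lit 0x507c4f9102) (nat_lit 0x400830) (nat_lit 4))))
 (.n (.n (.p (nat_lit 0x254e254c2548254622c522bf06) (nat_lit 0x120000d0b00) (nat_lit 52))
 (.p (nat_lit 0x50664e0d02) (nat_lit 0x500822) (nat_lit 4)))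
 (.n (.p (nat_lit 0x1ea31bd902) (nat_lit 0x500807) (nat_lit 15))
 (.p (nat_lit 0x5ca3207702) (nat_lit 0x1a0000000a00) (nat_lit 40)))))
 (.n (.n (.n (.p (nat_lit 0x177817761774177216b316b106) (nat_lit 0x18000d2600) (nat_lit 52))
 (.p (nat_lit 0xe760e740e720e700e6c073706) (nat_lit 0x10000c601c) (nat_lit 52)))
 (.n (.p (nat_lit 0x1c2c1c2a1c241c22010600e900e71c291c2709) (nat_lit 0x1a00805) (nat_lit 10))
 (.p (nat_lit 0x5d650a4d02) (nat_lit 0x180080000200) (nat_lit 38))))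
 (.n (.n (.p (nat_lit 0x3320331e331c331a33183316006407) (nat_lit 0xa02) (nat_lit 8))
 (.p (nat_lit 0x25442540253e253c253a4c8f06) (nat_lit 0x8000050129) (nat_lit 51)))
 (.n (.p (nat_lit 0x123807d502) (nat_lit 0x24040e) (nat_lit 5))
 (.p (nat_lit 0x154a605302) (nat_lit 0x40a962335000000000600) (nat_lit 50))))))

def c1024_727 : Tr :=
 .n (.n (.n (.n (.n (.n (.p (nat_lit 0x4f004ee04ec04ea04e604dd06) (nat_lit 0x1000004000) (nat_lit 52))
 (.p (nat_lit 0x13ee61cf02) (nat_lit 0x3561684a0800500040000) (nat_lit 49)))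
 (.p (nat_lit 0x1f0427302) (nat_lit 0x540612) (nat_lit 1)))
 (.n (.p (nat_lit 0x1150114e114c11481146246d06) (nat_lit 0x2000088b03) (nat_lit 51))
 (.p (nat_lit 0x8a375f02) (nat_lit 0x24022d) (nat_lit 1))))
 (.n (.n (.p (nat_lit 0x21931e8f02) (nat_lit 0x108a00) (nat_lit 16))
 (.p (nat_lit 0x3def3d0902) (nat_lit 0x440020) (nat_lit 15)))
 (.n (.p (nat_lit 0x8f208f008ee08ea08e80f6d06) (nat_lit 0x20000c2307) (nat_lit 52))
 (.p (nat_lit 0x5d131c4b02) (nat_lit 0xa0040000800) (nat_lit 41)))))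
 (.n (.n (.n (.p (nat_lit 0x139310cb02) (nat_lit 0x404500) (nat_lit 16))
 (.p (nat_lit 0x36b436b236b036ac36aa42cd06) (nat_lit 0x2000096719) (nat_lit 51)))
 (.n (.p (nat_lit 0x48ae48ac48aa48a848a413d506) (nat_lit 0x100000e505) (nat_lit 52))
 (.p (nat_lit 0x5d43063b02) (nat_lit 0xa0060000000) (nat_lit 39))))
 (.n (.n (.p (nat_lit 0xcd40cd20cd00cce0ccc00590ccb07) (nat_lit 0x40202) (nat_lit 7))
 (.p (nat_lit 0x3b16394b02) (nat_lit 0x400a26) (nat_lit 5)))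
 (.n (.p (nat_lit 0x68606840680067e067c49cf06) (nat_lit 0x400008670c) (nat_lit 52))
 (.p (nat_lit 0x181c5fd302) (nat_lit 0x95a32b05000100000600) (nat_lit 50))))))
 (.n (.n (.n (.n (.p (nat_lit 0xcc109cf02) (nat_lit 0x14c200) (nat_lit 16))
 (.p (nat_lit 0x2c6192702) (nat_lit 0x500715) (nat_lit 1)))
 (.n (.p (nat_lit 0x168d168102) (nat_lit 0x16604) (nat_lit 16))
 (.p (nat_lit 0x11759d302) (nat_lit 0x200406) (nat_lit 28))))
 (.n (.n (.p (nat_lit 0x125412521250124c004a0035002d1257124f09) (nat_lit 0x2940401) (nat_lit 10))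
 (.p (nat_lit 0xb4a102102) (nat_lit 0x200223) (nat_lit 5)))
 (.n (.p (nat_lit 0x2c5d2bdf02) (nat_lit 0x140908) (nat_lit 15))
 (.p (nat_lit 0x2495248b21d921d31f151f071c471c431983197516a716995eca0d) (nat_lit 0x4a1a22344000000040600) (nat_lit 33)))))
 (.n (.n (.n (.p (nat_lit 0x8618f902) (nat_lit 0x800) (nat_lit 1))
 (.p (nat_lit 0x19280ee502) (nat_lit 0x71c) (nat_lit 4)))
 (.n (.p (nat_lit 0x4ec44ec24ec04ebe4eba128b06) (nat_lit 0x10000c0406) (nat_lit 51))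
 (.p (nat_lit 0x5d8b0feb02) (nat_lit 0x2200a0000400) (nat_lit 40))))
 (.n (.n (.p (nat_lit 0x34a434a234a0349c349a060906) (nat_lit 0x2000016003) (nat_lit 51))
 (.p (nat_lit 0x197819761974197219700cbd06) (nat_lit 0x100000ce22a) (nat_lit 52)))
 (.n (.p (nat_lit 0x1ea4082d02) (nat_lit 0x90e) (nat_lit 4))
 (.p (nat_lit 0xbb260d502) (nat_lit 0x354a621b0000200040000) (nat_lit 50))))))

def c512_215 : Tr := .n c1024_215 c1024_727

def c1024_471 : Tr :=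
 .n (.n (.n (.n (.n (.n (.p (nat_lit 0x2ad029f028e03) (nat_lit 0x82900015) (nat_lit 19))
 (.p (nat_lit 0x181e618f02) (nat_lit 0x3422a5c14800100000600) (nat_lit 50)))
 (.p (nat_lit 0x3a9c359b02) (nat_lit 0x300611) (nat_lit 5)))
 (.n (.p (nat_lit 0x18d018cc18ca18c817f117ed06) (nat_lit 0x14000054603) (nat_lit 52))
 (.p (nat_lit 0x2ecc319102) (nat_lit 0x54012c) (nat_lit 4))))
 (.n (.n (.p (nat_lit 0x1fc81fc61fc41fc21d331d3106) (nat_lit 0x1800004e900) (nat_lit 52))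
 (.p (nat_lit 0x1b9a1b981b961b941b92355306) (nat_lit 0x1000005401f) (nat_lit 52)))
 (.n (.p (nat_lit 0x141513d02) (nat_lit 0x40207) (nat_lit 30))
 (.p (nat_lit 0x5d7b5e5f02) (nat_lit 0x20080000700) (nat_lit 37)))))
 (.n (.n (.n (.p (nat_lit 0x119811961194119211900f5d06) (nat_lit 0x8000c4400) (nat_lit 52))
 (.p (nat_lit 0x3b043b023b003afe3afc02cf3afb07) (nat_lit 0xa18) (nat_lit 7)))
 (.n (.p (nat_lit 0xcee222102) (nat_lit 0x40205) (nat_lit 4))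
 (.p (nat_lit 0x43e043c043a04340005014306) (nat_lit 0x110412a) (nat_lit 26))))
 (.n (.n (.p (nat_lit 0x23ec23ea23e823e623e4231906) (nat_lit 0x10000050a01) (nat_lit 52))
 (.p (nat_lit 0x4e5c4e5a4e564e544e522c4906) (nat_lit 0x4000002a24) (nat_lit 52)))
 (.n (.p (nat_lit 0x421e3c3302) (nat_lit 0x50060b) (nat_lit 4))
 (.p (nat_lit 0x15385f9102) (nat_lit 0x581a303a5000000000600) (nat_lit 49))))))
 (.n (.n (.n (.n (.p (nat_lit 0xa960a920a900a8e0a8c087906) (nat_lit 0x800000a200) (nat_lit 52))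
 (.p (nat_lit 0x1c501c4c1c4a1c481c46139306) (nat_lit 0x8000090515) (nat_lit 51)))
 (.n (.p (nat_lit 0x1283127702) (nat_lit 0x356404) (nat_lit 16))
 (.p (nat_lit 0x8d592d02) (nat_lit 0x300303) (nat_lit 28))))
 (.n (.n (.p (nat_lit 0x27942790278e278c278a0a0506) (nat_lit 0x8000052101) (nat_lit 51))
 (.p (nat_lit 0x892117502) (nat_lit 0x500123) (nat_lit 5)))
 (.n (.p (nat_lit 0x14151d902) (nat_lit 0x40b07) (nat_lit 30))
 (.p (nat_lit 0x5eac4cfd02) (nat_lit 0xab00) (nat_lit 47)))))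
 (.n (.n (.n (.p (nat_lit 0x192b162302) (nat_lit 0x106700) (nat_lit 16))
 (.p (nat_lit 0xc040c020c000bfc0bfa09dd06) (nat_lit 0x20000ca11c) (nat_lit 52)))
 (.n (.p (nat_lit 0x4bbc4bba4bb84bb64bb44bb206) (nat_lit 0x8106) (nat_lit 52))
 (.p (nat_lit 0x5e04424102) (nat_lit 0x80012300) (nat_lit 48))))
 (.n (.n (.p (nat_lit 0x207420722070206e206c231b06) (nat_lit 0x800054a02) (nat_lit 52))
 (.p (nat_lit 0x9f809f609f409f2044e043f043509fb09f109) (nat_lit 0x284012a) (nat_lit 10)))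
 (.n (.p (nat_lit 0x56405620560055e14d314c906) (nat_lit 0x1080005050e) (nat_lit 52))
 (.p (nat_lit 0x1814609102) (nat_lit 0x342221ca4000100000600) (nat_lit 49))))))

def c1024_983 : Tr :=
 .n (.n (.n (.n (.n (.p (nat_lit 0x6c806c606c406be0651064f06) (nat_lit 0x3000050000) (nat_lit 51))
 (.p (nat_lit 0x254e254c254a254825464f2b06) (nat_lit 0x100000d0414) (nat_lit 52)))
 (.n (.p (nat_lit 0x61a06160614061000d200bd00b70619061309) (nat_lit 0x2100004) (nat_lit 10))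
 (.p (nat_lit 0x4a0942f302) (nat_lit 0x31672e) (nat_lit 16))))
 (.n (.n (.p (nat_lit 0x23542352234e234c234a215b06) (nat_lit 0x4000000b00) (nat_lit 52))
 (.p (nat_lit 0x450a472302) (nat_lit 0x121) (nat_lit 4)))
 (.n (.p (nat_lit 0x140c1408140414021231122d06) (nat_lit 0xa000042407) (nat_lit 51))
 (.p (nat_lit 0x5e7e3d0102) (nat_lit 0x46900) (nat_lit 48)))))
 (.n (.n (.n (.p (nat_lit 0x1582157e157c157a1557155306) (nat_lit 0x14000004600) (nat_lit 52))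
 (.p (nat_lit 0x4fb04d2b02) (nat_lit 0x24051b) (nat_lit 4)))
 (.n (.p (nat_lit 0xe760e740e700e6e0e6c195f06) (nat_lit 0x4000086705) (nat_lit 52))
 (.p (nat_lit 0x5dd0338902) (nat_lit 0x6004e100) (nat_lit 47))))
 (.n (.n (.p (nat_lit 0x13b8318902) (nat_lit 0x500502) (nat_lit 29))
 (.p (nat_lit 0x38c438c038be38bc38ba431f06) (nat_lit 0x8000056727) (nat_lit 52)))
 (.n (.p (nat_lit 0x28a0e1702) (nat_lit 0x50030e) (nat_lit 1))
 (.p (nat_lit 0xbb2601302) (nat_lit 0x405aa2335000200040000) (nat_lit 50))))))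
 (.n (.n (.n (.n (.p (nat_lit 0x3080c9102) (nat_lit 0x140300) (nat_lit 1))
 (.p (nat_lit 0x466646644660465e465c217f06) (nat_lit 0x400000ea15) (nat_lit 52)))
 (.n (.p (nat_lit 0x42d3195702) (nat_lit 0x504704) (nat_lit 16))
 (.p (nat_lit 0x1f001ee01e801e60255000506) (nat_lit 0x1a1240e) (nat_lit 26))))
 (.n (.n (.p (nat_lit 0x312b4502) (nat_lit 0x340801) (nat_lit 30))
 (.p (nat_lit 0x3a556e102) (nat_lit 0x240723) (nat_lit 30)))
 (.n (.p (nat_lit 0x337a2cd702) (nat_lit 0x240a09) (nat_lit 5))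
 (.p (nat_lit 0x15345f1302) (nat_lit 0x3aa570344000000000600) (nat_lit 49)))))
 (.n (.n (.n (.p (nat_lit 0x1c801c7e1c7c1c761a611a5f06) (nat_lit 0x30000c2800) (nat_lit 52))
 (.p (nat_lit 0x202c0f2b02) (nat_lit 0x54091c) (nat_lit 5)))
 (.n (.p (nat_lit 0xa5a0a560a540a520a501c3706) (nat_lit 0x8000004806) (nat_lit 51))
 (.p (nat_lit 0x5cb916a502) (nat_lit 0x40000000600) (nat_lit 41))))
 (.n (.n (.p (nat_lit 0x36ec36ea36e836e636e40ce106) (nat_lit 0x100000c0203) (nat_lit 52))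
 (.p (nat_lit 0x17e457ef02) (nat_lit 0x54062a) (nat_lit 29)))
 (.n (.p (nat_lit 0x2a0e26f302) (nat_lit 0x34040f) (nat_lit 5))
 (.p (nat_lit 0xe7c611702) (nat_lit 0x3562621b0000300040000) (nat_lit 50))))))

def c512_471 : Tr := .n c1024_471 c1024_983

def c256_215 : Tr := .n c512_215 c512_471

def c128_87 : Tr := .n c256_87 c256_215

def c64_23 : Tr := .n c128_23 c128_87

def c1024_55 : Tr :=
 .n (.n (.n (.n (.n (.n (.p (nat_lit 0x45003f003d003a04) (nat_lit 0x15100001) (nat_lit 20))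
 (.p (nat_lit 0xbae612f02) (nat_lit 0x35486a1b0000200040000) (nat_lit 49)))
 (.p (nat_lit 0x2b9a279102) (nat_lit 0x30090f) (nat_lit 5)))
 (.n (.p (nat_lit 0xfae0fac0fa80fa6009c008d00870fab0fa509) (nat_lit 0x1840303) (nat_lit 10))
 (.p (nat_lit 0x1c0e147102) (nat_lit 0x20082a) (nat_lit 4))))
 (.n (.n (.p (nat_lit 0x1d1a1d181d161d141a5f1a5d06) (nat_lit 0x1800056800) (nat_lit 51))
 (.p (nat_lit 0x22f40f4302) (nat_lit 0x540a1c) (nat_lit 5)))
 (.n (.p (nat_lit 0x1d9c254f02) (nat_lit 0x440806) (nat_lit 4))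
 (.p (nat_lit 0x5ccb153702) (nat_lit 0x220020000600) (nat_lit 38)))))
 (.n (.n (.n (.p (nat_lit 0xed40ed00ece0ecc0c990c9506) (nat_lit 0x1400004c300) (nat_lit 52))
 (.p (nat_lit 0x258a54b102) (nat_lit 0x440b15) (nat_lit 29)))
 (.n (.p (nat_lit 0x1ac31ab702) (nat_lit 0x356704) (nat_lit 16))
 (.p (nat_lit 0x22c02280226022201e9018d06) (nat_lit 0xc14510) (nat_lit 26))))
 (.n (.n (.p (nat_lit 0x1ee6176902) (nat_lit 0x300901) (nat_lit 5))
 (.p (nat_lit 0x1d6a56fb02) (nat_lit 0x340823) (nat_lit 29)))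
 (.n (.p (nat_lit 0x374a34df02) (nat_lit 0x44020a) (nat_lit 5))
 (.p (nat_lit 0x8ec5f2302) (nat_lit 0x3a2560b44000100040000) (nat_lit 49))))))
 (.n (.n (.n (.n (.p (nat_lit 0x1ea05c102) (nat_lit 0x200100) (nat_lit 1))
 (.p (nat_lit 0x28153f502) (nat_lit 0x15) (nat_lit 30)))
 (.n (.p (nat_lit 0x8ca3d1302) (nat_lit 0x300104) (nat_lit 29))
 (.p (nat_lit 0x4692490902) (nat_lit 0x34022f) (nat_lit 4))))
 (.n (.n (.p (nat_lit 0x1557215f02) (nat_lit 0x500b00) (nat_lit 15))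
 (.p (nat_lit 0x38f564b02) (nat_lit 0x540721) (nat_lit 30)))
 (.n (.p (nat_lit 0x2696269426922690268e17a906) (nat_lit 0x100000d0607) (nat_lit 51))
 (.p (nat_lit 0x5cef5e8702) (nat_lit 0x2e0040000900) (nat_lit 36)))))
 (.n (.n (.n (.p (nat_lit 0x1649155102) (nat_lit 0x204600) (nat_lit 16))
 (.p (nat_lit 0x5de05da05d605d4032c030f030b05dd05d909) (nat_lit 0x220001c) (nat_lit 10)))
 (.n (.p (nat_lit 0x1ac64a1902) (nat_lit 0x540705) (nat_lit 29))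
 (.p (nat_lit 0x5c975ddf02) (nat_lit 0x260000000200) (nat_lit 36))))
 (.n (.n (.p (nat_lit 0x61328d02) (nat_lit 0x400902) (nat_lit 30))
 (.p (nat_lit 0x21222120211e211c211a458706) (nat_lit 0x8000cc128) (nat_lit 52)))
 (.n (.p (nat_lit 0xbf80bf60bf40bf20bee0f7706) (nat_lit 0x100004a30e) (nat_lit 51))
 (.p (nat_lit 0x1538602d02) (nat_lit 0x406a62335000000000600) (nat_lit 49))))))

def c1024_567 : Tr :=
 .n (.n (.n (.n (.n (.n (.p (nat_lit 0x3810377037003) (nat_lit 0x81800020) (nat_lit 19))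
 (.p (nat_lit 0x169861a902) (nat_lit 0x340b8ac64000000040600) (nat_lit 49)))
 (.p (nat_lit 0x3fa23d8f02) (nat_lit 0x500312) (nat_lit 5)))
 (.n (.p (nat_lit 0x1e721e701e6c1e6a21c721c106) (nat_lit 0x480008ea03) (nat_lit 51))
 (.p (nat_lit 0x330a31c102) (nat_lit 0x4092c) (nat_lit 5))))
 (.n (.n (.p (nat_lit 0x1e8e207902) (nat_lit 0x100a00) (nat_lit 5))
 (.p (nat_lit 0x3623b3b02) (nat_lit 0x40a1f) (nat_lit 1)))
 (.n (.p (nat_lit 0xe0a0e080e060e020e0001450e0507) (nat_lit 0x200307) (nat_lit 7))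
 (.p (nat_lit 0x5d95197b02) (nat_lit 0x1800a0000700) (nat_lit 39)))))
 (.n (.n (.n (.p (nat_lit 0x128d0f6102) (nat_lit 0x256400) (nat_lit 16))
 (.p (nat_lit 0x41103eb902) (nat_lit 0x340419) (nat_lit 5)))
 (.n (.p (nat_lit 0x46fb0e5d02) (nat_lit 0x40a305) (nat_lit 16))
 (.p (nat_lit 0x4980496049404900435008b06) (nat_lit 0x21622d) (nat_lit 26))))
 (.n (.n (.p (nat_lit 0x7620760075e075c006a005b0059075b075909) (nat_lit 0x840002) (nat_lit 10))
 (.p (nat_lit 0x3367335b02) (nat_lit 0x400a25) (nat_lit 16)))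
 (.n (.p (nat_lit 0x4357434102) (nat_lit 0x408b0b) (nat_lit 16))
 (.p (nat_lit 0x233a5fa302) (nat_lit 0x589832b44000500000600) (nat_lit 49))))))
 (.n (.n (.n (.n (.p (nat_lit 0xb95087702) (nat_lit 0x314200) (nat_lit 16))
 (.p (nat_lit 0x129e129c12981296129414db06) (nat_lit 0x400004a515) (nat_lit 52)))
 (.n (.p (nat_lit 0x151815161514151200cc00bf00b5151b151109) (nat_lit 0x2840504) (nat_lit 10))
 (.p (nat_lit 0xbe00bc00ba00b800e5000106) (nat_lit 0x816604) (nat_lit 26))))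
 (.n (.n (.p (nat_lit 0xf930cc502) (nat_lit 0x340201) (nat_lit 15))
 (.p (nat_lit 0x2e3b089102) (nat_lit 0x40e123) (nat_lit 16)))
 (.n (.p (nat_lit 0x16dc16da16d816d616d428cd06) (nat_lit 0x1000002308) (nat_lit 51))
 (.p (nat_lit 0x5d35248702) (nat_lit 0x180060000b00) (nat_lit 39)))))
 (.n (.n (.n (.p (nat_lit 0x19d819d619d219d01799179306) (nat_lit 0x4800046700) (nat_lit 51))
 (.p (nat_lit 0x10c010bc10ba10b810b6139f06) (nat_lit 0x800009651c) (nat_lit 52)))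
 (.n (.p (nat_lit 0xcfe24d502) (nat_lit 0x240206) (nat_lit 5))
 (.p (nat_lit 0x5ccf5e1102) (nat_lit 0x1e0020000400) (nat_lit 37))))
 (.n (.n (.p (nat_lit 0x170c170a170617042463245d06) (nat_lit 0x4800006b02) (nat_lit 51))
 (.p (nat_lit 0xd100d0e0d0c0d0a0d060b5506) (nat_lit 0x100000622a) (nat_lit 52)))
 (.n (.p (nat_lit 0x191a080702) (nat_lit 0x50070e) (nat_lit 4))
 (.p (nat_lit 0x13fc60a502) (nat_lit 0x346068ca4000500040000) (nat_lit 50))))))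

def c512_55 : Tr := .n c1024_55 c1024_567

def c1024_311 : Tr :=
 .n (.n (.n (.n (.n (.n (.p (nat_lit 0x13f0131012003) (nat_lit 0x82900006) (nat_lit 19))
 (.p (nat_lit 0x8f0616b02) (nat_lit 0x421aa4395000100040000) (nat_lit 49)))
 (.p (nat_lit 0x33da2e1502) (nat_lit 0x200b10) (nat_lit 5)))
 (.n (.p (nat_lit 0x9400b300991b7d1ce305) (nat_lit 0xb0100603) (nat_lit 9))
 (.p (nat_lit 0x260225fe25fc25fa25f8274506) (nat_lit 0x800000612b) (nat_lit 52))))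
 (.n (.n (.p (nat_lit 0x1eb91bcb02) (nat_lit 0x404900) (nat_lit 16))
 (.p (nat_lit 0x2e2e304d02) (nat_lit 0x40011e) (nat_lit 4)))
 (.n (.p (nat_lit 0x20682066206420620124011501132061205f09) (nat_lit 0x840906) (nat_lit 10))
 (.p (nat_lit 0x5e521d7d02) (nat_lit 0x56700) (nat_lit 48)))))
 (.n (.n (.n (.p (nat_lit 0x109c109a1098109410920df906) (nat_lit 0x2000014400) (nat_lit 52))
 (.p (nat_lit 0x33942f1f02) (nat_lit 0x340a17) (nat_lit 4)))
 (.n (.p (nat_lit 0x77c208f02) (nat_lit 0x40005) (nat_lit 4))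
 (.p (nat_lit 0x36c036803660364034f00bd06) (nat_lit 0x40e020) (nat_lit 26))))
 (.n (.n (.p (nat_lit 0x2beb204902) (nat_lit 0x142901) (nat_lit 16))
 (.p (nat_lit 0x3ab573b02) (nat_lit 0x540b23) (nat_lit 30)))
 (.n (.p (nat_lit 0x3bc0353302) (nat_lit 0x140b0a) (nat_lit 4))
 (.p (nat_lit 0x15425f6d02) (nat_lit 0x3aa074b44000000000600) (nat_lit 50))))))
 (.n (.n (.n (.n (.p (nat_lit 0x9820980097c09780723071f06) (nat_lit 0x50000d0100) (nat_lit 51))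
 (.p (nat_lit 0x1246541f02) (nat_lit 0x340415) (nat_lit 29)))
 (.n (.p (nat_lit 0x3f930e4b02) (nat_lit 0x100304) (nat_lit 16))
 (.p (nat_lit 0x2b58bf02) (nat_lit 0x801) (nat_lit 28))))
 (.n (.n (.p (nat_lit 0x5f0155d02) (nat_lit 0x200001) (nat_lit 5))
 (.p (nat_lit 0x5ea0ff702) (nat_lit 0x500023) (nat_lit 4)))
 (.n (.p (nat_lit 0x2004058702) (nat_lit 0x340907) (nat_lit 5))
 (.p (nat_lit 0x5d1d5e9d02) (nat_lit 0x40000a00) (nat_lit 36)))))
 (.n (.n (.n (.p (nat_lit 0x1819180d02) (nat_lit 0x100700) (nat_lit 34))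
 (.p (nat_lit 0x4b8d073d02) (nat_lit 0x45601c) (nat_lit 16)))
 (.n (.p (nat_lit 0x1f4a1f481f461f421f401d8d06) (nat_lit 0x20000c2805) (nat_lit 52))
 (.p (nat_lit 0x5df4124102) (nat_lit 0x42300) (nat_lit 48))))
 (.n (.n (.p (nat_lit 0x1db61db41db21db01dae21b506) (nat_lit 0x800012a02) (nat_lit 51))
 (.p (nat_lit 0x50c64e9502) (nat_lit 0x540829) (nat_lit 5)))
 (.n (.p (nat_lit 0x1241123502) (nat_lit 0x4640e) (nat_lit 16))
 (.p (nat_lit 0xbb0606902) (nat_lit 0x588172b40800200040000) (nat_lit 49))))))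

def c1024_823 : Tr :=
 .n (.n (.n (.n (.n (.n (.p (nat_lit 0x59605940590058c04e104dd06) (nat_lit 0x5000014000) (nat_lit 51))
 (.p (nat_lit 0x207c61e502) (nat_lit 0x14e0a8c74000400000600) (nat_lit 50)))
 (.p (nat_lit 0x4854455102) (nat_lit 0x540413) (nat_lit 4)))
 (.n (.p (nat_lit 0x25c01d1f02) (nat_lit 0x140b03) (nat_lit 4))
 (.p (nat_lit 0x3bfe39d702) (nat_lit 0x240b2d) (nat_lit 4))))
 (.n (.n (.p (nat_lit 0x224c2248224622441ffb1ff306) (nat_lit 0x8800048a00) (nat_lit 52))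
 (.p (nat_lit 0x42803f6702) (nat_lit 0x40620) (nat_lit 5)))
 (.n (.p (nat_lit 0x30950f7302) (nat_lit 0x54e307) (nat_lit 16))
 (.p (nat_lit 0x5d731c4f02) (nat_lit 0xa0080000800) (nat_lit 41)))))
 (.n (.n (.n (.p (nat_lit 0x1430142e142c142a1428142606) (nat_lit 0xc4500) (nat_lit 52))
 (.p (nat_lit 0x211621122110210e210c48c506) (nat_lit 0x800000c51a) (nat_lit 52)))
 (.n (.p (nat_lit 0x169616941690168c010000e900e51693168f09) (nat_lit 0x1900605) (nat_lit 10))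
 (.p (nat_lit 0x5cb907a102) (nat_lit 0x40000000100) (nat_lit 40))))
 (.n (.n (.p (nat_lit 0x2ff22ff02fee2fea0e350e3106) (nat_lit 0x2800014302) (nat_lit 52))
 (.p (nat_lit 0x3d74402b02) (nat_lit 0x200127) (nat_lit 4)))
 (.n (.p (nat_lit 0x2550254e254a254825464e2106) (nat_lit 0x40000d030d) (nat_lit 52))
 (.p (nat_lit 0xe745fe902) (nat_lit 0x306a81d31000300040000) (nat_lit 49))))))
 (.n (.n (.n (.n (.p (nat_lit 0xd320d300d2e0d2c0b390b2f06) (nat_lit 0x10800080300) (nat_lit 51))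
 (.p (nat_lit 0x1bf01bec1be81be602a4028902851bef1beb09) (nat_lit 0x2200815) (nat_lit 10)))
 (.n (.p (nat_lit 0x1820181e181c181a181617f506) (nat_lit 0x100004e604) (nat_lit 51))
 (.p (nat_lit 0x5a0e5a0c5a0a5a085a060485014c07) (nat_lit 0x508707) (nat_lit 25))))
 (.n (.n (.p (nat_lit 0x2a902a8e2a8c2a8a2a8614ef06) (nat_lit 0x1000044501) (nat_lit 51))
 (.p (nat_lit 0xcb00cae0cac0ca803b403a503a10cab0ca709) (nat_lit 0x1040223) (nat_lit 10)))
 (.n (.p (nat_lit 0x18d218ce18cc18ca18c8301306) (nat_lit 0x8000014309) (nat_lit 52))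
 (.p (nat_lit 0x207a5edf02) (nat_lit 0x4a9d22344000400000600) (nat_lit 50)))))
 (.n (.n (.n (.p (nat_lit 0x1b8e1b8c1b8a1b881b86190306) (nat_lit 0x1000008c800) (nat_lit 51))
 (.p (nat_lit 0x1bf4555302) (nat_lit 0x10081c) (nat_lit 29)))
 (.n (.p (nat_lit 0x196c196a196819661964011d196f07) (nat_lit 0x500706) (nat_lit 7))
 (.p (nat_lit 0x5cfb5e2b02) (nat_lit 0x220040000500) (nat_lit 37))))
 (.n (.n (.p (nat_lit 0x8c21b0f02) (nat_lit 0x500103) (nat_lit 5))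
 (.p (nat_lit 0x101a10181014101210100e1f06) (nat_lit 0x400008232a) (nat_lit 51)))
 (.n (.p (nat_lit 0x2179216d02) (nat_lit 0x6a0e) (nat_lit 16))
 (.p (nat_lit 0x8fa60ef02) (nat_lit 0x440d6a3a4000100040000) (nat_lit 50))))))

def c512_311 : Tr := .n c1024_311 c1024_823

def c256_55 : Tr := .n c512_55 c512_311

def c1024_183 : Tr :=
 .n (.n (.n (.n (.n (.n (.p (nat_lit 0xbc00ba00b800c104) (nat_lit 0xe000400004) (nat_lit 17))
 (.p (nat_lit 0x113a614d02) (nat_lit 0x3b0221d85000400040000) (nat_lit 49)))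
 (.p (nat_lit 0x1a361a341a321a301a2c317506) (nat_lit 0x1000054410) (nat_lit 51)))
 (.n (.p (nat_lit 0x392439223920391a1269126706) (nat_lit 0x30000c2403) (nat_lit 52))
 (.p (nat_lit 0x219e149d02) (nat_lit 0x100a2a) (nat_lit 4))))
 (.n (.n (.p (nat_lit 0x1de41de21dde1ddc1bcd1bc706) (nat_lit 0x12000082900) (nat_lit 51))
 (.p (nat_lit 0x272c290302) (nat_lit 0x20011d) (nat_lit 4)))
 (.n (.p (nat_lit 0x50c71d9f02) (nat_lit 0x548806) (nat_lit 16))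
 (.p (nat_lit 0x5d755e4902) (nat_lit 0x80080000600) (nat_lit 37)))))
 (.n (.n (.n (.p (nat_lit 0xdfe0dfc0df80df60df400070dfb07) (nat_lit 0x300400) (nat_lit 7))
 (.p (nat_lit 0x33432c4302) (nat_lit 0x410a16) (nat_lit 16)))
 (.n (.p (nat_lit 0xbd436302) (nat_lit 0x440b04) (nat_lit 30))
 (.p (nat_lit 0x5b4e5b4c5b4a5b485b46026302f007) (nat_lit 0x316019) (nat_lit 25))))
 (.n (.n (.p (nat_lit 0x1f031eeb02) (nat_lit 0x514901) (nat_lit 16))
 (.p (nat_lit 0x219a109d02) (nat_lit 0x500a23) (nat_lit 4)))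
 (.n (.p (nat_lit 0x19f523f02) (nat_lit 0x34040a) (nat_lit 30))
 (.p (nat_lit 0xbae5f4302) (nat_lit 0x1a1d22350000200040000) (nat_lit 49))))))
 (.n (.n (.n (.n (.p (nat_lit 0x8ab05c702) (nat_lit 0x50c100) (nat_lit 16))
 (.p (nat_lit 0x9ae09ac09aa09a80733073106) (nat_lit 0x180000d4015) (nat_lit 52)))
 (.n (.p (nat_lit 0x3e4e3e4c3e4a3e483e440b8506) (nat_lit 0x100008c204) (nat_lit 51))
 (.p (nat_lit 0x4d044f4b02) (nat_lit 0x400230) (nat_lit 4))))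
 (.n (.n (.p (nat_lit 0x252a252825262524252222c506) (nat_lit 0x1000004eb00) (nat_lit 51))
 (.p (nat_lit 0x5022567302) (nat_lit 0x140722) (nat_lit 29)))
 (.n (.p (nat_lit 0x147519702) (nat_lit 0x300807) (nat_lit 30))
 (.p (nat_lit 0x5d875e9102) (nat_lit 0x2600a0000900) (nat_lit 36)))))
 (.n (.n (.n (.p (nat_lit 0x17521750174c174a16bb16b506) (nat_lit 0x12000050600) (nat_lit 51))
 (.p (nat_lit 0x73e073c073807360734030d073b07) (nat_lit 0x34001c) (nat_lit 7)))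
 (.n (.p (nat_lit 0x1c244a6302) (nat_lit 0x100805) (nat_lit 29))
 (.p (nat_lit 0x5d295deb02) (nat_lit 0x240060000200) (nat_lit 36))))
 (.n (.n (.p (nat_lit 0x1d0e1d0c1d081d061d04205906) (nat_lit 0x40000d4902) (nat_lit 51))
 (.p (nat_lit 0x2550254c254a254825464c1506) (nat_lit 0x8000090129) (nat_lit 52)))
 (.n (.p (nat_lit 0x248a248824862482248010df06) (nat_lit 0x200009640e) (nat_lit 52))
 (.p (nat_lit 0xe7c604902) (nat_lit 0x406a6254c800300040000) (nat_lit 50))))))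

def c1024_695 : Tr :=
 .n (.n (.n (.n (.n (.n (.p (nat_lit 0x14204dd02) (nat_lit 0x100000) (nat_lit 1))
 (.p (nat_lit 0x198461c702) (nat_lit 0x340d89ca4000100040600) (nat_lit 50)))
 (.p (nat_lit 0x42263dc102) (nat_lit 0x300612) (nat_lit 4)))
 (.n (.p (nat_lit 0x4ca04c804c604c404c2247306) (nat_lit 0x10000000b03) (nat_lit 52))
 (.p (nat_lit 0x36d0587702) (nat_lit 0x10022d) (nat_lit 29))))
 (.n (.n (.p (nat_lit 0x2150214e214c214a1e971e8d06) (nat_lit 0x10800090a00) (nat_lit 51))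
 (.p (nat_lit 0xb63d0302) (nat_lit 0x140020) (nat_lit 1)))
 (.n (.p (nat_lit 0x4dc70e0702) (nat_lit 0x316307) (nat_lit 16))
 (.p (nat_lit 0x5cc95e6b02) (nat_lit 0x240020000800) (nat_lit 36)))))
 (.n (.n (.n (.p (nat_lit 0x1340133e133a133810cb10c706) (nat_lit 0xa000012500) (nat_lit 51))
 (.p (nat_lit 0xa960a920a900a8e0a8c427d06) (nat_lit 0x800004a619) (nat_lit 52)))
 (.n (.p (nat_lit 0x1521128102) (nat_lit 0x240405) (nat_lit 15))
 (.p (nat_lit 0x5d1d5db702) (nat_lit 0x40000000) (nat_lit 37))))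
 (.n (.n (.p (nat_lit 0xb6a19b902) (nat_lit 0x202) (nat_lit 5))
 (.p (nat_lit 0x3788378637843782378036c306) (nat_lit 0x800080226) (nat_lit 51)))
 (.n (.p (nat_lit 0x49b043e302) (nat_lit 0x4060c) (nat_lit 4))
 (.p (nat_lit 0x1dac5fcd02) (nat_lit 0x95832b05000300000600) (nat_lit 50))))))
 (.n (.n (.n (.n (.p (nat_lit 0xc760c720c700c6e09d509cd06) (nat_lit 0x88000d4200) (nat_lit 51))
 (.p (nat_lit 0x2850284c284a2848284617bf06) (nat_lit 0x8000052615) (nat_lit 51)))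
 (.n (.p (nat_lit 0x21e221de21dc21da21d8168906) (nat_lit 0x8000094604) (nat_lit 51))
 (.p (nat_lit 0x59be59bc59ba59b859b6000b00ee07) (nat_lit 0x50c805) (nat_lit 25))))
 (.n (.n (.p (nat_lit 0x110510f902) (nat_lit 0x310401) (nat_lit 16))
 (.p (nat_lit 0x27b109eb02) (nat_lit 0x34c123) (nat_lit 16)))
 (.n (.p (nat_lit 0x51405120510050c050a2b8d06) (nat_lit 0x2000086908) (nat_lit 51))
 (.p (nat_lit 0x5ec04e2502) (nat_lit 0xa0040b00) (nat_lit 47)))))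
 (.n (.n (.n (.p (nat_lit 0x1a8d179302) (nat_lit 0x46700) (nat_lit 16))
 (.p (nat_lit 0x1661165502) (nat_lit 0x20a61c) (nat_lit 16)))
 (.n (.p (nat_lit 0x128823b502) (nat_lit 0x40406) (nat_lit 5))
 (.p (nat_lit 0x5e1c424d02) (nat_lit 0x80012400) (nat_lit 47))))
 (.n (.n (.p (nat_lit 0x25c725bb02) (nat_lit 0x452b02) (nat_lit 16))
 (.p (nat_lit 0xe820e800e7e0e7c0e7a0cb306) (nat_lit 0x8000c622a) (nat_lit 51)))
 (.n (.p (nat_lit 0x2401d4902) (nat_lit 0x44080e) (nat_lit 1))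
 (.p (nat_lit 0x114e60cf02) (nat_lit 0x35056a3a4000400040000) (nat_lit 50))))))

def c512_183 : Tr := .n c1024_183 c1024_695

def c1024_439 : Tr :=
 .n (.n (.n (.n (.n (.n (.p (nat_lit 0x28802840282028d04) (nat_lit 0xb000400015) (nat_lit 17))
 (.p (nat_lit 0x206c618702) (nat_lit 0x54c88a970000400000600) (nat_lit 49)))
 (.p (nat_lit 0x1d021d001cfe1cfc1cf8397506) (nat_lit 0x1000054411) (nat_lit 51)))
 (.n (.p (nat_lit 0x3ac23ac03abe3abc3aba3ab8009417f117ef17e70a) (nat_lit 0x16040603) (nat_lit 31))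
 (.p (nat_lit 0x2c182acd02) (nat_lit 0x4092b) (nat_lit 4))))
 (.n (.n (.p (nat_lit 0x1fb21fb01fae1fac1faa1d3306) (nat_lit 0x1000004c900) (nat_lit 51))
 (.p (nat_lit 0x1bc01bbe1bbc1bba1bb834bf06) (nat_lit 0x80009601f) (nat_lit 51)))
 (.n (.p (nat_lit 0x9a609a409a0099e0b410b3b06) (nat_lit 0x4800014207) (nat_lit 52))
 (.p (nat_lit 0x5d2d5e5d02) (nat_lit 0x200060000700) (nat_lit 36)))))
 (.n (.n (.n (.p (nat_lit 0x11661164116211600f670f5d06) (nat_lit 0x108000c0400) (nat_lit 51))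
 (.p (nat_lit 0x1b821b801b7e1b7c1b7a3a7106) (nat_lit 0x1000004c518) (nat_lit 51)))
 (.n (.p (nat_lit 0xe745a302) (nat_lit 0x200205) (nat_lit 30))
 (.p (nat_lit 0x3d05c0302) (nat_lit 0xb25) (nat_lit 27))))
 (.n (.n (.p (nat_lit 0x23162c5702) (nat_lit 0x440a01) (nat_lit 29))
 (.p (nat_lit 0x2bbe297b02) (nat_lit 0x300924) (nat_lit 5)))
 (.n (.p (nat_lit 0x1fe41fe21fe01fde1fda401106) (nat_lit 0x100005630b) (nat_lit 51))
 (.p (nat_lit 0xe7c5f8502) (nat_lit 0x581a32b44000300040000) (nat_lit 50))))))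
 (.n (.n (.n (.n (.p (nat_lit 0xa720a6e0a6c0a6a0879087106) (nat_lit 0x8800080200) (nat_lit 51))
 (.p (nat_lit 0x1150114e114c114a1146138d06) (nat_lit 0x1000088515) (nat_lit 51)))
 (.n (.p (nat_lit 0x127a1f9302) (nat_lit 0x540404) (nat_lit 5))
 (.p (nat_lit 0x1a2591902) (nat_lit 0x500003) (nat_lit 27))))
 (.n (.n (.p (nat_lit 0x9fe157102) (nat_lit 0x140101) (nat_lit 4))
 (.p (nat_lit 0x26c9074102) (nat_lit 0x4c023) (nat_lit 16)))
 (.n (.p (nat_lit 0x14951d502) (nat_lit 0x400b07) (nat_lit 30))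
 (.p (nat_lit 0x5d855eab02) (nat_lit 0x2800a0000a00) (nat_lit 37)))))
 (.n (.n (.n (.p (nat_lit 0x18f618f218f018ec1629162306) (nat_lit 0x9000096700) (nat_lit 51))
 (.p (nat_lit 0x9e00eb102) (nat_lit 0x44011c) (nat_lit 4)))
 (.n (.p (nat_lit 0x8dc4b9d02) (nat_lit 0x106) (nat_lit 29))
 (.p (nat_lit 0x5d710d1b02) (nat_lit 0xc0080000300) (nat_lit 40))))
 (.n (.n (.p (nat_lit 0x1820181e181c181a1816231d06) (nat_lit 0x100004ea02) (nat_lit 51))
 (.p (nat_lit 0x9f212bb02) (nat_lit 0x14012a) (nat_lit 4)))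
 (.n (.p (nat_lit 0x14d014ce14cc14c8020201f101e914d314cb09) (nat_lit 0x294050e) (nat_lit 10))
 (.p (nat_lit 0xe6e608b02) (nat_lit 0x354221ca4000300040000) (nat_lit 49))))))

def c1024_951 : Tr :=
 .n (.n (.n (.n (.n (.p (nat_lit 0x6920690068e068c0688064f06) (nat_lit 0x1000048000) (nat_lit 52))
 (.p (nat_lit 0x252c252a2528252625224e9906) (nat_lit 0x100000e414) (nat_lit 51)))
 (.n (.p (nat_lit 0x25d325c702) (nat_lit 0x454b03) (nat_lit 16))
 (.p (nat_lit 0x42ed425102) (nat_lit 0x62e) (nat_lit 15))))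
 (.n (.n (.p (nat_lit 0x23271ff302) (nat_lit 0x50a00) (nat_lit 16))
 (.p (nat_lit 0x22b822b622b422b222b0440f06) (nat_lit 0x800090021) (nat_lit 52)))
 (.n (.p (nat_lit 0x122e069b02) (nat_lit 0x340407) (nat_lit 4))
 (.p (nat_lit 0x5e7a205d02) (nat_lit 0xa004c800) (nat_lit 48)))))
 (.n (.n (.n (.p (nat_lit 0x154e153702) (nat_lit 0x100600) (nat_lit 4))
 (.p (nat_lit 0x4db24db04dae4dac4daa4ea306) (nat_lit 0x80009041b) (nat_lit 51)))
 (.n (.p (nat_lit 0x1960229302) (nat_lit 0x400705) (nat_lit 5))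
 (.p (nat_lit 0x5d335dd302) (nat_lit 0x1a0060000100) (nat_lit 36))))
 (.n (.n (.p (nat_lit 0x1503126302) (nat_lit 0x540402) (nat_lit 15))
 (.p (nat_lit 0xff60ff40ff20ff00fec428f06) (nat_lit 0x1000040627) (nat_lit 52)))
 (.n (.p (nat_lit 0x52d252d052ce52cc52ca52c801f207) (nat_lit 0x30e) (nat_lit 8))
 (.p (nat_lit 0x1db0600d02) (nat_lit 0x405aa0b54800300000600) (nat_lit 50))))))
 (.n (.n (.n (.n (.p (nat_lit 0xe350b3302) (nat_lit 0x20e300) (nat_lit 16))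
 (.p (nat_lit 0x217c0b0502) (nat_lit 0x200a15) (nat_lit 4)))
 (.n (.p (nat_lit 0x1b9c1b9a1b961b941b92195306) (nat_lit 0x4000014704) (nat_lit 52))
 (.p (nat_lit 0x1e201e001da01d80147017306) (nat_lit 0x1a1070d) (nat_lit 26))))
 (.n (.n (.p (nat_lit 0x2b1f1c2102) (nat_lit 0x504801) (nat_lit 16))
 (.p (nat_lit 0x1934104d02) (nat_lit 0x723) (nat_lit 5)))
 (.n (.p (nat_lit 0x14a332d02) (nat_lit 0x500a09) (nat_lit 1))
 (.p (nat_lit 0x1ad45f0d02) (nat_lit 0x3a2530344000200000600) (nat_lit 49)))))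
 (.n (.n (.n (.p (nat_lit 0x1a641c4302) (nat_lit 0x440800) (nat_lit 4))
 (.p (nat_lit 0x3f7a3f783f763f743f721ec506) (nat_lit 0x800000e91c) (nat_lit 51)))
 (.n (.p (nat_lit 0x1c3223e902) (nat_lit 0x200806) (nat_lit 4))
 (.p (nat_lit 0x5da35e3502) (nat_lit 0xa00a0000500) (nat_lit 36))))
 (.n (.n (.p (nat_lit 0xb800b7e0b780b7600aa008d008b0b7d0b7b09) (nat_lit 0x1a00203) (nat_lit 10))
 (.p (nat_lit 0x2a9c2a9a2a982a962a92166b06) (nat_lit 0x100008462a) (nat_lit 52)))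
 (.n (.p (nat_lit 0x28d8537502) (nat_lit 0x20030f) (nat_lit 29))
 (.p (nat_lit 0xe6e611102) (nat_lit 0x3425221b0000300040000) (nat_lit 49))))))

def c512_439 : Tr := .n c1024_439 c1024_951

def c256_183 : Tr := .n c512_183 c512_439

def c128_55 : Tr := .n c256_55 c256_183

def c1024_119 : Tr :=
 .n (.n (.n (.n (.n (.n (.p (nat_lit 0x7f0075006603) (nat_lit 0x42100002) (nat_lit 19))
 (.p (nat_lit 0xe7c613d02) (nat_lit 0x342a21d84000300040000) (nat_lit 50)))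
 (.p (nat_lit 0x309a2e4f02) (nat_lit 0x240310) (nat_lit 5)))
 (.n (.p (nat_lit 0x3898389638943890110f110b06) (nat_lit 0x2800082403) (nat_lit 51))
 (.p (nat_lit 0x1eda148b02) (nat_lit 0x30092a) (nat_lit 4))))
 (.n (.n (.p (nat_lit 0x1d7d1a5d02) (nat_lit 0x4c800) (nat_lit 16))
 (.p (nat_lit 0x55ae55ac55aa55a855a655a4031207) (nat_lit 0x40b1c) (nat_lit 8)))
 (.n (.p (nat_lit 0x16a0169e169c169a16981d9f06) (nat_lit 0x100000cc806) (nat_lit 52))
 (.p (nat_lit 0x5d4d154702) (nat_lit 0x60000600) (nat_lit 40)))))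
 (.n (.n (.n (.p (nat_lit 0xf770c9102) (nat_lit 0x142300) (nat_lit 16))
 (.p (nat_lit 0x15f815f615f415f215f02aef06) (nat_lit 0x10000052516) (nat_lit 52)))
 (.n (.p (nat_lit 0x211421122110210e210c247f06) (nat_lit 0x1000000cb04) (nat_lit 52))
 (.p (nat_lit 0x28a0288028602800005030906) (nat_lit 0x110a415) (nat_lit 26))))
 (.n (.n (.p (nat_lit 0x16ae16ac16a816a616a41ee706) (nat_lit 0x400008c901) (nat_lit 51))
 (.p (nat_lit 0x3ab570b02) (nat_lit 0x500923) (nat_lit 30)))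
 (.n (.p (nat_lit 0x38643860385e385c385a01a1386307) (nat_lit 0x44030a) (nat_lit 7))
 (.p (nat_lit 0x1ad65f3702) (nat_lit 0x3a6560c44000200000600) (nat_lit 49))))))
 (.n (.n (.n (.n (.p (nat_lit 0x7d807d607d207d005c705c106) (nat_lit 0x12000088100) (nat_lit 51))
 (.p (nat_lit 0x7280a6902) (nat_lit 0x40015) (nat_lit 5)))
 (.n (.p (nat_lit 0x3dd03dce3dcc3dca3dc60a2306) (nat_lit 0x10000cc104) (nat_lit 52))
 (.p (nat_lit 0x4364a0502) (nat_lit 0x10072f) (nat_lit 1))))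
 (.n (.n (.p (nat_lit 0x22be248502) (nat_lit 0x240b00) (nat_lit 4))
 (.p (nat_lit 0x4c004df702) (nat_lit 0x122) (nat_lit 4)))
 (.n (.p (nat_lit 0x49cf190b02) (nat_lit 0x314707) (nat_lit 16))
 (.p (nat_lit 0x5d791da902) (nat_lit 0x40080000900) (nat_lit 38)))))
 (.n (.n (.n (.p (nat_lit 0x16b816a102) (nat_lit 0x440600) (nat_lit 4))
 (.p (nat_lit 0x1c421c401c3e1c3a05df05d706) (nat_lit 0x1100009001c) (nat_lit 52)))
 (.n (.p (nat_lit 0x1986198419821980197c1abf06) (nat_lit 0x10000ce705) (nat_lit 51))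
 (.p (nat_lit 0x5cc95de302) (nat_lit 0x240020000200) (nat_lit 36))))
 (.n (.n (.p (nat_lit 0x205c205a205820562052005b205507) (nat_lit 0x140902) (nat_lit 7))
 (.p (nat_lit 0x4a4a47c302) (nat_lit 0x140728) (nat_lit 5)))
 (.n (.p (nat_lit 0xe820e800e7e0e7a0e7810df06) (nat_lit 0x200008640e) (nat_lit 51))
 (.p (nat_lit 0x8fa603902) (nat_lit 0x4a8162340800100040000) (nat_lit 50))))))

def c1024_631 : Tr :=
 .n (.n (.n (.n (.n (.n (.p (nat_lit 0x420041e042b03) (nat_lit 0x3000500029) (nat_lit 17))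
 (.p (nat_lit 0x63861bb02) (nat_lit 0x322266c15000000040000) (nat_lit 49)))
 (.p (nat_lit 0x1e581e561e541e521e50410b06) (nat_lit 0x100000cc412) (nat_lit 51)))
 (.n (.p (nat_lit 0x1fb41fb21fae1fac1faa232d06) (nat_lit 0x400004ca03) (nat_lit 51))
 (.p (nat_lit 0x142e142c142a1428142633bd06) (nat_lit 0x100000c4a2c) (nat_lit 52))))
 (.n (.n (.p (nat_lit 0x211621122110210e1e951e8d06) (nat_lit 0x880000ca00) (nat_lit 52))
 (.p (nat_lit 0x3be237c702) (nat_lit 0x40b1f) (nat_lit 4)))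
 (.n (.p (nat_lit 0x16ae16aa16a816a616a40e0906) (nat_lit 0x800008c307) (nat_lit 51))
 (.p (nat_lit 0x5c911ad502) (nat_lit 0x2c0000000800) (nat_lit 38)))))
 (.n (.n (.n (.p (nat_lit 0x12c012be12bc12b810cd10c506) (nat_lit 0x11000082500) (nat_lit 52))
 (.p (nat_lit 0x1fe41fe21fe01fde1fdc420306) (nat_lit 0x800056519) (nat_lit 51)))
 (.n (.p (nat_lit 0x1124477102) (nat_lit 0x100405) (nat_lit 29))
 (.p (nat_lit 0x5c9104cf02) (nat_lit 0x2c0000000000) (nat_lit 40))))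
 (.n (.n (.p (nat_lit 0x8b62dbd02) (nat_lit 0x500102) (nat_lit 29))
 (.p (nat_lit 0x1bbe1bbc1bba1bb81bb635cb06) (nat_lit 0x10000096126) (nat_lit 51)))
 (.n (.p (nat_lit 0x474e444702) (nat_lit 0x4030c) (nat_lit 4))
 (.p (nat_lit 0x18185fc302) (nat_lit 0x89832915800100000600) (nat_lit 50))))))
 (.n (.n (.n (.n (.p (nat_lit 0xbe00bde0bdc0bd609d109cf06) (nat_lit 0x3000048200) (nat_lit 51))
 (.p (nat_lit 0x281543102) (nat_lit 0x615) (nat_lit 30)))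
 (.n (.p (nat_lit 0xa4e0a4a0a480a460a44168906) (nat_lit 0x8000004604) (nat_lit 52))
 (.p (nat_lit 0xec00ea00e400e20005038b06) (nat_lit 0x130e305) (nat_lit 26))))
 (.n (.n (.p (nat_lit 0xf8e171102) (nat_lit 0x140301) (nat_lit 5))
 (.p (nat_lit 0xfea0fe80fe60fe40fe209e506) (nat_lit 0x800048123) (nat_lit 51)))
 (.n (.p (nat_lit 0x2b04268b02) (nat_lit 0x400808) (nat_lit 5))
 (.p (nat_lit 0x5d61248902) (nat_lit 0x1c0080000b00) (nat_lit 39)))))
 (.n (.n (.n (.p (nat_lit 0x1a421a3e1a3c1a3a1a38179b06) (nat_lit 0x80000d4700) (nat_lit 52))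
 (.p (nat_lit 0x101810161014101014eb14e306) (nat_lit 0x110000c251c) (nat_lit 51)))
 (.n (.p (nat_lit 0xfd24de902) (nat_lit 0x540306) (nat_lit 29))
 (.p (nat_lit 0x5e160fdb02) (nat_lit 0x60000400) (nat_lit 45))))
 (.n (.n (.p (nat_lit 0x25b6341302) (nat_lit 0x240b02) (nat_lit 29))
 (.p (nat_lit 0x2346234423422340233e0b5d06) (nat_lit 0x1000001622a) (nat_lit 51)))
 (.n (.p (nat_lit 0x1eb532102) (nat_lit 0x20080e) (nat_lit 30))
 (.p (nat_lit 0x197860b302) (nat_lit 0x350521a84000100040600) (nat_lit 49))))))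

def c512_119 : Tr := .n c1024_119 c1024_631

def c1024_375 : Tr :=
 .n (.n (.n (.n (.n (.n (.p (nat_lit 0x1ab01a901a603) (nat_lit 0x62a0000a) (nat_lit 19))
 (.p (nat_lit 0x1f18617702) (nat_lit 0x340c6ab84000300040600) (nat_lit 50)))
 (.p (nat_lit 0x38e835ed02) (nat_lit 0x500411) (nat_lit 5)))
 (.n (.p (nat_lit 0x3a8b167502) (nat_lit 0x603) (nat_lit 16))
 (.p (nat_lit 0x293629322930292e0476046d04692939293509) (nat_lit 0x2b4032b) (nat_lit 10))))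
 (.n (.n (.p (nat_lit 0x1f191f0d02) (nat_lit 0x440900) (nat_lit 34))
 (.p (nat_lit 0x306339b02) (nat_lit 0x40a1e) (nat_lit 1)))
 (.n (.p (nat_lit 0xb3e065d02) (nat_lit 0x200207) (nat_lit 5))
 (.p (nat_lit 0x5d15181b02) (nat_lit 0x80040000700) (nat_lit 40)))))
 (.n (.n (.n (.p (nat_lit 0x111d0dfb02) (nat_lit 0x312400) (nat_lit 16))
 (.p (nat_lit 0x354d354102) (nat_lit 0x248018) (nat_lit 16)))
 (.n (.p (nat_lit 0x8d820a302) (nat_lit 0x400105) (nat_lit 4))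
 (.p (nat_lit 0x3aa03a803a603a40307000306) (nat_lit 0x104123) (nat_lit 26))))
 (.n (.n (.p (nat_lit 0x236c236a2366236421af21a906) (nat_lit 0x4800002a01) (nat_lit 52))
 (.p (nat_lit 0x27ae29c302) (nat_lit 0x240124) (nat_lit 4)))
 (.n (.p (nat_lit 0x3d2c3d2a3d283d263d243f1906) (nat_lit 0x100000c820b) (nat_lit 51))
 (.p (nat_lit 0xbbc5f7702) (nat_lit 0x3aa074b50000200040000) (nat_lit 50))))))
 (.n (.n (.n (.n (.p (nat_lit 0xa35072502) (nat_lit 0x454100) (nat_lit 16))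
 (.p (nat_lit 0x4113124902) (nat_lit 0x452415) (nat_lit 16)))
 (.n (.p (nat_lit 0x111a1f8102) (nat_lit 0x200404) (nat_lit 5))
 (.p (nat_lit 0x6358eb02) (nat_lit 0x500202) (nat_lit 28))))
 (.n (.n (.p (nat_lit 0x268c268a268826840751074d06) (nat_lit 0x2800050001) (nat_lit 51))
 (.p (nat_lit 0x74a074807460744074003a3074307) (nat_lit 0x140023) (nat_lit 7)))
 (.n (.p (nat_lit 0x22c6059902) (nat_lit 0x40a07) (nat_lit 5))
 (.p (nat_lit 0x5d735ea502) (nat_lit 0xa0080000a00) (nat_lit 36)))))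
 (.n (.n (.n (.p (nat_lit 0x18ba18b818b618b01625162306) (nat_lit 0x3000012700) (nat_lit 52))
 (.p (nat_lit 0xaa20a9e0a9c0a9a0a98088506) (nat_lit 0x800008a11c) (nat_lit 51)))
 (.n (.p (nat_lit 0x1de062f02) (nat_lit 0x300006) (nat_lit 1))
 (.p (nat_lit 0x5cf35dfd02) (nat_lit 0x2a0040000300) (nat_lit 36))))
 (.n (.n (.p (nat_lit 0x2322337302) (nat_lit 0x440a02) (nat_lit 29))
 (.p (nat_lit 0x44204590457140d12b705) (nat_lit 0x68d0012a) (nat_lit 9)))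
 (.n (.p (nat_lit 0x66e066c066806661385137f06) (nat_lit 0x480008450e) (nat_lit 51))
 (.p (nat_lit 0x1daa607902) (nat_lit 0x4688ae154000300000600) (nat_lit 49))))))

def c1024_887 : Tr :=
 .n (.n (.n (.n (.n (.p (nat_lit 0x641063502) (nat_lit 0x40000) (nat_lit 34))
 (.p (nat_lit 0x4a2c457902) (nat_lit 0x440713) (nat_lit 5)))
 (.n (.p (nat_lit 0x13f413f213f013ee13ec25bf06) (nat_lit 0x8000cab03) (nat_lit 52))
 (.p (nat_lit 0xbe3f2f02) (nat_lit 0x54022e) (nat_lit 1))))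
 (.n (.n (.p (nat_lit 0x22ac22a822a622a21ffb1ff506) (nat_lit 0x9000050a00) (nat_lit 52))
 (.p (nat_lit 0x43463f7f02) (nat_lit 0x100b20) (nat_lit 4)))
 (.n (.p (nat_lit 0x141814141412141010d710cf06) (nat_lit 0x8800082407) (nat_lit 51))
 (.p (nat_lit 0x5e763a6f02) (nat_lit 0x80044800) (nat_lit 48)))))
 (.n (.n (.n (.p (nat_lit 0x14c614c214c014be1225121d06) (nat_lit 0x88000d6500) (nat_lit 51))
 (.p (nat_lit 0x49e245e302) (nat_lit 0x10071a) (nat_lit 5)))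
 (.n (.p (nat_lit 0x180049a702) (nat_lit 0x140605) (nat_lit 29))
 (.p (nat_lit 0x5dca3b7902) (nat_lit 0x20010100) (nat_lit 48))))
 (.n (.n (.p (nat_lit 0x10fe19e502) (nat_lit 0x402) (nat_lit 5))
 (.p (nat_lit 0x1e8a1e881e841e821e803df906) (nat_lit 0x40000d6127) (nat_lit 52)))
 (.n (.p (nat_lit 0x50404af702) (nat_lit 0x40080d) (nat_lit 4))
 (.p (nat_lit 0xd185ff902) (nat_lit 0x466b80b44000300000000) (nat_lit 50))))))
 (.n (.n (.n (.n (.p (nat_lit 0xd940d920d8e0d8c0b350b2f06) (nat_lit 0x480008e300) (nat_lit 51))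
 (.p (nat_lit 0x287547f02) (nat_lit 0x300915) (nat_lit 30)))
 (.n (.p (nat_lit 0xc200d100cd1e5d1fc305) (nat_lit 0x66800704) (nat_lit 9))
 (.p (nat_lit 0x1a201a0019e01980145023b06) (nat_lit 0x111620a) (nat_lit 26))))
 (.n (.n (.p (nat_lit 0x3800490045175515e305) (nat_lit 0x64500801) (nat_lit 9))
 (.p (nat_lit 0x165c56c502) (nat_lit 0x623) (nat_lit 29)))
 (.n (.p (nat_lit 0x38dd30f902) (nat_lit 0x512409) (nat_lit 16))
 (.p (nat_lit 0x12a85eed02) (nat_lit 0x4a1d84344000500000000) (nat_lit 50)))))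
 (.n (.n (.n (.p (nat_lit 0x1be918fb02) (nat_lit 0x104800) (nat_lit 16))
 (.p (nat_lit 0x1d5e556302) (nat_lit 0x34081c) (nat_lit 29)))
 (.n (.p (nat_lit 0x321ad102) (nat_lit 0x440706) (nat_lit 1))
 (.p (nat_lit 0x5e2e4a0902) (nat_lit 0x60014500) (nat_lit 47))))
 (.n (.n (.p (nat_lit 0xa1e0a1a0a180a16009e008f00870a1d0a1509) (nat_lit 0x2040103) (nat_lit 10))
 (.p (nat_lit 0x115a1158115611540f8b0f8106) (nat_lit 0x1080004032a) (nat_lit 51)))
 (.n (.p (nat_lit 0x242a09bf02) (nat_lit 0x500b0e) (nat_lit 4))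
 (.p (nat_lit 0x207660f902) (nat_lit 0x460d623a4000400000600) (nat_lit 50))))))

def c512_375 : Tr := .n c1024_375 c1024_887

def c256_119 : Tr := .n c512_119 c512_375

def c1024_247 : Tr :=
 .n (.n (.n (.n (.n (.n (.p (nat_lit 0xec00ea00e800ef04) (nat_lit 0x1c000400005) (nat_lit 17))
 (.p (nat_lit 0x2344615902) (nat_lit 0x352829d84000500000600) (nat_lit 50)))
 (.p (nat_lit 0x35aa35a835a635a435a032e106) (nat_lit 0x1000056910) (nat_lit 51)))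
 (.n (.p (nat_lit 0x39e713c302) (nat_lit 0x402503) (nat_lit 16))
 (.p (nat_lit 0x230c136502) (nat_lit 0x540a2a) (nat_lit 5))))
 (.n (.n (.p (nat_lit 0x1e661e641e5e1e5c1bc91bc706) (nat_lit 0x600000e900) (nat_lit 51))
 (.p (nat_lit 0xefa0ef80ef60ef40ef02c0306) (nat_lit 0x10000ce91d) (nat_lit 52)))
 (.n (.p (nat_lit 0x22862284228222801f031ef906) (nat_lit 0x1080008c906) (nat_lit 51))
 (.p (nat_lit 0x5cbd5e5102) (nat_lit 0x700) (nat_lit 37)))))
 (.n (.n (.n (.p (nat_lit 0x101a1018101210100dfb0df906) (nat_lit 0x6000082400) (nat_lit 51))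
 (.p (nat_lit 0x18f618f418f218f018ec327b06) (nat_lit 0x10000d6517) (nat_lit 51)))
 (.n (.p (nat_lit 0x437b25cb02) (nat_lit 0x44b04) (nat_lit 16))
 (.p (nat_lit 0x310030e030c03060389000306) (nat_lit 0x111401c) (nat_lit 26))))
 (.n (.n (.p (nat_lit 0xe760e720e700e6e0e6c204f06) (nat_lit 0x80000c6901) (nat_lit 52))
 (.p (nat_lit 0x424244d02) (nat_lit 0x400b23) (nat_lit 1)))
 (.n (.p (nat_lit 0x3ae8348d02) (nat_lit 0x300a0a) (nat_lit 5))
 (.p (nat_lit 0x15345f5b02) (nat_lit 0x1a2276350000000000600) (nat_lit 49))))))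
 (.n (.n (.n (.n (.p (nat_lit 0x91609140912090c0721071f06) (nat_lit 0x30000c6100) (nat_lit 51))
 (.p (nat_lit 0xd260d240d220d200d1e10f106) (nat_lit 0x10000000415) (nat_lit 52)))
 (.n (.p (nat_lit 0x3ec63ec43ec03ebe0ced0ce706) (nat_lit 0x1200004a204) (nat_lit 51))
 (.p (nat_lit 0x3400320030002e0001017106) (nat_lit 0x112001) (nat_lit 26))))
 (.n (.n (.p (nat_lit 0x16b922c302) (nat_lit 0x440b00) (nat_lit 15))
 (.p (nat_lit 0x50b64e1502) (nat_lit 0x340822) (nat_lit 4)))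
 (.n (.p (nat_lit 0x1d3c06d302) (nat_lit 0x440807) (nat_lit 5))
 (.p (nat_lit 0x5e96468d02) (nat_lit 0x4aa00) (nat_lit 47)))))
 (.n (.n (.n (.p (nat_lit 0x1790178e178a1788178616b706) (nat_lit 0x40000d4600) (nat_lit 52))
 (.p (nat_lit 0x198619841980197e197c073b06) (nat_lit 0x40000ce01c) (nat_lit 51)))
 (.n (.p (nat_lit 0x1e7e1e7c1e761e741c291c2706) (nat_lit 0x6000016805) (nat_lit 52))
 (.p (nat_lit 0x5d4f0a4d02) (nat_lit 0x2e0080000200) (nat_lit 38))))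
 (.n (.n (.p (nat_lit 0x79e079c079a0796079421b906) (nat_lit 0x2000002a02) (nat_lit 52))
 (.p (nat_lit 0x4fec4eed02) (nat_lit 0x300729) (nat_lit 4)))
 (.n (.p (nat_lit 0xd0e0d0c0d0a0d080d06123f06) (nat_lit 0x1000004640e) (nat_lit 52))
 (.p (nat_lit 0x13ea605702) (nat_lit 0x506272b31000500040000) (nat_lit 49))))))

def c1024_759 : Tr :=
 .n (.n (.n (.n (.n (.n (.p (nat_lit 0x50805040502050004e304db06) (nat_lit 0x8800006000) (nat_lit 52))
 (.p (nat_lit 0x1da661d702) (nat_lit 0x542266c0c800300000600) (nat_lit 49)))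
 (.p (nat_lit 0x43703de102) (nat_lit 0x140b12) (nat_lit 4)))
 (.n (.p (nat_lit 0x1ade1ada1ad81ad61ad4247106) (nat_lit 0x8000010b03) (nat_lit 52))
 (.p (nat_lit 0x3940393e393c393a393837e706) (nat_lit 0x1000008c32d) (nat_lit 51))))
 (.n (.n (.p (nat_lit 0x1ff221d902) (nat_lit 0x40a00) (nat_lit 5))
 (.p (nat_lit 0x3dee3dec3dea3de83de6036d3df107) (nat_lit 0x540120) (nat_lit 7)))
 (.n (.p (nat_lit 0x181418121810180e180c0f6906) (nat_lit 0x80004e307) (nat_lit 52))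
 (.p (nat_lit 0x5d4b1adb02) (nat_lit 0x20060000800) (nat_lit 38)))))
 (.n (.n (.n (.p (nat_lit 0x13d910c902) (nat_lit 0x314500) (nat_lit 16))
 (.p (nat_lit 0x4406461d02) (nat_lit 0x20001a) (nat_lit 4)))
 (.n (.p (nat_lit 0xeb48dd02) (nat_lit 0x440505) (nat_lit 30))
 (.p (nat_lit 0x5dbc426302) (nat_lit 0x60052000) (nat_lit 48))))
 (.n (.n (.p (nat_lit 0x2f5c2f5a2f582f562f540ccb06) (nat_lit 0x80004a202) (nat_lit 51))
 (.p (nat_lit 0x3a63ba102) (nat_lit 0x300b26) (nat_lit 1)))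
 (.n (.p (nat_lit 0x4a74448f02) (nat_lit 0x40080c) (nat_lit 5))
 (.p (nat_lit 0x13fc5fd702) (nat_lit 0x3842a1c35000500040000) (nat_lit 50))))))
 (.n (.n (.n (.n (.p (nat_lit 0xd0509d702) (nat_lit 0x556200) (nat_lit 16))
 (.p (nat_lit 0x49e3191f02) (nat_lit 0x114715) (nat_lit 16)))
 (.n (.p (nat_lit 0x4cc04ca04c604c404c217f906) (nat_lit 0x4000040604) (nat_lit 52))
 (.p (nat_lit 0x59e459e259de59dc59da0007011e07) (nat_lit 0x312706) (nat_lit 25))))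
 (.n (.n (.p (nat_lit 0x13a8173902) (nat_lit 0x300501) (nat_lit 4))
 (.p (nat_lit 0xd400d3e0d3c0d3a0d360b4906) (nat_lit 0x1000002223) (nat_lit 51)))
 (.n (.p (nat_lit 0x2222f8d02) (nat_lit 0x40209) (nat_lit 1))
 (.p (nat_lit 0x1da25ed302) (nat_lit 0x4a1a36344000300000600) (nat_lit 49)))))
 (.n (.n (.n (.p (nat_lit 0x1af21af01aee1aec1903190106) (nat_lit 0x18000000800) (nat_lit 51))
 (.p (nat_lit 0x303630343030302e302c192f06) (nat_lit 0x400000071c) (nat_lit 51)))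
 (.n (.p (nat_lit 0x13e223c502) (nat_lit 0x200506) (nat_lit 5))
 (.p (nat_lit 0x5c975e2502) (nat_lit 0x260000000500) (nat_lit 37))))
 (.n (.n (.p (nat_lit 0x8d34d102) (nat_lit 0x340003) (nat_lit 30))
 (.p (nat_lit 0xf8b0cbd02) (nat_lit 0x54022a) (nat_lit 15)))
 (.n (.p (nat_lit 0x3dc43dc23dbe3dbc1eab1ea506) (nat_lit 0x480000c90e) (nat_lit 52))
 (.p (nat_lit 0x8f260db02) (nat_lit 0x340a621b0000100040000) (nat_lit 49))))))

def c512_247 : Tr := .n c1024_247 c1024_759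

def c1024_503 : Tr :=
 .n (.n (.n (.n (.n (.n (.p (nat_lit 0x310030e0306031304) (nat_lit 0x1880040001c) (nat_lit 17))
 (.p (nat_lit 0xe7c619b02) (nat_lit 0x340aa5c14800300040000) (nat_lit 50)))
 (.p (nat_lit 0x3b803b7e3b7c3b783b76023d3b7b07) (nat_lit 0x200b11) (nat_lit 7)))
 (.n (.p (nat_lit 0x21c41cfd02) (nat_lit 0x200a03) (nat_lit 5))
 (.p (nat_lit 0x622faf02) (nat_lit 0x54022c) (nat_lit 1))))
 (.n (.n (.p (nat_lit 0x1fec1fea1fe81fe61d331d3106) (nat_lit 0x180000d6900) (nat_lit 51))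
 (.p (nat_lit 0x3636378f02) (nat_lit 0x24011f) (nat_lit 5)))
 (.n (.p (nat_lit 0xca40ca00c9c0c9a0164014901450ca30c9f09) (nat_lit 0x2240207) (nat_lit 10))
 (.p (nat_lit 0x5d5f5e6102) (nat_lit 0x1e0080000700) (nat_lit 36)))))
 (.n (.n (.n (.p (nat_lit 0x120e120c120a12040f610f5f06) (nat_lit 0x3000056400) (nat_lit 51))
 (.p (nat_lit 0xbd40bd00bce0bcc0bca3b8b06) (nat_lit 0x8000080b18) (nat_lit 52)))
 (.n (.p (nat_lit 0x464e464c4648464646440cf506) (nat_lit 0x40000ca205) (nat_lit 52))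
 (.p (nat_lit 0x4665c3d02) (nat_lit 0x20062a) (nat_lit 27))))
 (.n (.n (.p (nat_lit 0x5d2c8702) (nat_lit 0x200002) (nat_lit 30))
 (.p (nat_lit 0x2eba312702) (nat_lit 0x40125) (nat_lit 4)))
 (.n (.p (nat_lit 0x42663c3f02) (nat_lit 0x54060b) (nat_lit 4))
 (.p (nat_lit 0x20705f9502) (nat_lit 0x581a302a4000400000600) (nat_lit 49))))))
 (.n (.n (.n (.n (.p (nat_lit 0xaea0ae80ae20ae00877087506) (nat_lit 0x6000090200) (nat_lit 52))
 (.p (nat_lit 0x13a1139502) (nat_lit 0x508515) (nat_lit 16)))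
 (.n (.p (nat_lit 0x13ce13cc13ca13c600d400bf00b713d113c909) (nat_lit 0x2900504) (nat_lit 10))
 (.p (nat_lit 0x5948594659445942593e0003009207) (nat_lit 0x114603) (nat_lit 25))))
 (.n (.n (.p (nat_lit 0x3127bd02) (nat_lit 0x300201) (nat_lit 30))
 (.p (nat_lit 0x1150114e114c114a1148088906) (nat_lit 0x800088123) (nat_lit 51)))
 (.n (.p (nat_lit 0x3423257302) (nat_lit 0x44eb07) (nat_lit 16))
 (.p (nat_lit 0x5cd5248302) (nat_lit 0x180020000b00) (nat_lit 39)))))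
 (.n (.n (.n (.p (nat_lit 0x196d162902) (nat_lit 0x416700) (nat_lit 16))
 (.p (nat_lit 0x13980d5102) (nat_lit 0x10051c) (nat_lit 4)))
 (.n (.p (nat_lit 0xa4024c502) (nat_lit 0x440106) (nat_lit 5))
 (.p (nat_lit 0x5cbd5e0b02) (nat_lit 0x400) (nat_lit 36))))
 (.n (.n (.p (nat_lit 0x33b7231f02) (nat_lit 0x24aa02) (nat_lit 16))
 (.p (nat_lit 0x6b406b206b006ae06ac09f106) (nat_lit 0x80004e12a) (nat_lit 51)))
 (.n (.p (nat_lit 0x1e952fb02) (nat_lit 0x10060e) (nat_lit 30))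
 (.p (nat_lit 0x2336609502) (nat_lit 0x342529ca4000500000600) (nat_lit 49))))))

def c1024_1015 : Tr :=
 .n (.n (.n (.n (.n (.p (nat_lit 0x72f065302) (nat_lit 0x344000) (nat_lit 16))
 (.p (nat_lit 0x500c4c6302) (nat_lit 0x240714) (nat_lit 5)))
 (.n (.p (nat_lit 0x7721dc702) (nat_lit 0x140004) (nat_lit 4))
 (.p (nat_lit 0x492e492c492a4928492643a906) (nat_lit 0x1000004eb2e) (nat_lit 51))))
 (.n (.n (.p (nat_lit 0x23d623d423d223d023ce215506) (nat_lit 0x80000eb00) (nat_lit 52))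
 (.p (nat_lit 0x387563702) (nat_lit 0x140521) (nat_lit 30)))
 (.n (.p (nat_lit 0x1235122902) (nat_lit 0x44407) (nat_lit 16))
 (.p (nat_lit 0x5ccf1daf02) (nat_lit 0x1e0020000900) (nat_lit 40)))))
 (.n (.n (.n (.p (nat_lit 0x15ee15ec15ea15e815e615e406) (nat_lit 0x90600) (nat_lit 52))
 (.p (nat_lit 0x50584cd702) (nat_lit 0x40081b) (nat_lit 4)))
 (.n (.p (nat_lit 0x1daa1da61da41da21da0196106) (nat_lit 0x8000012705) (nat_lit 52))
 (.p (nat_lit 0x5dd60ca302) (nat_lit 0x8004a100) (nat_lit 48))))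
 (.n (.n (.p (nat_lit 0x1502150014fc14fa14f8005f14ff07) (nat_lit 0x340502) (nat_lit 7))
 (.p (nat_lit 0x44b0480102) (nat_lit 0x440028) (nat_lit 5)))
 (.n (.p (nat_lit 0xc020c000bfe0bfc0bfa0e1706) (nat_lit 0x1000008a30e) (nat_lit 52))
 (.p (nat_lit 0x636601b02) (nat_lit 0x4099a2354800000040000) (nat_lit 49))))))
 (.n (.n (.n (.n (.p (nat_lit 0xe8c0e8a0e860e840c990c9306) (nat_lit 0x12000040300) (nat_lit 51))
 (.p (nat_lit 0x22e254a102) (nat_lit 0x240a15) (nat_lit 29)))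
 (.n (.p (nat_lit 0x1ab41e6d02) (nat_lit 0x240704) (nat_lit 5))
 (.p (nat_lit 0x1f15a8f02) (nat_lit 0x50060e) (nat_lit 28))))
 (.n (.n (.p (nat_lit 0x1a1e1a1c1a1a1a181a161d7d06) (nat_lit 0x800052801) (nat_lit 51))
 (.p (nat_lit 0x1c00106702) (nat_lit 0x100823) (nat_lit 5)))
 (.n (.p (nat_lit 0x33d02ce502) (nat_lit 0x300b09) (nat_lit 5))
 (.p (nat_lit 0x20725f1702) (nat_lit 0x3a2260b50000400000600) (nat_lit 49)))))
 (.n (.n (.n (.p (nat_lit 0x1cc61cc01cbe1cbc1a651a6306) (nat_lit 0xc0000c8800) (nat_lit 51))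
 (.p (nat_lit 0x38a218b02) (nat_lit 0x300a1c) (nat_lit 1)))
 (.n (.p (nat_lit 0x16ae16ac16aa16a816a41c3106) (nat_lit 0x100008c806) (nat_lit 51))
 (.p (nat_lit 0x5c97154102) (nat_lit 0x260000000600) (nat_lit 40))))
 (.n (.n (.p (nat_lit 0x89376902) (nat_lit 0x100303) (nat_lit 30))
 (.p (nat_lit 0x194857f902) (nat_lit 0x40072a) (nat_lit 29)))
 (.n (.p (nat_lit 0x2ae0270102) (nat_lit 0x44050f) (nat_lit 5))
 (.p (nat_lit 0x1adc611d02) (nat_lit 0x35486a3a4000200000600) (nat_lit 49))))))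

def c512_503 : Tr := .n c1024_503 c1024_1015

def c256_247 : Tr := .n c512_247 c512_503

def c128_119 : Tr := .n c256_119 c256_247

def c64_55 : Tr := .n c128_55 c128_119

def c32_23 : Tr := .n c64_23 c64_55

def c16_7 : Tr := .n c32_7 c32_23

def b7 : Tr := c16_7

theorem hb4_7 : allp (tst G49 true (getA DT)) b7 = true := by decide +kernel

end Vale.Agent.P032.H437.Ev2
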