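import Vale.Agent.P032.H437.Ev2.T

namespace Vale.Agent.P032.H437.Ev2
open Vale.Agent.P032.H859.Rup Vale.Agent.P032.H437

def c1024_8 : Tr :=
 .n (.n (.n (.n (.n (.n (.p (nat_lit 0x1d001b0017000d04) (nat_lit 0x531000000) (nat_lit 21))
 (.p (nat_lit 0x21e0611f02) (nat_lit 0x35056a3a4000400040600) (nat_lit 50)))
 (.p (nat_lit 0x326d2ad902) (nat_lit 0x5050f) (nat_lit 16)))
 (.n (.p (nat_lit 0x37923790378e378c378a0e4706) (nat_lit 0x10000082303) (nat_lit 51))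
 (.p (nat_lit 0x325632543252324c1945194306) (nat_lit 0x300001472a) (nat_lit 52))))
 (.n (.n (.p (nat_lit 0x1cea1ce81ce61ce41ce21a5d06) (nat_lit 0x80004c800) (nat_lit 52))
 (.p (nat_lit 0x311558b02) (nat_lit 0x500a1c) (nat_lit 30)))
 (.n (.p (nat_lit 0x20742070206e206c206a1c3706) (nat_lit 0x8000014806) (nat_lit 52))
 (.p (nat_lit 0x5e382ae502) (nat_lit 0x44600) (nat_lit 47)))))
 (.n (.n (.n (.p (nat_lit 0xea60ea40ea20ea00c910c8f06) (nat_lit 0x1800042300) (nat_lit 52))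
 (.p (nat_lit 0x4670466e466c466a466822e906) (nat_lit 0x100000cea15) (nat_lit 52)))
 (.n (.p (nat_lit 0xbf430102) (nat_lit 0x540704) (nat_lit 30))
 (.p (nat_lit 0x1e95a9f02) (nat_lit 0x10080e) (nat_lit 28))))
 (.n (.n (.p (nat_lit 0x18de18da18d818d618d41d8506) (nat_lit 0x80000d4801) (nat_lit 51))
 (.p (nat_lit 0x1c0856f302) (nat_lit 0x500823) (nat_lit 29)))
 (.n (.p (nat_lit 0x341c2d9702) (nat_lit 0x140b09) (nat_lit 4))
 (.p (nat_lit 0x15485f1b02) (nat_lit 0x3a2274b50000000000600) (nat_lit 50))))))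
 (.n (.n (.n (.n (.p (nat_lit 0x751065102) (nat_lit 0x24c000) (nat_lit 16))
 (.p (nat_lit 0x50484c6f02) (nat_lit 0x200814) (nat_lit 5)))
 (.n (.p (nat_lit 0x7783c7302) (nat_lit 0x440004) (nat_lit 29))
 (.p (nat_lit 0x459648ef02) (nat_lit 0x24012f) (nat_lit 5))))
 (.n (.n (.p (nat_lit 0x23e023de23dc23da23d8215f06) (nat_lit 0x1000008eb00) (nat_lit 52))
 (.p (nat_lit 0x49f046d302) (nat_lit 0x200721) (nat_lit 5)))
 (.n (.p (nat_lit 0x4f1b122f02) (nat_lit 0x356407) (nat_lit 16))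
 (.p (nat_lit 0x5e841f1302) (nat_lit 0x20040900) (nat_lit 46)))))
 (.n (.n (.n (.p (nat_lit 0x15fa15f615f415f21555154d06) (nat_lit 0x8800012600) (nat_lit 52))
 (.p (nat_lit 0xbf80bf60bf40bf20bee50a706) (nat_lit 0x100004a81b) (nat_lit 51)))
 (.n (.p (nat_lit 0x249624942490248e248c195f06) (nat_lit 0x4000096705) (nat_lit 51))
 (.p (nat_lit 0x5d91079f02) (nat_lit 0x1c00a0000100) (nat_lit 38))))
 (.n (.n (.p (nat_lit 0x32223220321e321a14fd14f906) (nat_lit 0x28000c4502) (nat_lit 52))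
 (.p (nat_lit 0x4b9944b102) (nat_lit 0x44c028) (nat_lit 16)))
 (.n (.p (nat_lit 0xf74090d02) (nat_lit 0x4030e) (nat_lit 5))
 (.p (nat_lit 0x1adc601f02) (nat_lit 0x4099a2354800200000600) (nat_lit 49))))))

def c1024_520 : Tr :=
 .n (.n (.n (.n (.n (.n (.p (nat_lit 0x30a031702) (nat_lit 0x200060001c) (nat_lit 17))
 (.p (nat_lit 0x8e8619f02) (nat_lit 0x380aa5c15000100040000) (nat_lit 49)))
 (.p (nat_lit 0x91609140910090e090c3b7d06) (nat_lit 0x4000086b11) (nat_lit 51)))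
 (.n (.p (nat_lit 0x9400a700a11d031b9d05) (nat_lit 0x84500a03) (nat_lit 9))
 (.p (nat_lit 0x375d2fa702) (nat_lit 0x15222c) (nat_lit 16))))
 (.n (.n (.p (nat_lit 0x20191d2b02) (nat_lit 0x144900) (nat_lit 16))
 (.p (nat_lit 0x373637343730372e372c363906) (nat_lit 0x400005611f) (nat_lit 52)))
 (.n (.p (nat_lit 0x7e407e207e007de0ca50c9b06) (nat_lit 0x1080004a207) (nat_lit 51))
 (.p (nat_lit 0x5d53197902) (nat_lit 0x2a0080000700) (nat_lit 39)))))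
 (.n (.n (.n (.p (nat_lit 0x122f0f6302) (nat_lit 0x340400) (nat_lit 16))
 (.p (nat_lit 0x3bdc373f02) (nat_lit 0x340b18) (nat_lit 4)))
 (.n (.p (nat_lit 0x46950cf702) (nat_lit 0x44a205) (nat_lit 16))
 (.p (nat_lit 0x5c4c5c4a5c485c465c440189044007) (nat_lit 0x20272a) (nat_lit 25))))
 (.n (.n (.p (nat_lit 0x2cae2cac2caa2ca82ca62ca406) (nat_lit 0x6002) (nat_lit 52))
 (.p (nat_lit 0x1a401a3e1a3c1a3a1a382ec506) (nat_lit 0x100000d4125) (nat_lit 52)))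
 (.n (.p (nat_lit 0x4299425d02) (nat_lit 0x4860b) (nat_lit 16))
 (.p (nat_lit 0x153a5f9b02) (nat_lit 0x88bb0155800000000600) (nat_lit 49))))))
 (.n (.n (.n (.n (.p (nat_lit 0xb31087302) (nat_lit 0x100200) (nat_lit 15))
 (.p (nat_lit 0x14d60a9b02) (nat_lit 0x140515) (nat_lit 5)))
 (.n (.p (nat_lit 0x414e414c414a4148414413c906) (nat_lit 0x1000006504) (nat_lit 51))
 (.p (nat_lit 0x8e008a00880086000b00bb06) (nat_lit 0x2b16a03) (nat_lit 26))))
 (.n (.n (.p (nat_lit 0x27f827f627f427f227f00b6906) (nat_lit 0x10000012201) (nat_lit 52))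
 (.p (nat_lit 0x16aa16a816a616a40893089106) (nat_lit 0x1800008c123) (nat_lit 51)))
 (.n (.p (nat_lit 0x2814265d02) (nat_lit 0x400208) (nat_lit 5))
 (.p (nat_lit 0x5d19233702) (nat_lit 0x40040000b00) (nat_lit 38)))))
 (.n (.n (.n (.p (nat_lit 0x1796198102) (nat_lit 0x240700) (nat_lit 5))
 (.p (nat_lit 0x139e0d5702) (nat_lit 0x40051c) (nat_lit 4)))
 (.n (.p (nat_lit 0x4c564c524c504c4e4c4c0a4106) (nat_lit 0x80000c8106) (nat_lit 52))
 (.p (nat_lit 0x5c95114702) (nat_lit 0x280000000400) (nat_lit 41))))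
 (.n (.n (.p (nat_lit 0x5b33c102) (nat_lit 0x100b02) (nat_lit 30))
 (.p (nat_lit 0x2ec909f502) (nat_lit 0x24e12a) (nat_lit 16)))
 (.n (.p (nat_lit 0x1f1530302) (nat_lit 0x50060e) (nat_lit 30))
 (.p (nat_lit 0x8f2609b02) (nat_lit 0x342529ca4000100040000) (nat_lit 49))))))

def c512_8 : Tr := .n c1024_8 c1024_520

def c1024_264 : Tr :=
 .n (.n (.n (.n (.n (.n (.p (nat_lit 0x105010300f003) (nat_lit 0x22c00005) (nat_lit 19))
 (.p (nat_lit 0x8fe615f02) (nat_lit 0x352829d84000100040000) (nat_lit 50)))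
 (.p (nat_lit 0x3336333433323330332e022d333907) (nat_lit 0x500a10) (nat_lit 7)))
 (.n (.p (nat_lit 0x15081cd902) (nat_lit 0x240503) (nat_lit 5))
 (.p (nat_lit 0x245414b502) (nat_lit 0x200b2a) (nat_lit 5))))
 (.n (.n (.p (nat_lit 0x1e7e1e7c1e7a1e781e761e7406) (nat_lit 0x16900) (nat_lit 52))
 (.p (nat_lit 0x602d0502) (nat_lit 0x40001e) (nat_lit 1)))
 (.n (.p (nat_lit 0x50ef1efb02) (nat_lit 0x102906) (nat_lit 16))
 (.p (nat_lit 0x5cb1181702) (nat_lit 0xc0000000700) (nat_lit 40)))))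
 (.n (.n (.n (.p (nat_lit 0x10241020101e101c0dff0dfb06) (nat_lit 0x14000004400) (nat_lit 51))
 (.p (nat_lit 0x32f02f7302) (nat_lit 0x540917) (nat_lit 5)))
 (.n (.p (nat_lit 0x61e208502) (nat_lit 0x100005) (nat_lit 4))
 (.p (nat_lit 0x30f5b8d02) (nat_lit 0x40051c) (nat_lit 28))))
 (.n (.n (.p (nat_lit 0x15481546154415421540205106) (nat_lit 0x1000004c901) (nat_lit 51))
 (.p (nat_lit 0x4ef04eee4eec4eea4ee8244906) (nat_lit 0x200000eb23) (nat_lit 52)))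
 (.n (.p (nat_lit 0x3b36349702) (nat_lit 0x440a0a) (nat_lit 5))
 (.p (nat_lit 0xa585f5d02) (nat_lit 0x262530344000200000000) (nat_lit 50))))))
 (.n (.n (.n (.n (.p (nat_lit 0x92e092c092a09280926092406) (nat_lit 0xc8100) (nat_lit 52))
 (.p (nat_lit 0xd4c0d4a0d480d4410eb10e706) (nat_lit 0x2800082415) (nat_lit 51)))
 (.n (.p (nat_lit 0xfb70ce902) (nat_lit 0x340204) (nat_lit 15))
 (.p (nat_lit 0x31589b02) (nat_lit 0x300201) (nat_lit 28))))
 (.n (.n (.p (nat_lit 0x258b22c302) (nat_lit 0x444b00) (nat_lit 16))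
 (.p (nat_lit 0xeb20eb00eae0eaa0ea850b506) (nat_lit 0x20000c2822) (nat_lit 52)))
 (.n (.p (nat_lit 0x1d471d3b02) (nat_lit 0x344807) (nat_lit 16))
 (.p (nat_lit 0x5cdd206d02) (nat_lit 0x100020000a00) (nat_lit 38)))))
 (.n (.n (.n (.p (nat_lit 0x17a916bb02) (nat_lit 0x540600) (nat_lit 16))
 (.p (nat_lit 0x1f0e1f0c1f0a1f081f04073706) (nat_lit 0x10000d201c) (nat_lit 52)))
 (.n (.p (nat_lit 0x1d8822af02) (nat_lit 0x40805) (nat_lit 4))
 (.p (nat_lit 0x5da55df102) (nat_lit 0x800a0000200) (nat_lit 37))))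
 (.n (.n (.p (nat_lit 0xe820e800e7e0e7c0e7a21b506) (nat_lit 0x800086a02) (nat_lit 51))
 (.p (nat_lit 0x41f579302) (nat_lit 0x100829) (nat_lit 30)))
 (.n (.p (nat_lit 0x15481546154415421540123f06) (nat_lit 0x1000004c40e) (nat_lit 51))
 (.p (nat_lit 0x1548605f02) (nat_lit 0x506272831000000000600) (nat_lit 50))))))

def c1024_776 : Tr :=
 .n (.n (.n (.n (.n (.n (.p (nat_lit 0x510050e050c050a04e504e306) (nat_lit 0x18000086000) (nat_lit 51))
 (.p (nat_lit 0x140061db02) (nat_lit 0x542266c0c800500040000) (nat_lit 50)))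
 (.p (nat_lit 0x45084506450445024379437306) (nat_lit 0x120000d0b12) (nat_lit 52)))
 (.n (.p (nat_lit 0x207e207c207a20782076247306) (nat_lit 0x10000014b03) (nat_lit 51))
 (.p (nat_lit 0x3b5239bb02) (nat_lit 0x40a2d) (nat_lit 5))))
 (.n (.n (.p (nat_lit 0x1ff821df02) (nat_lit 0x340a00) (nat_lit 5))
 (.p (nat_lit 0x3df73deb02) (nat_lit 0x24a120) (nat_lit 16)))
 (.n (.p (nat_lit 0x1db61db41db21db01dac0f6b06) (nat_lit 0x1000052307) (nat_lit 51))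
 (.p (nat_lit 0x5d311adb02) (nat_lit 0x1c0060000800) (nat_lit 38)))))
 (.n (.n (.n (.p (nat_lit 0x122013fb02) (nat_lit 0x240500) (nat_lit 5))
 (.p (nat_lit 0x44a7449b02) (nat_lit 0x54801a) (nat_lit 16)))
 (.n (.p (nat_lit 0x492e492c492a49284926152706) (nat_lit 0x1000004e505) (nat_lit 51))
 (.p (nat_lit 0x5d5b064902) (nat_lit 0x220080000000) (nat_lit 41))))
 (.n (.n (.p (nat_lit 0xe30186902) (nat_lit 0x302) (nat_lit 4))
 (.p (nat_lit 0x1180117e117c117a11763b9d06) (nat_lit 0x1000082b26) (nat_lit 52)))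
 (.n (.p (nat_lit 0x4c544c524c504c4e4c4c4cfb06) (nat_lit 0x1000008820d) (nat_lit 52))
 (.p (nat_lit 0x206a5fdf02) (nat_lit 0x3842a1c34000400000600) (nat_lit 49))))))
 (.n (.n (.n (.n (.p (nat_lit 0xb380b360b340b300b2e00050b3307) (nat_lit 0x200300) (nat_lit 7))
 (.p (nat_lit 0x285545902) (nat_lit 0x240715) (nat_lit 30)))
 (.n (.p (nat_lit 0xa5a0a580a560a540a5217f306) (nat_lit 0x800044604) (nat_lit 51))
 (.p (nat_lit 0x59ee59ec59ea59e859e6000b011e07) (nat_lit 0x50e906) (nat_lit 25))))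
 (.n (.n (.p (nat_lit 0x2a6c2a6a2a662a642a6213a906) (nat_lit 0x4000092501) (nat_lit 51))
 (.p (nat_lit 0xdb60db40db00dae0dac0b4d06) (nat_lit 0x4000012223) (nat_lit 52)))
 (.n (.p (nat_lit 0x2f962ca302) (nat_lit 0x540209) (nat_lit 4))
 (.p (nat_lit 0x13fe5ed502) (nat_lit 0x4a1a22344000500040000) (nat_lit 50)))))
 (.n (.n (.n (.p (nat_lit 0x1b181b161b121b10190318fd06) (nat_lit 0x12000082800) (nat_lit 51))
 (.p (nat_lit 0x1a8c0d8b02) (nat_lit 0x4071c) (nat_lit 5)))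
 (.n (.p (nat_lit 0x1528251702) (nat_lit 0x40506) (nat_lit 4))
 (.p (nat_lit 0x5e24122902) (nat_lit 0x42500) (nat_lit 47))))
 (.n (.n (.p (nat_lit 0x350e350c350a35083506076506) (nat_lit 0x8000c8003) (nat_lit 52))
 (.p (nat_lit 0xe18143302) (nat_lit 0x32a) (nat_lit 4)))
 (.n (.p (nat_lit 0x200c083b02) (nat_lit 0x14090e) (nat_lit 4))
 (.p (nat_lit 0x1db660dd02) (nat_lit 0x3505623a4000300000600) (nat_lit 50))))))

def c512_264 : Tr := .n c1024_264 c1024_776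

def c256_8 : Tr := .n c512_8 c512_264

def c1024_136 : Tr :=
 .n (.n (.n (.n (.n (.n (.p (nat_lit 0x8e00880086009304) (nat_lit 0x9800400003) (nat_lit 17))
 (.p (nat_lit 0x1534614102) (nat_lit 0x352a21d84000000000600) (nat_lit 49)))
 (.p (nat_lit 0x31002dcf02) (nat_lit 0x300410) (nat_lit 4)))
 (.n (.p (nat_lit 0x38d7110f02) (nat_lit 0x200403) (nat_lit 16))
 (.p (nat_lit 0x41844180417e417c417a1edd06) (nat_lit 0x800009692a) (nat_lit 52))))
 (.n (.n (.p (nat_lit 0x1d9f1a6702) (nat_lit 0x556800) (nat_lit 16))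
 (.p (nat_lit 0x25960f5902) (nat_lit 0x440b1c) (nat_lit 5)))
 (.n (.p (nat_lit 0x1c501c4c1c4a1c481c461d9d06) (nat_lit 0x80000d0806) (nat_lit 51))
 (.p (nat_lit 0x5d37153b02) (nat_lit 0x160060000600) (nat_lit 38)))))
 (.n (.n (.n (.p (nat_lit 0xf9b0c9102) (nat_lit 0x14e300) (nat_lit 16))
 (.p (nat_lit 0x2b6227eb02) (nat_lit 0x240816) (nat_lit 4)))
 (.n (.p (nat_lit 0x22aa22a822a622a422a2247f06) (nat_lit 0x10000010b04) (nat_lit 52))
 (.p (nat_lit 0x2895b1702) (nat_lit 0x400615) (nat_lit 28))))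
 (.n (.n (.p (nat_lit 0x1c4e1c4c1c4a1c481c461eeb06) (nat_lit 0x10000090901) (nat_lit 51))
 (.p (nat_lit 0x3fa202f02) (nat_lit 0x40923) (nat_lit 1)))
 (.n (.p (nat_lit 0x5236523452325230522e522c01a407) (nat_lit 0x40a) (nat_lit 8))
 (.p (nat_lit 0x13f45f3902) (nat_lit 0x3a2560c44000500040000) (nat_lit 49))))))
 (.n (.n (.n (.n (.p (nat_lit 0x8060804080007fe07fc05c306) (nat_lit 0x400000e100) (nat_lit 52))
 (.p (nat_lit 0x72e540702) (nat_lit 0x340015) (nat_lit 29)))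
 (.n (.p (nat_lit 0xa350a2902) (nat_lit 0x456104) (nat_lit 16))
 (.p (nat_lit 0x12ce12cc12ca12c812c64a0306) (nat_lit 0x80000472f) (nat_lit 52))))
 (.n (.n (.p (nat_lit 0x22c4248b02) (nat_lit 0x540b00) (nat_lit 4))
 (.p (nat_lit 0x3044c0b02) (nat_lit 0x500122) (nat_lit 1)))
 (.n (.p (nat_lit 0x1a6e06bb02) (nat_lit 0x340707) (nat_lit 5))
 (.p (nat_lit 0x5d651f1902) (nat_lit 0x180080000900) (nat_lit 41)))))
 (.n (.n (.n (.p (nat_lit 0x16d216d016ce16ca16c816b506) (nat_lit 0x20000c0600) (nat_lit 52))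
 (.p (nat_lit 0x207e207c207a2078207605df06) (nat_lit 0x1000001401c) (nat_lit 51)))
 (.n (.p (nat_lit 0x1f181f161f141f121f101ac706) (nat_lit 0x100000d2705) (nat_lit 51))
 (.p (nat_lit 0x5de03bd902) (nat_lit 0x20050200) (nat_lit 47))))
 (.n (.n (.p (nat_lit 0x66008100831a2918c505) (nat_lit 0xa9c40902) (nat_lit 9))
 (.p (nat_lit 0x10321030102e102c102a4a4906) (nat_lit 0x8000c4728) (nat_lit 51)))
 (.n (.p (nat_lit 0x153e153c153a1538153610db06) (nat_lit 0x80000c40e) (nat_lit 52))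
 (.p (nat_lit 0x1dae603f02) (nat_lit 0x4a8162340800300000600) (nat_lit 50))))))

def c1024_648 : Tr :=
 .n (.n (.n (.n (.n (.n (.p (nat_lit 0x43c0434044303) (nat_lit 0x880050002a) (nat_lit 17))
 (.p (nat_lit 0xbb461bd02) (nat_lit 0x322266c75000200040000) (nat_lit 50)))
 (.p (nat_lit 0x418a53d502) (nat_lit 0x200512) (nat_lit 29)))
 (.n (.p (nat_lit 0x1fe41fe21fe01fde1fda232906) (nat_lit 0x1000056a03) (nat_lit 51))
 (.p (nat_lit 0x35cc3a0f02) (nat_lit 0x12d) (nat_lit 5))))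
 (.n (.n (.p (nat_lit 0x212e212c212a212821261e8d06) (nat_lit 0x80000ea00) (nat_lit 52))
 (.p (nat_lit 0x3bec3be83be63be43be203573beb07) (nat_lit 0x440b1f) (nat_lit 7)))
 (.n (.p (nat_lit 0x1daa1da61da41da21da00e0906) (nat_lit 0x8000012307) (nat_lit 52))
 (.p (nat_lit 0x5e68375b02) (nat_lit 0x4a800) (nat_lit 47)))))
 (.n (.n (.n (.p (nat_lit 0x12da12d812d412d010c910c506) (nat_lit 0x5000084500) (nat_lit 51))
 (.p (nat_lit 0x42323e3f02) (nat_lit 0x300619) (nat_lit 5)))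
 (.n (.p (nat_lit 0x47784776477447724770476e00f0112b112511230a) (nat_lit 0x10800405) (nat_lit 31))
 (.p (nat_lit 0x5ce704d102) (nat_lit 0x60020000000) (nat_lit 40))))
 (.n (.n (.p (nat_lit 0xa08184502) (nat_lit 0x40102) (nat_lit 5))
 (.p (nat_lit 0x3648392502) (nat_lit 0x540126) (nat_lit 4)))
 (.n (.p (nat_lit 0x2116211421122110210e474f06) (nat_lit 0x80004c30c) (nat_lit 52))
 (.p (nat_lit 0x20705fc502) (nat_lit 0x8982e915800400000600) (nat_lit 49))))))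
 (.n (.n (.n (.n (.p (nat_lit 0xbec0be80be60be40be209d506) (nat_lit 0x80000c8200) (nat_lit 51))
 (.p (nat_lit 0x164e164a1648164616440289164d07) (nat_lit 0x400615) (nat_lit 7)))
 (.n (.p (nat_lit 0xfea0fe80fe60fe40fe2168106) (nat_lit 0x800008604) (nat_lit 51))
 (.p (nat_lit 0xec00ea00e400e2000504b106) (nat_lit 0x130e505) (nat_lit 26))))
 (.n (.n (.p (nat_lit 0x124d0f8d02) (nat_lit 0x40301) (nat_lit 15))
 (.p (nat_lit 0x16a216a0169e169c169a09e506) (nat_lit 0x8000cc123) (nat_lit 52)))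
 (.n (.p (nat_lit 0x2b4c269102) (nat_lit 0x140808) (nat_lit 5))
 (.p (nat_lit 0x5d535ebd02) (nat_lit 0x2a0080000b00) (nat_lit 37)))))
 (.n (.n (.n (.p (nat_lit 0x1a4e1a4c1a481a441799179506) (nat_lit 0x5000056700) (nat_lit 52))
 (.p (nat_lit 0x11cc11ca11c611c214e714e306) (nat_lit 0x500005051c) (nat_lit 52)))
 (.n (.p (nat_lit 0x4e2d0fcf02) (nat_lit 0x342306) (nat_lit 16))
 (.p (nat_lit 0x5d7d0fdd02) (nat_lit 0x80000400) (nat_lit 38))))
 (.n (.n (.p (nat_lit 0x25ba25b825b625b425b2006325bd07) (nat_lit 0x540b02) (nat_lit 7))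
 (.p (nat_lit 0x4d010b5702) (nat_lit 0x21622a) (nat_lit 16)))
 (.n (.p (nat_lit 0x357e357c357a357635741bdf06) (nat_lit 0x200000880e) (nat_lit 52))
 (.p (nat_lit 0x12a712990feb0fd70d170d0d0a510a4d07a7079f04d704c360c20d) (nat_lit 0x354a623b0000000000000) (nat_lit 33))))))

def c512_136 : Tr := .n c1024_136 c1024_648

def c1024_392 : Tr :=
 .n (.n (.n (.n (.n (.n (.p (nat_lit 0x1f001ec01ea01f304) (nat_lit 0x1600040000e) (nat_lit 17))
 (.p (nat_lit 0x1400617b02) (nat_lit 0x521a86b11000500040000) (nat_lit 50)))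
 (.p (nat_lit 0x1b9c1b9a1b981b941b9238e306) (nat_lit 0x2000014411) (nat_lit 52)))
 (.n (.p (nat_lit 0x3ac23ac03abe3abc3aba3ab8009207) (nat_lit 0x40603) (nat_lit 8))
 (.p (nat_lit 0x31de31dc31da31d831d62b3b06) (nat_lit 0x800001682b) (nat_lit 52))))
 (.n (.n (.p (nat_lit 0x1f301f2e1f2c1f281d331d2b06) (nat_lit 0x110000c0900) (nat_lit 51))
 (.p (nat_lit 0xd340d320d300d2c0d2a339f06) (nat_lit 0x20000c0a1e) (nat_lit 51)))
 (.n (.p (nat_lit 0xb44066302) (nat_lit 0x500207) (nat_lit 5))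
 (.p (nat_lit 0x5cef181b02) (nat_lit 0x2e0040000700) (nat_lit 40)))))
 (.n (.n (.n (.p (nat_lit 0xf5c114702) (nat_lit 0x40400) (nat_lit 5))
 (.p (nat_lit 0x3a69398102) (nat_lit 0x140418) (nat_lit 15)))
 (.n (.p (nat_lit 0x452908d702) (nat_lit 0x30a105) (nat_lit 16))
 (.p (nat_lit 0x3a803a603a403a20413000106) (nat_lit 0x2814123) (nat_lit 26))))
 (.n (.n (.p (nat_lit 0x23fa23f823f623f423f021ab06) (nat_lit 0x1000090a01) (nat_lit 51))
 (.p (nat_lit 0x160616041602160015fc27ad06) (nat_lit 0x10000d2124) (nat_lit 51)))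
 (.n (.p (nat_lit 0x3f9a3f983f943f923f9001b33f9707) (nat_lit 0x30030b) (nat_lit 7))
 (.p (nat_lit 0x129a5f7902) (nat_lit 0x560bb0344000500000000) (nat_lit 49))))))
 (.n (.n (.n (.n (.p (nat_lit 0x8720a4702) (nat_lit 0x100200) (nat_lit 4))
 (.p (nat_lit 0x13900bf502) (nat_lit 0x300515) (nat_lit 5)))
 (.n (.p (nat_lit 0x111e111c1118111600da00bf00b91121111b09) (nat_lit 0x2a00404) (nat_lit 10))
 (.p (nat_lit 0x60005e005c00580003048506) (nat_lit 0xd14502) (nat_lit 26))))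
 (.n (.n (.p (nat_lit 0x78f075302) (nat_lit 0x354001) (nat_lit 16))
 (.p (nat_lit 0x43c074902) (nat_lit 0x440023) (nat_lit 1)))
 (.n (.p (nat_lit 0x22ce05a102) (nat_lit 0x440a07) (nat_lit 5))
 (.p (nat_lit 0x5d655ea702) (nat_lit 0x180080000a00) (nat_lit 37)))))
 (.n (.n (.n (.p (nat_lit 0x18c618c418c218c01623162106) (nat_lit 0x1800092700) (nat_lit 52))
 (.p (nat_lit 0xb2c0b280b260b240885087d06) (nat_lit 0x880009611c) (nat_lit 51)))
 (.n (.p (nat_lit 0x4af84af64af44af24aee062b06) (nat_lit 0x1000010006) (nat_lit 52))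
 (.p (nat_lit 0x5d410d1902) (nat_lit 0xc0060000300) (nat_lit 40))))
 (.n (.n (.p (nat_lit 0x7aa07a807a407a207a0232106) (nat_lit 0x4000042a02) (nat_lit 51))
 (.p (nat_lit 0x5080506050204fe089b089706) (nat_lit 0x500000612a) (nat_lit 52)))
 (.n (.p (nat_lit 0x54e054c054a05480546137f06) (nat_lit 0x80000e50e) (nat_lit 52))
 (.p (nat_lit 0x1400607b02) (nat_lit 0x511a22b85000500040000) (nat_lit 50))))))

def c1024_904 : Tr :=
 .n (.n (.n (.n (.n (.p (nat_lit 0x14a065702) (nat_lit 0x540000) (nat_lit 1))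
 (.p (nat_lit 0x3d443d423d403d3e3d3c4a7706) (nat_lit 0x80000c813) (nat_lit 51)))
 (.n (.p (nat_lit 0x1aea1ae81ae61ae41ae225bf06) (nat_lit 0x800050b03) (nat_lit 51))
 (.p (nat_lit 0x1e7e1e7c1e7a1e781e743f2706) (nat_lit 0x100005622e) (nat_lit 52))))
 (.n (.n (.p (nat_lit 0x22bf1ff702) (nat_lit 0x240a00) (nat_lit 15))
 (.p (nat_lit 0x4720471e471c471a4718434506) (nat_lit 0x800080b20) (nat_lit 52)))
 (.n (.p (nat_lit 0x1460145c145a145810d710cf06) (nat_lit 0x880000e407) (nat_lit 51))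
 (.p (nat_lit 0x5d9f1c5102) (nat_lit 0xe00a0000800) (nat_lit 41)))))
 (.n (.n (.n (.p (nat_lit 0x14db122302) (nat_lit 0x344500) (nat_lit 16))
 (.p (nat_lit 0xa880a840a820a8049eb49e706) (nat_lit 0x1400008871a) (nat_lit 52)))
 (.n (.p (nat_lit 0x1808212302) (nat_lit 0x540605) (nat_lit 4))
 (.p (nat_lit 0x5d09079902) (nat_lit 0x140040000100) (nat_lit 38))))
 (.n (.n (.p (nat_lit 0x1108188b02) (nat_lit 0x500402) (nat_lit 4))
 (.p (nat_lit 0x3f20404f02) (nat_lit 0x440227) (nat_lit 5)))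
 (.n (.p (nat_lit 0x507f504302) (nat_lit 0x50880d) (nat_lit 16))
 (.p (nat_lit 0x248f248721dd21d71f111f0d1c4d1c3d1987197516ad16995ffc0d) (nat_lit 0x16a88cd50000000040600) (nat_lit 33))))))
 (.n (.n (.n (.n (.p (nat_lit 0xdc20dc00dbe0dbc0b310b2f06) (nat_lit 0x1800092300) (nat_lit 52))
 (.p (nat_lit 0x548e548c548a548854865484028c07) (nat_lit 0x40915) (nat_lit 8)))
 (.n (.p (nat_lit 0xc200cd00d11e631fc905) (nat_lit 0xa0b00704) (nat_lit 9))
 (.p (nat_lit 0x1a201a0019e01980145049106) (nat_lit 0x111640a) (nat_lit 26))))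
 (.n (.n (.p (nat_lit 0x19cc19ca19c619c21c1d1c1906) (nat_lit 0x5000084801) (nat_lit 51))
 (.p (nat_lit 0x166656cf02) (nat_lit 0x500623) (nat_lit 29)))
 (.n (.p (nat_lit 0x316e2cc302) (nat_lit 0x440409) (nat_lit 5))
 (.p (nat_lit 0x7a65ef302) (nat_lit 0x4a9d84344000100000000) (nat_lit 50)))))
 (.n (.n (.n (.p (nat_lit 0x1c0b18f902) (nat_lit 0xa800) (nat_lit 16))
 (.p (nat_lit 0x382c382a382838261d631d5f06) (nat_lit 0x140000ca81c) (nat_lit 51)))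
 (.n (.p (nat_lit 0x15be15ba15b815b615b41ad106) (nat_lit 0x80000c8706) (nat_lit 51))
 (.p (nat_lit 0x5d6f5e3102) (nat_lit 0xe0080000500) (nat_lit 36))))
 (.n (.n (.p (nat_lit 0x360e360c360a360836060a1506) (nat_lit 0x80004c103) (nat_lit 52))
 (.p (nat_lit 0x11d811d611d411d00f850f8106) (nat_lit 0x28000d032a) (nat_lit 52)))
 (.n (.p (nat_lit 0x3b77242102) (nat_lit 0x10b0e) (nat_lit 16))
 (.p (nat_lit 0x207660fd02) (nat_lit 0x340a623b0000400000600) (nat_lit 50))))))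

def c512_392 : Tr := .n c1024_392 c1024_904

def c256_136 : Tr := .n c512_136 c512_392

def c128_8 : Tr := .n c256_8 c256_136

def c1024_72 : Tr :=
 .n (.n (.n (.n (.n (.n (.p (nat_lit 0x51004b003803) (nat_lit 0xa1100001) (nat_lit 19))
 (.p (nat_lit 0x2080613102) (nat_lit 0x35486a1b0000400000600) (nat_lit 50)))
 (.p (nat_lit 0x92e092a0928092609242b9d06) (nat_lit 0x800008890f) (nat_lit 52)))
 (.n (.p (nat_lit 0x12670fa702) (nat_lit 0x140303) (nat_lit 15))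
 (.p (nat_lit 0x1ed71c0d02) (nat_lit 0x10082a) (nat_lit 15))))
 (.n (.n (.p (nat_lit 0x1d261d221d201d1e1d1c1a6506) (nat_lit 0x80000d6800) (nat_lit 52))
 (.p (nat_lit 0x22fd22f102) (nat_lit 0x34aa1c) (nat_lit 16)))
 (.n (.p (nat_lit 0x79e079c079a079607941d9906) (nat_lit 0x2000042806) (nat_lit 52))
 (.p (nat_lit 0x5e3e169b02) (nat_lit 0x20040600) (nat_lit 45)))))
 (.n (.n (.n (.p (nat_lit 0xf040f020f000efc0c990c9106) (nat_lit 0x11000050300) (nat_lit 52))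
 (.p (nat_lit 0x2593258702) (nat_lit 0x248b15) (nat_lit 16)))
 (.n (.p (nat_lit 0xc200d900d51fdd1e7705) (nat_lit 0x8a900b04) (nat_lit 9))
 (.p (nat_lit 0x240023e023c023a0259008706) (nat_lit 0x2814411) (nat_lit 26))))
 (.n (.n (.p (nat_lit 0x4cc04ca04c604c404c21ee706) (nat_lit 0x4000000901) (nat_lit 52))
 (.p (nat_lit 0x392439223920391e1d671d6506) (nat_lit 0x18000c2823) (nat_lit 52)))
 (.n (.p (nat_lit 0x37d2345702) (nat_lit 0x30a) (nat_lit 4))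
 (.p (nat_lit 0x180e5f2f02) (nat_lit 0x3a2560b44000100000600) (nat_lit 49))))))
 (.n (.n (.n (.n (.p (nat_lit 0x5c6079f02) (nat_lit 0x500100) (nat_lit 4))
 (.p (nat_lit 0x5d00a6502) (nat_lit 0x400015) (nat_lit 5)))
 (.n (.p (nat_lit 0xb8908cb02) (nat_lit 0x300104) (nat_lit 15))
 (.p (nat_lit 0x22a0229e229a22982296469306) (nat_lit 0x40000ce22f) (nat_lit 52))))
 (.n (.n (.p (nat_lit 0x2439215502) (nat_lit 0x6b00) (nat_lit 16))
 (.p (nat_lit 0x4b1a4d6702) (nat_lit 0x22) (nat_lit 4)))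
 (.n (.p (nat_lit 0x143517b02) (nat_lit 0x100707) (nat_lit 30))
 (.p (nat_lit 0x5d451da702) (nat_lit 0x80060000900) (nat_lit 38)))))
 (.n (.n (.n (.p (nat_lit 0x1671155502) (nat_lit 0x40a600) (nat_lit 16))
 (.p (nat_lit 0xbb00bae0baa0ba80ba605db06) (nat_lit 0x400008401c) (nat_lit 52)))
 (.n (.p (nat_lit 0x8f208ee08ec08ea08e81ac506) (nat_lit 0x80000c2705) (nat_lit 52))
 (.p (nat_lit 0x5ddc0e0d02) (nat_lit 0x200) (nat_lit 47))))
 (.n (.n (.p (nat_lit 0x1cac1caa1ca81ca61ef71eed06) (nat_lit 0x10800086902) (nat_lit 51))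
 (.p (nat_lit 0x4680479f02) (nat_lit 0x40228) (nat_lit 5)))
 (.n (.p (nat_lit 0x309d0f7b02) (nat_lit 0x34e30e) (nat_lit 16))
 (.p (nat_lit 0x1ae0602f02) (nat_lit 0x466a62335000200000600) (nat_lit 50))))))

def c1024_584 : Tr :=
 .n (.n (.n (.n (.n (.n (.p (nat_lit 0x3a803a603a003ad04) (nat_lit 0xc800400023) (nat_lit 17))
 (.p (nat_lit 0xbac61ad02) (nat_lit 0x3421a9c14800200040000) (nat_lit 49)))
 (.p (nat_lit 0x408c3d2302) (nat_lit 0x500412) (nat_lit 4)))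
 (.n (.p (nat_lit 0x3aff21c502) (nat_lit 0x204a03) (nat_lit 16))
 (.p (nat_lit 0x3360585f02) (nat_lit 0x100a2c) (nat_lit 29))))
 (.n (.n (.p (nat_lit 0x1e961e921e901e8e0012000900011e951e8d09) (nat_lit 0x2000a00) (nat_lit 10))
 (.p (nat_lit 0x3b4437b902) (nat_lit 0x540a1f) (nat_lit 4)))
 (.n (.p (nat_lit 0xe0a0e080e060e00015a014501430e050e0309) (nat_lit 0x1100307) (nat_lit 10))
 (.p (nat_lit 0x5d855e6502) (nat_lit 0x2800a0000700) (nat_lit 36)))))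
 (.n (.n (.n (.p (nat_lit 0x10c612a502) (nat_lit 0x200500) (nat_lit 5))
 (.p (nat_lit 0x419a3ec702) (nat_lit 0x400519) (nat_lit 5)))
 (.n (.p (nat_lit 0xfc220db02) (nat_lit 0x340305) (nat_lit 5))
 (.p (nat_lit 0x4b404b204b004ae04a5043506) (nat_lit 0x81072f) (nat_lit 26))))
 (.n (.n (.p (nat_lit 0x2d582d562d542d502d4e075d06) (nat_lit 0x20000c8002) (nat_lit 52))
 (.p (nat_lit 0x33f830e502) (nat_lit 0xb25) (nat_lit 4)))
 (.n (.p (nat_lit 0x1c9528502) (nat_lit 0x20020c) (nat_lit 30))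
 (.p (nat_lit 0x8f65fa702) (nat_lit 0x89832955800100040000) (nat_lit 50))))))
 (.n (.n (.n (.n (.p (nat_lit 0xbb70bab02) (nat_lit 0x240200) (nat_lit 34))
 (.p (nat_lit 0x1ade1adc1ada1ad81ad614d506) (nat_lit 0x800050515) (nat_lit 52)))
 (.n (.p (nat_lit 0x16801fab02) (nat_lit 0x604) (nat_lit 5))
 (.p (nat_lit 0xbb598302) (nat_lit 0x300b04) (nat_lit 28))))
 (.n (.n (.p (nat_lit 0xe26159502) (nat_lit 0x100301) (nat_lit 4))
 (.p (nat_lit 0x9e4101102) (nat_lit 0x40123) (nat_lit 5)))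
 (.n (.p (nat_lit 0x2928267302) (nat_lit 0x340308) (nat_lit 4))
 (.p (nat_lit 0x5d275eb902) (nat_lit 0x260060000b00) (nat_lit 37)))))
 (.n (.n (.n (.p (nat_lit 0x1a061a0219fe19fc179b179706) (nat_lit 0xa00004a700) (nat_lit 52))
 (.p (nat_lit 0x314032503210ec10d5b05) (nat_lit 0x6684051c) (nat_lit 9)))
 (.n (.p (nat_lit 0xe6224dd02) (nat_lit 0x100306) (nat_lit 4))
 (.p (nat_lit 0x5e0e14e302) (nat_lit 0x20044400) (nat_lit 48))))
 (.n (.n (.p (nat_lit 0x1760175c175817562465246106) (nat_lit 0xa000090b02) (nat_lit 51))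
 (.p (nat_lit 0x129e129a1298129612940b5b06) (nat_lit 0x800000a22a) (nat_lit 52)))
 (.n (.p (nat_lit 0x1927191b02) (nat_lit 0x50670e) (nat_lit 16))
 (.p (nat_lit 0x1c4060a902) (nat_lit 0x344581ca4000200040600) (nat_lit 49))))))

def c512_72 : Tr := .n c1024_72 c1024_584

def c1024_328 : Tr :=
 .n (.n (.n (.n (.n (.n (.p (nat_lit 0x14a01480146014d04) (nat_lit 0x1c000400007) (nat_lit 17))
 (.p (nat_lit 0x1146616d02) (nat_lit 0x421aa4394000400040000) (nat_lit 50)))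
 (.p (nat_lit 0x279427922790278e278a33d906) (nat_lit 0x1000012b10) (nat_lit 51)))
 (.n (.p (nat_lit 0x8f3a8702) (nat_lit 0x400603) (nat_lit 30))
 (.p (nat_lit 0x28222a9102) (nat_lit 0x50022b) (nat_lit 5))))
 (.n (.n (.p (nat_lit 0x1ee11bc302) (nat_lit 0xc900) (nat_lit 16))
 (.p (nat_lit 0x32f22fdd02) (nat_lit 0x4091e) (nat_lit 4)))
 (.n (.p (nat_lit 0x227c227a227822762061205f06) (nat_lit 0x180004c906) (nat_lit 51))
 (.p (nat_lit 0x5cdb5e5502) (nat_lit 0x120020000700) (nat_lit 37)))))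
 (.n (.n (.n (.p (nat_lit 0x10c010be10ba10b80dfb0df506) (nat_lit 0x4800096400) (nat_lit 52))
 (.p (nat_lit 0x339d339102) (nat_lit 0x148a17) (nat_lit 16)))
 (.n (.p (nat_lit 0x78421f902) (nat_lit 0x440005) (nat_lit 5))
 (.p (nat_lit 0x3855bb902) (nat_lit 0x521) (nat_lit 28))))
 (.n (.n (.p (nat_lit 0x205f204702) (nat_lit 0x54901) (nat_lit 16))
 (.p (nat_lit 0x264029ab02) (nat_lit 0x24) (nat_lit 5)))
 (.n (.p (nat_lit 0x66e066c066a066806643bc106) (nat_lit 0x10000c4b0a) (nat_lit 51))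
 (.p (nat_lit 0x1da65f6f02) (nat_lit 0x3aa074b50000300000600) (nat_lit 49))))))
 (.n (.n (.n (.n (.p (nat_lit 0x9d5072502) (nat_lit 0x440100) (nat_lit 15))
 (.p (nat_lit 0x28e029f02ab0bed0a8b05) (nat_lit 0x85d40415) (nat_lit 9)))
 (.n (.p (nat_lit 0xfb61f7702) (nat_lit 0x340304) (nat_lit 4))
 (.p (nat_lit 0x320030002e002c011d000106) (nat_lit 0x2814901) (nat_lit 26))))
 (.n (.n (.p (nat_lit 0x25f625f425f225f025ee05f706) (nat_lit 0x10000084001) (nat_lit 52))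
 (.p (nat_lit 0x12b612b412b012ae12ac05e706) (nat_lit 0x4000002023) (nat_lit 52)))
 (.n (.p (nat_lit 0x203b1fff02) (nat_lit 0x48907) (nat_lit 16))
 (.p (nat_lit 0x5cef5e9d02) (nat_lit 0x2e0040000a00) (nat_lit 36)))))
 (.n (.n (.n (.p (nat_lit 0x162a1628162416220010000700011627162109) (nat_lit 0x1800700) (nat_lit 10))
 (.p (nat_lit 0x286088302) (nat_lit 0x30011c) (nat_lit 1)))
 (.n (.p (nat_lit 0x1fc01fbe1fbc1fba1fb81d8906) (nat_lit 0x8000cc805) (nat_lit 52))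
 (.p (nat_lit 0x5cd55dfb02) (nat_lit 0x180020000300) (nat_lit 37))))
 (.n (.n (.p (nat_lit 0x233c233823362334233221bd06) (nat_lit 0x8000016a02) (nat_lit 52))
 (.p (nat_lit 0x11cc11ca11c811c250c150bf06) (nat_lit 0x3000050829) (nat_lit 52)))
 (.n (.p (nat_lit 0x484b123502) (nat_lit 0x5440e) (nat_lit 16))
 (.p (nat_lit 0x1dae606f02) (nat_lit 0x588172b40800300000600) (nat_lit 50))))))

def c1024_840 : Tr :=
 .n (.n (.n (.n (.n (.n (.p (nat_lit 0x5cf04e102) (nat_lit 0x304000) (nat_lit 16))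
 (.p (nat_lit 0x64a61eb02) (nat_lit 0x14e0a8c74000000040000) (nat_lit 50)))
 (.p (nat_lit 0x4942455702) (nat_lit 0x240513) (nat_lit 4)))
 (.n (.p (nat_lit 0x25c81bc102) (nat_lit 0x540b03) (nat_lit 5))
 (.p (nat_lit 0x12d812d612d412d212d03c0506) (nat_lit 0x100000c4b2d) (nat_lit 51))))
 (.n (.n (.p (nat_lit 0x227c227a227822761ff51ff306) (nat_lit 0x180004ca00) (nat_lit 51))
 (.p (nat_lit 0xd400d3e0d3c0d3a0d38428106) (nat_lit 0x800042620) (nat_lit 51)))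
 (.n (.p (nat_lit 0x515e515c515a515851565154014c07) (nat_lit 0x407) (nat_lit 8))
 (.p (nat_lit 0x5d671ae902) (nat_lit 0x160080000800) (nat_lit 40)))))
 (.n (.n (.n (.p (nat_lit 0x143c1438143414321225122106) (nat_lit 0xa000046500) (nat_lit 52))
 (.p (nat_lit 0x494c45cd02) (nat_lit 0x14051a) (nat_lit 5)))
 (.n (.p (nat_lit 0x23ee23ec23ea23e623e4169106) (nat_lit 0x2000010605) (nat_lit 52))
 (.p (nat_lit 0x5dc407a102) (nat_lit 0x100) (nat_lit 46))))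
 (.n (.n (.p (nat_lit 0xf98187502) (nat_lit 0x40302) (nat_lit 4))
 (.p (nat_lit 0x1e5a1e561e541e521e503d7906) (nat_lit 0x800008c127) (nat_lit 51)))
 (.n (.p (nat_lit 0x4f1e4f1c4f184f164f1401df4f1b07) (nat_lit 0x34040d) (nat_lit 7))
 (.p (nat_lit 0x23325fed02) (nat_lit 0x306a81d31000500000600) (nat_lit 49))))))
 (.n (.n (.n (.n (.p (nat_lit 0xd4c0d4a0d480d460b310b2f06) (nat_lit 0x1800082300) (nat_lit 51))
 (.p (nat_lit 0x283546f02) (nat_lit 0x140815) (nat_lit 30)))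
 (.n (.p (nat_lit 0x1f0e1f0c1f0a1f081f0417f506) (nat_lit 0x10000d2604) (nat_lit 52))
 (.p (nat_lit 0x1760174017201700141021506) (nat_lit 0x512208) (nat_lit 26))))
 (.n (.n (.p (nat_lit 0x14ff14f302) (nat_lit 0x350501) (nat_lit 16))
 (.p (nat_lit 0xeb20eb00eae0eaa0ea80cab06) (nat_lit 0x20000c2223) (nat_lit 52)))
 (.n (.p (nat_lit 0x308c2d3902) (nat_lit 0x140309) (nat_lit 4))
 (.p (nat_lit 0x8ec5ee302) (nat_lit 0x4a8866344000100040000) (nat_lit 49)))))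
 (.n (.n (.n (.p (nat_lit 0x1ba81ba41ba21ba01b9e190106) (nat_lit 0x8000094800) (nat_lit 52))
 (.p (nat_lit 0x311555b02) (nat_lit 0x50081c) (nat_lit 30)))
 (.n (.p (nat_lit 0x15f815f615f415f215f0196f06) (nat_lit 0x10000012706) (nat_lit 52))
 (.p (nat_lit 0x5cef5e2b02) (nat_lit 0x2e0040000500) (nat_lit 37))))
 (.n (.n (.p (nat_lit 0x35b635b235b035ae35ac08c106) (nat_lit 0x8000096103) (nat_lit 51))
 (.p (nat_lit 0x37e30e1f02) (nat_lit 0x31032a) (nat_lit 16)))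
 (.n (.p (nat_lit 0x22dc22da22d822d422d201eb22d707) (nat_lit 0x240a0e) (nat_lit 7))
 (.p (nat_lit 0x13ee60f102) (nat_lit 0x440d623a4000500040000) (nat_lit 49))))))

def c512_328 : Tr := .n c1024_328 c1024_840

def c256_72 : Tr := .n c512_72 c512_328

def c1024_200 : Tr :=
 .n (.n (.n (.n (.n (.n (.p (nat_lit 0xbe00ba00c303) (nat_lit 0x14000500004) (nat_lit 17))
 (.p (nat_lit 0x642615102) (nat_lit 0x2b0221d84000000040000) (nat_lit 50)))
 (.p (nat_lit 0x31e831e631e431e231e0022d31eb07) (nat_lit 0x500510) (nat_lit 7)))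
 (.n (.p (nat_lit 0x3979126b02) (nat_lit 0x342403) (nat_lit 16))
 (.p (nat_lit 0x21a4583502) (nat_lit 0x400a2a) (nat_lit 29))))
 (.n (.n (.p (nat_lit 0x1e2a1e281e261e201bc71bc506) (nat_lit 0x3000088900) (nat_lit 52))
 (.p (nat_lit 0x2b2655b902) (nat_lit 0x40081d) (nat_lit 29)))
 (.n (.p (nat_lit 0xe81eff02) (nat_lit 0x300906) (nat_lit 1))
 (.p (nat_lit 0x5d55154902) (nat_lit 0x280080000600) (nat_lit 40)))))
 (.n (.n (.n (.p (nat_lit 0xdfe0dfa0df80df4001a000900030dfd0df709) (nat_lit 0x2100400) (nat_lit 10))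
 (.p (nat_lit 0x31ee2ee702) (nat_lit 0x100517) (nat_lit 4)))
 (.n (.p (nat_lit 0x22062202220021fe25d325cb06) (nat_lit 0x8800042b04) (nat_lit 51))
 (.p (nat_lit 0x38a5b6102) (nat_lit 0x30041a) (nat_lit 27))))
 (.n (.n (.p (nat_lit 0x2050204e204a204820460031204d07) (nat_lit 0x340901) (nat_lit 7))
 (.p (nat_lit 0x40822f702) (nat_lit 0x40a23) (nat_lit 1)))
 (.n (.p (nat_lit 0x397b396f02) (nat_lit 0x44440a) (nat_lit 16))
 (.p (nat_lit 0x1da25f5102) (nat_lit 0x1a1d22350000300000600) (nat_lit 49))))))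
 (.n (.n (.n (.n (.p (nat_lit 0x8cf05c702) (nat_lit 0x512100) (nat_lit 16))
 (.p (nat_lit 0x10e60bd702) (nat_lit 0x415) (nat_lit 5)))
 (.n (.p (nat_lit 0xb990b8d02) (nat_lit 0x516204) (nat_lit 16))
 (.p (nat_lit 0x24062402240023fe23fc4d5706) (nat_lit 0x8000052230) (nat_lit 51))))
 (.n (.n (.p (nat_lit 0x25442540253e253c253a22c306) (nat_lit 0x8000050b00) (nat_lit 51))
 (.p (nat_lit 0x50b1502102) (nat_lit 0x40722) (nat_lit 15)))
 (.n (.p (nat_lit 0x3502350034fc34fa34f81bd506) (nat_lit 0x4000008807) (nat_lit 52))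
 (.p (nat_lit 0x5cbd5e9502) (nat_lit 0xa00) (nat_lit 36)))))
 (.n (.n (.n (.p (nat_lit 0x176c176a17661764176216b706) (nat_lit 0x4000052600) (nat_lit 51))
 (.p (nat_lit 0x8fe08fc08fa08f808f4073706) (nat_lit 0x10000c201c) (nat_lit 51)))
 (.n (.p (nat_lit 0x1c2a214502) (nat_lit 0x400805) (nat_lit 5))
 (.p (nat_lit 0x5d750a5902) (nat_lit 0x80080000200) (nat_lit 40))))
 (.n (.n (.p (nat_lit 0x32e1205502) (nat_lit 0x142902) (nat_lit 16))
 (.p (nat_lit 0x4c8c4e6502) (nat_lit 0x340129) (nat_lit 5)))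
 (.n (.p (nat_lit 0x38e710e302) (nat_lit 0x41040e) (nat_lit 16))
 (.p (nat_lit 0x2346604d02) (nat_lit 0x406a6254c800500000600) (nat_lit 50))))))

def c1024_712 : Tr :=
 .n (.n (.n (.n (.n (.n (.p (nat_lit 0x4e204cb02) (nat_lit 0x400000) (nat_lit 4))
 (.p (nat_lit 0xe7a61cd02) (nat_lit 0x3421684a0800300040000) (nat_lit 50)))
 (.p (nat_lit 0x7f207f007ee07ec07e8422306) (nat_lit 0x100008a612) (nat_lit 51)))
 (.n (.p (nat_lit 0xbb00bac0baa0ba80ba6247106) (nat_lit 0x8000084b03) (nat_lit 52))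
 (.p (nat_lit 0x1cde1cdc1cda1cd836d136cf06) (nat_lit 0x180008a22d) (nat_lit 51))))
 (.n (.n (.p (nat_lit 0x21751e9502) (nat_lit 0x402a00) (nat_lit 16))
 (.p (nat_lit 0x1de61de41de21de01ddc3d0306) (nat_lit 0x10000c2020) (nat_lit 51)))
 (.n (.p (nat_lit 0xf72051502) (nat_lit 0x540307) (nat_lit 5))
 (.p (nat_lit 0x5e6c354b02) (nat_lit 0x20046800) (nat_lit 47)))))
 (.n (.n (.n (.p (nat_lit 0x4db10c302) (nat_lit 0x500) (nat_lit 15))
 (.p (nat_lit 0x42cc54d102) (nat_lit 0x200719) (nat_lit 29)))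
 (.n (.p (nat_lit 0x13d6486702) (nat_lit 0x200505) (nat_lit 29))
 (.p (nat_lit 0x5db6089902) (nat_lit 0x40008000) (nat_lit 47))))
 (.n (.n (.p (nat_lit 0xb722ed702) (nat_lit 0x400202) (nat_lit 29))
 (.p (nat_lit 0x380838063804380037fe375306) (nat_lit 0x20000c0226) (nat_lit 52)))
 (.n (.p (nat_lit 0x49ce43f302) (nat_lit 0x30070c) (nat_lit 4))
 (.p (nat_lit 0x15385fd102) (nat_lit 0x95a2ec05000000000600) (nat_lit 49))))))
 (.n (.n (.n (.n (.p (nat_lit 0xca109d302) (nat_lit 0x340200) (nat_lit 16))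
 (.p (nat_lit 0x283544b02) (nat_lit 0x100715) (nat_lit 30)))
 (.n (.p (nat_lit 0x4225168502) (nat_lit 0x202604) (nat_lit 16))
 (.p (nat_lit 0x11a011801160114000b026906) (nat_lit 0x2810106) (nat_lit 26))))
 (.n (.n (.p (nat_lit 0x125029a302) (nat_lit 0x240401) (nat_lit 29))
 (.p (nat_lit 0x4c8d09eb02) (nat_lit 0x356123) (nat_lit 16)))
 (.n (.p (nat_lit 0x2be426ad02) (nat_lit 0x440908) (nat_lit 4))
 (.p (nat_lit 0x129a5ec502) (nat_lit 0x260b84344000500000000) (nat_lit 49)))))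
 (.n (.n (.n (.p (nat_lit 0x1ab5179702) (nat_lit 0x252700) (nat_lit 16))
 (.p (nat_lit 0x17cc0ee302) (nat_lit 0x54061c) (nat_lit 4)))
 (.n (.p (nat_lit 0x1194eb502) (nat_lit 0x340406) (nat_lit 30))
 (.p (nat_lit 0x5da10fdf02) (nat_lit 0xc00a0000400) (nat_lit 38))))
 (.n (.n (.p (nat_lit 0x60c1af502) (nat_lit 0x400003) (nat_lit 5))
 (.p (nat_lit 0x13f213f013ee13ea0cbd0cb506) (nat_lit 0x110000ca22a) (nat_lit 52)))
 (.n (.p (nat_lit 0x358835863584358235801d4b06) (nat_lit 0x100000c880e) (nat_lit 51))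
 (.p (nat_lit 0x8f260d302) (nat_lit 0x340a623b0000100040000) (nat_lit 49))))))

def c512_200 : Tr := .n c1024_200 c1024_712

def c1024_456 : Tr :=
 .n (.n (.n (.n (.n (.n (.p (nat_lit 0x28a0280028f03) (nat_lit 0x10800500015) (nat_lit 17))
 (.p (nat_lit 0x634618d02) (nat_lit 0x54c88a970000000040000) (nat_lit 49)))
 (.p (nat_lit 0x39e2359102) (nat_lit 0x200511) (nat_lit 5)))
 (.n (.p (nat_lit 0x1a1e1a1a1a181a1617ef17e706) (nat_lit 0x8800052603) (nat_lit 51))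
 (.p (nat_lit 0x2c222c1c2c1a2c180474046b04692c212c1f09) (nat_lit 0x234092b) (nat_lit 10))))
 (.n (.n (.p (nat_lit 0x1fbe1fbc1fba1fb61d331d2b06) (nat_lit 0x110000cc900) (nat_lit 52))
 (.p (nat_lit 0x3550378702) (nat_lit 0x44001f) (nat_lit 5)))
 (.n (.p (nat_lit 0x36bb0b3f02) (nat_lit 0x210207) (nat_lit 16))
 (.p (nat_lit 0x5e5c181102) (nat_lit 0x60000700) (nat_lit 45)))))
 (.n (.n (.n (.p (nat_lit 0x1180117c117a117811760f6506) (nat_lit 0x80000c2400) (nat_lit 52))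
 (.p (nat_lit 0x3aa8369302) (nat_lit 0x300618) (nat_lit 5)))
 (.n (.p (nat_lit 0x45c845c445c045be0b970b9306) (nat_lit 0xa00000a205) (nat_lit 52))
 (.p (nat_lit 0x410040c040a0408040503a706) (nat_lit 0x2b10728) (nat_lit 26))))
 (.n (.n (.p (nat_lit 0x23c823c623c423c22319230f06) (nat_lit 0x1080004aa01) (nat_lit 51))
 (.p (nat_lit 0x2c1029ed02) (nat_lit 0x240924) (nat_lit 4)))
 (.n (.p (nat_lit 0x41e041dc41da41d841d640fd06) (nat_lit 0x80000cc40b) (nat_lit 51))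
 (.p (nat_lit 0x20765f8d02) (nat_lit 0x581a30344000400000600) (nat_lit 50))))))
 (.n (.n (.n (.n (.p (nat_lit 0xa8a0a880a860a840a80087306) (nat_lit 0x1000088200) (nat_lit 52))
 (.p (nat_lit 0x16a2169e169c16981393138d06) (nat_lit 0x900008c515) (nat_lit 52)))
 (.n (.p (nat_lit 0x40c640c440c040be40bc127706) (nat_lit 0x400004c404) (nat_lit 51))
 (.p (nat_lit 0x240592302) (nat_lit 0x400103) (nat_lit 27))))
 (.n (.n (.p (nat_lit 0x33275102) (nat_lit 0x440101) (nat_lit 30))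
 (.p (nat_lit 0x88a116d02) (nat_lit 0x100123) (nat_lit 5)))
 (.n (.p (nat_lit 0x1633241b02) (nat_lit 0x300b07) (nat_lit 15))
 (.p (nat_lit 0x5cb7248102) (nat_lit 0x60000000b00) (nat_lit 39)))))
 (.n (.n (.n (.p (nat_lit 0x190d162902) (nat_lit 0x400700) (nat_lit 16))
 (.p (nat_lit 0xbe00bde0bdc0bda0bd609db06) (nat_lit 0x100004811c) (nat_lit 51)))
 (.n (.p (nat_lit 0x8e4236b02) (nat_lit 0x400106) (nat_lit 4))
 (.p (nat_lit 0x5d5b0d0f02) (nat_lit 0x220080000300) (nat_lit 38))))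
 (.n (.n (.p (nat_lit 0x1adc1ada1ad81ad61ad4232506) (nat_lit 0x10000050a02) (nat_lit 52))
 (.p (nat_lit 0x43b57af02) (nat_lit 0x34012a) (nat_lit 30)))
 (.n (.p (nat_lit 0x50805060504050214cb14c906) (nat_lit 0x180004650e) (nat_lit 52))
 (.p (nat_lit 0x13fc608d02) (nat_lit 0x342221ca4000500040000) (nat_lit 50))))))

def c1024_968 : Tr :=
 .n (.n (.n (.n (.n (.p (nat_lit 0x69e069c069606940653065106) (nat_lit 0x60000c8000) (nat_lit 52))
 (.p (nat_lit 0x4f244c5102) (nat_lit 0x240414) (nat_lit 4)))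
 (.n (.p (nat_lit 0x6161f2302) (nat_lit 0x300004) (nat_lit 5))
 (.p (nat_lit 0x142414221420141e141c429906) (nat_lit 0x80004462e) (nat_lit 51))))
 (.n (.n (.p (nat_lit 0x118215b02) (nat_lit 0x300b00) (nat_lit 1))
 (.p (nat_lit 0x44a646bb02) (nat_lit 0x540021) (nat_lit 5)))
 (.n (.p (nat_lit 0x1232516b02) (nat_lit 0x540407) (nat_lit 29))
 (.p (nat_lit 0x5c951f0502) (nat_lit 0x280000000900) (nat_lit 39)))))
 (.n (.n (.n (.p (nat_lit 0x1556154b02) (nat_lit 0x500600) (nat_lit 5))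
 (.p (nat_lit 0x4d844d824d7e4d7c4f334f3106) (nat_lit 0x600004241b) (nat_lit 51)))
 (.n (.p (nat_lit 0x8fc08fa08f808f608f4196306) (nat_lit 0x10000082705) (nat_lit 51))
 (.p (nat_lit 0x5d2107a702) (nat_lit 0x2c0060000100) (nat_lit 40))))
 (.n (.n (.p (nat_lit 0x13b2189d02) (nat_lit 0x200502) (nat_lit 5))
 (.p (nat_lit 0x42e8407302) (nat_lit 0x400727) (nat_lit 5)))
 (.n (.p (nat_lit 0xe10090502) (nat_lit 0x20030e) (nat_lit 5))
 (.p (nat_lit 0x154a601102) (nat_lit 0x405aa0b95000000000600) (nat_lit 50))))))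
 (.n (.n (.n (.n (.p (nat_lit 0xe570b3102) (nat_lit 0x114300) (nat_lit 16))
 (.p (nat_lit 0x2182549b02) (nat_lit 0x500a15) (nat_lit 29)))
 (.n (.p (nat_lit 0x1d181d161d141d121d10195706) (nat_lit 0x10000016704) (nat_lit 51))
 (.p (nat_lit 0x5a765a745a725a705a6e000701f207) (nat_lit 0x30a30e) (nat_lit 25))))
 (.n (.n (.p (nat_lit 0x1d7e15e702) (nat_lit 0x140801) (nat_lit 4))
 (.p (nat_lit 0x316431623160315e1937193506) (nat_lit 0x1800094723) (nat_lit 51)))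
 (.n (.p (nat_lit 0x520051e051c051a0516332506) (nat_lit 0x1000008a09) (nat_lit 51))
 (.p (nat_lit 0x20765f0f02) (nat_lit 0x3a2570344000400000600) (nat_lit 50)))))
 (.n (.n (.n (.p (nat_lit 0x1c5c1c5a1c561c541c521a6306) (nat_lit 0x4000040800) (nat_lit 52))
 (.p (nat_lit 0x20240f2302) (nat_lit 0x14091c) (nat_lit 5)))
 (.n (.p (nat_lit 0x4d804d604d404d204d01c2f06) (nat_lit 0x800000806) (nat_lit 51))
 (.p (nat_lit 0x5e3410d902) (nat_lit 0xa0002500) (nat_lit 48))))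
 (.n (.n (.p (nat_lit 0xcd81c9102) (nat_lit 0x140203) (nat_lit 4))
 (.p (nat_lit 0x43557e502) (nat_lit 0x4062a) (nat_lit 30)))
 (.n (.p (nat_lit 0x299c26eb02) (nat_lit 0x50040f) (nat_lit 4))
 (.p (nat_lit 0x8f6611502) (nat_lit 0x3422621b0000100040000) (nat_lit 50))))))

def c512_456 : Tr := .n c1024_456 c1024_968

def c256_200 : Tr := .n c512_200 c512_456

def c128_72 : Tr := .n c256_72 c256_200

def c64_8 : Tr := .n c128_8 c128_72

def c1024_40 : Tr :=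
 .n (.n (.n (.n (.n (.n (.p (nat_lit 0x340032002e003704) (nat_lit 0x1a000400001) (nat_lit 17))
 (.p (nat_lit 0x642612d02) (nat_lit 0x45486a3a4000000040000) (nat_lit 50)))
 (.p (nat_lit 0x2b9d2b1102) (nat_lit 0x40080f) (nat_lit 15)))
 (.n (.p (nat_lit 0x3540fab02) (nat_lit 0x340303) (nat_lit 1))
 (.p (nat_lit 0x1aae146b02) (nat_lit 0x54072a) (nat_lit 5))))
 (.n (.n (.p (nat_lit 0x1d021cfe1cfa1cf81a651a6106) (nat_lit 0xa000054800) (nat_lit 51))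
 (.p (nat_lit 0x309558f02) (nat_lit 0x140a1c) (nat_lit 30)))
 (.n (.p (nat_lit 0x1d94508102) (nat_lit 0x40806) (nat_lit 29))
 (.p (nat_lit 0x5cd7153702) (nat_lit 0x160020000600) (nat_lit 38)))))
 (.n (.n (.n (.p (nat_lit 0xeca0ec80ec60ec40ec00c9106) (nat_lit 0x10000ca300) (nat_lit 51))
 (.p (nat_lit 0x258c258a2588258625840281258307) (nat_lit 0x40b15) (nat_lit 7)))
 (.n (.p (nat_lit 0x1bb41bb21bae1bac1baa1ab706) (nat_lit 0x4000056704) (nat_lit 52))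
 (.p (nat_lit 0x2140210020e020a01e902b706) (nat_lit 0xc1230f) (nat_lit 26))))
 (.n (.n (.p (nat_lit 0x2b862b842b822b802b7e2b7c003607) (nat_lit 0x901) (nat_lit 8))
 (.p (nat_lit 0x3ec1d6502) (nat_lit 0x40823) (nat_lit 1)))
 (.n (.p (nat_lit 0x37db36bf02) (nat_lit 0x40020a) (nat_lit 15))
 (.p (nat_lit 0x23405f1f02) (nat_lit 0x1a2260b50000500000600) (nat_lit 50))))))
 (.n (.n (.n (.n (.p (nat_lit 0x793065702) (nat_lit 0x556000) (nat_lit 16))
 (.p (nat_lit 0x50f04c7902) (nat_lit 0x200914) (nat_lit 5)))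
 (.n (.p (nat_lit 0x3d163d143d123d103d0e3d0c00c007) (nat_lit 0x104) (nat_lit 8))
 (.p (nat_lit 0x213a2136213421322130460b06) (nat_lit 0x800008e22f) (nat_lit 51))))
 (.n (.n (.p (nat_lit 0x24042402240023fe215f215506) (nat_lit 0x10800012b00) (nat_lit 51))
 (.p (nat_lit 0x4a3e564302) (nat_lit 0x140721) (nat_lit 29)))
 (.n (.p (nat_lit 0x17a0516f02) (nat_lit 0x140607) (nat_lit 29))
 (.p (nat_lit 0x5cff1db102) (nat_lit 0x1e0040000900) (nat_lit 40)))))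
 (.n (.n (.n (.p (nat_lit 0x162b155702) (nat_lit 0x500600) (nat_lit 15))
 (.p (nat_lit 0x314032d03330e8b0d2505) (nat_lit 0x8ab0001c) (nat_lit 9)))
 (.n (.p (nat_lit 0x1ac04a1302) (nat_lit 0x240705) (nat_lit 29))
 (.p (nat_lit 0x5cb90a5102) (nat_lit 0x40000000200) (nat_lit 40))))
 (.n (.n (.p (nat_lit 0x1eee328702) (nat_lit 0x100902) (nat_lit 29))
 (.p (nat_lit 0x4588479502) (nat_lit 0x140128) (nat_lit 5)))
 (.n (.p (nat_lit 0xf7a0f780f760f74020801f101ef0f7f0f7d09) (nat_lit 0x2c4030e) (nat_lit 10))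
 (.p (nat_lit 0x2346602502) (nat_lit 0x406a6252d000500000600) (nat_lit 50))))))

def c1024_552 : Tr :=
 .n (.n (.n (.n (.n (.n (.p (nat_lit 0x350034e035d03) (nat_lit 0x180050001f) (nat_lit 17))
 (.p (nat_lit 0x114661a502) (nat_lit 0x3222a5c15000400040000) (nat_lit 50)))
 (.p (nat_lit 0x7ce07cc07ca07c807c43bcd06) (nat_lit 0x1000048b11) (nat_lit 52)))
 (.n (.p (nat_lit 0x1fc01fbc1fba1fb81fb621c906) (nat_lit 0x800008ca03) (nat_lit 52))
 (.p (nat_lit 0x32be323b02) (nat_lit 0x10092c) (nat_lit 4))))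
 (.n (.n (.p (nat_lit 0x20591d2f02) (nat_lit 0x34e900) (nat_lit 16))
 (.p (nat_lit 0x395839563954395239503a7306) (nat_lit 0x80005651f) (nat_lit 51)))
 (.n (.p (nat_lit 0x3f110c9d02) (nat_lit 0x152207) (nat_lit 16))
 (.p (nat_lit 0x5da1182102) (nat_lit 0xc00a0000700) (nat_lit 40)))))
 (.n (.n (.n (.p (nat_lit 0x126f0f6702) (nat_lit 0x550400) (nat_lit 16))
 (.p (nat_lit 0x3dae3dac3daa3da83cfb3cf506) (nat_lit 0x480004a019) (nat_lit 52)))
 (.n (.p (nat_lit 0xe5a0e580e560e54011000ed00eb0e5f0e5d09) (nat_lit 0x2c00305) (nat_lit 10))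
 (.p (nat_lit 0x4820480047e047c043f048f06) (nat_lit 0x281492c) (nat_lit 26))))
 (.n (.n (.p (nat_lit 0x75e199b02) (nat_lit 0x340002) (nat_lit 4))
 (.p (nat_lit 0x3308315302) (nat_lit 0x540925) (nat_lit 4)))
 (.n (.p (nat_lit 0x430a3cdf02) (nat_lit 0x44070b) (nat_lit 5))
 (.p (nat_lit 0x11405f9f02) (nat_lit 0x589832b44000400040000) (nat_lit 49))))))
 (.n (.n (.n (.n (.p (nat_lit 0xb71087702) (nat_lit 0x30e200) (nat_lit 16))
 (.p (nat_lit 0xbac0baa0ba80ba614df14dd06) (nat_lit 0x180000c4515) (nat_lit 52)))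
 (.n (.p (nat_lit 0xb941a302) (nat_lit 0x240504) (nat_lit 30))
 (.p (nat_lit 0xbe00bc00b600b4000703ff06) (nat_lit 0x1a0c404) (nat_lit 26))))
 (.n (.n (.p (nat_lit 0xcc4158d02) (nat_lit 0x340201) (nat_lit 4))
 (.p (nat_lit 0x2348234423422340233e089106) (nat_lit 0x8000016123) (nat_lit 51)))
 (.n (.p (nat_lit 0x2c28cd02) (nat_lit 0x100308) (nat_lit 1))
 (.p (nat_lit 0x5d475ebb02) (nat_lit 0x60060000b00) (nat_lit 36)))))
 (.n (.n (.n (.p (nat_lit 0x19aa19a819a619a41795179306) (nat_lit 0x1800042700) (nat_lit 52))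
 (.p (nat_lit 0x10321030102e102c102a139706) (nat_lit 0x80008451c) (nat_lit 51)))
 (.n (.p (nat_lit 0xba44c9d02) (nat_lit 0x500206) (nat_lit 29))
 (.p (nat_lit 0x5cdd113d02) (nat_lit 0x100020000400) (nat_lit 39))))
 (.n (.n (.p (nat_lit 0x246424622460245e0072006300592467245d09) (nat_lit 0x2800b02) (nat_lit 10))
 (.p (nat_lit 0x64806460644064206400b5d06) (nat_lit 0x1000008022a) (nat_lit 51)))
 (.n (.p (nat_lit 0x427117b302) (nat_lit 0x45260e) (nat_lit 16))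
 (.p (nat_lit 0x2484609f02) (nat_lit 0x344588ca4000500040600) (nat_lit 49))))))

def c512_40 : Tr := .n c1024_40 c1024_552

def c1024_296 : Tr :=
 .n (.n (.n (.n (.n (.n (.p (nat_lit 0x11c0118012103) (nat_lit 0x14000500006) (nat_lit 17))
 (.p (nat_lit 0x2346616302) (nat_lit 0x421aa4395000500000600) (nat_lit 50)))
 (.p (nat_lit 0x92e092c092a09260924338706) (nat_lit 0x20000c8a10) (nat_lit 52)))
 (.n (.p (nat_lit 0x1511150502) (nat_lit 0x54503) (nat_lit 16))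
 (.p (nat_lit 0x25ae14c502) (nat_lit 0x440b2a) (nat_lit 5))))
 (.n (.n (.p (nat_lit 0x1e991bc302) (nat_lit 0x900) (nat_lit 16))
 (.p (nat_lit 0x1a401a3e1a3c1a3a1a382da706) (nat_lit 0x100000d401e) (nat_lit 52)))
 (.n (.p (nat_lit 0x2064240f02) (nat_lit 0x340906) (nat_lit 5))
 (.p (nat_lit 0x5e50181702) (nat_lit 0x700) (nat_lit 46)))))
 (.n (.n (.n (.p (nat_lit 0x106c1068106610640dff0dfb06) (nat_lit 0x14000010400) (nat_lit 51))
 (.p (nat_lit 0xc040c020c000bfc0bfa333f06) (nat_lit 0x200008aa17) (nat_lit 52)))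
 (.n (.p (nat_lit 0x43de43dc43da43d80627062506) (nat_lit 0x18000088005) (nat_lit 51))
 (.p (nat_lit 0x35803540352034e0309034b06) (nat_lit 0xc1661f) (nat_lit 26))))
 (.n (.n (.p (nat_lit 0x2348234623442342233e204906) (nat_lit 0x1000056901) (nat_lit 51))
 (.p (nat_lit 0x259e10bb02) (nat_lit 0x240b23) (nat_lit 4)))
 (.n (.p (nat_lit 0x51405120510050c050a3b6f06) (nat_lit 0x2000086b0a) (nat_lit 51))
 (.p (nat_lit 0x8ec5f6302) (nat_lit 0x3aa074b44000100040000) (nat_lit 49))))))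
 (.n (.n (.n (.n (.p (nat_lit 0x9420940093e093c0727072506) (nat_lit 0x180000ca100) (nat_lit 52))
 (.p (nat_lit 0x308124302) (nat_lit 0x140415) (nat_lit 1)))
 (.n (.p (nat_lit 0xe501f6d02) (nat_lit 0x400304) (nat_lit 4))
 (.p (nat_lit 0x3158b902) (nat_lit 0x300501) (nat_lit 28))))
 (.n (.n (.p (nat_lit 0x25cd22bd02) (nat_lit 0x152b00) (nat_lit 16))
 (.p (nat_lit 0x43a05e702) (nat_lit 0x300023) (nat_lit 1)))
 (.n (.p (nat_lit 0x1ed51e9902) (nat_lit 0x8907) (nat_lit 16))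
 (.p (nat_lit 0x5e9a441102) (nat_lit 0x20006a00) (nat_lit 47)))))
 (.n (.n (.n (.p (nat_lit 0x17fb16b902) (nat_lit 0x452600) (nat_lit 16))
 (.p (nat_lit 0x2da1073902) (nat_lit 0x24e01c) (nat_lit 16)))
 (.n (.p (nat_lit 0x1d92215302) (nat_lit 0x540805) (nat_lit 5))
 (.p (nat_lit 0x5cb15df702) (nat_lit 0xc0000000300) (nat_lit 37))))
 (.n (.n (.p (nat_lit 0x1810180e180c180a21bf21bd06) (nat_lit 0x1800000ea02) (nat_lit 52))
 (.p (nat_lit 0x50bc4e8b02) (nat_lit 0x40829) (nat_lit 5)))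
 (.n (.p (nat_lit 0x2080207c207a20782076123d06) (nat_lit 0x800005440e) (nat_lit 51))
 (.p (nat_lit 0x4d0606702) (nat_lit 0x5898b0b44000000000000) (nat_lit 50))))))

def c1024_808 : Tr :=
 .n (.n (.n (.n (.n (.n (.p (nat_lit 0x54e054a0546054404e304df06) (nat_lit 0xa00000e000) (nat_lit 52))
 (.p (nat_lit 0xe7661e302) (nat_lit 0x3302a5895000300040000) (nat_lit 49)))
 (.p (nat_lit 0x214421422140213e213c47e306) (nat_lit 0x10000010413) (nat_lit 51)))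
 (.n (.p (nat_lit 0x3b9d246b02) (nat_lit 0x108b03) (nat_lit 16))
 (.p (nat_lit 0x3bae3bac3baa3ba83ba604993bb107) (nat_lit 0x500b2d) (nat_lit 7))))
 (.n (.n (.p (nat_lit 0x22122210220c220a22081ff906) (nat_lit 0x40000c2a00) (nat_lit 51))
 (.p (nat_lit 0x4242423c423a42380380036b03694241423f09) (nat_lit 0x2300620) (nat_lit 10)))
 (.n (.p (nat_lit 0xf790f6d02) (nat_lit 0x244307) (nat_lit 16))
 (.p (nat_lit 0x5e74376102) (nat_lit 0x6004a800) (nat_lit 47)))))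
 (.n (.n (.n (.p (nat_lit 0x141814141410140e1225122106) (nat_lit 0xa0000c2500) (nat_lit 51))
 (.p (nat_lit 0x48be45c102) (nat_lit 0x10051a) (nat_lit 4)))
 (.n (.p (nat_lit 0xe9496902) (nat_lit 0x300605) (nat_lit 30))
 (.p (nat_lit 0x5d8b064b02) (nat_lit 0x2200a0000000) (nat_lit 41))))
 (.n (.n (.p (nat_lit 0xe3a0e380e360e32006c005d00590e350e3109) (nat_lit 0x1000302) (nat_lit 10))
 (.p (nat_lit 0x101a10181014101210103bf506) (nat_lit 0x40000c2b26) (nat_lit 51)))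
 (.n (.p (nat_lit 0x4dcf4dc502) (nat_lit 0x20430d) (nat_lit 16))
 (.p (nat_lit 0x7a65fe702) (nat_lit 0x38ac60b44000100000000) (nat_lit 50))))))
 (.n (.n (.n (.n (.p (nat_lit 0xd280d220d200d1e0b370b3506) (nat_lit 0xc000000300) (nat_lit 52))
 (.p (nat_lit 0x1be60c3502) (nat_lit 0x815) (nat_lit 5)))
 (.n (.p (nat_lit 0x13f413f213ee13ec13ea17f906) (nat_lit 0x40000ca604) (nat_lit 52))
 (.p (nat_lit 0x14359ff02) (nat_lit 0x100407) (nat_lit 28))))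
 (.n (.n (.p (nat_lit 0x14f22a8102) (nat_lit 0x340501) (nat_lit 29))
 (.p (nat_lit 0x3a556bd02) (nat_lit 0x240223) (nat_lit 30)))
 (.n (.p (nat_lit 0x30102d3102) (nat_lit 0x300309) (nat_lit 5))
 (.p (nat_lit 0xe825edb02) (nat_lit 0x4a9d22344000300040000) (nat_lit 50)))))
 (.n (.n (.n (.p (nat_lit 0x1b841b821b7e1b7c18ff18f906) (nat_lit 0x480000c800) (nat_lit 51))
 (.p (nat_lit 0x1a9b1a8f02) (nat_lit 0x14a71c) (nat_lit 16)))
 (.n (.p (nat_lit 0x30196b02) (nat_lit 0x300706) (nat_lit 1))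
 (.p (nat_lit 0x5e26336102) (nat_lit 0x2000e500) (nat_lit 48))))
 (.n (.n (.p (nat_lit 0x8bc1c6f02) (nat_lit 0x200103) (nat_lit 4))
 (.p (nat_lit 0xe220e1c0e1a0e18045e043d043b0e210e1f09) (nat_lit 0x230032a) (nat_lit 10)))
 (.n (.p (nat_lit 0x216e099f02) (nat_lit 0x100a0e) (nat_lit 4))
 (.p (nat_lit 0x63460ed02) (nat_lit 0x340d6a3a4000000040000) (nat_lit 49))))))

def c512_296 : Tr := .n c1024_296 c1024_808

def c256_40 : Tr := .n c512_40 c512_296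

def c1024_168 : Tr :=
 .n (.n (.n (.n (.n (.n (.p (nat_lit 0xaf009d009403) (nat_lit 0x62000003) (nat_lit 19))
 (.p (nat_lit 0xbb2614b02) (nat_lit 0x3b0221d84000200040000) (nat_lit 50)))
 (.p (nat_lit 0x31742dd702) (nat_lit 0x140410) (nat_lit 5)))
 (.n (.p (nat_lit 0x8f38ff02) (nat_lit 0x440403) (nat_lit 30))
 (.p (nat_lit 0x41c841c641c441c041be203f06) (nat_lit 0x20000c492a) (nat_lit 52))))
 (.n (.n (.p (nat_lit 0x1dce1dcc1dca1dc81bc51bc306) (nat_lit 0x1800080900) (nat_lit 52))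
 (.p (nat_lit 0x175417521750174e174a26bf06) (nat_lit 0x100005001d) (nat_lit 51)))
 (.n (.p (nat_lit 0x20611d9702) (nat_lit 0x140806) (nat_lit 15))
 (.p (nat_lit 0x5e46246302) (nat_lit 0x60010600) (nat_lit 48)))))
 (.n (.n (.n (.p (nat_lit 0xdfe0dfc0dfa0df80df600010df507) (nat_lit 0x400) (nat_lit 7))
 (.p (nat_lit 0x2862bfb02) (nat_lit 0x340916) (nat_lit 1)))
 (.n (.p (nat_lit 0x25ce1e8502) (nat_lit 0x240b04) (nat_lit 4))
 (.p (nat_lit 0x5b385b365b345b325b300305028c07) (nat_lit 0x50ca15) (nat_lit 25))))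
 (.n (.n (.p (nat_lit 0x2bb71eeb02) (nat_lit 0x506901) (nat_lit 16))
 (.p (nat_lit 0x2190571902) (nat_lit 0xa23) (nat_lit 29)))
 (.n (.p (nat_lit 0x407938d502) (nat_lit 0x11440a) (nat_lit 16))
 (.p (nat_lit 0x6485f4102) (nat_lit 0x3a2260b50000000040000) (nat_lit 50))))))
 (.n (.n (.n (.n (.p (nat_lit 0x88705c702) (nat_lit 0x506100) (nat_lit 16))
 (.p (nat_lit 0x7ce07ca07c807c607c4073106) (nat_lit 0x8000048015) (nat_lit 52)))
 (.n (.p (nat_lit 0xb8a0b880b860b840b8200bf0b8d07) (nat_lit 0x500204) (nat_lit 7))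
 (.p (nat_lit 0x4c1a4f6d02) (nat_lit 0x100130) (nat_lit 5))))
 (.n (.n (.p (nat_lit 0x24fc24f824f624f222c322bd06) (nat_lit 0x9000048b00) (nat_lit 52))
 (.p (nat_lit 0x4fc04d8f02) (nat_lit 0x440522) (nat_lit 4)))
 (.n (.p (nat_lit 0x1bd0519302) (nat_lit 0x100807) (nat_lit 29))
 (.p (nat_lit 0x5d9f1db702) (nat_lit 0xe00a0000900) (nat_lit 40)))))
 (.n (.n (.n (.p (nat_lit 0x174617421740173e16bb16b706) (nat_lit 0x140000ca600) (nat_lit 52))
 (.p (nat_lit 0x4b2505df02) (nat_lit 0x51601c) (nat_lit 16)))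
 (.n (.p (nat_lit 0x4a531ac702) (nat_lit 0x548705) (nat_lit 16))
 (.p (nat_lit 0x5d415de902) (nat_lit 0xc0060000200) (nat_lit 37))))
 (.n (.n (.p (nat_lit 0x1b841b801b7c1b7a205b205706) (nat_lit 0xa00004c902) (nat_lit 51))
 (.p (nat_lit 0x4c124e5902) (nat_lit 0x300129) (nat_lit 4)))
 (.n (.p (nat_lit 0x1f1a1f181f141f121f1010e106) (nat_lit 0x400009240e) (nat_lit 51))
 (.p (nat_lit 0x1adc604702) (nat_lit 0x40a96254c800200000600) (nat_lit 49))))))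

def c1024_680 : Tr :=
 .n (.n (.n (.n (.n (.n (.p (nat_lit 0x4840480048903) (nat_lit 0x1400050002c) (nat_lit 17))
 (.p (nat_lit 0x153661c502) (nat_lit 0x3421684a0800000000600) (nat_lit 49)))
 (.p (nat_lit 0x420053e702) (nat_lit 0x540512) (nat_lit 29)))
 (.n (.p (nat_lit 0x24701bb302) (nat_lit 0x400b03) (nat_lit 4))
 (.p (nat_lit 0x352e352c352a35283526364b06) (nat_lit 0x80005612d) (nat_lit 52))))
 (.n (.n (.p (nat_lit 0x214421422140213e213c1e9706) (nat_lit 0x10000010a00) (nat_lit 51))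
 (.p (nat_lit 0x3c643fb702) (nat_lit 0x300020) (nat_lit 5)))
 (.n (.p (nat_lit 0xe210e0902) (nat_lit 0x408307) (nat_lit 16))
 (.p (nat_lit 0x5cd51c4902) (nat_lit 0x180020000800) (nat_lit 41)))))
 (.n (.n (.n (.p (nat_lit 0x12ee12ec12ea12e810cd10cb06) (nat_lit 0x18000086500) (nat_lit 51))
 (.p (nat_lit 0x427a3ee902) (nat_lit 0x340619) (nat_lit 4)))
 (.n (.p (nat_lit 0x128447f502) (nat_lit 0x440405) (nat_lit 29))
 (.p (nat_lit 0x5cc904d102) (nat_lit 0x240020000000) (nat_lit 40))))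
 (.n (.n (.p (nat_lit 0x2ea02e9e2e9c2e9a2e960a0b06) (nat_lit 0x10000d4102) (nat_lit 52))
 (.p (nat_lit 0x36c2389b02) (nat_lit 0x226) (nat_lit 5)))
 (.n (.p (nat_lit 0x4b0484502) (nat_lit 0x34040c) (nat_lit 1))
 (.p (nat_lit 0x1ade5fcb02) (nat_lit 0x9582ec05800200000600) (nat_lit 49))))))
 (.n (.n (.n (.n (.p (nat_lit 0xc320c300c2e0c2809d109cf06) (nat_lit 0x30000ce200) (nat_lit 52))
 (.p (nat_lit 0x17ba0c1702) (nat_lit 0x240615) (nat_lit 4)))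
 (.n (.p (nat_lit 0x1c421c401c3e1c3c1c3a168b06) (nat_lit 0x10000090604) (nat_lit 52))
 (.p (nat_lit 0xb459b702) (nat_lit 0x805) (nat_lit 27))))
 (.n (.n (.p (nat_lit 0x10fa10f810f610f410f2003510fd07) (nat_lit 0x500401) (nat_lit 7))
 (.p (nat_lit 0x21d421d221d021ce21cc09ef06) (nat_lit 0x100000d4123) (nat_lit 52)))
 (.n (.p (nat_lit 0x2b8c269d02) (nat_lit 0x200908) (nat_lit 4))
 (.p (nat_lit 0x5d875ec102) (nat_lit 0x2600a0000b00) (nat_lit 37)))))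
 (.n (.n (.n (.p (nat_lit 0x1a6f179902) (nat_lit 0x340700) (nat_lit 16))
 (.p (nat_lit 0x16540d6b02) (nat_lit 0x20061c) (nat_lit 5)))
 (.n (.p (nat_lit 0x4e684e664e644e604e5e113306) (nat_lit 0x2000082406) (nat_lit 51))
 (.p (nat_lit 0x5d590fe902) (nat_lit 0x240080000400) (nat_lit 40))))
 (.n (.n (.p (nat_lit 0x15f615f415f215f025bd25bb06) (nat_lit 0x18000052b02) (nat_lit 52))
 (.p (nat_lit 0x79e079c079a079807940cb506) (nat_lit 0x100004222a) (nat_lit 52)))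
 (.n (.p (nat_lit 0x1d40532902) (nat_lit 0x4080e) (nat_lit 29))
 (.p (nat_lit 0xe7260cd02) (nat_lit 0x3502623b0000300040000) (nat_lit 49))))))

def c512_168 : Tr := .n c1024_168 c1024_680

def c1024_424 : Tr :=
 .n (.n (.n (.n (.n (.n (.p (nat_lit 0x240023e0238024504) (nat_lit 0xc800400011) (nat_lit 17))
 (.p (nat_lit 0xbb4618502) (nat_lit 0x421a86b95000200040000) (nat_lit 50)))
 (.p (nat_lit 0x397853bf02) (nat_lit 0x340411) (nat_lit 29)))
 (.n (.p (nat_lit 0x17f01cf702) (nat_lit 0x540603) (nat_lit 4))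
 (.p (nat_lit 0x2bcc2ac902) (nat_lit 0x40092b) (nat_lit 4))))
 (.n (.n (.p (nat_lit 0x1f901f8e1f8c1f881d331d2b06) (nat_lit 0x110000c8900) (nat_lit 51))
 (.p (nat_lit 0x8c34c502) (nat_lit 0x30001f) (nat_lit 1)))
 (.n (.p (nat_lit 0x93a0936093409300b430b3d06) (nat_lit 0x900000a207) (nat_lit 52))
 (.p (nat_lit 0x5d375e5d02) (nat_lit 0x160060000700) (nat_lit 36)))))
 (.n (.n (.n (.p (nat_lit 0x115c115a1156115411520f6306) (nat_lit 0x4000040400) (nat_lit 51))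
 (.p (nat_lit 0x3a66370902) (nat_lit 0x40518) (nat_lit 4)))
 (.n (.p (nat_lit 0xa430a3702) (nat_lit 0x54c105) (nat_lit 16))
 (.p (nat_lit 0x5bf65bf45bf25bf05bee030903dc07) (nat_lit 0x112224) (nat_lit 25))))
 (.n (.n (.p (nat_lit 0x2312178b02) (nat_lit 0x240a01) (nat_lit 4))
 (.p (nat_lit 0x312431223120311e311c2b2f06) (nat_lit 0x2000002824) (nat_lit 51)))
 (.n (.p (nat_lit 0x40163ca302) (nat_lit 0x44030b) (nat_lit 4))
 (.p (nat_lit 0x1ade5f8302) (nat_lit 0x581a32b44000200000600) (nat_lit 49))))))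
 (.n (.n (.n (.n (.p (nat_lit 0x87a087608740870001a000900030879087309) (nat_lit 0x2100200) (nat_lit 10))
 (.p (nat_lit 0xa4e0a4a0a480a441393138d06) (nat_lit 0x9000004515) (nat_lit 52)))
 (.n (.p (nat_lit 0x12741e2502) (nat_lit 0x240404) (nat_lit 4))
 (.p (nat_lit 0x32590b02) (nat_lit 0x400b02) (nat_lit 27))))
 (.n (.n (.p (nat_lit 0xb6108a302) (nat_lit 0x100101) (nat_lit 15))
 (.p (nat_lit 0x12e612e212e012de12dc074906) (nat_lit 0x8000046023) (nat_lit 51)))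
 (.n (.p (nat_lit 0x241605a702) (nat_lit 0x100b07) (nat_lit 5))
 (.p (nat_lit 0x5d9f5ea902) (nat_lit 0xe00a0000a00) (nat_lit 36)))))
 (.n (.n (.n (.p (nat_lit 0x18ea18e818e418e218e0162706) (nat_lit 0x4000016700) (nat_lit 51))
 (.p (nat_lit 0x9e209e009de09dc09d8030909db07) (nat_lit 0x14011c) (nat_lit 7)))
 (.n (.p (nat_lit 0x7924b3b02) (nat_lit 0x540006) (nat_lit 29))
 (.p (nat_lit 0x5e023b9502) (nat_lit 0x60010300) (nat_lit 47))))
 (.n (.n (.p (nat_lit 0x11421140113e113c113a232506) (nat_lit 0x100000c8a02) (nat_lit 52))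
 (.p (nat_lit 0x2743089702) (nat_lit 0x10c12a) (nat_lit 16)))
 (.n (.p (nat_lit 0x1f401f7020707ef094305) (nat_lit 0x2234050e) (nat_lit 9))
 (.p (nat_lit 0x1f0c608302) (nat_lit 0x344380a64000300040600) (nat_lit 49))))))

def c1024_936 : Tr :=
 .n (.n (.n (.n (.n (.p (nat_lit 0x67a0676067406720670065506) (nat_lit 0x8000046000) (nat_lit 51))
 (.p (nat_lit 0x4e964bb302) (nat_lit 0x414) (nat_lit 4)))
 (.n (.p (nat_lit 0x3bcf25c302) (nat_lit 0x242b03) (nat_lit 16))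
 (.p (nat_lit 0x425a415b02) (nat_lit 0x50062e) (nat_lit 4))))
 (.n (.n (.p (nat_lit 0x23051ff502) (nat_lit 0x14aa00) (nat_lit 16))
 (.p (nat_lit 0x441846af02) (nat_lit 0x500021) (nat_lit 4)))
 (.n (.p (nat_lit 0x141516102) (nat_lit 0x40407) (nat_lit 30))
 (.p (nat_lit 0x5d7f1c4502) (nat_lit 0x2e00a0000800) (nat_lit 39)))))
 (.n (.n (.n (.p (nat_lit 0x151d121d02) (nat_lit 0x54500) (nat_lit 16))
 (.p (nat_lit 0x4c4a4c484c464c444c424b1906) (nat_lit 0x800000801b) (nat_lit 51)))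
 (.n (.p (nat_lit 0x1958212502) (nat_lit 0x705) (nat_lit 4))
 (.p (nat_lit 0x5d415dd102) (nat_lit 0xc0060000100) (nat_lit 37))))
 (.n (.n (.p (nat_lit 0x1262189702) (nat_lit 0x540402) (nat_lit 4))
 (.p (nat_lit 0x4991424902) (nat_lit 0x216627) (nat_lit 16)))
 (.n (.p (nat_lit 0x447a447844764474447050e306) (nat_lit 0x100000e90d) (nat_lit 51))
 (.p (nat_lit 0x181c600b02) (nat_lit 0x405aa2354800100000600) (nat_lit 50))))))
 (.n (.n (.n (.n (.p (nat_lit 0xe150b3702) (nat_lit 0x402300) (nat_lit 16))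
 (.p (nat_lit 0x2029201d02) (nat_lit 0x348915) (nat_lit 16)))
 (.n (.p (nat_lit 0x1b3c1b3a1b361b321953194f06) (nat_lit 0x5000006704) (nat_lit 52))
 (.p (nat_lit 0x1cc01ca01c801c6014b025d06) (nat_lit 0x280e20c) (nat_lit 26))))
 (.n (.n (.p (nat_lit 0x18f618f418f018ec1c1d1c1906) (nat_lit 0x5000096801) (nat_lit 51))
 (.p (nat_lit 0x3a756d702) (nat_lit 0x340623) (nat_lit 30)))
 (.n (.p (nat_lit 0x34a434a234a0349e349c32d506) (nat_lit 0x800056909) (nat_lit 51))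
 (.p (nat_lit 0x13fc5ef702) (nat_lit 0x3a2530344000500040000) (nat_lit 50)))))
 (.n (.n (.n (.p (nat_lit 0x1a5e1c4902) (nat_lit 0x140800) (nat_lit 5))
 (.p (nat_lit 0x1ec20db302) (nat_lit 0x30091c) (nat_lit 4)))
 (.n (.p (nat_lit 0x50091ac902) (nat_lit 0x42706) (nat_lit 16))
 (.p (nat_lit 0x5e32123102) (nat_lit 0x80042500) (nat_lit 47))))
 (.n (.n (.p (nat_lit 0x89365902) (nat_lit 0x100203) (nat_lit 30))
 (.p (nat_lit 0x46a167102) (nat_lit 0x40062a) (nat_lit 1)))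
 (.n (.p (nat_lit 0x4bbc4bb84bb64bb44bb2257f06) (nat_lit 0x8000048b0e) (nat_lit 52))
 (.p (nat_lit 0x8f2610f02) (nat_lit 0x3425299b0000100040000) (nat_lit 49))))))

def c512_424 : Tr := .n c1024_424 c1024_936

def c256_168 : Tr := .n c512_168 c512_424

def c128_40 : Tr := .n c256_40 c256_168

def c1024_104 : Tr :=
 .n (.n (.n (.n (.n (.n (.p (nat_lit 0x60006902) (nat_lit 0x8000600002) (nat_lit 17))
 (.p (nat_lit 0x1c46613702) (nat_lit 0x3503a0d64000200040600) (nat_lit 50)))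
 (.p (nat_lit 0x7e607e407e207e007de2be906) (nat_lit 0x80004a90f) (nat_lit 51)))
 (.n (.p (nat_lit 0x3f4111302) (nat_lit 0x400403) (nat_lit 1))
 (.p (nat_lit 0x581e581c581a581858165814044007) (nat_lit 0x92a) (nat_lit 8))))
 (.n (.n (.p (nat_lit 0x1d5d1a6102) (nat_lit 0x246800) (nat_lit 16))
 (.p (nat_lit 0x4d704d6e4d6c4d6a4d66243b06) (nat_lit 0x1000000b1c) (nat_lit 52)))
 (.n (.p (nat_lit 0x12aa12a812a412a01d9b1d9706) (nat_lit 0x500004a806) (nat_lit 51))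
 (.p (nat_lit 0x5cf516a902) (nat_lit 0x280040000600) (nat_lit 41)))))
 (.n (.n (.n (.p (nat_lit 0xf5a0f580f520f500c950c9306) (nat_lit 0x60000d6300) (nat_lit 51))
 (.p (nat_lit 0x2aea284102) (nat_lit 0x340516) (nat_lit 4)))
 (.n (.p (nat_lit 0x208a208820862082247f247706) (nat_lit 0x11000000b04) (nat_lit 52))
 (.p (nat_lit 0x5b045b005afe5afc5afa0009028c07) (nat_lit 0x408015) (nat_lit 25))))
 (.n (.n (.p (nat_lit 0xfdc0fda0fd80fd60fd41eeb06) (nat_lit 0x10000008901) (nat_lit 52))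
 (.p (nat_lit 0x1ecc570502) (nat_lit 0x200923) (nat_lit 29)))
 (.n (.p (nat_lit 0x3f9537d702) (nat_lit 0x21430a) (nat_lit 16))
 (.p (nat_lit 0x23445f3302) (nat_lit 0x3aa560c44000500000600) (nat_lit 50))))))
 (.n (.n (.n (.n (.p (nat_lit 0x7ce07cc07c807c607c405c306) (nat_lit 0x4000008100) (nat_lit 52))
 (.p (nat_lit 0x98e098c0988098605cf05c906) (nat_lit 0x4800012015) (nat_lit 51)))
 (.n (.p (nat_lit 0xa2a1de702) (nat_lit 0x540104) (nat_lit 5))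
 (.p (nat_lit 0x499a489b02) (nat_lit 0x10062f) (nat_lit 4))))
 (.n (.n (.p (nat_lit 0x248a2488248624842482248006) (nat_lit 0x40b00) (nat_lit 2))
 (.p (nat_lit 0x11c4b8f02) (nat_lit 0x540022) (nat_lit 1)))
 (.n (.p (nat_lit 0x2ce62ce42ce22ce02cde190f06) (nat_lit 0x10000016707) (nat_lit 51))
 (.p (nat_lit 0x5e8c408902) (nat_lit 0x60002900) (nat_lit 47)))))
 (.n (.n (.n (.p (nat_lit 0x16ba16b816b616b416b0000316b307) (nat_lit 0x140600) (nat_lit 7))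
 (.p (nat_lit 0x181418121810180e180c05d506) (nat_lit 0x80000e01c) (nat_lit 52)))
 (.n (.p (nat_lit 0x13f213f013ee13ec13ea1ac706) (nat_lit 0x100000ca705) (nat_lit 52))
 (.p (nat_lit 0x5cd70bb502) (nat_lit 0x160020000200) (nat_lit 41))))
 (.n (.n (.p (nat_lit 0x32991ef502) (nat_lit 0x400902) (nat_lit 16))
 (.p (nat_lit 0x4999498d02) (nat_lit 0x628) (nat_lit 16)))
 (.n (.p (nat_lit 0x8fe08fc08f808f608f410e106) (nat_lit 0x400008240e) (nat_lit 51))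
 (.p (nat_lit 0x4c2603702) (nat_lit 0x4a9d80b44000000000000) (nat_lit 49))))))

def c1024_616 : Tr :=
 .n (.n (.n (.n (.n (.n (.p (nat_lit 0x3cd03cb03bf03b004) (nat_lit 0x76100023) (nat_lit 20))
 (.p (nat_lit 0x140061b302) (nat_lit 0x522266c0d000500040000) (nat_lit 50)))
 (.p (nat_lit 0x41083da502) (nat_lit 0x440412) (nat_lit 4)))
 (.n (.p (nat_lit 0x232e3b2d02) (nat_lit 0x440a03) (nat_lit 29))
 (.p (nat_lit 0x3409336502) (nat_lit 0x300a2c) (nat_lit 15))))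
 (.n (.n (.p (nat_lit 0x20e620e420e220e01e951e8f06) (nat_lit 0x9000008a00) (nat_lit 51))
 (.p (nat_lit 0xe9a0e960e940e920e903b9706) (nat_lit 0x8000080b1f) (nat_lit 52)))
 (.n (.p (nat_lit 0x11441142113e113c113a0e0706) (nat_lit 0x4000088307) (nat_lit 52))
 (.p (nat_lit 0x5c9f1ad502) (nat_lit 0x1e0000000800) (nat_lit 38)))))
 (.n (.n (.n (.p (nat_lit 0x12b612b212b012ac10cb10c506) (nat_lit 0x9000002500) (nat_lit 52))
 (.p (nat_lit 0x420c420842064204420202ed420b07) (nat_lit 0x440519) (nat_lit 7)))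
 (.n (.p (nat_lit 0x474f0fbd02) (nat_lit 0x40305) (nat_lit 16))
 (.p (nat_lit 0x5ca104c302) (nat_lit 0x1c0000000000) (nat_lit 38))))
 (.n (.n (.p (nat_lit 0x592db302) (nat_lit 0x102) (nat_lit 30))
 (.p (nat_lit 0x35ca388d02) (nat_lit 0x500126) (nat_lit 4)))
 (.n (.p (nat_lit 0x46ec444302) (nat_lit 0x30030c) (nat_lit 5))
 (.p (nat_lit 0x153a5fc102) (nat_lit 0x8982e955800000000600) (nat_lit 49))))))
 (.n (.n (.n (.n (.p (nat_lit 0xbd40bd20bce0bcc09d309cd06) (nat_lit 0x48000c0200) (nat_lit 52))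
 (.p (nat_lit 0x2ae914d902) (nat_lit 0x24c515) (nat_lit 16)))
 (.n (.p (nat_lit 0x64a0648064606440640168306) (nat_lit 0x1000080604) (nat_lit 51))
 (.p (nat_lit 0x386599702) (nat_lit 0x100305) (nat_lit 27))))
 (.n (.n (.p (nat_lit 0x28d70e2702) (nat_lit 0x102301) (nat_lit 16))
 (.p (nat_lit 0xa5a0a580a560a540a5209e506) (nat_lit 0x800044123) (nat_lit 51)))
 (.n (.p (nat_lit 0x316b2a0102) (nat_lit 0x250408) (nat_lit 16))
 (.p (nat_lit 0x5d775ebf02) (nat_lit 0x60080000b00) (nat_lit 36)))))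
 (.n (.n (.n (.p (nat_lit 0x1a361a341a321a301a2c179506) (nat_lit 0x1000054700) (nat_lit 51))
 (.p (nat_lit 0x314032703330ecb0d6505) (nat_lit 0x85d4051c) (nat_lit 9)))
 (.n (.p (nat_lit 0xfcc24eb02) (nat_lit 0x240306) (nat_lit 4))
 (.p (nat_lit 0x5d415e1702) (nat_lit 0xc0060000400) (nat_lit 36))))
 (.n (.n (.p (nat_lit 0x2473246702) (nat_lit 0x512b02) (nat_lit 16))
 (.p (nat_lit 0x1daa1da81da41da21da00b5906) (nat_lit 0x400001222a) (nat_lit 52)))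
 (.n (.p (nat_lit 0x5326532453225320531e531c01f207) (nat_lit 0x80e) (nat_lit 8))
 (.p (nat_lit 0x249260af02) (nat_lit 0x344589ca4000500040600) (nat_lit 50))))))

def c512_104 : Tr := .n c1024_104 c1024_616

def c1024_360 : Tr :=
 .n (.n (.n (.n (.n (.n (.p (nat_lit 0x1740170017d03) (nat_lit 0x5000500008) (nat_lit 17))
 (.p (nat_lit 0x1ade617502) (nat_lit 0x521a86b11000200000600) (nat_lit 49)))
 (.p (nat_lit 0x38e2357902) (nat_lit 0x200411) (nat_lit 4)))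
 (.n (.p (nat_lit 0x1a281a261a241a20167f167706) (nat_lit 0x11000092603) (nat_lit 51))
 (.p (nat_lit 0x161e161a161816161614288706) (nat_lit 0x80000d422b) (nat_lit 51))))
 (.n (.n (.p (nat_lit 0x1d2c1f0902) (nat_lit 0x240900) (nat_lit 4))
 (.p (nat_lit 0xd280d240d220d200d1e334f06) (nat_lit 0x8000000a1e) (nat_lit 52)))
 (.n (.p (nat_lit 0xb3a065902) (nat_lit 0x207) (nat_lit 5))
 (.p (nat_lit 0x5e5417e902) (nat_lit 0x20052700) (nat_lit 47)))))
 (.n (.n (.n (.p (nat_lit 0x10fd0dff02) (nat_lit 0x50c400) (nat_lit 16))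
 (.p (nat_lit 0x354236eb02) (nat_lit 0x340018) (nat_lit 4)))
 (.n (.p (nat_lit 0x44be44bc44ba44b844b644b400ee07) (nat_lit 0x105) (nat_lit 8))
 (.p (nat_lit 0x39c039a039403920389030d06) (nat_lit 0x1312822) (nat_lit 26))))
 (.n (.n (.p (nat_lit 0x21b2178502) (nat_lit 0x500a01) (nat_lit 4))
 (.p (nat_lit 0x15e215e015dc15da15d8273b06) (nat_lit 0x4000010124) (nat_lit 52)))
 (.n (.p (nat_lit 0x3e6e3c7d02) (nat_lit 0x30020b) (nat_lit 5))
 (.p (nat_lit 0x8ec5f7502) (nat_lit 0x1aa074b50000100040000) (nat_lit 49))))))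
 (.n (.n (.n (.n (.p (nat_lit 0xa17071f02) (nat_lit 0x150100) (nat_lit 16))
 (.p (nat_lit 0xeca0ec60ec40ec20ec0124906) (nat_lit 0x80000ca415) (nat_lit 51)))
 (.n (.p (nat_lit 0xfbf0fb302) (nat_lit 0x156304) (nat_lit 16))
 (.p (nat_lit 0x620060005a00580007018906) (nat_lit 0x1a14002) (nat_lit 26))))
 (.n (.n (.p (nat_lit 0x752264f02) (nat_lit 0x340001) (nat_lit 29))
 (.p (nat_lit 0x136413621360135e135a05e306) (nat_lit 0x1000094023) (nat_lit 51)))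
 (.n (.p (nat_lit 0x43f643f443f243f043ec216306) (nat_lit 0x100000ea07) (nat_lit 52))
 (.p (nat_lit 0x5ea01eff02) (nat_lit 0x6000ca00) (nat_lit 48)))))
 (.n (.n (.n (.p (nat_lit 0x188a1888188418801627162306) (nat_lit 0x5000008700) (nat_lit 52))
 (.p (nat_lit 0xa7e0a7c0a780a760a74088306) (nat_lit 0x400000811c) (nat_lit 52)))
 (.n (.p (nat_lit 0x1d991d8d02) (nat_lit 0x24c805) (nat_lit 16))
 (.p (nat_lit 0x5d110d1702) (nat_lit 0xc0040000300) (nat_lit 40))))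
 (.n (.n (.p (nat_lit 0x231c1a3b02) (nat_lit 0x140a02) (nat_lit 4))
 (.p (nat_lit 0x89a57a302) (nat_lit 0x30012a) (nat_lit 29)))
 (.n (.p (nat_lit 0x138652e902) (nat_lit 0x40050e) (nat_lit 29))
 (.p (nat_lit 0xbae607502) (nat_lit 0x4688ae154000200040000) (nat_lit 49))))))

def c1024_872 : Tr :=
 .n (.n (.n (.n (.n (.n (.p (nat_lit 0x61504df02) (nat_lit 0x212000) (nat_lit 16))
 (.p (nat_lit 0x114461f102) (nat_lit 0x382a31d05000400040000) (nat_lit 49)))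
 (.p (nat_lit 0x49de44e902) (nat_lit 0x500713) (nat_lit 4)))
 (.n (.p (nat_lit 0xd0e0d0c0d0a0d080d0625c906) (nat_lit 0x10000046b03) (nat_lit 52))
 (.p (nat_lit 0x1ff01fec1fea1fe81fe63e8706) (nat_lit 0x800009622e) (nat_lit 51))))
 (.n (.n (.p (nat_lit 0x22a0229e229a22961ff91ff506) (nat_lit 0x50000cea00) (nat_lit 52))
 (.p (nat_lit 0x42de400102) (nat_lit 0x500720) (nat_lit 4)))
 (.n (.p (nat_lit 0x10d8052102) (nat_lit 0x500407) (nat_lit 5))
 (.p (nat_lit 0x5d4f1add02) (nat_lit 0x2e0080000800) (nat_lit 38)))))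
 (.n (.n (.n (.p (nat_lit 0x148c148a148814861227121d06) (nat_lit 0x10800052500) (nat_lit 52))
 (.p (nat_lit 0x498654eb02) (nat_lit 0x30061a) (nat_lit 29)))
 (.n (.p (nat_lit 0x498f168f02) (nat_lit 0x108605) (nat_lit 16))
 (.p (nat_lit 0x5cd15dcb02) (nat_lit 0x1c0020000100) (nat_lit 36))))
 (.n (.n (.p (nat_lit 0x12590f9902) (nat_lit 0x40302) (nat_lit 15))
 (.p (nat_lit 0x1e4e1e4c1e481e461e443df906) (nat_lit 0x400004c127) (nat_lit 52)))
 (.n (.p (nat_lit 0x178500702) (nat_lit 0x54070d) (nat_lit 1))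
 (.p (nat_lit 0x1ada5ff702) (nat_lit 0x386a81c35000200000600) (nat_lit 49))))))
 (.n (.n (.n (.n (.p (nat_lit 0xd620d600d5c0d5a0b390b3306) (nat_lit 0x1200008a300) (nat_lit 52))
 (.p (nat_lit 0x2b611d4f02) (nat_lit 0x14c815) (nat_lit 16)))
 (.n (.p (nat_lit 0x429d17f702) (nat_lit 0x24a604) (nat_lit 16))
 (.p (nat_lit 0x5a445a425a405a3e5a3c043f019007) (nat_lit 0x514409) (nat_lit 25))))
 (.n (.n (.p (nat_lit 0x312af702) (nat_lit 0x300801) (nat_lit 30))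
 (.p (nat_lit 0x2f990ca702) (nat_lit 0x4e223) (nat_lit 16)))
 (.n (.p (nat_lit 0x3865309502) (nat_lit 0x552309) (nat_lit 16))
 (.p (nat_lit 0x206c5eeb02) (nat_lit 0x4a8876344000400000600) (nat_lit 49)))))
 (.n (.n (.n (.p (nat_lit 0x1bcb190102) (nat_lit 0x400800) (nat_lit 15))
 (.p (nat_lit 0x307555d02) (nat_lit 0x4081c) (nat_lit 30)))
 (.n (.p (nat_lit 0x1aca23db02) (nat_lit 0x140706) (nat_lit 4))
 (.p (nat_lit 0x5d315e2f02) (nat_lit 0x1c0060000500) (nat_lit 37))))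
 (.n (.n (.p (nat_lit 0xa1a1c7d02) (nat_lit 0x340103) (nat_lit 4))
 (.p (nat_lit 0xf8857d502) (nat_lit 0x44032a) (nat_lit 29)))
 (.n (.p (nat_lit 0x2422535b02) (nat_lit 0x100b0e) (nat_lit 29))
 (.p (nat_lit 0x1da660f702) (nat_lit 0x440d663a4000300000600) (nat_lit 49))))))

def c512_360 : Tr := .n c1024_360 c1024_872

def c256_104 : Tr := .n c512_104 c512_360

def c1024_232 : Tr :=
 .n (.n (.n (.n (.n (.n (.p (nat_lit 0xe800e600e400ef04) (nat_lit 0x7000400005) (nat_lit 17))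
 (.p (nat_lit 0x113a615702) (nat_lit 0x1503a8895800400040000) (nat_lit 49)))
 (.p (nat_lit 0x32a42e7f02) (nat_lit 0x400910) (nat_lit 5)))
 (.n (.p (nat_lit 0x13c413c213be13bc009c008d008713c113bb09) (nat_lit 0x1800503) (nat_lit 10))
 (.p (nat_lit 0x230414a902) (nat_lit 0x140a2a) (nat_lit 4))))
 (.n (.n (.p (nat_lit 0x1e5a1e581e561e501bc71bc506) (nat_lit 0x300008c900) (nat_lit 51))
 (.p (nat_lit 0x2c04291b02) (nat_lit 0x24091d) (nat_lit 5)))
 (.n (.p (nat_lit 0x210a21062104210221001f0106) (nat_lit 0x800008a906) (nat_lit 52))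
 (.p (nat_lit 0x5d8d5e4f02) (nat_lit 0x2000a0000600) (nat_lit 36)))))
 (.n (.n (.n (.p (nat_lit 0x100e100c100a100810060df506) (nat_lit 0x800002400) (nat_lit 52))
 (.p (nat_lit 0x32822f6902) (nat_lit 0x540517) (nat_lit 4)))
 (.n (.p (nat_lit 0x21442140213e213c25d525d106) (nat_lit 0x14000050b04) (nat_lit 51))
 (.p (nat_lit 0x310030e0308030603a7000506) (nat_lit 0x1a0a01c) (nat_lit 26))))
 (.n (.n (.p (nat_lit 0xa4e0a4c0a4a0a44204b204906) (nat_lit 0x3000044901) (nat_lit 52))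
 (.p (nat_lit 0x244610ad02) (nat_lit 0x100b23) (nat_lit 4)))
 (.n (.p (nat_lit 0x3ac6525702) (nat_lit 0x34060a) (nat_lit 29))
 (.p (nat_lit 0x207a5f5702) (nat_lit 0x1aa522350000400000600) (nat_lit 50))))))
 (.n (.n (.n (.n (.p (nat_lit 0x72608f302) (nat_lit 0x540100) (nat_lit 4))
 (.p (nat_lit 0x10ee10ec10ea10e810e6028b10f107) (nat_lit 0x500415) (nat_lit 7)))
 (.n (.p (nat_lit 0xcea0ce80ce60ce40ce200bf0ced07) (nat_lit 0x540204) (nat_lit 7))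
 (.p (nat_lit 0x50d050ce50cc50ca50c804c150d307) (nat_lit 0x540830) (nat_lit 7))))
 (.n (.n (.p (nat_lit 0x2568256625642562256022bb06) (nat_lit 0x8000d2b00) (nat_lit 52))
 (.p (nat_lit 0xd640d620d600d5e0d5a505f06) (nat_lit 0x100008a822) (nat_lit 52)))
 (.n (.p (nat_lit 0x1d34056902) (nat_lit 0x40807) (nat_lit 4))
 (.p (nat_lit 0x5c8f206b02) (nat_lit 0x2e0000000a00) (nat_lit 38)))))
 (.n (.n (.n (.p (nat_lit 0x178417821780177c16b516b106) (nat_lit 0x2800054600) (nat_lit 52))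
 (.p (nat_lit 0x15481546154415421540073f06) (nat_lit 0x1000004c01c) (nat_lit 51)))
 (.n (.p (nat_lit 0x1fb41fb01fae1fac1faa1c2b06) (nat_lit 0x800000c805) (nat_lit 51))
 (.p (nat_lit 0x5d595def02) (nat_lit 0x240080000200) (nat_lit 36))))
 (.n (.n (.p (nat_lit 0x21bc1a3502) (nat_lit 0x400a02) (nat_lit 5))
 (.p (nat_lit 0x4d48578902) (nat_lit 0x240229) (nat_lit 29)))
 (.n (.p (nat_lit 0x7aa07a607a407a207a0123d06) (nat_lit 0x800004240e) (nat_lit 51))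
 (.p (nat_lit 0xd12605502) (nat_lit 0x5858b0b44000300000000) (nat_lit 50))))))

def c1024_744 : Tr :=
 .n (.n (.n (.n (.n (.n (.p (nat_lit 0x4fc04fa04f404f204e104df06) (nat_lit 0x6000084000) (nat_lit 52))
 (.p (nat_lit 0x8e861d502) (nat_lit 0x54216ac0c800100040000) (nat_lit 49)))
 (.p (nat_lit 0x42c43d5702) (nat_lit 0x400712) (nat_lit 4)))
 (.n (.p (nat_lit 0x16a216a0169e169c1698246b06) (nat_lit 0x100008cb03) (nat_lit 52))
 (.p (nat_lit 0x1d261d241d221d201d1e375b06) (nat_lit 0x8000d622d) (nat_lit 52))))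
 (.n (.n (.p (nat_lit 0x21b51e8d02) (nat_lit 0xea00) (nat_lit 16))
 (.p (nat_lit 0x36555ef02) (nat_lit 0x140120) (nat_lit 30)))
 (.n (.p (nat_lit 0x1150114e114c114811460f6d06) (nat_lit 0x20000c8307) (nat_lit 51))
 (.p (nat_lit 0x5cf35e6f02) (nat_lit 0x2a0040000800) (nat_lit 36)))))
 (.n (.n (.n (.p (nat_lit 0x13bb10c302) (nat_lit 0x10500) (nat_lit 16))
 (.p (nat_lit 0x437c3e6302) (nat_lit 0x140b19) (nat_lit 5)))
 (.n (.p (nat_lit 0x151e48d702) (nat_lit 0x140505) (nat_lit 29))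
 (.p (nat_lit 0x5d2d063b02) (nat_lit 0x200060000000) (nat_lit 39))))
 (.n (.n (.p (nat_lit 0xcd2186502) (nat_lit 0x440202) (nat_lit 4))
 (.p (nat_lit 0x3b50576b02) (nat_lit 0x540a26) (nat_lit 29)))
 (.n (.p (nat_lit 0x4a22440102) (nat_lit 0x54070c) (nat_lit 4))
 (.p (nat_lit 0xfde5fd502) (nat_lit 0x382c60b44000400000000) (nat_lit 49))))))
 (.n (.n (.n (.n (.p (nat_lit 0xce509cf02) (nat_lit 0x152200) (nat_lit 16))
 (.p (nat_lit 0x2f8a2f862f842f821925191d06) (nat_lit 0x8800094715) (nat_lit 51)))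
 (.n (.p (nat_lit 0xc200cf00df1e571fbd05) (nat_lit 0x46b40604) (nat_lit 9))
 (.p (nat_lit 0x11c011801160114000104bf06) (nat_lit 0x410506) (nat_lit 26))))
 (.n (.n (.p (nat_lit 0x2a1e2a1c2a1a2a182a162a14003607) (nat_lit 0x501) (nat_lit 8))
 (.p (nat_lit 0x3ae03b503cf1027118d05) (nat_lit 0x42500223) (nat_lit 9)))
 (.n (.p (nat_lit 0x2f2e2d1502) (nat_lit 0x209) (nat_lit 5))
 (.p (nat_lit 0x181c5ed102) (nat_lit 0x4a1a22344000100000600) (nat_lit 50)))))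
 (.n (.n (.n (.p (nat_lit 0x19001add02) (nat_lit 0x400800) (nat_lit 4))
 (.p (nat_lit 0x192e553f02) (nat_lit 0x30071c) (nat_lit 29)))
 (.n (.p (nat_lit 0x4f17128b02) (nat_lit 0x140406) (nat_lit 16))
 (.p (nat_lit 0x5cbb129502) (nat_lit 0x20000000500) (nat_lit 38))))
 (.n (.n (.p (nat_lit 0x8734cb02) (nat_lit 0x40003) (nat_lit 30))
 (.p (nat_lit 0x207e207c207a207820760cbd06) (nat_lit 0x1000005422a) (nat_lit 51)))
 (.n (.p (nat_lit 0x1eaa533b02) (nat_lit 0x30090e) (nat_lit 29))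
 (.p (nat_lit 0x13ee60d702) (nat_lit 0x354a623b0000500040000) (nat_lit 49))))))

def c512_232 : Tr := .n c1024_232 c1024_744

def c1024_488 : Tr :=
 .n (.n (.n (.n (.n (.n (.p (nat_lit 0x2ee02e802e602f104) (nat_lit 0x13000400019) (nat_lit 17))
 (.p (nat_lit 0xbac619902) (nat_lit 0x3422a5c14800200040000) (nat_lit 49)))
 (.p (nat_lit 0x3af4361502) (nat_lit 0x300a11) (nat_lit 4)))
 (.n (.p (nat_lit 0x3ae03ade3adc3ada3ad83ad6009207) (nat_lit 0xa03) (nat_lit 8))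
 (.p (nat_lit 0x18c418c218c018be18bc2f4506) (nat_lit 0x1000009222c) (nat_lit 52))))
 (.n (.n (.p (nat_lit 0x1fe41fe01fde1fda1d311d2b06) (nat_lit 0x9000056900) (nat_lit 51))
 (.p (nat_lit 0x35555c302) (nat_lit 0x30011f) (nat_lit 30)))
 (.n (.p (nat_lit 0xca0514302) (nat_lit 0x340207) (nat_lit 29))
 (.p (nat_lit 0x5d6d198502) (nat_lit 0x100080000700) (nat_lit 41)))))
 (.n (.n (.n (.p (nat_lit 0x11b611b211b011ae0f650f5d06) (nat_lit 0x880004e400) (nat_lit 52))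
 (.p (nat_lit 0x3b0d3b0302) (nat_lit 0x408a18) (nat_lit 16)))
 (.n (.p (nat_lit 0xe9461502) (nat_lit 0x340205) (nat_lit 30))
 (.p (nat_lit 0x43e043c0436043404b1000506) (nat_lit 0x1a1422a) (nat_lit 26))))
 (.n (.n (.p (nat_lit 0x2323231702) (nat_lit 0x450a01) (nat_lit 16))
 (.p (nat_lit 0x2e3430bd02) (nat_lit 0x100125) (nat_lit 4)))
 (.n (.p (nat_lit 0x4253421702) (nat_lit 0x10860b) (nat_lit 16))
 (.p (nat_lit 0xa585f9302) (nat_lit 0x580bb0344000200000000) (nat_lit 50))))))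
 (.n (.n (.n (.n (.p (nat_lit 0xaa00a9e0a9c0a9a0a98087b06) (nat_lit 0x1000008a200) (nat_lit 51))
 (.p (nat_lit 0x21e021de21dc21da21d8139506) (nat_lit 0x10000094515) (nat_lit 51)))
 (.n (.p (nat_lit 0x13d013ce13cc13c813c600b913cb07) (nat_lit 0x200504) (nat_lit 7))
 (.p (nat_lit 0x3f6593d02) (nat_lit 0x500403) (nat_lit 27))))
 (.n (.n (.p (nat_lit 0xb5e16eb02) (nat_lit 0x201) (nat_lit 5))
 (.p (nat_lit 0xbb00bae0bac0baa0ba6088b06) (nat_lit 0x1000084123) (nat_lit 52)))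
 (.n (.p (nat_lit 0x257451e302) (nat_lit 0x540b07) (nat_lit 29))
 (.p (nat_lit 0x5ce3233502) (nat_lit 0xa0020000b00) (nat_lit 38)))))
 (.n (.n (.n (.p (nat_lit 0x194f162302) (nat_lit 0x112700) (nat_lit 16))
 (.p (nat_lit 0x2eb309dd02) (nat_lit 0x24e11c) (nat_lit 16)))
 (.n (.p (nat_lit 0xa3a24bf02) (nat_lit 0x140106) (nat_lit 5))
 (.p (nat_lit 0x5d970d1d02) (nat_lit 0x1600a0000300) (nat_lit 40))))
 (.n (.n (.p (nat_lit 0x25b3231b02) (nat_lit 0x40a02) (nat_lit 15))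
 (.p (nat_lit 0x51405120510050e050a09f306) (nat_lit 0x10000c612a) (nat_lit 51)))
 (.n (.p (nat_lit 0x420114d302) (nat_lit 0x55250e) (nat_lit 16))
 (.p (nat_lit 0x1db0609302) (nat_lit 0x356221ca4000300000600) (nat_lit 50))))))

def c1024_1000 : Tr :=
 .n (.n (.n (.n (.n (.p (nat_lit 0x70e070c070607040653065106) (nat_lit 0x6000056000) (nat_lit 52))
 (.p (nat_lit 0x4fdc4bd902) (nat_lit 0x100714) (nat_lit 4)))
 (.n (.p (nat_lit 0x8cd061902) (nat_lit 0x400004) (nat_lit 15))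
 (.p (nat_lit 0x4358417902) (nat_lit 0x500b2e) (nat_lit 4))))
 (.n (.n (.p (nat_lit 0x237823742372236e215d215706) (nat_lit 0x9000082b00) (nat_lit 52))
 (.p (nat_lit 0x45ea45e845e445e245e0458306) (nat_lit 0x400004e121) (nat_lit 51)))
 (.n (.p (nat_lit 0x1430142e142c142a1426122b06) (nat_lit 0x10000c4407) (nat_lit 52))
 (.p (nat_lit 0x5cd95e8502) (nat_lit 0x140020000900) (nat_lit 37)))))
 (.n (.n (.n (.p (nat_lit 0x15e215e015de15dc15da15d806) (nat_lit 0x10600) (nat_lit 52))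
 (.p (nat_lit 0x50164d3502) (nat_lit 0x14071b) (nat_lit 4)))
 (.n (.p (nat_lit 0x16ae16ac16aa16a816a4195b06) (nat_lit 0x100008c705) (nat_lit 51))
 (.p (nat_lit 0x5d5b5dd702) (nat_lit 0x220080000100) (nat_lit 36))))
 (.n (.n (.p (nat_lit 0x14f818a502) (nat_lit 0x40502) (nat_lit 5))
 (.p (nat_lit 0x57825780577e577c577a5778041407) (nat_lit 0x40028) (nat_lit 8)))
 (.n (.p (nat_lit 0xa720a6e0a6c0a6a0a680e1506) (nat_lit 0x800008030e) (nat_lit 51))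
 (.p (nat_lit 0x2078601702) (nat_lit 0x405aa2335000400000600) (nat_lit 50))))))
 (.n (.n (.n (.n (.p (nat_lit 0xc980e7702) (nat_lit 0x540300) (nat_lit 4))
 (.p (nat_lit 0x3343218102) (nat_lit 0x40ea15) (nat_lit 16)))
 (.n (.p (nat_lit 0x430042fe42fc42fa42f842f600c007) (nat_lit 0x40704) (nat_lit 8))
 (.p (nat_lit 0x1ef5a8102) (nat_lit 0x40050e) (nat_lit 28))))
 (.n (.n (.p (nat_lit 0x1d861d821d7e1d7c004e0033002f1d851d8109) (nat_lit 0x2240801) (nat_lit 10))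
 (.p (nat_lit 0x30d630d430d230d01aa31a9906) (nat_lit 0x108000d2723) (nat_lit 51)))
 (.n (.p (nat_lit 0x68606820680067e067c337f06) (nat_lit 0x80000c6a09) (nat_lit 52))
 (.p (nat_lit 0x1ae85f1502) (nat_lit 0x3aa530344000200000600) (nat_lit 50)))))
 (.n (.n (.n (.p (nat_lit 0x1c961c921c901c8e1a671a6306) (nat_lit 0x140000c4800) (nat_lit 52))
 (.p (nat_lit 0x558a55885586558455825580031207) (nat_lit 0xa1c) (nat_lit 8)))
 (.n (.p (nat_lit 0x11441142113e113c113a1c3506) (nat_lit 0x4000088806) (nat_lit 52))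
 (.p (nat_lit 0x5ca5169902) (nat_lit 0x180000000600) (nat_lit 39))))
 (.n (.n (.p (nat_lit 0x37570cdf02) (nat_lit 0x448203) (nat_lit 16))
 (.p (nat_lit 0x1942130f02) (nat_lit 0x10072a) (nat_lit 4)))
 (.n (.p (nat_lit 0x2ae22ae02ade2adc2ada020b2ad907) (nat_lit 0x4050f) (nat_lit 7))
 (.p (nat_lit 0x16a6611b02) (nat_lit 0x350522264000000040600) (nat_lit 50))))))

def c512_488 : Tr := .n c1024_488 c1024_1000

def c256_232 : Tr := .n c512_232 c512_488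

def c128_104 : Tr := .n c256_104 c256_232

def c64_40 : Tr := .n c128_40 c128_104

def c32_8 : Tr := .n c64_8 c64_40

def c1024_24 : Tr :=
 .n (.n (.n (.n (.n (.n (.p (nat_lit 0x2900230015001b0017000d06) (nat_lit 0x531000000) (nat_lit 22))
 (.p (nat_lit 0x1150612902) (nat_lit 0x35486a3a4000400040000) (nat_lit 50)))
 (.p (nat_lit 0x2b0e270b02) (nat_lit 0x30080f) (nat_lit 4)))
 (.n (.p (nat_lit 0x34e0fa502) (nat_lit 0x40303) (nat_lit 1))
 (.p (nat_lit 0x1aa6131b02) (nat_lit 0x14072a) (nat_lit 4))))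
 (.n (.n (.p (nat_lit 0x1cf61cf41cf01cee1cec1a6306) (nat_lit 0x40000cc800) (nat_lit 52))
 (.p (nat_lit 0x219b218f02) (nat_lit 0x50aa1c) (nat_lit 16)))
 (.n (.p (nat_lit 0x503d1c3302) (nat_lit 0x200806) (nat_lit 16))
 (.p (nat_lit 0x5ce3154302) (nat_lit 0xa0020000600) (nat_lit 40)))))
 (.n (.n (.n (.p (nat_lit 0xeb20eb00eac0eaa0ea80c9506) (nat_lit 0x40000c2300) (nat_lit 52))
 (.p (nat_lit 0x24300b1d02) (nat_lit 0x200b15) (nat_lit 5)))
 (.n (.p (nat_lit 0x1cea1ce81ce61ce41ce21ab106) (nat_lit 0x80004c704) (nat_lit 52))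
 (.p (nat_lit 0x1eb5aad02) (nat_lit 0x200b0e) (nat_lit 28))))
 (.n (.n (.p (nat_lit 0x20511d8702) (nat_lit 0x540801) (nat_lit 15))
 (.p (nat_lit 0x38c438be38bc38ba1c071c0506) (nat_lit 0xc000016823) (nat_lit 52)))
 (.n (.p (nat_lit 0x36b6521502) (nat_lit 0x20a) (nat_lit 29))
 (.p (nat_lit 0x1aea5f1d02) (nat_lit 0x3a2274350000200000600) (nat_lit 50))))))
 (.n (.n (.n (.n (.p (nat_lit 0x773064f02) (nat_lit 0x152000) (nat_lit 16))
 (.p (nat_lit 0x946094409420940093c504706) (nat_lit 0x100008a814) (nat_lit 52)))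
 (.n (.p (nat_lit 0x3cc83cc63cc23cc03cbe077706) (nat_lit 0x400004c004) (nat_lit 51))
 (.p (nat_lit 0xe8460902) (nat_lit 0x30022f) (nat_lit 1))))
 (.n (.n (.p (nat_lit 0x23fa23f823f623f423f0215706) (nat_lit 0x1000090b00) (nat_lit 51))
 (.p (nat_lit 0xd400d3e0d3c0d3a0d3849ed06) (nat_lit 0x800002721) (nat_lit 51)))
 (.n (.p (nat_lit 0x190d163502) (nat_lit 0x400607) (nat_lit 15))
 (.p (nat_lit 0x5d171f0902) (nat_lit 0x60040000900) (nat_lit 39)))))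
 (.n (.n (.n (.p (nat_lit 0x16121610160e160c154f154d06) (nat_lit 0x1800014600) (nat_lit 51))
 (.p (nat_lit 0x5d40d1f02) (nat_lit 0x1c) (nat_lit 4)))
 (.n (.p (nat_lit 0x4a07195d02) (nat_lit 0x20a705) (nat_lit 16))
 (.p (nat_lit 0x5dd80b4502) (nat_lit 0xa000a100) (nat_lit 47))))
 (.n (.n (.p (nat_lit 0x150914fd02) (nat_lit 0x252502) (nat_lit 16))
 (.p (nat_lit 0x21fa21f621f421f221f0451f06) (nat_lit 0x8000080128) (nat_lit 51)))
 (.n (.p (nat_lit 0x1ed52db02) (nat_lit 0x34030e) (nat_lit 30))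
 (.p (nat_lit 0x1144602102) (nat_lit 0x406a6252d000400040000) (nat_lit 49))))))

def c1024_536 : Tr :=
 .n (.n (.n (.n (.n (.n (.p (nat_lit 0x32f032d0323031604) (nat_lit 0x5610001c) (nat_lit 20))
 (.p (nat_lit 0x1daa61a102) (nat_lit 0x3222a5c15000300000600) (nat_lit 49)))
 (.p (nat_lit 0x3bcc35af02) (nat_lit 0x140b11) (nat_lit 5)))
 (.n (.p (nat_lit 0x1f901f8e1f8a1f8821cb21c506) (nat_lit 0x12000088a03) (nat_lit 51))
 (.p (nat_lit 0x37e1301702) (nat_lit 0x11232c) (nat_lit 16))))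
 (.n (.n (.p (nat_lit 0x20391d3302) (nat_lit 0x548900) (nat_lit 16))
 (.p (nat_lit 0x388c388838863884388239ff06) (nat_lit 0x800000251f) (nat_lit 52)))
 (.n (.p (nat_lit 0xf710ca302) (nat_lit 0x440207) (nat_lit 15))
 (.p (nat_lit 0x5e601d8502) (nat_lit 0x80056700) (nat_lit 48)))))
 (.n (.n (.n (.p (nat_lit 0x124f0f5f02) (nat_lit 0x14c400) (nat_lit 16))
 (.p (nat_lit 0x3c583e9902) (nat_lit 0x200019) (nat_lit 4)))
 (.n (.p (nat_lit 0xe5820cd02) (nat_lit 0x200305) (nat_lit 5))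
 (.p (nat_lit 0x5c625c605c5e5c5a5c580493044007) (nat_lit 0x20e92a) (nat_lit 25))))
 (.n (.n (.p (nat_lit 0x7620760075e075c075a0059075907) (nat_lit 0x40002) (nat_lit 7))
 (.p (nat_lit 0x32b2314102) (nat_lit 0x100925) (nat_lit 4)))
 (.n (.p (nat_lit 0x42ba527f02) (nat_lit 0x50070b) (nat_lit 29))
 (.p (nat_lit 0xa445f9d02) (nat_lit 0x568bb0344000200000000) (nat_lit 49))))))
 (.n (.n (.n (.n (.p (nat_lit 0xb51087b02) (nat_lit 0x508200) (nat_lit 16))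
 (.p (nat_lit 0x64a064806460644064014d706) (nat_lit 0x10000c0515) (nat_lit 51)))
 (.n (.p (nat_lit 0x13dd13d102) (nat_lit 0x516504) (nat_lit 16))
 (.p (nat_lit 0xbf595d02) (nat_lit 0x500204) (nat_lit 28))))
 (.n (.n (.p (nat_lit 0x2ae0cbf02) (nat_lit 0x40201) (nat_lit 1))
 (.p (nat_lit 0x1daa1da81da41da21da0088f06) (nat_lit 0x4000012123) (nat_lit 52)))
 (.n (.p (nat_lit 0x2f37281502) (nat_lit 0x410208) (nat_lit 16))
 (.p (nat_lit 0x5d05248502) (nat_lit 0x180040000b00) (nat_lit 39)))))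
 (.n (.n (.n (.p (nat_lit 0x62179d02) (nat_lit 0x540700) (nat_lit 1))
 (.p (nat_lit 0xff40ff20ff00fee0fec13a106) (nat_lit 0x1000000051c) (nat_lit 52)))
 (.n (.p (nat_lit 0xb9a4c9302) (nat_lit 0x206) (nat_lit 29))
 (.p (nat_lit 0x5e0c0f8102) (nat_lit 0x40400) (nat_lit 47))))
 (.n (.n (.p (nat_lit 0x66007f006f18e71a4b05) (nat_lit 0x88300b02) (nat_lit 9))
 (.p (nat_lit 0xb5c0b5a0b580b540b5204390b5707) (nat_lit 0x20022a) (nat_lit 7)))
 (.n (.p (nat_lit 0x1647163b02) (nat_lit 0x10660e) (nat_lit 16))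
 (.p (nat_lit 0x1da6609d02) (nat_lit 0x346068ca4000300000600) (nat_lit 49))))))

def c512_24 : Tr := .n c1024_24 c1024_536

def c1024_280 : Tr :=
 .n (.n (.n (.n (.n (.n (.p (nat_lit 0x11a01160114011f04) (nat_lit 0xb000400006) (nat_lit 17))
 (.p (nat_lit 0x1f16616102) (nat_lit 0x3503a8d84000300040600) (nat_lit 50)))
 (.p (nat_lit 0x33882e0b02) (nat_lit 0x340a10) (nat_lit 5)))
 (.n (.p (nat_lit 0x3a383a363a343a323a303a2e06) (nat_lit 0xc4503) (nat_lit 52))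
 (.p (nat_lit 0x584e584c584a584858465844044007) (nat_lit 0x40b2a) (nat_lit 8))))
 (.n (.n (.p (nat_lit 0x1e8a1e881e861e841bc51bc306) (nat_lit 0x1800096900) (nat_lit 52))
 (.p (nat_lit 0x2d9e303b02) (nat_lit 0x14001e) (nat_lit 4)))
 (.n (.p (nat_lit 0x120013b01252409255f05) (nat_lit 0x8c840906) (nat_lit 9))
 (.p (nat_lit 0x5c99180b02) (nat_lit 0x240000000700) (nat_lit 38)))))
 (.n (.n (.n (.p (nat_lit 0x103e103c103810340dfb0df706) (nat_lit 0x500000c400) (nat_lit 52))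
 (.p (nat_lit 0x33422f7d02) (nat_lit 0x400a17) (nat_lit 5)))
 (.n (.p (nat_lit 0x62443b302) (nat_lit 0x400005) (nat_lit 29))
 (.p (nat_lit 0x3375ba502) (nat_lit 0x51d) (nat_lit 28))))
 (.n (.n (.p (nat_lit 0x1ade1ada1ad81ad61ad4204f06) (nat_lit 0x8000050901) (nat_lit 52))
 (.p (nat_lit 0x3b9b244502) (nat_lit 0x10b23) (nat_lit 16)))
 (.n (.p (nat_lit 0x3b72352d02) (nat_lit 0x400b0a) (nat_lit 4))
 (.p (nat_lit 0x13f45f5f02) (nat_lit 0x4a1d22344000500040000) (nat_lit 49))))))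
 (.n (.n (.n (.n (.p (nat_lit 0x9380936093409320930072706) (nat_lit 0x1000004a100) (nat_lit 52))
 (.p (nat_lit 0xdd80dd60dd20dd010f110eb06) (nat_lit 0x12000094415) (nat_lit 52)))
 (.n (.p (nat_lit 0xb53f3102) (nat_lit 0x304) (nat_lit 30))
 (.p (nat_lit 0x2b58a902) (nat_lit 0x401) (nat_lit 28))))
 (.n (.n (.p (nat_lit 0x25ab22bf02) (nat_lit 0x24ab00) (nat_lit 16))
 (.p (nat_lit 0x46e446e246e046dc46da510706) (nat_lit 0x200008e922) (nat_lit 51)))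
 (.n (.p (nat_lit 0x1b41ea102) (nat_lit 0x400907) (nat_lit 1))
 (.p (nat_lit 0x5cd15e9b02) (nat_lit 0x1c0020000a00) (nat_lit 37)))))
 (.n (.n (.n (.p (nat_lit 0x17d916bb02) (nat_lit 0x548600) (nat_lit 16))
 (.p (nat_lit 0x248a2486248424822480073d06) (nat_lit 0x80000d601c) (nat_lit 52)))
 (.n (.p (nat_lit 0xba1d8f02) (nat_lit 0x340805) (nat_lit 1))
 (.p (nat_lit 0x5d8b0a4f02) (nat_lit 0x2200a0000200) (nat_lit 38))))
 (.n (.n (.p (nat_lit 0x129c129a12981296129421bf06) (nat_lit 0x1000000aa02) (nat_lit 52))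
 (.p (nat_lit 0x427579b02) (nat_lit 0x500829) (nat_lit 30)))
 (.n (.p (nat_lit 0x1c441c421c401c3e1c3c123506) (nat_lit 0x8000d040e) (nat_lit 52))
 (.p (nat_lit 0xbba606102) (nat_lit 0x85ab0335000200040000) (nat_lit 50))))))

def c1024_792 : Tr :=
 .n (.n (.n (.n (.n (.n (.p (nat_lit 0x52c052a0526052404e104db06) (nat_lit 0x4800088000) (nat_lit 51))
 (.p (nat_lit 0x198661df02) (nat_lit 0x3508a5d84000100040600) (nat_lit 50)))
 (.p (nat_lit 0x47d8453b02) (nat_lit 0x413) (nat_lit 5)))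
 (.n (.p (nat_lit 0x167d247102) (nat_lit 0x400b03) (nat_lit 15))
 (.p (nat_lit 0x3ba639c702) (nat_lit 0xb2d) (nat_lit 4))))
 (.n (.n (.p (nat_lit 0x1ffc1ff81ff61ff40012000900011ffb1ff309) (nat_lit 0x2040a00) (nat_lit 10))
 (.p (nat_lit 0x42424240423e423c42380365423b07) (nat_lit 0x100620) (nat_lit 7)))
 (.n (.p (nat_lit 0x21e021de21dc21da21d80f7306) (nat_lit 0x100000d4307) (nat_lit 51))
 (.p (nat_lit 0x5d231adb02) (nat_lit 0x2a0060000800) (nat_lit 38)))))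
 (.n (.n (.n (.p (nat_lit 0x12221220121e121c0028000b00091227122509) (nat_lit 0x2c40500) (nat_lit 10))
 (.p (nat_lit 0x485a463302) (nat_lit 0x24041a) (nat_lit 5)))
 (.n (.p (nat_lit 0xe3496302) (nat_lit 0x605) (nat_lit 30))
 (.p (nat_lit 0x5dc0509502) (nat_lit 0x80056000) (nat_lit 48))))
 (.n (.n (.p (nat_lit 0xe36186f02) (nat_lit 0x300302) (nat_lit 4))
 (.p (nat_lit 0x3bf2395f02) (nat_lit 0x240b26) (nat_lit 5)))
 (.n (.p (nat_lit 0x4dc84ac102) (nat_lit 0x40030d) (nat_lit 4))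
 (.p (nat_lit 0x2493248121db21d51f151f0f1c471c411985197316af169d5fe20d) (nat_lit 0x3062a1c35000000040600) (nat_lit 33))))))
 (.n (.n (.n (.n (.p (nat_lit 0xb360b340b320b300b2e000b0b3907) (nat_lit 0x500300) (nat_lit 7))
 (.p (nat_lit 0x2f7e2f7c2f7a2f762f741a8506) (nat_lit 0x2000054715) (nat_lit 51)))
 (.n (.p (nat_lit 0xe820e800e7e0e7a0e7817f706) (nat_lit 0x20000c6604) (nat_lit 51))
 (.p (nat_lit 0x148014601420140043f000506) (nat_lit 0x2a08307) (nat_lit 26))))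
 (.n (.n (.p (nat_lit 0x14ec15cd02) (nat_lit 0x40501) (nat_lit 5))
 (.p (nat_lit 0xcb00cae0cac0caa0ca803a10ca707) (nat_lit 0x40223) (nat_lit 7)))
 (.n (.p (nat_lit 0x37432f8d02) (nat_lit 0x52209) (nat_lit 16))
 (.p (nat_lit 0x7a65ed902) (nat_lit 0x4a0d84344000100000000) (nat_lit 50)))))
 (.n (.n (.n (.p (nat_lit 0x1b601b5e1b5c1b5a1b5818f906) (nat_lit 0x800088800) (nat_lit 52))
 (.p (nat_lit 0x1a940ef902) (nat_lit 0x44071c) (nat_lit 4)))
 (.n (.p (nat_lit 0x793153302) (nat_lit 0x540506) (nat_lit 15))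
 (.p (nat_lit 0x5cd95e2702) (nat_lit 0x140020000500) (nat_lit 36))))
 (.n (.n (.p (nat_lit 0x771076502) (nat_lit 0x54003) (nat_lit 16))
 (.p (nat_lit 0xe1e57c702) (nat_lit 0x30032a) (nat_lit 29)))
 (.n (.p (nat_lit 0x2014534b02) (nat_lit 0x54090e) (nat_lit 29))
 (.p (nat_lit 0x234460df02) (nat_lit 0x340d623a4000500000600) (nat_lit 50))))))

def c512_280 : Tr := .n c1024_280 c1024_792

def c256_24 : Tr := .n c512_24 c512_280

def c1024_152 : Tr :=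
 .n (.n (.n (.n (.n (.n (.p (nat_lit 0x8e0086009503) (nat_lit 0x8800500003) (nat_lit 17))
 (.p (nat_lit 0x642614902) (nat_lit 0x350221d84000000040000) (nat_lit 50)))
 (.p (nat_lit 0x1a421a401a3e1a3c1a3a30fb06) (nat_lit 0x800094410) (nat_lit 52)))
 (.n (.p (nat_lit 0x12661cbf02) (nat_lit 0x140403) (nat_lit 5))
 (.p (nat_lit 0x203e582502) (nat_lit 0x24092a) (nat_lit 29))))
 (.n (.n (.p (nat_lit 0x1db31da702) (nat_lit 0x300900) (nat_lit 34))
 (.p (nat_lit 0x259d259102) (nat_lit 0x14ab1c) (nat_lit 16)))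
 (.n (.p (nat_lit 0x21e221e021de21dc21da1d9506) (nat_lit 0x8000d4806) (nat_lit 51))
 (.p (nat_lit 0x5d2b5e4702) (nat_lit 0x220060000600) (nat_lit 36)))))
 (.n (.n (.n (.p (nat_lit 0xfbd0c8f02) (nat_lit 0x54300) (nat_lit 16))
 (.p (nat_lit 0x2baa2ba62ba42ba22ba002b72ba907) (nat_lit 0x400916) (nat_lit 7)))
 (.n (.p (nat_lit 0x4359247f02) (nat_lit 0x50ab04) (nat_lit 16))
 (.p (nat_lit 0x2875b2d02) (nat_lit 0x300915) (nat_lit 28))))
 (.n (.n (.p (nat_lit 0x248a24862484248224801ee906) (nat_lit 0x8000096901) (nat_lit 52))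
 (.p (nat_lit 0x203811f102) (nat_lit 0x540923) (nat_lit 4)))
 (.n (.p (nat_lit 0x19f523302) (nat_lit 0x30040a) (nat_lit 30))
 (.p (nat_lit 0x8ee5f3d02) (nat_lit 0x3a2560c64000100040000) (nat_lit 49))))))
 (.n (.n (.n (.n (.p (nat_lit 0x8560854084e084c05c305c106) (nat_lit 0x6000094100) (nat_lit 51))
 (.p (nat_lit 0x90a0908090609040902072906) (nat_lit 0x800046015) (nat_lit 51)))
 (.n (.p (nat_lit 0xb861ded02) (nat_lit 0x200204) (nat_lit 5))
 (.p (nat_lit 0x4384a5902) (nat_lit 0x24072f) (nat_lit 1))))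
 (.n (.n (.p (nat_lit 0x24c624c424c224c024be22bb06) (nat_lit 0x8000c2b00) (nat_lit 51))
 (.p (nat_lit 0x4c84566102) (nat_lit 0x440122) (nat_lit 29)))
 (.n (.p (nat_lit 0x1a771a6b02) (nat_lit 0x144707) (nat_lit 16))
 (.p (nat_lit 0x5e8e419b02) (nat_lit 0x80004900) (nat_lit 47)))))
 (.n (.n (.n (.p (nat_lit 0x170016fe16fc16f616b516b306) (nat_lit 0x30000c4600) (nat_lit 51))
 (.p (nat_lit 0x5e305d702) (nat_lit 0x10a01c) (nat_lit 16)))
 (.n (.p (nat_lit 0x248a24882486248224801ac106) (nat_lit 0x20000d6705) (nat_lit 52))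
 (.p (nat_lit 0x5cf15de702) (nat_lit 0x2c0040000200) (nat_lit 36))))
 (.n (.n (.p (nat_lit 0x1b021afc1afa1af8205b205906) (nat_lit 0xc0000c0902) (nat_lit 51))
 (.p (nat_lit 0x4b984e4f02) (nat_lit 0x440029) (nat_lit 4)))
 (.n (.p (nat_lit 0x198619841980197e197c10e106) (nat_lit 0x400008e40e) (nat_lit 51))
 (.p (nat_lit 0x646604302) (nat_lit 0x40a96254c800000040000) (nat_lit 50))))))

def c1024_664 : Tr :=
 .n (.n (.n (.n (.n (.n (.p (nat_lit 0x4590449044203) (nat_lit 0x4180002a) (nat_lit 19))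
 (.p (nat_lit 0x207661bf02) (nat_lit 0x3221a9c15000400000600) (nat_lit 50)))
 (.p (nat_lit 0x41f63db102) (nat_lit 0x40512) (nat_lit 4)))
 (.n (.p (nat_lit 0x24681bab02) (nat_lit 0xb03) (nat_lit 4))
 (.p (nat_lit 0x364a3a1902) (nat_lit 0x4012d) (nat_lit 5))))
 (.n (.n (.p (nat_lit 0x213821362134213221301e9706) (nat_lit 0x1000008ea00) (nat_lit 51))
 (.p (nat_lit 0xd4c0d4a0d480d440d423be706) (nat_lit 0x20000c2b1f) (nat_lit 51)))
 (.n (.p (nat_lit 0x248a24882486248224800e0506) (nat_lit 0x2000096307) (nat_lit 52))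
 (.p (nat_lit 0x5cdf1ae302) (nat_lit 0xe0020000800) (nat_lit 40)))))
 (.n (.n (.n (.p (nat_lit 0x12e612e212de12dc10cb10c706) (nat_lit 0xa000006500) (nat_lit 51))
 (.p (nat_lit 0xbf80bf40bf20bf00bee423506) (nat_lit 0x800000a619) (nat_lit 51)))
 (.n (.p (nat_lit 0x127c20e902) (nat_lit 0x40405) (nat_lit 5))
 (.p (nat_lit 0x5cd75db502) (nat_lit 0x160020000000) (nat_lit 36))))
 (.n (.n (.p (nat_lit 0xa1019b502) (nat_lit 0x440102) (nat_lit 4))
 (.p (nat_lit 0x1bb41bb21bae1bac1baa364506) (nat_lit 0x4000056126) (nat_lit 52)))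
 (.n (.p (nat_lit 0x4849475902) (nat_lit 0x54030c) (nat_lit 15))
 (.p (nat_lit 0x153a5fc902) (nat_lit 0x9582ec15800000000600) (nat_lit 49))))))
 (.n (.n (.n (.n (.p (nat_lit 0xc040c020c000bfc0bfa09d106) (nat_lit 0x20000ca200) (nat_lit 52))
 (.p (nat_lit 0x1657164b02) (nat_lit 0x308615) (nat_lit 16)))
 (.n (.p (nat_lit 0x16a2169e169c169a1698168906) (nat_lit 0x800008c604) (nat_lit 52))
 (.p (nat_lit 0xec00ea00e400e20005011906) (nat_lit 0x130e605) (nat_lit 26))))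
 (.n (.n (.p (nat_lit 0x10f4293d02) (nat_lit 0x100401) (nat_lit 29))
 (.p (nat_lit 0x1aea1ae81ae61ae21ae009e906) (nat_lit 0x2000050123) (nat_lit 51)))
 (.n (.p (nat_lit 0x2cd02cce2ccc2cca2cc82b4b06) (nat_lit 0x800054808) (nat_lit 51))
 (.p (nat_lit 0x5ebc4fb502) (nat_lit 0x80044b00) (nat_lit 47)))))
 (.n (.n (.n (.p (nat_lit 0x1a5a1a561a541a521a50179b06) (nat_lit 0x80000d6700) (nat_lit 52))
 (.p (nat_lit 0x73d14e902) (nat_lit 0x44051c) (nat_lit 15)))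
 (.n (.p (nat_lit 0x422113502) (nat_lit 0x300406) (nat_lit 1))
 (.p (nat_lit 0x5d690fe902) (nat_lit 0x140080000400) (nat_lit 40))))
 (.n (.n (.p (nat_lit 0x17541752174e174a25b925b506) (nat_lit 0x5000050b02) (nat_lit 51))
 (.p (nat_lit 0xcba142f02) (nat_lit 0x44022a) (nat_lit 4)))
 (.n (.p (nat_lit 0x35b435b035ae35ac1be51be106) (nat_lit 0x1400009680e) (nat_lit 51))
 (.p (nat_lit 0x64260cb02) (nat_lit 0x3505623a4000000040000) (nat_lit 50))))))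

def c512_152 : Tr := .n c1024_152 c1024_664

def c1024_408 : Tr :=
 .n (.n (.n (.n (.n (.n (.p (nat_lit 0x209020101f403) (nat_lit 0x8290000e) (nat_lit 19))
 (.p (nat_lit 0x64a618302) (nat_lit 0x421a86b15000000040000) (nat_lit 50)))
 (.p (nat_lit 0x53c253c053be53bc53ba53b8024407) (nat_lit 0x40411) (nat_lit 8)))
 (.n (.p (nat_lit 0x5e17ed02) (nat_lit 0x340603) (nat_lit 1))
 (.p (nat_lit 0x31b431b231b031ac2b752b7106) (nat_lit 0x28000c682b) (nat_lit 51))))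
 (.n (.n (.p (nat_lit 0x1f6c1f6a1f661f641d331d2d06) (nat_lit 0x12000046900) (nat_lit 52))
 (.p (nat_lit 0x33f2308502) (nat_lit 0x300b1e) (nat_lit 5)))
 (.n (.p (nat_lit 0x7c207c007be07bc07b80b3d06) (nat_lit 0x1000086207) (nat_lit 52))
 (.p (nat_lit 0x5d45181d02) (nat_lit 0x80060000700) (nat_lit 40)))))
 (.n (.n (.n (.p (nat_lit 0xf64114f02) (nat_lit 0x440400) (nat_lit 5))
 (.p (nat_lit 0x39f4370702) (nat_lit 0x500518) (nat_lit 5)))
 (.n (.p (nat_lit 0x453845364534453245300a2d06) (nat_lit 0x8000c6105) (nat_lit 51))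
 (.p (nat_lit 0x4245beb02) (nat_lit 0x400b23) (nat_lit 27))))
 (.n (.n (.p (nat_lit 0x230e178702) (nat_lit 0x40a01) (nat_lit 4))
 (.p (nat_lit 0x2876296f02) (nat_lit 0x240224) (nat_lit 5)))
 (.n (.p (nat_lit 0x1e721e6e1e6c1e6a1e683f9906) (nat_lit 0x800008e30b) (nat_lit 51))
 (.p (nat_lit 0x15345f8102) (nat_lit 0x581a22b44000000000600) (nat_lit 49))))))
 (.n (.n (.n (.n (.p (nat_lit 0xa570a4b02) (nat_lit 0x300200) (nat_lit 34))
 (.p (nat_lit 0x4cc04ca04c804c604c4138b06) (nat_lit 0x800000515) (nat_lit 52)))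
 (.n (.p (nat_lit 0x4091111902) (nat_lit 0x104404) (nat_lit 16))
 (.p (nat_lit 0x590058fe58fa58f858f60007006407) (nat_lit 0x316902) (nat_lit 25))))
 (.n (.n (.p (nat_lit 0x8a616d902) (nat_lit 0x300101) (nat_lit 5))
 (.p (nat_lit 0x74a07460742074003c603a903a50749074509) (nat_lit 0x2240023) (nat_lit 10)))
 (.n (.p (nat_lit 0x22d522c902) (nat_lit 0x144a07) (nat_lit 16))
 (.p (nat_lit 0x5d4f5ea502) (nat_lit 0x2e0080000a00) (nat_lit 36)))))
 (.n (.n (.n (.p (nat_lit 0x18d018ce18ca18c8162b162506) (nat_lit 0x12000014700) (nat_lit 52))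
 (.p (nat_lit 0x450b087d02) (nat_lit 0x1411c) (nat_lit 16)))
 (.n (.p (nat_lit 0x78c235b02) (nat_lit 0x240006) (nat_lit 4))
 (.p (nat_lit 0x5d2f5e0302) (nat_lit 0x1e0060000300) (nat_lit 37))))
 (.n (.n (.p (nat_lit 0xbae0bac0baa0ba80ba6232506) (nat_lit 0x100000c4a02) (nat_lit 52))
 (.p (nat_lit 0x52c052605240522089d089b06) (nat_lit 0xc00008812a) (nat_lit 51)))
 (.n (.p (nat_lit 0x1e752ed02) (nat_lit 0x4050e) (nat_lit 30))
 (.p (nat_lit 0x1814608102) (nat_lit 0x354221ca4000100000600) (nat_lit 49))))))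

def c1024_920 : Tr :=
 .n (.n (.n (.n (.n (.p (nat_lit 0x66e066c066a06680666064d06) (nat_lit 0x8000c4000) (nat_lit 51))
 (.p (nat_lit 0x4e264ba902) (nat_lit 0x40314) (nat_lit 4)))
 (.n (.p (nat_lit 0x21d621d421d221ce21cc25c306) (nat_lit 0x20000d4b03) (nat_lit 52))
 (.p (nat_lit 0x434425102) (nat_lit 0x62e) (nat_lit 1))))
 (.n (.n (.p (nat_lit 0x22e31ff702) (nat_lit 0x244a00) (nat_lit 16))
 (.p (nat_lit 0x471447124710470e470c438706) (nat_lit 0x800040b20) (nat_lit 51)))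
 (.n (.p (nat_lit 0x30f510d502) (nat_lit 0x30e407) (nat_lit 16))
 (.p (nat_lit 0x5d8b1adf02) (nat_lit 0x2200a0000800) (nat_lit 38)))))
 (.n (.n (.n (.p (nat_lit 0x14fb121f02) (nat_lit 0x14e500) (nat_lit 16))
 (.p (nat_lit 0xbc80bc60bc40bc00bbe4a3506) (nat_lit 0x200004071a) (nat_lit 52)))
 (.n (.p (nat_lit 0x23fa23f623f423f223f0180706) (nat_lit 0x80000d0605) (nat_lit 51))
 (.p (nat_lit 0x5dcc07a502) (nat_lit 0x40000100) (nat_lit 46))))
 (.n (.n (.p (nat_lit 0x1258310702) (nat_lit 0x40402) (nat_lit 29))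
 (.p (nat_lit 0x424c40c502) (nat_lit 0x400627) (nat_lit 5)))
 (.n (.p (nat_lit 0x6780676067406720670509706) (nat_lit 0x1000004680d) (nat_lit 51))
 (.p (nat_lit 0x8fa600102) (nat_lit 0x405aa2354800100040000) (nat_lit 50))))))
 (.n (.n (.n (.n (.p (nat_lit 0xdf50b2f02) (nat_lit 0x300) (nat_lit 15))
 (.p (nat_lit 0x201c548b02) (nat_lit 0x340915) (nat_lit 29)))
 (.n (.p (nat_lit 0x195619541952195000c600b700b5194f194d09) (nat_lit 0x800704) (nat_lit 10))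
 (.p (nat_lit 0x1a2019e019c0198014301b506) (nat_lit 0xc16a0a) (nat_lit 26))))
 (.n (.n (.p (nat_lit 0x18d218d018ce18cc18c81c1906) (nat_lit 0x1000014801) (nat_lit 52))
 (.p (nat_lit 0x4245165d02) (nat_lit 0x12623) (nat_lit 16)))
 (.n (.p (nat_lit 0x329a2d6502) (nat_lit 0x500909) (nat_lit 4))
 (.p (nat_lit 0xd1c5ef502) (nat_lit 0x281d30344000300000000) (nat_lit 50)))))
 (.n (.n (.n (.p (nat_lit 0x1c2f18f902) (nat_lit 0x16800) (nat_lit 16))
 (.p (nat_lit 0x55725570556e556c556a5568031207) (nat_lit 0x91c) (nat_lit 8)))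
 (.n (.p (nat_lit 0x16061602160015fe15fc1ad106) (nat_lit 0x80000d2706) (nat_lit 51))
 (.p (nat_lit 0x5d575e3302) (nat_lit 0x260080000500) (nat_lit 37))))
 (.n (.n (.p (nat_lit 0x36470a1d02) (nat_lit 0x448103) (nat_lit 16))
 (.p (nat_lit 0x43557d902) (nat_lit 0x62a) (nat_lit 30)))
 (.n (.p (nat_lit 0x1eb536902) (nat_lit 0x240b0e) (nat_lit 30))
 (.p (nat_lit 0x12a712990fe10fdd0d1d0d090a550a4b07a3079f04d704c361020d) (nat_lit 0x3425299b0000000000000) (nat_lit 33))))))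

def c512_408 : Tr := .n c1024_408 c1024_920

def c256_152 : Tr := .n c512_152 c512_408

def c128_24 : Tr := .n c256_24 c256_152

def c1024_88 : Tr :=
 .n (.n (.n (.n (.n (.n (.p (nat_lit 0x6200600058006504) (nat_lit 0x18800400002) (nat_lit 17))
 (.p (nat_lit 0x1542613502) (nat_lit 0x342a21d84000000000600) (nat_lit 50)))
 (.p (nat_lit 0x2bee272302) (nat_lit 0x34090f) (nat_lit 4)))
 (.n (.p (nat_lit 0x110a387702) (nat_lit 0x403) (nat_lit 29))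
 (.p (nat_lit 0x1d76147f02) (nat_lit 0x34082a) (nat_lit 4))))
 (.n (.n (.p (nat_lit 0x1d3d1a6502) (nat_lit 0x440800) (nat_lit 16))
 (.p (nat_lit 0x243a559b02) (nat_lit 0x100b1c) (nat_lit 29)))
 (.n (.p (nat_lit 0xd1c0d1a0d160d140d121d9b06) (nat_lit 0x4000046806) (nat_lit 51))
 (.p (nat_lit 0x5d1516a902) (nat_lit 0x80040000600) (nat_lit 41)))))
 (.n (.n (.n (.p (nat_lit 0xf340f320f300f2e0c990c8f06) (nat_lit 0x10800054300) (nat_lit 51))
 (.p (nat_lit 0x342a7902) (nat_lit 0x500516) (nat_lit 1)))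
 (.n (.p (nat_lit 0x247e247a24782476247400bd247d07) (nat_lit 0x400b04) (nat_lit 7))
 (.p (nat_lit 0x25802560252024e026301e906) (nat_lit 0x1916612) (nat_lit 26))))
 (.n (.n (.p (nat_lit 0xa580a560a540a521eeb1ee106) (nat_lit 0x10800004901) (nat_lit 51))
 (.p (nat_lit 0x50bf1d6702) (nat_lit 0x156823) (nat_lit 16)))
 (.n (.p (nat_lit 0x1a1522902) (nat_lit 0x40030a) (nat_lit 30))
 (.p (nat_lit 0x1da65f3102) (nat_lit 0x3aa560b44000300000600) (nat_lit 49))))))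
 (.n (.n (.n (.n (.p (nat_lit 0x7b607b207b007ae05c505bd06) (nat_lit 0x8800006100) (nat_lit 52))
 (.p (nat_lit 0x91409120910090e090c05d306) (nat_lit 0x10000086015) (nat_lit 51)))
 (.n (.p (nat_lit 0xa223d7f02) (nat_lit 0x140104) (nat_lit 29))
 (.p (nat_lit 0x46fa46f846f646f446f204b546fd07) (nat_lit 0x50032f) (nat_lit 7))))
 (.n (.n (.p (nat_lit 0x245f215702) (nat_lit 0x10eb00) (nat_lit 16))
 (.p (nat_lit 0x4b274b1d02) (nat_lit 0x10a022) (nat_lit 16)))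
 (.n (.p (nat_lit 0x190e054f02) (nat_lit 0x500707) (nat_lit 4))
 (.p (nat_lit 0x5d315e8d02) (nat_lit 0x1c0060000900) (nat_lit 37)))))
 (.n (.n (.n (.p (nat_lit 0x1691155102) (nat_lit 0x214600) (nat_lit 16))
 (.p (nat_lit 0x12aa12a812a612a212a005d906) (nat_lit 0x200000a01c) (nat_lit 51)))
 (.n (.p (nat_lit 0xe800e7e0e7c0e7a0e781ac706) (nat_lit 0x100000c6705) (nat_lit 51))
 (.p (nat_lit 0x5ce50bb502) (nat_lit 0x80020000200) (nat_lit 41))))
 (.n (.n (.p (nat_lit 0x1b8c1b8a1b881b861ef71ef506) (nat_lit 0x1800008c902) (nat_lit 51))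
 (.p (nat_lit 0x4720471e471a47184716468706) (nat_lit 0x40000c0228) (nat_lit 52)))
 (.n (.p (nat_lit 0x10e207cd02) (nat_lit 0x40040e) (nat_lit 4))
 (.p (nat_lit 0x114a603102) (nat_lit 0x4099a2335000400040000) (nat_lit 50))))))

def c1024_600 : Tr :=
 .n (.n (.n (.n (.n (.n (.p (nat_lit 0x3aa03a403af03) (nat_lit 0x12000500023) (nat_lit 17))
 (.p (nat_lit 0x207261af02) (nat_lit 0x522266c0d000400000600) (nat_lit 49)))
 (.p (nat_lit 0x1e7c1e7a1e781e761e74408d06) (nat_lit 0x10000016412) (nat_lit 52)))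
 (.n (.p (nat_lit 0x23283b2702) (nat_lit 0x140a03) (nat_lit 29))
 (.p (nat_lit 0x336831d502) (nat_lit 0x500a2c) (nat_lit 5))))
 (.n (.n (.p (nat_lit 0x20b820b620b420b220b01e9706) (nat_lit 0x10000004a00) (nat_lit 51))
 (.p (nat_lit 0x3b90384502) (nat_lit 0x100b1f) (nat_lit 5)))
 (.n (.p (nat_lit 0xa5a0a580a560a540a500e0306) (nat_lit 0x1000004307) (nat_lit 51))
 (.p (nat_lit 0x5cbd1ad502) (nat_lit 0x800) (nat_lit 38)))))
 (.n (.n (.n (.p (nat_lit 0x43e10cd02) (nat_lit 0x500500) (nat_lit 1))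
 (.p (nat_lit 0x1e8a1e881e841e821e80419906) (nat_lit 0x4000096519) (nat_lit 52)))
 (.n (.p (nat_lit 0xfc60fc40fbe0fbc010600e900e70fc30fc109) (nat_lit 0x1a40305) (nat_lit 10))
 (.p (nat_lit 0x5cb9064102) (nat_lit 0x40000000000) (nat_lit 41))))
 (.n (.n (.p (nat_lit 0x2d9a2d982d962d940761075d06) (nat_lit 0xa0000d6002) (nat_lit 52))
 (.p (nat_lit 0x355a390902) (nat_lit 0x340026) (nat_lit 5)))
 (.n (.p (nat_lit 0x4674443102) (nat_lit 0x4020c) (nat_lit 5))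
 (.p (nat_lit 0x248d248921e321d31f111f071c4f1c451983197116a7169d5fb60d) (nat_lit 0x95832b05000000040600) (nat_lit 33))))))
 (.n (.n (.n (.n (.p (nat_lit 0xbc80bc60bc40bc20bc00bbe06) (nat_lit 0x40200) (nat_lit 52))
 (.p (nat_lit 0x21d621d421d221ce21cc14d906) (nat_lit 0x20000d4515) (nat_lit 52)))
 (.n (.p (nat_lit 0x16881fb302) (nat_lit 0x400604) (nat_lit 5))
 (.p (nat_lit 0x59925990598c598a5988026300ee07) (nat_lit 0x304005) (nat_lit 25))))
 (.n (.n (.p (nat_lit 0xe2c289302) (nat_lit 0x400301) (nat_lit 29))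
 (.p (nat_lit 0x9ee09ea09e809e609e403a909ed07) (nat_lit 0x440123) (nat_lit 7)))
 (.n (.p (nat_lit 0x298c261102) (nat_lit 0x100408) (nat_lit 5))
 (.p (nat_lit 0x5eba248702) (nat_lit 0x60040b00) (nat_lit 45)))))
 (.n (.n (.n (.p (nat_lit 0x1a1e1a1a1a181a16179b179306) (nat_lit 0x8800052700) (nat_lit 51))
 (.p (nat_lit 0x14e6552702) (nat_lit 0x34051c) (nat_lit 29)))
 (.n (.p (nat_lit 0x4d704d6e4d6c4d6a4d684d6606) (nat_lit 0x306) (nat_lit 52))
 (.p (nat_lit 0x5cf5114b02) (nat_lit 0x280040000400) (nat_lit 41))))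
 (.n (.n (.p (nat_lit 0x33d5246702) (nat_lit 0x500b02) (nat_lit 16))
 (.p (nat_lit 0x1820181e181c18180b570b5306) (nat_lit 0x280000e22a) (nat_lit 51)))
 (.n (.p (nat_lit 0x1a7c081102) (nat_lit 0x44070e) (nat_lit 4))
 (.p (nat_lit 0xe8260ad02) (nat_lit 0x342521ca4000300040000) (nat_lit 50))))))

def c512_88 : Tr := .n c1024_88 c1024_600

def c1024_344 : Tr :=
 .n (.n (.n (.n (.n (.n (.p (nat_lit 0x1590155014e03) (nat_lit 0x2b00007) (nat_lit 19))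
 (.p (nat_lit 0x638617302) (nat_lit 0x421aa6315000000040000) (nat_lit 49)))
 (.p (nat_lit 0x3866356d02) (nat_lit 0x140311) (nat_lit 4)))
 (.n (.p (nat_lit 0x187c187a18781874167f167706) (nat_lit 0x11000086603) (nat_lit 52))
 (.p (nat_lit 0x2e288302) (nat_lit 0x24022b) (nat_lit 1))))
 (.n (.n (.p (nat_lit 0x1f011bcb02) (nat_lit 0x416900) (nat_lit 16))
 (.p (nat_lit 0x33462fe902) (nat_lit 0xa1e) (nat_lit 4)))
 (.n (.p (nat_lit 0x22a0229e229a22982296206506) (nat_lit 0x40000ce906) (nat_lit 52))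
 (.p (nat_lit 0x5cbf181902) (nat_lit 0x2e0020000700) (nat_lit 40)))))
 (.n (.n (.n (.p (nat_lit 0x10dd0df702) (nat_lit 0x102400) (nat_lit 16))
 (.p (nat_lit 0x34b836e102) (nat_lit 0x300018) (nat_lit 4)))
 (.n (.p (nat_lit 0x447a4478447644744470077f06) (nat_lit 0x100004e005) (nat_lit 51))
 (.p (nat_lit 0x4245bcb02) (nat_lit 0x400522) (nat_lit 27))))
 (.n (.n (.p (nat_lit 0x21ac177f02) (nat_lit 0x200a01) (nat_lit 4))
 (.p (nat_lit 0x2736295502) (nat_lit 0x100124) (nat_lit 4)))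
 (.n (.p (nat_lit 0x3ac93bc902) (nat_lit 0x540b0a) (nat_lit 15))
 (.p (nat_lit 0x233c5f7102) (nat_lit 0x3aa074c44000500000600) (nat_lit 49))))))
 (.n (.n (.n (.n (.p (nat_lit 0x9f7072302) (nat_lit 0x34a100) (nat_lit 16))
 (.p (nat_lit 0xd340d320d2e0d2c0d2a124706) (nat_lit 0x40000c0415) (nat_lit 51)))
 (.n (.p (nat_lit 0x3fdc3fd83fd63fd43fd20fb906) (nat_lit 0x80000c2304) (nat_lit 52))
 (.p (nat_lit 0x5958d702) (nat_lit 0x2) (nat_lit 28))))
 (.n (.n (.p (nat_lit 0x63305f702) (nat_lit 0x514001) (nat_lit 16))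
 (.p (nat_lit 0x143a143814361434143205eb06) (nat_lit 0x10000006023) (nat_lit 52)))
 (.n (.p (nat_lit 0x216a21682166216221600145216507) (nat_lit 0x200a07) (nat_lit 7))
 (.p (nat_lit 0x5d3b21d302) (nat_lit 0x120060000a00) (nat_lit 39)))))
 (.n (.n (.n (.p (nat_lit 0x185a1858185618501625162306) (nat_lit 0x3000004700) (nat_lit 52))
 (.p (nat_lit 0x314032503210d410ea705) (nat_lit 0x6450011c) (nat_lit 9)))
 (.n (.p (nat_lit 0x1fe41fe21fe01fde1fda1d8b06) (nat_lit 0x1000056805) (nat_lit 51))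
 (.p (nat_lit 0x5df8124302) (nat_lit 0x20042300) (nat_lit 48))))
 (.n (.n (.p (nat_lit 0x335121bf02) (nat_lit 0x506a02) (nat_lit 16))
 (.p (nat_lit 0x89612af02) (nat_lit 0x10012a) (nat_lit 4)))
 (.n (.p (nat_lit 0x138007df02) (nat_lit 0x10050e) (nat_lit 5))
 (.p (nat_lit 0x4c2607302) (nat_lit 0x570aa2344000000000000) (nat_lit 49))))))

def c1024_856 : Tr :=
 .n (.n (.n (.n (.n (.n (.p (nat_lit 0x5ef04dd02) (nat_lit 0x10c000) (nat_lit 16))
 (.p (nat_lit 0x1ae861ed02) (nat_lit 0x382a31d05000200000600) (nat_lit 50)))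
 (.p (nat_lit 0x497e456702) (nat_lit 0x500613) (nat_lit 4)))
 (.n (.p (nat_lit 0x8fe08fc08fa08f808f425c106) (nat_lit 0x10000c2b03) (nat_lit 51))
 (.p (nat_lit 0x3e7e412d02) (nat_lit 0x22e) (nat_lit 4))))
 (.n (.n (.p (nat_lit 0x22882284228222801ffb1ff306) (nat_lit 0x88000cca00) (nat_lit 51))
 (.p (nat_lit 0x42d6561302) (nat_lit 0x100720) (nat_lit 29)))
 (.n (.p (nat_lit 0x10d2051b02) (nat_lit 0x200407) (nat_lit 5))
 (.p (nat_lit 0x5d5b1add02) (nat_lit 0x220080000800) (nat_lit 38)))))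
 (.n (.n (.n (.p (nat_lit 0x144614441440143e1227122106) (nat_lit 0x120000c6500) (nat_lit 52))
 (.p (nat_lit 0x213a2136213421322130495306) (nat_lit 0x80000ce51a) (nat_lit 51)))
 (.n (.p (nat_lit 0x24122410240c24081693168f06) (nat_lit 0x5000092605) (nat_lit 51))
 (.p (nat_lit 0x5cdf08f702) (nat_lit 0xe0020000100) (nat_lit 41))))
 (.n (.n (.p (nat_lit 0xfa0187d02) (nat_lit 0x440302) (nat_lit 4))
 (.p (nat_lit 0xb63df502) (nat_lit 0x140127) (nat_lit 1)))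
 (.n (.p (nat_lit 0x4fd44ae102) (nat_lit 0x20070d) (nat_lit 4))
 (.p (nat_lit 0x15385ff502) (nat_lit 0x306a81c35000000000600) (nat_lit 49))))))
 (.n (.n (.n (.n (.p (nat_lit 0xd580d560d520d500d4e0b3506) (nat_lit 0x400000a300) (nat_lit 52))
 (.p (nat_lit 0x28b547702) (nat_lit 0x540815) (nat_lit 30)))
 (.n (.p (nat_lit 0x1ab517f702) (nat_lit 0x240604) (nat_lit 15))
 (.p (nat_lit 0x18b5a3702) (nat_lit 0x300209) (nat_lit 28))))
 (.n (.n (.p (nat_lit 0x1c18174d02) (nat_lit 0x100801) (nat_lit 5))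
 (.p (nat_lit 0xeee0eec0eea0ee80ee60ca706) (nat_lit 0x80004e223) (nat_lit 52)))
 (.n (.p (nat_lit 0x1a1e1a1c1a1a1a181a14308d06) (nat_lit 0x1000052309) (nat_lit 51))
 (.p (nat_lit 0x1adc5ee902) (nat_lit 0x4a8866344000200000600) (nat_lit 49)))))
 (.n (.n (.n (.p (nat_lit 0x1bb21bb01bae1bac1baa190306) (nat_lit 0x10000016800) (nat_lit 52))
 (.p (nat_lit 0x1ebf1bf502) (nat_lit 0x10081c) (nat_lit 15)))
 (.n (.p (nat_lit 0x161c161a16181614196f196706) (nat_lit 0x11000094706) (nat_lit 51))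
 (.p (nat_lit 0x5d415e2d02) (nat_lit 0xc0060000500) (nat_lit 36))))
 (.n (.n (.p (nat_lit 0xa1e0a1c0a1a0a180a1600870a1507) (nat_lit 0x40103) (nat_lit 7))
 (.p (nat_lit 0xf82144102) (nat_lit 0x14032a) (nat_lit 4)))
 (.n (.p (nat_lit 0x4570456e456c456822d922d506) (nat_lit 0x500004ea0e) (nat_lit 51))
 (.p (nat_lit 0x181460f502) (nat_lit 0x440d623a4000100000600) (nat_lit 49))))))

def c512_344 : Tr := .n c1024_344 c1024_856

def c256_88 : Tr := .n c512_88 c512_344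

def c1024_216 : Tr :=
 .n (.n (.n (.n (.n (.n (.p (nat_lit 0xcf00c900c203) (nat_lit 0x40800004) (nat_lit 19))
 (.p (nat_lit 0x1ae4615302) (nat_lit 0x1503a8895800200000600) (nat_lit 50)))
 (.p (nat_lit 0x32762df302) (nat_lit 0x540510) (nat_lit 5)))
 (.n (.p (nat_lit 0x49213bf02) (nat_lit 0x200503) (nat_lit 1))
 (.p (nat_lit 0x48a248a0489e489c489a219d06) (nat_lit 0x80000ca2a) (nat_lit 52))))
 (.n (.n (.p (nat_lit 0x1e421e3e1e3c1e3a1bcb1bc306) (nat_lit 0x880008a900) (nat_lit 52))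
 (.p (nat_lit 0x2bb628b302) (nat_lit 0x50091d) (nat_lit 4)))
 (.n (.p (nat_lit 0xec1f0302) (nat_lit 0x500906) (nat_lit 1))
 (.p (nat_lit 0x5da5154b02) (nat_lit 0x800a0000600) (nat_lit 40)))))
 (.n (.n (.n (.p (nat_lit 0xff20ff00fee0fec0dff0dfd06) (nat_lit 0x18000000400) (nat_lit 52))
 (.p (nat_lit 0x1a4e1a4c1a4a1a481a4631ed06) (nat_lit 0x800016517) (nat_lit 52)))
 (.n (.p (nat_lit 0x227c22782276227425d325cb06) (nat_lit 0x880004cb04) (nat_lit 51))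
 (.p (nat_lit 0x3025b6d02) (nat_lit 0x40061a) (nat_lit 27))))
 (.n (.n (.p (nat_lit 0x2050204a20482046005200330031204f204d09) (nat_lit 0x2340901) (nat_lit 10))
 (.p (nat_lit 0x47be47bc47ba47b847b6230106) (nat_lit 0x1000004ea23) (nat_lit 51)))
 (.n (.p (nat_lit 0x3a92351702) (nat_lit 0x40060a) (nat_lit 5))
 (.p (nat_lit 0x23405f5302) (nat_lit 0x1a9d22350000500000600) (nat_lit 50))))))
 (.n (.n (.n (.n (.p (nat_lit 0x1e8071f02) (nat_lit 0x140100) (nat_lit 1))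
 (.p (nat_lit 0x28e029d02a70bdb0a7905) (nat_lit 0x66a00415) (nat_lit 9)))
 (.n (.p (nat_lit 0xb93e8f02) (nat_lit 0x240204) (nat_lit 30))
 (.p (nat_lit 0x507e507a50785076507404bf507d07) (nat_lit 0x400830) (nat_lit 7))))
 (.n (.n (.p (nat_lit 0x254e254a2548254622c522c106) (nat_lit 0x140000d0b00) (nat_lit 52))
 (.p (nat_lit 0x50664da702) (nat_lit 0x500822) (nat_lit 5)))
 (.n (.p (nat_lit 0x1bdb1bcf02) (nat_lit 0x4807) (nat_lit 16))
 (.p (nat_lit 0x5c9d5e9702) (nat_lit 0x200000000a00) (nat_lit 37)))))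
 (.n (.n (.n (.p (nat_lit 0x1778177617741770176e16b506) (nat_lit 0x20000d2600) (nat_lit 52))
 (.p (nat_lit 0xe760e740e700e6e0e6c073b06) (nat_lit 0x40000c601c) (nat_lit 52)))
 (.n (.p (nat_lit 0x1c281c261c241c22011000ed00eb1c2d1c2b09) (nat_lit 0x2c00805) (nat_lit 10))
 (.p (nat_lit 0x5d650bbb02) (nat_lit 0x180080000200) (nat_lit 41))))
 (.n (.n (.p (nat_lit 0x21b418c902) (nat_lit 0xa02) (nat_lit 4))
 (.p (nat_lit 0x23fa23f823f623f423f04c8906) (nat_lit 0x10000d0129) (nat_lit 51)))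
 (.n (.p (nat_lit 0x123e123c123a1236123401eb123907) (nat_lit 0x24040e) (nat_lit 7))
 (.p (nat_lit 0x180c605302) (nat_lit 0x40a962335000100000600) (nat_lit 49))))))

def c1024_728 : Tr :=
 .n (.n (.n (.n (.n (.n (.p (nat_lit 0x4f004ee04ec04ea04dd04db06) (nat_lit 0x1800004000) (nat_lit 52))
 (.p (nat_lit 0x13fc61cf02) (nat_lit 0x3561684a0800500040000) (nat_lit 50)))
 (.p (nat_lit 0x42723dd102) (nat_lit 0x540612) (nat_lit 4)))
 (.n (.p (nat_lit 0x12aa12a812a612a412a0246b06) (nat_lit 0x100000ab03) (nat_lit 51))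
 (.p (nat_lit 0x375e3a3302) (nat_lit 0x24022d) (nat_lit 4))))
 (.n (.n (.p (nat_lit 0x21951e9102) (nat_lit 0x208a00) (nat_lit 16))
 (.p (nat_lit 0x3df13d0b02) (nat_lit 0x540020) (nat_lit 15)))
 (.n (.p (nat_lit 0x8f208ee08ec08ea08e80f7106) (nat_lit 0x80000c2307) (nat_lit 52))
 (.p (nat_lit 0x5d115e7102) (nat_lit 0xc0040000800) (nat_lit 37)))))
 (.n (.n (.n (.p (nat_lit 0x139510cd02) (nat_lit 0x504500) (nat_lit 16))
 (.p (nat_lit 0x42d542c902) (nat_lit 0x8719) (nat_lit 16)))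
 (.n (.p (nat_lit 0x48ae48ac48a848a648a413d906) (nat_lit 0x400000e505) (nat_lit 52))
 (.p (nat_lit 0x5d415dbd02) (nat_lit 0xc0060000000) (nat_lit 36))))
 (.n (.n (.p (nat_lit 0xcca2f4702) (nat_lit 0x40202) (nat_lit 29))
 (.p (nat_lit 0x3b18394d02) (nat_lit 0x500a26) (nat_lit 5)))
 (.n (.p (nat_lit 0x68606820680067e067c49d106) (nat_lit 0x800008670c) (nat_lit 52))
 (.p (nat_lit 0x1ade5fd302) (nat_lit 0x95a32b05000200000600) (nat_lit 49))))))
 (.n (.n (.n (.n (.p (nat_lit 0xcc509d302) (nat_lit 0x34c200) (nat_lit 16))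
 (.p (nat_lit 0x19260c2702) (nat_lit 0x500715) (nat_lit 4)))
 (.n (.p (nat_lit 0x168f168302) (nat_lit 0x116604) (nat_lit 16))
 (.p (nat_lit 0x42259d502) (nat_lit 0x300406) (nat_lit 27))))
 (.n (.n (.p (nat_lit 0x29bc29ba29b829b629b2124f06) (nat_lit 0x1000042401) (nat_lit 51))
 (.p (nat_lit 0xb4a56b102) (nat_lit 0x200223) (nat_lit 29)))
 (.n (.p (nat_lit 0x2beb2bdf02) (nat_lit 0x144908) (nat_lit 16))
 (.p (nat_lit 0x2495248b21d921d31f151f071c511c431983197516a716995ecc0d) (nat_lit 0x4a1a36344000000040600) (nat_lit 33)))))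
 (.n (.n (.n (.p (nat_lit 0x18f81ad502) (nat_lit 0x800) (nat_lit 4))
 (.p (nat_lit 0x19280d7f02) (nat_lit 0x71c) (nat_lit 5)))
 (.n (.p (nat_lit 0x4ec44ec04ebe4ebc4eba129106) (nat_lit 0x80000c0406) (nat_lit 51))
 (.p (nat_lit 0x5d895e2102) (nat_lit 0x2400a0000400) (nat_lit 37))))
 (.n (.n (.p (nat_lit 0x34b034ac34aa34a834a6060d06) (nat_lit 0x8000096003) (nat_lit 51))
 (.p (nat_lit 0x1aea1ae81ae61ae41ae20cb306) (nat_lit 0x80005022a) (nat_lit 51)))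
 (.n (.p (nat_lit 0x1ea4098502) (nat_lit 0x90e) (nat_lit 5))
 (.p (nat_lit 0xe7260d502) (nat_lit 0x354a621b0000300040000) (nat_lit 49))))))

def c512_216 : Tr := .n c1024_216 c1024_728

def c1024_472 : Tr :=
 .n (.n (.n (.n (.n (.n (.p (nat_lit 0x2ad02a5029f029004) (nat_lit 0x95100015) (nat_lit 20))
 (.p (nat_lit 0x1ada618f02) (nat_lit 0x3422a5c14800200000600) (nat_lit 49)))
 (.p (nat_lit 0x3a9e360d02) (nat_lit 0x400611) (nat_lit 4)))
 (.n (.p (nat_lit 0x1a421a401a3e1a3c1a3a17e706) (nat_lit 0x8000d4603) (nat_lit 52))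
 (.p (nat_lit 0x2ecc320d02) (nat_lit 0x54012c) (nat_lit 5))))
 (.n (.n (.p (nat_lit 0x1fd81fd61fd41fd21fd01fce06) (nat_lit 0xce900) (nat_lit 52))
 (.p (nat_lit 0x1bb41bb21bb01bae1baa354b06) (nat_lit 0x100005601f) (nat_lit 52)))
 (.n (.p (nat_lit 0x14e015f0155066504f305) (nat_lit 0x85840207) (nat_lit 9))
 (.p (nat_lit 0x5d7b181f02) (nat_lit 0x20080000700) (nat_lit 40)))))
 (.n (.n (.n (.p (nat_lit 0x1198119611941192118e0f5f06) (nat_lit 0x10000c4400) (nat_lit 52))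
 (.p (nat_lit 0x3afc369902) (nat_lit 0x100a18) (nat_lit 4)))
 (.n (.p (nat_lit 0xcee20bd02) (nat_lit 0x40205) (nat_lit 5))
 (.p (nat_lit 0x43e043c043a04340003014506) (nat_lit 0xa0412a) (nat_lit 26))))
 (.n (.n (.p (nat_lit 0x2550254e254c254a2546231106) (nat_lit 0x10000d0a01) (nat_lit 52))
 (.p (nat_lit 0x2c78298102) (nat_lit 0x140a24) (nat_lit 4)))
 (.n (.p (nat_lit 0x421e3cc902) (nat_lit 0x50060b) (nat_lit 5))
 (.p (nat_lit 0x15425f9102) (nat_lit 0x581a303a5000000000600) (nat_lit 50))))))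
 (.n (.n (.n (.n (.p (nat_lit 0xa960a920a900a8e0879087106) (nat_lit 0x880000a200) (nat_lit 52))
 (.p (nat_lit 0x1db61db41db21db01dae138b06) (nat_lit 0x800012515) (nat_lit 51)))
 (.n (.p (nat_lit 0x1285127902) (nat_lit 0x456404) (nat_lit 16))
 (.p (nat_lit 0x8f592f02) (nat_lit 0x400303) (nat_lit 28))))
 (.n (.n (.p (nat_lit 0x27a827a627a427a227a00a0506) (nat_lit 0x8000054101) (nat_lit 52))
 (.p (nat_lit 0x890088e088c088a088803ab089307) (nat_lit 0x500123) (nat_lit 7)))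
 (.n (.p (nat_lit 0x1da256d02) (nat_lit 0x140b07) (nat_lit 1))
 (.p (nat_lit 0x5eae21a902) (nat_lit 0xeb00) (nat_lit 48)))))
 (.n (.n (.n (.p (nat_lit 0x192d162502) (nat_lit 0x206700) (nat_lit 16))
 (.p (nat_lit 0xc020c000bfe0bfc0bfa09e306) (nat_lit 0x100000ca11c) (nat_lit 52)))
 (.n (.p (nat_lit 0x4bc84bc44bc24bbe08e508df06) (nat_lit 0x9000088106) (nat_lit 51))
 (.p (nat_lit 0x5e060caf02) (nat_lit 0x8004a300) (nat_lit 47))))
 (.n (.n (.p (nat_lit 0x207420722070206e206a231d06) (nat_lit 0x1000054a02) (nat_lit 52))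
 (.p (nat_lit 0x9fa09f809f409f00452043b043709f709f309) (nat_lit 0x194012a) (nat_lit 10)))
 (.n (.p (nat_lit 0x572056c056a056814d114cf06) (nat_lit 0xc0000d050e) (nat_lit 52))
 (.p (nat_lit 0x181e609102) (nat_lit 0x342221ca4000100000600) (nat_lit 50))))))

def c1024_984 : Tr :=
 .n (.n (.n (.n (.n (.p (nat_lit 0x6c606c406c006be0657065106) (nat_lit 0x12000050000) (nat_lit 51))
 (.p (nat_lit 0x255c255a2556255425524f2706) (nat_lit 0x4000052414) (nat_lit 52)))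
 (.n (.p (nat_lit 0x61a06160612061000d800bd00b90619061509) (nat_lit 0x2200004) (nat_lit 10))
 (.p (nat_lit 0x4322416902) (nat_lit 0x4072e) (nat_lit 4))))
 (.n (.n (.p (nat_lit 0x23542350234e234c234a215d06) (nat_lit 0x8000000b00) (nat_lit 52))
 (.p (nat_lit 0x2f4450d02) (nat_lit 0x100121) (nat_lit 1)))
 (.n (.p (nat_lit 0x140c1406140414021231122f06) (nat_lit 0xc000042407) (nat_lit 51))
 (.p (nat_lit 0x5e7e232702) (nat_lit 0x4e900) (nat_lit 48)))))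
 (.n (.n (.n (.p (nat_lit 0x1590158e158c15861551154f06) (nat_lit 0x3000084600) (nat_lit 52))
 (.p (nat_lit 0x4fb04cbf02) (nat_lit 0x24051b) (nat_lit 5)))
 (.n (.p (nat_lit 0xe740e720e700e6e0e6c196306) (nat_lit 0x10000086705) (nat_lit 52))
 (.p (nat_lit 0x5dd03bd102) (nat_lit 0x60050100) (nat_lit 47))))
 (.n (.n (.p (nat_lit 0x63318902) (nat_lit 0x500502) (nat_lit 30))
 (.p (nat_lit 0x38d038cc38ca38c838c6431f06) (nat_lit 0x80000d6727) (nat_lit 52)))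
 (.n (.p (nat_lit 0xe1607b702) (nat_lit 0x50030e) (nat_lit 4))
 (.p (nat_lit 0xe76601302) (nat_lit 0x405aa2335000300040000) (nat_lit 49))))))
 (.n (.n (.n (.n (.p (nat_lit 0xc900e6f02) (nat_lit 0x140300) (nat_lit 4))
 (.p (nat_lit 0x466646644660465c217f217b06) (nat_lit 0x500000ea15) (nat_lit 52)))
 (.n (.p (nat_lit 0x42d7194f02) (nat_lit 0x106704) (nat_lit 16))
 (.p (nat_lit 0x1f001ee01e801e60253000706) (nat_lit 0x131240e) (nat_lit 26))))
 (.n (.n (.p (nat_lit 0x38004f0041175d15eb05) (nat_lit 0x88340801) (nat_lit 9))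
 (.p (nat_lit 0x1a9e11bd02) (nat_lit 0x340723) (nat_lit 4)))
 (.n (.p (nat_lit 0x146337d02) (nat_lit 0x340a09) (nat_lit 1))
 (.p (nat_lit 0x15425f1302) (nat_lit 0x3aa570344000000000600) (nat_lit 50)))))
 (.n (.n (.n (.p (nat_lit 0x1c801c7e1c7a1c781a631a5d06) (nat_lit 0x48000c2800) (nat_lit 52))
 (.p (nat_lit 0x311557f02) (nat_lit 0x54091c) (nat_lit 30)))
 (.n (.p (nat_lit 0xbbc0bba0bb80bb60bb41c2f06) (nat_lit 0x800084806) (nat_lit 51))
 (.p (nat_lit 0x5cb75e3902) (nat_lit 0x60000000600) (nat_lit 37))))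
 (.n (.n (.p (nat_lit 0x37123710370e370c370a370806) (nat_lit 0xca203) (nat_lit 52))
 (.p (nat_lit 0x43f57ef02) (nat_lit 0x54062a) (nat_lit 30)))
 (.n (.p (nat_lit 0x2a10276702) (nat_lit 0x44040f) (nat_lit 4))
 (.p (nat_lit 0x1142611702) (nat_lit 0x3562621b0000400040000) (nat_lit 49))))))

def c512_472 : Tr := .n c1024_472 c1024_984

def c256_216 : Tr := .n c512_216 c512_472

def c128_88 : Tr := .n c256_88 c256_216

def c64_24 : Tr := .n c128_24 c128_88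

def c1024_56 : Tr :=
 .n (.n (.n (.n (.n (.n (.p (nat_lit 0x450041003f003a04) (nat_lit 0x15a00001) (nat_lit 20))
 (.p (nat_lit 0xbb6612f02) (nat_lit 0x35486a1b0000200040000) (nat_lit 50)))
 (.p (nat_lit 0x2b9e2b9c2b982b962b9402112b9b07) (nat_lit 0x30090f) (nat_lit 7)))
 (.n (.p (nat_lit 0xfae0faa0fa80fa6009e008f00870fad0fa509) (nat_lit 0x2040303) (nat_lit 10))
 (.p (nat_lit 0x1c0e132702) (nat_lit 0x20082a) (nat_lit 5))))
 (.n (.n (.p (nat_lit 0x1d1a1d181d161d101a611a5f06) (nat_lit 0x3000056800) (nat_lit 51))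
 (.p (nat_lit 0x22f222f022ee22ec22ea031122f507) (nat_lit 0x540a1c) (nat_lit 7)))
 (.n (.p (nat_lit 0x1d9c23f902) (nat_lit 0x440806) (nat_lit 5))
 (.p (nat_lit 0x5cc9154302) (nat_lit 0x240020000600) (nat_lit 40)))))
 (.n (.n (.n (.p (nat_lit 0xee20ee00ede0ed80c930c9106) (nat_lit 0x30000cc300) (nat_lit 52))
 (.p (nat_lit 0x28954b102) (nat_lit 0x440b15) (nat_lit 30)))
 (.n (.p (nat_lit 0x1ac51ab902) (nat_lit 0x456704) (nat_lit 16))
 (.p (nat_lit 0x5ad05ace5acc5aca5ac80173022e07) (nat_lit 0x216510) (nat_lit 25))))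
 (.n (.n (.p (nat_lit 0x1eea1ee81ee41ee21ee000311ee707) (nat_lit 0x300901) (nat_lit 7))
 (.p (nat_lit 0x3a756fb02) (nat_lit 0x340823) (nat_lit 30)))
 (.n (.p (nat_lit 0x374c345502) (nat_lit 0x54020a) (nat_lit 4))
 (.p (nat_lit 0x8fa5f2302) (nat_lit 0x3a2560b44000100040000) (nat_lit 50))))))
 (.n (.n (.n (.n (.p (nat_lit 0x5c0079902) (nat_lit 0x200100) (nat_lit 4))
 (.p (nat_lit 0x1e805cb02) (nat_lit 0x100015) (nat_lit 1)))
 (.n (.p (nat_lit 0x8cc1f3d02) (nat_lit 0x400104) (nat_lit 4))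
 (.p (nat_lit 0x4692488902) (nat_lit 0x34022f) (nat_lit 5))))
 (.n (.n (.p (nat_lit 0x2415215502) (nat_lit 0xb00) (nat_lit 16))
 (.p (nat_lit 0xd280d260d240d220d1e4a3f06) (nat_lit 0x1000040721) (nat_lit 52)))
 (.n (.p (nat_lit 0x26342632262e262c262a17a506) (nat_lit 0x4000052607) (nat_lit 51))
 (.p (nat_lit 0x5cef1f0902) (nat_lit 0x2e0040000900) (nat_lit 39)))))
 (.n (.n (.n (.p (nat_lit 0x164d155502) (nat_lit 0x404600) (nat_lit 16))
 (.p (nat_lit 0x5dc05d805d605d403320311030d05df05db09) (nat_lit 0x2b0001c) (nat_lit 10)))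
 (.n (.p (nat_lit 0xed4a1902) (nat_lit 0x540705) (nat_lit 30))
 (.p (nat_lit 0x5c970a4502) (nat_lit 0x260000000200) (nat_lit 38))))
 (.n (.n (.p (nat_lit 0x901ef702) (nat_lit 0x500902) (nat_lit 1))
 (.p (nat_lit 0x21222120211e211a2118458b06) (nat_lit 0x20000cc128) (nat_lit 52)))
 (.n (.p (nat_lit 0xbf80bf40bf20bf00bee0f7d06) (nat_lit 0x800004a30e) (nat_lit 51))
 (.p (nat_lit 0x154a602d02) (nat_lit 0x406a62335000000000600) (nat_lit 50))))))

def c1024_568 : Tr :=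
 .n (.n (.n (.n (.n (.n (.p (nat_lit 0x3810379037003) (nat_lit 0x81900020) (nat_lit 19))
 (.p (nat_lit 0x16a661a902) (nat_lit 0x340b8ac64000000040600) (nat_lit 50)))
 (.p (nat_lit 0x3e2a3e283e263e223e203f9f06) (nat_lit 0x200000a312) (nat_lit 52)))
 (.n (.p (nat_lit 0x1e721e6e1e6c1e6a1e6821c906) (nat_lit 0x800008ea03) (nat_lit 51))
 (.p (nat_lit 0x330c324702) (nat_lit 0x14092c) (nat_lit 4))))
 (.n (.n (.p (nat_lit 0x2079206d02) (nat_lit 0x100a00) (nat_lit 34))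
 (.p (nat_lit 0x3b3a37b102) (nat_lit 0x40a1f) (nat_lit 4)))
 (.n (.p (nat_lit 0xe04514d02) (nat_lit 0x200307) (nat_lit 29))
 (.p (nat_lit 0x5d935e6502) (nat_lit 0x1a00a0000700) (nat_lit 36)))))
 (.n (.n (.n (.p (nat_lit 0x128f0f6302) (nat_lit 0x356400) (nat_lit 16))
 (.p (nat_lit 0x41123ebb02) (nat_lit 0x440419) (nat_lit 5)))
 (.n (.p (nat_lit 0xe690e5d02) (nat_lit 0x40c305) (nat_lit 16))
 (.p (nat_lit 0x498049604940490047f03ed06) (nat_lit 0x100c32d) (nat_lit 26))))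
 (.n (.n (.p (nat_lit 0x7620760075e075a006c005d0059075d075909) (nat_lit 0x1040002) (nat_lit 10))
 (.p (nat_lit 0x33a630d902) (nat_lit 0x40a25) (nat_lit 4)))
 (.n (.p (nat_lit 0x43663ced02) (nat_lit 0x40b0b) (nat_lit 4))
 (.p (nat_lit 0x23485fa302) (nat_lit 0x589832b44000500000600) (nat_lit 50))))))
 (.n (.n (.n (.n (.p (nat_lit 0xb97087902) (nat_lit 0x414200) (nat_lit 16))
 (.p (nat_lit 0x129e129a12981296129414dd06) (nat_lit 0x800004a515) (nat_lit 52)))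
 (.n (.p (nat_lit 0x151a15161512151000d800bd00b91519151509) (nat_lit 0x2240504) (nat_lit 10))
 (.p (nat_lit 0xbe00bc00ba00b800e3000306) (nat_lit 0x116604) (nat_lit 26))))
 (.n (.n (.p (nat_lit 0xf950cc702) (nat_lit 0x440201) (nat_lit 15))
 (.p (nat_lit 0x2e3d089302) (nat_lit 0x50e123) (nat_lit 16)))
 (.n (.p (nat_lit 0x16f216f016ee16ec16ea28d506) (nat_lit 0x10000004308) (nat_lit 51))
 (.p (nat_lit 0x5d33233902) (nat_lit 0x1a0060000b00) (nat_lit 38)))))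
 (.n (.n (.n (.p (nat_lit 0x19d819d419d219d0179b179306) (nat_lit 0x8800046700) (nat_lit 51))
 (.p (nat_lit 0x5d7139902) (nat_lit 0x10051c) (nat_lit 15)))
 (.n (.p (nat_lit 0xd040d020d000cfc0cfa01170cff07) (nat_lit 0x240206) (nat_lit 7))
 (.p (nat_lit 0x5ccf0fe302) (nat_lit 0x1e0020000400) (nat_lit 40))))
 (.n (.n (.p (nat_lit 0x15b215b015ae15ac15aa246106) (nat_lit 0x2000008b02) (nat_lit 51))
 (.p (nat_lit 0xd100d0e0d0c0d080d060b5706) (nat_lit 0x200000622a) (nat_lit 52)))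
 (.n (.p (nat_lit 0x191a530f02) (nat_lit 0x50070e) (nat_lit 29))
 (.p (nat_lit 0x63460a702) (nat_lit 0x356068ca4000000040000) (nat_lit 49))))))

def c512_56 : Tr := .n c1024_56 c1024_568

def c1024_312 : Tr :=
 .n (.n (.n (.n (.n (.n (.p (nat_lit 0x13f013b012003) (nat_lit 0x82b00006) (nat_lit 19))
 (.p (nat_lit 0x8fa616b02) (nat_lit 0x421aa4395000100040000) (nat_lit 50)))
 (.p (nat_lit 0x22753a502) (nat_lit 0x200b10) (nat_lit 30)))
 (.n (.p (nat_lit 0x94009f00a91b7d1ce305) (nat_lit 0x82900603) (nat_lit 9))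
 (.p (nat_lit 0x28182a2902) (nat_lit 0x22b) (nat_lit 4))))
 (.n (.n (.p (nat_lit 0x1ebb1bcd02) (nat_lit 0x504900) (nat_lit 16))
 (.p (nat_lit 0x2e2e2fdb02) (nat_lit 0x40011e) (nat_lit 5)))
 (.n (.p (nat_lit 0x2066206420622060012a011d01132069205f09) (nat_lit 0x2840906) (nat_lit 10))
 (.p (nat_lit 0x5ced181902) (nat_lit 0x20000700) (nat_lit 40)))))
 (.n (.n (.n (.p (nat_lit 0x109c109a1096109410920dfb06) (nat_lit 0x4000014400) (nat_lit 52))
 (.p (nat_lit 0x33942f8702) (nat_lit 0x340a17) (nat_lit 5)))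
 (.n (.p (nat_lit 0x77c21f102) (nat_lit 0x40005) (nat_lit 5))
 (.p (nat_lit 0x36c036a03680362038900b706) (nat_lit 0x1116020) (nat_lit 26))))
 (.n (.n (.p (nat_lit 0x2bed204b02) (nat_lit 0x242901) (nat_lit 16))
 (.p (nat_lit 0x573a5738573657345732573003ae25a5259f259d0a) (nat_lit 0x15140b23) (nat_lit 31)))
 (.n (.p (nat_lit 0x3bc034a902) (nat_lit 0x140b0a) (nat_lit 5))
 (.p (nat_lit 0x180e5f6d02) (nat_lit 0x3aa074b44000100000600) (nat_lit 49))))))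
 (.n (.n (.n (.n (.p (nat_lit 0x980097e097c097a0727071d06) (nat_lit 0x108000d0100) (nat_lit 51))
 (.p (nat_lit 0x287541f02) (nat_lit 0x340415) (nat_lit 30)))
 (.n (.p (nat_lit 0x3f950e4d02) (nat_lit 0x200304) (nat_lit 16))
 (.p (nat_lit 0x5a58c102) (nat_lit 0x100801) (nat_lit 27))))
 (.n (.n (.p (nat_lit 0x5f025db02) (nat_lit 0x200001) (nat_lit 29))
 (.p (nat_lit 0x5ea115d02) (nat_lit 0x500023) (nat_lit 5)))
 (.n (.p (nat_lit 0x20082006200220001ffe0147200507) (nat_lit 0x340907) (nat_lit 7))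
 (.p (nat_lit 0x5d1b5e9d02) (nat_lit 0x20040000a00) (nat_lit 36)))))
 (.n (.n (.n (.p (nat_lit 0x5c162502) (nat_lit 0x200700) (nat_lit 1))
 (.p (nat_lit 0x550655045502550054fe54fc031207) (nat_lit 0x11c) (nat_lit 8)))
 (.n (.p (nat_lit 0x1f541f521f501f4e1d931d8906) (nat_lit 0x10800044805) (nat_lit 52))
 (.p (nat_lit 0x5df60ca702) (nat_lit 0x4a300) (nat_lit 47))))
 (.n (.n (.p (nat_lit 0x1db61db41db21db01dac21b706) (nat_lit 0x1000012a02) (nat_lit 51))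
 (.p (nat_lit 0xff60ff40ff00fee0fec50c306) (nat_lit 0x4000040829) (nat_lit 52)))
 (.n (.p (nat_lit 0x1245123902) (nat_lit 0x24640e) (nat_lit 16))
 (.p (nat_lit 0xbba606902) (nat_lit 0x588172b40800200040000) (nat_lit 50))))))

def c1024_824 : Tr :=
 .n (.n (.n (.n (.n (.n (.p (nat_lit 0x5960594058e058c04e104df06) (nat_lit 0x6000014000) (nat_lit 51))
 (.p (nat_lit 0x233661e502) (nat_lit 0x14e0a8c74000500000600) (nat_lit 49)))
 (.p (nat_lit 0x485444d502) (nat_lit 0x540413) (nat_lit 5)))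
 (.n (.p (nat_lit 0x25c01bb902) (nat_lit 0x140b03) (nat_lit 5))
 (.p (nat_lit 0x3bfe3a5f02) (nat_lit 0x240b2d) (nat_lit 5))))
 (.n (.n (.p (nat_lit 0x224c2246224422421ffb1ff906) (nat_lit 0xc000048a00) (nat_lit 52))
 (.p (nat_lit 0x428a42884286428442820363428107) (nat_lit 0x40620) (nat_lit 7)))
 (.n (.p (nat_lit 0x385d0f6b02) (nat_lit 0x150307) (nat_lit 16))
 (.p (nat_lit 0x5d715e7902) (nat_lit 0xc0080000800) (nat_lit 37)))))
 (.n (.n (.n (.p (nat_lit 0x1430142e142c142a1428121d06) (nat_lit 0x8000c4500) (nat_lit 52))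
 (.p (nat_lit 0x21222120211e211a211848c106) (nat_lit 0x200008c51a) (nat_lit 52)))
 (.n (.p (nat_lit 0x169616921690168c010200eb00e51695168f09) (nat_lit 0x2100605) (nat_lit 10))
 (.p (nat_lit 0x5cb75dc502) (nat_lit 0x60000000100) (nat_lit 37))))
 (.n (.n (.p (nat_lit 0x2ffe2ffc2ffa2ff82ff62ff406) (nat_lit 0x94302) (nat_lit 52))
 (.p (nat_lit 0x3d7440a902) (nat_lit 0x200127) (nat_lit 5)))
 (.n (.p (nat_lit 0x24122410240e240c24084e1d06) (nat_lit 0x10000d230d) (nat_lit 51))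
 (.p (nat_lit 0xe7c5fe902) (nat_lit 0x306a81d31000300040000) (nat_lit 50))))))
 (.n (.n (.n (.n (.p (nat_lit 0xd320d300d2c0d2a0b390b3306) (nat_lit 0x12000080300) (nat_lit 51))
 (.p (nat_lit 0x367e367c367a367836741be906) (nat_lit 0x100000a815) (nat_lit 52)))
 (.n (.p (nat_lit 0x1820181e181a1818181617f906) (nat_lit 0x400004e604) (nat_lit 51))
 (.p (nat_lit 0x5a0e5a0c5a0a5a085a0601a3014c07) (nat_lit 0x512707) (nat_lit 25))))
 (.n (.n (.p (nat_lit 0x2a8e2a8c2a8a2a882a8614f706) (nat_lit 0x10000044501) (nat_lit 51))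
 (.p (nat_lit 0xcb00cac0caa0ca803b803a903a10caf0ca709) (nat_lit 0x2040223) (nat_lit 10)))
 (.n (.p (nat_lit 0x18d018ce18cc18ca18c8301506) (nat_lit 0x10000014309) (nat_lit 52))
 (.p (nat_lit 0x233c5edf02) (nat_lit 0x4a9d22344000500000600) (nat_lit 49)))))
 (.n (.n (.n (.p (nat_lit 0x1b8e1b8c1b8a1b88190318f906) (nat_lit 0x1080008c800) (nat_lit 51))
 (.p (nat_lit 0x309555302) (nat_lit 0x10081c) (nat_lit 30)))
 (.n (.p (nat_lit 0x196e4fcf02) (nat_lit 0x500706) (nat_lit 29))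
 (.p (nat_lit 0x5cfb12a502) (nat_lit 0x220040000500) (nat_lit 40))))
 (.n (.n (.p (nat_lit 0x8c2356b02) (nat_lit 0x500103) (nat_lit 29))
 (.p (nat_lit 0x101a10161014101210100e2106) (nat_lit 0x800008232a) (nat_lit 51)))
 (.n (.p (nat_lit 0x217b216f02) (nat_lit 0x106a0e) (nat_lit 16))
 (.p (nat_lit 0xbae60ef02) (nat_lit 0x440d6a3a4000200040000) (nat_lit 49))))))

def c512_312 : Tr := .n c1024_312 c1024_824

def c256_56 : Tr := .n c512_56 c512_312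

def c1024_184 : Tr :=
 .n (.n (.n (.n (.n (.n (.p (nat_lit 0xbe00b600b400c104) (nat_lit 0x11800400004) (nat_lit 17))
 (.p (nat_lit 0x114e614d02) (nat_lit 0x3b0221d85000400040000) (nat_lit 50)))
 (.p (nat_lit 0x1a341a321a301a2e1a2c317d06) (nat_lit 0x10000054410) (nat_lit 51)))
 (.n (.p (nat_lit 0x39243920391e391c391a126d06) (nat_lit 0x80000c2403) (nat_lit 52))
 (.p (nat_lit 0x219e135102) (nat_lit 0x100a2a) (nat_lit 5))))
 (.n (.n (.p (nat_lit 0x1df21df01dec1dea1de81bc906) (nat_lit 0x4000004900) (nat_lit 51))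
 (.p (nat_lit 0x272e290502) (nat_lit 0x30011d) (nat_lit 4)))
 (.n (.p (nat_lit 0x50cf1d9b02) (nat_lit 0x34a806) (nat_lit 16))
 (.p (nat_lit 0x5d75154902) (nat_lit 0x80080000600) (nat_lit 40)))))
 (.n (.n (.n (.p (nat_lit 0xfe70fdb02) (nat_lit 0x300400) (nat_lit 34))
 (.p (nat_lit 0x2c66280502) (nat_lit 0x40a16) (nat_lit 4)))
 (.n (.p (nat_lit 0xc200df00cb1fef1e8905) (nat_lit 0xac440b04) (nat_lit 9))
 (.p (nat_lit 0x2ee02ea02e802e600bd036306) (nat_lit 0x200a419) (nat_lit 26))))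
 (.n (.n (.p (nat_lit 0x2bda2bd82bd62bd42bd22bd0003607) (nat_lit 0x40901) (nat_lit 8))
 (.p (nat_lit 0x219a11f902) (nat_lit 0x500a23) (nat_lit 5)))
 (.n (.p (nat_lit 0x396e350d02) (nat_lit 0x44040a) (nat_lit 4))
 (.p (nat_lit 0xbb25f4302) (nat_lit 0x1a1d22350000200040000) (nat_lit 50))))))
 (.n (.n (.n (.n (.p (nat_lit 0x8ad05bd02) (nat_lit 0xe100) (nat_lit 16))
 (.p (nat_lit 0x9ca09c609c409c00731072b06) (nat_lit 0x90000d6015) (nat_lit 52)))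
 (.n (.p (nat_lit 0x3e4e3e4a3e483e463e440b8b06) (nat_lit 0x800008c204) (nat_lit 51))
 (.p (nat_lit 0x4d044f7b02) (nat_lit 0x400230) (nat_lit 5))))
 (.n (.n (.p (nat_lit 0x252a25282526252222c522bd06) (nat_lit 0x1100004eb00) (nat_lit 51))
 (.p (nat_lit 0x33a502502) (nat_lit 0x240722) (nat_lit 1)))
 (.n (.p (nat_lit 0x1bd6056502) (nat_lit 0x400807) (nat_lit 4))
 (.p (nat_lit 0x5d871f0f02) (nat_lit 0x2600a0000900) (nat_lit 39)))))
 (.n (.n (.n (.p (nat_lit 0x1750174e174c174a16bb16b906) (nat_lit 0x18000050600) (nat_lit 51))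
 (.p (nat_lit 0x73c0e9902) (nat_lit 0x44001c) (nat_lit 4)))
 (.n (.p (nat_lit 0xe54a6302) (nat_lit 0x100805) (nat_lit 30))
 (.p (nat_lit 0x5d275deb02) (nat_lit 0x260060000200) (nat_lit 36))))
 (.n (.n (.p (nat_lit 0x1d0e1d0c1d081d042059205506) (nat_lit 0x50000d4902) (nat_lit 51))
 (.p (nat_lit 0x254e254c254a254825464c1706) (nat_lit 0x10000090129) (nat_lit 52)))
 (.n (.p (nat_lit 0x248a248624842482248010e306) (nat_lit 0x800009640e) (nat_lit 52))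
 (.p (nat_lit 0x1144604902) (nat_lit 0x406a6254c800400040000) (nat_lit 49))))))

def c1024_696 : Tr :=
 .n (.n (.n (.n (.n (.n (.p (nat_lit 0x4dc04c502) (nat_lit 0x100000) (nat_lit 4))
 (.p (nat_lit 0x1c4061c702) (nat_lit 0x340d89ca4000200040600) (nat_lit 49)))
 (.p (nat_lit 0x42263d4102) (nat_lit 0x300612) (nat_lit 5)))
 (.n (.p (nat_lit 0x63e063c063a06380636246906) (nat_lit 0x800080b03) (nat_lit 52))
 (.p (nat_lit 0x36d239ab02) (nat_lit 0x20022d) (nat_lit 4))))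
 (.n (.n (.p (nat_lit 0x2150214e214c21481e971e8f06) (nat_lit 0x11000090a00) (nat_lit 51))
 (.p (nat_lit 0x3d023fbf02) (nat_lit 0x140020) (nat_lit 4)))
 (.n (.p (nat_lit 0xf68067d02) (nat_lit 0x40307) (nat_lit 4))
 (.p (nat_lit 0x5cc91ad702) (nat_lit 0x240020000800) (nat_lit 38)))))
 (.n (.n (.n (.p (nat_lit 0x133e133c133a133810cd10cb06) (nat_lit 0x18000012500) (nat_lit 51))
 (.p (nat_lit 0xa940a920a900a8e0a8c427f06) (nat_lit 0x1000004a619) (nat_lit 52)))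
 (.n (.p (nat_lit 0x1527128702) (nat_lit 0x540405) (nat_lit 15))
 (.p (nat_lit 0x5d1d04d302) (nat_lit 0x40000000) (nat_lit 40))))
 (.n (.n (.p (nat_lit 0xb740b720b700b6e0b6c00590b6b07) (nat_lit 0x202) (nat_lit 7))
 (.p (nat_lit 0x3788378437823780377e36cb06) (nat_lit 0x8000080226) (nat_lit 51)))
 (.n (.p (nat_lit 0x49b243e502) (nat_lit 0x14060c) (nat_lit 4))
 (.p (nat_lit 0x20705fcd02) (nat_lit 0x95832b05000400000600) (nat_lit 49))))))
 (.n (.n (.n (.n (.p (nat_lit 0xc740c720c700c6e09d709cd06) (nat_lit 0x108000d4200) (nat_lit 51))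
 (.p (nat_lit 0x2802280027fe27fc17c117b906) (nat_lit 0x110000d2615) (nat_lit 52)))
 (.n (.p (nat_lit 0x2348234623442342233e168306) (nat_lit 0x1000016604) (nat_lit 51))
 (.p (nat_lit 0x11c011801160114000101e106) (nat_lit 0x410006) (nat_lit 26))))
 (.n (.n (.p (nat_lit 0x110910fd02) (nat_lit 0x510401) (nat_lit 16))
 (.p (nat_lit 0x27b509ef02) (nat_lit 0x54c123) (nat_lit 16)))
 (.n (.p (nat_lit 0x5140510050e050c050a2b9106) (nat_lit 0x8000086908) (nat_lit 51))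
 (.p (nat_lit 0x5ec04f2b02) (nat_lit 0xa0042b00) (nat_lit 47)))))
 (.n (.n (.n (.p (nat_lit 0x1a8f179502) (nat_lit 0x146700) (nat_lit 16))
 (.p (nat_lit 0x1663165702) (nat_lit 0x30a61c) (nat_lit 16)))
 (.n (.p (nat_lit 0x12884eaf02) (nat_lit 0x40406) (nat_lit 29))
 (.p (nat_lit 0x5e1c114f02) (nat_lit 0x80040400) (nat_lit 46))))
 (.n (.n (.p (nat_lit 0x343c343a3438343634343432009207) (nat_lit 0x3) (nat_lit 8))
 (.p (nat_lit 0xe820e800e7e0e7c0e780cb506) (nat_lit 0x10000c622a) (nat_lit 51)))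
 (.n (.p (nat_lit 0x1d48082902) (nat_lit 0x44080e) (nat_lit 4))
 (.p (nat_lit 0x13ee60cf02) (nat_lit 0x35056a3a4000500040000) (nat_lit 49))))))

def c512_184 : Tr := .n c1024_184 c1024_696

def c1024_440 : Tr :=
 .n (.n (.n (.n (.n (.n (.p (nat_lit 0x28802860280028d04) (nat_lit 0xc800400015) (nat_lit 17))
 (.p (nat_lit 0x207c618702) (nat_lit 0x54c88a970000400000600) (nat_lit 50)))
 (.p (nat_lit 0x1d021d001cfe1cfa1cf8397706) (nat_lit 0x2000054411) (nat_lit 51)))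
 (.n (.p (nat_lit 0x19921990198c198a198817ed06) (nat_lit 0x4000040603) (nat_lit 52))
 (.p (nat_lit 0x2c182a6302) (nat_lit 0x4092b) (nat_lit 5))))
 (.n (.n (.p (nat_lit 0x1fb21fb01fae1fac1d331d2906) (nat_lit 0x1080004c900) (nat_lit 51))
 (.p (nat_lit 0x1bc01bbe1bbc1bb81bb634c306) (nat_lit 0x200009601f) (nat_lit 51)))
 (.n (.p (nat_lit 0x9a609a209a0099e099c0b4306) (nat_lit 0x8000014207) (nat_lit 52))
 (.p (nat_lit 0x5d2d181102) (nat_lit 0x200060000700) (nat_lit 38)))))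
 (.n (.n (.n (.p (nat_lit 0x116411621160115e0f670f6506) (nat_lit 0x180000c0400) (nat_lit 51))
 (.p (nat_lit 0x1ba81ba61ba41ba21b9e3a6906) (nat_lit 0x10000d4518) (nat_lit 52)))
 (.n (.p (nat_lit 0xb94221b02) (nat_lit 0x300205) (nat_lit 4))
 (.p (nat_lit 0x3e15c0502) (nat_lit 0x100b25) (nat_lit 28))))
 (.n (.n (.p (nat_lit 0x11c231902) (nat_lit 0x540a01) (nat_lit 1))
 (.p (nat_lit 0x2bc029e502) (nat_lit 0x400924) (nat_lit 4)))
 (.n (.p (nat_lit 0x4759401902) (nat_lit 0x55630b) (nat_lit 16))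
 (.p (nat_lit 0x11405f8502) (nat_lit 0x581a32b44000400040000) (nat_lit 49))))))
 (.n (.n (.n (.n (.p (nat_lit 0xa720a6e0a6c0a680879087306) (nat_lit 0x9000080200) (nat_lit 51))
 (.p (nat_lit 0x1150114e114c11481146138f06) (nat_lit 0x2000088515) (nat_lit 51)))
 (.n (.p (nat_lit 0x1278127612741272127000bf127b07) (nat_lit 0x540404) (nat_lit 7))
 (.p (nat_lit 0x91591902) (nat_lit 0x500003) (nat_lit 28))))
 (.n (.n (.p (nat_lit 0x9fe16e102) (nat_lit 0x140101) (nat_lit 5))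
 (.p (nat_lit 0x26d1074902) (nat_lit 0x44c023) (nat_lit 16)))
 (.n (.p (nat_lit 0x241e070f02) (nat_lit 0x500b07) (nat_lit 4))
 (.p (nat_lit 0x5eaa208102) (nat_lit 0xa0000a00) (nat_lit 46)))))
 (.n (.n (.n (.p (nat_lit 0x18f618f218ee18ec1629162506) (nat_lit 0xa000096700) (nat_lit 51))
 (.p (nat_lit 0x9e00d4b02) (nat_lit 0x44011c) (nat_lit 5)))
 (.n (.p (nat_lit 0x1134b9d02) (nat_lit 0x106) (nat_lit 30))
 (.p (nat_lit 0x5d6f0d1b02) (nat_lit 0xe0080000300) (nat_lit 40))))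
 (.n (.n (.p (nat_lit 0x1820181e181c1818231f231b06) (nat_lit 0x280004ea02) (nat_lit 51))
 (.p (nat_lit 0x9f2141102) (nat_lit 0x14012a) (nat_lit 5)))
 (.n (.p (nat_lit 0x14d214cc14ca14c8020601ef01ed14d114cf09) (nat_lit 0x234050e) (nat_lit 10))
 (.p (nat_lit 0xe7c608b02) (nat_lit 0x354221ca4000300040000) (nat_lit 50))))))

def c1024_952 : Tr :=
 .n (.n (.n (.n (.n (.p (nat_lit 0x6920690068e068c064f064d06) (nat_lit 0x1800048000) (nat_lit 52))
 (.p (nat_lit 0x2538253625342530252e4e9b06) (nat_lit 0x200008e414) (nat_lit 51)))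
 (.n (.p (nat_lit 0x3c103c0e3c0c3c0a3c083c0600c007) (nat_lit 0x4) (nat_lit 8))
 (.p (nat_lit 0x4298415d02) (nat_lit 0x4062e) (nat_lit 4))))
 (.n (.n (.p (nat_lit 0x23291ff502) (nat_lit 0x150a00) (nat_lit 16))
 (.p (nat_lit 0x450f441302) (nat_lit 0x200021) (nat_lit 15)))
 (.n (.p (nat_lit 0x122e052902) (nat_lit 0x340407) (nat_lit 5))
 (.p (nat_lit 0x5e7c1abb02) (nat_lit 0xa0054800) (nat_lit 47)))))
 (.n (.n (.n (.p (nat_lit 0x154e154302) (nat_lit 0x100600) (nat_lit 5))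
 (.p (nat_lit 0x4db24db04dae4dac4da84ea506) (nat_lit 0x100009041b) (nat_lit 51)))
 (.n (.p (nat_lit 0x1962195e195c195a195800eb196107) (nat_lit 0x400705) (nat_lit 7))
 (.p (nat_lit 0x5d3308ef02) (nat_lit 0x1a0060000100) (nat_lit 39))))
 (.n (.n (.p (nat_lit 0x3169125b02) (nat_lit 0x140402) (nat_lit 16))
 (.p (nat_lit 0xff60ff20ff00fee0fec429506) (nat_lit 0x8000040627) (nat_lit 52)))
 (.n (.p (nat_lit 0x2800e0d02) (nat_lit 0x30e) (nat_lit 1))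
 (.p (nat_lit 0x2070600d02) (nat_lit 0x405aa0b54800400000600) (nat_lit 49))))))
 (.n (.n (.n (.n (.p (nat_lit 0xe370b3502) (nat_lit 0x30e300) (nat_lit 16))
 (.p (nat_lit 0x217c0c6502) (nat_lit 0x200a15) (nat_lit 5)))
 (.n (.p (nat_lit 0x1b9c1b981b961b941b92195506) (nat_lit 0x8000014704) (nat_lit 52))
 (.p (nat_lit 0x1e201e001de01d801c9014306) (nat_lit 0x111280d) (nat_lit 26))))
 (.n (.n (.p (nat_lit 0x2b211c1702) (nat_lit 0x6801) (nat_lit 16))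
 (.p (nat_lit 0x3e0193702) (nat_lit 0x100723) (nat_lit 1)))
 (.n (.p (nat_lit 0x332c2d7b02) (nat_lit 0x500a09) (nat_lit 4))
 (.p (nat_lit 0x1ae85f0d02) (nat_lit 0x3a2530344000200000600) (nat_lit 50)))))
 (.n (.n (.n (.p (nat_lit 0x1a641c4f02) (nat_lit 0x440800) (nat_lit 5))
 (.p (nat_lit 0x3f8e3f8c3f8a3f883f861ec306) (nat_lit 0x400009691c) (nat_lit 52)))
 (.n (.p (nat_lit 0x1c32253f02) (nat_lit 0x200806) (nat_lit 5))
 (.p (nat_lit 0x5da15e3502) (nat_lit 0xc00a0000500) (nat_lit 36))))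
 (.n (.n (.p (nat_lit 0x366a36683666366436620b7706) (nat_lit 0x800080203) (nat_lit 51))
 (.p (nat_lit 0x2a9a2a982a962a942a92167306) (nat_lit 0x1000008462a) (nat_lit 52)))
 (.n (.p (nat_lit 0x28da537702) (nat_lit 0x30030f) (nat_lit 29))
 (.p (nat_lit 0xe82611102) (nat_lit 0x3425221b0000300040000) (nat_lit 50))))))

def c512_440 : Tr := .n c1024_440 c1024_952

def c256_184 : Tr := .n c512_184 c512_440

def c128_56 : Tr := .n c256_56 c256_184

def c1024_120 : Tr :=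
 .n (.n (.n (.n (.n (.n (.p (nat_lit 0x7d0075006d006804) (nat_lit 0x4c800002) (nat_lit 20))
 (.p (nat_lit 0x1144613d02) (nat_lit 0x342a21d84000400040000) (nat_lit 49)))
 (.p (nat_lit 0x309c2dc302) (nat_lit 0x340310) (nat_lit 4)))
 (.n (.p (nat_lit 0x3898389438923890388e111306) (nat_lit 0x8000082403) (nat_lit 51))
 (.p (nat_lit 0x1eda133f02) (nat_lit 0x30092a) (nat_lit 5))))
 (.n (.n (.p (nat_lit 0x1d7f1a5f02) (nat_lit 0x14c800) (nat_lit 16))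
 (.p (nat_lit 0x258e0de902) (nat_lit 0x40b1c) (nat_lit 4)))
 (.n (.p (nat_lit 0x181418121810180e180c1d9506) (nat_lit 0x80004e806) (nat_lit 52))
 (.p (nat_lit 0x5d4b154702) (nat_lit 0x20060000600) (nat_lit 40)))))
 (.n (.n (.n (.p (nat_lit 0xf790c9302) (nat_lit 0x242300) (nat_lit 16))
 (.p (nat_lit 0x177817761774177217702ae506) (nat_lit 0x8000d2516) (nat_lit 52)))
 (.n (.p (nat_lit 0x21222120211e211a2118247906) (nat_lit 0x200008cb04) (nat_lit 52))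
 (.p (nat_lit 0x288028602840280000b030906) (nat_lit 0x290a415) (nat_lit 26))))
 (.n (.n (.p (nat_lit 0x16ae16aa16a816a616a41ee906) (nat_lit 0x800008c901) (nat_lit 51))
 (.p (nat_lit 0x40ae40aa40a840a640a41ed106) (nat_lit 0x8000002923) (nat_lit 51)))
 (.n (.p (nat_lit 0x386434f702) (nat_lit 0x54030a) (nat_lit 4))
 (.p (nat_lit 0x1ae05f3702) (nat_lit 0x3a6560c44000200000600) (nat_lit 50))))))
 (.n (.n (.n (.n (.p (nat_lit 0x7d807d407d207d005c705c306) (nat_lit 0x14000088100) (nat_lit 51))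
 (.p (nat_lit 0x7320730072e072c072a0281072907) (nat_lit 0x40015) (nat_lit 7)))
 (.n (.p (nat_lit 0x3de43de23de03dde0a2b0a2706) (nat_lit 0x140000d6104) (nat_lit 52))
 (.p (nat_lit 0x4a0448a702) (nat_lit 0x10072f) (nat_lit 4))))
 (.n (.n (.p (nat_lit 0x22be249102) (nat_lit 0x240b00) (nat_lit 5))
 (.p (nat_lit 0x4c004d7d02) (nat_lit 0x122) (nat_lit 5)))
 (.n (.p (nat_lit 0x49d3190f02) (nat_lit 0x514707) (nat_lit 16))
 (.p (nat_lit 0x5d791f0d02) (nat_lit 0x40080000900) (nat_lit 39)))))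
 (.n (.n (.n (.p (nat_lit 0x16b816ad02) (nat_lit 0x440600) (nat_lit 5))
 (.p (nat_lit 0x1c421c3e1c3c1c3a05df05db06) (nat_lit 0x1400009001c) (nat_lit 52)))
 (.n (.p (nat_lit 0x198619841980197e197c1ac306) (nat_lit 0x40000ce705) (nat_lit 51))
 (.p (nat_lit 0x5cc90a4702) (nat_lit 0x240020000200) (nat_lit 38))))
 (.n (.n (.p (nat_lit 0x205432cb02) (nat_lit 0x140902) (nat_lit 29))
 (.p (nat_lit 0x4a4c483702) (nat_lit 0x240728) (nat_lit 4)))
 (.n (.p (nat_lit 0xe820e800e7c0e7a0e7810e106) (nat_lit 0x400008640e) (nat_lit 51))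
 (.p (nat_lit 0xbae603902) (nat_lit 0x4a8162340800200040000) (nat_lit 49))))))

def c1024_632 : Tr :=
 .n (.n (.n (.n (.n (.n (.p (nat_lit 0x43804360434044104) (nat_lit 0x380040002a) (nat_lit 17))
 (.p (nat_lit 0x64a61bb02) (nat_lit 0x322266c15000000040000) (nat_lit 50)))
 (.p (nat_lit 0x1fcc1fca1fc81fc61fc2410306) (nat_lit 0x100004e412) (nat_lit 52)))
 (.n (.p (nat_lit 0x1fb41fb01fae1fac1faa232f06) (nat_lit 0x800004ca03) (nat_lit 51))
 (.p (nat_lit 0x1448144614441442143e33b506) (nat_lit 0x10000c6a2c) (nat_lit 52))))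
 (.n (.n (.p (nat_lit 0x211621122110210c1e951e8f06) (nat_lit 0x900000ca00) (nat_lit 52))
 (.p (nat_lit 0x3be2384f02) (nat_lit 0x40b1f) (nat_lit 5)))
 (.n (.p (nat_lit 0x1820181e181c181a18180e0106) (nat_lit 0x80000e307) (nat_lit 51))
 (.p (nat_lit 0x5c8f5e6702) (nat_lit 0x2e0000000800) (nat_lit 36)))))
 (.n (.n (.n (.p (nat_lit 0x12c012be12ba12b810cd10c706) (nat_lit 0x12000082500) (nat_lit 52))
 (.p (nat_lit 0x1fe41fe21fe01fde1fda420506) (nat_lit 0x1000056519) (nat_lit 51)))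
 (.n (.p (nat_lit 0xe5477102) (nat_lit 0x100405) (nat_lit 30))
 (.p (nat_lit 0x5c91064102) (nat_lit 0x2c0000000000) (nat_lit 41))))
 (.n (.n (.p (nat_lit 0x8b608b408b208b0006a005b005908af08ad09) (nat_lit 0x800102) (nat_lit 10))
 (.p (nat_lit 0x36cb35c902) (nat_lit 0x400126) (nat_lit 15)))
 (.n (.p (nat_lit 0x474e43cd02) (nat_lit 0x4030c) (nat_lit 5))
 (.p (nat_lit 0x1ade5fc302) (nat_lit 0x89832915800200000600) (nat_lit 49))))))
 (.n (.n (.n (.n (.p (nat_lit 0xbe00bde0bda0bd809d309cd06) (nat_lit 0x4800048200) (nat_lit 51))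
 (.p (nat_lit 0x16460c0902) (nat_lit 0x100615) (nat_lit 4)))
 (.n (.p (nat_lit 0xa4e0a4a0a460a441689168506) (nat_lit 0xa000004604) (nat_lit 52))
 (.p (nat_lit 0xea00e600e400e2000b038b06) (nat_lit 0x2b0e305) (nat_lit 26))))
 (.n (.n (.p (nat_lit 0x2d28e902) (nat_lit 0x140301) (nat_lit 30))
 (.p (nat_lit 0xfea0fe80fe60fe40fe009e706) (nat_lit 0x1000048123) (nat_lit 51)))
 (.n (.p (nat_lit 0x2b06261f02) (nat_lit 0x500808) (nat_lit 4))
 (.p (nat_lit 0x5d61234702) (nat_lit 0x1c0080000b00) (nat_lit 40)))))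
 (.n (.n (.n (.p (nat_lit 0x1a421a3e1a3c1a3a179b179306) (nat_lit 0x88000d4700) (nat_lit 52))
 (.p (nat_lit 0x1026102410221020101c14e306) (nat_lit 0x100004451c) (nat_lit 51)))
 (.n (.p (nat_lit 0xfd20fd00fce0fcc0124011501130fcb0fc909) (nat_lit 0x840306) (nat_lit 10))
 (.p (nat_lit 0x5e180fe702) (nat_lit 0x60000400) (nat_lit 46))))
 (.n (.n (.p (nat_lit 0x5d341302) (nat_lit 0x240b02) (nat_lit 30))
 (.p (nat_lit 0x249624942490248e248c0b5906) (nat_lit 0x400009622a) (nat_lit 51)))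
 (.n (.p (nat_lit 0x1be0081b02) (nat_lit 0x30080e) (nat_lit 4))
 (.p (nat_lit 0x198060b302) (nat_lit 0x350521a84000100040600) (nat_lit 50))))))

def c512_120 : Tr := .n c1024_120 c1024_632

def c1024_376 : Tr :=
 .n (.n (.n (.n (.n (.n (.p (nat_lit 0x1b201ae01ac01b904) (nat_lit 0x580040000b) (nat_lit 17))
 (.p (nat_lit 0x21ce617702) (nat_lit 0x340c6ab84000400040600) (nat_lit 49)))
 (.p (nat_lit 0x24353b702) (nat_lit 0x500411) (nat_lit 30)))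
 (.n (.p (nat_lit 0x3a8d167702) (nat_lit 0x100603) (nat_lit 16))
 (.p (nat_lit 0x29b029ae29ac29aa2939293706) (nat_lit 0x1800004032b) (nat_lit 51))))
 (.n (.n (.p (nat_lit 0xbe1d3302) (nat_lit 0x540900) (nat_lit 1))
 (.p (nat_lit 0x339a2ff502) (nat_lit 0x40a1e) (nat_lit 4)))
 (.n (.p (nat_lit 0xb3e513502) (nat_lit 0x200207) (nat_lit 29))
 (.p (nat_lit 0x5d15198102) (nat_lit 0x80040000700) (nat_lit 41)))))
 (.n (.n (.n (.p (nat_lit 0x111f0dfd02) (nat_lit 0x412400) (nat_lit 16))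
 (.p (nat_lit 0x38ea36f102) (nat_lit 0x418) (nat_lit 5)))
 (.n (.p (nat_lit 0x8d8220502) (nat_lit 0x400105) (nat_lit 5))
 (.p (nat_lit 0x3aa03a803a603a00309000506) (nat_lit 0xa04123) (nat_lit 26))))
 (.n (.n (.p (nat_lit 0x23a623a423a2239c21ad21ab06) (nat_lit 0x3000086a01) (nat_lit 51))
 (.p (nat_lit 0x27ae296302) (nat_lit 0x240124) (nat_lit 5)))
 (.n (.p (nat_lit 0x3dd03dce3dca3dc83dc63f1506) (nat_lit 0x40000cc20b) (nat_lit 52))
 (.p (nat_lit 0xe725f7702) (nat_lit 0x3aa074b50000300040000) (nat_lit 49))))))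
 (.n (.n (.n (.n (.p (nat_lit 0xa37072702) (nat_lit 0x554100) (nat_lit 16))
 (.p (nat_lit 0x4859124302) (nat_lit 0x154415) (nat_lit 16)))
 (.n (.p (nat_lit 0x1120111e111c1118111600b9111b07) (nat_lit 0x200404) (nat_lit 7))
 (.p (nat_lit 0x58ea58e858e658e458e20287006407) (nat_lit 0x314202) (nat_lit 25))))
 (.n (.n (.p (nat_lit 0x26a226a0269e269c269a269806) (nat_lit 0x52001) (nat_lit 52))
 (.p (nat_lit 0x742568b02) (nat_lit 0x140023) (nat_lit 29)))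
 (.n (.p (nat_lit 0x14151c102) (nat_lit 0x40a07) (nat_lit 30))
 (.p (nat_lit 0x5d7321d502) (nat_lit 0xa0080000a00) (nat_lit 39)))))
 (.n (.n (.n (.p (nat_lit 0x18ba18b818b418b218b0162706) (nat_lit 0x4000012700) (nat_lit 52))
 (.p (nat_lit 0xaa00a9e0a9c0a9a0a98088706) (nat_lit 0x1000008a11c) (nat_lit 51)))
 (.n (.p (nat_lit 0x62e235102) (nat_lit 0x300006) (nat_lit 4))
 (.p (nat_lit 0x5cf15dfd02) (nat_lit 0x2c0040000300) (nat_lit 36))))
 (.n (.n (.p (nat_lit 0x61337302) (nat_lit 0x440a02) (nat_lit 30))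
 (.p (nat_lit 0x89e089c089a08940450043904370899089709) (nat_lit 0x110012a) (nat_lit 10)))
 (.n (.p (nat_lit 0x66e066a066806660664138706) (nat_lit 0x800008450e) (nat_lit 51))
 (.p (nat_lit 0x1dac607902) (nat_lit 0x4688ae154000300000600) (nat_lit 50))))))

def c1024_888 : Tr :=
 .n (.n (.n (.n (.n (.p (nat_lit 0x142064f02) (nat_lit 0x140000) (nat_lit 1))
 (.p (nat_lit 0x4a2e44f502) (nat_lit 0x540713) (nat_lit 4)))
 (.n (.p (nat_lit 0x13f413f213ee13ec13ea25c506) (nat_lit 0x40000cab03) (nat_lit 52))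
 (.p (nat_lit 0x3f2e41c902) (nat_lit 0x54022e) (nat_lit 4))))
 (.n (.n (.p (nat_lit 0x22aa22a822a622a422a21ffd06) (nat_lit 0x10000050a00) (nat_lit 52))
 (.p (nat_lit 0x4346400502) (nat_lit 0x100b20) (nat_lit 5)))
 (.n (.p (nat_lit 0x141814141410140e10d710d306) (nat_lit 0xa000082407) (nat_lit 51))
 (.p (nat_lit 0x5e78355102) (nat_lit 0x80046800) (nat_lit 47)))))
 (.n (.n (.n (.p (nat_lit 0x14c614c214c014bc1225121f06) (nat_lit 0x90000d6500) (nat_lit 51))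
 (.p (nat_lit 0x28449e502) (nat_lit 0x20071a) (nat_lit 1)))
 (.n (.p (nat_lit 0x116180302) (nat_lit 0x240605) (nat_lit 1))
 (.p (nat_lit 0x5dca422302) (nat_lit 0x20012100) (nat_lit 48))))
 (.n (.n (.p (nat_lit 0x5930af02) (nat_lit 0x402) (nat_lit 30))
 (.p (nat_lit 0x1e8a1e861e841e821e803dfb06) (nat_lit 0x80000d6127) (nat_lit 52)))
 (.n (.p (nat_lit 0x50404b6502) (nat_lit 0x40080d) (nat_lit 5))
 (.p (nat_lit 0xfde5ff902) (nat_lit 0x466b80b44000400000000) (nat_lit 49))))))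
 (.n (.n (.n (.n (.p (nat_lit 0xd940d920d8e0d8a0b350b3106) (nat_lit 0x500008e300) (nat_lit 51))
 (.p (nat_lit 0x2ec1eb902) (nat_lit 0x400915) (nat_lit 1)))
 (.n (.p (nat_lit 0x88194f02) (nat_lit 0x100704) (nat_lit 1))
 (.p (nat_lit 0x1a201a0019c01980147023b06) (nat_lit 0x191620a) (nat_lit 26))))
 (.n (.n (.p (nat_lit 0x1c1e1c1c1c1a1c1800440035002b1c211c1709) (nat_lit 0x2800801) (nat_lit 10))
 (.p (nat_lit 0x165e103702) (nat_lit 0x100623) (nat_lit 4)))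
 (.n (.p (nat_lit 0x52125210520e520c520a5208019007) (nat_lit 0x40409) (nat_lit 8))
 (.p (nat_lit 0x2495248b21d921d31f1b1f071c471c431983197516a716995eee0d) (nat_lit 0x4a1d22344000000040600) (nat_lit 33)))))
 (.n (.n (.n (.p (nat_lit 0x1beb18fd02) (nat_lit 0x204800) (nat_lit 16))
 (.p (nat_lit 0x30d556302) (nat_lit 0x34081c) (nat_lit 30)))
 (.n (.p (nat_lit 0x1ad023e102) (nat_lit 0x440706) (nat_lit 4))
 (.p (nat_lit 0x5e2c507b02) (nat_lit 0x60016500) (nat_lit 48))))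
 (.n (.n (.p (nat_lit 0xa1c0a1a0a180a1600a0009100870a1f0a1509) (nat_lit 0x2840103) (nat_lit 10))
 (.p (nat_lit 0x115a1156115411520f8b0f8706) (nat_lit 0x1400004032a) (nat_lit 51)))
 (.n (.p (nat_lit 0x242a086302) (nat_lit 0x500b0e) (nat_lit 5))
 (.p (nat_lit 0x233860f902) (nat_lit 0x460d623a4000500000600) (nat_lit 49))))))

def c512_376 : Tr := .n c1024_376 c1024_888

def c256_120 : Tr := .n c512_120 c512_376

def c1024_248 : Tr :=
 .n (.n (.n (.n (.n (.n (.p (nat_lit 0xe400e200f103) (nat_lit 0x1800500005) (nat_lit 17))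
 (.p (nat_lit 0x1698615b02) (nat_lit 0x3503a8d64000000040600) (nat_lit 49)))
 (.p (nat_lit 0x35a835a635a435a235a032e706) (nat_lit 0x10000056910) (nat_lit 51)))
 (.n (.p (nat_lit 0x13c713bb02) (nat_lit 0x14503) (nat_lit 16))
 (.p (nat_lit 0x43f584302) (nat_lit 0x540a2a) (nat_lit 30))))
 (.n (.n (.p (nat_lit 0x1e661e621e601e5e1bcb1bc306) (nat_lit 0x880000e900) (nat_lit 51))
 (.p (nat_lit 0x2c0f2c0302) (nat_lit 0x14a91d) (nat_lit 16)))
 (.n (.p (nat_lit 0x229422922290228e228c1ef906) (nat_lit 0x80000e906) (nat_lit 51))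
 (.p (nat_lit 0x5cbd181702) (nat_lit 0x700) (nat_lit 40)))))
 (.n (.n (.n (.p (nat_lit 0x101a10161014101210100dfd06) (nat_lit 0x8000082400) (nat_lit 51))
 (.p (nat_lit 0x18f418f018ee18ec3283327f06) (nat_lit 0x140000d6517) (nat_lit 51)))
 (.n (.p (nat_lit 0x437d25cd02) (nat_lit 0x144b04) (nat_lit 16))
 (.p (nat_lit 0x310030e030c03060387000506) (nat_lit 0xa1401c) (nat_lit 26))))
 (.n (.n (.p (nat_lit 0xe740e720e700e6e0e6c205106) (nat_lit 0x100000c6901) (nat_lit 52))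
 (.p (nat_lit 0x244c10b302) (nat_lit 0x400b23) (nat_lit 4)))
 (.n (.p (nat_lit 0x3ae8526302) (nat_lit 0x300a0a) (nat_lit 29))
 (.p (nat_lit 0x15485f5b02) (nat_lit 0x1a2276350000000000600) (nat_lit 50))))))
 (.n (.n (.n (.n (.p (nat_lit 0x91609140910090e0723071d06) (nat_lit 0x48000c6100) (nat_lit 51))
 (.p (nat_lit 0xd240d220d200d1e10f110ef06) (nat_lit 0x18000000415) (nat_lit 52)))
 (.n (.p (nat_lit 0x3ed43ed23ed03ece3ecc3eca06) (nat_lit 0xca204) (nat_lit 52))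
 (.p (nat_lit 0x3400320030002a0003017306) (nat_lit 0xa12001) (nat_lit 26))))
 (.n (.n (.p (nat_lit 0x16bb22c502) (nat_lit 0x540b00) (nat_lit 15))
 (.p (nat_lit 0x50b64daf02) (nat_lit 0x340822) (nat_lit 5)))
 (.n (.p (nat_lit 0x1d3c51a502) (nat_lit 0x440807) (nat_lit 29))
 (.p (nat_lit 0x5e96205f02) (nat_lit 0x4ca00) (nat_lit 47)))))
 (.n (.n (.n (.p (nat_lit 0x1790178e178a178816b716b106) (nat_lit 0x48000d4600) (nat_lit 52))
 (.p (nat_lit 0x198619821980197e197c073d06) (nat_lit 0x80000ce01c) (nat_lit 51)))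
 (.n (.p (nat_lit 0x1ff01fee1fec1fea1fe61c2506) (nat_lit 0x1000096805) (nat_lit 51))
 (.p (nat_lit 0x5d4f0baf02) (nat_lit 0x2e0080000200) (nat_lit 39))))
 (.n (.n (.p (nat_lit 0x79e079c07980796079421bb06) (nat_lit 0x4000002a02) (nat_lit 52))
 (.p (nat_lit 0x4fec4e7902) (nat_lit 0x300729) (nat_lit 5)))
 (.n (.p (nat_lit 0xe760e740e720e700e6c123706) (nat_lit 0x10000c640e) (nat_lit 52))
 (.p (nat_lit 0x1400605702) (nat_lit 0x506272b31000500040000) (nat_lit 50))))))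

def c1024_760 : Tr :=
 .n (.n (.n (.n (.n (.n (.p (nat_lit 0x5080504050204fe04e304dd06) (nat_lit 0x9000006000) (nat_lit 52))
 (.p (nat_lit 0x1db061d702) (nat_lit 0x542266c0c800300000600) (nat_lit 50)))
 (.p (nat_lit 0x43703d5d02) (nat_lit 0x140b12) (nat_lit 5)))
 (.n (.p (nat_lit 0x1ade1ada1ad81ad42471246b06) (nat_lit 0x9000010b03) (nat_lit 52))
 (.p (nat_lit 0x38c438c238c038be38bc37df06) (nat_lit 0x80001632d) (nat_lit 52))))
 (.n (.n (.p (nat_lit 0x21d821cc1ff303) (nat_lit 0x40a00) (nat_lit 6))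
 (.p (nat_lit 0x36d55f702) (nat_lit 0x540120) (nat_lit 30)))
 (.n (.p (nat_lit 0x18141812180e180c180a0f6f06) (nat_lit 0x400004e307) (nat_lit 52))
 (.p (nat_lit 0x5d491c4102) (nat_lit 0x40060000800) (nat_lit 39)))))
 (.n (.n (.n (.p (nat_lit 0x13db10cb02) (nat_lit 0x414500) (nat_lit 16))
 (.p (nat_lit 0x262440902) (nat_lit 0x30001a) (nat_lit 1)))
 (.n (.p (nat_lit 0x1526210b02) (nat_lit 0x540505) (nat_lit 4))
 (.p (nat_lit 0x5d7904d702) (nat_lit 0x40080000000) (nat_lit 40))))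
 (.n (.n (.p (nat_lit 0x2f7e2f7c2f7a2f782f760ccb06) (nat_lit 0x800054202) (nat_lit 51))
 (.p (nat_lit 0x3ba038c102) (nat_lit 0x300b26) (nat_lit 4)))
 (.n (.p (nat_lit 0x3ca43ca23ca03c9c3c9a4a7106) (nat_lit 0x200008680c) (nat_lit 52))
 (.p (nat_lit 0x2493248921db21cd1f151f0f1c471c411985197316af169d5fd80d) (nat_lit 0x3842a1c35000000040600) (nat_lit 33))))))
 (.n (.n (.n (.n (.p (nat_lit 0xd100d0e0d0c0d0a0d080d0606) (nat_lit 0x300) (nat_lit 2))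
 (.p (nat_lit 0x49e7192302) (nat_lit 0x314715) (nat_lit 16)))
 (.n (.p (nat_lit 0x4cc04c804c604c404c217fb06) (nat_lit 0x8000040604) (nat_lit 52))
 (.p (nat_lit 0x11c01180116011400eb000106) (nat_lit 0x2012806) (nat_lit 26))))
 (.n (.n (.p (nat_lit 0x13a815c702) (nat_lit 0x300501) (nat_lit 5))
 (.p (nat_lit 0xd400d3e0d3a0d380d360b4d06) (nat_lit 0x4000002223) (nat_lit 51)))
 (.n (.p (nat_lit 0x2f8c2c9902) (nat_lit 0x40209) (nat_lit 4))
 (.p (nat_lit 0x1db05ed302) (nat_lit 0x4a1a36344000300000600) (nat_lit 50)))))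
 (.n (.n (.n (.p (nat_lit 0x1b021b001afc1af818ff18fb06) (nat_lit 0x5000080800) (nat_lit 51))
 (.p (nat_lit 0x2fda2fd82fd62fd41933192b06) (nat_lit 0x1100000271c) (nat_lit 51)))
 (.n (.p (nat_lit 0x1174f3d02) (nat_lit 0x200506) (nat_lit 30))
 (.p (nat_lit 0x5c955e2502) (nat_lit 0x280000000500) (nat_lit 37))))
 (.n (.n (.p (nat_lit 0x76c1c6702) (nat_lit 0x440003) (nat_lit 4))
 (.p (nat_lit 0x28810cb502) (nat_lit 0x14c22a) (nat_lit 16)))
 (.n (.p (nat_lit 0x3d4c3d4a3d483d461ead1ea706) (nat_lit 0x900008c90e) (nat_lit 51))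
 (.p (nat_lit 0x8f660db02) (nat_lit 0x340a621b0000100040000) (nat_lit 50))))))

def c512_248 : Tr := .n c1024_248 c1024_760

def c1024_504 : Tr :=
 .n (.n (.n (.n (.n (.n (.p (nat_lit 0x310030e0308031304) (nat_lit 0x1900040001c) (nat_lit 17))
 (.p (nat_lit 0x1146619b02) (nat_lit 0x340aa5c14800400040000) (nat_lit 50)))
 (.p (nat_lit 0x23d53c902) (nat_lit 0x200b11) (nat_lit 30)))
 (.n (.p (nat_lit 0x21ca21c821c621c221c0008b21c507) (nat_lit 0x200a03) (nat_lit 7))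
 (.p (nat_lit 0x2fae322302) (nat_lit 0x54022c) (nat_lit 4))))
 (.n (.n (.p (nat_lit 0x1ff31d2902) (nat_lit 0x40900) (nat_lit 15))
 (.p (nat_lit 0x363655cd02) (nat_lit 0x24011f) (nat_lit 29)))
 (.n (.p (nat_lit 0xca20ca00c9c0c9a0166014b01450ca50c9f09) (nat_lit 0x2a40207) (nat_lit 10))
 (.p (nat_lit 0x5d5f197902) (nat_lit 0x1e0080000700) (nat_lit 39)))))
 (.n (.n (.n (.p (nat_lit 0x120e120c120812040f630f5f06) (nat_lit 0x5000056400) (nat_lit 51))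
 (.p (nat_lit 0xbde0bdc0bda0bd80bd63b8d06) (nat_lit 0x10000008b18) (nat_lit 51)))
 (.n (.p (nat_lit 0x464e464c464846440cf50cf106) (nat_lit 0x50000ca205) (nat_lit 52))
 (.p (nat_lit 0x4395c3d02) (nat_lit 0x20062a) (nat_lit 28))))
 (.n (.n (.p (nat_lit 0x5fe198f02) (nat_lit 0x300002) (nat_lit 4))
 (.p (nat_lit 0x2eba30c502) (nat_lit 0x40125) (nat_lit 5)))
 (.n (.p (nat_lit 0x42663cd502) (nat_lit 0x54060b) (nat_lit 5))
 (.p (nat_lit 0x20765f9502) (nat_lit 0x581a302a4000400000600) (nat_lit 50))))))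
 (.n (.n (.n (.n (.p (nat_lit 0xaea0ae60ae40ae20879087106) (nat_lit 0x8800090200) (nat_lit 52))
 (.p (nat_lit 0x2a71138d02) (nat_lit 0x10c515) (nat_lit 16)))
 (.n (.p (nat_lit 0x13d013ce13c813c600d600bb00b913cd13cb09) (nat_lit 0x1a00504) (nat_lit 10))
 (.p (nat_lit 0x5948594459425940593e0009009207) (nat_lit 0x414603) (nat_lit 25))))
 (.n (.n (.p (nat_lit 0xb66158302) (nat_lit 0x400201) (nat_lit 4))
 (.p (nat_lit 0x1150114e114c114a1146088b06) (nat_lit 0x1000088123) (nat_lit 51)))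
 (.n (.p (nat_lit 0x3bc5257102) (nat_lit 0x350b07) (nat_lit 16))
 (.p (nat_lit 0x5cd35eb302) (nat_lit 0x1a0020000b00) (nat_lit 36)))))
 (.n (.n (.n (.p (nat_lit 0x196f162b02) (nat_lit 0x516700) (nat_lit 16))
 (.p (nat_lit 0x13980eb702) (nat_lit 0x10051c) (nat_lit 5)))
 (.n (.p (nat_lit 0xa420a3e0a3c0a3a0a38011b0a4107) (nat_lit 0x440106) (nat_lit 7))
 (.p (nat_lit 0x5cbd113b02) (nat_lit 0x400) (nat_lit 39))))
 (.n (.n (.p (nat_lit 0x2327231b02) (nat_lit 0x52a02) (nat_lit 16))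
 (.p (nat_lit 0x6b406b206b006ac09f509f106) (nat_lit 0x280004e12a) (nat_lit 51)))
 (.n (.p (nat_lit 0x163c094d02) (nat_lit 0x20060e) (nat_lit 4))
 (.p (nat_lit 0x2344609502) (nat_lit 0x342529ca4000500000600) (nat_lit 50))))))

def c1024_1016 : Tr :=
 .n (.n (.n (.n (.n (.p (nat_lit 0x731065502) (nat_lit 0x444000) (nat_lit 16))
 (.p (nat_lit 0x500e4be302) (nat_lit 0x340714) (nat_lit 4)))
 (.n (.p (nat_lit 0x7721f2b02) (nat_lit 0x140004) (nat_lit 5))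
 (.p (nat_lit 0x493c493a49384934493243a306) (nat_lit 0x20000ceb2e) (nat_lit 51))))
 (.n (.n (.p (nat_lit 0x23d623d423d023ce23cc215b06) (nat_lit 0x400000eb00) (nat_lit 52))
 (.p (nat_lit 0x495a46c902) (nat_lit 0x240521) (nat_lit 4)))
 (.n (.p (nat_lit 0x1239122d02) (nat_lit 0x244407) (nat_lit 16))
 (.p (nat_lit 0x5ccd5e8502) (nat_lit 0x200020000900) (nat_lit 37)))))
 (.n (.n (.n (.p (nat_lit 0x15ee15ec15ea15e815e6154d06) (nat_lit 0x800090600) (nat_lit 52))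
 (.p (nat_lit 0x505a4cd902) (nat_lit 0x50081b) (nat_lit 4)))
 (.n (.p (nat_lit 0x1da81da61da41da21da0196306) (nat_lit 0x10000012705) (nat_lit 52))
 (.p (nat_lit 0x5dd43bd302) (nat_lit 0x80050100) (nat_lit 47))))
 (.n (.n (.p (nat_lit 0x14fe31ff02) (nat_lit 0x340502) (nat_lit 29))
 (.p (nat_lit 0x411578102) (nat_lit 0x440028) (nat_lit 30)))
 (.n (.p (nat_lit 0xaae0aac0aaa0aa80e0f0e0d06) (nat_lit 0x180000c30e) (nat_lit 51))
 (.p (nat_lit 0x64a601b02) (nat_lit 0x4099a2354800000040000) (nat_lit 50))))))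
 (.n (.n (.n (.n (.p (nat_lit 0xe8c0e880e860e840c990c9506) (nat_lit 0x14000040300) (nat_lit 51))
 (.p (nat_lit 0x22e40b1302) (nat_lit 0x340a15) (nat_lit 4)))
 (.n (.p (nat_lit 0x1aba1ab81ab61ab21ab000b91ab507) (nat_lit 0x240704) (nat_lit 7))
 (.p (nat_lit 0x5a8e5a8c5a8a5a885a8602af01f207) (nat_lit 0x660e) (nat_lit 25))))
 (.n (.n (.p (nat_lit 0x1a1c1a1a1a181a161a141d8706) (nat_lit 0x10000052801) (nat_lit 51))
 (.p (nat_lit 0x1c081c061c041c021bfe03a31c0107) (nat_lit 0x100823) (nat_lit 7)))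
 (.n (.p (nat_lit 0x33d22d9102) (nat_lit 0x400b09) (nat_lit 4))
 (.p (nat_lit 0x20765f1702) (nat_lit 0x3a2260b50000400000600) (nat_lit 50)))))
 (.n (.n (.n (.p (nat_lit 0x1cc41cc21cc01cbe1cbc1a6706) (nat_lit 0x100000c8800) (nat_lit 51))
 (.p (nat_lit 0x218a0dcb02) (nat_lit 0x300a1c) (nat_lit 4)))
 (.n (.p (nat_lit 0x1820181e181c181a18181c2f06) (nat_lit 0x80000e806) (nat_lit 51))
 (.p (nat_lit 0x5c955e3902) (nat_lit 0x280000000600) (nat_lit 37))))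
 (.n (.n (.p (nat_lit 0x3520e4102) (nat_lit 0x200303) (nat_lit 1))
 (.p (nat_lit 0x43d57f902) (nat_lit 0x40072a) (nat_lit 30)))
 (.n (.p (nat_lit 0x2ae22ade2adc2ada2ad802132ae107) (nat_lit 0x44050f) (nat_lit 7))
 (.p (nat_lit 0x1ae4611d02) (nat_lit 0x35486a3a4000200000600) (nat_lit 50))))))

def c512_504 : Tr := .n c1024_504 c1024_1016

def c256_248 : Tr := .n c512_248 c512_504

def c128_120 : Tr := .n c256_120 c256_248

def c64_56 : Tr := .n c128_56 c128_120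

def c32_24 : Tr := .n c64_24 c64_56

def c16_8 : Tr := .n c32_8 c32_24

def b8 : Tr := c16_8

theorem hb4_8 : allp (tst G49 true (getA DT)) b8 = true := by decide +kernel

end Vale.Agent.P032.H437.Ev2
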