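import Vale.Agent.P032.H437.Ev2.T

namespace Vale.Agent.P032.H437.Ev2
open Vale.Agent.P032.H859.Rup Vale.Agent.P032.H437

def c1024_9 : Tr :=
 .n (.n (.n (.n (.n (.n (.p (nat_lit 0x23001f0017000f04) (nat_lit 0x54c800000) (nat_lit 21))
 (.p (nat_lit 0x2484611f02) (nat_lit 0x35056a3a4000500040600) (nat_lit 49)))
 (.p (nat_lit 0x32712add02) (nat_lit 0x25050f) (nat_lit 16)))
 (.n (.p (nat_lit 0x37c437c237c037be37bc37ba06) (nat_lit 0x16303) (nat_lit 52))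
 (.p (nat_lit 0x325632523250324e324c194906) (nat_lit 0x800001472a) (nat_lit 52))))
 (.n (.n (.p (nat_lit 0x1cea1ce81ce61ce41ce01a5f06) (nat_lit 0x100004c800) (nat_lit 52))
 (.p (nat_lit 0x218e218c21862184032a030d030b218b218909) (nat_lit 0x1a00a1c) (nat_lit 10)))
 (.n (.p (nat_lit 0x21d621d421d221d021ce1c2f06) (nat_lit 0x800094806) (nat_lit 52))
 (.p (nat_lit 0x5e3826bd02) (nat_lit 0x46600) (nat_lit 47)))))
 (.n (.n (.n (.p (nat_lit 0xea60ea40ea20e9c0c930c9106) (nat_lit 0x3000042300) (nat_lit 52))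
 (.p (nat_lit 0x258522e102) (nat_lit 0x140a15) (nat_lit 15)))
 (.n (.p (nat_lit 0x1aba1ab81ab61ab400c600b700b51ab31ab109) (nat_lit 0x840704) (nat_lit 10))
 (.p (nat_lit 0x23c5aa102) (nat_lit 0x20080e) (nat_lit 27))))
 (.n (.n (.p (nat_lit 0x18dc18da18d818d618d41d8706) (nat_lit 0x100000d4801) (nat_lit 51))
 (.p (nat_lit 0x1c081c061c041bfe03bc03a503a31c031c0109) (nat_lit 0x1100823) (nat_lit 10)))
 (.n (.p (nat_lit 0x341c2ce902) (nat_lit 0x140b09) (nat_lit 5))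
 (.p (nat_lit 0x180e5f1b02) (nat_lit 0x3a2274b50000100000600) (nat_lit 49))))))
 (.n (.n (.n (.n (.p (nat_lit 0x753065302) (nat_lit 0x34c000) (nat_lit 16))
 (.p (nat_lit 0x504a4bef02) (nat_lit 0x300814) (nat_lit 4)))
 (.n (.p (nat_lit 0x77a1dcf02) (nat_lit 0x540004) (nat_lit 4))
 (.p (nat_lit 0x459848f102) (nat_lit 0x34012f) (nat_lit 5))))
 (.n (.n (.p (nat_lit 0x23e023de23dc23da215f215506) (nat_lit 0x1080008eb00) (nat_lit 52))
 (.p (nat_lit 0x49f2473d02) (nat_lit 0x300721) (nat_lit 4)))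
 (.n (.p (nat_lit 0x4f1f123302) (nat_lit 0x556407) (nat_lit 16))
 (.p (nat_lit 0x5e84401102) (nat_lit 0x20040900) (nat_lit 47)))))
 (.n (.n (.n (.p (nat_lit 0x15f815f615f415f215f0155706) (nat_lit 0x10000012600) (nat_lit 52))
 (.p (nat_lit 0xaa20aa00a9e0a9a0a9850a906) (nat_lit 0x20000ca81b) (nat_lit 51)))
 (.n (.p (nat_lit 0x249624922490248e248c196106) (nat_lit 0x8000096705) (nat_lit 51))
 (.p (nat_lit 0x5d8f5ddb02) (nat_lit 0x1e00a0000100) (nat_lit 36))))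
 (.n (.n (.p (nat_lit 0x32223220321e321814fd14fb06) (nat_lit 0x30000c4502) (nat_lit 52))
 (.p (nat_lit 0xe2451702) (nat_lit 0x128) (nat_lit 1)))
 (.n (.p (nat_lit 0xf7e0f7c0f7a0f780f7601e70f7507) (nat_lit 0x4030e) (nat_lit 7))
 (.p (nat_lit 0x1ae0601f02) (nat_lit 0x4099a2354800200000600) (nat_lit 50))))))

def c1024_521 : Tr :=
 .n (.n (.n (.n (.n (.n (.p (nat_lit 0x31d0319031403) (nat_lit 0x190001c) (nat_lit 19))
 (.p (nat_lit 0x8fc619f02) (nat_lit 0x380aa5c15000100040000) (nat_lit 50)))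
 (.p (nat_lit 0x922091e091c091a09183b7f06) (nat_lit 0x8000008b11) (nat_lit 51)))
 (.n (.p (nat_lit 0x21ca21c821c621c400980089008721c321c109) (nat_lit 0x800a03) (nat_lit 10))
 (.p (nat_lit 0x585a58585856585458525850048607) (nat_lit 0x32c) (nat_lit 8))))
 (.n (.n (.p (nat_lit 0x201b1d2d02) (nat_lit 0x244900) (nat_lit 16))
 (.p (nat_lit 0x363f363302) (nat_lit 0x4a11f) (nat_lit 16)))
 (.n (.p (nat_lit 0x946094409420940093c0c9d06) (nat_lit 0x10000ca207) (nat_lit 52))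
 (.p (nat_lit 0x5d51197902) (nat_lit 0x2c0080000700) (nat_lit 39)))))
 (.n (.n (.n (.p (nat_lit 0x12310f6502) (nat_lit 0x440400) (nat_lit 16))
 (.p (nat_lit 0x3bdc36b102) (nat_lit 0x340b18) (nat_lit 5)))
 (.n (.p (nat_lit 0xcfd0cf102) (nat_lit 0x14c205) (nat_lit 16))
 (.p (nat_lit 0x5c4c5c4a5c485c465c440493044007) (nat_lit 0x21272a) (nat_lit 25))))
 (.n (.n (.p (nat_lit 0x2cba2cb82cb62cb22cb005fd06) (nat_lit 0x2000086002) (nat_lit 51))
 (.p (nat_lit 0x1a5a1a581a561a541a502ebd06) (nat_lit 0x10000d6125) (nat_lit 52)))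
 (.n (.p (nat_lit 0x429d426102) (nat_lit 0x24860b) (nat_lit 16))
 (.p (nat_lit 0x154a5f9b02) (nat_lit 0x88bb0155800000000600) (nat_lit 50))))))
 (.n (.n (.n (.n (.p (nat_lit 0xb33087502) (nat_lit 0x200200) (nat_lit 15))
 (.p (nat_lit 0x14d80bff02) (nat_lit 0x240515) (nat_lit 4)))
 (.n (.p (nat_lit 0x415a415841544152415013cd06) (nat_lit 0x400000c504) (nat_lit 52))
 (.p (nat_lit 0x90008c008a0088000100bd06) (nat_lit 0x416a03) (nat_lit 26))))
 (.n (.n (.p (nat_lit 0xe290b6302) (nat_lit 0x200201) (nat_lit 15))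
 (.p (nat_lit 0x181418121810180e180c088906) (nat_lit 0x80000e123) (nat_lit 52)))
 (.n (.p (nat_lit 0x281628122810280e280c0177281507) (nat_lit 0x400208) (nat_lit 7))
 (.p (nat_lit 0x5d17233702) (nat_lit 0x60040000b00) (nat_lit 38)))))
 (.n (.n (.n (.p (nat_lit 0x19801974179703) (nat_lit 0x240700) (nat_lit 6))
 (.p (nat_lit 0x139e0ebd02) (nat_lit 0x40051c) (nat_lit 5)))
 (.n (.p (nat_lit 0x4c564c524c504c4c0a410a3b06) (nat_lit 0x90000c8106) (nat_lit 52))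
 (.p (nat_lit 0x5c935e0b02) (nat_lit 0x2a0000000400) (nat_lit 36))))
 (.n (.n (.p (nat_lit 0x660081007718e31a4705) (nat_lit 0xa9900b02) (nat_lit 9))
 (.p (nat_lit 0x364b09f102) (nat_lit 0x5012a) (nat_lit 16)))
 (.n (.p (nat_lit 0x16421640163c163a01fa01ed01e7163f163909) (nat_lit 0x180060e) (nat_lit 10))
 (.p (nat_lit 0x8fc609b02) (nat_lit 0x342529ca4000100040000) (nat_lit 50))))))

def c512_9 : Tr := .n c1024_9 c1024_521

def c1024_265 : Tr :=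
 .n (.n (.n (.n (.n (.n (.p (nat_lit 0xff00f700f003) (nat_lit 0x40800005) (nat_lit 19))
 (.p (nat_lit 0xbac615f02) (nat_lit 0x352829d84000200040000) (nat_lit 49)))
 (.p (nat_lit 0x33383336333233300232022902233335332f09) (nat_lit 0x1800a10) (nat_lit 10)))
 (.n (.p (nat_lit 0x8b3a0702) (nat_lit 0x240503) (nat_lit 30))
 (.p (nat_lit 0x2456136d02) (nat_lit 0x300b2a) (nat_lit 4))))
 (.n (.n (.p (nat_lit 0x1e7e1e7c1e7a1e781e761bc306) (nat_lit 0x800016900) (nat_lit 52))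
 (.p (nat_lit 0x2d042fc502) (nat_lit 0x40001e) (nat_lit 4)))
 (.n (.p (nat_lit 0x50f31eff02) (nat_lit 0x302906) (nat_lit 16))
 (.p (nat_lit 0x5caf181702) (nat_lit 0xe0000000700) (nat_lit 40)))))
 (.n (.n (.n (.p (nat_lit 0x10321030102e102c102a102806) (nat_lit 0x84400) (nat_lit 51))
 (.p (nat_lit 0x370637043702370036fc32e906) (nat_lit 0x100004a917) (nat_lit 51)))
 (.n (.p (nat_lit 0x61e21e702) (nat_lit 0x100005) (nat_lit 5))
 (.p (nat_lit 0x3aa5b8f02) (nat_lit 0x50051c) (nat_lit 27))))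
 (.n (.n (.p (nat_lit 0x16a216a0169e169c169a204706) (nat_lit 0x8000cc901) (nat_lit 52))
 (.p (nat_lit 0x4efc4efa4ef84ef64ef2244706) (nat_lit 0x1000010b23) (nat_lit 52)))
 (.n (.p (nat_lit 0x3b38349902) (nat_lit 0x540a0a) (nat_lit 5))
 (.p (nat_lit 0xd085f5d02) (nat_lit 0x262530344000300000000) (nat_lit 49))))))
 (.n (.n (.n (.n (.p (nat_lit 0x92e092c092a09280926071d06) (nat_lit 0x8000c8100) (nat_lit 52))
 (.p (nat_lit 0xd4c0d4a0d480d4210eb10e906) (nat_lit 0x3000082415) (nat_lit 51)))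
 (.n (.p (nat_lit 0xfb90ceb02) (nat_lit 0x440204) (nat_lit 15))
 (.p (nat_lit 0x2b6589d02) (nat_lit 0x400201) (nat_lit 27))))
 (.n (.n (.p (nat_lit 0x258d22c502) (nat_lit 0x544b00) (nat_lit 16))
 (.p (nat_lit 0xebe0ebc0eba0eb80eb650b106) (nat_lit 0x80004a822) (nat_lit 51)))
 (.n (.p (nat_lit 0x1d491d3d02) (nat_lit 0x444807) (nat_lit 16))
 (.p (nat_lit 0x5cdd21cf02) (nat_lit 0x100020000a00) (nat_lit 39)))))
 (.n (.n (.n (.p (nat_lit 0x17ab16b102) (nat_lit 0x42600) (nat_lit 16))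
 (.p (nat_lit 0x1f0e1f0c1f0a1f061f04073906) (nat_lit 0x20000d201c) (nat_lit 52)))
 (.n (.p (nat_lit 0x1d88214902) (nat_lit 0x40805) (nat_lit 5))
 (.p (nat_lit 0x5da35df102) (nat_lit 0xa00a0000200) (nat_lit 37))))
 (.n (.n (.p (nat_lit 0xe820e800e7e0e7c0e7821b706) (nat_lit 0x1000086a02) (nat_lit 51))
 (.p (nat_lit 0x3a4506d02) (nat_lit 0x200829) (nat_lit 1)))
 (.n (.p (nat_lit 0x16ae16ac16aa16a816a6123506) (nat_lit 0x8000cc40e) (nat_lit 51))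
 (.p (nat_lit 0x180c605f02) (nat_lit 0x506272831000100000600) (nat_lit 49))))))

def c1024_777 : Tr :=
 .n (.n (.n (.n (.n (.n (.p (nat_lit 0x520051e051c051a051804db06) (nat_lit 0x800008000) (nat_lit 51))
 (.p (nat_lit 0x153861dd02) (nat_lit 0x3302a5895000000000600) (nat_lit 49)))
 (.p (nat_lit 0x437f437302) (nat_lit 0x246b12) (nat_lit 16)))
 (.n (.p (nat_lit 0x21e221e021de21dc21da246906) (nat_lit 0x800094b03) (nat_lit 51))
 (.p (nat_lit 0x3b5439bd02) (nat_lit 0x140a2d) (nat_lit 5))))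
 (.n (.n (.p (nat_lit 0x21de21d21ff903) (nat_lit 0x340a00) (nat_lit 6))
 (.p (nat_lit 0x5602560055fe55fc55fa55f8036e07) (nat_lit 0x40520) (nat_lit 8)))
 (.n (.p (nat_lit 0x1db61db41db21dae1dac0f6d06) (nat_lit 0x2000052307) (nat_lit 51))
 (.p (nat_lit 0x5d311c4d02) (nat_lit 0x1c0060000800) (nat_lit 41)))))
 (.n (.n (.n (.p (nat_lit 0x13fb13ef02) (nat_lit 0x240500) (nat_lit 34))
 (.p (nat_lit 0x47e445ab02) (nat_lit 0x41a) (nat_lit 4)))
 (.n (.p (nat_lit 0x77f151f02) (nat_lit 0x140505) (nat_lit 15))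
 (.p (nat_lit 0x5d595dbf02) (nat_lit 0x240080000000) (nat_lit 37))))
 (.n (.n (.p (nat_lit 0xe3019cf02) (nat_lit 0x302) (nat_lit 5))
 (.p (nat_lit 0x1180117e117a117811763ba106) (nat_lit 0x4000082b26) (nat_lit 52)))
 (.n (.p (nat_lit 0x4bfe4bfc4bfa4bf64bf44cf506) (nat_lit 0x200009020d) (nat_lit 52))
 (.p (nat_lit 0x20785fdf02) (nat_lit 0x3842a1c34000400000600) (nat_lit 50))))))
 (.n (.n (.n (.n (.p (nat_lit 0xd170d0b02) (nat_lit 0x200300) (nat_lit 34))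
 (.p (nat_lit 0x2c21a8702) (nat_lit 0x340715) (nat_lit 1)))
 (.n (.p (nat_lit 0xa5a0a580a560a540a5017f506) (nat_lit 0x1000044604) (nat_lit 51))
 (.p (nat_lit 0x14159f302) (nat_lit 0x207) (nat_lit 28))))
 (.n (.n (.p (nat_lit 0x2a6c2a682a662a642a6213ab06) (nat_lit 0x8000092501) (nat_lit 51))
 (.p (nat_lit 0xdb60db40db00dac0b4d0b4906) (nat_lit 0x5000012223) (nat_lit 52)))
 (.n (.p (nat_lit 0x2f962d2902) (nat_lit 0x540209) (nat_lit 5))
 (.p (nat_lit 0x6345ed702) (nat_lit 0x4a1a36344000000040000) (nat_lit 49)))))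
 (.n (.n (.n (.p (nat_lit 0x1b161b141b121b101903190106) (nat_lit 0x18000082800) (nat_lit 51))
 (.p (nat_lit 0x1a961a941a921a901a8e03071a8d07) (nat_lit 0x4071c) (nat_lit 7)))
 (.n (.p (nat_lit 0x152a251902) (nat_lit 0x140506) (nat_lit 4))
 (.p (nat_lit 0x5e22074102) (nat_lit 0x46500) (nat_lit 48))))
 (.n (.n (.p (nat_lit 0x352e352c352a35283526352406) (nat_lit 0x56003) (nat_lit 52))
 (.p (nat_lit 0xe1812dd02) (nat_lit 0x32a) (nat_lit 5)))
 (.n (.p (nat_lit 0x200c099302) (nat_lit 0x14090e) (nat_lit 5))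
 (.p (nat_lit 0x206a60dd02) (nat_lit 0x3505623a4000400000600) (nat_lit 49))))))

def c512_265 : Tr := .n c1024_265 c1024_777

def c256_9 : Tr := .n c512_9 c512_265

def c1024_137 : Tr :=
 .n (.n (.n (.n (.n (.n (.p (nat_lit 0x8e008a0088009304) (nat_lit 0xb000400003) (nat_lit 17))
 (.p (nat_lit 0x1542614102) (nat_lit 0x352a21d84000000000600) (nat_lit 50)))
 (.p (nat_lit 0x31002e5b02) (nat_lit 0x300410) (nat_lit 5)))
 (.n (.p (nat_lit 0x38df110b02) (nat_lit 0x2403) (nat_lit 16))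
 (.p (nat_lit 0x219d1ed502) (nat_lit 0x92a) (nat_lit 15))))
 (.n (.n (.p (nat_lit 0xb41bc302) (nat_lit 0x900) (nat_lit 1))
 (.p (nat_lit 0x2598259425922590258e030f259707) (nat_lit 0x440b1c) (nat_lit 7)))
 (.n (.p (nat_lit 0x1c501c4c1c4a1c461d9d1d9706) (nat_lit 0x90000d0806) (nat_lit 51))
 (.p (nat_lit 0x5d37169f02) (nat_lit 0x160060000600) (nat_lit 39)))))
 (.n (.n (.n (.p (nat_lit 0xf9d0c9302) (nat_lit 0x24e300) (nat_lit 16))
 (.p (nat_lit 0x2b6427ed02) (nat_lit 0x440816) (nat_lit 4)))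
 (.n (.p (nat_lit 0x21522150214e214c214a247506) (nat_lit 0x800090b04) (nat_lit 51))
 (.p (nat_lit 0x2b85b1902) (nat_lit 0x500615) (nat_lit 27))))
 (.n (.n (.p (nat_lit 0x1f0e1f0c1f0a1f081f041ee306) (nat_lit 0x1000092901) (nat_lit 52))
 (.p (nat_lit 0x202e11e702) (nat_lit 0x40923) (nat_lit 4)))
 (.n (.p (nat_lit 0x38d234f902) (nat_lit 0x40a) (nat_lit 4))
 (.p (nat_lit 0x13fc5f3902) (nat_lit 0x3a2560c44000500040000) (nat_lit 50))))))
 (.n (.n (.n (.n (.p (nat_lit 0x8060804080007fc05c305bf06) (nat_lit 0x500000e100) (nat_lit 52))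
 (.p (nat_lit 0x287540702) (nat_lit 0x340015) (nat_lit 30)))
 (.n (.p (nat_lit 0xa370a2b02) (nat_lit 0x556104) (nat_lit 16))
 (.p (nat_lit 0x12ce12cc12ca12c612c44a0706) (nat_lit 0x200000472f) (nat_lit 52))))
 (.n (.n (.p (nat_lit 0x22c4249702) (nat_lit 0x540b00) (nat_lit 5))
 (.p (nat_lit 0x4c0a4e0102) (nat_lit 0x500122) (nat_lit 4)))
 (.n (.p (nat_lit 0x1a6e518b02) (nat_lit 0x340707) (nat_lit 29))
 (.p (nat_lit 0x5d635e8f02) (nat_lit 0x1a0080000900) (nat_lit 37)))))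
 (.n (.n (.n (.p (nat_lit 0x16d216d016ce16c816b516b306) (nat_lit 0x30000c0600) (nat_lit 52))
 (.p (nat_lit 0x21e221e021de21dc21d805d706) (nat_lit 0x100009401c) (nat_lit 51)))
 (.n (.p (nat_lit 0x1f161f141f121f101ac71ac506) (nat_lit 0x180000d2705) (nat_lit 51))
 (.p (nat_lit 0x5de0427702) (nat_lit 0x20052200) (nat_lit 47))))
 (.n (.n (.p (nat_lit 0x90205d02) (nat_lit 0x540902) (nat_lit 1))
 (.p (nat_lit 0x10321030102e102a4a4d4a4906) (nat_lit 0x28000c4728) (nat_lit 51)))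
 (.n (.p (nat_lit 0x153e153c153a1538153410dd06) (nat_lit 0x100000c40e) (nat_lit 52))
 (.p (nat_lit 0x206a603f02) (nat_lit 0x4a8162340800400000600) (nat_lit 49))))))

def c1024_649 : Tr :=
 .n (.n (.n (.n (.n (.n (.p (nat_lit 0x43c0436044303) (nat_lit 0x900050002a) (nat_lit 17))
 (.p (nat_lit 0xe7261bd02) (nat_lit 0x322266c75000300040000) (nat_lit 49)))
 (.p (nat_lit 0x25353d502) (nat_lit 0x200512) (nat_lit 30)))
 (.n (.p (nat_lit 0x1fe41fe21fe01fdc1fda232b06) (nat_lit 0x2000056a03) (nat_lit 51))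
 (.p (nat_lit 0x35ce399502) (nat_lit 0x10012d) (nat_lit 4))))
 (.n (.n (.p (nat_lit 0x212e212c212a21281e8f1e8d06) (nat_lit 0x180000ea00) (nat_lit 52))
 (.p (nat_lit 0x3bea55e902) (nat_lit 0x440b1f) (nat_lit 29)))
 (.n (.p (nat_lit 0x1da81da61da41da21da00e0b06) (nat_lit 0x10000012307) (nat_lit 52))
 (.p (nat_lit 0x5e66205302) (nat_lit 0x4c800) (nat_lit 48)))))
 (.n (.n (.n (.p (nat_lit 0x12da12d812d212d010c910c706) (nat_lit 0x6000084500) (nat_lit 51))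
 (.p (nat_lit 0x423642344230422e422c02eb423307) (nat_lit 0x300619) (nat_lit 7)))
 (.n (.p (nat_lit 0x4790478e478c478a4788112306) (nat_lit 0x800002405) (nat_lit 52))
 (.p (nat_lit 0x5ce5064302) (nat_lit 0x80020000000) (nat_lit 41))))
 (.n (.n (.p (nat_lit 0xa120a100a0e0a0c0a0a00590a0907) (nat_lit 0x40102) (nat_lit 7))
 (.p (nat_lit 0x3648389902) (nat_lit 0x540126) (nat_lit 5)))
 (.n (.p (nat_lit 0x2116211421122110210c475106) (nat_lit 0x100004c30c) (nat_lit 52))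
 (.p (nat_lit 0x207a5fc502) (nat_lit 0x8982e915800400000600) (nat_lit 50))))))
 (.n (.n (.n (.n (.p (nat_lit 0xbec0be80be60be409d509cd06) (nat_lit 0x88000c8200) (nat_lit 51))
 (.p (nat_lit 0x164c543902) (nat_lit 0x400615) (nat_lit 29)))
 (.n (.p (nat_lit 0xfea0fe80fe60fe40fe0168306) (nat_lit 0x1000008604) (nat_lit 51))
 (.p (nat_lit 0xe359ab02) (nat_lit 0x605) (nat_lit 28))))
 (.n (.n (.p (nat_lit 0x12530f9302) (nat_lit 0x340301) (nat_lit 15))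
 (.p (nat_lit 0x16a0169e169c169a169809ef06) (nat_lit 0x100000cc123) (nat_lit 52)))
 (.n (.p (nat_lit 0x2b4c51f302) (nat_lit 0x140808) (nat_lit 29))
 (.p (nat_lit 0x5d53249502) (nat_lit 0x2a0080000b00) (nat_lit 41)))))
 (.n (.n (.n (.p (nat_lit 0x1a4e1a4c1a461a441799179706) (nat_lit 0x6000056700) (nat_lit 52))
 (.p (nat_lit 0x11ca11c611c411c214eb14e706) (nat_lit 0x1400005051c) (nat_lit 52)))
 (.n (.p (nat_lit 0x4e2f0fd102) (nat_lit 0x442306) (nat_lit 16))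
 (.p (nat_lit 0x5d7b0fdd02) (nat_lit 0x20080000400) (nat_lit 38))))
 (.n (.n (.p (nat_lit 0x25bc341902) (nat_lit 0x540b02) (nat_lit 29))
 (.p (nat_lit 0x57be57bc57ba57b857b657b4044007) (nat_lit 0x4022a) (nat_lit 8)))
 (.n (.p (nat_lit 0x357c357a3578357635741be506) (nat_lit 0x1000000880e) (nat_lit 52))
 (.p (nat_lit 0x12a712990feb0fd50d170d0d0a510a4d07a7079f04d704c360c40d) (nat_lit 0x3542623b0000000000000) (nat_lit 33))))))

def c512_137 : Tr := .n c1024_137 c1024_649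

def c1024_393 : Tr :=
 .n (.n (.n (.n (.n (.n (.p (nat_lit 0x1f001ee01e601f304) (nat_lit 0x1880040000e) (nat_lit 17))
 (.p (nat_lit 0x1538617d02) (nat_lit 0x421a86b15000000000600) (nat_lit 49)))
 (.p (nat_lit 0x1b9a1b981b961b941b9238e906) (nat_lit 0x10000014411) (nat_lit 52)))
 (.n (.p (nat_lit 0x17e61ced02) (nat_lit 0x40603) (nat_lit 4))
 (.p (nat_lit 0x2bc52b3302) (nat_lit 0x82b) (nat_lit 15))))
 (.n (.n (.p (nat_lit 0x1f301f2e1f2a1f281d331d2d06) (nat_lit 0x120000c0900) (nat_lit 51))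
 (.p (nat_lit 0xd340d320d2e0d2c0d2a33a106) (nat_lit 0x40000c0a1e) (nat_lit 51)))
 (.n (.p (nat_lit 0xb420b400b3e0b3c0b3a014b0b4507) (nat_lit 0x500207) (nat_lit 7))
 (.p (nat_lit 0x5cef198102) (nat_lit 0x2e0040000700) (nat_lit 41)))))
 (.n (.n (.n (.p (nat_lit 0x1147113b02) (nat_lit 0x40400) (nat_lit 34))
 (.p (nat_lit 0x8639eb02) (nat_lit 0x518) (nat_lit 1)))
 (.n (.p (nat_lit 0x8df08d302) (nat_lit 0x10c105) (nat_lit 16))
 (.p (nat_lit 0x3a803a603a403a20427000106) (nat_lit 0x2816123) (nat_lit 26))))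
 (.n (.n (.p (nat_lit 0x23fa23f823f423f223f021af06) (nat_lit 0x4000090a01) (nat_lit 51))
 (.p (nat_lit 0x16061604160215fe15fc27af06) (nat_lit 0x20000d2124) (nat_lit 51)))
 (.n (.p (nat_lit 0x3f983c1b02) (nat_lit 0x40030b) (nat_lit 4))
 (.p (nat_lit 0x12aa5f7902) (nat_lit 0x560bb0344000500000000) (nat_lit 50))))))
 (.n (.n (.n (.n (.p (nat_lit 0x8720a5302) (nat_lit 0x100200) (nat_lit 5))
 (.p (nat_lit 0x13941392138e138c138a0287139107) (nat_lit 0x300515) (nat_lit 7)))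
 (.n (.p (nat_lit 0x1120111a1118111600dc00bd00bb111f111d09) (nat_lit 0x2300404) (nat_lit 10))
 (.p (nat_lit 0x5958f702) (nat_lit 0x902) (nat_lit 28))))
 (.n (.n (.p (nat_lit 0x791075502) (nat_lit 0x454001) (nat_lit 16))
 (.p (nat_lit 0x748100102) (nat_lit 0x440023) (nat_lit 4)))
 (.n (.p (nat_lit 0x22ce51c902) (nat_lit 0x440a07) (nat_lit 29))
 (.p (nat_lit 0x5d65207f02) (nat_lit 0x180080000a00) (nat_lit 40)))))
 (.n (.n (.n (.p (nat_lit 0x18c618c418c218be18bc162506) (nat_lit 0x2000092700) (nat_lit 52))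
 (.p (nat_lit 0x889087d02) (nat_lit 0xa11c) (nat_lit 16)))
 (.n (.p (nat_lit 0x4af64af44af24af04aee063306) (nat_lit 0x10000010006) (nat_lit 52))
 (.p (nat_lit 0x5d3f5e0302) (nat_lit 0xe0060000300) (nat_lit 37))))
 (.n (.n (.p (nat_lit 0x7a807a607a407a207a0232506) (nat_lit 0x10000042a02) (nat_lit 51))
 (.p (nat_lit 0x50805040502050004fe089d06) (nat_lit 0x800000612a) (nat_lit 52)))
 (.n (.p (nat_lit 0x6c806c606c406c21381137f06) (nat_lit 0x180001050e) (nat_lit 51))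
 (.p (nat_lit 0x2497248121e121d31f151f071c471c451983197916a7169d607c0d) (nat_lit 0x511a22b85000000040600) (nat_lit 33))))))

def c1024_905 : Tr :=
 .n (.n (.n (.n (.n (.p (nat_lit 0x656063f02) (nat_lit 0x540000) (nat_lit 4))
 (.p (nat_lit 0x3ddc3dd83dd63dd43dd24a7f06) (nat_lit 0x800000e813) (nat_lit 51)))
 (.n (.p (nat_lit 0x1aea1ae81ae61ae41ae025c106) (nat_lit 0x1000050b03) (nat_lit 51))
 (.p (nat_lit 0x1e7e1e7c1e7a1e761e743f2906) (nat_lit 0x200005622e) (nat_lit 52))))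
 (.n (.n (.p (nat_lit 0x22c11ff902) (nat_lit 0x340a00) (nat_lit 15))
 (.p (nat_lit 0x423b434702) (nat_lit 0x100b20) (nat_lit 15)))
 (.n (.p (nat_lit 0x1460145c1458145610d710d306) (nat_lit 0xa00000e407) (nat_lit 51))
 (.p (nat_lit 0x5d9d5e7d02) (nat_lit 0x1000a0000800) (nat_lit 37)))))
 (.n (.n (.n (.p (nat_lit 0x14dd122502) (nat_lit 0x444500) (nat_lit 16))
 (.p (nat_lit 0xbf80bf40bf20bf00bee49e906) (nat_lit 0x800000a71a) (nat_lit 51)))
 (.n (.p (nat_lit 0x1808228902) (nat_lit 0x540605) (nat_lit 5))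
 (.p (nat_lit 0x5d07079902) (nat_lit 0x160040000100) (nat_lit 38))))
 (.n (.n (.p (nat_lit 0x110819ef02) (nat_lit 0x500402) (nat_lit 5))
 (.p (nat_lit 0x3f22405102) (nat_lit 0x540227) (nat_lit 5)))
 (.n (.p (nat_lit 0x508c4afb02) (nat_lit 0x4080d) (nat_lit 4))
 (.p (nat_lit 0x15345fff02) (nat_lit 0x16a88cd50000000000600) (nat_lit 49))))))
 (.n (.n (.n (.n (.p (nat_lit 0xdc20dc00dbc0dba0b350b2f06) (nat_lit 0x4800092300) (nat_lit 52))
 (.p (nat_lit 0x20160af502) (nat_lit 0x40915) (nat_lit 4)))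
 (.n (.p (nat_lit 0xc200d300df1e631fc905) (nat_lit 0x86b00704) (nat_lit 9))
 (.p (nat_lit 0x1a201a0019c01980147049106) (nat_lit 0x191640a) (nat_lit 26))))
 (.n (.n (.p (nat_lit 0x19ca19c619c419c21c211c1d06) (nat_lit 0x14000084801) (nat_lit 51))
 (.p (nat_lit 0x166616641660165e03b603a703a11663165d09) (nat_lit 0x1800623) (nat_lit 10)))
 (.n (.p (nat_lit 0x316e521102) (nat_lit 0x440409) (nat_lit 29))
 (.p (nat_lit 0xa445ef302) (nat_lit 0x4a9d84344000200000000) (nat_lit 49)))))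
 (.n (.n (.n (.p (nat_lit 0x1c0d18fb02) (nat_lit 0x10a800) (nat_lit 16))
 (.p (nat_lit 0x3836383438323830382e1d5f06) (nat_lit 0x400005481c) (nat_lit 51)))
 (.n (.p (nat_lit 0x17541752174e174c174a1acf06) (nat_lit 0x4000050706) (nat_lit 51))
 (.p (nat_lit 0x5d6d5e3102) (nat_lit 0x100080000500) (nat_lit 36))))
 (.n (.n (.p (nat_lit 0x360e360c360a360636040a1906) (nat_lit 0x200004c103) (nat_lit 52))
 (.p (nat_lit 0x11d611d411d211d00f8b0f8106) (nat_lit 0x108000d032a) (nat_lit 52)))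
 (.n (.p (nat_lit 0x3b7d242702) (nat_lit 0x310b0e) (nat_lit 16))
 (.p (nat_lit 0x233660fd02) (nat_lit 0x340a623b0000500000600) (nat_lit 49))))))

def c512_393 : Tr := .n c1024_393 c1024_905

def c256_137 : Tr := .n c512_137 c512_393

def c128_9 : Tr := .n c256_9 c256_137

def c1024_73 : Tr :=
 .n (.n (.n (.n (.n (.n (.p (nat_lit 0x550051003803) (nat_lit 0xa1a00001) (nat_lit 19))
 (.p (nat_lit 0x2336613102) (nat_lit 0x35486a1b0000500000600) (nat_lit 49)))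
 (.p (nat_lit 0x93a09380936093409322b9506) (nat_lit 0x80000a90f) (nat_lit 52)))
 (.n (.p (nat_lit 0x126b0fab02) (nat_lit 0x340303) (nat_lit 15))
 (.p (nat_lit 0x1edd1c1302) (nat_lit 0x40082a) (nat_lit 15))))
 (.n (.n (.p (nat_lit 0x1d261d221d201d1e1a651a5d06) (nat_lit 0x88000d6800) (nat_lit 52))
 (.p (nat_lit 0x22ff22f302) (nat_lit 0x44aa1c) (nat_lit 16)))
 (.n (.p (nat_lit 0x79e079c079807941d9b1d9706) (nat_lit 0x5000042806) (nat_lit 52))
 (.p (nat_lit 0x5e3e292502) (nat_lit 0x20040600) (nat_lit 48)))))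
 (.n (.n (.n (.p (nat_lit 0xf040f020efe0efc0c990c9306) (nat_lit 0x12000050300) (nat_lit 52))
 (.p (nat_lit 0x2595258902) (nat_lit 0x348b15) (nat_lit 16)))
 (.n (.p (nat_lit 0xe6247902) (nat_lit 0x200b04) (nat_lit 1))
 (.p (nat_lit 0x240023e023c023a024f009106) (nat_lit 0x514411) (nat_lit 26))))
 (.n (.n (.p (nat_lit 0x4cc04c804c604c404c21ee906) (nat_lit 0x8000000901) (nat_lit 52))
 (.p (nat_lit 0x392439223920391c391a1d6906) (nat_lit 0x20000c2823) (nat_lit 52)))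
 (.n (.p (nat_lit 0x37d234e302) (nat_lit 0x30a) (nat_lit 5))
 (.p (nat_lit 0x181c5f2f02) (nat_lit 0x3a2560b44000100000600) (nat_lit 50))))))
 (.n (.n (.n (.n (.p (nat_lit 0x5c607ab02) (nat_lit 0x500100) (nat_lit 5))
 (.p (nat_lit 0x5d205ce05cc05ca05c8028905d107) (nat_lit 0x400015) (nat_lit 7)))
 (.n (.p (nat_lit 0xb8b08cd02) (nat_lit 0x400104) (nat_lit 15))
 (.p (nat_lit 0x22a0229c229a22982296469506) (nat_lit 0x80000ce22f) (nat_lit 52))))
 (.n (.n (.p (nat_lit 0x243d215902) (nat_lit 0x206b00) (nat_lit 16))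
 (.p (nat_lit 0x1144b1d02) (nat_lit 0x100022) (nat_lit 1)))
 (.n (.p (nat_lit 0x1908054902) (nat_lit 0x200707) (nat_lit 4))
 (.p (nat_lit 0x5d431da702) (nat_lit 0xa0060000900) (nat_lit 38)))))
 (.n (.n (.n (.p (nat_lit 0x1673155702) (nat_lit 0x50a600) (nat_lit 16))
 (.p (nat_lit 0xbb00bac0baa0ba80ba605dd06) (nat_lit 0x800008401c) (nat_lit 52)))
 (.n (.p (nat_lit 0xa5a0a580a560a540a521abd06) (nat_lit 0x800044705) (nat_lit 51))
 (.p (nat_lit 0x5dde087d02) (nat_lit 0x8200) (nat_lit 48))))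
 (.n (.n (.p (nat_lit 0x1b541b521b501b4c1ef11eed06) (nat_lit 0x2800008902) (nat_lit 52))
 (.p (nat_lit 0x4682481f02) (nat_lit 0x140228) (nat_lit 4)))
 (.n (.p (nat_lit 0x475d0f7702) (nat_lit 0x15430e) (nat_lit 16))
 (.p (nat_lit 0x1da6602f02) (nat_lit 0x466a62335000300000600) (nat_lit 49))))))

def c1024_585 : Tr :=
 .n (.n (.n (.n (.n (.n (.p (nat_lit 0x3a803a603a203ad04) (nat_lit 0xd000400023) (nat_lit 17))
 (.p (nat_lit 0xbb661ad02) (nat_lit 0x3421a9c14800200040000) (nat_lit 50)))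
 (.p (nat_lit 0x408c3d9b02) (nat_lit 0x500412) (nat_lit 5)))
 (.n (.p (nat_lit 0x3b0b21c502) (nat_lit 0x206a03) (nat_lit 16))
 (.p (nat_lit 0x3362325102) (nat_lit 0x200a2c) (nat_lit 4))))
 (.n (.n (.p (nat_lit 0x1e941e921e901e8e0014000b00011e971e8d09) (nat_lit 0x2800a00) (nat_lit 10))
 (.p (nat_lit 0x3b44384102) (nat_lit 0x540a1f) (nat_lit 5)))
 (.n (.p (nat_lit 0xe0a0e080e020e000162014701450e070e0509) (nat_lit 0x1a00307) (nat_lit 10))
 (.p (nat_lit 0x5d85181502) (nat_lit 0x2800a0000700) (nat_lit 38)))))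
 (.n (.n (.n (.p (nat_lit 0x12a4129810c703) (nat_lit 0x200500) (nat_lit 6))
 (.p (nat_lit 0x419c3e2b02) (nat_lit 0x500519) (nat_lit 4)))
 (.n (.p (nat_lit 0xfc60fc40fc00fbe0fbc00e90fc307) (nat_lit 0x340305) (nat_lit 7))
 (.p (nat_lit 0x4b204b004ae04ac04a3043f06) (nat_lit 0x51072f) (nat_lit 26))))
 (.n (.n (.p (nat_lit 0x2d642d622d602d5e2d5c2d5a06) (nat_lit 0x52002) (nat_lit 52))
 (.p (nat_lit 0x33f8574902) (nat_lit 0xb25) (nat_lit 29)))
 (.n (.p (nat_lit 0x45fc43bd02) (nat_lit 0x30020c) (nat_lit 4))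
 (.p (nat_lit 0xbb05fa702) (nat_lit 0x89832955800200040000) (nat_lit 49))))))
 (.n (.n (.n (.n (.p (nat_lit 0x28609d302) (nat_lit 0x340200) (nat_lit 1))
 (.p (nat_lit 0x1ade1adc1ada1ad81ad414d706) (nat_lit 0x1000050515) (nat_lit 52)))
 (.n (.p (nat_lit 0x168a168816861684168200b5168107) (nat_lit 0x604) (nat_lit 7))
 (.p (nat_lit 0xea598502) (nat_lit 0x400b04) (nat_lit 27))))
 (.n (.n (.p (nat_lit 0xe26170502) (nat_lit 0x100301) (nat_lit 5))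
 (.p (nat_lit 0x9e456a102) (nat_lit 0x40123) (nat_lit 29)))
 (.n (.p (nat_lit 0x2928260902) (nat_lit 0x340308) (nat_lit 5))
 (.p (nat_lit 0x5d27234502) (nat_lit 0x260060000b00) (nat_lit 40)))))
 (.n (.n (.n (.p (nat_lit 0x1a121a101a0e1a0c1795179306) (nat_lit 0x18000ca700) (nat_lit 52))
 (.p (nat_lit 0x3a214e302) (nat_lit 0x14051c) (nat_lit 1)))
 (.n (.p (nat_lit 0xe62239502) (nat_lit 0x100306) (nat_lit 5))
 (.p (nat_lit 0x5e0e3bf102) (nat_lit 0x20050400) (nat_lit 48))))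
 (.n (.n (.p (nat_lit 0x175e175c175a17582467245d06) (nat_lit 0x10800090b02) (nat_lit 51))
 (.p (nat_lit 0x129e129a129612940b5b0b5706) (nat_lit 0xa00000a22a) (nat_lit 52)))
 (.n (.p (nat_lit 0x42c1191502) (nat_lit 0x21270e) (nat_lit 16))
 (.p (nat_lit 0x1c4660a902) (nat_lit 0x344581ca4000200040600) (nat_lit 50))))))

def c512_73 : Tr := .n c1024_73 c1024_585

def c1024_329 : Tr :=
 .n (.n (.n (.n (.n (.n (.p (nat_lit 0x1440142014f03) (nat_lit 0x3000500007) (nat_lit 17))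
 (.p (nat_lit 0x13ec616d02) (nat_lit 0x421aa4394000500040000) (nat_lit 49)))
 (.p (nat_lit 0x27942792278e278c278a33dd06) (nat_lit 0x4000012b10) (nat_lit 51)))
 (.n (.p (nat_lit 0x62167f02) (nat_lit 0x500603) (nat_lit 1))
 (.p (nat_lit 0x28222820281c2818047204690465281f281b09) (nat_lit 0x190022b) (nat_lit 10))))
 (.n (.n (.p (nat_lit 0x1ee31bc502) (nat_lit 0x10c900) (nat_lit 16))
 (.p (nat_lit 0x32f2305d02) (nat_lit 0x4091e) (nat_lit 5)))
 (.n (.p (nat_lit 0x227c227a227622742065205f06) (nat_lit 0x480004c906) (nat_lit 51))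
 (.p (nat_lit 0x5cdb181902) (nat_lit 0x120020000700) (nat_lit 40)))))
 (.n (.n (.n (.p (nat_lit 0x10c010bc10ba10b60dfd0df706) (nat_lit 0x9000096400) (nat_lit 52))
 (.p (nat_lit 0x33a3339702) (nat_lit 0x448a17) (nat_lit 16)))
 (.n (.p (nat_lit 0x78607820780077e077c00eb078507) (nat_lit 0x440005) (nat_lit 7))
 (.p (nat_lit 0x40a5bbb02) (nat_lit 0x100521) (nat_lit 27))))
 (.n (.n (.p (nat_lit 0x2063204b02) (nat_lit 0x254901) (nat_lit 16))
 (.p (nat_lit 0x264229ad02) (nat_lit 0x100024) (nat_lit 5)))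
 (.n (.p (nat_lit 0x66e066c0668066606643bc506) (nat_lit 0x40000c4b0a) (nat_lit 51))
 (.p (nat_lit 0x1dac5f6f02) (nat_lit 0x3aa074b50000300000600) (nat_lit 50))))))
 (.n (.n (.n (.n (.p (nat_lit 0x9d7072702) (nat_lit 0x540100) (nat_lit 15))
 (.p (nat_lit 0x124a124812441240029c028702831247124309) (nat_lit 0x1940415) (nat_lit 10)))
 (.n (.p (nat_lit 0xfb61e0f02) (nat_lit 0x340304) (nat_lit 5))
 (.p (nat_lit 0x3400320030002e0113000306) (nat_lit 0x114901) (nat_lit 26))))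
 (.n (.n (.p (nat_lit 0x2602260025fe25fc25fa25f806) (nat_lit 0x6001) (nat_lit 52))
 (.p (nat_lit 0x12b612b012ae12ac05e905e706) (nat_lit 0xc000002023) (nat_lit 52)))
 (.n (.p (nat_lit 0x203d200102) (nat_lit 0x148907) (nat_lit 16))
 (.p (nat_lit 0x5cef21d102) (nat_lit 0x2e0040000a00) (nat_lit 39)))))
 (.n (.n (.n (.p (nat_lit 0x162a1626162416220012000900011629162109) (nat_lit 0x2000700) (nat_lit 10))
 (.p (nat_lit 0x8820ea302) (nat_lit 0x30011c) (nat_lit 4)))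
 (.n (.p (nat_lit 0x1fc01fbe1fbc1fba1fb61d8b06) (nat_lit 0x10000cc805) (nat_lit 52))
 (.p (nat_lit 0x5cd35dfb02) (nat_lit 0x1a0020000300) (nat_lit 37))))
 (.n (.n (.p (nat_lit 0x248a248824862484248021b706) (nat_lit 0x1000096a02) (nat_lit 52))
 (.p (nat_lit 0x120e120c120a120450c150bf06) (nat_lit 0x3000056829) (nat_lit 51)))
 (.n (.p (nat_lit 0x484f123902) (nat_lit 0x25440e) (nat_lit 16))
 (.p (nat_lit 0x206a606f02) (nat_lit 0x588172b40800400000600) (nat_lit 49))))))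

def c1024_841 : Tr :=
 .n (.n (.n (.n (.n (.n (.p (nat_lit 0x5d104e302) (nat_lit 0x404000) (nat_lit 16))
 (.p (nat_lit 0x8ee61eb02) (nat_lit 0x14e0a8c74000100040000) (nat_lit 49)))
 (.p (nat_lit 0x494244d902) (nat_lit 0x240513) (nat_lit 5)))
 (.n (.p (nat_lit 0x25c625c425c225c025be009125c907) (nat_lit 0x540b03) (nat_lit 7))
 (.p (nat_lit 0x1448144614441442143e3bfd06) (nat_lit 0x10000c6b2d) (nat_lit 52))))
 (.n (.n (.p (nat_lit 0x227c227a2276227422721ff906) (nat_lit 0x400004ca00) (nat_lit 51))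
 (.p (nat_lit 0xd4c0d4a0d480d460d44428106) (nat_lit 0x8000c2620) (nat_lit 51)))
 (.n (.p (nat_lit 0x43410cf02) (nat_lit 0x407) (nat_lit 1))
 (.p (nat_lit 0x5d671c4f02) (nat_lit 0x160080000800) (nat_lit 41)))))
 (.n (.n (.n (.p (nat_lit 0x143c1436143414321225122306) (nat_lit 0xc000046500) (nat_lit 52))
 (.p (nat_lit 0x494e464902) (nat_lit 0x24051a) (nat_lit 4)))
 (.n (.p (nat_lit 0x23ee23ec23ea23e61691168d06) (nat_lit 0x2800010605) (nat_lit 52))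
 (.p (nat_lit 0x5dc605c902) (nat_lit 0x6100) (nat_lit 48))))
 (.n (.n (.p (nat_lit 0xf9819db02) (nat_lit 0x40302) (nat_lit 5))
 (.p (nat_lit 0x1e581e561e541e521e503d7b06) (nat_lit 0x1000008c127) (nat_lit 51)))
 (.n (.p (nat_lit 0x1df52ab02) (nat_lit 0x34040d) (nat_lit 30))
 (.p (nat_lit 0x23445fed02) (nat_lit 0x306a81d31000500000600) (nat_lit 50))))))
 (.n (.n (.n (.n (.p (nat_lit 0xd4c0d4a0d480d440d420b3306) (nat_lit 0x2000082300) (nat_lit 51))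
 (.p (nat_lit 0x1d500ae502) (nat_lit 0x240815) (nat_lit 4)))
 (.n (.p (nat_lit 0x1f0e1f0c1f0a1f061f0417f706) (nat_lit 0x20000d2604) (nat_lit 52))
 (.p (nat_lit 0x17601740170016e0467003506) (nat_lit 0x1508308) (nat_lit 26))))
 (.n (.n (.p (nat_lit 0x150114f502) (nat_lit 0x450501) (nat_lit 16))
 (.p (nat_lit 0xeb00eae0eac0eaa0cb10ca706) (nat_lit 0x108000c2223) (nat_lit 52)))
 (.n (.p (nat_lit 0x308c2cb302) (nat_lit 0x140309) (nat_lit 5))
 (.p (nat_lit 0x8fa5ee302) (nat_lit 0x4a8866344000100040000) (nat_lit 50)))))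
 (.n (.n (.n (.p (nat_lit 0x1ba81ba41ba21ba0190118f906) (nat_lit 0x8800094800) (nat_lit 52))
 (.p (nat_lit 0x1bfc1bfa1bf61bf20324030d03091bf91bf509) (nat_lit 0x190081c) (nat_lit 10)))
 (.n (.p (nat_lit 0x17781776177417721770196506) (nat_lit 0x800092706) (nat_lit 52))
 (.p (nat_lit 0x5cef12a502) (nat_lit 0x2e0040000500) (nat_lit 40))))
 (.n (.n (.p (nat_lit 0x35b435b235b035ae35ac08c306) (nat_lit 0x10000096103) (nat_lit 51))
 (.p (nat_lit 0x37e50e2102) (nat_lit 0x41032a) (nat_lit 16)))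
 (.n (.p (nat_lit 0x1eb535102) (nat_lit 0x240a0e) (nat_lit 30))
 (.p (nat_lit 0x13fe60f102) (nat_lit 0x440d623a4000500040000) (nat_lit 50))))))

def c512_329 : Tr := .n c1024_329 c1024_841

def c256_73 : Tr := .n c512_73 c512_329

def c1024_201 : Tr :=
 .n (.n (.n (.n (.n (.n (.p (nat_lit 0xbe00bc00c303) (nat_lit 0x18000500004) (nat_lit 17))
 (.p (nat_lit 0x8f0615102) (nat_lit 0x2b0221d84000100040000) (nat_lit 49)))
 (.p (nat_lit 0x39df31e102) (nat_lit 0x12510) (nat_lit 16)))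
 (.n (.p (nat_lit 0x397d126f02) (nat_lit 0x542403) (nat_lit 16))
 (.p (nat_lit 0x43d583502) (nat_lit 0x400a2a) (nat_lit 30))))
 (.n (.n (.p (nat_lit 0x1e2a1e281e241e221bc91bc306) (nat_lit 0x4800088900) (nat_lit 52))
 (.p (nat_lit 0x2b2828a702) (nat_lit 0x50081d) (nat_lit 5)))
 (.n (.p (nat_lit 0x1efe255902) (nat_lit 0x300906) (nat_lit 4))
 (.p (nat_lit 0x5d53154902) (nat_lit 0x2a0080000600) (nat_lit 40)))))
 (.n (.n (.n (.p (nat_lit 0xdfc0dfa0df80df4001c000b00030dff0df709) (nat_lit 0x2900400) (nat_lit 10))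
 (.p (nat_lit 0x31ee2f5502) (nat_lit 0x100517) (nat_lit 5)))
 (.n (.p (nat_lit 0x20ba20b620b420b225d325cb06) (nat_lit 0x8800044b04) (nat_lit 51))
 (.p (nat_lit 0x2f95b6102) (nat_lit 0x30041a) (nat_lit 28))))
 (.n (.n (.p (nat_lit 0x204c2bd702) (nat_lit 0x340901) (nat_lit 29))
 (.p (nat_lit 0x22f6109f02) (nat_lit 0x40a23) (nat_lit 4)))
 (.n (.p (nat_lit 0x40f5396702) (nat_lit 0x5440a) (nat_lit 16))
 (.p (nat_lit 0x1db65f5102) (nat_lit 0x1a1d22350000300000600) (nat_lit 50))))))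
 (.n (.n (.n (.n (.p (nat_lit 0x8d105bd02) (nat_lit 0x14100) (nat_lit 16))
 (.p (nat_lit 0x10f010ee10ec10ea10e8028110e707) (nat_lit 0x415) (nat_lit 7)))
 (.n (.p (nat_lit 0x3e943e923e903e8e3e8c3e8a00c007) (nat_lit 0x40204) (nat_lit 8))
 (.p (nat_lit 0x4dd64f4f02) (nat_lit 0x100330) (nat_lit 5))))
 (.n (.n (.p (nat_lit 0x25442540253c253a22c322bf06) (nat_lit 0xa000050b00) (nat_lit 51))
 (.p (nat_lit 0x50b7502702) (nat_lit 0x340722) (nat_lit 15)))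
 (.n (.p (nat_lit 0x3502350034fc34f81bd51bd106) (nat_lit 0x5000008807) (nat_lit 52))
 (.p (nat_lit 0x5cbd206b02) (nat_lit 0xa00) (nat_lit 38)))))
 (.n (.n (.n (.p (nat_lit 0x176c176a1766176416b716b106) (nat_lit 0x4800052600) (nat_lit 51))
 (.p (nat_lit 0x8fe08fc08f808f608f4073b06) (nat_lit 0x40000c201c) (nat_lit 51)))
 (.n (.p (nat_lit 0x1c2c1c281c261c241c2200eb1c2b07) (nat_lit 0x400805) (nat_lit 7))
 (.p (nat_lit 0x5d735ded02) (nat_lit 0xa0080000200) (nat_lit 37))))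
 (.n (.n (.p (nat_lit 0x32e3205902) (nat_lit 0x342902) (nat_lit 16))
 (.p (nat_lit 0x4c904c8e4c8a4c884c8604234c8d07) (nat_lit 0x340129) (nat_lit 7)))
 (.n (.p (nat_lit 0x38e910e502) (nat_lit 0x51040e) (nat_lit 16))
 (.p (nat_lit 0x638604f02) (nat_lit 0x40a962335000000040000) (nat_lit 49))))))

def c1024_713 : Tr :=
 .n (.n (.n (.n (.n (.n (.p (nat_lit 0x4e204d702) (nat_lit 0x400000) (nat_lit 5))
 (.p (nat_lit 0x114261cd02) (nat_lit 0x3421684a0800400040000) (nat_lit 49)))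
 (.p (nat_lit 0x7f007ee07ec07ea07e8422b06) (nat_lit 0x1000008a612) (nat_lit 51)))
 (.n (.p (nat_lit 0xbae0bac0baa0ba80ba6247306) (nat_lit 0x10000084b03) (nat_lit 52))
 (.p (nat_lit 0x1b841b821b801b7e1b7a36d106) (nat_lit 0x100000c22d) (nat_lit 51))))
 (.n (.n (.p (nat_lit 0x21771e9702) (nat_lit 0x502a00) (nat_lit 16))
 (.p (nat_lit 0x1fb41fb21fb01fac1faa3d0506) (nat_lit 0x200004c020) (nat_lit 51)))
 (.n (.p (nat_lit 0xf700f6e0f6c0f6a0f68014b0f7307) (nat_lit 0x540307) (nat_lit 7))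
 (.p (nat_lit 0x5e6c364102) (nat_lit 0x20048800) (nat_lit 47)))))
 (.n (.n (.n (.p (nat_lit 0x4dd10c502) (nat_lit 0x100500) (nat_lit 15))
 (.p (nat_lit 0x42ce3ef502) (nat_lit 0x300719) (nat_lit 4)))
 (.n (.p (nat_lit 0x4b013d902) (nat_lit 0x300505) (nat_lit 1))
 (.p (nat_lit 0x5db6421902) (nat_lit 0x40012000) (nat_lit 47))))
 (.n (.n (.p (nat_lit 0xb74185b02) (nat_lit 0x500202) (nat_lit 4))
 (.p (nat_lit 0x382438223820381e381c375306) (nat_lit 0x200004a226) (nat_lit 51)))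
 (.n (.p (nat_lit 0x49ce447702) (nat_lit 0x30070c) (nat_lit 5))
 (.p (nat_lit 0x15425fd102) (nat_lit 0x95a2ec05000000000600) (nat_lit 50))))))
 (.n (.n (.n (.n (.p (nat_lit 0xca309d502) (nat_lit 0x440200) (nat_lit 16))
 (.p (nat_lit 0x19200c2102) (nat_lit 0x200715) (nat_lit 4)))
 (.n (.p (nat_lit 0x4229168902) (nat_lit 0x402604) (nat_lit 16))
 (.p (nat_lit 0x11c0118011601140001027106) (nat_lit 0x410106) (nat_lit 26))))
 (.n (.n (.p (nat_lit 0x2f29a302) (nat_lit 0x240401) (nat_lit 30))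
 (.p (nat_lit 0x4c9109ef02) (nat_lit 0x556123) (nat_lit 16)))
 (.n (.p (nat_lit 0x2be4263d02) (nat_lit 0x440908) (nat_lit 5))
 (.p (nat_lit 0x12a45ec502) (nat_lit 0x260b84344000500000000) (nat_lit 50)))))
 (.n (.n (.n (.p (nat_lit 0x1ab7179902) (nat_lit 0x352700) (nat_lit 16))
 (.p (nat_lit 0x17cc0d7d02) (nat_lit 0x54061c) (nat_lit 5)))
 (.n (.p (nat_lit 0x424129102) (nat_lit 0x440406) (nat_lit 1))
 (.p (nat_lit 0x5d9f0fdf02) (nat_lit 0xe00a0000400) (nat_lit 38))))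
 (.n (.n (.p (nat_lit 0x8f343b02) (nat_lit 0x400003) (nat_lit 30))
 (.p (nat_lit 0x153e153c153a153815360cb306) (nat_lit 0x80004c22a) (nat_lit 52)))
 (.n (.p (nat_lit 0x35aa35a835a635a435a21d4106) (nat_lit 0x80005680e) (nat_lit 51))
 (.p (nat_lit 0x8fa60d302) (nat_lit 0x340a623b0000100040000) (nat_lit 50))))))

def c512_201 : Tr := .n c1024_201 c1024_713

def c1024_457 : Tr :=
 .n (.n (.n (.n (.n (.n (.p (nat_lit 0x28a0284028f03) (nat_lit 0x12000500015) (nat_lit 17))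
 (.p (nat_lit 0x648618d02) (nat_lit 0x54c88a970000000040000) (nat_lit 50)))
 (.p (nat_lit 0x39e4360102) (nat_lit 0x300511) (nat_lit 4)))
 (.n (.p (nat_lit 0x1a1e1a181a161a1417ef17ed06) (nat_lit 0xc000052603) (nat_lit 51))
 (.p (nat_lit 0x12b612b412b212b012ac2c1b06) (nat_lit 0x100004292b) (nat_lit 52))))
 (.n (.n (.p (nat_lit 0x1fbe1fba1fb81fb61d331d2f06) (nat_lit 0x140000cc900) (nat_lit 52))
 (.p (nat_lit 0x3552380902) (nat_lit 0x54001f) (nat_lit 4)))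
 (.n (.p (nat_lit 0x36bd0b4102) (nat_lit 0x310207) (nat_lit 16))
 (.p (nat_lit 0x5e5a181d02) (nat_lit 0x60000700) (nat_lit 46)))))
 (.n (.n (.n (.p (nat_lit 0x1180117c117a11780f650f5d06) (nat_lit 0x88000c2400) (nat_lit 52))
 (.p (nat_lit 0x3aa854c702) (nat_lit 0x300618) (nat_lit 29)))
 (.n (.p (nat_lit 0x45d445d245ce45cc45ca0b9506) (nat_lit 0x400008a205) (nat_lit 51))
 (.p (nat_lit 0x4260422041e041c03a903d506) (nat_lit 0x2210729) (nat_lit 26))))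
 (.n (.n (.p (nat_lit 0x252c252a252825262522231106) (nat_lit 0x100004ea01) (nat_lit 51))
 (.p (nat_lit 0x2c162c142c122c0e2c0c03d52c1107) (nat_lit 0x240924) (nat_lit 7)))
 (.n (.p (nat_lit 0x42143c2902) (nat_lit 0x60b) (nat_lit 4))
 (.p (nat_lit 0x233a5f8d02) (nat_lit 0x581a30344000500000600) (nat_lit 49))))))
 (.n (.n (.n (.n (.p (nat_lit 0xa8a0a880a860a840873087106) (nat_lit 0x1800088200) (nat_lit 52))
 (.p (nat_lit 0x181418121810180e180c138b06) (nat_lit 0x80000e515) (nat_lit 52)))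
 (.n (.p (nat_lit 0x40c640c240c040be40bc127906) (nat_lit 0x800004c404) (nat_lit 51))
 (.p (nat_lit 0x8f592302) (nat_lit 0x400103) (nat_lit 28))))
 (.n (.n (.p (nat_lit 0x2140a0702) (nat_lit 0x540101) (nat_lit 1))
 (.p (nat_lit 0x88a569702) (nat_lit 0x100123) (nat_lit 29)))
 (.n (.p (nat_lit 0x1635241d02) (nat_lit 0x400b07) (nat_lit 15))
 (.p (nat_lit 0x5c9d5ead02) (nat_lit 0x200000000b00) (nat_lit 37)))))
 (.n (.n (.n (.p (nat_lit 0x190f162b02) (nat_lit 0x500700) (nat_lit 16))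
 (.p (nat_lit 0xbe00bde0bdc0bd80bd609dd06) (nat_lit 0x200004811c) (nat_lit 51)))
 (.n (.p (nat_lit 0x8e424b902) (nat_lit 0x400106) (nat_lit 5))
 (.p (nat_lit 0x5d5b0e7502) (nat_lit 0x220080000300) (nat_lit 39))))
 (.n (.n (.p (nat_lit 0x1c441c421c401c3c1c3a231f06) (nat_lit 0x20000d0a02) (nat_lit 52))
 (.p (nat_lit 0x442045d0453141512bf05) (nat_lit 0xa8b4012a) (nat_lit 9)))
 (.n (.p (nat_lit 0x50805060504050004fe14cd06) (nat_lit 0x200004650e) (nat_lit 52))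
 (.p (nat_lit 0x634608f02) (nat_lit 0x356221ca4000000040000) (nat_lit 49))))))

def c1024_969 : Tr :=
 .n (.n (.n (.n (.n (.p (nat_lit 0x69e069a069806960694065506) (nat_lit 0x80000c8000) (nat_lit 52))
 (.p (nat_lit 0x4f244bc302) (nat_lit 0x240414) (nat_lit 5)))
 (.n (.p (nat_lit 0x61a061806140612061000bb061707) (nat_lit 0x300004) (nat_lit 7))
 (.p (nat_lit 0x14221420141e141c141a42a306) (nat_lit 0x1000004462e) (nat_lit 51))))
 (.n (.n (.p (nat_lit 0x215a233902) (nat_lit 0x300b00) (nat_lit 4))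
 (.p (nat_lit 0x44a444a244a0449e449c038f44a707) (nat_lit 0x540021) (nat_lit 7)))
 (.n (.p (nat_lit 0x14b516b02) (nat_lit 0x540407) (nat_lit 30))
 (.p (nat_lit 0x5c935e7f02) (nat_lit 0x2a0000000900) (nat_lit 36)))))
 (.n (.n (.n (.p (nat_lit 0x154b153f02) (nat_lit 0x500600) (nat_lit 34))
 (.p (nat_lit 0x4f604d1d02) (nat_lit 0x10051b) (nat_lit 5)))
 (.n (.p (nat_lit 0xa4e0a4c0a4a0a480a46195906) (nat_lit 0x800004705) (nat_lit 52))
 (.p (nat_lit 0x5d1f07a702) (nat_lit 0x2e0060000100) (nat_lit 40))))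
 (.n (.n (.p (nat_lit 0x13b2318302) (nat_lit 0x200502) (nat_lit 29))
 (.p (nat_lit 0x42ea40df02) (nat_lit 0x500727) (nat_lit 4)))
 (.n (.p (nat_lit 0xe160e140e120e0e0e0c01eb0e1107) (nat_lit 0x20030e) (nat_lit 7))
 (.p (nat_lit 0x1812601102) (nat_lit 0x405aa0b95000100000600) (nat_lit 49))))))
 (.n (.n (.n (.n (.p (nat_lit 0xe590b3302) (nat_lit 0x214300) (nat_lit 16))
 (.p (nat_lit 0x28b549b02) (nat_lit 0x500a15) (nat_lit 30)))
 (.n (.p (nat_lit 0x1d181d161d141d101957194f06) (nat_lit 0x11000016704) (nat_lit 51))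
 (.p (nat_lit 0x1f001ee01ea01e80147000106) (nat_lit 0x180a40e) (nat_lit 26))))
 (.n (.n (.p (nat_lit 0x1d7e175902) (nat_lit 0x140801) (nat_lit 5))
 (.p (nat_lit 0x1c01193702) (nat_lit 0x100723) (nat_lit 15)))
 (.n (.p (nat_lit 0x52c052a052605240522332906) (nat_lit 0x4000088a09) (nat_lit 51))
 (.p (nat_lit 0x233c5f0f02) (nat_lit 0x3a2570344000500000600) (nat_lit 49)))))
 (.n (.n (.n (.p (nat_lit 0x1c5c1c561c541c521a651a6306) (nat_lit 0xc000040800) (nat_lit 52))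
 (.p (nat_lit 0x2024557702) (nat_lit 0x14091c) (nat_lit 29)))
 (.n (.p (nat_lit 0x4d804d604d404d204ce1c3106) (nat_lit 0x1000000806) (nat_lit 51))
 (.p (nat_lit 0x5e342bcf02) (nat_lit 0xa000c500) (nat_lit 48))))
 (.n (.n (.p (nat_lit 0xcd81b2902) (nat_lit 0x140203) (nat_lit 5))
 (.p (nat_lit 0x46417dd02) (nat_lit 0x14062a) (nat_lit 1)))
 (.n (.p (nat_lit 0x299c275d02) (nat_lit 0x50040f) (nat_lit 5))
 (.p (nat_lit 0xbae611502) (nat_lit 0x3422621b0000200040000) (nat_lit 49))))))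

def c512_457 : Tr := .n c1024_457 c1024_969

def c256_201 : Tr := .n c512_201 c512_457

def c128_73 : Tr := .n c256_73 c256_201

def c64_9 : Tr := .n c128_9 c128_73

def c1024_41 : Tr :=
 .n (.n (.n (.n (.n (.n (.p (nat_lit 0x3400320030003704) (nat_lit 0x1c000400001) (nat_lit 17))
 (.p (nat_lit 0x8f2612d02) (nat_lit 0x45486a3a4000100040000) (nat_lit 49)))
 (.p (nat_lit 0x2b56278302) (nat_lit 0x14080f) (nat_lit 5)))
 (.n (.p (nat_lit 0xfaa1b4502) (nat_lit 0x340303) (nat_lit 4))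
 (.p (nat_lit 0x1aae580702) (nat_lit 0x54072a) (nat_lit 29))))
 (.n (.n (.p (nat_lit 0x1d001cfe1cfc1cfa1cf81a6706) (nat_lit 0x10000054800) (nat_lit 51))
 (.p (nat_lit 0x22ee0dd502) (nat_lit 0x240a1c) (nat_lit 4)))
 (.n (.p (nat_lit 0x1d96254902) (nat_lit 0x140806) (nat_lit 4))
 (.p (nat_lit 0x5cd7169b02) (nat_lit 0x160020000600) (nat_lit 39)))))
 (.n (.n (.n (.p (nat_lit 0xeca0ec80ec60ec40c910c8f06) (nat_lit 0x18000ca300) (nat_lit 51))
 (.p (nat_lit 0x28154a902) (nat_lit 0x40b15) (nat_lit 30)))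
 (.n (.p (nat_lit 0x1bb41bb01bae1bac1baa1ab906) (nat_lit 0x8000056704) (nat_lit 52))
 (.p (nat_lit 0x214020e020c020a027102b506) (nat_lit 0x231430f) (nat_lit 26))))
 (.n (.n (.p (nat_lit 0x1ee015f102) (nat_lit 0x901) (nat_lit 4))
 (.p (nat_lit 0x1d6411cf02) (nat_lit 0x40823) (nat_lit 4)))
 (.n (.p (nat_lit 0x3e6f36bd02) (nat_lit 0x31420a) (nat_lit 16))
 (.p (nat_lit 0x6345f2102) (nat_lit 0x3a2570344000000040000) (nat_lit 49))))))
 (.n (.n (.n (.n (.p (nat_lit 0x79e079c079a07980796079406) (nat_lit 0x100) (nat_lit 2))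
 (.p (nat_lit 0x50f24c7b02) (nat_lit 0x300914) (nat_lit 5)))
 (.n (.p (nat_lit 0x8c41f3502) (nat_lit 0x104) (nat_lit 4))
 (.p (nat_lit 0x21382136213421322130460d06) (nat_lit 0x1000008e22f) (nat_lit 51))))
 (.n (.n (.p (nat_lit 0x2404240023fe23fc215f215b06) (nat_lit 0x14000012b00) (nat_lit 51))
 (.p (nat_lit 0x4a40474702) (nat_lit 0x240721) (nat_lit 4)))
 (.n (.p (nat_lit 0x17a2053d02) (nat_lit 0x240607) (nat_lit 4))
 (.p (nat_lit 0x5cff1f1502) (nat_lit 0x1e0040000900) (nat_lit 41)))))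
 (.n (.n (.n (.p (nat_lit 0x162d154d02) (nat_lit 0x600) (nat_lit 16))
 (.p (nat_lit 0x5dc0d2702) (nat_lit 0x40001c) (nat_lit 4)))
 (.n (.p (nat_lit 0xe74a1302) (nat_lit 0x240705) (nat_lit 30))
 (.p (nat_lit 0x5cb90bb302) (nat_lit 0x40000000200) (nat_lit 41))))
 (.n (.n (.p (nat_lit 0x8a1ef102) (nat_lit 0x200902) (nat_lit 1))
 (.p (nat_lit 0x458a481502) (nat_lit 0x240128) (nat_lit 4)))
 (.n (.p (nat_lit 0x52de52dc52da52d852d652d401f40f7d0f7b0f750a) (nat_lit 0x1184030e) (nat_lit 31))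
 (.p (nat_lit 0x638602702) (nat_lit 0x406a62335000000040000) (nat_lit 49))))))

def c1024_553 : Tr :=
 .n (.n (.n (.n (.n (.n (.p (nat_lit 0x36803640362036f04) (nat_lit 0x5800400020) (nat_lit 17))
 (.p (nat_lit 0x13ec61a502) (nat_lit 0x3222a5c15000500040000) (nat_lit 49)))
 (.p (nat_lit 0x7ce07ca07c807c607c43bd306) (nat_lit 0x8000048b11) (nat_lit 52)))
 (.n (.p (nat_lit 0x1fbe1fbc1fba1fb81fb621cb06) (nat_lit 0x1000008ca03) (nat_lit 52))
 (.p (nat_lit 0x32be31b902) (nat_lit 0x10092c) (nat_lit 5))))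
 (.n (.n (.p (nat_lit 0x205b1d3102) (nat_lit 0x44e900) (nat_lit 16))
 (.p (nat_lit 0x3aae37a702) (nat_lit 0x61f) (nat_lit 5)))
 (.n (.p (nat_lit 0x3f130c9f02) (nat_lit 0x252207) (nat_lit 16))
 (.p (nat_lit 0x5da1198702) (nat_lit 0xc00a0000700) (nat_lit 41)))))
 (.n (.n (.n (.p (nat_lit 0x12710f5d02) (nat_lit 0x52400) (nat_lit 16))
 (.p (nat_lit 0x3d443d423d403d3c3d3a3cf906) (nat_lit 0x200004c019) (nat_lit 51)))
 (.n (.p (nat_lit 0x46ae46ac46aa46a846a646a406) (nat_lit 0x305) (nat_lit 52))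
 (.p (nat_lit 0x48404820480047e0435049106) (nat_lit 0x11492c) (nat_lit 26))))
 (.n (.n (.p (nat_lit 0x75e183502) (nat_lit 0x340002) (nat_lit 5))
 (.p (nat_lit 0x392439223920391c330332ff06) (nat_lit 0x28000c2925) (nat_lit 52)))
 (.n (.p (nat_lit 0x430a43064304430201c201b701b3430d430909) (nat_lit 0x2b4070b) (nat_lit 10))
 (.p (nat_lit 0x114a5f9f02) (nat_lit 0x589832b44000400040000) (nat_lit 50))))))
 (.n (.n (.n (.n (.p (nat_lit 0xb73087902) (nat_lit 0x40e200) (nat_lit 16))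
 (.p (nat_lit 0xd100d0e0d0c0d0a0d0614d706) (nat_lit 0x1000046515) (nat_lit 52)))
 (.n (.p (nat_lit 0x15161e3f02) (nat_lit 0x340504) (nat_lit 4))
 (.p (nat_lit 0x4a2596902) (nat_lit 0x504) (nat_lit 27))))
 (.n (.n (.p (nat_lit 0xcc416fd02) (nat_lit 0x340201) (nat_lit 5))
 (.p (nat_lit 0x2346234423422340233e089306) (nat_lit 0x10000016123) (nat_lit 51)))
 (.n (.p (nat_lit 0x28cc25fb02) (nat_lit 0x100308) (nat_lit 4))
 (.p (nat_lit 0x5d455ebb02) (nat_lit 0x80060000b00) (nat_lit 36)))))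
 (.n (.n (.n (.p (nat_lit 0x19aa19a619a419a2179b179306) (nat_lit 0x8800042700) (nat_lit 52))
 (.p (nat_lit 0x10321030102e102a139b139706) (nat_lit 0x280008451c) (nat_lit 51)))
 (.n (.p (nat_lit 0xba40ba20ba00b9a012c011701150b9f0b9d09) (nat_lit 0x1100206) (nat_lit 10))
 (.p (nat_lit 0x5cdd0fe302) (nat_lit 0x100020000400) (nat_lit 40))))
 (.n (.n (.p (nat_lit 0x246624642460245c0076005f005b2463245f09) (nat_lit 0x1900b02) (nat_lit 10))
 (.p (nat_lit 0x7aa07a807a407a207a00b5906) (nat_lit 0x400000222a) (nat_lit 51)))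
 (.n (.p (nat_lit 0x530e530c530a53085306530401f207) (nat_lit 0x70e) (nat_lit 8))
 (.p (nat_lit 0x2492609f02) (nat_lit 0x344588ca4000500040600) (nat_lit 50))))))

def c512_41 : Tr := .n c1024_41 c1024_553

def c1024_297 : Tr :=
 .n (.n (.n (.n (.n (.n (.p (nat_lit 0x114012302) (nat_lit 0x1000600006) (nat_lit 17))
 (.p (nat_lit 0x1698616502) (nat_lit 0x340c62b84000000040600) (nat_lit 49)))
 (.p (nat_lit 0x7e607e407e207e007de338306) (nat_lit 0x80004aa10) (nat_lit 51)))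
 (.n (.p (nat_lit 0x1513150702) (nat_lit 0x154503) (nat_lit 16))
 (.p (nat_lit 0x43d584d02) (nat_lit 0x440b2a) (nat_lit 30))))
 (.n (.n (.p (nat_lit 0x1e9b1bc502) (nat_lit 0x100900) (nat_lit 16))
 (.p (nat_lit 0x1a401a3e1a3a1a382da72da106) (nat_lit 0x120000d401e) (nat_lit 52)))
 (.n (.p (nat_lit 0x2064511f02) (nat_lit 0x340906) (nat_lit 29))
 (.p (nat_lit 0x5e50300b02) (nat_lit 0x700) (nat_lit 47)))))
 (.n (.n (.n (.p (nat_lit 0x106a1068106610640dff0dfd06) (nat_lit 0x18000010400) (nat_lit 51))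
 (.p (nat_lit 0xc040c000bfe0bfc0bfa334306) (nat_lit 0x800008aa17) (nat_lit 52)))
 (.n (.p (nat_lit 0x43f643f243f043ee43ec062506) (nat_lit 0x800000e005) (nat_lit 52))
 (.p (nat_lit 0x34f5baf02) (nat_lit 0xa1f) (nat_lit 28))))
 (.n (.n (.p (nat_lit 0x2348234623422340233e204d06) (nat_lit 0x4000056901) (nat_lit 51))
 (.p (nat_lit 0x259e121502) (nat_lit 0x240b23) (nat_lit 5)))
 (.n (.p (nat_lit 0x5140510050e050c050a3b7306) (nat_lit 0x8000086b0a) (nat_lit 51))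
 (.p (nat_lit 0x8fa5f6302) (nat_lit 0x3aa074b44000100040000) (nat_lit 50))))))
 (.n (.n (.n (.n (.p (nat_lit 0x9520950094e094c094a071d06) (nat_lit 0x80004c100) (nat_lit 52))
 (.p (nat_lit 0x12420a8302) (nat_lit 0x140415) (nat_lit 4)))
 (.n (.p (nat_lit 0xe503f3902) (nat_lit 0x400304) (nat_lit 29))
 (.p (nat_lit 0x46a58bb02) (nat_lit 0x400501) (nat_lit 27))))
 (.n (.n (.p (nat_lit 0x25cf22bf02) (nat_lit 0x252b00) (nat_lit 16))
 (.p (nat_lit 0x5e60ff302) (nat_lit 0x300023) (nat_lit 4)))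
 (.n (.p (nat_lit 0x1ed71e9b02) (nat_lit 0x108907) (nat_lit 16))
 (.p (nat_lit 0x5e9a451902) (nat_lit 0x20008a00) (nat_lit 47)))))
 (.n (.n (.n (.p (nat_lit 0x17fd16bb02) (nat_lit 0x552600) (nat_lit 16))
 (.p (nat_lit 0x2da3073b02) (nat_lit 0x34e01c) (nat_lit 16)))
 (.n (.p (nat_lit 0x1d901d8e1d8c1d8a1d8800ed1d9307) (nat_lit 0x540805) (nat_lit 7))
 (.p (nat_lit 0x5cb10d1302) (nat_lit 0xc0000000300) (nat_lit 40))))
 (.n (.n (.p (nat_lit 0x1986198419821980197c21b706) (nat_lit 0x100008ea02) (nat_lit 51))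
 (.p (nat_lit 0x50c650c450c250c050be041d50bd07) (nat_lit 0x40829) (nat_lit 7)))
 (.n (.p (nat_lit 0x207e207c207a20782076123f06) (nat_lit 0x1000005440e) (nat_lit 51))
 (.p (nat_lit 0x798606702) (nat_lit 0x5898b0b44000100000000) (nat_lit 49))))))

def c1024_809 : Tr :=
 .n (.n (.n (.n (.n (.n (.p (nat_lit 0x54c054a0546054404e504df06) (nat_lit 0x1200000e000) (nat_lit 52))
 (.p (nat_lit 0xe7c61e302) (nat_lit 0x3302a5895000300040000) (nat_lit 50)))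
 (.p (nat_lit 0x21522150214e214a214847dd06) (nat_lit 0x2000090413) (nat_lit 51)))
 (.n (.p (nat_lit 0x3ba1246f02) (nat_lit 0x308b03) (nat_lit 16))
 (.p (nat_lit 0x12c212c012bc12ba12b83bad06) (nat_lit 0x4000082b2d) (nat_lit 52))))
 (.n (.n (.p (nat_lit 0x22122210220a22081ff91ff706) (nat_lit 0x60000c2a00) (nat_lit 51))
 (.p (nat_lit 0xe8e0e8a0e880e860e84424106) (nat_lit 0x8000000620) (nat_lit 51)))
 (.n (.p (nat_lit 0xf7b0f6f02) (nat_lit 0x344307) (nat_lit 16))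
 (.p (nat_lit 0x5e72205902) (nat_lit 0x6004c800) (nat_lit 48)))))
 (.n (.n (.n (.p (nat_lit 0x141814121410140e1225122306) (nat_lit 0xc0000c2500) (nat_lit 51))
 (.p (nat_lit 0x48be463b02) (nat_lit 0x10051a) (nat_lit 5)))
 (.n (.p (nat_lit 0x11a169502) (nat_lit 0x400605) (nat_lit 1))
 (.p (nat_lit 0x5d895dc302) (nat_lit 0x2400a0000000) (nat_lit 37))))
 (.n (.n (.p (nat_lit 0xe3a0e380e340e32006e005f00590e370e3109) (nat_lit 0x1800302) (nat_lit 10))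
 (.p (nat_lit 0x101a10161014101210103bf706) (nat_lit 0x80000c2b26) (nat_lit 51)))
 (.n (.p (nat_lit 0x4e1a4b4502) (nat_lit 0x4030d) (nat_lit 4))
 (.p (nat_lit 0xa465fe702) (nat_lit 0x38ac60b44000200000000) (nat_lit 49))))))
 (.n (.n (.n (.n (.p (nat_lit 0xd260d240d220d200d1e0b3906) (nat_lit 0x10000000300) (nat_lit 52))
 (.p (nat_lit 0x281546102) (nat_lit 0x815) (nat_lit 30)))
 (.n (.p (nat_lit 0x13f413f013ee13ec13ea17fb06) (nat_lit 0x80000ca604) (nat_lit 52))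
 (.p (nat_lit 0x1455a0102) (nat_lit 0x200407) (nat_lit 28))))
 (.n (.n (.p (nat_lit 0x312a8102) (nat_lit 0x340501) (nat_lit 30))
 (.p (nat_lit 0xcac119502) (nat_lit 0x340223) (nat_lit 4)))
 (.n (.p (nat_lit 0x30143012300e300c300a018b301107) (nat_lit 0x300309) (nat_lit 7))
 (.p (nat_lit 0x11405edb02) (nat_lit 0x4a9d22344000400040000) (nat_lit 49)))))
 (.n (.n (.n (.p (nat_lit 0x1b841b821b7c1b7a18ff18fd06) (nat_lit 0x600000c800) (nat_lit 51))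
 (.p (nat_lit 0x1a9f1a9302) (nat_lit 0x34a71c) (nat_lit 16)))
 (.n (.p (nat_lit 0x196a23d302) (nat_lit 0x300706) (nat_lit 4))
 (.p (nat_lit 0x5e284a0502) (nat_lit 0x20014500) (nat_lit 47))))
 (.n (.n (.p (nat_lit 0x8bc1b0902) (nat_lit 0x200103) (nat_lit 5))
 (.p (nat_lit 0xe1e0e1c0e1a0e180460043f043d0e230e2109) (nat_lit 0x2c0032a) (nat_lit 10)))
 (.n (.p (nat_lit 0x216e084702) (nat_lit 0x100a0e) (nat_lit 5))
 (.p (nat_lit 0x64260ed02) (nat_lit 0x340d6a3a4000000040000) (nat_lit 50))))))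

def c512_297 : Tr := .n c1024_297 c1024_809

def c256_41 : Tr := .n c512_41 c512_297

def c1024_169 : Tr :=
 .n (.n (.n (.n (.n (.n (.p (nat_lit 0xb100af009403) (nat_lit 0x62c00003) (nat_lit 19))
 (.p (nat_lit 0xe6e614b02) (nat_lit 0x3b0221d84000300040000) (nat_lit 49)))
 (.p (nat_lit 0x317c317a3178317631720225317507) (nat_lit 0x140410) (nat_lit 7)))
 (.n (.p (nat_lit 0x3f6126f02) (nat_lit 0x540403) (nat_lit 1))
 (.p (nat_lit 0x41d241d041cc41ca2045203f06) (nat_lit 0x1200004c92a) (nat_lit 51))))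
 (.n (.n (.p (nat_lit 0x1dcc1dc81dc61dc41bcd1bc906) (nat_lit 0x14000080900) (nat_lit 52))
 (.p (nat_lit 0x17521750174e174c174a26c706) (nat_lit 0x1000005001d) (nat_lit 51)))
 (.n (.p (nat_lit 0x20651d9b02) (nat_lit 0x340806) (nat_lit 15))
 (.p (nat_lit 0x5e44196b02) (nat_lit 0x60014600) (nat_lit 47)))))
 (.n (.n (.n (.p (nat_lit 0xfe10fd502) (nat_lit 0x400) (nat_lit 34))
 (.p (nat_lit 0x2bfa280102) (nat_lit 0x340916) (nat_lit 4)))
 (.n (.p (nat_lit 0x25ce1feb02) (nat_lit 0x240b04) (nat_lit 5))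
 (.p (nat_lit 0x2af5b3d02) (nat_lit 0x416) (nat_lit 28))))
 (.n (.n (.p (nat_lit 0x2bbd1ee502) (nat_lit 0x208901) (nat_lit 16))
 (.p (nat_lit 0x2192109502) (nat_lit 0x100a23) (nat_lit 4)))
 (.n (.p (nat_lit 0x407d38d902) (nat_lit 0x31440a) (nat_lit 16))
 (.p (nat_lit 0x8ec5f4102) (nat_lit 0x3a2260b50000100040000) (nat_lit 49))))))
 (.n (.n (.n (.n (.p (nat_lit 0x88905bd02) (nat_lit 0x8100) (nat_lit 16))
 (.p (nat_lit 0x7cc07ca07c807c607c4073306) (nat_lit 0x10000048015) (nat_lit 52)))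
 (.n (.p (nat_lit 0xb8c3e1502) (nat_lit 0x500204) (nat_lit 29))
 (.p (nat_lit 0x4c1c4f6f02) (nat_lit 0x400130) (nat_lit 5))))
 (.n (.n (.p (nat_lit 0x250825062504250222bd22bb06) (nat_lit 0x18000c8b00) (nat_lit 52))
 (.p (nat_lit 0x4fc24fbe4fbc4fba4fb8039b4fc107) (nat_lit 0x440522) (nat_lit 7)))
 (.n (.p (nat_lit 0x143519302) (nat_lit 0x100807) (nat_lit 30))
 (.p (nat_lit 0x5d9f1f1b02) (nat_lit 0xe00a0000900) (nat_lit 41)))))
 (.n (.n (.n (.p (nat_lit 0x175417521750174e174c174a06) (nat_lit 0x50600) (nat_lit 51))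
 (.p (nat_lit 0x7340e9102) (nat_lit 0x4001c) (nat_lit 4)))
 (.n (.p (nat_lit 0x4a5b1ac302) (nat_lit 0x34a705) (nat_lit 16))
 (.p (nat_lit 0x5d410a5702) (nat_lit 0xc0060000200) (nat_lit 40))))
 (.n (.n (.p (nat_lit 0x1b821b801b7e1b7c205d205306) (nat_lit 0x1080004c902) (nat_lit 51))
 (.p (nat_lit 0x4c124ecd02) (nat_lit 0x300129) (nat_lit 5)))
 (.n (.p (nat_lit 0x1f1a1f181f141f1010e110dd06) (nat_lit 0x500009240e) (nat_lit 51))
 (.p (nat_lit 0x1ae0604702) (nat_lit 0x40a96254c800200000600) (nat_lit 50))))))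

def c1024_681 : Tr :=
 .n (.n (.n (.n (.n (.n (.p (nat_lit 0x4920490048e049b04) (nat_lit 0x380040002d) (nat_lit 17))
 (.p (nat_lit 0x154061c502) (nat_lit 0x3421684a0800000000600) (nat_lit 50)))
 (.p (nat_lit 0x3ca43ca23ca03c9c3c9a41fb06) (nat_lit 0x20000c6512) (nat_lit 52)))
 (.n (.p (nat_lit 0x24701d1902) (nat_lit 0x400b03) (nat_lit 5))
 (.p (nat_lit 0x353a3536353435323530365306) (nat_lit 0x80000d612d) (nat_lit 52))))
 (.n (.n (.p (nat_lit 0x214421422140213e1e971e8d06) (nat_lit 0x10800010a00) (nat_lit 51))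
 (.p (nat_lit 0x3c663f4302) (nat_lit 0x400020) (nat_lit 4)))
 (.n (.p (nat_lit 0xe230e0b02) (nat_lit 0x508307) (nat_lit 16))
 (.p (nat_lit 0x5cd35e6d02) (nat_lit 0x1a0020000800) (nat_lit 37)))))
 (.n (.n (.n (.p (nat_lit 0x12fe12fa12f812f610cb10c306) (nat_lit 0x880000c500) (nat_lit 52))
 (.p (nat_lit 0x427a3e4b02) (nat_lit 0x340619) (nat_lit 5)))
 (.n (.p (nat_lit 0x1286225902) (nat_lit 0x540405) (nat_lit 4))
 (.p (nat_lit 0x5cc9064302) (nat_lit 0x240020000000) (nat_lit 41))))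
 (.n (.n (.p (nat_lit 0x2eac2eaa2ea82ea40a0d0a0906) (nat_lit 0x2800056102) (nat_lit 52))
 (.p (nat_lit 0x36c2575502) (nat_lit 0x226) (nat_lit 29)))
 (.n (.p (nat_lit 0x4844446302) (nat_lit 0x34040c) (nat_lit 4))
 (.p (nat_lit 0x1ae65fcb02) (nat_lit 0x9582ec05800200000600) (nat_lit 50))))))
 (.n (.n (.n (.n (.p (nat_lit 0xc320c300c2c0c2809d309cf06) (nat_lit 0x50000ce200) (nat_lit 52))
 (.p (nat_lit 0x17ba0ab502) (nat_lit 0x240615) (nat_lit 5)))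
 (.n (.p (nat_lit 0x1daa1da81da41da21da0168706) (nat_lit 0x4000012604) (nat_lit 52))
 (.p (nat_lit 0xe359b702) (nat_lit 0x805) (nat_lit 28))))
 (.n (.n (.p (nat_lit 0x10fc294502) (nat_lit 0x500401) (nat_lit 29))
 (.p (nat_lit 0x233c233a23382336233209e706) (nat_lit 0x1000056123) (nat_lit 52)))
 (.n (.p (nat_lit 0x2b8c262f02) (nat_lit 0x200908) (nat_lit 5))
 (.p (nat_lit 0x5d855ec102) (nat_lit 0x2800a0000b00) (nat_lit 37)))))
 (.n (.n (.n (.p (nat_lit 0x1a71179b02) (nat_lit 0x440700) (nat_lit 16))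
 (.p (nat_lit 0x16560ed302) (nat_lit 0x30061c) (nat_lit 4)))
 (.n (.p (nat_lit 0x4e724e704e6e4e6c4e6a113706) (nat_lit 0x8000084406) (nat_lit 51))
 (.p (nat_lit 0x5d575e1d02) (nat_lit 0x260080000400) (nat_lit 37))))
 (.n (.n (.p (nat_lit 0x1778177617741772177025b306) (nat_lit 0x8000d2b02) (nat_lit 52))
 (.p (nat_lit 0x79e079c079a079607940cb706) (nat_lit 0x200004222a) (nat_lit 52)))
 (.n (.p (nat_lit 0x1e7532902) (nat_lit 0x4080e) (nat_lit 30))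
 (.p (nat_lit 0xe7c60cd02) (nat_lit 0x3502623b0000300040000) (nat_lit 50))))))

def c512_169 : Tr := .n c1024_169 c1024_681

def c1024_425 : Tr :=
 .n (.n (.n (.n (.n (.n (.p (nat_lit 0x240023e023c024504) (nat_lit 0xe000400011) (nat_lit 17))
 (.p (nat_lit 0xe74618502) (nat_lit 0x421a86b95000300040000) (nat_lit 49)))
 (.p (nat_lit 0x397a35f702) (nat_lit 0x440411) (nat_lit 4)))
 (.n (.p (nat_lit 0x17f01b9102) (nat_lit 0x540603) (nat_lit 5))
 (.p (nat_lit 0x2bcc2a5f02) (nat_lit 0x40092b) (nat_lit 5))))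
 (.n (.n (.p (nat_lit 0x1f9c1f9a1f961f941d331d2d06) (nat_lit 0x1200004a900) (nat_lit 51))
 (.p (nat_lit 0x34c4377902) (nat_lit 0x30001f) (nat_lit 4)))
 (.n (.p (nat_lit 0x9380936093209300b450b3f06) (nat_lit 0x1200000a207) (nat_lit 52))
 (.p (nat_lit 0x5d37181102) (nat_lit 0x160060000700) (nat_lit 38)))))
 (.n (.n (.n (.p (nat_lit 0x115c115a115611540f630f5d06) (nat_lit 0x4800040400) (nat_lit 51))
 (.p (nat_lit 0x3a66368102) (nat_lit 0x40518) (nat_lit 5)))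
 (.n (.p (nat_lit 0x45a845a645a445a245a0459e00ee07) (nat_lit 0x205) (nat_lit 8))
 (.p (nat_lit 0x3da03d403d203d003a7033f06) (nat_lit 0x1c12224) (nat_lit 26))))
 (.n (.n (.p (nat_lit 0x2312161902) (nat_lit 0x240a01) (nat_lit 5))
 (.p (nat_lit 0x2b6829d502) (nat_lit 0x140824) (nat_lit 4)))
 (.n (.p (nat_lit 0x40163c2502) (nat_lit 0x44030b) (nat_lit 5))
 (.p (nat_lit 0x1ae85f8302) (nat_lit 0x581a32b44000200000600) (nat_lit 50))))))
 (.n (.n (.n (.n (.p (nat_lit 0x87a0876087208700020000900050879087509) (nat_lit 0x2200200) (nat_lit 10))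
 (.p (nat_lit 0xa4e0a480a460a441393139106) (nat_lit 0xc000004515) (nat_lit 52)))
 (.n (.p (nat_lit 0x12741f8d02) (nat_lit 0x240404) (nat_lit 5))
 (.p (nat_lit 0x61590b02) (nat_lit 0x400b02) (nat_lit 28))))
 (.n (.n (.p (nat_lit 0xb6908ab02) (nat_lit 0x500101) (nat_lit 15))
 (.p (nat_lit 0x12e612e212e012dc0749074306) (nat_lit 0x9000046023) (nat_lit 51)))
 (.n (.p (nat_lit 0x241651cf02) (nat_lit 0x100b07) (nat_lit 29))
 (.p (nat_lit 0x5d9d5ea902) (nat_lit 0x1000a0000a00) (nat_lit 36)))))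
 (.n (.n (.n (.p (nat_lit 0x18ea18e818e418e01627162306) (nat_lit 0x5000016700) (nat_lit 51))
 (.p (nat_lit 0x9da550b02) (nat_lit 0x14011c) (nat_lit 29)))
 (.n (.p (nat_lit 0x11d4b3b02) (nat_lit 0x540006) (nat_lit 30))
 (.p (nat_lit 0x5e00506302) (nat_lit 0x60016300) (nat_lit 48))))
 (.n (.n (.p (nat_lit 0x12aa12a812a612a212a0231f06) (nat_lit 0x200004aa02) (nat_lit 51))
 (.p (nat_lit 0x35cf089702) (nat_lit 0x11012a) (nat_lit 16)))
 (.n (.p (nat_lit 0x14814d102) (nat_lit 0x44050e) (nat_lit 1))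
 (.p (nat_lit 0x1f16608302) (nat_lit 0x344380a64000300040600) (nat_lit 50))))))

def c1024_937 : Tr :=
 .n (.n (.n (.n (.n (.p (nat_lit 0x6780676067406720670065706) (nat_lit 0x10000046000) (nat_lit 51))
 (.p (nat_lit 0x4e964c4302) (nat_lit 0x414) (nat_lit 5)))
 (.n (.p (nat_lit 0x3bd725bf02) (nat_lit 0x44b03) (nat_lit 16))
 (.p (nat_lit 0x425a41d502) (nat_lit 0x50062e) (nat_lit 5))))
 (.n (.n (.p (nat_lit 0x23071ff702) (nat_lit 0x24aa00) (nat_lit 16))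
 (.p (nat_lit 0x4418471502) (nat_lit 0x500021) (nat_lit 5)))
 (.n (.p (nat_lit 0x14e015d01590523069505) (nat_lit 0x66840407) (nat_lit 9))
 (.p (nat_lit 0x5e7a1adf02) (nat_lit 0xa0000800) (nat_lit 45)))))
 (.n (.n (.n (.p (nat_lit 0x151f121f02) (nat_lit 0x154500) (nat_lit 16))
 (.p (nat_lit 0x4bd44bd24bd04bcc4bca4b1506) (nat_lit 0x200008a01b) (nat_lit 51)))
 (.n (.p (nat_lit 0x1958228b02) (nat_lit 0x705) (nat_lit 5))
 (.p (nat_lit 0x5d4107a702) (nat_lit 0xc0060000100) (nat_lit 40))))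
 (.n (.n (.p (nat_lit 0x126219fb02) (nat_lit 0x540402) (nat_lit 5))
 (.p (nat_lit 0x428c405f02) (nat_lit 0x40627) (nat_lit 4)))
 (.n (.p (nat_lit 0x448444824480447e447c50e106) (nat_lit 0x80008e90d) (nat_lit 51))
 (.p (nat_lit 0x1adc600b02) (nat_lit 0x405aa2354800200000600) (nat_lit 49))))))
 (.n (.n (.n (.n (.p (nat_lit 0xe170b3902) (nat_lit 0x502300) (nat_lit 16))
 (.p (nat_lit 0x202b201f02) (nat_lit 0x448915) (nat_lit 16)))
 (.n (.p (nat_lit 0x1b3c1b381b361b341b32195506) (nat_lit 0x8000006704) (nat_lit 52))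
 (.p (nat_lit 0x1cc01ca01c801c60141026706) (nat_lit 0x50e20c) (nat_lit 26))))
 (.n (.n (.p (nat_lit 0x18f618f218f018ec1c1f1c1906) (nat_lit 0x9000096801) (nat_lit 51))
 (.p (nat_lit 0x17d6104902) (nat_lit 0x440623) (nat_lit 4)))
 (.n (.p (nat_lit 0x33222d7102) (nat_lit 0xa09) (nat_lit 4))
 (.p (nat_lit 0x2493248b21d921d51f1b1f071c4f1c3b1983197516a716995ef80d) (nat_lit 0x3a2530344000000040600) (nat_lit 33)))))
 (.n (.n (.n (.p (nat_lit 0x1c481c3c1a5f03) (nat_lit 0x140800) (nat_lit 6))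
 (.p (nat_lit 0x1ec20f1b02) (nat_lit 0x30091c) (nat_lit 5)))
 (.n (.p (nat_lit 0x500d1acd02) (nat_lit 0x242706) (nat_lit 16))
 (.p (nat_lit 0x5e30074902) (nat_lit 0x80046500) (nat_lit 48))))
 (.n (.n (.p (nat_lit 0x2d20b7b02) (nat_lit 0x200203) (nat_lit 1))
 (.p (nat_lit 0x167012fd02) (nat_lit 0x40062a) (nat_lit 4)))
 (.n (.p (nat_lit 0x4c564c544c524c504c4e257706) (nat_lit 0x8000c8b0e) (nat_lit 52))
 (.p (nat_lit 0x8f6610f02) (nat_lit 0x3425299b0000100040000) (nat_lit 50))))))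

def c512_425 : Tr := .n c1024_425 c1024_937

def c256_169 : Tr := .n c512_169 c512_425

def c128_41 : Tr := .n c256_41 c256_169

def c1024_105 : Tr :=
 .n (.n (.n (.n (.n (.n (.p (nat_lit 0x62006902) (nat_lit 0x10000600002) (nat_lit 17))
 (.p (nat_lit 0x1f0e613702) (nat_lit 0x3503a0d64000300040600) (nat_lit 49)))
 (.p (nat_lit 0x32df2be902) (nat_lit 0x5090f) (nat_lit 16)))
 (.n (.p (nat_lit 0x11121b5302) (nat_lit 0x400403) (nat_lit 4))
 (.p (nat_lit 0x4a21ed502) (nat_lit 0x92a) (nat_lit 1))))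
 (.n (.n (.p (nat_lit 0x1d5f1a6302) (nat_lit 0x346800) (nat_lit 16))
 (.p (nat_lit 0x4df44df24dee4dec4dea243f06) (nat_lit 0x4000080b1c) (nat_lit 52)))
 (.n (.p (nat_lit 0x12aa12a612a412a212a01d9d06) (nat_lit 0x800004a806) (nat_lit 51))
 (.p (nat_lit 0x5cf35e4102) (nat_lit 0x2a0040000600) (nat_lit 37)))))
 (.n (.n (.n (.p (nat_lit 0xf580f560f520f500c990c9306) (nat_lit 0x120000d6300) (nat_lit 51))
 (.p (nat_lit 0x2aea27d502) (nat_lit 0x340516) (nat_lit 5)))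
 (.n (.p (nat_lit 0x20a420a220a0209e2477247506) (nat_lit 0x1800002b04) (nat_lit 52))
 (.p (nat_lit 0x28a028802840282000701e706) (nat_lit 0x180a015) (nat_lit 26))))
 (.n (.n (.p (nat_lit 0xfda0fd80fd60fd41eeb1ee906) (nat_lit 0x18000008901) (nat_lit 52))
 (.p (nat_lit 0x3a5570502) (nat_lit 0x200923) (nat_lit 30)))
 (.n (.p (nat_lit 0x3f9b37dd02) (nat_lit 0x51430a) (nat_lit 16))
 (.p (nat_lit 0x15345f3502) (nat_lit 0x3a2560c44000000000600) (nat_lit 49))))))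
 (.n (.n (.n (.n (.p (nat_lit 0x7ce07cc07c807c405c305bf06) (nat_lit 0x5000008100) (nat_lit 52))
 (.p (nat_lit 0x99a099809960994099205c906) (nat_lit 0x800092015) (nat_lit 51)))
 (.n (.p (nat_lit 0xa280a260a240a220a2000bf0a2b07) (nat_lit 0x540104) (nat_lit 7))
 (.p (nat_lit 0x499a491f02) (nat_lit 0x10062f) (nat_lit 5))))
 (.n (.n (.p (nat_lit 0x2496249424922490248e248c06) (nat_lit 0x40b00) (nat_lit 3))
 (.p (nat_lit 0x4b8e4df502) (nat_lit 0x540022) (nat_lit 4)))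
 (.n (.p (nat_lit 0x1bd3190902) (nat_lit 0x200707) (nat_lit 15))
 (.p (nat_lit 0x5e8c419902) (nat_lit 0x60004900) (nat_lit 47)))))
 (.n (.n (.n (.p (nat_lit 0x16a7169b02) (nat_lit 0x140600) (nat_lit 34))
 (.p (nat_lit 0x18141812180e180c180a05db06) (nat_lit 0x400000e01c) (nat_lit 52)))
 (.n (.p (nat_lit 0x153e153c153a153815361abd06) (nat_lit 0x80004c705) (nat_lit 52))
 (.p (nat_lit 0x5cd50a4702) (nat_lit 0x180020000200) (nat_lit 38))))
 (.n (.n (.p (nat_lit 0x32a51ef502) (nat_lit 0x402902) (nat_lit 16))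
 (.p (nat_lit 0x499b498f02) (nat_lit 0x100628) (nat_lit 16)))
 (.n (.p (nat_lit 0x8fe08fa08f808f608f410e306) (nat_lit 0x800008240e) (nat_lit 51))
 (.p (nat_lit 0x4d0603702) (nat_lit 0x4a9d80b44000000000000) (nat_lit 50))))))

def c1024_617 : Tr :=
 .n (.n (.n (.n (.n (.n (.p (nat_lit 0x3cb03b903ae03) (nat_lit 0x81800023) (nat_lit 19))
 (.p (nat_lit 0x153861b502) (nat_lit 0x322266c15000000000600) (nat_lit 49)))
 (.p (nat_lit 0x41083d2d02) (nat_lit 0x440412) (nat_lit 5)))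
 (.n (.p (nat_lit 0x8f3b2d02) (nat_lit 0x440a03) (nat_lit 30))
 (.p (nat_lit 0x58725870586e586c586a5868048607) (nat_lit 0x40a2c) (nat_lit 8))))
 (.n (.n (.p (nat_lit 0x20fe20fc20fa20f41e911e8f06) (nat_lit 0x300000aa00) (nat_lit 52))
 (.p (nat_lit 0xe980e960e940e920e903b9906) (nat_lit 0x10000080b1f) (nat_lit 52)))
 (.n (.p (nat_lit 0x11441140113e113c113a0e0906) (nat_lit 0x8000088307) (nat_lit 52))
 (.p (nat_lit 0x5c9d5e6702) (nat_lit 0x200000000800) (nat_lit 36)))))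
 (.n (.n (.n (.p (nat_lit 0x12b612b212ae12ac10cb10c706) (nat_lit 0xa000002500) (nat_lit 52))
 (.p (nat_lit 0x420c3ed502) (nat_lit 0x540519) (nat_lit 4)))
 (.n (.p (nat_lit 0x47510fbf02) (nat_lit 0x140305) (nat_lit 16))
 (.p (nat_lit 0x5c9f04c302) (nat_lit 0x1e0000000000) (nat_lit 38))))
 (.n (.n (.p (nat_lit 0x8ae19a302) (nat_lit 0x100102) (nat_lit 4))
 (.p (nat_lit 0x35ca391902) (nat_lit 0x500126) (nat_lit 5)))
 (.n (.p (nat_lit 0x46ee43c902) (nat_lit 0x40030c) (nat_lit 4))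
 (.p (nat_lit 0x154a5fc102) (nat_lit 0x8982e955800000000600) (nat_lit 50))))))
 (.n (.n (.n (.n (.p (nat_lit 0xbd40bd20bce0bca09d309cf06) (nat_lit 0x50000c0200) (nat_lit 52))
 (.p (nat_lit 0x2aef14df02) (nat_lit 0x54c515) (nat_lit 16)))
 (.n (.p (nat_lit 0x64a0646064406420640168906) (nat_lit 0x8000080604) (nat_lit 51))
 (.p (nat_lit 0xe5599702) (nat_lit 0x100305) (nat_lit 28))))
 (.n (.n (.p (nat_lit 0xe310e2502) (nat_lit 0x10301) (nat_lit 16))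
 (.p (nat_lit 0xa5a0a580a560a540a5009e706) (nat_lit 0x1000044123) (nat_lit 51)))
 (.n (.p (nat_lit 0x316d2a0302) (nat_lit 0x350408) (nat_lit 16))
 (.p (nat_lit 0x5d77248902) (nat_lit 0x60080000b00) (nat_lit 39)))))
 (.n (.n (.n (.p (nat_lit 0x1a361a341a301a2e1a2c179906) (nat_lit 0x4000054700) (nat_lit 51))
 (.p (nat_lit 0x314032d03330ecb0d6505) (nat_lit 0x89d4051c) (nat_lit 9)))
 (.n (.p (nat_lit 0xfcc23a102) (nat_lit 0x240306) (nat_lit 5))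
 (.p (nat_lit 0x5d410fdb02) (nat_lit 0xc0060000400) (nat_lit 38))))
 (.n (.n (.p (nat_lit 0x34183416341434123410340e006407) (nat_lit 0x40b02) (nat_lit 8))
 (.p (nat_lit 0x1daa1da61da41da21da00b5b06) (nat_lit 0x800001222a) (nat_lit 52)))
 (.n (.p (nat_lit 0x2381bdb02) (nat_lit 0x80e) (nat_lit 1))
 (.p (nat_lit 0x153460b102) (nat_lit 0x3505223a4000000000600) (nat_lit 49))))))

def c512_105 : Tr := .n c1024_105 c1024_617

def c1024_361 : Tr :=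
 .n (.n (.n (.n (.n (.n (.p (nat_lit 0x181017f017c03) (nat_lit 0x2200008) (nat_lit 19))
 (.p (nat_lit 0x1ae2617502) (nat_lit 0x521a86b11000200000600) (nat_lit 50)))
 (.p (nat_lit 0x38e235e702) (nat_lit 0x200411) (nat_lit 5)))
 (.n (.p (nat_lit 0x1a281a261a221a20167f167906) (nat_lit 0x12000092603) (nat_lit 51))
 (.p (nat_lit 0x161c161a161816161614288906) (nat_lit 0x100000d422b) (nat_lit 51))))
 (.n (.n (.p (nat_lit 0x1d2c1f1502) (nat_lit 0x240900) (nat_lit 5))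
 (.p (nat_lit 0xe9a0e980e960e940e90334906) (nat_lit 0x1000080a1e) (nat_lit 52)))
 (.n (.p (nat_lit 0xb440b420b400b3e0b3c01410b3b07) (nat_lit 0x207) (nat_lit 7))
 (.p (nat_lit 0x5e561d7f02) (nat_lit 0x20056700) (nat_lit 48)))))
 (.n (.n (.n (.p (nat_lit 0x10ff0df502) (nat_lit 0xe400) (nat_lit 16))
 (.p (nat_lit 0x3542366702) (nat_lit 0x340018) (nat_lit 5)))
 (.n (.p (nat_lit 0x8d0209b02) (nat_lit 0x105) (nat_lit 4))
 (.p (nat_lit 0x3a15bcf02) (nat_lit 0x23) (nat_lit 28))))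
 (.n (.n (.p (nat_lit 0x21b2161302) (nat_lit 0x500a01) (nat_lit 5))
 (.p (nat_lit 0x15fa15f815f615f415f0273706) (nat_lit 0x1000012124) (nat_lit 52)))
 (.n (.p (nat_lit 0x3e6e526f02) (nat_lit 0x30020b) (nat_lit 29))
 (.p (nat_lit 0x8fa5f7502) (nat_lit 0x1aa074b50000100040000) (nat_lit 50))))))
 (.n (.n (.n (.n (.p (nat_lit 0xa19072102) (nat_lit 0x250100) (nat_lit 16))
 (.p (nat_lit 0xd700d6e0d6a0d680d66124706) (nat_lit 0x400004c415) (nat_lit 51)))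
 (.n (.p (nat_lit 0xfc10fb502) (nat_lit 0x256304) (nat_lit 16))
 (.p (nat_lit 0x620060005c005a0001018b06) (nat_lit 0x314002) (nat_lit 26))))
 (.n (.n (.p (nat_lit 0x75416d102) (nat_lit 0x440001) (nat_lit 4))
 (.p (nat_lit 0x13621360135e135c135a05eb06) (nat_lit 0x10000094023) (nat_lit 51)))
 (.n (.p (nat_lit 0x448e448c448a44884486216b06) (nat_lit 0x10000010a07) (nat_lit 51))
 (.p (nat_lit 0x5ea2247b02) (nat_lit 0x60010a00) (nat_lit 47)))))
 (.n (.n (.n (.p (nat_lit 0x188a1886188418821880162906) (nat_lit 0x8000008700) (nat_lit 52))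
 (.p (nat_lit 0xa7e0a7c0a760a740883088106) (nat_lit 0x600000811c) (nat_lit 52)))
 (.n (.p (nat_lit 0x1d9b1d8f02) (nat_lit 0x34c805) (nat_lit 16))
 (.p (nat_lit 0x5d110e7d02) (nat_lit 0xc0040000300) (nat_lit 41))))
 (.n (.n (.p (nat_lit 0x231c18d702) (nat_lit 0x140a02) (nat_lit 5))
 (.p (nat_lit 0x43b57a302) (nat_lit 0x30012a) (nat_lit 30)))
 (.n (.p (nat_lit 0x1ef52e902) (nat_lit 0x40050e) (nat_lit 30))
 (.p (nat_lit 0xbb8607502) (nat_lit 0x4688ae154000200040000) (nat_lit 50))))))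

def c1024_873 : Tr :=
 .n (.n (.n (.n (.n (.n (.p (nat_lit 0x61704e102) (nat_lit 0x312000) (nat_lit 16))
 (.p (nat_lit 0x114661f102) (nat_lit 0x382a31d05000400040000) (nat_lit 50)))
 (.p (nat_lit 0x49de457102) (nat_lit 0x500713) (nat_lit 5)))
 (.n (.p (nat_lit 0xe760e740e720e700e6c25c106) (nat_lit 0x10000c6b03) (nat_lit 52))
 (.p (nat_lit 0xb43f2502) (nat_lit 0x4022e) (nat_lit 1))))
 (.n (.n (.p (nat_lit 0x22a0229c229a229822961ffb06) (nat_lit 0x80000cea00) (nat_lit 52))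
 (.p (nat_lit 0x42de3f7b02) (nat_lit 0x500720) (nat_lit 5)))
 (.n (.p (nat_lit 0x10d8515f02) (nat_lit 0x500407) (nat_lit 29))
 (.p (nat_lit 0x5d4f1c4302) (nat_lit 0x2e0080000800) (nat_lit 39)))))
 (.n (.n (.n (.p (nat_lit 0x14981496149414921490122106) (nat_lit 0x20000d2500) (nat_lit 52))
 (.p (nat_lit 0x4988465902) (nat_lit 0x40061a) (nat_lit 4)))
 (.n (.p (nat_lit 0x4995169502) (nat_lit 0x408605) (nat_lit 16))
 (.p (nat_lit 0x5cd1079702) (nat_lit 0x1c0020000100) (nat_lit 38))))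
 (.n (.n (.p (nat_lit 0x125b0f9b02) (nat_lit 0x140302) (nat_lit 15))
 (.p (nat_lit 0x1e4e1e4a1e481e461e443dfb06) (nat_lit 0x800004c127) (nat_lit 52)))
 (.n (.p (nat_lit 0x50064aed02) (nat_lit 0x54070d) (nat_lit 4))
 (.p (nat_lit 0x1ae05ff702) (nat_lit 0x386a81c35000200000600) (nat_lit 50))))))
 (.n (.n (.n (.n (.p (nat_lit 0xd620d5e0d5c0d5a0b390b3506) (nat_lit 0x1400008a300) (nat_lit 52))
 (.p (nat_lit 0x54825480547e547c547a5478028c07) (nat_lit 0x915) (nat_lit 8)))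
 (.n (.p (nat_lit 0x429f17f902) (nat_lit 0x34a604) (nat_lit 16))
 (.p (nat_lit 0x18e018c018801840147047d06) (nat_lit 0x1914409) (nat_lit 26))))
 (.n (.n (.p (nat_lit 0x3800450049175115df05) (nat_lit 0xa0b00801) (nat_lit 9))
 (.p (nat_lit 0x2f9d0cab02) (nat_lit 0x24e223) (nat_lit 16)))
 (.n (.p (nat_lit 0x30ee2d4302) (nat_lit 0x409) (nat_lit 4))
 (.p (nat_lit 0x207a5eeb02) (nat_lit 0x4a8876344000400000600) (nat_lit 50)))))
 (.n (.n (.n (.p (nat_lit 0x1bcd190302) (nat_lit 0x500800) (nat_lit 15))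
 (.p (nat_lit 0x1d5a0f0b02) (nat_lit 0x14081c) (nat_lit 4)))
 (.n (.p (nat_lit 0x1aca253102) (nat_lit 0x140706) (nat_lit 5))
 (.p (nat_lit 0x5d3112a702) (nat_lit 0x1c0060000500) (nat_lit 40))))
 (.n (.n (.p (nat_lit 0xa1a1b1702) (nat_lit 0x340103) (nat_lit 5))
 (.p (nat_lit 0xf8a144902) (nat_lit 0x54032a) (nat_lit 4)))
 (.n (.p (nat_lit 0x1e9535b02) (nat_lit 0x100b0e) (nat_lit 30))
 (.p (nat_lit 0x1db660f702) (nat_lit 0x440d663a4000300000600) (nat_lit 50))))))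

def c512_361 : Tr := .n c1024_361 c1024_873

def c256_105 : Tr := .n c512_105 c512_361

def c1024_233 : Tr :=
 .n (.n (.n (.n (.n (.n (.p (nat_lit 0xea00e400e200ef04) (nat_lit 0x9800400005) (nat_lit 17))
 (.p (nat_lit 0x114e615702) (nat_lit 0x1503a8895800400040000) (nat_lit 50)))
 (.p (nat_lit 0x32a4539d02) (nat_lit 0x400910) (nat_lit 29)))
 (.n (.p (nat_lit 0x39a439a239a0399e399c399a06) (nat_lit 0x82503) (nat_lit 52))
 (.p (nat_lit 0x2304135d02) (nat_lit 0x140a2a) (nat_lit 5))))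
 (.n (.n (.p (nat_lit 0x1e5a1e581e541e521e501bc906) (nat_lit 0x400008c900) (nat_lit 51))
 (.p (nat_lit 0x2c0628bb02) (nat_lit 0x34091d) (nat_lit 4)))
 (.n (.p (nat_lit 0x2116211421122110210c1efb06) (nat_lit 0x100000c906) (nat_lit 52))
 (.p (nat_lit 0x5d8d16a302) (nat_lit 0x2000a0000600) (nat_lit 39)))))
 (.n (.n (.n (.p (nat_lit 0x100e100c100a100810040df706) (nat_lit 0x1000002400) (nat_lit 52))
 (.p (nat_lit 0x32822efb02) (nat_lit 0x540517) (nat_lit 5)))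
 (.n (.p (nat_lit 0x21422140213e213c25d525d306) (nat_lit 0x18000050b04) (nat_lit 51))
 (.p (nat_lit 0x30e030c030a030803a1000b06) (nat_lit 0x50a01c) (nat_lit 26))))
 (.n (.n (.p (nat_lit 0xa4e0a4a0a480a460a44204f06) (nat_lit 0x8000044901) (nat_lit 52))
 (.p (nat_lit 0x2446120702) (nat_lit 0x100b23) (nat_lit 5)))
 (.n (.p (nat_lit 0x1a1525902) (nat_lit 0x44060a) (nat_lit 30))
 (.p (nat_lit 0x233c5f5702) (nat_lit 0x1aa522350000500000600) (nat_lit 49))))))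
 (.n (.n (.n (.n (.p (nat_lit 0x72608ff02) (nat_lit 0x540100) (nat_lit 5))
 (.p (nat_lit 0x10f0541702) (nat_lit 0x500415) (nat_lit 29)))
 (.n (.p (nat_lit 0xcec3e9502) (nat_lit 0x540204) (nat_lit 29))
 (.p (nat_lit 0x12c212c012be12bc12ba50c906) (nat_lit 0x8000c2830) (nat_lit 52))))
 (.n (.n (.p (nat_lit 0x2568256625642562255e22bd06) (nat_lit 0x10000d2b00) (nat_lit 52))
 (.p (nat_lit 0xd620d600d5e0d5c0d5a506706) (nat_lit 0x1000008a822) (nat_lit 52)))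
 (.n (.p (nat_lit 0x1d3406cb02) (nat_lit 0x40807) (nat_lit 5))
 (.p (nat_lit 0x5c8f21cd02) (nat_lit 0x2e0000000a00) (nat_lit 39)))))
 (.n (.n (.n (.p (nat_lit 0x178417821780177a16b516b306) (nat_lit 0x3000054600) (nat_lit 52))
 (.p (nat_lit 0x16ae16ac16aa16a816a4073706) (nat_lit 0x10000cc01c) (nat_lit 51)))
 (.n (.p (nat_lit 0x1fb21fb01fae1fac1faa1c2d06) (nat_lit 0x1000000c805) (nat_lit 51))
 (.p (nat_lit 0x5d590a4d02) (nat_lit 0x240080000200) (nat_lit 38))))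
 (.n (.n (.p (nat_lit 0x21be21ba21b821b621b4006121bd07) (nat_lit 0x400a02) (nat_lit 7))
 (.p (nat_lit 0x4d4a4ee502) (nat_lit 0x340229) (nat_lit 4)))
 (.n (.p (nat_lit 0x7aa07a407a207a0123d123b06) (nat_lit 0xc00004240e) (nat_lit 51))
 (.p (nat_lit 0xfda605502) (nat_lit 0x5858b0b44000400000000) (nat_lit 49))))))

def c1024_745 : Tr :=
 .n (.n (.n (.n (.n (.n (.p (nat_lit 0x4fc04f804f604f404f204e306) (nat_lit 0x8000084000) (nat_lit 52))
 (.p (nat_lit 0x8fc61d502) (nat_lit 0x54216ac0c800100040000) (nat_lit 50)))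
 (.p (nat_lit 0x42c43ddb02) (nat_lit 0x400712) (nat_lit 5)))
 (.n (.p (nat_lit 0x16a216a0169c169a1698246f06) (nat_lit 0x400008cb03) (nat_lit 52))
 (.p (nat_lit 0x1d261d241d221d1e1d1c375f06) (nat_lit 0x20000d622d) (nat_lit 52))))
 (.n (.n (.p (nat_lit 0x21b71e8f02) (nat_lit 0x10ea00) (nat_lit 16))
 (.p (nat_lit 0x3dea3fd702) (nat_lit 0x240120) (nat_lit 4)))
 (.n (.p (nat_lit 0x12aa12a812a612a412a00f6b06) (nat_lit 0x100004a307) (nat_lit 51))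
 (.p (nat_lit 0x5cf15e6f02) (nat_lit 0x2c0040000800) (nat_lit 36)))))
 (.n (.n (.n (.p (nat_lit 0x13bd10c502) (nat_lit 0x110500) (nat_lit 16))
 (.p (nat_lit 0x437e3f0702) (nat_lit 0x240b19) (nat_lit 4)))
 (.n (.p (nat_lit 0xe548d702) (nat_lit 0x140505) (nat_lit 30))
 (.p (nat_lit 0x5d2b064702) (nat_lit 0x220060000000) (nat_lit 41))))
 (.n (.n (.p (nat_lit 0xcd219cb02) (nat_lit 0x440202) (nat_lit 5))
 (.p (nat_lit 0x403a40384036403440323b5106) (nat_lit 0x100000c2a26) (nat_lit 51)))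
 (.n (.p (nat_lit 0x4a22448502) (nat_lit 0x54070c) (nat_lit 5))
 (.p (nat_lit 0xfe05fd502) (nat_lit 0x382c60b44000400000000) (nat_lit 50))))))
 (.n (.n (.n (.n (.p (nat_lit 0xce709d102) (nat_lit 0x252200) (nat_lit 16))
 (.p (nat_lit 0x2f8a2f862f842f801925191f06) (nat_lit 0x9000094715) (nat_lit 51)))
 (.n (.p (nat_lit 0xc200d900df1e571fbd05) (nat_lit 0x8ab40604) (nat_lit 9))
 (.p (nat_lit 0x11359db02) (nat_lit 0x706) (nat_lit 28))))
 (.n (.n (.p (nat_lit 0x46213a302) (nat_lit 0x501) (nat_lit 1))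
 (.p (nat_lit 0xb500b4e0b4a0b4603be03a703a30b4d0b4909) (nat_lit 0x1900223) (nat_lit 10)))
 (.n (.p (nat_lit 0x2f302c9102) (nat_lit 0x100209) (nat_lit 4))
 (.p (nat_lit 0x1adc5ed102) (nat_lit 0x4a1a22344000200000600) (nat_lit 49)))))
 (.n (.n (.n (.p (nat_lit 0x19001ae902) (nat_lit 0x400800) (nat_lit 5))
 (.p (nat_lit 0x30d553f02) (nat_lit 0x30071c) (nat_lit 30)))
 (.n (.p (nat_lit 0x4f1f129302) (nat_lit 0x540406) (nat_lit 16))
 (.p (nat_lit 0x5cbb13eb02) (nat_lit 0x20000000500) (nat_lit 39))))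
 (.n (.n (.p (nat_lit 0x7661c6102) (nat_lit 0x140003) (nat_lit 4))
 (.p (nat_lit 0x21e221e021de21dc21da0cb306) (nat_lit 0x8000d422a) (nat_lit 51)))
 (.n (.p (nat_lit 0x1ed533b02) (nat_lit 0x30090e) (nat_lit 30))
 (.p (nat_lit 0x13fc60d702) (nat_lit 0x354a623b0000500040000) (nat_lit 50))))))

def c512_233 : Tr := .n c1024_233 c1024_745

def c1024_489 : Tr :=
 .n (.n (.n (.n (.n (.n (.p (nat_lit 0x2f802f602f202ff04) (nat_lit 0x680040001a) (nat_lit 17))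
 (.p (nat_lit 0xbb4619902) (nat_lit 0x3422a5c14800200040000) (nat_lit 50)))
 (.p (nat_lit 0x3af6361702) (nat_lit 0x400a11) (nat_lit 4)))
 (.n (.p (nat_lit 0xb421c102) (nat_lit 0xa03) (nat_lit 1))
 (.p (nat_lit 0x18d018ce18cc18ca18c82f4506) (nat_lit 0x1000001422c) (nat_lit 52))))
 (.n (.n (.p (nat_lit 0x1fe41fe01fdc1fda1d311d2d06) (nat_lit 0xa000056900) (nat_lit 51))
 (.p (nat_lit 0x35bc380f02) (nat_lit 0x40011f) (nat_lit 4)))
 (.n (.p (nat_lit 0x14e015f0155066b04f905) (nat_lit 0x84340207) (nat_lit 9))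
 (.p (nat_lit 0x5d6b181f02) (nat_lit 0x120080000700) (nat_lit 40)))))
 (.n (.n (.n (.p (nat_lit 0x11c011be11bc11ba11b80f5d06) (nat_lit 0x8000ce400) (nat_lit 52))
 (.p (nat_lit 0x3b82372d02) (nat_lit 0xb18) (nat_lit 4)))
 (.n (.p (nat_lit 0xcf6222902) (nat_lit 0x440205) (nat_lit 4))
 (.p (nat_lit 0x43e043c0436043404af000706) (nat_lit 0x131422a) (nat_lit 26))))
 (.n (.n (.p (nat_lit 0x2325231902) (nat_lit 0x550a01) (nat_lit 16))
 (.p (nat_lit 0x2e34311f02) (nat_lit 0x100125) (nat_lit 5)))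
 (.n (.p (nat_lit 0x4257421b02) (nat_lit 0x30860b) (nat_lit 16))
 (.p (nat_lit 0xd105f9302) (nat_lit 0x580bb0344000300000000) (nat_lit 49))))))
 (.n (.n (.n (.n (.p (nat_lit 0xa9e0a9c0a9a0a98087b087906) (nat_lit 0x1800008a200) (nat_lit 51))
 (.p (nat_lit 0x233c233a233823362332138d06) (nat_lit 0x1000016515) (nat_lit 52)))
 (.n (.p (nat_lit 0xb9411b02) (nat_lit 0x200504) (nat_lit 30))
 (.p (nat_lit 0x593c593a5938593459320493009207) (nat_lit 0x200403) (nat_lit 25))))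
 (.n (.n (.p (nat_lit 0xb5e27b702) (nat_lit 0x201) (nat_lit 29))
 (.p (nat_lit 0xbb00bac0baa0ba80ba6089106) (nat_lit 0x8000084123) (nat_lit 52)))
 (.n (.p (nat_lit 0x4b4c4b4a4b484b464b44257506) (nat_lit 0x100000c6b07) (nat_lit 52))
 (.p (nat_lit 0x5ce3248302) (nat_lit 0xa0020000b00) (nat_lit 39)))))
 (.n (.n (.n (.p (nat_lit 0x1951162502) (nat_lit 0x212700) (nat_lit 16))
 (.p (nat_lit 0x363709dd02) (nat_lit 0x25011c) (nat_lit 16)))
 (.n (.p (nat_lit 0xa420a400a3e0a3c0a3801150a3b07) (nat_lit 0x140106) (nat_lit 7))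
 (.p (nat_lit 0x5d950d1d02) (nat_lit 0x1800a0000300) (nat_lit 40))))
 (.n (.n (.p (nat_lit 0x25b7231f02) (nat_lit 0x240a02) (nat_lit 15))
 (.p (nat_lit 0x51405120510050c050a09f506) (nat_lit 0x20000c612a) (nat_lit 51)))
 (.n (.p (nat_lit 0x494114cb02) (nat_lit 0x15450e) (nat_lit 16))
 (.p (nat_lit 0x2072609302) (nat_lit 0x356221ca4000400000600) (nat_lit 49))))))

def c1024_1001 : Tr :=
 .n (.n (.n (.n (.n (.p (nat_lit 0x71a071807160714064f064d06) (nat_lit 0x18000d6000) (nat_lit 52))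
 (.p (nat_lit 0x4fdc4c5902) (nat_lit 0x100714) (nat_lit 5)))
 (.n (.p (nat_lit 0x8cf061b02) (nat_lit 0x500004) (nat_lit 15))
 (.p (nat_lit 0x435841f502) (nat_lit 0x500b2e) (nat_lit 5))))
 (.n (.n (.p (nat_lit 0x238423822380237e237c215506) (nat_lit 0x800004b00) (nat_lit 52))
 (.p (nat_lit 0x4587457d02) (nat_lit 0x4a121) (nat_lit 16)))
 (.n (.p (nat_lit 0x1430142e142a14281426122f06) (nat_lit 0x40000c4407) (nat_lit 52))
 (.p (nat_lit 0x5cd91daf02) (nat_lit 0x140020000900) (nat_lit 40)))))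
 (.n (.n (.n (.p (nat_lit 0x15e215e015de15dc15d8154f06) (nat_lit 0x1000010600) (nat_lit 52))
 (.p (nat_lit 0x50164cc702) (nat_lit 0x14071b) (nat_lit 5)))
 (.n (.p (nat_lit 0x16ae16ac16aa16a616a4195d06) (nat_lit 0x200008c705) (nat_lit 51))
 (.p (nat_lit 0x5d595dd702) (nat_lit 0x240080000100) (nat_lit 36))))
 (.n (.n (.p (nat_lit 0x1502150014fe14fc14fa005914f907) (nat_lit 0x40502) (nat_lit 7))
 (.p (nat_lit 0x44a8477b02) (nat_lit 0x40028) (nat_lit 4)))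
 (.n (.p (nat_lit 0xa720a6e0a6c0a680e150e0f06) (nat_lit 0x900008030e) (nat_lit 51))
 (.p (nat_lit 0x2332601702) (nat_lit 0x405aa2335000500000600) (nat_lit 49))))))
 (.n (.n (.n (.n (.p (nat_lit 0xc980e8302) (nat_lit 0x540300) (nat_lit 5))
 (.p (nat_lit 0x3345218302) (nat_lit 0x50ea15) (nat_lit 16)))
 (.n (.p (nat_lit 0x861ab102) (nat_lit 0x40704) (nat_lit 1))
 (.p (nat_lit 0x14a5a8302) (nat_lit 0x50050e) (nat_lit 27))))
 (.n (.n (.p (nat_lit 0x2b482b462b442b422b402b3e00381d831d811d7d0a) (nat_lit 0xd040801) (nat_lit 31))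
 (.p (nat_lit 0x315c315a3158315631541aa306) (nat_lit 0x10000054723) (nat_lit 51)))
 (.n (.p (nat_lit 0x69e069c069a06980696337706) (nat_lit 0x8000c8a09) (nat_lit 52))
 (.p (nat_lit 0x1da25f1502) (nat_lit 0x3aa530344000300000600) (nat_lit 49)))))
 (.n (.n (.n (.p (nat_lit 0x1cae1cac1caa1ca81ca61a5d06) (nat_lit 0x8000c6800) (nat_lit 51))
 (.p (nat_lit 0x384218502) (nat_lit 0xa1c) (nat_lit 1)))
 (.n (.p (nat_lit 0x11441140113e113c113a1c3706) (nat_lit 0x8000088806) (nat_lit 52))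
 (.p (nat_lit 0x5ca3153502) (nat_lit 0x1a0000000600) (nat_lit 38))))
 (.n (.n (.p (nat_lit 0x37590ce102) (nat_lit 0x548203) (nat_lit 16))
 (.p (nat_lit 0x1942145902) (nat_lit 0x10072a) (nat_lit 5)))
 (.n (.p (nat_lit 0x20b537d02) (nat_lit 0x4050f) (nat_lit 30))
 (.p (nat_lit 0x1976611b02) (nat_lit 0x350522264000100040600) (nat_lit 49))))))

def c512_489 : Tr := .n c1024_489 c1024_1001

def c256_233 : Tr := .n c512_233 c512_489

def c128_105 : Tr := .n c256_105 c256_233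

def c64_41 : Tr := .n c128_41 c128_105

def c32_9 : Tr := .n c64_9 c64_41

def c1024_25 : Tr :=
 .n (.n (.n (.n (.n (.n (.p (nat_lit 0x29002100130027001f001106) (nat_lit 0x475000000) (nat_lit 22))
 (.p (nat_lit 0x13ee612902) (nat_lit 0x35486a3a4000500040000) (nat_lit 49)))
 (.p (nat_lit 0x2b122b102b0c2b0a2b0802112b0f07) (nat_lit 0x30080f) (nat_lit 7)))
 (.n (.p (nat_lit 0xfa41b3f02) (nat_lit 0x40303) (nat_lit 4))
 (.p (nat_lit 0x1aa6146302) (nat_lit 0x14072a) (nat_lit 5))))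
 (.n (.n (.p (nat_lit 0x1cf61cf21cf01cee1cec1a6506) (nat_lit 0x80000cc800) (nat_lit 52))
 (.p (nat_lit 0x3347218502) (nat_lit 0xea1c) (nat_lit 16)))
 (.n (.p (nat_lit 0x50451c2f02) (nat_lit 0x2806) (nat_lit 16))
 (.p (nat_lit 0x5ce316a702) (nat_lit 0xa0020000600) (nat_lit 41)))))
 (.n (.n (.n (.p (nat_lit 0xeb20eb00eac0eaa0c950c8f06) (nat_lit 0x48000c2300) (nat_lit 52))
 (.p (nat_lit 0x300243302) (nat_lit 0x300b15) (nat_lit 1)))
 (.n (.p (nat_lit 0x1cea1ce81ce61ce41ce01ab306) (nat_lit 0x100004c704) (nat_lit 52))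
 (.p (nat_lit 0x1ed5aaf02) (nat_lit 0x300b0e) (nat_lit 28))))
 (.n (.n (.p (nat_lit 0x2b4b1d7d02) (nat_lit 0x40801) (nat_lit 16))
 (.p (nat_lit 0x38c238c038bc38ba1c091c0306) (nat_lit 0x12000016823) (nat_lit 52)))
 (.n (.p (nat_lit 0x36b8344102) (nat_lit 0x10020a) (nat_lit 4))
 (.p (nat_lit 0x1da65f1d02) (nat_lit 0x3a2274350000300000600) (nat_lit 49))))))
 (.n (.n (.n (.n (.p (nat_lit 0x775065102) (nat_lit 0x252000) (nat_lit 16))
 (.p (nat_lit 0x5057504b02) (nat_lit 0x306814) (nat_lit 16)))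
 (.n (.p (nat_lit 0x3cd43cd23cd03ccc3cca077506) (nat_lit 0x20000cc004) (nat_lit 51))
 (.p (nat_lit 0x4608487d02) (nat_lit 0x30022f) (nat_lit 4))))
 (.n (.n (.p (nat_lit 0x23fa23f823f623f02159215706) (nat_lit 0x3000090b00) (nat_lit 51))
 (.p (nat_lit 0xd400d3e0d3c0d3a0d3649ef06) (nat_lit 0x1000002721) (nat_lit 51)))
 (.n (.p (nat_lit 0x190f163702) (nat_lit 0x500607) (nat_lit 15))
 (.p (nat_lit 0x5d155e8702) (nat_lit 0x80040000900) (nat_lit 36)))))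
 (.n (.n (.n (.p (nat_lit 0x16121610160e16081551154f06) (nat_lit 0x3000014600) (nat_lit 51))
 (.p (nat_lit 0x5d40e8502) (nat_lit 0x1c) (nat_lit 5)))
 (.n (.p (nat_lit 0x1965195902) (nat_lit 0xc705) (nat_lit 16))
 (.p (nat_lit 0x5dd82b9f02) (nat_lit 0xa000c100) (nat_lit 47))))
 (.n (.n (.p (nat_lit 0x150b14ff02) (nat_lit 0x352502) (nat_lit 16))
 (.p (nat_lit 0x2240223e223c22382236451b06) (nat_lit 0x2000086128) (nat_lit 52)))
 (.n (.p (nat_lit 0x2880f7d02) (nat_lit 0x44030e) (nat_lit 1))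
 (.p (nat_lit 0x1148602102) (nat_lit 0x406a6252d000400040000) (nat_lit 50))))))

def c1024_537 : Tr :=
 .n (.n (.n (.n (.n (.n (.p (nat_lit 0x325031d031403) (nat_lit 0x6080001c) (nat_lit 19))
 (.p (nat_lit 0x1db061a102) (nat_lit 0x3222a5c15000300000600) (nat_lit 50)))
 (.p (nat_lit 0x3bce362b02) (nat_lit 0x240b11) (nat_lit 4)))
 (.n (.p (nat_lit 0x1e361e321e301e2e21c921c106) (nat_lit 0x880000aa03) (nat_lit 52))
 (.p (nat_lit 0x30a2322f02) (nat_lit 0x4032c) (nat_lit 4))))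
 (.n (.n (.p (nat_lit 0x203b1d2902) (nat_lit 0x4a900) (nat_lit 16))
 (.p (nat_lit 0x392439223920391e391a39f906) (nat_lit 0x100008251f) (nat_lit 52)))
 (.n (.p (nat_lit 0xf730ca502) (nat_lit 0x540207) (nat_lit 15))
 (.p (nat_lit 0x5dad5e6302) (nat_lit 0xa0000700) (nat_lit 37)))))
 (.n (.n (.n (.p (nat_lit 0x12510f6102) (nat_lit 0x24c400) (nat_lit 16))
 (.p (nat_lit 0x3c5a3e9b02) (nat_lit 0x300019) (nat_lit 4)))
 (.n (.p (nat_lit 0xe58469d02) (nat_lit 0x200305) (nat_lit 29))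
 (.p (nat_lit 0x4355c6502) (nat_lit 0xa2a) (nat_lit 28))))
 (.n (.n (.p (nat_lit 0x7582d0902) (nat_lit 0x40002) (nat_lit 29))
 (.p (nat_lit 0x32b4314302) (nat_lit 0x200925) (nat_lit 4)))
 (.n (.p (nat_lit 0x3460345e345c3458345642b506) (nat_lit 0x200000670b) (nat_lit 52))
 (.p (nat_lit 0xa585f9d02) (nat_lit 0x568bb0344000200000000) (nat_lit 50))))))
 (.n (.n (.n (.n (.p (nat_lit 0xb53087102) (nat_lit 0xa200) (nat_lit 16))
 (.p (nat_lit 0x64a064606440642064014dd06) (nat_lit 0x80000c0515) (nat_lit 51)))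
 (.n (.p (nat_lit 0x41a841a641a441a241a0419e00c007) (nat_lit 0x40504) (nat_lit 8))
 (.p (nat_lit 0x595c595a595859565954036300c007) (nat_lit 0x8204) (nat_lit 25))))
 (.n (.n (.p (nat_lit 0xcbe158702) (nat_lit 0x40201) (nat_lit 4))
 (.p (nat_lit 0x1daa1da61da41da21da0089106) (nat_lit 0x8000012123) (nat_lit 52)))
 (.n (.p (nat_lit 0x2f39281702) (nat_lit 0x510208) (nat_lit 16))
 (.p (nat_lit 0x5d03233702) (nat_lit 0x1a0040000b00) (nat_lit 38)))))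
 (.n (.n (.n (.p (nat_lit 0x179c197b02) (nat_lit 0x540700) (nat_lit 4))
 (.p (nat_lit 0x100210000ffe0ffa0ff8139b06) (nat_lit 0x200008051c) (nat_lit 52)))
 (.n (.p (nat_lit 0xb9c237d02) (nat_lit 0x100206) (nat_lit 4))
 (.p (nat_lit 0x5e0a14e102) (nat_lit 0x44400) (nat_lit 48))))
 (.n (.n (.p (nat_lit 0x66007b007d18e71a4b05) (nat_lit 0xa5300b02) (nat_lit 9))
 (.p (nat_lit 0x442045f045d141f12c905) (nat_lit 0x8ea0022a) (nat_lit 9)))
 (.n (.p (nat_lit 0x164b163f02) (nat_lit 0x30660e) (nat_lit 16))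
 (.p (nat_lit 0x1dac609d02) (nat_lit 0x346068ca4000300000600) (nat_lit 50))))))

def c512_25 : Tr := .n c1024_25 c1024_537

def c1024_281 : Tr :=
 .n (.n (.n (.n (.n (.n (.p (nat_lit 0x11a01180114011f04) (nat_lit 0xd000400006) (nat_lit 17))
 (.p (nat_lit 0x21cc616102) (nat_lit 0x3503a8d84000400040600) (nat_lit 49)))
 (.p (nat_lit 0x338c338a3386338433820229338907) (nat_lit 0x340a10) (nat_lit 7)))
 (.n (.p (nat_lit 0x3a383a363a343a323a30150506) (nat_lit 0x8000c4503) (nat_lit 52))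
 (.p (nat_lit 0x25a6137302) (nat_lit 0x40b2a) (nat_lit 4))))
 (.n (.n (.p (nat_lit 0x1e8a1e881e861e801bc71bc506) (nat_lit 0x3000096900) (nat_lit 52))
 (.p (nat_lit 0x2d9e2fcb02) (nat_lit 0x14001e) (nat_lit 5)))
 (.n (.p (nat_lit 0x2060256102) (nat_lit 0x140906) (nat_lit 4))
 (.p (nat_lit 0x5c99197102) (nat_lit 0x240000000700) (nat_lit 39)))))
 (.n (.n (.n (.p (nat_lit 0x104a10481044104210400dfb06) (nat_lit 0x400008c400) (nat_lit 52))
 (.p (nat_lit 0x33443340333e333c333a02c5334307) (nat_lit 0x400a17) (nat_lit 7)))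
 (.n (.p (nat_lit 0xeb43b302) (nat_lit 0x400005) (nat_lit 30))
 (.p (nat_lit 0x3d25ba702) (nat_lit 0x10051d) (nat_lit 27))))
 (.n (.n (.p (nat_lit 0x1adc1ada1ad81ad61ad4205106) (nat_lit 0x10000050901) (nat_lit 52))
 (.p (nat_lit 0x3b9d244702) (nat_lit 0x110b23) (nat_lit 16)))
 (.n (.p (nat_lit 0x3b7234a302) (nat_lit 0x400b0a) (nat_lit 5))
 (.p (nat_lit 0x13fe5f5f02) (nat_lit 0x4a1d22344000500040000) (nat_lit 50))))))
 (.n (.n (.n (.n (.p (nat_lit 0x9380936093409320727071d06) (nat_lit 0x1080004a100) (nat_lit 52))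
 (.p (nat_lit 0xdf00dee0dea0de810f110eb06) (nat_lit 0x12000096415) (nat_lit 52)))
 (.n (.p (nat_lit 0x3640e4b02) (nat_lit 0x100304) (nat_lit 1))
 (.p (nat_lit 0x2d58ab02) (nat_lit 0x100401) (nat_lit 28))))
 (.n (.n (.p (nat_lit 0x25ad22c102) (nat_lit 0x34ab00) (nat_lit 16))
 (.p (nat_lit 0x5113510702) (nat_lit 0x20a922) (nat_lit 16)))
 (.n (.p (nat_lit 0x1ea006df02) (nat_lit 0x400907) (nat_lit 4))
 (.p (nat_lit 0x5cd121db02) (nat_lit 0x1c0020000a00) (nat_lit 41)))))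
 (.n (.n (.n (.p (nat_lit 0x17db16b102) (nat_lit 0x4a600) (nat_lit 16))
 (.p (nat_lit 0x248a248624822480073d073906) (nat_lit 0xa0000d601c) (nat_lit 52)))
 (.n (.p (nat_lit 0x1d8e22b502) (nat_lit 0x340805) (nat_lit 4))
 (.p (nat_lit 0x5d890a4f02) (nat_lit 0x2400a0000200) (nat_lit 38))))
 (.n (.n (.p (nat_lit 0x13f413f213f013ee13ec21b506) (nat_lit 0x80008aa02) (nat_lit 52))
 (.p (nat_lit 0x5070506c506a50680430042704235073506f09) (nat_lit 0x2b00829) (nat_lit 10)))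
 (.n (.p (nat_lit 0x1c441c421c401c3c1c3a123906) (nat_lit 0x20000d040e) (nat_lit 52))
 (.p (nat_lit 0xe76606102) (nat_lit 0x85ab0335000300040000) (nat_lit 49))))))

def c1024_793 : Tr :=
 .n (.n (.n (.n (.n (.n (.p (nat_lit 0x52c052a0526052204e104dd06) (nat_lit 0x5000088000) (nat_lit 51))
 (.p (nat_lit 0x1c4061df02) (nat_lit 0x3508a5d84000200040600) (nat_lit 49)))
 (.p (nat_lit 0x47da44c302) (nat_lit 0x100413) (nat_lit 4)))
 (.n (.p (nat_lit 0x167f247302) (nat_lit 0x500b03) (nat_lit 15))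
 (.p (nat_lit 0x3ba63a4f02) (nat_lit 0xb2d) (nat_lit 5))))
 (.n (.n (.p (nat_lit 0x1ffc1ffa1ff81ff20016000500031ff71ff509) (nat_lit 0x1140a00) (nat_lit 10))
 (.p (nat_lit 0x423a560702) (nat_lit 0x100620) (nat_lit 29)))
 (.n (.p (nat_lit 0x21e021de21dc21da0f730f6906) (nat_lit 0x108000d4307) (nat_lit 51))
 (.p (nat_lit 0x5d211adb02) (nat_lit 0x2c0060000800) (nat_lit 38)))))
 (.n (.n (.n (.p (nat_lit 0x140c140a140814061402121f06) (nat_lit 0x1000042500) (nat_lit 51))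
 (.p (nat_lit 0x2f754dd02) (nat_lit 0x24041a) (nat_lit 30)))
 (.n (.p (nat_lit 0x114168f02) (nat_lit 0x100605) (nat_lit 1))
 (.p (nat_lit 0x5da904d902) (nat_lit 0x400a0000000) (nat_lit 40))))
 (.n (.n (.p (nat_lit 0xe3619d502) (nat_lit 0x300302) (nat_lit 5))
 (.p (nat_lit 0x3a63bf502) (nat_lit 0x340b26) (nat_lit 1)))
 (.n (.p (nat_lit 0x4dc84b4102) (nat_lit 0x40030d) (nat_lit 5))
 (.p (nat_lit 0x15385fe502) (nat_lit 0x3062a1c35000000000600) (nat_lit 49))))))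
 (.n (.n (.n (.n (.p (nat_lit 0xd1d0d1102) (nat_lit 0x500300) (nat_lit 34))
 (.p (nat_lit 0x2f222f1e2f1c2f181a891a8306) (nat_lit 0x90000d4715) (nat_lit 52)))
 (.n (.p (nat_lit 0xe820e800e7c0e7a0e7817f906) (nat_lit 0x40000c6604) (nat_lit 51))
 (.p (nat_lit 0x148014601420140018f000506) (nat_lit 0x2a0e307) (nat_lit 26))))
 (.n (.n (.p (nat_lit 0x14ec2a7b02) (nat_lit 0x40501) (nat_lit 29))
 (.p (nat_lit 0x3a156b902) (nat_lit 0x40223) (nat_lit 30)))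
 (.n (.p (nat_lit 0x37472f9102) (nat_lit 0x252209) (nat_lit 16))
 (.p (nat_lit 0xa445ed902) (nat_lit 0x4a0d84344000200000000) (nat_lit 49)))))
 (.n (.n (.n (.p (nat_lit 0x1b601b5e1b5c1b581b5618fd06) (nat_lit 0x2000088800) (nat_lit 52))
 (.p (nat_lit 0x1a940d9302) (nat_lit 0x44071c) (nat_lit 5)))
 (.n (.p (nat_lit 0x4fa1152902) (nat_lit 0x42506) (nat_lit 16))
 (.p (nat_lit 0x5cd9129702) (nat_lit 0x140020000500) (nat_lit 38))))
 (.n (.n (.p (nat_lit 0x773076702) (nat_lit 0x154003) (nat_lit 16))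
 (.p (nat_lit 0x43b57c702) (nat_lit 0x30032a) (nat_lit 30)))
 (.n (.p (nat_lit 0x1f1534b02) (nat_lit 0x54090e) (nat_lit 30))
 (.p (nat_lit 0x12a712990fe10fd70d1d0d0d0a510a4d07a7079f04d104c360e00d) (nat_lit 0x340d623a4000000000000) (nat_lit 33))))))

def c512_281 : Tr := .n c1024_281 c1024_793

def c256_25 : Tr := .n c512_25 c512_281

def c1024_153 : Tr :=
 .n (.n (.n (.n (.n (.n (.p (nat_lit 0x8e0088009503) (nat_lit 0x9000500003) (nat_lit 17))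
 (.p (nat_lit 0x8f0614902) (nat_lit 0x350221d84000100040000) (nat_lit 49)))
 (.p (nat_lit 0x1a421a401a3e1a3a1a3830ff06) (nat_lit 0x2000094410) (nat_lit 52)))
 (.n (.p (nat_lit 0x126e126c126a126812640089126707) (nat_lit 0x140403) (nat_lit 7))
 (.p (nat_lit 0x439582502) (nat_lit 0x24092a) (nat_lit 30))))
 (.n (.n (.p (nat_lit 0xbc1bcb02) (nat_lit 0x400900) (nat_lit 1))
 (.p (nat_lit 0x25a1259502) (nat_lit 0x34ab1c) (nat_lit 16)))
 (.n (.p (nat_lit 0x21e221e021de21dc21d81d9706) (nat_lit 0x10000d4806) (nat_lit 51))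
 (.p (nat_lit 0x5d2b153b02) (nat_lit 0x220060000600) (nat_lit 38)))))
 (.n (.n (.n (.p (nat_lit 0xfbf0c9102) (nat_lit 0x154300) (nat_lit 16))
 (.p (nat_lit 0x2baa27fb02) (nat_lit 0x500916) (nat_lit 4)))
 (.n (.p (nat_lit 0x436443624360435e435c435a00c007) (nat_lit 0x40b04) (nat_lit 8))
 (.p (nat_lit 0x2ec5b2f02) (nat_lit 0x400915) (nat_lit 27))))
 (.n (.n (.p (nat_lit 0x248824862484248224801eeb06) (nat_lit 0x10000096901) (nat_lit 52))
 (.p (nat_lit 0x2038109102) (nat_lit 0x540923) (nat_lit 5)))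
 (.n (.p (nat_lit 0x38da350102) (nat_lit 0x40040a) (nat_lit 4))
 (.p (nat_lit 0x8fc5f3d02) (nat_lit 0x3a2560c64000100040000) (nat_lit 50))))))
 (.n (.n (.n (.n (.p (nat_lit 0x85408520850084c05c705bf06) (nat_lit 0x11000094100) (nat_lit 51))
 (.p (nat_lit 0x90a0908090609040900072b06) (nat_lit 0x1000046015) (nat_lit 51)))
 (.n (.p (nat_lit 0xb863e0f02) (nat_lit 0x200204) (nat_lit 29))
 (.p (nat_lit 0x4a5848b502) (nat_lit 0x24072f) (nat_lit 4))))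
 (.n (.n (.p (nat_lit 0x24c624c424c224c022bd22bb06) (nat_lit 0x18000c2b00) (nat_lit 51))
 (.p (nat_lit 0x39d566302) (nat_lit 0x540122) (nat_lit 30)))
 (.n (.p (nat_lit 0x1a7f1a7302) (nat_lit 0x544707) (nat_lit 16))
 (.p (nat_lit 0x5e8e21c902) (nat_lit 0x8000e900) (nat_lit 47)))))
 (.n (.n (.n (.p (nat_lit 0x170016fe16f816f616b716b506) (nat_lit 0x60000c4600) (nat_lit 51))
 (.p (nat_lit 0x5e705db02) (nat_lit 0x30a01c) (nat_lit 16)))
 (.n (.p (nat_lit 0x248a24882484248224801ac306) (nat_lit 0x40000d6705) (nat_lit 52))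
 (.p (nat_lit 0x5cef5de702) (nat_lit 0x2e0040000200) (nat_lit 36))))
 (.n (.n (.p (nat_lit 0x1afe1afc1afa1af8205d205b06) (nat_lit 0x180000c0902) (nat_lit 51))
 (.p (nat_lit 0x4b984ec302) (nat_lit 0x440029) (nat_lit 5)))
 (.n (.p (nat_lit 0x198619841980197c10e110dd06) (nat_lit 0x500008e40e) (nat_lit 51))
 (.p (nat_lit 0x8ec604302) (nat_lit 0x40a96254c800100040000) (nat_lit 49))))))

def c1024_665 : Tr :=
 .n (.n (.n (.n (.n (.n (.p (nat_lit 0x45b0449044203) (nat_lit 0x4200002a) (nat_lit 19))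
 (.p (nat_lit 0x233461bf02) (nat_lit 0x3221a9c15000500000600) (nat_lit 49)))
 (.p (nat_lit 0x41f63d3102) (nat_lit 0x40512) (nat_lit 5)))
 (.n (.p (nat_lit 0x24681d1102) (nat_lit 0xb03) (nat_lit 5))
 (.p (nat_lit 0x364c399d02) (nat_lit 0x14012d) (nat_lit 4))))
 (.n (.n (.p (nat_lit 0x21382136213421321e971e8d06) (nat_lit 0x1080008ea00) (nat_lit 51))
 (.p (nat_lit 0xd580d560d540d520d4e3be506) (nat_lit 0x100004ab1f) (nat_lit 52)))
 (.n (.p (nat_lit 0x248a24862484248224800e0906) (nat_lit 0x8000096307) (nat_lit 52))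
 (.p (nat_lit 0x5cdf1c4902) (nat_lit 0xe0020000800) (nat_lit 41)))))
 (.n (.n (.n (.p (nat_lit 0x12e412e212e012de12dc10cd06) (nat_lit 0x10000006500) (nat_lit 51))
 (.p (nat_lit 0xbf60bf40bf20bf00bee423706) (nat_lit 0x1000000a619) (nat_lit 51)))
 (.n (.p (nat_lit 0x127c47ed02) (nat_lit 0x40405) (nat_lit 29))
 (.p (nat_lit 0x5cd704c502) (nat_lit 0x160020000000) (nat_lit 38))))
 (.n (.n (.p (nat_lit 0xa10184d02) (nat_lit 0x440102) (nat_lit 5))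
 (.p (nat_lit 0x1bb41bb01bae1bac1baa364706) (nat_lit 0x8000056126) (nat_lit 52)))
 (.n (.p (nat_lit 0x4e1d475102) (nat_lit 0x14c30c) (nat_lit 16))
 (.p (nat_lit 0x154a5fc902) (nat_lit 0x9582ec15800000000600) (nat_lit 50))))))
 (.n (.n (.n (.n (.p (nat_lit 0xc040c020c000bfc09d109cd06) (nat_lit 0x28000ca200) (nat_lit 52))
 (.p (nat_lit 0x1659164d02) (nat_lit 0x408615) (nat_lit 16)))
 (.n (.p (nat_lit 0x16a0169e169c169a1698168b06) (nat_lit 0x1000008c604) (nat_lit 52))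
 (.p (nat_lit 0xea00e600e400e2000b011906) (nat_lit 0x2b0e605) (nat_lit 26))))
 (.n (.n (.p (nat_lit 0x2d293d02) (nat_lit 0x100401) (nat_lit 30))
 (.p (nat_lit 0x1c501c4e1c4c1c4a1c4809e506) (nat_lit 0x8000d0123) (nat_lit 51)))
 (.n (.p (nat_lit 0x2cd02cce2ccc2cc82cc62b4f06) (nat_lit 0x2000054808) (nat_lit 51))
 (.p (nat_lit 0x5ebe4b8d02) (nat_lit 0x80046b00) (nat_lit 48)))))
 (.n (.n (.n (.p (nat_lit 0x1a5a1a561a541a50179b179506) (nat_lit 0x90000d6700) (nat_lit 52))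
 (.p (nat_lit 0x73f14eb02) (nat_lit 0x54051c) (nat_lit 15)))
 (.n (.p (nat_lit 0x113424f902) (nat_lit 0x300406) (nat_lit 4))
 (.p (nat_lit 0x5d675e1d02) (nat_lit 0x160080000400) (nat_lit 37))))
 (.n (.n (.p (nat_lit 0x17541750174e174c174a25bb06) (nat_lit 0x8000050b02) (nat_lit 51))
 (.p (nat_lit 0xcba12d902) (nat_lit 0x44022a) (nat_lit 5)))
 (.n (.p (nat_lit 0x1be91bdd02) (nat_lit 0x10680e) (nat_lit 16))
 (.p (nat_lit 0x8f260cb02) (nat_lit 0x3505623a4000100040000) (nat_lit 49))))))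

def c512_153 : Tr := .n c1024_153 c1024_665

def c1024_409 : Tr :=
 .n (.n (.n (.n (.n (.n (.p (nat_lit 0x210020e020c021704) (nat_lit 0x700040000f) (nat_lit 17))
 (.p (nat_lit 0x8e8618302) (nat_lit 0x421a86b15000100040000) (nat_lit 49)))
 (.p (nat_lit 0x86397302) (nat_lit 0x40411) (nat_lit 1)))
 (.n (.p (nat_lit 0x17ec1cf302) (nat_lit 0x340603) (nat_lit 4))
 (.p (nat_lit 0x31d431d231ce31cc31ca2b7706) (nat_lit 0x400005482b) (nat_lit 51))))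
 (.n (.n (.p (nat_lit 0x1f6a1f681f661f641d331d3106) (nat_lit 0x18000046900) (nat_lit 52))
 (.p (nat_lit 0x33f4308702) (nat_lit 0x400b1e) (nat_lit 5)))
 (.n (.p (nat_lit 0x7c207c007bc07ba07b80b4106) (nat_lit 0x4000086207) (nat_lit 52))
 (.p (nat_lit 0x5d435e5b02) (nat_lit 0xa0060000700) (nat_lit 37)))))
 (.n (.n (.n (.p (nat_lit 0x114f114302) (nat_lit 0x440400) (nat_lit 34))
 (.p (nat_lit 0x1c741c721c701c6e1c6c39eb06) (nat_lit 0x800002518) (nat_lit 52)))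
 (.n (.p (nat_lit 0x4550454e454c454a4548454606) (nat_lit 0xc8105) (nat_lit 52))
 (.p (nat_lit 0x3a95beb02) (nat_lit 0x400b23) (nat_lit 28))))
 (.n (.n (.p (nat_lit 0x230e161502) (nat_lit 0x40a01) (nat_lit 5))
 (.p (nat_lit 0x287829d102) (nat_lit 0x340224) (nat_lit 4)))
 (.n (.p (nat_lit 0x1e7e1e7c1e7a1e781e763f9106) (nat_lit 0x80001630b) (nat_lit 52))
 (.p (nat_lit 0x15425f8102) (nat_lit 0x581a22b44000000000600) (nat_lit 50))))))
 (.n (.n (.n (.n (.p (nat_lit 0x288087902) (nat_lit 0x400200) (nat_lit 1))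
 (.p (nat_lit 0x4ca04c804c604c404c2139506) (nat_lit 0x10000000515) (nat_lit 52)))
 (.n (.p (nat_lit 0x1125111902) (nat_lit 0x116404) (nat_lit 16))
 (.p (nat_lit 0x590058fc58fa58f858f60009006407) (nat_lit 0x416902) (nat_lit 25))))
 (.n (.n (.p (nat_lit 0x8a626db02) (nat_lit 0x300101) (nat_lit 29))
 (.p (nat_lit 0x74807460742074003c803ab03a5074b074509) (nat_lit 0x2a40023) (nat_lit 10)))
 (.n (.p (nat_lit 0x22d722cb02) (nat_lit 0x244a07) (nat_lit 16))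
 (.p (nat_lit 0x5d4f21d502) (nat_lit 0x2e0080000a00) (nat_lit 39)))))
 (.n (.n (.n (.p (nat_lit 0x18d018cc18ca18c8162b162706) (nat_lit 0x14000014700) (nat_lit 52))
 (.p (nat_lit 0x4513088502) (nat_lit 0x41411c) (nat_lit 16)))
 (.n (.p (nat_lit 0x78c24a902) (nat_lit 0x240006) (nat_lit 5))
 (.p (nat_lit 0x5d2f0d1902) (nat_lit 0x1e0060000300) (nat_lit 40))))
 (.n (.n (.p (nat_lit 0xd100d0e0d0c0d0a0d06231d06) (nat_lit 0x1000046a02) (nat_lit 52))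
 (.p (nat_lit 0x52a0528052605240522089f06) (nat_lit 0x1000008812a) (nat_lit 51)))
 (.n (.p (nat_lit 0x14ca093f02) (nat_lit 0x14050e) (nat_lit 4))
 (.p (nat_lit 0x181e608102) (nat_lit 0x354221ca4000100000600) (nat_lit 50))))))

def c1024_921 : Tr :=
 .n (.n (.n (.n (.n (.p (nat_lit 0x66e066c066a0668064f064d06) (nat_lit 0x18000c4000) (nat_lit 51))
 (.p (nat_lit 0x4e264c3702) (nat_lit 0x40314) (nat_lit 5)))
 (.n (.p (nat_lit 0x21d621d221ce21cc25c725c306) (nat_lit 0xa0000d4b03) (nat_lit 52))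
 (.p (nat_lit 0x4250415102) (nat_lit 0x62e) (nat_lit 4))))
 (.n (.n (.p (nat_lit 0x22e51ff902) (nat_lit 0x344a00) (nat_lit 16))
 (.p (nat_lit 0x46d846d646d246d046ce438d06) (nat_lit 0x400004eb20) (nat_lit 51)))
 (.n (.p (nat_lit 0x30f710d702) (nat_lit 0x40e407) (nat_lit 16))
 (.p (nat_lit 0x5d8b1c4502) (nat_lit 0x2200a0000800) (nat_lit 39)))))
 (.n (.n (.n (.p (nat_lit 0x14fd122102) (nat_lit 0x24e500) (nat_lit 16))
 (.p (nat_lit 0xbd40bd20bce0bcc0bca4a3706) (nat_lit 0x40000c071a) (nat_lit 52)))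
 (.n (.p (nat_lit 0x23fa23f623f223f01807180306) (nat_lit 0xa0000d0605) (nat_lit 51))
 (.p (nat_lit 0x5dcc0b3f02) (nat_lit 0x4000a100) (nat_lit 47))))
 (.n (.n (.p (nat_lit 0x59310702) (nat_lit 0x40402) (nat_lit 30))
 (.p (nat_lit 0x3aa424f02) (nat_lit 0x500627) (nat_lit 1)))
 (.n (.p (nat_lit 0x5140510050e050c050a509506) (nat_lit 0x80000c680d) (nat_lit 51))
 (.p (nat_lit 0xbae600102) (nat_lit 0x405aa2354800200040000) (nat_lit 49))))))
 (.n (.n (.n (.n (.p (nat_lit 0xdf70b3102) (nat_lit 0x100300) (nat_lit 15))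
 (.p (nat_lit 0x287548b02) (nat_lit 0x340915) (nat_lit 30)))
 (.n (.p (nat_lit 0x195419521950194e00cc00bf00b51957194d09) (nat_lit 0x2800704) (nat_lit 10))
 (.p (nat_lit 0x1b601b201b001ac00bd025106) (nat_lit 0x210620b) (nat_lit 26))))
 (.n (.n (.p (nat_lit 0x18d218d018cc18ca18c81c1d06) (nat_lit 0x4000014801) (nat_lit 52))
 (.p (nat_lit 0x424b166302) (nat_lit 0x312623) (nat_lit 16)))
 (.n (.p (nat_lit 0x34ea34e834e634e434e2329906) (nat_lit 0x8000006909) (nat_lit 51))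
 (.p (nat_lit 0xfda5ef502) (nat_lit 0x281d30344000400000000) (nat_lit 49)))))
 (.n (.n (.n (.p (nat_lit 0x1c3118fb02) (nat_lit 0x116800) (nat_lit 16))
 (.p (nat_lit 0x3621ebd02) (nat_lit 0x91c) (nat_lit 1)))
 (.n (.p (nat_lit 0x1606160015fe15fc1ad11acf06) (nat_lit 0xc0000d2706) (nat_lit 51))
 (.p (nat_lit 0x5d555e3302) (nat_lit 0x280080000500) (nat_lit 37))))
 (.n (.n (.p (nat_lit 0x36490a1f02) (nat_lit 0x548103) (nat_lit 16))
 (.p (nat_lit 0x166a12f702) (nat_lit 0x10062a) (nat_lit 4)))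
 (.n (.p (nat_lit 0x257c09c702) (nat_lit 0x340b0e) (nat_lit 4))
 (.p (nat_lit 0x12a712990fe10fdd0d1d0d090a510a4d07a3079f04d704c361040d) (nat_lit 0x3425221b0000000000000) (nat_lit 33))))))

def c512_409 : Tr := .n c1024_409 c1024_921

def c256_153 : Tr := .n c512_153 c512_409

def c128_25 : Tr := .n c256_25 c256_153

def c1024_89 : Tr :=
 .n (.n (.n (.n (.n (.n (.p (nat_lit 0x620060005a006504) (nat_lit 0x19000400002) (nat_lit 17))
 (.p (nat_lit 0x1812613502) (nat_lit 0x342a21d84000100000600) (nat_lit 49)))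
 (.p (nat_lit 0x2bee279b02) (nat_lit 0x34090f) (nat_lit 5)))
 (.n (.p (nat_lit 0x87387702) (nat_lit 0x403) (nat_lit 30))
 (.p (nat_lit 0x1d76133502) (nat_lit 0x34082a) (nat_lit 5))))
 (.n (.n (.p (nat_lit 0x1d3f1a6702) (nat_lit 0x540800) (nat_lit 16))
 (.p (nat_lit 0x243c0de102) (nat_lit 0x200b1c) (nat_lit 4)))
 (.n (.p (nat_lit 0xd1c0d1a0d160d121d9b1d9706) (nat_lit 0x5000046806) (nat_lit 51))
 (.p (nat_lit 0x5d135e4102) (nat_lit 0xa0040000600) (nat_lit 37)))))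
 (.n (.n (.n (.p (nat_lit 0xf340f320f2e0f2c0c990c9306) (nat_lit 0x12000054300) (nat_lit 51))
 (.p (nat_lit 0x2a7827cd02) (nat_lit 0x500516) (nat_lit 4)))
 (.n (.p (nat_lit 0x247c433502) (nat_lit 0x400b04) (nat_lit 29))
 (.p (nat_lit 0x25802560252024e025f01ed06) (nat_lit 0xb16612) (nat_lit 26))))
 (.n (.n (.p (nat_lit 0xbbc0bba0bb80bb60bb41ee106) (nat_lit 0x800084901) (nat_lit 51))
 (.p (nat_lit 0x50c11d6902) (nat_lit 0x256823) (nat_lit 16)))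
 (.n (.p (nat_lit 0x37dc346102) (nat_lit 0x50030a) (nat_lit 4))
 (.p (nat_lit 0x1db65f3102) (nat_lit 0x3aa560b44000300000600) (nat_lit 50))))))
 (.n (.n (.n (.n (.p (nat_lit 0x7b407b207b007ae07ac05c706) (nat_lit 0x10000006100) (nat_lit 52))
 (.p (nat_lit 0x91409120910090e05d305c906) (nat_lit 0x10800086015) (nat_lit 51)))
 (.n (.p (nat_lit 0xb73d7f02) (nat_lit 0x140104) (nat_lit 30))
 (.p (nat_lit 0x480047fe47fc47fa47f846fd06) (nat_lit 0x1000008032f) (nat_lit 51))))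
 (.n (.n (.p (nat_lit 0x2461215902) (nat_lit 0x20eb00) (nat_lit 16))
 (.p (nat_lit 0x4b2d4b2302) (nat_lit 0x40a022) (nat_lit 16)))
 (.n (.p (nat_lit 0x190e06b502) (nat_lit 0x500707) (nat_lit 5))
 (.p (nat_lit 0x5d2f5e8d02) (nat_lit 0x1e0060000900) (nat_lit 37)))))
 (.n (.n (.n (.p (nat_lit 0x1693155302) (nat_lit 0x314600) (nat_lit 16))
 (.p (nat_lit 0x12aa12a812a412a212a005db06) (nat_lit 0x400000a01c) (nat_lit 51)))
 (.n (.p (nat_lit 0xfea0fe80fe60fe40fe21abd06) (nat_lit 0x800048705) (nat_lit 51))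
 (.p (nat_lit 0x5ce35de102) (nat_lit 0xa0020000200) (nat_lit 37))))
 (.n (.n (.p (nat_lit 0x1b9c1b9a1b981b941b921ef106) (nat_lit 0x2000014902) (nat_lit 52))
 (.p (nat_lit 0x473447324730472e4687468306) (nat_lit 0x500004a228) (nat_lit 51)))
 (.n (.p (nat_lit 0x10e2092102) (nat_lit 0x40040e) (nat_lit 5))
 (.p (nat_lit 0x13ea603102) (nat_lit 0x4099a2335000500040000) (nat_lit 49))))))

def c1024_601 : Tr :=
 .n (.n (.n (.n (.n (.n (.p (nat_lit 0x3aa03a603af03) (nat_lit 0x14000500023) (nat_lit 17))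
 (.p (nat_lit 0x207661af02) (nat_lit 0x522266c0d000400000600) (nat_lit 50)))
 (.p (nat_lit 0x1e8a1e881e861e841e80408506) (nat_lit 0x1000096412) (nat_lit 52)))
 (.n (.p (nat_lit 0x893b2702) (nat_lit 0x140a03) (nat_lit 30))
 (.p (nat_lit 0x3368586702) (nat_lit 0x500a2c) (nat_lit 29))))
 (.n (.n (.p (nat_lit 0x20b820b620b220b01e971e9106) (nat_lit 0x12000004a00) (nat_lit 51))
 (.p (nat_lit 0x30a3b9302) (nat_lit 0x200b1f) (nat_lit 1)))
 (.n (.p (nat_lit 0xa5a0a580a560a520a500e0506) (nat_lit 0x2000004307) (nat_lit 51))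
 (.p (nat_lit 0x5cbd1c3b02) (nat_lit 0x800) (nat_lit 39)))))
 (.n (.n (.n (.p (nat_lit 0x10cc129f02) (nat_lit 0x500500) (nat_lit 4))
 (.p (nat_lit 0x1e8a1e861e841e821e80419b06) (nat_lit 0x8000096519) (nat_lit 52)))
 (.n (.p (nat_lit 0xfc40fc00fbe0fbc010e00ed00e90fc70fc309) (nat_lit 0x2b40305) (nat_lit 10))
 (.p (nat_lit 0x5cb75daf02) (nat_lit 0x60000000000) (nat_lit 37))))
 (.n (.n (.p (nat_lit 0xa09075902) (nat_lit 0x40002) (nat_lit 15))
 (.p (nat_lit 0x355c390b02) (nat_lit 0x440026) (nat_lit 5)))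
 (.n (.p (nat_lit 0x4676443302) (nat_lit 0x14020c) (nat_lit 5))
 (.p (nat_lit 0x248d248921e321d31f111f071c4d1c451985197116a7169d5fb80d) (nat_lit 0x9582ec05000000040600) (nat_lit 33))))))
 (.n (.n (.n (.n (.p (nat_lit 0xbc80bc60bc40bc20bc009cd06) (nat_lit 0x800040200) (nat_lit 52))
 (.p (nat_lit 0x21d621d221d021ce21cc14dd06) (nat_lit 0x80000d4515) (nat_lit 52)))
 (.n (.p (nat_lit 0x168a168616841682168000bd168907) (nat_lit 0x400604) (nat_lit 7))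
 (.p (nat_lit 0x5992598e598c598a5988026500ee07) (nat_lit 0x404005) (nat_lit 25))))
 (.n (.n (.p (nat_lit 0x33289302) (nat_lit 0x400301) (nat_lit 30))
 (.p (nat_lit 0x3a956a902) (nat_lit 0x440123) (nat_lit 30)))
 (.n (.p (nat_lit 0x298e261302) (nat_lit 0x400408) (nat_lit 5))
 (.p (nat_lit 0x5eb8249302) (nat_lit 0x60040b00) (nat_lit 46)))))
 (.n (.n (.n (.p (nat_lit 0x1a1e1a1a1a161a14179b179706) (nat_lit 0xa000052700) (nat_lit 51))
 (.p (nat_lit 0x30d552702) (nat_lit 0x34051c) (nat_lit 30)))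
 (.n (.p (nat_lit 0x4d904d8e4d8c4d8a4d884d8606) (nat_lit 0x8a306) (nat_lit 52))
 (.p (nat_lit 0x5cf30fd902) (nat_lit 0x2a0040000400) (nat_lit 38))))
 (.n (.n (.p (nat_lit 0x33d7245d02) (nat_lit 0x2b02) (nat_lit 16))
 (.p (nat_lit 0x1820181e181a181818160b5906) (nat_lit 0x400000e22a) (nat_lit 51)))
 (.n (.p (nat_lit 0x1a7c096902) (nat_lit 0x44070e) (nat_lit 5))
 (.p (nat_lit 0x114260ad02) (nat_lit 0x342521ca4000400040000) (nat_lit 49))))))

def c512_89 : Tr := .n c1024_89 c1024_601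

def c1024_345 : Tr :=
 .n (.n (.n (.n (.n (.n (.p (nat_lit 0x15901550153015004) (nat_lit 0x15a00007) (nat_lit 20))
 (.p (nat_lit 0x64a617302) (nat_lit 0x421aa6315000000040000) (nat_lit 50)))
 (.p (nat_lit 0x3868356f02) (nat_lit 0x240311) (nat_lit 4)))
 (.n (.p (nat_lit 0x18a218a0189e189c189a167506) (nat_lit 0x80000a603) (nat_lit 51))
 (.p (nat_lit 0x28822a9702) (nat_lit 0x24022b) (nat_lit 4))))
 (.n (.n (.p (nat_lit 0x1f031bcd02) (nat_lit 0x516900) (nat_lit 16))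
 (.p (nat_lit 0x3346306702) (nat_lit 0xa1e) (nat_lit 5)))
 (.n (.p (nat_lit 0x22a0229c229a22982296206706) (nat_lit 0x80000ce906) (nat_lit 52))
 (.p (nat_lit 0x5e56180d02) (nat_lit 0x20000700) (nat_lit 45)))))
 (.n (.n (.n (.p (nat_lit 0x10df0df902) (nat_lit 0x202400) (nat_lit 16))
 (.p (nat_lit 0x34bc36e302) (nat_lit 0x500018) (nat_lit 4)))
 (.n (.p (nat_lit 0x447a4478447444724470078306) (nat_lit 0x400004e005) (nat_lit 51))
 (.p (nat_lit 0x39d5bcd02) (nat_lit 0x500522) (nat_lit 28))))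
 (.n (.n (.p (nat_lit 0x21ac160d02) (nat_lit 0x200a01) (nat_lit 5))
 (.p (nat_lit 0x273629b502) (nat_lit 0x100124) (nat_lit 5)))
 (.n (.p (nat_lit 0x3bcd3bc102) (nat_lit 0x144b0a) (nat_lit 16))
 (.p (nat_lit 0x23445f7102) (nat_lit 0x3aa074c44000500000600) (nat_lit 50))))))
 (.n (.n (.n (.n (.p (nat_lit 0x9f9072502) (nat_lit 0x44a100) (nat_lit 16))
 (.p (nat_lit 0xd320d300d2e0d2c0d2a124b06) (nat_lit 0x100000c0415) (nat_lit 51)))
 (.n (.p (nat_lit 0x3fdc3fd83fd43fd20fb90fb506) (nat_lit 0xa0000c2304) (nat_lit 52))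
 (.p (nat_lit 0x18658d902) (nat_lit 0x100002) (nat_lit 27))))
 (.n (.n (.p (nat_lit 0x26522650264e264c264a2648003607) (nat_lit 0x40001) (nat_lit 8))
 (.p (nat_lit 0x143a14361434143205eb05e706) (nat_lit 0x14000006023) (nat_lit 52)))
 (.n (.p (nat_lit 0x14551b902) (nat_lit 0x200a07) (nat_lit 30))
 (.p (nat_lit 0x5d3921d302) (nat_lit 0x140060000a00) (nat_lit 39)))))
 (.n (.n (.n (.p (nat_lit 0x1858185618541852162b162106) (nat_lit 0x10800004700) (nat_lit 52))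
 (.p (nat_lit 0x88608820880087e031e030f03070885087d09) (nat_lit 0x200011c) (nat_lit 10)))
 (.n (.p (nat_lit 0x1fe41fe21fe01fde1d8b1d8906) (nat_lit 0x1800056805) (nat_lit 51))
 (.p (nat_lit 0x5dfa0ca902) (nat_lit 0x2004a300) (nat_lit 47))))
 (.n (.n (.p (nat_lit 0x335521b702) (nat_lit 0x108a02) (nat_lit 16))
 (.p (nat_lit 0x896140502) (nat_lit 0x10012a) (nat_lit 5)))
 (.n (.p (nat_lit 0x138052e302) (nat_lit 0x10050e) (nat_lit 29))
 (.p (nat_lit 0x4d0607302) (nat_lit 0x570aa2344000000000000) (nat_lit 50))))))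

def c1024_857 : Tr :=
 .n (.n (.n (.n (.n (.n (.p (nat_lit 0x5f104df02) (nat_lit 0x20c000) (nat_lit 16))
 (.p (nat_lit 0x1da261ed02) (nat_lit 0x382a31d05000300000600) (nat_lit 49)))
 (.p (nat_lit 0x4bf24bf04bec4bea4be8497b06) (nat_lit 0x4000010613) (nat_lit 52)))
 (.n (.p (nat_lit 0x8fe08fc08f808f608f425c506) (nat_lit 0x40000c2b03) (nat_lit 51))
 (.p (nat_lit 0x3e7e41b502) (nat_lit 0x22e) (nat_lit 5))))
 (.n (.n (.p (nat_lit 0x229422922290228e228c1ff306) (nat_lit 0x80004ea00) (nat_lit 51))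
 (.p (nat_lit 0x365561302) (nat_lit 0x100720) (nat_lit 30)))
 (.n (.p (nat_lit 0x10d810d610d410d010ce014510d307) (nat_lit 0x200407) (nat_lit 7))
 (.p (nat_lit 0x5d5b1c4302) (nat_lit 0x220080000800) (nat_lit 39)))))
 (.n (.n (.n (.p (nat_lit 0x14541452144e144a1223121f06) (nat_lit 0x500004c500) (nat_lit 51))
 (.p (nat_lit 0x21382136213421322130495506) (nat_lit 0x100000ce51a) (nat_lit 51)))
 (.n (.p (nat_lit 0x2412240e240c24081695168f06) (nat_lit 0x9000092605) (nat_lit 51))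
 (.p (nat_lit 0x5cdd079702) (nat_lit 0x100020000100) (nat_lit 38))))
 (.n (.n (.p (nat_lit 0xfa0302902) (nat_lit 0x440302) (nat_lit 29))
 (.p (nat_lit 0x3df440b302) (nat_lit 0x140127) (nat_lit 4)))
 (.n (.p (nat_lit 0x4fd64ae302) (nat_lit 0x30070d) (nat_lit 4))
 (.p (nat_lit 0x154a5ff502) (nat_lit 0x306a81c35000000000600) (nat_lit 50))))))
 (.n (.n (.n (.n (.p (nat_lit 0xd580d560d520d500b350b2f06) (nat_lit 0x480000a300) (nat_lit 52))
 (.p (nat_lit 0x1d561d521d501d4e0296028902811d551d4d09) (nat_lit 0x2040815) (nat_lit 10)))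
 (.n (.p (nat_lit 0x1ab717f902) (nat_lit 0x340604) (nat_lit 15))
 (.p (nat_lit 0x18d5a3902) (nat_lit 0x400209) (nat_lit 28))))
 (.n (.n (.p (nat_lit 0x1c201c1e1c1c1c1a1c16002d1c1907) (nat_lit 0x100801) (nat_lit 7))
 (.p (nat_lit 0xeec0eea0ee80ee60cb10ca706) (nat_lit 0x1080004e223) (nat_lit 52)))
 (.n (.p (nat_lit 0x1a2a1a281a261a241a20308d06) (nat_lit 0x10000d2309) (nat_lit 51))
 (.p (nat_lit 0x1ae25ee902) (nat_lit 0x4a8866344000200000600) (nat_lit 50)))))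
 (.n (.n (.n (.p (nat_lit 0x1bb21bb01bae1baa190318fb06) (nat_lit 0x11000016800) (nat_lit 52))
 (.p (nat_lit 0x1ec11bf702) (nat_lit 0x20081c) (nat_lit 15)))
 (.n (.p (nat_lit 0x161c161816161614196f196b06) (nat_lit 0x14000094706) (nat_lit 51))
 (.p (nat_lit 0x5d41129b02) (nat_lit 0xc0060000500) (nat_lit 38))))
 (.n (.n (.p (nat_lit 0xa1435d702) (nat_lit 0x40103) (nat_lit 29))
 (.p (nat_lit 0xf8212eb02) (nat_lit 0x14032a) (nat_lit 5)))
 (.n (.p (nat_lit 0x44f244f044ee44ec44ea22dd06) (nat_lit 0x100000cea0e) (nat_lit 52))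
 (.p (nat_lit 0x181c60f502) (nat_lit 0x440d623a4000100000600) (nat_lit 50))))))

def c512_345 : Tr := .n c1024_345 c1024_857

def c256_89 : Tr := .n c512_89 c512_345

def c1024_217 : Tr :=
 .n (.n (.n (.n (.n (.n (.p (nat_lit 0xd900c900c203) (nat_lit 0x42000004) (nat_lit 19))
 (.p (nat_lit 0x1daa615302) (nat_lit 0x1503a8895800300000600) (nat_lit 49)))
 (.p (nat_lit 0x2d1c2d1a2d182d163277326d06) (nat_lit 0x10800044510) (nat_lit 51)))
 (.n (.p (nat_lit 0x13be1b6702) (nat_lit 0x200503) (nat_lit 4))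
 (.p (nat_lit 0x48ae48ac48a848a421a3219f06) (nat_lit 0x500000ea2a) (nat_lit 52))))
 (.n (.n (.p (nat_lit 0x1e401e3e1e3c1e3a1bcd1bc306) (nat_lit 0x1080008a900) (nat_lit 52))
 (.p (nat_lit 0x2bb6291502) (nat_lit 0x50091d) (nat_lit 5)))
 (.n (.p (nat_lit 0x1f02255d02) (nat_lit 0x500906) (nat_lit 4))
 (.p (nat_lit 0x5da35e4d02) (nat_lit 0xa00a0000600) (nat_lit 37)))))
 (.n (.n (.n (.p (nat_lit 0x100210000ffe0ffc0ffa0ff806) (nat_lit 0x80400) (nat_lit 52))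
 (.p (nat_lit 0x1a4e1a4c1a481a461a4431f306) (nat_lit 0x4000016517) (nat_lit 52)))
 (.n (.p (nat_lit 0x2288228622842282228025cb06) (nat_lit 0x8000ccb04) (nat_lit 51))
 (.p (nat_lit 0x3045b6f02) (nat_lit 0x50061a) (nat_lit 27))))
 (.n (.n (.p (nat_lit 0x4d804d604d404d204ce204906) (nat_lit 0x1000040901) (nat_lit 51))
 (.p (nat_lit 0x259d22f902) (nat_lit 0x140a23) (nat_lit 15)))
 (.n (.p (nat_lit 0x3a92524d02) (nat_lit 0x40060a) (nat_lit 29))
 (.p (nat_lit 0x15345f5502) (nat_lit 0x1a2522350000000000600) (nat_lit 49))))))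
 (.n (.n (.n (.n (.p (nat_lit 0x71e08eb02) (nat_lit 0x140100) (nat_lit 4))
 (.p (nat_lit 0x30c10ed02) (nat_lit 0x300415) (nat_lit 1)))
 (.n (.p (nat_lit 0x2ea0ce902) (nat_lit 0x340204) (nat_lit 1))
 (.p (nat_lit 0x507e4f9302) (nat_lit 0x500830) (nat_lit 4))))
 (.n (.n (.p (nat_lit 0x255c255a255825562554255206) (nat_lit 0x52b00) (nat_lit 52))
 (.p (nat_lit 0x506450625060505e505c039d506707) (nat_lit 0x500822) (nat_lit 7)))
 (.n (.p (nat_lit 0x1bdd1bd102) (nat_lit 0x104807) (nat_lit 16))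
 (.p (nat_lit 0x5c9d21d902) (nat_lit 0x200000000a00) (nat_lit 41)))))
 (.n (.n (.n (.p (nat_lit 0x1778177617721770176e16b706) (nat_lit 0x40000d2600) (nat_lit 52))
 (.p (nat_lit 0xfde0fdc0fd80fd60fd4073b06) (nat_lit 0x400004801c) (nat_lit 52)))
 (.n (.p (nat_lit 0x4a6a4a684a664a644a624a6000f01c291c251c230a) (nat_lit 0xc800805) (nat_lit 31))
 (.p (nat_lit 0x5d635def02) (nat_lit 0x1a0080000200) (nat_lit 36))))
 (.n (.n (.p (nat_lit 0x21b41a2d02) (nat_lit 0xa02) (nat_lit 5))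
 (.p (nat_lit 0x23fa23f823f423f223f04c8d06) (nat_lit 0x40000d0129) (nat_lit 51)))
 (.n (.p (nat_lit 0x123a092b02) (nat_lit 0x34040e) (nat_lit 4))
 (.p (nat_lit 0x181c605302) (nat_lit 0x40a962335000100000600) (nat_lit 50))))))

def c1024_729 : Tr :=
 .n (.n (.n (.n (.n (.n (.p (nat_lit 0x4f004ee04ea04e804e604e106) (nat_lit 0x4000004000) (nat_lit 52))
 (.p (nat_lit 0x153661d102) (nat_lit 0x54216ac0c800000000600) (nat_lit 49)))
 (.p (nat_lit 0x42723d4d02) (nat_lit 0x540612) (nat_lit 5)))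
 (.n (.p (nat_lit 0x12aa12a812a612a212a0246d06) (nat_lit 0x200000ab03) (nat_lit 51))
 (.p (nat_lit 0x8c376102) (nat_lit 0x34022d) (nat_lit 1))))
 (.n (.n (.p (nat_lit 0x21971e9302) (nat_lit 0x308a00) (nat_lit 16))
 (.p (nat_lit 0x44a53d0902) (nat_lit 0x456020) (nat_lit 16)))
 (.n (.p (nat_lit 0xa4e0a4c0a4a0a480a460f6906) (nat_lit 0x800044307) (nat_lit 52))
 (.p (nat_lit 0x5d111ae502) (nat_lit 0xc0040000800) (nat_lit 40)))))
 (.n (.n (.n (.p (nat_lit 0x139710c302) (nat_lit 0x6500) (nat_lit 16))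
 (.p (nat_lit 0x42d942cd02) (nat_lit 0x208719) (nat_lit 16)))
 (.n (.p (nat_lit 0x61f13d502) (nat_lit 0x100505) (nat_lit 15))
 (.p (nat_lit 0x5d4104c902) (nat_lit 0xc0060000000) (nat_lit 38))))
 (.n (.n (.p (nat_lit 0x592f4702) (nat_lit 0x40202) (nat_lit 30))
 (.p (nat_lit 0x405c405a4058405640543b1106) (nat_lit 0x80000ca26) (nat_lit 52)))
 (.n (.p (nat_lit 0x68406820680067e067c49d306) (nat_lit 0x1000008670c) (nat_lit 52))
 (.p (nat_lit 0x1ae85fd302) (nat_lit 0x95a32b05000200000600) (nat_lit 50))))))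
 (.n (.n (.n (.n (.p (nat_lit 0xcc709d502) (nat_lit 0x44c200) (nat_lit 16))
 (.p (nat_lit 0x19260ac702) (nat_lit 0x500715) (nat_lit 5)))
 (.n (.p (nat_lit 0x1691168502) (nat_lit 0x216604) (nat_lit 16))
 (.p (nat_lit 0x11959d502) (nat_lit 0x300406) (nat_lit 28))))
 (.n (.n (.p (nat_lit 0x29c829c629c429c229c029be06) (nat_lit 0xc2401) (nat_lit 52))
 (.p (nat_lit 0x30c0b4d02) (nat_lit 0x300223) (nat_lit 1)))
 (.n (.p (nat_lit 0x2bf12be502) (nat_lit 0x444908) (nat_lit 16))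
 (.p (nat_lit 0x15345ecf02) (nat_lit 0x4a1a34344000000000600) (nat_lit 49)))))
 (.n (.n (.n (.p (nat_lit 0x18f81ae102) (nat_lit 0x800) (nat_lit 5))
 (.p (nat_lit 0x19321930192e192c192a0307192907) (nat_lit 0x71c) (nat_lit 7)))
 (.n (.p (nat_lit 0x4ed04ece4ecc4eca128b128906) (nat_lit 0x1800042406) (nat_lit 51))
 (.p (nat_lit 0x5d890feb02) (nat_lit 0x2400a0000400) (nat_lit 40))))
 (.n (.n (.p (nat_lit 0x8b9060502) (nat_lit 0x3) (nat_lit 15))
 (.p (nat_lit 0x1aea1ae81ae61ae21ae00cb706) (nat_lit 0x200005022a) (nat_lit 51)))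
 (.n (.p (nat_lit 0x1ea4533502) (nat_lit 0x90e) (nat_lit 29))
 (.p (nat_lit 0xe7c60d502) (nat_lit 0x354a621b0000300040000) (nat_lit 50))))))

def c512_217 : Tr := .n c1024_217 c1024_729

def c1024_473 : Tr :=
 .n (.n (.n (.n (.n (.n (.p (nat_lit 0x2a10299028e03) (nat_lit 0xa0800015) (nat_lit 19))
 (.p (nat_lit 0x1ae2618f02) (nat_lit 0x3422a5c14800200000600) (nat_lit 50)))
 (.p (nat_lit 0x3a9e359d02) (nat_lit 0x400611) (nat_lit 5)))
 (.n (.p (nat_lit 0x1a421a401a3e1a3a1a3817eb06) (nat_lit 0x20000d4603) (nat_lit 52))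
 (.p (nat_lit 0x2faf2ecd02) (nat_lit 0x54012c) (nat_lit 15))))
 (.n (.n (.p (nat_lit 0x1fd81fd61fd41fd21fd01d2906) (nat_lit 0x8000ce900) (nat_lit 52))
 (.p (nat_lit 0x1bb41bb21bae1bac1baa354f06) (nat_lit 0x400005601f) (nat_lit 52)))
 (.n (.p (nat_lit 0x1e80c9d02) (nat_lit 0x140207) (nat_lit 1))
 (.p (nat_lit 0x5d795e5f02) (nat_lit 0x40080000700) (nat_lit 37)))))
 (.n (.n (.n (.p (nat_lit 0x11981196119411920f5f0f5d06) (nat_lit 0x18000c4400) (nat_lit 52))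
 (.p (nat_lit 0x3afc372302) (nat_lit 0x100a18) (nat_lit 5)))
 (.n (.p (nat_lit 0xcee460f02) (nat_lit 0x40205) (nat_lit 29))
 (.p (nat_lit 0x43e043c043604340007014506) (nat_lit 0x1a0412a) (nat_lit 26))))
 (.n (.n (.p (nat_lit 0x2550254e254a25482546231506) (nat_lit 0x40000d0a01) (nat_lit 52))
 (.p (nat_lit 0x2c7a298302) (nat_lit 0x240a24) (nat_lit 4)))
 (.n (.p (nat_lit 0x4f004ee04ea04e804e6421b06) (nat_lit 0x400000460b) (nat_lit 52))
 (.p (nat_lit 0x18145f9102) (nat_lit 0x581a303a5000100000600) (nat_lit 49))))))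
 (.n (.n (.n (.n (.p (nat_lit 0xa960a920a900a8c0879087306) (nat_lit 0x900000a200) (nat_lit 52))
 (.p (nat_lit 0x1db61db41db21dae1dac138f06) (nat_lit 0x2000012515) (nat_lit 51)))
 (.n (.p (nat_lit 0x1287127b02) (nat_lit 0x556404) (nat_lit 16))
 (.p (nat_lit 0x358593102) (nat_lit 0x500303) (nat_lit 27))))
 (.n (.n (.p (nat_lit 0xcbf09fd02) (nat_lit 0x40101) (nat_lit 15))
 (.p (nat_lit 0x892569f02) (nat_lit 0x500123) (nat_lit 29)))
 (.n (.p (nat_lit 0x256c071302) (nat_lit 0x140b07) (nat_lit 4))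
 (.p (nat_lit 0x5eac168d02) (nat_lit 0x12b00) (nat_lit 47)))))
 (.n (.n (.n (.p (nat_lit 0x192f162702) (nat_lit 0x306700) (nat_lit 16))
 (.p (nat_lit 0xc100c0e0c0c0c080c0609dd06) (nat_lit 0x200004c11c) (nat_lit 52)))
 (.n (.p (nat_lit 0x4bd24bd04bce4bcc4bca08e706) (nat_lit 0x1000008a106) (nat_lit 51))
 (.p (nat_lit 0x5e064a4502) (nat_lit 0x80054300) (nat_lit 47))))
 (.n (.n (.p (nat_lit 0x20742070206e206c206a232306) (nat_lit 0x8000054a02) (nat_lit 52))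
 (.p (nat_lit 0x9f809f609f409f00456043f043709fb09f309) (nat_lit 0x294012a) (nat_lit 10)))
 (.n (.p (nat_lit 0x570056e056c056a056814d306) (nat_lit 0x100000d050e) (nat_lit 52))
 (.p (nat_lit 0x1ada609102) (nat_lit 0x342221ca4000200000600) (nat_lit 49))))))

def c1024_985 : Tr :=
 .n (.n (.n (.n (.n (.p (nat_lit 0x6d406d006ce06cc0655064d06) (nat_lit 0x88000d0000) (nat_lit 51))
 (.p (nat_lit 0x256825662564256225604f2106) (nat_lit 0x8000d2414) (nat_lit 52)))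
 (.n (.p (nat_lit 0x61a06140612061000dc00bd00bb0619061709) (nat_lit 0x2300004) (nat_lit 10))
 (.p (nat_lit 0x4324416b02) (nat_lit 0x14072e) (nat_lit 4))))
 (.n (.n (.p (nat_lit 0x23542350234e234c215d215506) (nat_lit 0x8800000b00) (nat_lit 52))
 (.p (nat_lit 0x450c472502) (nat_lit 0x100121) (nat_lit 4)))
 (.n (.p (nat_lit 0x140a1408140614041233122906) (nat_lit 0x10800042407) (nat_lit 51))
 (.p (nat_lit 0x5e801d8902) (nat_lit 0x56900) (nat_lit 47)))))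
 (.n (.n (.n (.p (nat_lit 0x1590158e158a15881586155306) (nat_lit 0x4000084600) (nat_lit 52))
 (.p (nat_lit 0x4fb24d2d02) (nat_lit 0x34051b) (nat_lit 4)))
 (.n (.p (nat_lit 0xfde0fdc0fd80fd60fd4195f06) (nat_lit 0x4000008705) (nat_lit 52))
 (.p (nat_lit 0x5dd0426f02) (nat_lit 0x60052100) (nat_lit 47))))
 (.n (.n (.p (nat_lit 0x13b813b613b213b0006e005f005913b513af09) (nat_lit 0x1800502) (nat_lit 10))
 (.p (nat_lit 0x5776577457725770576e576c040607) (nat_lit 0x40b27) (nat_lit 8)))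
 (.n (.p (nat_lit 0xe16090b02) (nat_lit 0x50030e) (nat_lit 5))
 (.p (nat_lit 0xe7c601302) (nat_lit 0x405aa2335000300040000) (nat_lit 50))))))
 (.n (.n (.n (.n (.p (nat_lit 0xc900e7b02) (nat_lit 0x140300) (nat_lit 5))
 (.p (nat_lit 0x466646624660465e465c218106) (nat_lit 0x800000ea15) (nat_lit 52)))
 (.n (.p (nat_lit 0x42d9195102) (nat_lit 0x206704) (nat_lit 16))
 (.p (nat_lit 0x1f001ea01e801e60257000706) (nat_lit 0x231240e) (nat_lit 26))))
 (.n (.n (.p (nat_lit 0x601d8502) (nat_lit 0x440801) (nat_lit 1))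
 (.p (nat_lit 0x1a9e105f02) (nat_lit 0x340723) (nat_lit 5)))
 (.n (.p (nat_lit 0x337c2d8302) (nat_lit 0x340a09) (nat_lit 4))
 (.p (nat_lit 0x180e5f1302) (nat_lit 0x3aa570344000100000600) (nat_lit 49)))))
 (.n (.n (.n (.p (nat_lit 0x1c7e1c7c1c7a1c781a671a5d06) (nat_lit 0x108000c2800) (nat_lit 52))
 (.p (nat_lit 0x202c202820262024031e030f0307202b202309) (nat_lit 0x204091c) (nat_lit 10)))
 (.n (.p (nat_lit 0xbbc0bba0bb60bb40bb21c3506) (nat_lit 0x4000084806) (nat_lit 51))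
 (.p (nat_lit 0x5cb716a502) (nat_lit 0x60000000600) (nat_lit 41))))
 (.n (.n (.p (nat_lit 0x3710370e370c370a37080ce106) (nat_lit 0x100000ca203) (nat_lit 52))
 (.p (nat_lit 0x2a902a8e2a8c2a8a2a8617dd06) (nat_lit 0x100004462a) (nat_lit 51)))
 (.n (.p (nat_lit 0x2a1026f502) (nat_lit 0x44040f) (nat_lit 5))
 (.p (nat_lit 0x13ee611702) (nat_lit 0x3562621b0000500040000) (nat_lit 49))))))

def c512_473 : Tr := .n c1024_473 c1024_985

def c256_217 : Tr := .n c512_217 c512_473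

def c128_89 : Tr := .n c256_89 c256_217

def c64_25 : Tr := .n c128_25 c128_89

def c1024_57 : Tr :=
 .n (.n (.n (.n (.n (.n (.p (nat_lit 0x450043003f003a04) (nat_lit 0x16200001) (nat_lit 20))
 (.p (nat_lit 0xe72612f02) (nat_lit 0x35486a1b0000300040000) (nat_lit 49)))
 (.p (nat_lit 0x1ee2b9d02) (nat_lit 0x40090f) (nat_lit 1)))
 (.n (.p (nat_lit 0xfac0faa0fa80fa600a0009100870faf0fa509) (nat_lit 0x2840303) (nat_lit 10))
 (.p (nat_lit 0x1c141c121c101c0c1c0a04391c0f07) (nat_lit 0x20082a) (nat_lit 7))))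
 (.n (.n (.p (nat_lit 0x1d1a1d181d141d121d101a6306) (nat_lit 0x4000056800) (nat_lit 51))
 (.p (nat_lit 0x22f4559702) (nat_lit 0x540a1c) (nat_lit 29)))
 (.n (.p (nat_lit 0x1d9e1d9a1d981d961d94011b1d9d07) (nat_lit 0x440806) (nat_lit 7))
 (.p (nat_lit 0x5cc7154302) (nat_lit 0x260020000600) (nat_lit 40)))))
 (.n (.n (.n (.p (nat_lit 0xee00ede0edc0eda0c990c8f06) (nat_lit 0x108000cc300) (nat_lit 52))
 (.p (nat_lit 0x304258d02) (nat_lit 0x540b15) (nat_lit 1)))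
 (.n (.p (nat_lit 0x1ac71abb02) (nat_lit 0x556704) (nat_lit 16))
 (.p (nat_lit 0x2235ad302) (nat_lit 0x910) (nat_lit 28))))
 (.n (.n (.p (nat_lit 0x1ee62b8302) (nat_lit 0x300901) (nat_lit 29))
 (.p (nat_lit 0x1d6c11d702) (nat_lit 0x440823) (nat_lit 4)))
 (.n (.p (nat_lit 0x374c34e102) (nat_lit 0x54020a) (nat_lit 5))
 (.p (nat_lit 0xba85f2302) (nat_lit 0x3a2560b44000200040000) (nat_lit 49))))))
 (.n (.n (.n (.n (.p (nat_lit 0x5c007a502) (nat_lit 0x200100) (nat_lit 5))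
 (.p (nat_lit 0x5ca0bc102) (nat_lit 0x100015) (nat_lit 4)))
 (.n (.p (nat_lit 0x8cc1dd902) (nat_lit 0x400104) (nat_lit 5))
 (.p (nat_lit 0xea469502) (nat_lit 0x44022f) (nat_lit 1))))
 (.n (.n (.p (nat_lit 0x2417215702) (nat_lit 0x100b00) (nat_lit 16))
 (.p (nat_lit 0xd280d260d240d200d1e4a4106) (nat_lit 0x2000040721) (nat_lit 52)))
 (.n (.p (nat_lit 0x26ae26ac26aa26a826a417a106) (nat_lit 0x10000d2607) (nat_lit 52))
 (.p (nat_lit 0x5e863f9502) (nat_lit 0x40000900) (nat_lit 48)))))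
 (.n (.n (.n (.p (nat_lit 0x164f155702) (nat_lit 0x504600) (nat_lit 16))
 (.p (nat_lit 0x5da05d805d605d403340311030f05df05dd09) (nat_lit 0x2c0001c) (nat_lit 10)))
 (.n (.p (nat_lit 0xf001070111213b22a105) (nat_lit 0x6a540705) (nat_lit 9))
 (.p (nat_lit 0x5c970ba702) (nat_lit 0x260000000200) (nat_lit 39))))
 (.n (.n (.p (nat_lit 0x1ef618bb02) (nat_lit 0x500902) (nat_lit 4))
 (.p (nat_lit 0x229422922290228e228c458706) (nat_lit 0x80004e128) (nat_lit 51)))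
 (.n (.p (nat_lit 0xbf60bf40bf20bf00bee0f7f06) (nat_lit 0x1000004a30e) (nat_lit 51))
 (.p (nat_lit 0x180c602d02) (nat_lit 0x406a62335000100000600) (nat_lit 49))))))

def c1024_569 : Tr :=
 .n (.n (.n (.n (.n (.n (.p (nat_lit 0x381037f037003) (nat_lit 0x81a00020) (nat_lit 19))
 (.p (nat_lit 0x197661a902) (nat_lit 0x340b8ac64000100040600) (nat_lit 49)))
 (.p (nat_lit 0x408d3fa302) (nat_lit 0x500312) (nat_lit 15)))
 (.n (.p (nat_lit 0x1e721e6e1e6c1e6a21c921c106) (nat_lit 0x880008ea03) (nat_lit 51))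
 (.p (nat_lit 0x330e31c302) (nat_lit 0x24092c) (nat_lit 5))))
 (.n (.n (.p (nat_lit 0xe61e9102) (nat_lit 0x200a00) (nat_lit 1))
 (.p (nat_lit 0x3b3a383902) (nat_lit 0x40a1f) (nat_lit 5)))
 (.n (.p (nat_lit 0x14e0157015b0675050305) (nat_lit 0x80a00307) (nat_lit 9))
 (.p (nat_lit 0x5d93181502) (nat_lit 0x1a00a0000700) (nat_lit 38)))))
 (.n (.n (.n (.p (nat_lit 0x12910f6502) (nat_lit 0x456400) (nat_lit 16))
 (.p (nat_lit 0x41143ebd02) (nat_lit 0x540419) (nat_lit 5)))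
 (.n (.p (nat_lit 0x4708470647044702470046fe00ee07) (nat_lit 0x40305) (nat_lit 8))
 (.p (nat_lit 0x48f5c7b02) (nat_lit 0x62d) (nat_lit 28))))
 (.n (.n (.p (nat_lit 0x7620760075e07580074005d005b075d075b09) (nat_lit 0x1140002) (nat_lit 10))
 (.p (nat_lit 0x33a830db02) (nat_lit 0x140a25) (nat_lit 4)))
 (.n (.p (nat_lit 0x43683cef02) (nat_lit 0x140b0b) (nat_lit 4))
 (.p (nat_lit 0x4c25fa502) (nat_lit 0x588bb0344000000000000) (nat_lit 49))))))
 (.n (.n (.n (.n (.p (nat_lit 0xb99087b02) (nat_lit 0x514200) (nat_lit 16))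
 (.p (nat_lit 0x129c129a12981296129414df06) (nat_lit 0x1000004a515) (nat_lit 52)))
 (.n (.p (nat_lit 0x41b241b041ae41ac41aa151706) (nat_lit 0x40000c2504) (nat_lit 51))
 (.p (nat_lit 0xbe00bc00b600b400e9000506) (nat_lit 0x1a16604) (nat_lit 26))))
 (.n (.n (.p (nat_lit 0xf970cc902) (nat_lit 0x540201) (nat_lit 15))
 (.p (nat_lit 0x35c1088902) (nat_lit 0x10123) (nat_lit 16)))
 (.n (.p (nat_lit 0x175417521750174e174a28cd06) (nat_lit 0x1000010308) (nat_lit 51))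
 (.p (nat_lit 0x5d33248702) (nat_lit 0x1a0060000b00) (nat_lit 39)))))
 (.n (.n (.n (.p (nat_lit 0x19d819d419d219ce179b179506) (nat_lit 0x9000046700) (nat_lit 51))
 (.p (nat_lit 0x5d9139b02) (nat_lit 0x20051c) (nat_lit 15)))
 (.n (.p (nat_lit 0xd00238d02) (nat_lit 0x340206) (nat_lit 4))
 (.p (nat_lit 0x5ccd5e1102) (nat_lit 0x200020000400) (nat_lit 37))))
 (.n (.n (.p (nat_lit 0x15ca15c815c615c22461245d06) (nat_lit 0x280000ab02) (nat_lit 51))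
 (.p (nat_lit 0xd100d0e0d0a0d080d060b5906) (nat_lit 0x400000622a) (nat_lit 52)))
 (.n (.p (nat_lit 0x2dc62dc42dc22dc02dbe191506) (nat_lit 0x200008670e) (nat_lit 52))
 (.p (nat_lit 0x64260a702) (nat_lit 0x356068ca4000000040000) (nat_lit 50))))))

def c512_57 : Tr := .n c1024_57 c1024_569

def c1024_313 : Tr :=
 .n (.n (.n (.n (.n (.n (.p (nat_lit 0x13b01370131012204) (nat_lit 0x8d100006) (nat_lit 20))
 (.p (nat_lit 0xba6616b02) (nat_lit 0x421aa4395000200040000) (nat_lit 49)))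
 (.p (nat_lit 0x33dc2ea902) (nat_lit 0x300b10) (nat_lit 4)))
 (.n (.p (nat_lit 0x16781ce502) (nat_lit 0x200603) (nat_lit 4))
 (.p (nat_lit 0x28182a8702) (nat_lit 0x22b) (nat_lit 5))))
 (.n (.n (.p (nat_lit 0x1ebd1bc302) (nat_lit 0x6900) (nat_lit 16))
 (.p (nat_lit 0x2e30304f02) (nat_lit 0x50011e) (nat_lit 4)))
 (.n (.p (nat_lit 0x206820662062205e012e011901152065206109) (nat_lit 0x1940906) (nat_lit 10))
 (.p (nat_lit 0x5ceb181902) (nat_lit 0x20020000700) (nat_lit 40)))))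
 (.n (.n (.n (.p (nat_lit 0x109c109a109610920dfb0df706) (nat_lit 0x5000014400) (nat_lit 52))
 (.p (nat_lit 0x33962f2102) (nat_lit 0x440a17) (nat_lit 4)))
 (.n (.p (nat_lit 0x77c441b02) (nat_lit 0x40005) (nat_lit 29))
 (.p (nat_lit 0x36a036803660362038f00b706) (nat_lit 0x2916020) (nat_lit 26))))
 (.n (.n (.p (nat_lit 0x2bef204d02) (nat_lit 0x342901) (nat_lit 16))
 (.p (nat_lit 0x4ed04ecc4eca4ec84ec625a306) (nat_lit 0x8000042b23) (nat_lit 51)))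
 (.n (.p (nat_lit 0x3bc83bc63bc43bc23bbe019b3bc107) (nat_lit 0x140b0a) (nat_lit 7))
 (.p (nat_lit 0x181c5f6d02) (nat_lit 0x3aa074b44000100000600) (nat_lit 50))))))
 (.n (.n (.n (.n (.p (nat_lit 0x980097e097c09780727071f06) (nat_lit 0x110000d0100) (nat_lit 51))
 (.p (nat_lit 0x28e0293029d0be90a8705) (nat_lit 0x40b40415) (nat_lit 9)))
 (.n (.p (nat_lit 0x3f990e5102) (nat_lit 0x400304) (nat_lit 16))
 (.p (nat_lit 0x2d58c102) (nat_lit 0x100801) (nat_lit 28))))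
 (.n (.n (.p (nat_lit 0x2f25db02) (nat_lit 0x200001) (nat_lit 30))
 (.p (nat_lit 0x5e805e605e405e205e003ab05eb07) (nat_lit 0x500023) (nat_lit 7)))
 (.n (.p (nat_lit 0x200451af02) (nat_lit 0x340907) (nat_lit 29))
 (.p (nat_lit 0x5d195e9d02) (nat_lit 0x40040000a00) (nat_lit 36)))))
 (.n (.n (.n (.p (nat_lit 0x1624180f02) (nat_lit 0x200700) (nat_lit 4))
 (.p (nat_lit 0x280087d02) (nat_lit 0x11c) (nat_lit 1)))
 (.n (.p (nat_lit 0x1f621f601f5e1f581d8d1d8b06) (nat_lit 0x30000c4805) (nat_lit 52))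
 (.p (nat_lit 0x5df42c0102) (nat_lit 0x4c300) (nat_lit 48))))
 (.n (.n (.p (nat_lit 0x1db61db41db21dae1dac21b906) (nat_lit 0x2000012a02) (nat_lit 51))
 (.p (nat_lit 0xff60ff20ff00fee0fec50c506) (nat_lit 0x8000040829) (nat_lit 52)))
 (.n (.p (nat_lit 0x1249123d02) (nat_lit 0x44640e) (nat_lit 16))
 (.p (nat_lit 0xe72606902) (nat_lit 0x588172b40800300040000) (nat_lit 49))))))

def c1024_825 : Tr :=
 .n (.n (.n (.n (.n (.n (.p (nat_lit 0x5a205a0059e059c04dd04db06) (nat_lit 0x1800094000) (nat_lit 51))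
 (.p (nat_lit 0x234061e502) (nat_lit 0x14e0a8c74000500000600) (nat_lit 50)))
 (.p (nat_lit 0x227c227a227822762274484b06) (nat_lit 0x80004c413) (nat_lit 51)))
 (.n (.p (nat_lit 0x25c03bb502) (nat_lit 0x140b03) (nat_lit 29))
 (.p (nat_lit 0x43a3c0102) (nat_lit 0x340b2d) (nat_lit 1))))
 (.n (.n (.p (nat_lit 0x224a22482246224422421ffd06) (nat_lit 0x10000048a00) (nat_lit 52))
 (.p (nat_lit 0x42823fed02) (nat_lit 0x140620) (nat_lit 4)))
 (.n (.p (nat_lit 0x38610f6f02) (nat_lit 0x350307) (nat_lit 16))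
 (.p (nat_lit 0x5d711ae902) (nat_lit 0xc0080000800) (nat_lit 40)))))
 (.n (.n (.n (.p (nat_lit 0x1430142e142c142a1426121f06) (nat_lit 0x10000c4500) (nat_lit 52))
 (.p (nat_lit 0x212e212c212a2128212648bd06) (nat_lit 0x80000e51a) (nat_lit 52)))
 (.n (.p (nat_lit 0x16961694168e168c010600e900e71693169109) (nat_lit 0x1a00605) (nat_lit 10))
 (.p (nat_lit 0x5cb55dc502) (nat_lit 0x80000000100) (nat_lit 37))))
 (.n (.n (.p (nat_lit 0x2ffe2ffc2ffa2ff82ff40e3306) (nat_lit 0x1000094302) (nat_lit 52))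
 (.p (nat_lit 0x3d76402d02) (nat_lit 0x300127) (nat_lit 4)))
 (.n (.p (nat_lit 0x52ae52ac52aa52a852a652a401e407) (nat_lit 0x4040d) (nat_lit 8))
 (.p (nat_lit 0x11445fe902) (nat_lit 0x306a81d31000400040000) (nat_lit 49))))))
 (.n (.n (.n (.n (.p (nat_lit 0xd320d2e0d2c0d2a0b390b3506) (nat_lit 0x14000080300) (nat_lit 51))
 (.p (nat_lit 0x3696369436923690368e1be706) (nat_lit 0x80000c815) (nat_lit 51)))
 (.n (.p (nat_lit 0x1820181c181a1818181617fb06) (nat_lit 0x800004e604) (nat_lit 51))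
 (.p (nat_lit 0x5a0e5a0c5a0a5a085a060179014c07) (nat_lit 0x516707) (nat_lit 25))))
 (.n (.n (.p (nat_lit 0x2abe2abc2aba2ab814f314ef06) (nat_lit 0x50000d0501) (nat_lit 52))
 (.p (nat_lit 0xcae0cac0caa0ca803ba03ab03a10cb10ca709) (nat_lit 0x2840223) (nat_lit 10)))
 (.n (.p (nat_lit 0x1a421a401a3e1a3c1a3a300b06) (nat_lit 0x800094309) (nat_lit 52))
 (.p (nat_lit 0x23465edf02) (nat_lit 0x4a9d22344000500000600) (nat_lit 50)))))
 (.n (.n (.n (.p (nat_lit 0x1b8e1b8a1b881b86190318ff06) (nat_lit 0x1400008c800) (nat_lit 51))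
 (.p (nat_lit 0x1bf60f0102) (nat_lit 0x20081c) (nat_lit 4)))
 (.n (.p (nat_lit 0x11d4fcf02) (nat_lit 0x500706) (nat_lit 30))
 (.p (nat_lit 0x5cf95e2b02) (nat_lit 0x240040000500) (nat_lit 37))))
 (.n (.n (.p (nat_lit 0x91356b02) (nat_lit 0x500103) (nat_lit 30))
 (.p (nat_lit 0x101810161014101210100e2306) (nat_lit 0x1000008232a) (nat_lit 51)))
 (.n (.p (nat_lit 0x217d217102) (nat_lit 0x206a0e) (nat_lit 16))
 (.p (nat_lit 0xbb660ef02) (nat_lit 0x440d6a3a4000200040000) (nat_lit 50))))))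

def c512_313 : Tr := .n c1024_313 c1024_825

def c256_57 : Tr := .n c512_57 c512_313

def c1024_185 : Tr :=
 .n (.n (.n (.n (.n (.n (.p (nat_lit 0xbe00b800b600c104) (nat_lit 0x13000400004) (nat_lit 17))
 (.p (nat_lit 0x13f4614d02) (nat_lit 0x3b0221d85000500040000) (nat_lit 49)))
 (.p (nat_lit 0x18de18dc18da18d618d4317706) (nat_lit 0x20000d4410) (nat_lit 51)))
 (.n (.p (nat_lit 0x3924391e391c391a126d126b06) (nat_lit 0xc0000c2403) (nat_lit 52))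
 (.p (nat_lit 0x21a621a421a221a0219c0437219f07) (nat_lit 0x100a2a) (nat_lit 7))))
 (.n (.n (.p (nat_lit 0x1df21df01dec1dea1bc91bc306) (nat_lit 0x4800004900) (nat_lit 51))
 (.p (nat_lit 0x2730290702) (nat_lit 0x40011d) (nat_lit 4)))
 (.n (.p (nat_lit 0x50d11d9d02) (nat_lit 0x44a806) (nat_lit 16))
 (.p (nat_lit 0x5d7516ad02) (nat_lit 0x80080000600) (nat_lit 41)))))
 (.n (.n (.n (.p (nat_lit 0x3a80dfd02) (nat_lit 0x400400) (nat_lit 1))
 (.p (nat_lit 0x2c68280702) (nat_lit 0x140a16) (nat_lit 4)))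
 (.n (.p (nat_lit 0xc200df00d31fef1e8905) (nat_lit 0xacc40b04) (nat_lit 9))
 (.p (nat_lit 0x2ec02ea02e802e6028100bf06) (nat_lit 0x50c519) (nat_lit 26))))
 (.n (.n (.p (nat_lit 0x2046176f02) (nat_lit 0x40901) (nat_lit 4))
 (.p (nat_lit 0x219a572302) (nat_lit 0x500a23) (nat_lit 29)))
 (.n (.p (nat_lit 0x396e524102) (nat_lit 0x44040a) (nat_lit 29))
 (.p (nat_lit 0xe6e5f4302) (nat_lit 0x1a1d22350000300040000) (nat_lit 49))))))
 (.n (.n (.n (.n (.p (nat_lit 0x8b105c102) (nat_lit 0x20e100) (nat_lit 16))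
 (.p (nat_lit 0x9c609c409c209c00733073106) (nat_lit 0x180000d6015) (nat_lit 52)))
 (.n (.p (nat_lit 0x3e563e543e523e500b8b0b8306) (nat_lit 0x880000e204) (nat_lit 51))
 (.p (nat_lit 0x4d064f4d02) (nat_lit 0x500230) (nat_lit 4))))
 (.n (.n (.p (nat_lit 0x252a25262524252222c522c106) (nat_lit 0x1400004eb00) (nat_lit 51))
 (.p (nat_lit 0x50244d9702) (nat_lit 0x240722) (nat_lit 5)))
 (.n (.p (nat_lit 0x1bd606c702) (nat_lit 0x400807) (nat_lit 5))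
 (.p (nat_lit 0x5d855e9102) (nat_lit 0x2800a0000900) (nat_lit 36)))))
 (.n (.n (.n (.p (nat_lit 0x1760175e175c175a175816b106) (nat_lit 0x8000d0600) (nat_lit 51))
 (.p (nat_lit 0x73c0d3302) (nat_lit 0x44001c) (nat_lit 5)))
 (.n (.p (nat_lit 0xf0010700f5213f22a505) (nat_lit 0x68100805) (nat_lit 9))
 (.p (nat_lit 0x5de80a5702) (nat_lit 0x60000200) (nat_lit 46))))
 (.n (.n (.p (nat_lit 0x1d1a1d181d161d141d10205506) (nat_lit 0x1000056902) (nat_lit 51))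
 (.p (nat_lit 0x256825662564256225604c0d06) (nat_lit 0x800092129) (nat_lit 52)))
 (.n (.p (nat_lit 0x138110dd02) (nat_lit 0x10040e) (nat_lit 15))
 (.p (nat_lit 0x1148604902) (nat_lit 0x406a6254c800400040000) (nat_lit 50))))))

def c1024_697 : Tr :=
 .n (.n (.n (.n (.n (.n (.p (nat_lit 0x4dc04d102) (nat_lit 0x100000) (nat_lit 5))
 (.p (nat_lit 0x1c4a61c702) (nat_lit 0x340d89ca4000200040600) (nat_lit 50)))
 (.p (nat_lit 0x1ee422902) (nat_lit 0x400612) (nat_lit 1)))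
 (.n (.p (nat_lit 0x63e063c063a06360634246d06) (nat_lit 0x2000080b03) (nat_lit 52))
 (.p (nat_lit 0x36d23a2702) (nat_lit 0x20022d) (nat_lit 5))))
 (.n (.n (.p (nat_lit 0x21551e8d02) (nat_lit 0xa00) (nat_lit 15))
 (.p (nat_lit 0x3d023f4902) (nat_lit 0x140020) (nat_lit 5)))
 (.n (.p (nat_lit 0xf68050b02) (nat_lit 0x40307) (nat_lit 5))
 (.p (nat_lit 0x5cc71ad702) (nat_lit 0x260020000800) (nat_lit 38)))))
 (.n (.n (.n (.p (nat_lit 0x134c134a1348134610c510c306) (nat_lit 0x1800092500) (nat_lit 51))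
 (.p (nat_lit 0xc040c020c000bfe0bfc427506) (nat_lit 0x8000ca619) (nat_lit 52)))
 (.n (.p (nat_lit 0x483f127d02) (nat_lit 0x40405) (nat_lit 16))
 (.p (nat_lit 0x5d1b5db702) (nat_lit 0x20040000000) (nat_lit 37))))
 (.n (.n (.p (nat_lit 0xb6a2ecf02) (nat_lit 0x202) (nat_lit 29))
 (.p (nat_lit 0x384a38463844384236cd36c906) (nat_lit 0x14000016226) (nat_lit 51)))
 (.n (.p (nat_lit 0x49b443e702) (nat_lit 0x24060c) (nat_lit 4))
 (.p (nat_lit 0x20805fcd02) (nat_lit 0x95832b05000400000600) (nat_lit 50))))))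
 (.n (.n (.n (.n (.p (nat_lit 0xc740c720c700c6c09d709cf06) (nat_lit 0x110000d4200) (nat_lit 51))
 (.p (nat_lit 0x1a8317b902) (nat_lit 0x140615) (nat_lit 15)))
 (.n (.p (nat_lit 0x2348234623422340233e168706) (nat_lit 0x4000016604) (nat_lit 51))
 (.p (nat_lit 0x26859c302) (nat_lit 0x106) (nat_lit 27))))
 (.n (.n (.p (nat_lit 0x112f10f302) (nat_lit 0x14401) (nat_lit 16))
 (.p (nat_lit 0x2ebd09e702) (nat_lit 0x14e123) (nat_lit 16)))
 (.n (.p (nat_lit 0x6920690068e068c068a2b8906) (nat_lit 0x800008908) (nat_lit 52))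
 (.p (nat_lit 0x5ec04fb702) (nat_lit 0xa0044b00) (nat_lit 47)))))
 (.n (.n (.n (.p (nat_lit 0x1a91179702) (nat_lit 0x246700) (nat_lit 16))
 (.p (nat_lit 0x17c20ed902) (nat_lit 0x4061c) (nat_lit 4)))
 (.n (.p (nat_lit 0x1134eaf02) (nat_lit 0x40406) (nat_lit 30))
 (.p (nat_lit 0x5e1c0f8902) (nat_lit 0x80040400) (nat_lit 47))))
 (.n (.n (.p (nat_lit 0x198060502) (nat_lit 0x3) (nat_lit 1))
 (.p (nat_lit 0xe820e800e7e0e7a0e780cb706) (nat_lit 0x20000c622a) (nat_lit 51)))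
 (.n (.p (nat_lit 0x1d48098102) (nat_lit 0x44080e) (nat_lit 5))
 (.p (nat_lit 0x13fc60cf02) (nat_lit 0x35056a3a4000500040000) (nat_lit 50))))))

def c512_185 : Tr := .n c1024_185 c1024_697

def c1024_441 : Tr :=
 .n (.n (.n (.n (.n (.n (.p (nat_lit 0x28802860284028d04) (nat_lit 0xe000400015) (nat_lit 17))
 (.p (nat_lit 0x2336618702) (nat_lit 0x54c88a970000500000600) (nat_lit 49)))
 (.p (nat_lit 0x1d0e1d0c1d081d061d04397906) (nat_lit 0x40000d4411) (nat_lit 51)))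
 (.n (.p (nat_lit 0x1992198c198a198817ef17ed06) (nat_lit 0xc000040603) (nat_lit 52))
 (.p (nat_lit 0x4362c1b02) (nat_lit 0x14092b) (nat_lit 1))))
 (.n (.n (.p (nat_lit 0x1fb21fb01fae1faa1d331d2b06) (nat_lit 0x1100004c900) (nat_lit 51))
 (.p (nat_lit 0x1bbe1bbc1bba1bb81bb634c906) (nat_lit 0x1000009601f) (nat_lit 51)))
 (.n (.p (nat_lit 0x86e086c086808640b410b3d06) (nat_lit 0x5000096207) (nat_lit 51))
 (.p (nat_lit 0x5d2d197702) (nat_lit 0x200060000700) (nat_lit 39)))))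
 (.n (.n (.n (.p (nat_lit 0x117411721170116e116c116a06) (nat_lit 0x42400) (nat_lit 51))
 (.p (nat_lit 0x1d1a1d161d141d121d103a6f06) (nat_lit 0x8000056518) (nat_lit 51)))
 (.n (.p (nat_lit 0xb9420b702) (nat_lit 0x300205) (nat_lit 5))
 (.p (nat_lit 0x3d45c0702) (nat_lit 0x200b25) (nat_lit 27))))
 (.n (.n (.p (nat_lit 0x2318179102) (nat_lit 0x540a01) (nat_lit 4))
 (.p (nat_lit 0x2bc0297d02) (nat_lit 0x400924) (nat_lit 5)))
 (.n (.p (nat_lit 0x40763ca702) (nat_lit 0x40b) (nat_lit 4))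
 (.p (nat_lit 0x11465f8502) (nat_lit 0x581a32b44000400040000) (nat_lit 50))))))
 (.n (.n (.n (.n (.p (nat_lit 0xa700a6e0a6c0a6a0a68087b06) (nat_lit 0x10000080200) (nat_lit 51))
 (.p (nat_lit 0x12aa12a812a612a412a0138d06) (nat_lit 0x100000a515) (nat_lit 51)))
 (.n (.p (nat_lit 0x127a40a302) (nat_lit 0x540404) (nat_lit 29))
 (.p (nat_lit 0x5918591459125910590e0497009207) (nat_lit 0x408003) (nat_lit 25))))
 (.n (.n (.p (nat_lit 0x9fe274b02) (nat_lit 0x140101) (nat_lit 29))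
 (.p (nat_lit 0x2da9074102) (nat_lit 0x4e023) (nat_lit 16)))
 (.n (.p (nat_lit 0x241e05af02) (nat_lit 0x500b07) (nat_lit 5))
 (.p (nat_lit 0x5eaa452102) (nat_lit 0xa0008a00) (nat_lit 47)))))
 (.n (.n (.n (.p (nat_lit 0x18f618f018ee18ec1629162706) (nat_lit 0xc000096700) (nat_lit 51))
 (.p (nat_lit 0x9e209de09dc09da09d8030f09e107) (nat_lit 0x44011c) (nat_lit 7)))
 (.n (.p (nat_lit 0x120012f012924b1236305) (nat_lit 0x66000106) (nat_lit 9))
 (.p (nat_lit 0x5d6d5e0702) (nat_lit 0x100080000300) (nat_lit 37))))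
 (.n (.n (.p (nat_lit 0x1820181e181a18181816232106) (nat_lit 0x400004ea02) (nat_lit 51))
 (.p (nat_lit 0x9fa09f809f609f409f0043709f307) (nat_lit 0x14012a) (nat_lit 7)))
 (.n (.p (nat_lit 0x52f652f452f252f052ee52ec01f414d314cb14c90a) (nat_lit 0x1484050e) (nat_lit 31))
 (.p (nat_lit 0x113a608b02) (nat_lit 0x354221ca4000400040000) (nat_lit 49))))))

def c1024_953 : Tr :=
 .n (.n (.n (.n (.n (.p (nat_lit 0x6920690068e068a0688065106) (nat_lit 0x2000048000) (nat_lit 52))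
 (.p (nat_lit 0x254425422540253c253a4e9b06) (nat_lit 0x2000010414) (nat_lit 51)))
 (.n (.p (nat_lit 0x1ac061102) (nat_lit 0x4) (nat_lit 1))
 (.p (nat_lit 0x429841d702) (nat_lit 0x4062e) (nat_lit 5))))
 (.n (.n (.p (nat_lit 0x232b1ff702) (nat_lit 0x250a00) (nat_lit 16))
 (.p (nat_lit 0x4b23441702) (nat_lit 0x40c021) (nat_lit 16)))
 (.n (.p (nat_lit 0x12321230122c122a12280147122f07) (nat_lit 0x340407) (nat_lit 7))
 (.p (nat_lit 0x5cbd5e7f02) (nat_lit 0x900) (nat_lit 36)))))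
 (.n (.n (.n (.p (nat_lit 0x1543153702) (nat_lit 0x100600) (nat_lit 34))
 (.p (nat_lit 0x4f2c4cb102) (nat_lit 0x4041b) (nat_lit 4)))
 (.n (.p (nat_lit 0xeb49c502) (nat_lit 0x400705) (nat_lit 30))
 (.p (nat_lit 0x5d315dd302) (nat_lit 0x1c0060000100) (nat_lit 36))))
 (.n (.n (.p (nat_lit 0x1267125b02) (nat_lit 0x152402) (nat_lit 16))
 (.p (nat_lit 0x100210000ffe0ffc0ff8428f06) (nat_lit 0x10000c0627) (nat_lit 52)))
 (.n (.p (nat_lit 0xe0c07ad02) (nat_lit 0x30e) (nat_lit 4))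
 (.p (nat_lit 0x2078600d02) (nat_lit 0x405aa0b54800400000600) (nat_lit 50))))))
 (.n (.n (.n (.n (.p (nat_lit 0xe390b3702) (nat_lit 0x40e300) (nat_lit 16))
 (.p (nat_lit 0x217c549502) (nat_lit 0x200a15) (nat_lit 29)))
 (.n (.p (nat_lit 0x1b9c1b981b961b921955194f06) (nat_lit 0x9000014704) (nat_lit 52))
 (.p (nat_lit 0x1e201e001dc01d801cb014306) (nat_lit 0x191280d) (nat_lit 26))))
 (.n (.n (.p (nat_lit 0x2b291c2102) (nat_lit 0x506801) (nat_lit 16))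
 (.p (nat_lit 0x193611af02) (nat_lit 0x100723) (nat_lit 4)))
 (.n (.p (nat_lit 0x332c2cd102) (nat_lit 0x500a09) (nat_lit 5))
 (.p (nat_lit 0x1da25f0d02) (nat_lit 0x3a2530344000300000600) (nat_lit 49)))))
 (.n (.n (.n (.p (nat_lit 0x1c4e1c421a6503) (nat_lit 0x440800) (nat_lit 6))
 (.p (nat_lit 0x21851ebd02) (nat_lit 0x91c) (nat_lit 15)))
 (.n (.p (nat_lit 0x1c381c361c341c301c2e01171c3307) (nat_lit 0x200806) (nat_lit 7))
 (.p (nat_lit 0x5d9f5e3502) (nat_lit 0xe00a0000500) (nat_lit 36))))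
 (.n (.n (.p (nat_lit 0x367e367c367a36783676367406) (nat_lit 0xa203) (nat_lit 52))
 (.p (nat_lit 0x2aa42aa22aa02a9e166d166b06) (nat_lit 0x300000662a) (nat_lit 52)))
 (.n (.p (nat_lit 0x28dc537902) (nat_lit 0x40030f) (nat_lit 29))
 (.p (nat_lit 0x13ee611102) (nat_lit 0x3425221b0000500040000) (nat_lit 49))))))

def c512_441 : Tr := .n c1024_441 c1024_953

def c256_185 : Tr := .n c512_185 c512_441

def c128_57 : Tr := .n c256_57 c256_185

def c1024_121 : Tr :=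
 .n (.n (.n (.n (.n (.n (.p (nat_lit 0x7f0075006d006804) (nat_lit 0x50800002) (nat_lit 20))
 (.p (nat_lit 0x1146613d02) (nat_lit 0x342a21d84000400040000) (nat_lit 50)))
 (.p (nat_lit 0x309c2e5102) (nat_lit 0x340310) (nat_lit 5)))
 (.n (.p (nat_lit 0x38963894389238901115110b06) (nat_lit 0x10800082403) (nat_lit 51))
 (.p (nat_lit 0x1eda581b02) (nat_lit 0x30092a) (nat_lit 29))))
 (.n (.n (.p (nat_lit 0x1d811a6102) (nat_lit 0x24c800) (nat_lit 16))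
 (.p (nat_lit 0x258e0f5102) (nat_lit 0x40b1c) (nat_lit 5)))
 (.n (.p (nat_lit 0x18141812180e180c180a1d9b06) (nat_lit 0x400004e806) (nat_lit 52))
 (.p (nat_lit 0x5d49154702) (nat_lit 0x40060000600) (nat_lit 40)))))
 (.n (.n (.n (.p (nat_lit 0xf7b0c9502) (nat_lit 0x342300) (nat_lit 16))
 (.p (nat_lit 0x178417821780177e177c2ae506) (nat_lit 0x800054516) (nat_lit 52)))
 (.n (.p (nat_lit 0x2122211e211a2118247d247906) (nat_lit 0xa00008cb04) (nat_lit 52))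
 (.p (nat_lit 0x28a0288028602800003030b06) (nat_lit 0xa0a415) (nat_lit 26))))
 (.n (.n (.p (nat_lit 0x16ae16aa16a816a41ee91ee306) (nat_lit 0x900008c901) (nat_lit 51))
 (.p (nat_lit 0x403c403a4038403640341ec906) (nat_lit 0x800082923) (nat_lit 51)))
 (.n (.p (nat_lit 0x3864346d02) (nat_lit 0x54030a) (nat_lit 5))
 (.p (nat_lit 0x1da65f3702) (nat_lit 0x3a6560c44000300000600) (nat_lit 49))))))
 (.n (.n (.n (.n (.p (nat_lit 0x7e607e407e207e007de05bd06) (nat_lit 0x80000a100) (nat_lit 51))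
 (.p (nat_lit 0x728540102) (nat_lit 0x40015) (nat_lit 29)))
 (.n (.p (nat_lit 0xce30a2102) (nat_lit 0x40104) (nat_lit 15))
 (.p (nat_lit 0x4a04492902) (nat_lit 0x10072f) (nat_lit 5))))
 (.n (.n (.p (nat_lit 0x22c422c222c022bc22ba000522bf07) (nat_lit 0x240b00) (nat_lit 7))
 (.p (nat_lit 0x393564d02) (nat_lit 0x122) (nat_lit 30)))
 (.n (.p (nat_lit 0x4fd5190902) (nat_lit 0x216707) (nat_lit 16))
 (.p (nat_lit 0x5d771da902) (nat_lit 0x60080000900) (nat_lit 38)))))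
 (.n (.n (.n (.p (nat_lit 0x16ac16a016b903) (nat_lit 0x440600) (nat_lit 6))
 (.p (nat_lit 0x1c401c3e1c3c1c3a05df05dd06) (nat_lit 0x1800009001c) (nat_lit 52)))
 (.n (.p (nat_lit 0x19861980197e197c1ac51ac306) (nat_lit 0xc0000ce705) (nat_lit 51))
 (.p (nat_lit 0x5de20a4702) (nat_lit 0x20000200) (nat_lit 45))))
 (.n (.n (.p (nat_lit 0x5b32cb02) (nat_lit 0x140902) (nat_lit 30))
 (.p (nat_lit 0x4a4c47c502) (nat_lit 0x240728) (nat_lit 5)))
 (.n (.p (nat_lit 0xe800e7e0e7c0e7a0e7810e506) (nat_lit 0x1000008640e) (nat_lit 51))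
 (.p (nat_lit 0xbb2603902) (nat_lit 0x4a8162340800200040000) (nat_lit 50))))))

def c1024_633 : Tr :=
 .n (.n (.n (.n (.n (.n (.p (nat_lit 0x43a04380434044104) (nat_lit 0x680040002a) (nat_lit 17))
 (.p (nat_lit 0x8e861bb02) (nat_lit 0x322266c15000100040000) (nat_lit 49)))
 (.p (nat_lit 0x1fcc1fca1fc61fc41fc2410706) (nat_lit 0x400004e412) (nat_lit 52)))
 (.n (.p (nat_lit 0x1fb21fb01fae1fac1faa233106) (nat_lit 0x1000004ca03) (nat_lit 51))
 (.p (nat_lit 0x1448144614421440143e33b906) (nat_lit 0x40000c6a2c) (nat_lit 52))))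
 (.n (.n (.p (nat_lit 0x21162112210e210c1e951e9106) (nat_lit 0xa00000ca00) (nat_lit 52))
 (.p (nat_lit 0x3be255e102) (nat_lit 0x40b1f) (nat_lit 29)))
 (.n (.p (nat_lit 0x1820181e181c181a18160e0306) (nat_lit 0x100000e307) (nat_lit 51))
 (.p (nat_lit 0x5c8f1ad502) (nat_lit 0x2e0000000800) (nat_lit 38)))))
 (.n (.n (.n (.p (nat_lit 0x12be12bc12ba12b810cd10cb06) (nat_lit 0x18000082500) (nat_lit 52))
 (.p (nat_lit 0x1ff01fee1fec1fea1fe8420306) (nat_lit 0x8000d6519) (nat_lit 51)))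
 (.n (.p (nat_lit 0x1126224702) (nat_lit 0x200405) (nat_lit 4))
 (.p (nat_lit 0x5c8f064102) (nat_lit 0x2e0000000000) (nat_lit 41))))
 (.n (.n (.p (nat_lit 0x8b408b208b008ae00720063005908b708ad09) (nat_lit 0x2800102) (nat_lit 10))
 (.p (nat_lit 0x3d7335c302) (nat_lit 0x114126) (nat_lit 16)))
 (.n (.p (nat_lit 0x4750444902) (nat_lit 0x14030c) (nat_lit 4))
 (.p (nat_lit 0x1ae85fc302) (nat_lit 0x89832915800200000600) (nat_lit 50))))))
 (.n (.n (.n (.n (.p (nat_lit 0xbe00bde0bda0bd609d309cf06) (nat_lit 0x5000048200) (nat_lit 51))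
 (.p (nat_lit 0x16460aa702) (nat_lit 0x100615) (nat_lit 5)))
 (.n (.p (nat_lit 0xa4c0a4a0a460a44168b168506) (nat_lit 0x12000004604) (nat_lit 52))
 (.p (nat_lit 0x599c599a599859965994036d00ee07) (nat_lit 0x510305) (nat_lit 25))))
 (.n (.n (.p (nat_lit 0xf9015a302) (nat_lit 0x240301) (nat_lit 4))
 (.p (nat_lit 0xfea0fe80fe40fe20fe009eb06) (nat_lit 0x4000048123) (nat_lit 51)))
 (.n (.p (nat_lit 0x2b06268d02) (nat_lit 0x500808) (nat_lit 5))
 (.p (nat_lit 0x5d5f5ebd02) (nat_lit 0x1e0080000b00) (nat_lit 37)))))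
 (.n (.n (.n (.p (nat_lit 0x1a421a3e1a3a1a38179b179706) (nat_lit 0xa0000d4700) (nat_lit 52))
 (.p (nat_lit 0x102610241022102014e314e106) (nat_lit 0x180004451c) (nat_lit 51)))
 (.n (.p (nat_lit 0x4de84de64de44de24de04dde01200fcf0fcb0fc90a) (nat_lit 0xc840306) (nat_lit 31))
 (.p (nat_lit 0x5e160e1f02) (nat_lit 0x60000400) (nat_lit 48))))
 (.n (.n (.p (nat_lit 0x3025b902) (nat_lit 0x340b02) (nat_lit 1))
 (.p (nat_lit 0x24942492248e248c0b5d0b5706) (nat_lit 0x1200009622a) (nat_lit 51)))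
 (.n (.p (nat_lit 0x1be0097302) (nat_lit 0x30080e) (nat_lit 5))
 (.p (nat_lit 0x1c4060b302) (nat_lit 0x350521a84000200040600) (nat_lit 49))))))

def c512_121 : Tr := .n c1024_121 c1024_633

def c1024_377 : Tr :=
 .n (.n (.n (.n (.n (.n (.p (nat_lit 0x1b601b201b001b904) (nat_lit 0x1600040000b) (nat_lit 17))
 (.p (nat_lit 0x21d8617702) (nat_lit 0x340c6ab84000400040600) (nat_lit 50)))
 (.p (nat_lit 0x246024d024b35ed357f05) (nat_lit 0x44500411) (nat_lit 9)))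
 (.n (.p (nat_lit 0x3a95167f02) (nat_lit 0x500603) (nat_lit 16))
 (.p (nat_lit 0x295c295a295829562952293106) (nat_lit 0x100004232b) (nat_lit 52))))
 (.n (.n (.p (nat_lit 0x1d321f0f02) (nat_lit 0x540900) (nat_lit 4))
 (.p (nat_lit 0x339a307302) (nat_lit 0x40a1e) (nat_lit 5)))
 (.n (.p (nat_lit 0x145513502) (nat_lit 0x200207) (nat_lit 30))
 (.p (nat_lit 0x5d135e5902) (nat_lit 0xa0040000700) (nat_lit 37)))))
 (.n (.n (.n (.p (nat_lit 0x11210dff02) (nat_lit 0x512400) (nat_lit 16))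
 (.p (nat_lit 0x38ec36f302) (nat_lit 0x100418) (nat_lit 5)))
 (.n (.p (nat_lit 0x8d844bd02) (nat_lit 0x400105) (nat_lit 29))
 (.p (nat_lit 0x3aa03a803a403a20307000706) (nat_lit 0x304123) (nat_lit 26))))
 (.n (.n (.p (nat_lit 0x23b223b023ae23a821ad21ab06) (nat_lit 0x3000008a01) (nat_lit 51))
 (.p (nat_lit 0x27b029c502) (nat_lit 0x340124) (nat_lit 4)))
 (.n (.p (nat_lit 0x3f253f0f02) (nat_lit 0x4820b) (nat_lit 16))
 (.p (nat_lit 0xe785f7702) (nat_lit 0x3aa074b50000300040000) (nat_lit 50))))))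
 (.n (.n (.n (.n (.p (nat_lit 0xa39071d02) (nat_lit 0x56100) (nat_lit 16))
 (.p (nat_lit 0x485f124902) (nat_lit 0x454415) (nat_lit 16)))
 (.n (.p (nat_lit 0x111a401f02) (nat_lit 0x200404) (nat_lit 29))
 (.p (nat_lit 0x620060005a0058000502c306) (nat_lit 0x1314202) (nat_lit 26))))
 (.n (.n (.p (nat_lit 0x26ae26ac26aa26a826a626a406) (nat_lit 0xd2001) (nat_lit 52))
 (.p (nat_lit 0x3a3568b02) (nat_lit 0x140023) (nat_lit 30)))
 (.n (.p (nat_lit 0x14e015d0159059906f905) (nat_lit 0x66840a07) (nat_lit 9))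
 (.p (nat_lit 0x5d715ea502) (nat_lit 0xc0080000a00) (nat_lit 36)))))
 (.n (.n (.n (.p (nat_lit 0x18ba18b818b418b21627162106) (nat_lit 0x4800012700) (nat_lit 52))
 (.p (nat_lit 0xaae0aac0aa80aa60aa4088306) (nat_lit 0x400000c11c) (nat_lit 51)))
 (.n (.p (nat_lit 0x62e249f02) (nat_lit 0x300006) (nat_lit 5))
 (.p (nat_lit 0x5cef5dfd02) (nat_lit 0x2e0040000300) (nat_lit 36))))
 (.n (.n (.p (nat_lit 0x23241a4302) (nat_lit 0x540a02) (nat_lit 4))
 (.p (nat_lit 0x89e089c089808940452043b0437089b089709) (nat_lit 0x190012a) (nat_lit 10)))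
 (.n (.p (nat_lit 0x66c066a066806660664138906) (nat_lit 0x1000008450e) (nat_lit 51))
 (.p (nat_lit 0x206c607902) (nat_lit 0x4688ae154000400000600) (nat_lit 49))))))

def c1024_889 : Tr :=
 .n (.n (.n (.n (.n (.p (nat_lit 0x64e063702) (nat_lit 0x140000) (nat_lit 4))
 (.p (nat_lit 0x4a2e457b02) (nat_lit 0x540713) (nat_lit 5)))
 (.n (.p (nat_lit 0x13f413f013ee13ec13ea25c706) (nat_lit 0x80000cab03) (nat_lit 52))
 (.p (nat_lit 0x3f2e414302) (nat_lit 0x54022e) (nat_lit 5))))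
 (.n (.n (.p (nat_lit 0x22aa22a822a622a21ffd1ff506) (nat_lit 0x11000050a00) (nat_lit 52))
 (.p (nat_lit 0x4346561f02) (nat_lit 0x100b20) (nat_lit 29)))
 (.n (.p (nat_lit 0x142414221420141e141c10cf06) (nat_lit 0x800004407) (nat_lit 51))
 (.p (nat_lit 0x5e78364702) (nat_lit 0x80048800) (nat_lit 47)))))
 (.n (.n (.n (.p (nat_lit 0x64d121d02) (nat_lit 0x40500) (nat_lit 15))
 (.p (nat_lit 0x49e4466102) (nat_lit 0x20071a) (nat_lit 4)))
 (.n (.p (nat_lit 0x1802211d02) (nat_lit 0x240605) (nat_lit 4))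
 (.p (nat_lit 0x5dc849d702) (nat_lit 0x20014100) (nat_lit 47))))
 (.n (.n (.p (nat_lit 0x1100188302) (nat_lit 0x100402) (nat_lit 4))
 (.p (nat_lit 0x1e881e861e841e821e803dfd06) (nat_lit 0x100000d6127) (nat_lit 52)))
 (.n (.p (nat_lit 0x14a504302) (nat_lit 0x50080d) (nat_lit 1))
 (.p (nat_lit 0xfe25ff902) (nat_lit 0x466b80b44000400000000) (nat_lit 50))))))
 (.n (.n (.n (.n (.p (nat_lit 0xd940d900d8e0d8a0b370b3106) (nat_lit 0x900008e300) (nat_lit 51))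
 (.p (nat_lit 0x1eb80af102) (nat_lit 0x400915) (nat_lit 4)))
 (.n (.p (nat_lit 0x194e1fc502) (nat_lit 0x100704) (nat_lit 4))
 (.p (nat_lit 0x1a201a0019e01980143023d06) (nat_lit 0xa1620a) (nat_lit 26))))
 (.n (.n (.p (nat_lit 0x1c201c1e1c1c1c160046002f002d1c1b1c1909) (nat_lit 0x1100801) (nat_lit 10))
 (.p (nat_lit 0x165e119d02) (nat_lit 0x100623) (nat_lit 5)))
 (.n (.p (nat_lit 0x47a316702) (nat_lit 0x40409) (nat_lit 1))
 (.p (nat_lit 0x15345ef102) (nat_lit 0x4a1d22344000000000600) (nat_lit 49)))))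
 (.n (.n (.n (.p (nat_lit 0x1bed18ff02) (nat_lit 0x304800) (nat_lit 16))
 (.p (nat_lit 0x314032d03330da70f0f05) (nat_lit 0x8ab4081c) (nat_lit 9)))
 (.n (.p (nat_lit 0x1ad0253702) (nat_lit 0x440706) (nat_lit 5))
 (.p (nat_lit 0x5e2c13f102) (nat_lit 0x60040500) (nat_lit 45))))
 (.n (.n (.p (nat_lit 0xa1e0a1c0a1a0a1400a2008b00890a190a1709) (nat_lit 0x1140103) (nat_lit 10))
 (.p (nat_lit 0x11581156115411520f8b0f8906) (nat_lit 0x1800004032a) (nat_lit 51)))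
 (.n (.p (nat_lit 0x242a536302) (nat_lit 0x500b0e) (nat_lit 29))
 (.p (nat_lit 0x234660f902) (nat_lit 0x460d623a4000500000600) (nat_lit 50))))))

def c512_377 : Tr := .n c1024_377 c1024_889

def c256_121 : Tr := .n c512_121 c512_377

def c1024_249 : Tr :=
 .n (.n (.n (.n (.n (.n (.p (nat_lit 0xe600e200f103) (nat_lit 0x2800500005) (nat_lit 17))
 (.p (nat_lit 0x16a6615b02) (nat_lit 0x3503a8d64000000040600) (nat_lit 50)))
 (.p (nat_lit 0x338932e302) (nat_lit 0x340910) (nat_lit 15)))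
 (.n (.p (nat_lit 0x13c913bd02) (nat_lit 0x114503) (nat_lit 16))
 (.p (nat_lit 0x48f448f248ee48ec48ea230906) (nat_lit 0x40000c2a2a) (nat_lit 51))))
 (.n (.n (.p (nat_lit 0x1e641e621e601e5e1e5c1bcd06) (nat_lit 0x1000000e900) (nat_lit 51))
 (.p (nat_lit 0x2c172c0b02) (nat_lit 0x54a91d) (nat_lit 16)))
 (.n (.p (nat_lit 0x229422922290228c228a1efd06) (nat_lit 0x200000e906) (nat_lit 51))
 (.p (nat_lit 0x5cbd197d02) (nat_lit 0x700) (nat_lit 41)))))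
 (.n (.n (.n (.p (nat_lit 0x101a1016101410100dfd0df706) (nat_lit 0x9000082400) (nat_lit 51))
 (.p (nat_lit 0x3a6d327f02) (nat_lit 0x352517) (nat_lit 16)))
 (.n (.p (nat_lit 0x438325d302) (nat_lit 0x444b04) (nat_lit 16))
 (.p (nat_lit 0x310030e030a03080385000706) (nat_lit 0x31401c) (nat_lit 26))))
 (.n (.n (.p (nat_lit 0xfea0fe80fe60fe20fe0204b06) (nat_lit 0x2000048901) (nat_lit 51))
 (.p (nat_lit 0x244c120d02) (nat_lit 0x400b23) (nat_lit 5)))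
 (.n (.p (nat_lit 0x3aea352102) (nat_lit 0x400a0a) (nat_lit 4))
 (.p (nat_lit 0x180e5f5b02) (nat_lit 0x1a2276350000100000600) (nat_lit 49))))))
 (.n (.n (.n (.n (.p (nat_lit 0x91609120910090e0725071d06) (nat_lit 0x88000c6100) (nat_lit 51))
 (.p (nat_lit 0xe9a0e980e960e940e9210e706) (nat_lit 0x800080415) (nat_lit 52)))
 (.n (.p (nat_lit 0x3ed43ed03ece3ecc0ceb0ce306) (nat_lit 0x88000ca204) (nat_lit 52))
 (.p (nat_lit 0x2d588b02) (nat_lit 0x100101) (nat_lit 28))))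
 (.n (.n (.p (nat_lit 0x256b22bb02) (nat_lit 0x40b00) (nat_lit 16))
 (.p (nat_lit 0x50ba50b850b450b250b0039950b707) (nat_lit 0x340822) (nat_lit 7)))
 (.n (.p (nat_lit 0x1a21d3f02) (nat_lit 0x540807) (nat_lit 1))
 (.p (nat_lit 0x5e9425cb02) (nat_lit 0x50a00) (nat_lit 48)))))
 (.n (.n (.n (.p (nat_lit 0x1790178e178a178616b716b306) (nat_lit 0x50000d4600) (nat_lit 52))
 (.p (nat_lit 0x198619821980197c073d073706) (nat_lit 0x90000ce01c) (nat_lit 51)))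
 (.n (.p (nat_lit 0x1ff01fee1fea1fe81c291c2306) (nat_lit 0x4800096805) (nat_lit 51))
 (.p (nat_lit 0x5dee0a4d02) (nat_lit 0x80000200) (nat_lit 45))))
 (.n (.n (.p (nat_lit 0x8f208f008ee08ec08e821b706) (nat_lit 0x1000082a02) (nat_lit 52))
 (.p (nat_lit 0x4fee4eef02) (nat_lit 0x400729) (nat_lit 4)))
 (.n (.p (nat_lit 0xe760e740e700e6e0e6c123b06) (nat_lit 0x40000c640e) (nat_lit 52))
 (.p (nat_lit 0x2497248121db21d51f151f0b1c4f1c451983197316ad169d60580d) (nat_lit 0x506272b31000000040600) (nat_lit 33))))))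

def c1024_761 : Tr :=
 .n (.n (.n (.n (.n (.n (.p (nat_lit 0x5080504050004fe04e304df06) (nat_lit 0xa000006000) (nat_lit 52))
 (.p (nat_lit 0x207261d702) (nat_lit 0x542266c0c800400000600) (nat_lit 49)))
 (.p (nat_lit 0x25153eb02) (nat_lit 0x140b12) (nat_lit 30)))
 (.n (.p (nat_lit 0x1c501c4e1c4c1c4a1c48246906) (nat_lit 0x800090b03) (nat_lit 51))
 (.p (nat_lit 0x3faf37e702) (nat_lit 0x51432d) (nat_lit 16))))
 (.n (.n (.p (nat_lit 0x1ffc1ffa1ff81ff61ff400011ff307) (nat_lit 0x40a00) (nat_lit 7))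
 (.p (nat_lit 0x3700375037b3f5b3fdd05) (nat_lit 0x60d40120) (nat_lit 9)))
 (.n (.p (nat_lit 0x18141810180e180c180a0f7106) (nat_lit 0x800004e307) (nat_lit 52))
 (.p (nat_lit 0x5d475e7502) (nat_lit 0x60060000800) (nat_lit 37)))))
 (.n (.n (.n (.p (nat_lit 0x13dd10cd02) (nat_lit 0x514500) (nat_lit 16))
 (.p (nat_lit 0x4408461f02) (nat_lit 0x30001a) (nat_lit 4)))
 (.n (.p (nat_lit 0x1526227102) (nat_lit 0x540505) (nat_lit 5))
 (.p (nat_lit 0x5d79064902) (nat_lit 0x40080000000) (nat_lit 41))))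
 (.n (.n (.p (nat_lit 0x2f7e2f7c2f7a2f762f740ccf06) (nat_lit 0x2000054202) (nat_lit 51))
 (.p (nat_lit 0x3ba0395502) (nat_lit 0x300b26) (nat_lit 5)))
 (.n (.p (nat_lit 0x50394a6d02) (nat_lit 0xc80c) (nat_lit 16))
 (.p (nat_lit 0x2493248921db21cd1f151f0f1c471c411985197316af16995fda0d) (nat_lit 0x3842a1c34000000040600) (nat_lit 33))))))
 (.n (.n (.n (.n (.p (nat_lit 0x3060b2f02) (nat_lit 0x300) (nat_lit 1))
 (.p (nat_lit 0x49e9192502) (nat_lit 0x414715) (nat_lit 16)))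
 (.n (.p (nat_lit 0x4cc04c604c404c217fb17f906) (nat_lit 0xc000040604) (nat_lit 52))
 (.p (nat_lit 0x11c011a0116011400e3000706) (nat_lit 0x312806) (nat_lit 26))))
 (.n (.n (.p (nat_lit 0x13a82a1b02) (nat_lit 0x300501) (nat_lit 29))
 (.p (nat_lit 0xd3e0d3c0d3a0d380d360b5106) (nat_lit 0x10000002223) (nat_lit 51)))
 (.n (.p (nat_lit 0x2f8c2d2102) (nat_lit 0x40209) (nat_lit 5))
 (.p (nat_lit 0x20705ed302) (nat_lit 0x4a1a36344000400000600) (nat_lit 49)))))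
 (.n (.n (.n (.p (nat_lit 0x1b021afe1afc1afa1af8190106) (nat_lit 0x8000080800) (nat_lit 51))
 (.p (nat_lit 0x2fe62fe42fe22fe02fde192906) (nat_lit 0x80009271c) (nat_lit 52)))
 (.n (.p (nat_lit 0x13e4251102) (nat_lit 0x300506) (nat_lit 4))
 (.p (nat_lit 0x5c935e2502) (nat_lit 0x2a0000000500) (nat_lit 37))))
 (.n (.n (.p (nat_lit 0x76c1b0102) (nat_lit 0x440003) (nat_lit 5))
 (.p (nat_lit 0x28890cbd02) (nat_lit 0x54c22a) (nat_lit 16)))
 (.n (.p (nat_lit 0x216d1ea502) (nat_lit 0x90e) (nat_lit 15))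
 (.p (nat_lit 0xbae60db02) (nat_lit 0x340a621b0000200040000) (nat_lit 49))))))

def c512_249 : Tr := .n c1024_249 c1024_761

def c1024_505 : Tr :=
 .n (.n (.n (.n (.n (.n (.p (nat_lit 0x310030e030a031304) (nat_lit 0x1a00040001c) (nat_lit 17))
 (.p (nat_lit 0x13ee619b02) (nat_lit 0x340aa5c14800500040000) (nat_lit 49)))
 (.p (nat_lit 0x1ec3b7d02) (nat_lit 0x300b11) (nat_lit 1)))
 (.n (.p (nat_lit 0x21c43adb02) (nat_lit 0x200a03) (nat_lit 29))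
 (.p (nat_lit 0x2fae31a902) (nat_lit 0x54022c) (nat_lit 5))))
 (.n (.n (.p (nat_lit 0x1ff51d2b02) (nat_lit 0x140900) (nat_lit 15))
 (.p (nat_lit 0x3638379102) (nat_lit 0x34011f) (nat_lit 5)))
 (.n (.p (nat_lit 0x5146514451425140513e513c014e0c9f0c9d0c9b0a) (nat_lit 0x8840207) (nat_lit 31))
 (.p (nat_lit 0x5d5d5e6102) (nat_lit 0x200080000700) (nat_lit 36)))))
 (.n (.n (.n (.p (nat_lit 0x120e120a120812060f650f5d06) (nat_lit 0x8800056400) (nat_lit 51))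
 (.p (nat_lit 0xbec0bea0be80be60be23b8506) (nat_lit 0x1000088b18) (nat_lit 51)))
 (.n (.p (nat_lit 0x464c4648464646440cf90cf506) (nat_lit 0x140000ca205) (nat_lit 52))
 (.p (nat_lit 0x43b5c3f02) (nat_lit 0x30062a) (nat_lit 28))))
 (.n (.n (.p (nat_lit 0x5fe182902) (nat_lit 0x300002) (nat_lit 5))
 (.p (nat_lit 0x2ebc312902) (nat_lit 0x140125) (nat_lit 4)))
 (.n (.p (nat_lit 0x6620660065e065c0658425f06) (nat_lit 0x100004460b) (nat_lit 51))
 (.p (nat_lit 0x233a5f9502) (nat_lit 0x581a302a4000500000600) (nat_lit 49))))))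
 (.n (.n (.n (.n (.p (nat_lit 0xaea0ae40ae20ae00879087706) (nat_lit 0xc000090200) (nat_lit 52))
 (.p (nat_lit 0x2a75139102) (nat_lit 0x30c515) (nat_lit 16)))
 (.n (.p (nat_lit 0x13ce13cc13c813c600da00bf00b913d113cb09) (nat_lit 0x2a00504) (nat_lit 10))
 (.p (nat_lit 0x90008e008c008a0003005906) (nat_lit 0x816603) (nat_lit 26))))
 (.n (.n (.p (nat_lit 0xb6616f302) (nat_lit 0x400201) (nat_lit 5))
 (.p (nat_lit 0x12aa12a812a612a212a0088d06) (nat_lit 0x200000a123) (nat_lit 51)))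
 (.n (.p (nat_lit 0x51ee51ec51ea51e851e651e4017a07) (nat_lit 0x208) (nat_lit 8))
 (.p (nat_lit 0x5cd3248302) (nat_lit 0x1a0020000b00) (nat_lit 39)))))
 (.n (.n (.n (.p (nat_lit 0x1986198419821980197e197c06) (nat_lit 0x40700) (nat_lit 3))
 (.p (nat_lit 0x13a0139e139c139a13960309139907) (nat_lit 0x10051c) (nat_lit 7)))
 (.n (.p (nat_lit 0x11b4c2902) (nat_lit 0x440106) (nat_lit 30))
 (.p (nat_lit 0x5cbb5e0b02) (nat_lit 0x20000000400) (nat_lit 36))))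
 (.n (.n (.p (nat_lit 0x232b231f02) (nat_lit 0x252a02) (nat_lit 16))
 (.p (nat_lit 0x6b206b006ae06ac09fb09f106) (nat_lit 0x1080004e12a) (nat_lit 51)))
 (.n (.p (nat_lit 0x163c07f702) (nat_lit 0x20060e) (nat_lit 5))
 (.p (nat_lit 0x1698609702) (nat_lit 0x344580ca4000000040600) (nat_lit 49))))))

def c1024_1017 : Tr :=
 .n (.n (.n (.n (.n (.p (nat_lit 0x733065702) (nat_lit 0x544000) (nat_lit 16))
 (.p (nat_lit 0x500e4c6502) (nat_lit 0x340714) (nat_lit 5)))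
 (.n (.p (nat_lit 0x7723c6d02) (nat_lit 0x140004) (nat_lit 29))
 (.p (nat_lit 0x429d43a302) (nat_lit 0x240b2e) (nat_lit 15))))
 (.n (.n (.p (nat_lit 0x23d623d423d023ce215b215506) (nat_lit 0x480000eb00) (nat_lit 52))
 (.p (nat_lit 0x495a563902) (nat_lit 0x240521) (nat_lit 29)))
 (.n (.p (nat_lit 0x123d123102) (nat_lit 0x444407) (nat_lit 16))
 (.p (nat_lit 0x5ccd1daf02) (nat_lit 0x200020000900) (nat_lit 40)))))
 (.n (.n (.n (.p (nat_lit 0x15ee15ec15ea15e815e4154f06) (nat_lit 0x1000090600) (nat_lit 52))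
 (.p (nat_lit 0xa660a640a620a5e0a5c505506) (nat_lit 0x200000081b) (nat_lit 51)))
 (.n (.p (nat_lit 0x1f0e1f0c1f0a1f081f06195906) (nat_lit 0x800092705) (nat_lit 52))
 (.p (nat_lit 0x5dad5dd902) (nat_lit 0xa0000100) (nat_lit 37))))
 (.n (.n (.p (nat_lit 0x5f31ff02) (nat_lit 0x340502) (nat_lit 30))
 (.p (nat_lit 0x416041b04194801478305) (nat_lit 0x64440028) (nat_lit 9)))
 (.n (.p (nat_lit 0xad20ad00ace0aca0ac80e1106) (nat_lit 0x200008e30e) (nat_lit 51))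
 (.p (nat_lit 0x8ec601b02) (nat_lit 0x4099a2354800100040000) (nat_lit 49))))))
 (.n (.n (.n (.n (.p (nat_lit 0xe9a0e980e960e940e920e9006) (nat_lit 0xc0300) (nat_lit 52))
 (.p (nat_lit 0x22e40c7302) (nat_lit 0x340a15) (nat_lit 5)))
 (.n (.p (nat_lit 0x1ab442fb02) (nat_lit 0x240704) (nat_lit 29))
 (.p (nat_lit 0x5a8e5a8c5a885a865a84017501f207) (nat_lit 0x30a60e) (nat_lit 25))))
 (.n (.n (.p (nat_lit 0x1a2a1a281a261a241a201d7f06) (nat_lit 0x10000d2801) (nat_lit 51))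
 (.p (nat_lit 0x3a356eb02) (nat_lit 0x100823) (nat_lit 30)))
 (.n (.p (nat_lit 0x33d22ce702) (nat_lit 0x400b09) (nat_lit 5))
 (.p (nat_lit 0x233c5f1702) (nat_lit 0x3a2260b50000500000600) (nat_lit 49)))))
 (.n (.n (.n (.p (nat_lit 0x1cc41cc21cc01cbc1a671a5f06) (nat_lit 0x110000c8800) (nat_lit 51))
 (.p (nat_lit 0x218a0f3302) (nat_lit 0x300a1c) (nat_lit 5)))
 (.n (.p (nat_lit 0x1820181e181c181a18161c3106) (nat_lit 0x100000e806) (nat_lit 51))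
 (.p (nat_lit 0x5c95154102) (nat_lit 0x280000000600) (nat_lit 40))))
 (.n (.n (.p (nat_lit 0xe401b3702) (nat_lit 0x200303) (nat_lit 4))
 (.p (nat_lit 0x484194b02) (nat_lit 0x50072a) (nat_lit 1)))
 (.n (.p (nat_lit 0x2ae0538502) (nat_lit 0x44050f) (nat_lit 29))
 (.p (nat_lit 0x1da6611d02) (nat_lit 0x35486a3a4000300000600) (nat_lit 49))))))

def c512_505 : Tr := .n c1024_505 c1024_1017

def c256_249 : Tr := .n c512_249 c512_505

def c128_121 : Tr := .n c256_121 c256_249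

def c64_57 : Tr := .n c128_57 c128_121

def c32_25 : Tr := .n c64_25 c64_57

def c16_9 : Tr := .n c32_9 c32_25

def b9 : Tr := c16_9

theorem hb4_9 : allp (tst G49 true (getA DT)) b9 = true := by decide +kernel

end Vale.Agent.P032.H437.Ev2
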