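import Vale.Agent.P032.H437.Ev2.B0
import Vale.Agent.P032.H437.Ev2.B1
import Vale.Agent.P032.H437.Ev2.B2
import Vale.Agent.P032.H437.Ev2.B3
import Vale.Agent.P032.H437.Ev2.B4
import Vale.Agent.P032.H437.Ev2.B5
import Vale.Agent.P032.H437.Ev2.B6
import Vale.Agent.P032.H437.Ev2.B7
import Vale.Agent.P032.H437.Ev2.B8
import Vale.Agent.P032.H437.Ev2.B9
import Vale.Agent.P032.H437.Ev2.B10
import Vale.Agent.P032.H437.Ev2.B11
import Vale.Agent.P032.H437.Ev2.B12
import Vale.Agent.P032.H437.Ev2.B13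
import Vale.Agent.P032.H437.Ev2.B14
import Vale.Agent.P032.H437.Ev2.B15
import Vale.Agent.P032.H437.Ev2.D0
import Vale.Agent.P032.H437.Ev2.D1
import Vale.Agent.P032.H437.Ev2.D2
import Vale.Agent.P032.H437.Ev2.D3
import Vale.Agent.P032.H437.Ev2.D4
import Vale.Agent.P032.H437.Ev2.D5
import Vale.Agent.P032.H437.Ev2.D6
import Vale.Agent.P032.H437.Ev2.D7
import Vale.Agent.P032.H437.Ev2.D8
import Vale.Agent.P032.H437.Ev2.D9
import Vale.Agent.P032.H437.Ev2.D10
import Vale.Agent.P032.H437.Ev2.D11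
import Vale.Agent.P032.H437.Ev2.D12
import Vale.Agent.P032.H437.Ev2.D13
import Vale.Agent.P032.H437.Ev2.D14
import Vale.Agent.P032.H437.Ev2.D15
import Vale.Agent.P032.H437.Ev2.D16
import Vale.Agent.P032.H437.Ev2.D17
import Vale.Agent.P032.H437.Ev2.D18
import Vale.Agent.P032.H437.Ev2.D19
import Vale.Agent.P032.H437.Ev2.D20
import Vale.Agent.P032.H437.Ev2.D21
import Vale.Agent.P032.H437.Ev2.D22
import Vale.Agent.P032.H437.Ev2.D23
import Vale.Agent.P032.H437.Ev2.D24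
import Vale.Agent.P032.H437.Ev2.D25
import Vale.Agent.P032.H437.Ev2.D26
import Vale.Agent.P032.H437.Ev2.D27
import Vale.Agent.P032.H437.Ev2.D28
import Vale.Agent.P032.H437.Ev2.D29
import Vale.Agent.P032.H437.Ev2.D30
import Vale.Agent.P032.H437.Ev2.D31

namespace Vale.Agent.P032.H437.Ev2
open Vale.Agent.P032.H859.Rup Vale.Agent.P032.H437

def e4_0 : Tr := .n d0 d16

def e4_1 : Tr := .n d1 d17

def e4_2 : Tr := .n d2 d18

def e4_3 : Tr := .n d3 d19

def e4_4 : Tr := .n d4 d20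

def e4_5 : Tr := .n d5 d21

def e4_6 : Tr := .n d6 d22

def e4_7 : Tr := .n d7 d23

def e4_8 : Tr := .n d8 d24

def e4_9 : Tr := .n d9 d25

def e4_10 : Tr := .n d10 d26

def e4_11 : Tr := .n d11 d27

def e4_12 : Tr := .n d12 d28

def e4_13 : Tr := .n d13 d29

def e4_14 : Tr := .n d14 d30

def e4_15 : Tr := .n d15 d31

def e3_0 : Tr := .n e4_0 e4_8

def e3_1 : Tr := .n e4_1 e4_9

def e3_2 : Tr := .n e4_2 e4_10

def e3_3 : Tr := .n e4_3 e4_11

def e3_4 : Tr := .n e4_4 e4_12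

def e3_5 : Tr := .n e4_5 e4_13

def e3_6 : Tr := .n e4_6 e4_14

def e3_7 : Tr := .n e4_7 e4_15

def e2_0 : Tr := .n e3_0 e3_4

def e2_1 : Tr := .n e3_1 e3_5

def e2_2 : Tr := .n e3_2 e3_6

def e2_3 : Tr := .n e3_3 e3_7

def e1_0 : Tr := .n e2_0 e2_2

def e1_1 : Tr := .n e2_1 e2_3

def e0_0 : Tr := .n e1_0 e1_1

def g3_0 : Tr := .n b0 b8

theorem hb3_0 : allp (tst G49 true (getA DT)) g3_0 = true := allp_n hb4_0 hb4_8

def g3_1 : Tr := .n b1 b9

theorem hb3_1 : allp (tst G49 true (getA DT)) g3_1 = true := allp_n hb4_1 hb4_9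

def g3_2 : Tr := .n b2 b10

theorem hb3_2 : allp (tst G49 true (getA DT)) g3_2 = true := allp_n hb4_2 hb4_10

def g3_3 : Tr := .n b3 b11

theorem hb3_3 : allp (tst G49 true (getA DT)) g3_3 = true := allp_n hb4_3 hb4_11

def g3_4 : Tr := .n b4 b12

theorem hb3_4 : allp (tst G49 true (getA DT)) g3_4 = true := allp_n hb4_4 hb4_12

def g3_5 : Tr := .n b5 b13

theorem hb3_5 : allp (tst G49 true (getA DT)) g3_5 = true := allp_n hb4_5 hb4_13

def g3_6 : Tr := .n b6 b14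

theorem hb3_6 : allp (tst G49 true (getA DT)) g3_6 = true := allp_n hb4_6 hb4_14

def g3_7 : Tr := .n b7 b15

theorem hb3_7 : allp (tst G49 true (getA DT)) g3_7 = true := allp_n hb4_7 hb4_15

def g2_0 : Tr := .n g3_0 g3_4

theorem hb2_0 : allp (tst G49 true (getA DT)) g2_0 = true := allp_n hb3_0 hb3_4

def g2_1 : Tr := .n g3_1 g3_5

theorem hb2_1 : allp (tst G49 true (getA DT)) g2_1 = true := allp_n hb3_1 hb3_5

def g2_2 : Tr := .n g3_2 g3_6

theorem hb2_2 : allp (tst G49 true (getA DT)) g2_2 = true := allp_n hb3_2 hb3_6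

def g2_3 : Tr := .n g3_3 g3_7

theorem hb2_3 : allp (tst G49 true (getA DT)) g2_3 = true := allp_n hb3_3 hb3_7

def g1_0 : Tr := .n g2_0 g2_2

theorem hb1_0 : allp (tst G49 true (getA DT)) g1_0 = true := allp_n hb2_0 hb2_2

def g1_1 : Tr := .n g2_1 g2_3

theorem hb1_1 : allp (tst G49 true (getA DT)) g1_1 = true := allp_n hb2_1 hb2_3

def g0_0 : Tr := .n g1_0 g1_1

theorem hb0_0 : allp (tst G49 true (getA DT)) g0_0 = true := allp_n hb1_0 hb1_1

noncomputable def cnf : Nat → Nat := getC g0_0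

/-- the mask of the positive literals -/
def E : Nat := mkE 12537

theorem hE : Even' E := even_mkE _

noncomputable def L : Nat → Nat := look cnf 33644 e0_0

end Vale.Agent.P032.H437.Ev2
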