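import Vale.Agent.P032.H437.SatP
import Vale.Agent.P032.H437.SatH

namespace Vale.Agent.P032.H437.Ev2
open Vale.Agent.P032.H859.Rup Vale.Agent.P032.H437

def a512_0 : TA :=
 .n (.n (.n (.n (.n (.l (nat_lit 0x0))
 (.l (nat_lit 0x147205)))
 (.n (.l (nat_lit 0x69074))
 (.l (nat_lit 0x1016a88d522000c))))
 (.n (.n (.l (nat_lit 0x120235))
 (.l (nat_lit 0xa70d4)))
 (.l (nat_lit 0xb1e5))))
 (.n (.n (.n (.l (nat_lit 0x870e5))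
 (.l (nat_lit 0x120286)))
 (.l (nat_lit 0xe9165)))
 (.n (.n (.l (nat_lit 0x66054))
 (.l (nat_lit 0xa72a7)))
 (.l (nat_lit 0x601f5)))))
 (.n (.n (.n (.n (.l (nat_lit 0xc0270))
 (.l (nat_lit 0x1670c5)))
 (.l (nat_lit 0x89066)))
 (.n (.n (.l (nat_lit 0x165006))
 (.l (nat_lit 0x20157)))
 (.l (nat_lit 0x10b254))))
 (.n (.n (.n (.l (nat_lit 0xe5155))
 (.l (nat_lit 0x1224)))
 (.l (nat_lit 0x291d4)))
 (.n (.n (.l (nat_lit 0x48234))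
 (.l (nat_lit 0x148243)))
 (.l (nat_lit 0xeb2d4)))))

def a512_256 : TA :=
 .n (.n (.n (.n (.n (.l (nat_lit 0x8400e2))
 (.l (nat_lit 0x165124)))
 (.l (nat_lit 0x81056)))
 (.n (.n (.l (nat_lit 0x12a236))
 (.l (nat_lit 0xa2097)))
 (.l (nat_lit 0x125027))))
 (.n (.n (.n (.l (nat_lit 0xa1014))
 (.l (nat_lit 0x107284)))
 (.l (nat_lit 0xa4084)))
 (.n (.n (.l (nat_lit 0x85025))
 (.l (nat_lit 0x84073)))
 (.l (nat_lit 0x1451f4)))))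
 (.n (.n (.n (.n (.l (nat_lit 0x100024))
 (.l (nat_lit 0x1420c4)))
 (.l (nat_lit 0x103085)))
 (.n (.n (.l (nat_lit 0xa9016))
 (.l (nat_lit 0x125207)))
 (.l (nat_lit 0xc5115))))
 (.n (.n (.n (.l (nat_lit 0x3074))
 (.l (nat_lit 0x141225)))
 (.l (nat_lit 0x10a106)))
 (.n (.n (.l (nat_lit 0x43046))
 (.l (nat_lit 0xc300a)))
 (.l (nat_lit 0x612e4)))))

def a256_0 : TA := .n a512_0 a512_256

def a512_128 : TA :=
 .n (.n (.n (.n (.n (.l (nat_lit 0x640052))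
 (.l (nat_lit 0x24124)))
 (.n (.l (nat_lit 0x25055))
 (.l (nat_lit 0xd094866c00000c))))
 (.n (.n (.l (nat_lit 0x44024))
 (.l (nat_lit 0x1491b4)))
 (.l (nat_lit 0xc4104))))
 (.n (.n (.n (.l (nat_lit 0x30e6))
 (.l (nat_lit 0x1422f6)))
 (.l (nat_lit 0x411d5)))
 (.n (.n (.l (nat_lit 0x108004))
 (.l (nat_lit 0x149023)))
 (.l (nat_lit 0x164037)))))
 (.n (.n (.n (.n (.l (nat_lit 0x43075))
 (.l (nat_lit 0x148135)))
 (.l (nat_lit 0x64065)))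
 (.n (.n (.l (nat_lit 0x125024))
 (.l (nat_lit 0x811c7)))
 (.l (nat_lit 0x1040a5))))
 (.n (.n (.n (.l (nat_lit 0xe2064))
 (.l (nat_lit 0x82304)))
 (.l (nat_lit 0x801e4)))
 (.n (.n (.l (nat_lit 0x10a036))
 (.l (nat_lit 0x1c80009)))
 (.l (nat_lit 0x20204)))))

def a512_384 : TA :=
 .n (.n (.n (.n (.n (.l (nat_lit 0xc01b0))
 (.l (nat_lit 0x167047)))
 (.l (nat_lit 0x16a234)))
 (.n (.n (.l (nat_lit 0x262a5))
 (.l (nat_lit 0x1060e7)))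
 (.l (nat_lit 0x69254))))
 (.n (.n (.n (.l (nat_lit 0xa155))
 (.l (nat_lit 0xe80d5)))
 (.l (nat_lit 0x88084)))
 (.n (.n (.l (nat_lit 0x120036))
 (.l (nat_lit 0xc0153)))
 (.l (nat_lit 0xca184)))))
 (.n (.n (.n (.n (.l (nat_lit 0x12a075))
 (.l (nat_lit 0x63057)))
 (.l (nat_lit 0x1250f6)))
 (.n (.n (.l (nat_lit 0x162016))
 (.l (nat_lit 0x9237)))
 (.l (nat_lit 0x85186))))
 (.n (.n (.n (.l (nat_lit 0x881c5))
 (.l (nat_lit 0x68295)))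
 (.l (nat_lit 0xc9175)))
 (.n (.n (.l (nat_lit 0x109064))
 (.l (nat_lit 0xea94c0d102600c)))
 (.l (nat_lit 0xe7195)))))

def a256_128 : TA := .n a512_128 a512_384

def a128_0 : TA := .n a256_0 a256_128

def a512_64 : TA :=
 .n (.n (.n (.n (.n (.l (nat_lit 0xa80022))
 (.l (nat_lit 0x1440b4)))
 (.n (.l (nat_lit 0x14a006))
 (.l (nat_lit 0xd508872900600c))))
 (.n (.n (.l (nat_lit 0x89236))
 (.l (nat_lit 0x28067)))
 (.l (nat_lit 0x4b1e6))))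
 (.n (.n (.n (.l (nat_lit 0x811c4))
 (.l (nat_lit 0x1422f5)))
 (.l (nat_lit 0x622b4)))
 (.n (.n (.l (nat_lit 0x4025))
 (.l (nat_lit 0x13)))
 (.l (nat_lit 0x144037)))))
 (.n (.n (.n (.n (.l (nat_lit 0xc02c0))
 (.l (nat_lit 0xe70c6)))
 (.l (nat_lit 0x2b005)))
 (.n (.n (.l (nat_lit 0x1282a5))
 (.l (nat_lit 0x109157)))
 (.l (nat_lit 0xc60a5))))
 (.n (.n (.n (.l (nat_lit 0x14b155))
 (.l (nat_lit 0x21224)))
 (.l (nat_lit 0x16a244)))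
 (.n (.n (.l (nat_lit 0x161035))
 (.l (nat_lit 0xc62d3)))
 (.l (nat_lit 0x1420b6)))))

def a512_320 : TA :=
 .n (.n (.n (.n (.n (.l (nat_lit 0x150))
 (.l (nat_lit 0x26204)))
 (.l (nat_lit 0x66056)))
 (.n (.n (.l (nat_lit 0xa4054))
 (.l (nat_lit 0x20c7)))
 (.l (nat_lit 0x125174))))
 (.n (.n (.n (.l (nat_lit 0x24155))
 (.l (nat_lit 0x148134)))
 (.l (nat_lit 0xe5017)))
 (.n (.n (.l (nat_lit 0x27154))
 (.l (nat_lit 0x1050e3)))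
 (.l (nat_lit 0x46037)))))
 (.n (.n (.n (.n (.l (nat_lit 0xa3075))
 (.l (nat_lit 0x22284)))
 (.l (nat_lit 0x124085)))
 (.n (.n (.l (nat_lit 0x6044))
 (.l (nat_lit 0x80237)))
 (.l (nat_lit 0x25186))))
 (.n (.n (.n (.l (nat_lit 0x123006))
 (.l (nat_lit 0x48296)))
 (.l (nat_lit 0x149106)))
 (.n (.n (.l (nat_lit 0x2b045))
 (.l (nat_lit 0x900b)))
 (.l (nat_lit 0x422e4)))))

def a256_64 : TA := .n a512_64 a512_320

def a512_192 : TA :=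
 .n (.n (.n (.n (.n (.l (nat_lit 0x800082))
 (.l (nat_lit 0xeb2e5)))
 (.n (.l (nat_lit 0x10a154))
 (.l (nat_lit 0x1086a1ae540000c))))
 (.n (.n (.l (nat_lit 0x161235))
 (.l (nat_lit 0x107077)))
 (.l (nat_lit 0x45027))))
 (.n (.n (.n (.l (nat_lit 0x1280e6))
 (.l (nat_lit 0x61a4)))
 (.l (nat_lit 0x6a245)))
 (.n (.n (.l (nat_lit 0xa7006))
 (.l (nat_lit 0x8b043)))
 (.l (nat_lit 0x64184)))))
 (.n (.n (.n (.n (.l (nat_lit 0x29076))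
 (.l (nat_lit 0xa1214)))
 (.l (nat_lit 0x16b0e4)))
 (.n (.n (.l (nat_lit 0xc2015))
 (.l (nat_lit 0xa1c7)))
 (.l (nat_lit 0x24116))))
 (.n (.n (.n (.l (nat_lit 0x471c6))
 (.l (nat_lit 0xc1226)))
 (.l (nat_lit 0xaa095)))
 (.n (.n (.l (nat_lit 0xa8014))
 (.l (nat_lit 0x2d40009)))
 (.l (nat_lit 0xa1047)))))

def a512_448 : TA :=
 .n (.n (.n (.n (.n (.l (nat_lit 0x8c0202))
 (.l (nat_lit 0xeb194)))
 (.l (nat_lit 0xc2065)))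
 (.n (.n (.l (nat_lit 0x450e4))
 (.l (nat_lit 0xa50f7)))
 (.l (nat_lit 0x16a094))))
 (.n (.n (.n (.l (nat_lit 0x142034))
 (.l (nat_lit 0xe90d5)))
 (.l (nat_lit 0x89017)))
 (.n (.n (.l (nat_lit 0xc6036))
 (.l (nat_lit 0xc11c3)))
 (.l (nat_lit 0x14b114)))))
 (.n (.n (.n (.n (.l (nat_lit 0xa0054))
 (.l (nat_lit 0xe0285)))
 (.l (nat_lit 0x1480f6)))
 (.n (.n (.l (nat_lit 0xca015))
 (.l (nat_lit 0x120287)))
 (.l (nat_lit 0x601f6))))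
 (.n (.n (.n (.l (nat_lit 0x232a4))
 (.l (nat_lit 0xa2305)))
 (.l (nat_lit 0x2a176)))
 (.n (.n (.l (nat_lit 0x84046))
 (.l (nat_lit 0x160688ad100600c)))
 (.l (nat_lit 0x8b205)))))

def a256_192 : TA := .n a512_192 a512_448

def a128_64 : TA := .n a256_64 a256_192

def a64_0 : TA := .n a128_0 a128_64

def a512_32 : TA :=
 .n (.n (.n (.n (.n (.l (nat_lit 0x600012))
 (.l (nat_lit 0x82276)))
 (.n (.l (nat_lit 0xe92a4))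
 (.l (nat_lit 0x12a05d8d020600c))))
 (.n (.n (.l (nat_lit 0x26235))
 (.l (nat_lit 0x1080d4)))
 (.l (nat_lit 0x1201e5))))
 (.n (.n (.n (.l (nat_lit 0x1290e5))
 (.l (nat_lit 0x640c4)))
 (.l (nat_lit 0xe5165)))
 (.n (.n (.l (nat_lit 0x101026))
 (.l (nat_lit 0x12a2a7)))
 (.l (nat_lit 0x16a1f6)))))
 (.n (.n (.n (.n (.l (nat_lit 0x1002a1))
 (.l (nat_lit 0x830c6)))
 (.l (nat_lit 0x10b1c4)))
 (.n (.n (.l (nat_lit 0x632a5))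
 (.l (nat_lit 0xa6157)))
 (.l (nat_lit 0x420a5))))
 (.n (.n (.n (.l (nat_lit 0xa8156))
 (.l (nat_lit 0x163146)))
 (.l (nat_lit 0x8a164)))
 (.n (.n (.l (nat_lit 0xe8005))
 (.l (nat_lit 0x1062a3)))
 (.l (nat_lit 0x70b5)))))

def a512_288 : TA :=
 .n (.n (.n (.n (.n (.l (nat_lit 0x100110))
 (.l (nat_lit 0x106204)))
 (.l (nat_lit 0x163055)))
 (.n (.n (.l (nat_lit 0x24154))
 (.l (nat_lit 0x1240a7)))
 (.l (nat_lit 0x1092c5))))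
 (.n (.n (.n (.l (nat_lit 0x121064))
 (.l (nat_lit 0xa7214)))
 (.l (nat_lit 0x82b6)))
 (.n (.n (.l (nat_lit 0x12a025))
 (.l (nat_lit 0x84093)))
 (.l (nat_lit 0x1032d5)))))
 (.n (.n (.n (.n (.l (nat_lit 0x20006))
 (.l (nat_lit 0x1051a6)))
 (.l (nat_lit 0x244)))
 (.n (.n (.l (nat_lit 0x1060e4))
 (.l (nat_lit 0x27217)))
 (.l (nat_lit 0x61264))))
 (.n (.n (.n (.l (nat_lit 0x83034))
 (.l (nat_lit 0x80295)))
 (.l (nat_lit 0x61027)))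
 (.n (.n (.l (nat_lit 0x125045))
 (.l (nat_lit 0x8600b)))
 (.l (nat_lit 0x106196)))))

def a256_32 : TA := .n a512_32 a512_288

def a512_160 : TA :=
 .n (.n (.n (.n (.n (.l (nat_lit 0x70))
 (.l (nat_lit 0x1222e6)))
 (.n (.l (nat_lit 0x88056))
 (.l (nat_lit 0xd4a8876100600c))))
 (.n (.n (.l (nat_lit 0xe4005))
 (.l (nat_lit 0xa2077)))
 (.l (nat_lit 0x49255))))
 (.n (.n (.n (.l (nat_lit 0xa50e5))
 (.l (nat_lit 0x65134)))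
 (.l (nat_lit 0xc4017)))
 (.n (.n (.l (nat_lit 0x72a4))
 (.l (nat_lit 0x46033)))
 (.l (nat_lit 0x126266)))))
 (.n (.n (.n (.n (.l (nat_lit 0x126075))
 (.l (nat_lit 0xc4136)))
 (.l (nat_lit 0xc8066)))
 (.n (.n (.l (nat_lit 0x6006))
 (.l (nat_lit 0x1071c7)))
 (.l (nat_lit 0xa0184))))
 (.n (.n (.n (.l (nat_lit 0x1411c6))
 (.l (nat_lit 0xc91b6)))
 (.l (nat_lit 0x163095)))
 (.n (.n (.l (nat_lit 0x280e4))
 (.l (nat_lit 0xcc0009)))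
 (.l (nat_lit 0xc6126)))))

def a512_416 : TA :=
 .n (.n (.n (.n (.n (.l (nat_lit 0x1401d0))
 (.l (nat_lit 0x10b0b4)))
 (.l (nat_lit 0x4b006)))
 (.n (.n (.l (nat_lit 0x1492a6))
 (.l (nat_lit 0x290e7)))
 (.l (nat_lit 0xca174))))
 (.n (.n (.n (.l (nat_lit 0xc2074))
 (.l (nat_lit 0x1030d6)))
 (.l (nat_lit 0x68017)))
 (.n (.n (.l (nat_lit 0x63035))
 (.l (nat_lit 0x84163)))
 (.l (nat_lit 0xea1f4)))))
 (.n (.n (.n (.n (.l (nat_lit 0x20234))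
 (.l (nat_lit 0x147215)))
 (.l (nat_lit 0x12b4)))
 (.n (.n (.l (nat_lit 0x65015))
 (.l (nat_lit 0x88247)))
 (.l (nat_lit 0x16b185))))
 (.n (.n (.n (.l (nat_lit 0x12a1c6))
 (.l (nat_lit 0x105067)))
 (.l (nat_lit 0xc22c4)))
 (.n (.n (.l (nat_lit 0x21045))
 (.l (nat_lit 0xe88982d402000c)))
 (.l (nat_lit 0xc0205)))))

def a256_160 : TA := .n a512_160 a512_416

def a128_32 : TA := .n a256_32 a256_160

def a512_96 : TA :=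
 .n (.n (.n (.n (.n (.l (nat_lit 0x100041))
 (.l (nat_lit 0x86276)))
 (.n (.l (nat_lit 0xa2056))
 (.l (nat_lit 0xd529886c00000c))))
 (.n (.n (.l (nat_lit 0x16b235))
 (.l (nat_lit 0xa8294)))
 (.l (nat_lit 0xc1255))))
 (.n (.n (.n (.l (nat_lit 0x101034))
 (.l (nat_lit 0x851a4)))
 (.l (nat_lit 0x2a1d5)))
 (.n (.n (.l (nat_lit 0xa9025))
 (.l (nat_lit 0x48013)))
 (.l (nat_lit 0xcb265)))))
 (.n (.n (.n (.n (.l (nat_lit 0x140300))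
 (.l (nat_lit 0x4135)))
 (.l (nat_lit 0xa1066)))
 (.n (.n (.l (nat_lit 0xab2a6))
 (.l (nat_lit 0x6187)))
 (.l (nat_lit 0x401f4))))
 (.n (.n (.n (.l (nat_lit 0x62014))
 (.l (nat_lit 0x1251b6)))
 (.l (nat_lit 0xe4096)))
 (.n (.n (.l (nat_lit 0xa4036))
 (.l (nat_lit 0x2c40009)))
 (.l (nat_lit 0x460b6)))))

def a512_352 : TA :=
 .n (.n (.n (.n (.n (.l (nat_lit 0x80170))
 (.l (nat_lit 0x87124)))
 (.l (nat_lit 0xeb004)))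
 (.n (.n (.l (nat_lit 0x1212a5))
 (.l (nat_lit 0xa90d7)))
 (.l (nat_lit 0x892c4))))
 (.n (.n (.n (.l (nat_lit 0x87156))
 (.l (nat_lit 0x1030d5)))
 (.l (nat_lit 0x92b5)))
 (.n (.n (.l (nat_lit 0xa7054))
 (.l (nat_lit 0x480f3)))
 (.l (nat_lit 0x126037)))))
 (.n (.n (.n (.n (.l (nat_lit 0x48076))
 (.l (nat_lit 0xa1216)))
 (.l (nat_lit 0xa01d4)))
 (.n (.n (.l (nat_lit 0x80015))
 (.l (nat_lit 0x122237)))
 (.l (nat_lit 0x1420a4))))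
 (.n (.n (.n (.l (nat_lit 0x251c6))
 (.l (nat_lit 0xe0296)))
 (.l (nat_lit 0xe1254)))
 (.n (.n (.l (nat_lit 0x891c4))
 (.l (nat_lit 0x14b00b)))
 (.l (nat_lit 0x45196)))))

def a256_96 : TA := .n a512_96 a512_352

def a512_224 : TA :=
 .n (.n (.n (.n (.n (.l (nat_lit 0x8c00b2))
 (.l (nat_lit 0x622e5)))
 (.n (.l (nat_lit 0xa034))
 (.l (nat_lit 0xc886a70540000c))))
 (.n (.n (.l (nat_lit 0x167235))
 (.l (nat_lit 0x2a077)))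
 (.l (nat_lit 0x292c6))))
 (.n (.n (.n (.l (nat_lit 0x2b0e5))
 (.l (nat_lit 0x87057)))
 (.l (nat_lit 0x61245)))
 (.n (.n (.l (nat_lit 0x142026))
 (.l (nat_lit 0x148053)))
 (.l (nat_lit 0xea2d6)))))
 (.n (.n (.n (.n (.l (nat_lit 0x81004))
 (.l (nat_lit 0x451a5)))
 (.l (nat_lit 0x6b034)))
 (.n (.n (.l (nat_lit 0x5016))
 (.l (nat_lit 0x811f7)))
 (.l (nat_lit 0x1264))))
 (.n (.n (.n (.l (nat_lit 0x1291c5))
 (.l (nat_lit 0x30d4)))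
 (.l (nat_lit 0x63105)))
 (.n (.n (.l (nat_lit 0x100045))
 (.l (nat_lit 0x10000a)))
 (.l (nat_lit 0xc6125)))))

def a512_480 : TA :=
 .n (.n (.n (.n (.n (.l (nat_lit 0x840232))
 (.l (nat_lit 0x30c5)))
 (.l (nat_lit 0x5066)))
 (.n (.n (.l (nat_lit 0xc5034))
 (.l (nat_lit 0x124117)))
 (.l (nat_lit 0x4b027))))
 (.n (.n (.n (.l (nat_lit 0x40155))
 (.l (nat_lit 0x64146)))
 (.l (nat_lit 0x109244)))
 (.n (.n (.l (nat_lit 0x16b036))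
 (.l (nat_lit 0x145213)))
 (.l (nat_lit 0x6b0a4)))))
 (.n (.n (.n (.n (.l (nat_lit 0x1230e5))
 (.l (nat_lit 0x27286)))
 (.l (nat_lit 0x142017)))
 (.n (.n (.l (nat_lit 0x166154))
 (.l (nat_lit 0x32a7)))
 (.l (nat_lit 0xcb1f5))))
 (.n (.n (.n (.l (nat_lit 0xa3054))
 (.l (nat_lit 0x125224)))
 (.l (nat_lit 0x801e5)))
 (.n (.n (.l (nat_lit 0x166045))
 (.l (nat_lit 0x2260ba5560600c)))
 (.l (nat_lit 0xa0205)))))

def a256_224 : TA := .n a512_224 a512_480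

def a128_96 : TA := .n a256_96 a256_224

def a64_32 : TA := .n a128_32 a128_96

def a32_0 : TA := .n a64_0 a64_32

def a512_16 : TA :=
 .n (.n (.n (.n (.n (.l (nat_lit 0x880002))
 (.l (nat_lit 0xc4047)))
 (.n (.l (nat_lit 0x169154))
 (.l (nat_lit 0x101a9894b42000c))))
 (.n (.n (.l (nat_lit 0x82236))
 (.l (nat_lit 0x27224)))
 (.l (nat_lit 0x23027))))
 (.n (.n (.n (.l (nat_lit 0x280e5))
 (.l (nat_lit 0xa2285)))
 (.l (nat_lit 0x1022b4)))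
 (.n (.n (.l (nat_lit 0x147006))
 (.l (nat_lit 0x292a7)))
 (.l (nat_lit 0xc51f6)))))
 (.n (.n (.n (.n (.l (nat_lit 0x80290))
 (.l (nat_lit 0xe0057)))
 (.l (nat_lit 0xb0e4)))
 (.n (.n (.l (nat_lit 0xc22a6))
 (.l (nat_lit 0x124157)))
 (.l (nat_lit 0xeb094))))
 (.n (.n (.n (.l (nat_lit 0x87155))
 (.l (nat_lit 0x21067)))
 (.l (nat_lit 0x1292b4)))
 (.n (.n (.l (nat_lit 0x148014))
 (.l (nat_lit 0x12a3)))
 (.l (nat_lit 0x630b6)))))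

def a512_272 : TA :=
 .n (.n (.n (.n (.n (.l (nat_lit 0xb000f2))
 (.l (nat_lit 0x6124)))
 (.l (nat_lit 0x22055)))
 (.n (.n (.l (nat_lit 0xa5004))
 (.l (nat_lit 0x30a7)))
 (.l (nat_lit 0x1222c5))))
 (.n (.n (.n (.l (nat_lit 0x21044))
 (.l (nat_lit 0x1270c4)))
 (.l (nat_lit 0x12b5)))
 (.n (.n (.l (nat_lit 0x29026))
 (.l (nat_lit 0x82083)))
 (.l (nat_lit 0x1612d6)))))
 (.n (.n (.n (.n (.l (nat_lit 0x80054))
 (.l (nat_lit 0x1401a5)))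
 (.l (nat_lit 0x28085)))
 (.n (.n (.l (nat_lit 0x7004))
 (.l (nat_lit 0x8b207)))
 (.l (nat_lit 0xcb115))))
 (.n (.n (.n (.l (nat_lit 0x1032a4))
 (.l (nat_lit 0xe30d4)))
 (.l (nat_lit 0xeb106)))
 (.n (.n (.l (nat_lit 0x24045))
 (.l (nat_lit 0x14400b)))
 (.l (nat_lit 0x5195)))))

def a256_16 : TA := .n a512_16 a512_272

def a512_144 : TA :=
 .n (.n (.n (.n (.n (.l (nat_lit 0x140061))
 (.l (nat_lit 0x145047)))
 (.n (.l (nat_lit 0x126055))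
 (.l (nat_lit 0xd521a8e900000c))))
 (.n (.n (.l (nat_lit 0x144044))
 (.l (nat_lit 0x129067)))
 (.l (nat_lit 0xc1256))))
 (.n (.n (.n (.l (nat_lit 0x1040e6))
 (.l (nat_lit 0x862f6)))
 (.l (nat_lit 0x1691d6)))
 (.n (.n (.l (nat_lit 0x87154))
 (.l (nat_lit 0xc1033)))
 (.l (nat_lit 0xe1265)))))
 (.n (.n (.n (.n (.l (nat_lit 0x144076))
 (.l (nat_lit 0x141284)))
 (.l (nat_lit 0x165065)))
 (.n (.n (.l (nat_lit 0xa5054))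
 (.l (nat_lit 0x251c7)))
 (.l (nat_lit 0x10a0a5))))
 (.n (.n (.n (.l (nat_lit 0x401c5))
 (.l (nat_lit 0xc51b6)))
 (.l (nat_lit 0x22096)))
 (.n (.n (.l (nat_lit 0xab035))
 (.l (nat_lit 0x2cc0009)))
 (.l (nat_lit 0x104125)))))

def a512_400 : TA :=
 .n (.n (.n (.n (.n (.l (nat_lit 0xa001c2))
 (.l (nat_lit 0x167274)))
 (.l (nat_lit 0xea024)))
 (.n (.n (.l (nat_lit 0x1672a5))
 (.l (nat_lit 0x880e7)))
 (.l (nat_lit 0x14a027))))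
 (.n (.n (.n (.l (nat_lit 0x10b156))
 (.l (nat_lit 0xc0224)))
 (.l (nat_lit 0x81d4)))
 (.n (.n (.l (nat_lit 0x82036))
 (.l (nat_lit 0xc7153)))
 (.l (nat_lit 0xca2d4)))))
 (.n (.n (.n (.n (.l (nat_lit 0xa1004))
 (.l (nat_lit 0x160215)))
 (.l (nat_lit 0xa90f5)))
 (.n (.n (.l (nat_lit 0xc4015))
 (.l (nat_lit 0x10a237)))
 (.l (nat_lit 0xa186))))
 (.n (.n (.n (.l (nat_lit 0x291c6))
 (.l (nat_lit 0x24144)))
 (.l (nat_lit 0x12a175)))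
 (.n (.n (.l (nat_lit 0x80046))
 (.l (nat_lit 0xe895c0d102000c)))
 (.l (nat_lit 0x122274)))))

def a256_144 : TA := .n a512_144 a512_400

def a128_16 : TA := .n a256_16 a256_144

def a512_80 : TA :=
 .n (.n (.n (.n (.n (.l (nat_lit 0xa00032))
 (.l (nat_lit 0x124047)))
 (.n (.l (nat_lit 0xc1055))
 (.l (nat_lit 0xd181a32900000c))))
 (.n (.n (.l (nat_lit 0x6a235))
 (.l (nat_lit 0x128144)))
 (.l (nat_lit 0x163104))))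
 (.n (.n (.n (.l (nat_lit 0x1014))
 (.l (nat_lit 0x1062f5)))
 (.l (nat_lit 0x481d6)))
 (.n (.n (.l (nat_lit 0x105026))
 (.l (nat_lit 0x43013)))
 (.l (nat_lit 0xc2266)))))
 (.n (.n (.n (.n (.l (nat_lit 0xb002d2))
 (.l (nat_lit 0xa0214)))
 (.l (nat_lit 0x100066)))
 (.n (.n (.l (nat_lit 0xca2a5))
 (.l (nat_lit 0xaa157)))
 (.l (nat_lit 0xcb0a6))))
 (.n (.n (.n (.l (nat_lit 0xe2074))
 (.l (nat_lit 0x401b6)))
 (.l (nat_lit 0x122095)))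
 (.n (.n (.l (nat_lit 0xc3036))
 (.l (nat_lit 0x1c00009)))
 (.l (nat_lit 0xe30b5)))))

def a512_336 : TA :=
 .n (.n (.n (.n (.n (.l (nat_lit 0xa40152))
 (.l (nat_lit 0x1262e4)))
 (.l (nat_lit 0x167055)))
 (.n (.n (.l (nat_lit 0x5006))
 (.l (nat_lit 0x1030d7)))
 (.l (nat_lit 0x89104))))
 (.n (.n (.n (.l (nat_lit 0x125156))
 (.l (nat_lit 0x67)))
 (.l (nat_lit 0xc32b5)))
 (.n (.n (.l (nat_lit 0x127234))
 (.l (nat_lit 0x880e3)))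
 (.l (nat_lit 0x146114)))))
 (.n (.n (.n (.n (.l (nat_lit 0x26076))
 (.l (nat_lit 0x103057)))
 (.l (nat_lit 0x109085)))
 (.n (.n (.l (nat_lit 0x126005))
 (.l (nat_lit 0x21237)))
 (.l (nat_lit 0x14a185))))
 (.n (.n (.n (.l (nat_lit 0x811c5))
 (.l (nat_lit 0x144144)))
 (.l (nat_lit 0x16a105)))
 (.n (.n (.l (nat_lit 0x109074))
 (.l (nat_lit 0xca00a)))
 (.l (nat_lit 0x60195)))))

def a256_80 : TA := .n a512_80 a512_336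

def a512_208 : TA :=
 .n (.n (.n (.n (.n (.l (nat_lit 0x1000a0))
 (.l (nat_lit 0x65047)))
 (.n (.l (nat_lit 0x8a2a4))
 (.l (nat_lit 0xc88a970540600c))))
 (.n (.n (.l (nat_lit 0xc6236))
 (.l (nat_lit 0xa8077)))
 (.l (nat_lit 0x622c6))))
 (.n (.n (.n (.l (nat_lit 0x8a0e5))
 (.l (nat_lit 0x1062f4)))
 (.l (nat_lit 0x64017)))
 (.n (.n (.l (nat_lit 0x1025))
 (.l (nat_lit 0x5053)))
 (.l (nat_lit 0xe12d5)))))
 (.n (.n (.n (.n (.l (nat_lit 0x12a076))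
 (.l (nat_lit 0x42057)))
 (.l (nat_lit 0xeb234)))
 (.n (.n (.l (nat_lit 0x63015))
 (.l (nat_lit 0x10b1c7)))
 (.l (nat_lit 0xb116))))
 (.n (.n (.n (.l (nat_lit 0x281c6))
 (.l (nat_lit 0x88226)))
 (.l (nat_lit 0xa01e4)))
 (.n (.n (.l (nat_lit 0x9005))
 (.l (nat_lit 0xd40009)))
 (.l (nat_lit 0xa4125)))))

def a512_464 : TA :=
 .n (.n (.n (.n (.n (.l (nat_lit 0x230))
 (.l (nat_lit 0x6b2e4)))
 (.l (nat_lit 0xa3066)))
 (.n (.n (.l (nat_lit 0x1451c4))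
 (.l (nat_lit 0xb107)))
 (.l (nat_lit 0xea1e4))))
 (.n (.n (.n (.l (nat_lit 0xc2064))
 (.l (nat_lit 0x81067)))
 (.l (nat_lit 0x9164)))
 (.n (.n (.l (nat_lit 0x6a035))
 (.l (nat_lit 0x1081c3)))
 (.l (nat_lit 0xcb264)))))
 (.n (.n (.n (.n (.l (nat_lit 0x1006))
 (.l (nat_lit 0x62286)))
 (.l (nat_lit 0xa0f5)))
 (.n (.n (.l (nat_lit 0x66074))
 (.l (nat_lit 0x812a7)))
 (.l (nat_lit 0xe51f5))))
 (.n (.n (.n (.l (nat_lit 0x123024))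
 (.l (nat_lit 0x25144)))
 (.l (nat_lit 0x122254)))
 (.n (.n (.l (nat_lit 0x65046))
 (.l (nat_lit 0x16260cad102600c)))
 (.l (nat_lit 0x103124)))))

def a256_208 : TA := .n a512_208 a512_464

def a128_80 : TA := .n a256_80 a256_208

def a64_16 : TA := .n a128_16 a128_80

def a512_48 : TA :=
 .n (.n (.n (.n (.n (.l (nat_lit 0x100020))
 (.l (nat_lit 0x66275)))
 (.n (.l (nat_lit 0x69064))
 (.l (nat_lit 0x216ac0cd42000c))))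
 (.n (.n (.l (nat_lit 0x127236))
 (.l (nat_lit 0x88224)))
 (.l (nat_lit 0xe91e6))))
 (.n (.n (.n (.l (nat_lit 0x10b0e6))
 (.l (nat_lit 0x1641a4)))
 (.l (nat_lit 0x8a166)))
 (.n (.n (.l (nat_lit 0xa2025))
 (.l (nat_lit 0x8a2c7)))
 (.l (nat_lit 0xe30a4)))))
 (.n (.n (.n (.n (.l (nat_lit 0xb002a2))
 (.l (nat_lit 0xa40c5)))
 (.l (nat_lit 0x8b024)))
 (.n (.n (.l (nat_lit 0x1472a6))
 (.l (nat_lit 0x8157)))
 (.l (nat_lit 0x1430a5))))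
 (.n (.n (.n (.l (nat_lit 0xa156))
 (.l (nat_lit 0x67146)))
 (.l (nat_lit 0xea084)))
 (.n (.n (.l (nat_lit 0x60035))
 (.l (nat_lit 0x1092a3)))
 (.l (nat_lit 0x40204)))))

def a512_304 : TA :=
 .n (.n (.n (.n (.n (.l (nat_lit 0x80130))
 (.l (nat_lit 0xa60b4)))
 (.l (nat_lit 0xc5056)))
 (.n (.n (.l (nat_lit 0x124024))
 (.l (nat_lit 0x8a0a7)))
 (.l (nat_lit 0x12a2c5))))
 (.n (.n (.n (.l (nat_lit 0x80156))
 (.l (nat_lit 0x8057)))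
 (.l (nat_lit 0x1492b6)))
 (.n (.n (.l (nat_lit 0xa8004))
 (.l (nat_lit 0x1070b3)))
 (.l (nat_lit 0xeb2d6)))))
 (.n (.n (.n (.n (.l (nat_lit 0x102076))
 (.l (nat_lit 0x871a5)))
 (.l (nat_lit 0x3086)))
 (.n (.n (.l (nat_lit 0x86234))
 (.l (nat_lit 0x121227)))
 (.l (nat_lit 0x142037))))
 (.n (.n (.n (.l (nat_lit 0x3064))
 (.l (nat_lit 0x61296)))
 (.l (nat_lit 0x24105)))
 (.n (.n (.l (nat_lit 0x87046))
 (.l (nat_lit 0x10700a)))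
 (.l (nat_lit 0x2b196)))))

def a256_48 : TA := .n a512_48 a512_304

def a512_176 : TA :=
 .n (.n (.n (.n (.n (.l (nat_lit 0xa40072))
 (.l (nat_lit 0xa62e5)))
 (.n (.l (nat_lit 0xa074))
 (.l (nat_lit 0xd40ea36102600c))))
 (.n (.n (.l (nat_lit 0x60236))
 (.l (nat_lit 0x24077)))
 (.l (nat_lit 0xea256))))
 (.n (.n (.n (.l (nat_lit 0x270e6))
 (.l (nat_lit 0x165214)))
 (.l (nat_lit 0x61246)))
 (.n (.n (.l (nat_lit 0x107054))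
 (.l (nat_lit 0x84043)))
 (.l (nat_lit 0xeb266)))))
 (.n (.n (.n (.n (.l (nat_lit 0x88075))
 (.l (nat_lit 0x86135)))
 (.l (nat_lit 0x69065)))
 (.n (.n (.l (nat_lit 0x100016))
 (.l (nat_lit 0xa81c7)))
 (.l (nat_lit 0x1037))))
 (.n (.n (.n (.l (nat_lit 0xe51c5))
 (.l (nat_lit 0xc3067)))
 (.l (nat_lit 0xc9095)))
 (.n (.n (.l (nat_lit 0x1281c4))
 (.l (nat_lit 0x1d00009)))
 (.l (nat_lit 0xeb126)))))

def a512_432 : TA :=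
 .n (.n (.n (.n (.n (.l (nat_lit 0xac01f2))
 (.l (nat_lit 0xeb047)))
 (.l (nat_lit 0x160065)))
 (.n (.n (.l (nat_lit 0xea2a6))
 (.l (nat_lit 0x10b0e7)))
 (.l (nat_lit 0x4a2c4))))
 (.n (.n (.n (.l (nat_lit 0x42014))
 (.l (nat_lit 0x880d6)))
 (.l (nat_lit 0x68164)))
 (.n (.n (.l (nat_lit 0x164035))
 (.l (nat_lit 0xc41a3)))
 (.l (nat_lit 0x4b037)))))
 (.n (.n (.n (.n (.l (nat_lit 0x120024))
 (.l (nat_lit 0xe3134)))
 (.l (nat_lit 0x640f5)))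
 (.n (.n (.l (nat_lit 0x168016))
 (.l (nat_lit 0x2a267)))
 (.l (nat_lit 0xe22d4))))
 (.n (.n (.n (.l (nat_lit 0xa4004))
 (.l (nat_lit 0x451b4)))
 (.l (nat_lit 0x65175)))
 (.n (.n (.l (nat_lit 0x122045))
 (.l (nat_lit 0xea95c0d100000c)))
 (.l (nat_lit 0x86206)))))

def a256_176 : TA := .n a512_176 a512_432

def a128_48 : TA := .n a256_48 a256_176

def a512_112 : TA :=
 .n (.n (.n (.n (.n (.l (nat_lit 0xb00042))
 (.l (nat_lit 0x27275)))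
 (.n (.l (nat_lit 0x4056))
 (.l (nat_lit 0xd03588e900000c))))
 (.n (.n (.l (nat_lit 0xc40e4))
 (.l (nat_lit 0x90d4)))
 (.l (nat_lit 0x12a255))))
 (.n (.n (.n (.l (nat_lit 0x81064))
 (.l (nat_lit 0x12f6)))
 (.l (nat_lit 0xc32b4)))
 (.n (.n (.l (nat_lit 0xb026))
 (.l (nat_lit 0x140023)))
 (.l (nat_lit 0x44114)))))
 (.n (.n (.n (.n (.l (nat_lit 0xc0004))
 (.l (nat_lit 0x47135)))
 (.l (nat_lit 0xc3065)))
 (.n (.n (.l (nat_lit 0x251c4))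
 (.l (nat_lit 0x1241a7)))
 (.l (nat_lit 0x1620a6))))
 (.n (.n (.n (.l (nat_lit 0x162034))
 (.l (nat_lit 0xe81b5)))
 (.l (nat_lit 0x4b096)))
 (.n (.n (.l (nat_lit 0x6035))
 (.l (nat_lit 0xc40009)))
 (.l (nat_lit 0xb0b5)))))

def a512_368 : TA :=
 .n (.n (.n (.n (.n (.l (nat_lit 0x880182))
 (.l (nat_lit 0x7274)))
 (.l (nat_lit 0x6a154)))
 (.n (.n (.l (nat_lit 0x832a6))
 (.l (nat_lit 0x50e7)))
 (.l (nat_lit 0x69104))))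
 (.n (.n (.n (.l (nat_lit 0x28155))
 (.l (nat_lit 0x870d5)))
 (.l (nat_lit 0x1250f4)))
 (.n (.n (.l (nat_lit 0x8006))
 (.l (nat_lit 0x8b103)))
 (.l (nat_lit 0x14a037)))))
 (.n (.n (.n (.n (.l (nat_lit 0x149075))
 (.l (nat_lit 0xe7216)))
 (.l (nat_lit 0x40f5)))
 (.n (.n (.l (nat_lit 0x61016))
 (.l (nat_lit 0xa7237)))
 (.l (nat_lit 0xc0185))))
 (.n (.n (.n (.l (nat_lit 0x1261c5))
 (.l (nat_lit 0x62295)))
 (.l (nat_lit 0xc0176)))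
 (.n (.n (.l (nat_lit 0x9014))
 (.l (nat_lit 0x12a3610d100000c)))
 (.l (nat_lit 0x146195)))))

def a256_112 : TA := .n a512_112 a512_368

def a512_240 : TA :=
 .n (.n (.n (.n (.n (.l (nat_lit 0x1000d0))
 (.l (nat_lit 0x1662e6)))
 (.n (.l (nat_lit 0x12a006))
 (.l (nat_lit 0xcc0a962540000c))))
 (.n (.n (.l (nat_lit 0xc9235))
 (.l (nat_lit 0x12b077)))
 (.l (nat_lit 0x5104))))
 (.n (.n (.n (.l (nat_lit 0x1211c4))
 (.l (nat_lit 0x71a4)))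
 (.l (nat_lit 0x89245)))
 (.n (.n (.l (nat_lit 0xe3026))
 (.l (nat_lit 0xc7063)))
 (.l (nat_lit 0x45114)))))
 (.n (.n (.n (.n (.l (nat_lit 0x234))
 (.l (nat_lit 0x71a6)))
 (.l (nat_lit 0x140017)))
 (.n (.n (.l (nat_lit 0x108015))
 (.l (nat_lit 0x2b1f7)))
 (.l (nat_lit 0x161037))))
 (.n (.n (.n (.l (nat_lit 0x8b1c5))
 (.l (nat_lit 0x63067)))
 (.l (nat_lit 0x5106)))
 (.n (.n (.l (nat_lit 0xa1046))
 (.l (nat_lit 0x4200b)))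
 (.l (nat_lit 0x6b125)))))

def a512_496 : TA :=
 .n (.n (.n (.n (.n (.l (nat_lit 0x40250))
 (.l (nat_lit 0x1240c6)))
 (.l (nat_lit 0x127065)))
 (.n (.n (.l (nat_lit 0x45064))
 (.l (nat_lit 0xa5127)))
 (.l (nat_lit 0x14b104))))
 (.n (.n (.n (.l (nat_lit 0x144156))
 (.l (nat_lit 0xa7145)))
 (.l (nat_lit 0xa9084)))
 (.n (.n (.l (nat_lit 0xc80e4))
 (.l (nat_lit 0x14a233)))
 (.l (nat_lit 0x16b184)))))
 (.n (.n (.n (.n (.l (nat_lit 0x850e6))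
 (.l (nat_lit 0x104134)))
 (.l (nat_lit 0xc8165)))
 (.n (.n (.l (nat_lit 0xe62a4))
 (.l (nat_lit 0x1062a7)))
 (.l (nat_lit 0x432d4))))
 (.n (.n (.n (.l (nat_lit 0x4006))
 (.l (nat_lit 0xc7144)))
 (.l (nat_lit 0xa91e5)))
 (.n (.n (.l (nat_lit 0xcb046))
 (.l (nat_lit 0xc18a870d42000c)))
 (.l (nat_lit 0x46205)))))

def a256_240 : TA := .n a512_240 a512_496

def a128_112 : TA := .n a256_112 a256_240

def a64_48 : TA := .n a128_48 a128_112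

def a32_16 : TA := .n a64_16 a64_48

def a16_0 : TA := .n a32_0 a32_16

def a512_8 : TA :=
 .n (.n (.n (.n (.n (.l (nat_lit 0x600002))
 (.l (nat_lit 0x630b4)))
 (.n (.l (nat_lit 0xe90e4))
 (.l (nat_lit 0x1016a82e540600c))))
 (.n (.n (.l (nat_lit 0x21236))
 (.l (nat_lit 0x127144)))
 (.l (nat_lit 0xc3094))))
 (.n (.n (.n (.l (nat_lit 0x1270e5))
 (.l (nat_lit 0x21285)))
 (.l (nat_lit 0x82084)))
 (.n (.n (.l (nat_lit 0xc7005))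
 (.l (nat_lit 0x1282a7)))
 (.l (nat_lit 0x1411f5)))))
 (.n (.n (.n (.n (.l (nat_lit 0x100280))
 (.l (nat_lit 0x40214)))
 (.l (nat_lit 0x129066)))
 (.n (.n (.l (nat_lit 0x612a6))
 (.l (nat_lit 0x84157)))
 (.l (nat_lit 0x6b027))))
 (.n (.n (.n (.l (nat_lit 0x146155))
 (.l (nat_lit 0x81294)))
 (.l (nat_lit 0xa9244)))
 (.n (.n (.l (nat_lit 0xc82a4))
 (.l (nat_lit 0xc2263)))
 (.l (nat_lit 0x140047)))))

def a512_264 : TA :=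
 .n (.n (.n (.n (.n (.l (nat_lit 0xc00f0))
 (.l (nat_lit 0xe5204)))
 (.l (nat_lit 0x121056)))
 (.n (.n (.l (nat_lit 0x2b236))
 (.l (nat_lit 0x124097)))
 (.l (nat_lit 0x422c6))))
 (.n (.n (.n (.l (nat_lit 0x121024))
 (.l (nat_lit 0x67057)))
 (.l (nat_lit 0x1240f4)))
 (.n (.n (.l (nat_lit 0x125025))
 (.l (nat_lit 0x147073)))
 (.l (nat_lit 0x412d6)))))
 (.n (.n (.n (.n (.l (nat_lit 0x44))
 (.l (nat_lit 0x62057)))
 (.l (nat_lit 0x44086)))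
 (.n (.n (.l (nat_lit 0x10a016))
 (.l (nat_lit 0x7207)))
 (.l (nat_lit 0xa115))))
 (.n (.n (.n (.l (nat_lit 0x830e4))
 (.l (nat_lit 0x68225)))
 (.l (nat_lit 0xb106)))
 (.n (.n (.l (nat_lit 0x123046))
 (.l (nat_lit 0x4400b)))
 (.l (nat_lit 0xc2047)))))

def a256_8 : TA := .n a512_8 a512_264

def a512_136 : TA :=
 .n (.n (.n (.n (.n (.l (nat_lit 0xb00052))
 (.l (nat_lit 0xe4194)))
 (.n (.l (nat_lit 0x86055))
 (.l (nat_lit 0xd094886c02000c))))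
 (.n (.n (.l (nat_lit 0xc4034))
 (.l (nat_lit 0x49294)))
 (.l (nat_lit 0x164027))))
 (.n (.n (.n (.l (nat_lit 0xa30e6))
 (.l (nat_lit 0x832f5)))
 (.l (nat_lit 0xc91d6)))
 (.n (.n (.l (nat_lit 0x70e4))
 (.l (nat_lit 0x40033)))
 (.l (nat_lit 0x41266)))))
 (.n (.n (.n (.n (.l (nat_lit 0xe3076))
 (.l (nat_lit 0xc1214)))
 (.l (nat_lit 0xc5065)))
 (.n (.n (.l (nat_lit 0x25044))
 (.l (nat_lit 0x1211c7)))
 (.l (nat_lit 0x60a6))))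
 (.n (.n (.n (.l (nat_lit 0x143005))
 (.l (nat_lit 0x1441b6)))
 (.l (nat_lit 0x120027)))
 (.n (.n (.l (nat_lit 0xb036))
 (.l (nat_lit 0xc80009)))
 (.l (nat_lit 0x81047)))))

def a512_392 : TA :=
 .n (.n (.n (.n (.n (.l (nat_lit 0x1401c0))
 (.l (nat_lit 0x67194)))
 (.l (nat_lit 0x6a014)))
 (.n (.n (.l (nat_lit 0x872a5))
 (.l (nat_lit 0x270e7)))
 (.l (nat_lit 0xe92c4))))
 (.n (.n (.n (.l (nat_lit 0xaa155))
 (.l (nat_lit 0x1b4)))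
 (.l (nat_lit 0x1080f4)))
 (.n (.n (.l (nat_lit 0x21036))
 (.l (nat_lit 0x6153)))
 (.l (nat_lit 0xa264)))))
 (.n (.n (.n (.n (.l (nat_lit 0x2b075))
 (.l (nat_lit 0xc0216)))
 (.l (nat_lit 0x90f5)))
 (.n (.n (.l (nat_lit 0x63016))
 (.l (nat_lit 0xa9237)))
 (.l (nat_lit 0x125185))))
 (.n (.n (.n (.l (nat_lit 0x1281c5))
 (.l (nat_lit 0xc9295)))
 (.l (nat_lit 0x8a175)))
 (.n (.n (.l (nat_lit 0x29006))
 (.l (nat_lit 0xe889c0d400600c)))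
 (.l (nat_lit 0x620b4)))))

def a256_136 : TA := .n a512_136 a512_392

def a128_8 : TA := .n a256_8 a256_136

def a512_72 : TA :=
 .n (.n (.n (.n (.n (.l (nat_lit 0x140030))
 (.l (nat_lit 0x44194)))
 (.n (.l (nat_lit 0x60055))
 (.l (nat_lit 0xd088872900600c))))
 (.n (.n (.l (nat_lit 0x169236))
 (.l (nat_lit 0xa80d4)))
 (.l (nat_lit 0xe3094))))
 (.n (.n (.n (.l (nat_lit 0x101234))
 (.l (nat_lit 0x432f6)))
 (.l (nat_lit 0xc3017)))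
 (.n (.n (.l (nat_lit 0xa4025))
 (.l (nat_lit 0x101013)))
 (.l (nat_lit 0x61266)))))
 (.n (.n (.n (.n (.l (nat_lit 0x402d0))
 (.l (nat_lit 0x201a4)))
 (.l (nat_lit 0xab006)))
 (.n (.n (.l (nat_lit 0x292a5))
 (.l (nat_lit 0xa157)))
 (.l (nat_lit 0x2a0a6))))
 (.n (.n (.n (.l (nat_lit 0x63004))
 (.l (nat_lit 0x161294)))
 (.l (nat_lit 0x42095)))
 (.n (.n (.l (nat_lit 0x62035))
 (.l (nat_lit 0x2c00009)))
 (.l (nat_lit 0x430b6)))))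

def a512_328 : TA :=
 .n (.n (.n (.n (.n (.l (nat_lit 0x180151))
 (.l (nat_lit 0xa6274)))
 (.l (nat_lit 0xc7056)))
 (.n (.n (.l (nat_lit 0x124064))
 (.l (nat_lit 0x820d7)))
 (.l (nat_lit 0x9094))))
 (.n (.n (.n (.l (nat_lit 0x85155))
 (.l (nat_lit 0x68134)))
 (.l (nat_lit 0x1422b6)))
 (.n (.n (.l (nat_lit 0xa71c4))
 (.l (nat_lit 0x70e3)))
 (.l (nat_lit 0xc60a4)))))
 (.n (.n (.n (.n (.l (nat_lit 0x104075))
 (.l (nat_lit 0xa22f4)))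
 (.l (nat_lit 0x68086)))
 (.n (.n (.l (nat_lit 0x86054))
 (.l (nat_lit 0x120237)))
 (.l (nat_lit 0x86186))))
 (.n (.n (.n (.l (nat_lit 0x201c5))
 (.l (nat_lit 0xe8296)))
 (.l (nat_lit 0xca105)))
 (.n (.n (.l (nat_lit 0x8a004))
 (.l (nat_lit 0x14900a)))
 (.l (nat_lit 0xe2047)))))

def a256_72 : TA := .n a512_72 a512_328

def a512_200 : TA :=
 .n (.n (.n (.n (.n (.l (nat_lit 0x100091))
 (.l (nat_lit 0x145124)))
 (.n (.l (nat_lit 0xa234))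
 (.l (nat_lit 0xd08a970520000c))))
 (.n (.n (.l (nat_lit 0x62235))
 (.l (nat_lit 0x8077)))
 (.l (nat_lit 0x1612c5))))
 (.n (.n (.n (.l (nat_lit 0x290e6))
 (.l (nat_lit 0x86284)))
 (.l (nat_lit 0x144084)))
 (.n (.n (.l (nat_lit 0x100025))
 (.l (nat_lit 0x100053)))
 (.l (nat_lit 0x145037)))))
 (.n (.n (.n (.n (.l (nat_lit 0x8a076))
 (.l (nat_lit 0x161284)))
 (.l (nat_lit 0x6b1c4)))
 (.n (.n (.l (nat_lit 0x162015))
 (.l (nat_lit 0xaa1c7)))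
 (.l (nat_lit 0x85116))))
 (.n (.n (.n (.l (nat_lit 0xe71c6))
 (.l (nat_lit 0x165225)))
 (.l (nat_lit 0x10b095)))
 (.n (.n (.l (nat_lit 0x128054))
 (.l (nat_lit 0x1d40009)))
 (.l (nat_lit 0x4126)))))

def a512_456 : TA :=
 .n (.n (.n (.n (.n (.l (nat_lit 0x100211))
 (.l (nat_lit 0x16b204)))
 (.l (nat_lit 0x162065)))
 (.n (.n (.l (nat_lit 0xc5154))
 (.l (nat_lit 0x1080f7)))
 (.l (nat_lit 0x6a174))))
 (.n (.n (.n (.l (nat_lit 0x42054))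
 (.l (nat_lit 0x20294)))
 (.l (nat_lit 0x109084)))
 (.n (.n (.l (nat_lit 0x166036))
 (.l (nat_lit 0x71c3)))
 (.l (nat_lit 0x4b1f4)))))
 (.n (.n (.n (.n (.l (nat_lit 0x120064))
 (.l (nat_lit 0x141285)))
 (.l (nat_lit 0xc90f6)))
 (.n (.n (.l (nat_lit 0x16a015))
 (.l (nat_lit 0x8297)))
 (.l (nat_lit 0xe11f6))))
 (.n (.n (.n (.l (nat_lit 0xa3014))
 (.l (nat_lit 0x108305)))
 (.l (nat_lit 0xa2094)))
 (.n (.n (.l (nat_lit 0x124046))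
 (.l (nat_lit 0x16068c0e940600c)))
 (.l (nat_lit 0x30b4)))))

def a256_200 : TA := .n a512_200 a512_456

def a128_72 : TA := .n a256_72 a256_200

def a64_8 : TA := .n a128_8 a128_72

def a512_40 : TA :=
 .n (.n (.n (.n (.n (.l (nat_lit 0xa80012))
 (.l (nat_lit 0x162276)))
 (.n (.l (nat_lit 0x169014))
 (.l (nat_lit 0x102a588cd42600c))))
 (.n (.n (.l (nat_lit 0x87236))
 (.l (nat_lit 0x81b4)))
 (.l (nat_lit 0x211e5))))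
 (.n (.n (.n (.l (nat_lit 0xaa0e6))
 (.l (nat_lit 0xe4134)))
 (.l (nat_lit 0x149166)))
 (.n (.n (.l (nat_lit 0x2025))
 (.l (nat_lit 0x32c7)))
 (.l (nat_lit 0x6b1f6)))))
 (.n (.n (.n (.n (.l (nat_lit 0x4402a2))
 (.l (nat_lit 0x1630c5)))
 (.l (nat_lit 0xb2a4)))
 (.n (.n (.l (nat_lit 0xc62a6))
 (.l (nat_lit 0x107157)))
 (.l (nat_lit 0xe20a5))))
 (.n (.n (.n (.l (nat_lit 0x109156))
 (.l (nat_lit 0xa4145)))
 (.l (nat_lit 0x6a017)))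
 (.n (.n (.l (nat_lit 0x168006))
 (.l (nat_lit 0x482a3)))
 (.l (nat_lit 0xa70b5)))))

def a512_296 : TA :=
 .n (.n (.n (.n (.n (.l (nat_lit 0x40120))
 (.l (nat_lit 0x62e4)))
 (.l (nat_lit 0x64055)))
 (.n (.n (.l (nat_lit 0xa4014))
 (.l (nat_lit 0x260a7)))
 (.l (nat_lit 0x8a2c5))))
 (.n (.n (.n (.l (nat_lit 0x2006))
 (.l (nat_lit 0x127284)))
 (.l (nat_lit 0xe82b6)))
 (.n (.n (.l (nat_lit 0x2b025))
 (.l (nat_lit 0xa0a3)))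
 (.l (nat_lit 0x4b2d6)))))
 (.n (.n (.n (.n (.l (nat_lit 0xa0004))
 (.l (nat_lit 0x61a5)))
 (.l (nat_lit 0x120017)))
 (.n (.n (.l (nat_lit 0x61c4))
 (.l (nat_lit 0x81227)))
 (.l (nat_lit 0xe12d4))))
 (.n (.n (.n (.l (nat_lit 0x103044))
 (.l (nat_lit 0x160295)))
 (.l (nat_lit 0xe3106)))
 (.n (.n (.l (nat_lit 0x26046))
 (.l (nat_lit 0x700b)))
 (.l (nat_lit 0x47196)))))

def a256_40 : TA := .n a512_40 a512_296

def a512_168 : TA :=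
 .n (.n (.n (.n (.n (.l (nat_lit 0x180071))
 (.l (nat_lit 0x62e5)))
 (.n (.l (nat_lit 0x128056))
 (.l (nat_lit 0xac08876102000c))))
 (.n (.n (.l (nat_lit 0x164006))
 (.l (nat_lit 0x103077)))
 (.l (nat_lit 0x129255))))
 (.n (.n (.n (.l (nat_lit 0x1060e5))
 (.l (nat_lit 0xe51a4)))
 (.l (nat_lit 0x160245)))
 (.n (.n (.l (nat_lit 0x87044))
 (.l (nat_lit 0xc0043)))
 (.l (nat_lit 0x4b266)))))
 (.n (.n (.n (.n (.l (nat_lit 0x27075))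
 (.l (nat_lit 0x164135)))
 (.l (nat_lit 0x168065)))
 (.n (.n (.l (nat_lit 0x86004))
 (.l (nat_lit 0x81c7)))
 (.l (nat_lit 0x1201f4))))
 (.n (.n (.n (.l (nat_lit 0x451c5))
 (.l (nat_lit 0x62304)))
 (.l (nat_lit 0x64095)))
 (.n (.n (.l (nat_lit 0xa8154))
 (.l (nat_lit 0x2d00009)))
 (.l (nat_lit 0x47125)))))

def a512_424 : TA :=
 .n (.n (.n (.n (.n (.l (nat_lit 0x401f0))
 (.l (nat_lit 0x4b2e4)))
 (.l (nat_lit 0xc0065)))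
 (.n (.n (.l (nat_lit 0x4a2a6))
 (.l (nat_lit 0xaa0e7)))
 (.l (nat_lit 0x14a1e4))))
 (.n (.n (.n (.l (nat_lit 0x142234))
 (.l (nat_lit 0x240d5)))
 (.l (nat_lit 0xe8084)))
 (.n (.n (.l (nat_lit 0xc4035))
 (.l (nat_lit 0xb193)))
 (.l (nat_lit 0x16a264)))))
 (.n (.n (.n (.n (.l (nat_lit 0xa0014))
 (.l (nat_lit 0x630c4)))
 (.l (nat_lit 0x121017)))
 (.n (.n (.l (nat_lit 0xc8016))
 (.l (nat_lit 0x10b257)))
 (.l (nat_lit 0x62264))))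
 (.n (.n (.n (.l (nat_lit 0x2b1c6))
 (.l (nat_lit 0xc3306)))
 (.l (nat_lit 0x162027)))
 (.n (.n (.l (nat_lit 0x82045))
 (.l (nat_lit 0x687488d400600c)))
 (.l (nat_lit 0x21206)))))

def a256_168 : TA := .n a512_168 a512_424

def a128_40 : TA := .n a256_40 a256_168

def a512_104 : TA :=
 .n (.n (.n (.n (.n (.l (nat_lit 0x640042))
 (.l (nat_lit 0x126276)))
 (.n (.l (nat_lit 0x103056))
 (.l (nat_lit 0xd414a8e902000c))))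
 (.n (.n (.l (nat_lit 0x44074))
 (.l (nat_lit 0x128304)))
 (.l (nat_lit 0x69256))))
 (.n (.n (.n (.l (nat_lit 0x1054))
 (.l (nat_lit 0x105214)))
 (.l (nat_lit 0xc3084)))
 (.n (.n (.l (nat_lit 0x10a025))
 (.l (nat_lit 0xca013)))
 (.l (nat_lit 0x16b265)))))
 (.n (.n (.n (.n (.l (nat_lit 0x40006))
 (.l (nat_lit 0xe4136)))
 (.l (nat_lit 0x22066)))
 (.n (.n (.l (nat_lit 0x1250e4))
 (.l (nat_lit 0x87197)))
 (.l (nat_lit 0xe0037))))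
 (.n (.n (.n (.l (nat_lit 0xe2024))
 (.l (nat_lit 0x481b5)))
 (.l (nat_lit 0x14a096)))
 (.n (.n (.l (nat_lit 0x105036))
 (.l (nat_lit 0x1c40009)))
 (.l (nat_lit 0xe60b6)))))

def a512_360 : TA :=
 .n (.n (.n (.n (.n (.l (nat_lit 0x40180))
 (.l (nat_lit 0x107194)))
 (.l (nat_lit 0x16a074)))
 (.n (.n (.l (nat_lit 0x222a6))
 (.l (nat_lit 0x1030e7)))
 (.l (nat_lit 0x129027))))
 (.n (.n (.n (.l (nat_lit 0x127156))
 (.l (nat_lit 0x240d6)))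
 (.l (nat_lit 0xa92b5)))
 (.n (.n (.l (nat_lit 0x127064))
 (.l (nat_lit 0x145103)))
 (.l (nat_lit 0xe6264)))))
 (.n (.n (.n (.n (.l (nat_lit 0xe8076))
 (.l (nat_lit 0x47216)))
 (.l (nat_lit 0x120244)))
 (.n (.n (.l (nat_lit 0x120015))
 (.l (nat_lit 0x26237)))
 (.l (nat_lit 0x422d4))))
 (.n (.n (.n (.l (nat_lit 0x861c5))
 (.l (nat_lit 0x141296)))
 (.l (nat_lit 0x42027)))
 (.n (.n (.l (nat_lit 0x109234))
 (.l (nat_lit 0x1286888d100600c)))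
 (.l (nat_lit 0xe5195)))))

def a256_104 : TA := .n a512_104 a512_360

def a512_232 : TA :=
 .n (.n (.n (.n (.n (.l (nat_lit 0x1000c1))
 (.l (nat_lit 0xc62e6)))
 (.n (.l (nat_lit 0xaa005))
 (.l (nat_lit 0x15085ab0320600c))))
 (.n (.n (.l (nat_lit 0x68235))
 (.l (nat_lit 0x8b077)))
 (.l (nat_lit 0xca2c6))))
 (.n (.n (.n (.l (nat_lit 0xa2004))
 (.l (nat_lit 0x1070c4)))
 (.l (nat_lit 0xe2245)))
 (.n (.n (.l (nat_lit 0x43026))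
 (.l (nat_lit 0x44063)))
 (.l (nat_lit 0x14b2d5)))))
 (.n (.n (.n (.n (.l (nat_lit 0x100154))
 (.l (nat_lit 0xe51a6)))
 (.l (nat_lit 0xeb044)))
 (.n (.n (.l (nat_lit 0xa5016))
 (.l (nat_lit 0x1211f7)))
 (.l (nat_lit 0xc12d4))))
 (.n (.n (.n (.l (nat_lit 0x2a1c5))
 (.l (nat_lit 0xc3144)))
 (.l (nat_lit 0x104105)))
 (.n (.n (.l (nat_lit 0x1046))
 (.l (nat_lit 0xc100b)))
 (.l (nat_lit 0x166125)))))

def a512_488 : TA :=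
 .n (.n (.n (.n (.n (.l (nat_lit 0x240))
 (.l (nat_lit 0xa30c6)))
 (.l (nat_lit 0x87065)))
 (.n (.n (.l (nat_lit 0x145044))
 (.l (nat_lit 0x5127)))
 (.l (nat_lit 0xcb094))))
 (.n (.n (.n (.l (nat_lit 0xe0155))
 (.l (nat_lit 0xe5146)))
 (.l (nat_lit 0x29017)))
 (.n (.n (.l (nat_lit 0x48074))
 (.l (nat_lit 0x80233)))
 (.l (nat_lit 0xeb114)))))
 (.n (.n (.n (.n (.l (nat_lit 0x240e6))
 (.l (nat_lit 0x840c4)))
 (.l (nat_lit 0x65166)))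
 (.n (.n (.l (nat_lit 0x66234))
 (.l (nat_lit 0xa32a7)))
 (.l (nat_lit 0x16b1f5))))
 (.n (.n (.n (.l (nat_lit 0x123064))
 (.l (nat_lit 0x70d4)))
 (.l (nat_lit 0x1201e6)))
 (.n (.n (.l (nat_lit 0x67045))
 (.l (nat_lit 0x2568bb0140600c)))
 (.l (nat_lit 0x101205)))))

def a256_232 : TA := .n a512_232 a512_488

def a128_104 : TA := .n a256_104 a256_232

def a64_40 : TA := .n a128_40 a128_104

def a32_8 : TA := .n a64_8 a64_40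

def a512_24 : TA :=
 .n (.n (.n (.n (.n (.l (nat_lit 0xc0010))
 (.l (nat_lit 0x141275)))
 (.n (.l (nat_lit 0x69234))
 (.l (nat_lit 0x1026688cd42000c))))
 (.n (.n (.l (nat_lit 0x122236))
 (.l (nat_lit 0x88067)))
 (.l (nat_lit 0x801e6))))
 (.n (.n (.n (.l (nat_lit 0x890e5))
 (.l (nat_lit 0x146286)))
 (.l (nat_lit 0x5166)))
 (.n (.n (.l (nat_lit 0x60026))
 (.l (nat_lit 0x8a2a7)))
 (.l (nat_lit 0x4a1f6)))))
 (.n (.n (.n (.n (.l (nat_lit 0xac0292))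
 (.l (nat_lit 0x220c6)))
 (.l (nat_lit 0x8b154)))
 (.n (.n (.l (nat_lit 0x1622a5))
 (.l (nat_lit 0x6157)))
 (.l (nat_lit 0x16b104))))
 (.n (.n (.n (.l (nat_lit 0x127155))
 (.l (nat_lit 0xc3146)))
 (.l (nat_lit 0xa0f4)))
 (.n (.n (.l (nat_lit 0x48064))
 (.l (nat_lit 0x832a3)))
 (.l (nat_lit 0x1060b5)))))

def a512_280 : TA :=
 .n (.n (.n (.n (.n (.l (nat_lit 0x140101))
 (.l (nat_lit 0x86194)))
 (.l (nat_lit 0xc3055)))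
 (.n (.n (.l (nat_lit 0x124074))
 (.l (nat_lit 0x840a7)))
 (.l (nat_lit 0x632c5))))
 (.n (.n (.n (.l (nat_lit 0xa1054))
 (.l (nat_lit 0x271a4)))
 (.l (nat_lit 0x1022b5)))
 (.n (.n (.l (nat_lit 0x8a026))
 (.l (nat_lit 0x2093)))
 (.l (nat_lit 0x622d5)))))
 (.n (.n (.n (.n (.l (nat_lit 0x100064))
 (.l (nat_lit 0x641a6)))
 (.l (nat_lit 0xc9086)))
 (.n (.n (.l (nat_lit 0x86074))
 (.l (nat_lit 0x12b207)))
 (.l (nat_lit 0x16b115))))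
 (.n (.n (.n (.l (nat_lit 0x3024))
 (.l (nat_lit 0x163144)))
 (.l (nat_lit 0x1411e4)))
 (.n (.n (.l (nat_lit 0x85045))
 (.l (nat_lit 0x10500a)))
 (.l (nat_lit 0xa5196)))))

def a256_24 : TA := .n a512_24 a512_280

def a512_152 : TA :=
 .n (.n (.n (.n (.n (.l (nat_lit 0x840062))
 (.l (nat_lit 0x822e5)))
 (.n (.l (nat_lit 0x27056))
 (.l (nat_lit 0xd521a86c00600c))))
 (.n (.n (.l (nat_lit 0x44064))
 (.l (nat_lit 0x2077)))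
 (.l (nat_lit 0x161255))))
 (.n (.n (.n (.l (nat_lit 0x50e5))
 (.l (nat_lit 0x1472f6)))
 (.l (nat_lit 0x632b4)))
 (.n (.n (.l (nat_lit 0x1071c4))
 (.l (nat_lit 0x143033)))
 (.l (nat_lit 0x22265)))))
 (.n (.n (.n (.n (.l (nat_lit 0x46075))
 (.l (nat_lit 0x63136)))
 (.l (nat_lit 0x67066)))
 (.n (.n (.l (nat_lit 0x125064))
 (.l (nat_lit 0xa61c7)))
 (.l (nat_lit 0x2b0a5))))
 (.n (.n (.n (.l (nat_lit 0xe01c6))
 (.l (nat_lit 0x1651b5)))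
 (.l (nat_lit 0xc3096)))
 (.n (.n (.l (nat_lit 0x129004))
 (.l (nat_lit 0x1cc0009)))
 (.l (nat_lit 0x25126)))))

def a512_408 : TA :=
 .n (.n (.n (.n (.n (.l (nat_lit 0x8c01c2))
 (.l (nat_lit 0x8b047)))
 (.l (nat_lit 0x16a034)))
 (.n (.n (.l (nat_lit 0x682a6))
 (.l (nat_lit 0x1280e7)))
 (.l (nat_lit 0x4a104))))
 (.n (.n (.n (.l (nat_lit 0x43004))
 (.l (nat_lit 0x20067)))
 (.l (nat_lit 0xc8244)))
 (.n (.n (.l (nat_lit 0x162036))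
 (.l (nat_lit 0xa153)))
 (.l (nat_lit 0x2a0a4)))))
 (.n (.n (.n (.n (.l (nat_lit 0x120154))
 (.l (nat_lit 0x85216)))
 (.l (nat_lit 0x1011d4)))
 (.n (.n (.l (nat_lit 0x164015))
 (.l (nat_lit 0x2b237)))
 (.l (nat_lit 0x8b185))))
 (.n (.n (.n (.l (nat_lit 0x8a1c6))
 (.l (nat_lit 0xa41b4)))
 (.l (nat_lit 0x42094)))
 (.n (.n (.l (nat_lit 0x120046))
 (.l (nat_lit 0xea9582d100600c)))
 (.l (nat_lit 0x3047)))))

def a256_152 : TA := .n a512_152 a512_408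

def a128_24 : TA := .n a256_24 a256_152

def a512_88 : TA :=
 .n (.n (.n (.n (.n (.l (nat_lit 0xac0032))
 (.l (nat_lit 0x21275)))
 (.n (.l (nat_lit 0x2056))
 (.l (nat_lit 0xd41488e900600c))))
 (.n (.n (.l (nat_lit 0xcb235))
 (.l (nat_lit 0x28224)))
 (.l (nat_lit 0x44027))))
 (.n (.n (.n (.l (nat_lit 0x81024))
 (.l (nat_lit 0x272f5)))
 (.l (nat_lit 0x1091d5)))
 (.n (.n (.l (nat_lit 0x9025))
 (.l (nat_lit 0x144013)))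
 (.l (nat_lit 0x2a265)))))
 (.n (.n (.n (.n (.l (nat_lit 0xc02f0))
 (.l (nat_lit 0x120284)))
 (.l (nat_lit 0x1066)))
 (.n (.n (.l (nat_lit 0x16a2a5))
 (.l (nat_lit 0x12b157)))
 (.l (nat_lit 0x16b0a6))))
 (.n (.n (.n (.l (nat_lit 0x162234))
 (.l (nat_lit 0x241b5)))
 (.l (nat_lit 0x23096)))
 (.n (.n (.l (nat_lit 0x4036))
 (.l (nat_lit 0xc00009)))
 (.l (nat_lit 0x1440b5)))))

def a512_344 : TA :=
 .n (.n (.n (.n (.n (.l (nat_lit 0x40160))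
 (.l (nat_lit 0x70b4)))
 (.l (nat_lit 0x68055)))
 (.n (.n (.l (nat_lit 0x812a5))
 (.l (nat_lit 0x270d7)))
 (.l (nat_lit 0x9254))))
 (.n (.n (.n (.l (nat_lit 0x26156))
 (.l (nat_lit 0x820d5)))
 (.l (nat_lit 0x482b5)))
 (.n (.n (.l (nat_lit 0x27044))
 (.l (nat_lit 0x10b0e3)))
 (.l (nat_lit 0x461f4)))))
 (.n (.n (.n (.n (.l (nat_lit 0xc7076))
 (.l (nat_lit 0x20216)))
 (.l (nat_lit 0x2a085)))
 (.n (.n (.l (nat_lit 0x26004))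
 (.l (nat_lit 0x82237)))
 (.l (nat_lit 0xeb186))))
 (.n (.n (.n (.l (nat_lit 0x1211c5))
 (.l (nat_lit 0x64067)))
 (.l (nat_lit 0x611e4)))
 (.n (.n (.l (nat_lit 0x9154))
 (.l (nat_lit 0x4b00b)))
 (.l (nat_lit 0xc4196)))))

def a256_88 : TA := .n a512_88 a512_344

def a512_216 : TA :=
 .n (.n (.n (.n (.n (.l (nat_lit 0x800b0))
 (.l (nat_lit 0x1212e6)))
 (.n (.l (nat_lit 0x10a014))
 (.l (nat_lit 0x148899b0340000c))))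
 (.n (.n (.l (nat_lit 0x87235))
 (.l (nat_lit 0x129077)))
 (.l (nat_lit 0xe32c6))))
 (.n (.n (.n (.l (nat_lit 0x12a0e5))
 (.l (nat_lit 0x260c4)))
 (.l (nat_lit 0xc0246)))
 (.n (.n (.l (nat_lit 0xa1025))
 (.l (nat_lit 0xc6053)))
 (.l (nat_lit 0x1422d5)))))
 (.n (.n (.n (.n (.l (nat_lit 0x2b076))
 (.l (nat_lit 0x1441a5)))
 (.l (nat_lit 0x16b2a4)))
 (.n (.n (.l (nat_lit 0x104016))
 (.l (nat_lit 0x81d7)))
 (.l (nat_lit 0xab116))))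
 (.n (.n (.n (.l (nat_lit 0x891c5))
 (.l (nat_lit 0x128226)))
 (.l (nat_lit 0x160254)))
 (.n (.n (.l (nat_lit 0x89006))
 (.l (nat_lit 0xa)))
 (.l (nat_lit 0x25125)))))

def a512_472 : TA :=
 .n (.n (.n (.n (.n (.l (nat_lit 0x180231))
 (.l (nat_lit 0xc0057)))
 (.l (nat_lit 0x104066)))
 (.n (.n (.l (nat_lit 0x45024))
 (.l (nat_lit 0x84117)))
 (.l (nat_lit 0x16a254))))
 (.n (.n (.n (.l (nat_lit 0x162005))
 (.l (nat_lit 0x163145)))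
 (.l (nat_lit 0x891d4)))
 (.n (.n (.l (nat_lit 0xcb035))
 (.l (nat_lit 0x4a1f3)))
 (.l (nat_lit 0x14b2d4)))))
 (.n (.n (.n (.n (.l (nat_lit 0x830e5))
 (.l (nat_lit 0xc6285)))
 (.l (nat_lit 0xe1244)))
 (.n (.n (.l (nat_lit 0xe60e4))
 (.l (nat_lit 0x1212a7)))
 (.l (nat_lit 0x2a1f5))))
 (.n (.n (.n (.l (nat_lit 0x23044))
 (.l (nat_lit 0xa51b4)))
 (.l (nat_lit 0x3027)))
 (.n (.n (.l (nat_lit 0xc6046))
 (.l (nat_lit 0x2260cac142600c)))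
 (.l (nat_lit 0x206)))))

def a256_216 : TA := .n a512_216 a512_472

def a128_88 : TA := .n a256_88 a256_216

def a64_24 : TA := .n a128_24 a128_88

def a512_56 : TA :=
 .n (.n (.n (.n (.n (.l (nat_lit 0x800022))
 (.l (nat_lit 0xc7276)))
 (.n (.l (nat_lit 0xca005))
 (.l (nat_lit 0x162058ad020600c))))
 (.n (.n (.l (nat_lit 0x28236))
 (.l (nat_lit 0x108294)))
 (.l (nat_lit 0x14a1e6))))
 (.n (.n (.n (.l (nat_lit 0x2004))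
 (.l (nat_lit 0x412f5)))
 (.l (nat_lit 0x162084)))
 (.n (.n (.l (nat_lit 0x103025))
 (.l (nat_lit 0x12a2c7)))
 (.l (nat_lit 0xa32d4)))))
 (.n (.n (.n (.n (.l (nat_lit 0xa002b2))
 (.l (nat_lit 0x70c6)))
 (.l (nat_lit 0x10b034)))
 (.n (.n (.l (nat_lit 0x882a5))
 (.l (nat_lit 0xa8157)))
 (.l (nat_lit 0x440a6))))
 (.n (.n (.n (.l (nat_lit 0xaa156))
 (.l (nat_lit 0x108146)))
 (.l (nat_lit 0x6a1d4)))
 (.n (.n (.l (nat_lit 0xc1035))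
 (.l (nat_lit 0x12d3)))
 (.l (nat_lit 0xe0047)))))

def a512_312 : TA :=
 .n (.n (.n (.n (.n (.l (nat_lit 0x100140))
 (.l (nat_lit 0x126124)))
 (.l (nat_lit 0x165056)))
 (.n (.n (.l (nat_lit 0x24044))
 (.l (nat_lit 0x1020b7)))
 (.l (nat_lit 0xa5104))))
 (.n (.n (.n (.l (nat_lit 0x120156))
 (.l (nat_lit 0x880c4)))
 (.l (nat_lit 0x45164)))
 (.n (.n (.l (nat_lit 0x127074))
 (.l (nat_lit 0x430e3)))
 (.l (nat_lit 0x165184)))))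
 (.n (.n (.n (.n (.l (nat_lit 0x3076))
 (.l (nat_lit 0x1271a5)))
 (.l (nat_lit 0xa3085)))
 (.n (.n (.l (nat_lit 0x1062a4))
 (.l (nat_lit 0x27227)))
 (.l (nat_lit 0xa4185))))
 (.n (.n (.n (.l (nat_lit 0xa3005))
 (.l (nat_lit 0xe2296)))
 (.l (nat_lit 0xa5105)))
 (.n (.n (.l (nat_lit 0x127046))
 (.l (nat_lit 0x8800b)))
 (.l (nat_lit 0x1020b4)))))

def a256_56 : TA := .n a512_56 a512_312

def a512_184 : TA :=
 .n (.n (.n (.n (.n (.l (nat_lit 0x40080))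
 (.l (nat_lit 0x1672e5)))
 (.n (.l (nat_lit 0x8a0e4))
 (.l (nat_lit 0x1086a98c540000c))))
 (.n (.n (.l (nat_lit 0xc1236))
 (.l (nat_lit 0xa6077)))
 (.l (nat_lit 0x164094))))
 (.n (.n (.n (.l (nat_lit 0x880e6))
 (.l (nat_lit 0xc60c4)))
 (.l (nat_lit 0x122246)))
 (.n (.n (.l (nat_lit 0x27005))
 (.l (nat_lit 0x105043)))
 (.l (nat_lit 0x1640a4)))))
 (.n (.n (.n (.n (.l (nat_lit 0x128075))
 (.l (nat_lit 0x147136)))
 (.l (nat_lit 0xeb074)))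
 (.n (.n (.l (nat_lit 0x61015))
 (.l (nat_lit 0x1091c7)))
 (.l (nat_lit 0xe3115))))
 (.n (.n (.n (.l (nat_lit 0x1461c6))
 (.l (nat_lit 0x140225)))
 (.l (nat_lit 0xa095)))
 (.n (.n (.l (nat_lit 0x282a4))
 (.l (nat_lit 0xd00009)))
 (.l (nat_lit 0x1274)))))

def a512_440 : TA :=
 .n (.n (.n (.n (.n (.l (nat_lit 0x140201))
 (.l (nat_lit 0x6b124)))
 (.l (nat_lit 0x61065)))
 (.n (.n (.l (nat_lit 0x14b2a5))
 (.l (nat_lit 0x30f7)))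
 (.l (nat_lit 0xea027))))
 (.n (.n (.n (.l (nat_lit 0xc2024))
 (.l (nat_lit 0x1680d6)))
 (.l (nat_lit 0x282b4)))
 (.n (.n (.l (nat_lit 0x65035))
 (.l (nat_lit 0x471a3)))
 (.l (nat_lit 0xcb0a4)))))
 (.n (.n (.n (.n (.l (nat_lit 0x20044))
 (.l (nat_lit 0x44057)))
 (.l (nat_lit 0xe50f5)))
 (.n (.n (.l (nat_lit 0x69015))
 (.l (nat_lit 0xab277)))
 (.l (nat_lit 0x143037))))
 (.n (.n (.n (.l (nat_lit 0x123074))
 (.l (nat_lit 0x141306)))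
 (.l (nat_lit 0x129176)))
 (.n (.n (.l (nat_lit 0x23045))
 (.l (nat_lit 0xea81d31100600c)))
 (.l (nat_lit 0x166206)))))

def a256_184 : TA := .n a512_184 a512_440

def a128_56 : TA := .n a256_56 a256_184

def a512_120 : TA :=
 .n (.n (.n (.n (.n (.l (nat_lit 0x140051))
 (.l (nat_lit 0xeb276)))
 (.n (.l (nat_lit 0x124056))
 (.l (nat_lit 0x1103588e902000c))))
 (.n (.n (.l (nat_lit 0x144154))
 (.l (nat_lit 0x89144)))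
 (.l (nat_lit 0x44094))))
 (.n (.n (.n (.l (nat_lit 0x121005))
 (.l (nat_lit 0xe12f6)))
 (.l (nat_lit 0x163017)))
 (.n (.n (.l (nat_lit 0xab026))
 (.l (nat_lit 0x85023)))
 (.l (nat_lit 0xc4184)))))
 (.n (.n (.n (.n (.l (nat_lit 0x142075))
 (.l (nat_lit 0xe7135)))
 (.l (nat_lit 0x163065)))
 (.n (.n (.l (nat_lit 0xa5014))
 (.l (nat_lit 0x1c7)))
 (.l (nat_lit 0xa30a5))))
 (.n (.n (.n (.l (nat_lit 0x62054))
 (.l (nat_lit 0x20d4)))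
 (.l (nat_lit 0x16b096)))
 (.n (.n (.l (nat_lit 0xa6035))
 (.l (nat_lit 0x2c80009)))
 (.l (nat_lit 0xab0b5)))))

def a512_376 : TA :=
 .n (.n (.n (.n (.n (.l (nat_lit 0x100191))
 (.l (nat_lit 0x872e4)))
 (.l (nat_lit 0xea1c4)))
 (.n (.n (.l (nat_lit 0x1232a6))
 (.l (nat_lit 0xa50e7)))
 (.l (nat_lit 0x169174))))
 (.n (.n (.n (.l (nat_lit 0x109155))
 (.l (nat_lit 0x480d5)))
 (.l (nat_lit 0x8017)))
 (.n (.n (.l (nat_lit 0x80036))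
 (.l (nat_lit 0xb123)))
 (.l (nat_lit 0x4a114)))))
 (.n (.n (.n (.n (.l (nat_lit 0x8a075))
 (.l (nat_lit 0x1430c4)))
 (.l (nat_lit 0xa40f6)))
 (.n (.n (.l (nat_lit 0xc2016))
 (.l (nat_lit 0x108237)))
 (.l (nat_lit 0x4186))))
 (.n (.n (.n (.l (nat_lit 0x271c5))
 (.l (nat_lit 0x147295)))
 (.l (nat_lit 0x25176)))
 (.n (.n (.l (nat_lit 0x89024))
 (.l (nat_lit 0x1287488d100600c)))
 (.l (nat_lit 0x47195)))))

def a256_120 : TA := .n a512_120 a512_376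

def a512_248 : TA :=
 .n (.n (.n (.n (.n (.l (nat_lit 0x1400e0))
 (.l (nat_lit 0xcb2e6)))
 (.n (.l (nat_lit 0x20056))
 (.l (nat_lit 0xe0a8c74142000c))))
 (.n (.n (.l (nat_lit 0x169235))
 (.l (nat_lit 0x28087)))
 (.l (nat_lit 0x85174))))
 (.n (.n (.n (.l (nat_lit 0x212a4))
 (.l (nat_lit 0x87214)))
 (.l (nat_lit 0x129245)))
 (.n (.n (.l (nat_lit 0x24026))
 (.l (nat_lit 0x149063)))
 (.l (nat_lit 0xc5184)))))
 (.n (.n (.n (.n (.l (nat_lit 0x80014))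
 (.l (nat_lit 0xa81a5)))
 (.l (nat_lit 0x62085)))
 (.n (.n (.l (nat_lit 0x9015))
 (.l (nat_lit 0xa1207)))
 (.l (nat_lit 0x64115))))
 (.n (.n (.n (.l (nat_lit 0x12b1c5))
 (.l (nat_lit 0xe0225)))
 (.l (nat_lit 0x125106)))
 (.n (.n (.l (nat_lit 0x102046))
 (.l (nat_lit 0x14200b)))
 (.l (nat_lit 0x161204)))))

def a512_504 : TA :=
 .n (.n (.n (.n (.n (.l (nat_lit 0x80260))
 (.l (nat_lit 0x870c5)))
 (.l (nat_lit 0x28066)))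
 (.n (.n (.l (nat_lit 0xe5005))
 (.l (nat_lit 0x12b127)))
 (.l (nat_lit 0x8b1e4))))
 (.n (.n (.n (.l (nat_lit 0x45156))
 (.l (nat_lit 0x108145)))
 (.l (nat_lit 0x1290f4)))
 (.n (.n (.l (nat_lit 0x148154))
 (.l (nat_lit 0x82243)))
 (.l (nat_lit 0x6b264)))))
 (.n (.n (.n (.n (.l (nat_lit 0x1250e6))
 (.l (nat_lit 0xa4057)))
 (.l (nat_lit 0x9165)))
 (.n (.n (.l (nat_lit 0x166034))
 (.l (nat_lit 0x72a7)))
 (.l (nat_lit 0x123037))))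
 (.n (.n (.n (.l (nat_lit 0x80235))
 (.l (nat_lit 0x147294)))
 (.l (nat_lit 0x10a1e5)))
 (.n (.n (.l (nat_lit 0x16b046))
 (.l (nat_lit 0xc1aa070d42600c)))
 (.l (nat_lit 0xe6205)))))

def a256_248 : TA := .n a512_248 a512_504

def a128_120 : TA := .n a256_120 a256_248

def a64_56 : TA := .n a128_56 a128_120

def a32_24 : TA := .n a64_24 a64_56

def a16_8 : TA := .n a32_8 a32_24

def a8_0 : TA := .n a16_0 a16_8

def a512_4 : TA :=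
 .n (.n (.n (.n (.n (.l (nat_lit 0x100000))
 (.l (nat_lit 0xcb206)))
 (.n (.l (nat_lit 0x169074))
 (.l (nat_lit 0x1016a82e542600c))))
 (.n (.n (.l (nat_lit 0x81235))
 (.l (nat_lit 0x27144)))
 (.l (nat_lit 0x14b1e5))))
 (.n (.n (.n (.l (nat_lit 0x270e5))
 (.l (nat_lit 0x81286)))
 (.l (nat_lit 0x12a165)))
 (.n (.n (.l (nat_lit 0x166054))
 (.l (nat_lit 0x282a7)))
 (.l (nat_lit 0x1601f5)))))
 (.n (.n (.n (.n (.l (nat_lit 0x280))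
 (.l (nat_lit 0xc01a4)))
 (.l (nat_lit 0x29066)))
 (.n (.n (.l (nat_lit 0xc12a6))
 (.l (nat_lit 0x120157)))
 (.l (nat_lit 0xcb2c4))))
 (.n (.n (.n (.l (nat_lit 0x46155))
 (.l (nat_lit 0x101224)))
 (.l (nat_lit 0x1291d4)))
 (.n (.n (.l (nat_lit 0x148234))
 (.l (nat_lit 0x10b253)))
 (.l (nat_lit 0x40047)))))

def a512_260 : TA :=
 .n (.n (.n (.n (.n (.l (nat_lit 0xb000e2))
 (.l (nat_lit 0xe5194)))
 (.l (nat_lit 0x21056)))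
 (.n (.n (.l (nat_lit 0x8b236))
 (.l (nat_lit 0x24097)))
 (.l (nat_lit 0xa12c6))))
 (.n (.n (.n (.l (nat_lit 0x21024))
 (.l (nat_lit 0xc72f4)))
 (.l (nat_lit 0x240f4)))
 (.n (.n (.l (nat_lit 0x25025))
 (.l (nat_lit 0x47073)))
 (.l (nat_lit 0xe5037)))))
 (.n (.n (.n (.n (.l (nat_lit 0x80034))
 (.l (nat_lit 0xc22f4)))
 (.l (nat_lit 0xe3086)))
 (.n (.n (.l (nat_lit 0xa016))
 (.l (nat_lit 0x86207)))
 (.l (nat_lit 0x86115))))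
 (.n (.n (.n (.l (nat_lit 0x103074))
 (.l (nat_lit 0xc8225)))
 (.l (nat_lit 0xaa106)))
 (.n (.n (.l (nat_lit 0x23046))
 (.l (nat_lit 0x14300b)))
 (.l (nat_lit 0x1612e4)))))

def a256_4 : TA := .n a512_4 a512_260

def a512_132 : TA :=
 .n (.n (.n (.n (.n (.l (nat_lit 0x880052))
 (.l (nat_lit 0x124124)))
 (.n (.l (nat_lit 0x125055))
 (.l (nat_lit 0xd089886c00000c))))
 (.n (.n (.l (nat_lit 0x144024))
 (.l (nat_lit 0xc9224)))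
 (.l (nat_lit 0x64027))))
 (.n (.n (.n (.l (nat_lit 0x1030e6))
 (.l (nat_lit 0xe22f5)))
 (.l (nat_lit 0x1411d5)))
 (.n (.n (.l (nat_lit 0x87074))
 (.l (nat_lit 0xcb023)))
 (.l (nat_lit 0xe0266)))))
 (.n (.n (.n (.n (.l (nat_lit 0x143075))
 (.l (nat_lit 0x128135)))
 (.l (nat_lit 0x164065)))
 (.n (.n (.l (nat_lit 0xa5034))
 (.l (nat_lit 0x211c7)))
 (.l (nat_lit 0xa40a5))))
 (.n (.n (.n (.l (nat_lit 0x43005))
 (.l (nat_lit 0x41b6)))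
 (.l (nat_lit 0x20027)))
 (.n (.n (.l (nat_lit 0xaa036))
 (.l (nat_lit 0x1480009)))
 (.l (nat_lit 0x120204)))))

def a512_388 : TA :=
 .n (.n (.n (.n (.n (.l (nat_lit 0x401c0))
 (.l (nat_lit 0xe70b4)))
 (.l (nat_lit 0xea2a4)))
 (.n (.n (.l (nat_lit 0x1262a5))
 (.l (nat_lit 0x870e7)))
 (.l (nat_lit 0x169254))))
 (.n (.n (.n (.l (nat_lit 0x10a155))
 (.l (nat_lit 0x490d6)))
 (.l (nat_lit 0x80f4)))
 (.n (.n (.l (nat_lit 0x81036))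
 (.l (nat_lit 0x44153)))
 (.l (nat_lit 0x4a1f4)))))
 (.n (.n (.n (.n (.l (nat_lit 0x8b075))
 (.l (nat_lit 0x163057)))
 (.l (nat_lit 0x880f5)))
 (.n (.n (.l (nat_lit 0xc3016))
 (.l (nat_lit 0x109237)))
 (.l (nat_lit 0x25185))))
 (.n (.n (.n (.l (nat_lit 0x281c5))
 (.l (nat_lit 0x168295)))
 (.l (nat_lit 0xe9175)))
 (.n (.n (.l (nat_lit 0xa9005))
 (.l (nat_lit 0xe889d0d402600c)))
 (.l (nat_lit 0xeb195)))))

def a256_132 : TA := .n a512_132 a512_388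

def a128_4 : TA := .n a256_4 a256_132

def a512_68 : TA :=
 .n (.n (.n (.n (.n (.l (nat_lit 0x40030))
 (.l (nat_lit 0xc4124)))
 (.n (.l (nat_lit 0xc0055))
 (.l (nat_lit 0xd588872900000c))))
 (.n (.n (.l (nat_lit 0x29236))
 (.l (nat_lit 0x128067)))
 (.l (nat_lit 0x14b1e6))))
 (.n (.n (.n (.l (nat_lit 0x1234))
 (.l (nat_lit 0xe22f6)))
 (.l (nat_lit 0x1622b4)))
 (.n (.n (.l (nat_lit 0x104025))
 (.l (nat_lit 0x100013)))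
 (.l (nat_lit 0xc1265)))))
 (.n (.n (.n (.n (.l (nat_lit 0x1402c1))
 (.l (nat_lit 0x480c6)))
 (.l (nat_lit 0x12b005)))
 (.n (.n (.l (nat_lit 0x892a5))
 (.l (nat_lit 0xa9157)))
 (.l (nat_lit 0x4a0a6))))
 (.n (.n (.n (.l (nat_lit 0xeb155))
 (.l (nat_lit 0x61294)))
 (.l (nat_lit 0xc0027)))
 (.n (.n (.l (nat_lit 0xc2035))
 (.l (nat_lit 0x832f3)))
 (.l (nat_lit 0xe20b6)))))

def a512_324 : TA :=
 .n (.n (.n (.n (.n (.l (nat_lit 0x100150))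
 (.l (nat_lit 0x126204)))
 (.l (nat_lit 0x166056)))
 (.n (.n (.l (nat_lit 0x24064))
 (.l (nat_lit 0x1020c7)))
 (.l (nat_lit 0x89027))))
 (.n (.n (.n (.l (nat_lit 0x124155))
 (.l (nat_lit 0xe8057)))
 (.l (nat_lit 0x422b6)))
 (.n (.n (.l (nat_lit 0x127154))
 (.l (nat_lit 0x860e3)))
 (.l (nat_lit 0x146037)))))
 (.n (.n (.n (.n (.l (nat_lit 0x4075))
 (.l (nat_lit 0x122284)))
 (.l (nat_lit 0xc8086)))
 (.n (.n (.l (nat_lit 0x106044))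
 (.l (nat_lit 0x20237)))
 (.l (nat_lit 0x125186))))
 (.n (.n (.n (.l (nat_lit 0x801c6))
 (.l (nat_lit 0x148296)))
 (.l (nat_lit 0x169106)))
 (.n (.n (.l (nat_lit 0x12b045))
 (.l (nat_lit 0x8900b)))
 (.l (nat_lit 0x1422e4)))))

def a256_68 : TA := .n a512_68 a512_324

def a512_196 : TA :=
 .n (.n (.n (.n (.n (.l (nat_lit 0x80090))
 (.l (nat_lit 0x45124)))
 (.n (.l (nat_lit 0x8a1c4))
 (.l (nat_lit 0xd02e1b1902600c))))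
 (.n (.n (.l (nat_lit 0xc2235))
 (.l (nat_lit 0xa7077)))
 (.l (nat_lit 0x145027))))
 (.n (.n (.n (.l (nat_lit 0x890e6))
 (.l (nat_lit 0x1061a4)))
 (.l (nat_lit 0x16a245)))
 (.n (.n (.l (nat_lit 0x25))
 (.l (nat_lit 0x53)))
 (.l (nat_lit 0x45037)))))
 (.n (.n (.n (.n (.l (nat_lit 0x129076))
 (.l (nat_lit 0x61284)))
 (.l (nat_lit 0xeb154)))
 (.n (.n (.l (nat_lit 0x62015))
 (.l (nat_lit 0x10a1c7)))
 (.l (nat_lit 0x124116))))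
 (.n (.n (.n (.l (nat_lit 0x1471c6))
 (.l (nat_lit 0x65225)))
 (.l (nat_lit 0xb095)))
 (.n (.n (.l (nat_lit 0x28054))
 (.l (nat_lit 0x2540009)))
 (.l (nat_lit 0x3126)))))

def a512_452 : TA :=
 .n (.n (.n (.n (.n (.l (nat_lit 0x80210))
 (.l (nat_lit 0x6b204)))
 (.l (nat_lit 0x62065)))
 (.n (.n (.l (nat_lit 0x1450e4))
 (.l (nat_lit 0x80f7)))
 (.l (nat_lit 0xea104))))
 (.n (.n (.n (.l (nat_lit 0xc2044))
 (.l (nat_lit 0xa0224)))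
 (.l (nat_lit 0x9084)))
 (.n (.n (.l (nat_lit 0x66036))
 (.l (nat_lit 0x451c3)))
 (.l (nat_lit 0xcb184)))))
 (.n (.n (.n (.n (.l (nat_lit 0x20064))
 (.l (nat_lit 0x41285)))
 (.l (nat_lit 0x1280f6)))
 (.n (.n (.l (nat_lit 0x6a015))
 (.l (nat_lit 0xa2297)))
 (.l (nat_lit 0x1601f6))))
 (.n (.n (.n (.l (nat_lit 0x1232a4))
 (.l (nat_lit 0x8305)))
 (.l (nat_lit 0x12a176)))
 (.n (.n (.l (nat_lit 0x24046))
 (.l (nat_lit 0x16068c0e902600c)))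
 (.l (nat_lit 0x6b205)))))

def a256_196 : TA := .n a512_196 a512_452

def a128_68 : TA := .n a256_68 a256_196

def a64_4 : TA := .n a128_4 a128_68

def a512_36 : TA :=
 .n (.n (.n (.n (.n (.l (nat_lit 0x640012))
 (.l (nat_lit 0x22276)))
 (.n (.l (nat_lit 0x69014))
 (.l (nat_lit 0x101a9895322000c))))
 (.n (.n (.l (nat_lit 0x126235))
 (.l (nat_lit 0x88144)))
 (.l (nat_lit 0x811e5))))
 (.n (.n (.n (.l (nat_lit 0x10a0e6))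
 (.l (nat_lit 0x1640c4)))
 (.l (nat_lit 0x49166)))
 (.n (.n (.l (nat_lit 0xa1026))
 (.l (nat_lit 0xab2a7)))
 (.l (nat_lit 0xcb1f6)))))
 (.n (.n (.n (.n (.l (nat_lit 0x4002a2))
 (.l (nat_lit 0x630c5)))
 (.l (nat_lit 0x8b234)))
 (.n (.n (.l (nat_lit 0x1632a5))
 (.l (nat_lit 0x7157)))
 (.l (nat_lit 0x1420a5))))
 (.n (.n (.n (.l (nat_lit 0x9156))
 (.l (nat_lit 0xc4146)))
 (.l (nat_lit 0xca244)))
 (.n (.n (.l (nat_lit 0x68006))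
 (.l (nat_lit 0xc72a3)))
 (.l (nat_lit 0x1070b5)))))

def a512_292 : TA :=
 .n (.n (.n (.n (.n (.l (nat_lit 0x800112))
 (.l (nat_lit 0x86274)))
 (.l (nat_lit 0xc4055)))
 (.n (.n (.l (nat_lit 0x124154))
 (.l (nat_lit 0x860a7)))
 (.l (nat_lit 0xe92c5))))
 (.n (.n (.n (.l (nat_lit 0x82005))
 (.l (nat_lit 0x27284)))
 (.l (nat_lit 0x1482b6)))
 (.n (.n (.l (nat_lit 0x8b025))
 (.l (nat_lit 0x440a3)))
 (.l (nat_lit 0x8a2d5)))))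
 (.n (.n (.n (.n (.l (nat_lit 0x120006))
 (.l (nat_lit 0xa51a5)))
 (.l (nat_lit 0x20017)))
 (.n (.n (.l (nat_lit 0x86154))
 (.l (nat_lit 0x127217)))
 (.l (nat_lit 0x161264))))
 (.n (.n (.n (.l (nat_lit 0x3044))
 (.l (nat_lit 0x20295)))
 (.l (nat_lit 0x161027)))
 (.n (.n (.l (nat_lit 0x86045))
 (.l (nat_lit 0x10600b)))
 (.l (nat_lit 0xa6196)))))

def a256_36 : TA := .n a512_36 a512_292

def a512_164 : TA :=
 .n (.n (.n (.n (.n (.l (nat_lit 0x100070))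
 (.l (nat_lit 0x832e6)))
 (.n (.l (nat_lit 0x28056))
 (.l (nat_lit 0xd408876102000c))))
 (.n (.n (.l (nat_lit 0x64006))
 (.l (nat_lit 0x3077)))
 (.l (nat_lit 0x149255))))
 (.n (.n (.n (.l (nat_lit 0x60e5))
 (.l (nat_lit 0x165134)))
 (.l (nat_lit 0x60245)))
 (.n (.n (.l (nat_lit 0x1072a4))
 (.l (nat_lit 0x146033)))
 (.l (nat_lit 0xca266)))))
 (.n (.n (.n (.n (.l (nat_lit 0x87075))
 (.l (nat_lit 0x64135)))
 (.l (nat_lit 0x68065)))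
 (.n (.n (.l (nat_lit 0x106006))
 (.l (nat_lit 0xa71c7)))
 (.l (nat_lit 0x201f4))))
 (.n (.n (.n (.l (nat_lit 0xe11c6))
 (.l (nat_lit 0xa2294)))
 (.l (nat_lit 0xc4095)))
 (.n (.n (.l (nat_lit 0x1280e4))
 (.l (nat_lit 0x4c0009)))
 (.l (nat_lit 0xa6126)))))

def a512_420 : TA :=
 .n (.n (.n (.n (.n (.l (nat_lit 0x801e0))
 (.l (nat_lit 0x8b204)))
 (.l (nat_lit 0x14b006)))
 (.n (.n (.l (nat_lit 0xe92a6))
 (.l (nat_lit 0x1290e7)))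
 (.l (nat_lit 0x4a1e4))))
 (.n (.n (.n (.l (nat_lit 0x42234))
 (.l (nat_lit 0xa30d5)))
 (.l (nat_lit 0x168017)))
 (.n (.n (.l (nat_lit 0x163035))
 (.l (nat_lit 0x40193)))
 (.l (nat_lit 0x6a264)))))
 (.n (.n (.n (.n (.l (nat_lit 0x120234))
 (.l (nat_lit 0xe7215)))
 (.l (nat_lit 0x21017)))
 (.n (.n (.l (nat_lit 0x165015))
 (.l (nat_lit 0xb257)))
 (.l (nat_lit 0xe20a4))))
 (.n (.n (.n (.l (nat_lit 0x8b1c6))
 (.l (nat_lit 0xc2305)))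
 (.l (nat_lit 0x62027)))
 (.n (.n (.l (nat_lit 0x121045))
 (.l (nat_lit 0x689488d402600c)))
 (.l (nat_lit 0x60206)))))

def a256_164 : TA := .n a512_164 a512_420

def a128_36 : TA := .n a256_36 a256_164

def a512_100 : TA :=
 .n (.n (.n (.n (.n (.l (nat_lit 0x400042))
 (.l (nat_lit 0x26276)))
 (.n (.l (nat_lit 0x3056))
 (.l (nat_lit 0xd41488e902000c))))
 (.n (.n (.l (nat_lit 0xc5004))
 (.l (nat_lit 0x28304)))
 (.l (nat_lit 0xa1256))))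
 (.n (.n (.n (.l (nat_lit 0x81044))
 (.l (nat_lit 0x5214)))
 (.l (nat_lit 0x16a1d5)))
 (.n (.n (.l (nat_lit 0xa025))
 (.l (nat_lit 0x148013)))
 (.l (nat_lit 0x6b265)))))
 (.n (.n (.n (.n (.l (nat_lit 0xc0005))
 (.l (nat_lit 0x144135)))
 (.l (nat_lit 0x2066)))
 (.n (.n (.l (nat_lit 0x250e4))
 (.l (nat_lit 0x106187)))
 (.l (nat_lit 0x1401f4))))
 (.n (.n (.n (.l (nat_lit 0x162014))
 (.l (nat_lit 0xe71b6)))
 (.l (nat_lit 0x4a096)))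
 (.n (.n (.l (nat_lit 0x5036))
 (.l (nat_lit 0x2440009)))
 (.l (nat_lit 0x1460b6)))))

def a512_356 : TA :=
 .n (.n (.n (.n (.n (.l (nat_lit 0x140171))
 (.l (nat_lit 0x7194)))
 (.l (nat_lit 0x6a074)))
 (.n (.n (.l (nat_lit 0x822a5))
 (.l (nat_lit 0x30e7)))
 (.l (nat_lit 0x29027))))
 (.n (.n (.n (.l (nat_lit 0x27156))
 (.l (nat_lit 0xa30d6)))
 (.l (nat_lit 0x1092b5)))
 (.n (.n (.l (nat_lit 0x27064))
 (.l (nat_lit 0x5103)))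
 (.l (nat_lit 0x1660a4)))))
 (.n (.n (.n (.n (.l (nat_lit 0x148076))
 (.l (nat_lit 0xa5215)))
 (.l (nat_lit 0x20244)))
 (.n (.n (.l (nat_lit 0x20015))
 (.l (nat_lit 0x86237)))
 (.l (nat_lit 0xc2264))))
 (.n (.n (.n (.l (nat_lit 0x1251c6))
 (.l (nat_lit 0x41296)))
 (.l (nat_lit 0xa12c4)))
 (.n (.n (.l (nat_lit 0x9234))
 (.l (nat_lit 0x12868d0d102600c)))
 (.l (nat_lit 0x145196)))))

def a256_100 : TA := .n a512_100 a512_356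

def a512_228 : TA :=
 .n (.n (.n (.n (.n (.l (nat_lit 0x800c0))
 (.l (nat_lit 0x1622e5)))
 (.n (.l (nat_lit 0x10a034))
 (.l (nat_lit 0xd085a12820000c))))
 (.n (.n (.l (nat_lit 0xc8235))
 (.l (nat_lit 0x12a077)))
 (.l (nat_lit 0x1692c6))))
 (.n (.n (.n (.l (nat_lit 0x12b0e5))
 (.l (nat_lit 0x70c4)))
 (.l (nat_lit 0x161245)))
 (.n (.n (.l (nat_lit 0xe2026))
 (.l (nat_lit 0xc1063)))
 (.l (nat_lit 0x4b2d5)))))
 (.n (.n (.n (.n (.l (nat_lit 0x154))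
 (.l (nat_lit 0x1451a5)))
 (.l (nat_lit 0x16b034)))
 (.n (.n (.l (nat_lit 0x105016))
 (.l (nat_lit 0x211f7)))
 (.l (nat_lit 0x101264))))
 (.n (.n (.n (.l (nat_lit 0x8a1c5))
 (.l (nat_lit 0x1030d4)))
 (.l (nat_lit 0x4105)))
 (.n (.n (.l (nat_lit 0xa0045))
 (.l (nat_lit 0x4100b)))
 (.l (nat_lit 0x66125)))))

def a512_484 : TA :=
 .n (.n (.n (.n (.n (.l (nat_lit 0xa80232))
 (.l (nat_lit 0x1030c5)))
 (.l (nat_lit 0x105066)))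
 (.n (.n (.l (nat_lit 0x45044))
 (.l (nat_lit 0x8b117)))
 (.l (nat_lit 0x14b027))))
 (.n (.n (.n (.l (nat_lit 0x140155))
 (.l (nat_lit 0x164146)))
 (.l (nat_lit 0x892b4)))
 (.n (.n (.l (nat_lit 0xc9004))
 (.l (nat_lit 0xc5223)))
 (.l (nat_lit 0x16b0a4)))))
 (.n (.n (.n (.n (.l (nat_lit 0x840e5))
 (.l (nat_lit 0x127286)))
 (.l (nat_lit 0xc5165)))
 (.n (.n (.l (nat_lit 0xe61c4))
 (.l (nat_lit 0x1032a7)))
 (.l (nat_lit 0x6b1f5))))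
 (.n (.n (.n (.l (nat_lit 0x23064))
 (.l (nat_lit 0x87067)))
 (.l (nat_lit 0x201e6)))
 (.n (.n (.l (nat_lit 0xc7045))
 (.l (nat_lit 0x2560bb0560600c)))
 (.l (nat_lit 0x1205)))))

def a256_228 : TA := .n a512_228 a512_484

def a128_100 : TA := .n a256_100 a256_228

def a64_36 : TA := .n a128_36 a128_100

def a32_4 : TA := .n a64_4 a64_36

def a512_20 : TA :=
 .n (.n (.n (.n (.n (.l (nat_lit 0xb00002))
 (.l (nat_lit 0x41275)))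
 (.n (.l (nat_lit 0xe91c4))
 (.l (nat_lit 0x101a988cd42600c))))
 (.n (.n (.l (nat_lit 0x22236))
 (.l (nat_lit 0x127224)))
 (.l (nat_lit 0x123027))))
 (.n (.n (.n (.l (nat_lit 0x1280e5))
 (.l (nat_lit 0x46286)))
 (.l (nat_lit 0xa2017)))
 (.n (.n (.l (nat_lit 0xc0026))
 (.l (nat_lit 0x1292a7)))
 (.l (nat_lit 0x651f6)))))
 (.n (.n (.n (.n (.l (nat_lit 0x100291))
 (.l (nat_lit 0x820c6)))
 (.l (nat_lit 0x10b0e4)))
 (.n (.n (.l (nat_lit 0x622a5))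
 (.l (nat_lit 0x85157)))
 (.l (nat_lit 0x6b104))))
 (.n (.n (.n (.l (nat_lit 0x27155))
 (.l (nat_lit 0x121067)))
 (.l (nat_lit 0x8a017)))
 (.n (.n (.l (nat_lit 0xc8054))
 (.l (nat_lit 0x1012a3)))
 (.l (nat_lit 0x60b5)))))

def a512_276 : TA :=
 .n (.n (.n (.n (.n (.l (nat_lit 0xc0100))
 (.l (nat_lit 0x106124)))
 (.l (nat_lit 0x122055)))
 (.n (.n (.l (nat_lit 0x24074))
 (.l (nat_lit 0x1030a7)))
 (.l (nat_lit 0xc32c5))))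
 (.n (.n (.n (.l (nat_lit 0x121044))
 (.l (nat_lit 0xa7134)))
 (.l (nat_lit 0x22b5)))
 (.n (.n (.l (nat_lit 0x129026))
 (.l (nat_lit 0x84083)))
 (.l (nat_lit 0xc22d6)))))
 (.n (.n (.n (.n (.l (nat_lit 0x64))
 (.l (nat_lit 0xe01a5)))
 (.l (nat_lit 0x168085)))
 (.n (.n (.l (nat_lit 0x107004))
 (.l (nat_lit 0x2b207)))
 (.l (nat_lit 0x6b115))))
 (.n (.n (.n (.l (nat_lit 0x83014))
 (.l (nat_lit 0x63144)))
 (.l (nat_lit 0x411e4)))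
 (.n (.n (.l (nat_lit 0x124045))
 (.l (nat_lit 0x4500b)))
 (.l (nat_lit 0x105195)))))

def a256_20 : TA := .n a512_20 a512_276

def a512_148 : TA :=
 .n (.n (.n (.n (.n (.l (nat_lit 0x800062))
 (.l (nat_lit 0xe12e5)))
 (.n (.l (nat_lit 0x87055))
 (.l (nat_lit 0xd521a8e902000c))))
 (.n (.n (.l (nat_lit 0xc4054))
 (.l (nat_lit 0xa90d4)))
 (.l (nat_lit 0x61255))))
 (.n (.n (.n (.l (nat_lit 0xa40e5))
 (.l (nat_lit 0x472f6)))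
 (.l (nat_lit 0xe3084)))
 (.n (.n (.l (nat_lit 0x71c4))
 (.l (nat_lit 0x43033)))
 (.l (nat_lit 0x42265)))))
 (.n (.n (.n (.n (.l (nat_lit 0xe4076))
 (.l (nat_lit 0xc12f4)))
 (.l (nat_lit 0xc7066)))
 (.n (.n (.l (nat_lit 0x25064))
 (.l (nat_lit 0x1251c7)))
 (.l (nat_lit 0x8b0a5))))
 (.n (.n (.n (.l (nat_lit 0x1401c5))
 (.l (nat_lit 0x651b5)))
 (.l (nat_lit 0x162096)))
 (.n (.n (.l (nat_lit 0x29004))
 (.l (nat_lit 0x24c0009)))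
 (.l (nat_lit 0xa4126)))))

def a512_404 : TA :=
 .n (.n (.n (.n (.n (.l (nat_lit 0xa401c2))
 (.l (nat_lit 0xe72e4)))
 (.l (nat_lit 0x6a034)))
 (.n (.n (.l (nat_lit 0xc82a6))
 (.l (nat_lit 0x280e7)))
 (.l (nat_lit 0xca094))))
 (.n (.n (.n (.l (nat_lit 0xeb156))
 (.l (nat_lit 0x80294)))
 (.l (nat_lit 0x1481d4)))
 (.n (.n (.l (nat_lit 0x62036))
 (.l (nat_lit 0x49153)))
 (.l (nat_lit 0xaa037)))))
 (.n (.n (.n (.n (.l (nat_lit 0x20154))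
 (.l (nat_lit 0xc1215)))
 (.l (nat_lit 0x11d4)))
 (.n (.n (.l (nat_lit 0x64015))
 (.l (nat_lit 0x8b237)))
 (.l (nat_lit 0x10a186))))
 (.n (.n (.n (.l (nat_lit 0x1291c6))
 (.l (nat_lit 0x124144)))
 (.l (nat_lit 0xcb176)))
 (.n (.n (.l (nat_lit 0x20046))
 (.l (nat_lit 0xea95831102600c)))
 (.l (nat_lit 0xa22e4)))))

def a256_148 : TA := .n a512_148 a512_404

def a128_20 : TA := .n a256_20 a256_148

def a512_84 : TA :=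
 .n (.n (.n (.n (.n (.l (nat_lit 0xa40032))
 (.l (nat_lit 0x81276)))
 (.n (.l (nat_lit 0x61055))
 (.l (nat_lit 0xd116072902600c))))
 (.n (.n (.l (nat_lit 0x16a235))
 (.l (nat_lit 0xa81b4)))
 (.l (nat_lit 0xe32c4))))
 (.n (.n (.n (.l (nat_lit 0x101014))
 (.l (nat_lit 0x872f5)))
 (.l (nat_lit 0x91d5)))
 (.n (.n (.l (nat_lit 0xa5026))
 (.l (nat_lit 0x4013)))
 (.l (nat_lit 0xa2266)))))
 (.n (.n (.n (.n (.l (nat_lit 0xc02e0))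
 (.l (nat_lit 0x20284)))
 (.l (nat_lit 0xa0066)))
 (.n (.n (.l (nat_lit 0x6a2a5))
 (.l (nat_lit 0x2b157)))
 (.l (nat_lit 0x6b0a6))))
 (.n (.n (.n (.l (nat_lit 0x62234))
 (.l (nat_lit 0x41b5)))
 (.l (nat_lit 0x83095)))
 (.n (.n (.l (nat_lit 0xa3036))
 (.l (nat_lit 0x1400009)))
 (.l (nat_lit 0x440b5)))))

def a512_340 : TA :=
 .n (.n (.n (.n (.n (.l (nat_lit 0x8c0152))
 (.l (nat_lit 0x87047)))
 (.l (nat_lit 0xc8055)))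
 (.n (.n (.l (nat_lit 0x105006))
 (.l (nat_lit 0xa40d7)))
 (.l (nat_lit 0x49174))))
 (.n (.n (.n (.l (nat_lit 0x86156))
 (.l (nat_lit 0x100067)))
 (.l (nat_lit 0x632b5)))
 (.n (.n (.l (nat_lit 0xa72a4))
 (.l (nat_lit 0xb0e3)))
 (.l (nat_lit 0xc6184)))))
 (.n (.n (.n (.n (.l (nat_lit 0x126076))
 (.l (nat_lit 0x80215)))
 (.l (nat_lit 0xa9085)))
 (.n (.n (.l (nat_lit 0xa6006))
 (.l (nat_lit 0x121237)))
 (.l (nat_lit 0x14b186))))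
 (.n (.n (.n (.l (nat_lit 0x211c5))
 (.l (nat_lit 0xc41b4)))
 (.l (nat_lit 0xcb105)))
 (.n (.n (.l (nat_lit 0x890e4))
 (.l (nat_lit 0x14a00a)))
 (.l (nat_lit 0x160195)))))

def a256_84 : TA := .n a512_84 a512_340

def a512_212 : TA :=
 .n (.n (.n (.n (.n (.l (nat_lit 0x6800a2))
 (.l (nat_lit 0x165047)))
 (.n (.l (nat_lit 0xa014))
 (.l (nat_lit 0xd02e2b1902600c))))
 (.n (.n (.l (nat_lit 0x66236))
 (.l (nat_lit 0x29077)))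
 (.l (nat_lit 0x1622c6))))
 (.n (.n (.n (.l (nat_lit 0x2a0e5))
 (.l (nat_lit 0xa6057)))
 (.l (nat_lit 0x164017)))
 (.n (.n (.l (nat_lit 0x101025))
 (.l (nat_lit 0x145053)))
 (.l (nat_lit 0x422d5)))))
 (.n (.n (.n (.n (.l (nat_lit 0x8b076))
 (.l (nat_lit 0x142057)))
 (.l (nat_lit 0x6b2a4)))
 (.n (.n (.l (nat_lit 0x163015))
 (.l (nat_lit 0xab1c7)))
 (.l (nat_lit 0x10b116))))
 (.n (.n (.n (.l (nat_lit 0x1281c6))
 (.l (nat_lit 0x28226)))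
 (.l (nat_lit 0x20254)))
 (.n (.n (.l (nat_lit 0x109005))
 (.l (nat_lit 0x540009)))
 (.l (nat_lit 0x45125)))))

def a512_468 : TA :=
 .n (.n (.n (.n (.n (.l (nat_lit 0x100230))
 (.l (nat_lit 0x16b2e4)))
 (.l (nat_lit 0x4066)))
 (.n (.n (.l (nat_lit 0xc5014))
 (.l (nat_lit 0x10b107)))
 (.l (nat_lit 0x6a254))))
 (.n (.n (.n (.l (nat_lit 0x62005))
 (.l (nat_lit 0x23145)))
 (.l (nat_lit 0x109164)))
 (.n (.n (.l (nat_lit 0x16a035))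
 (.l (nat_lit 0x851d3)))
 (.l (nat_lit 0x4b2d4)))))
 (.n (.n (.n (.n (.l (nat_lit 0x101006))
 (.l (nat_lit 0x162286)))
 (.l (nat_lit 0x14a0f5)))
 (.n (.n (.l (nat_lit 0x166074))
 (.l (nat_lit 0x212a7)))
 (.l (nat_lit 0x461f6))))
 (.n (.n (.n (.l (nat_lit 0xa3034))
 (.l (nat_lit 0x125144)))
 (.l (nat_lit 0xa22c4)))
 (.n (.n (.l (nat_lit 0x165046))
 (.l (nat_lit 0x2260ca5562600c)))
 (.l (nat_lit 0x832e4)))))

def a256_212 : TA := .n a512_212 a512_468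

def a128_84 : TA := .n a256_84 a256_212

def a64_20 : TA := .n a128_20 a128_84

def a512_52 : TA :=
 .n (.n (.n (.n (.n (.l (nat_lit 0x180021))
 (.l (nat_lit 0x166275)))
 (.n (.l (nat_lit 0x169064))
 (.l (nat_lit 0x16205cad022000c))))
 (.n (.n (.l (nat_lit 0x88236))
 (.l (nat_lit 0x8294)))
 (.l (nat_lit 0x4a1e6))))
 (.n (.n (.n (.l (nat_lit 0xab0e6))
 (.l (nat_lit 0xc5057)))
 (.l (nat_lit 0x62084)))
 (.n (.n (.l (nat_lit 0x3025))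
 (.l (nat_lit 0x2a2c7)))
 (.l (nat_lit 0xa3114)))))
 (.n (.n (.n (.n (.l (nat_lit 0xc02b0))
 (.l (nat_lit 0x60c6)))
 (.l (nat_lit 0xb034)))
 (.n (.n (.l (nat_lit 0x1272a6))
 (.l (nat_lit 0x108157)))
 (.l (nat_lit 0xe30a6))))
 (.n (.n (.n (.l (nat_lit 0x10a156))
 (.l (nat_lit 0x167146)))
 (.l (nat_lit 0x6a164)))
 (.n (.n (.l (nat_lit 0x160035))
 (.l (nat_lit 0x8a2a3)))
 (.l (nat_lit 0x140204)))))

def a512_308 : TA :=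
 .n (.n (.n (.n (.n (.l (nat_lit 0x140))
 (.l (nat_lit 0x26124)))
 (.l (nat_lit 0x65056)))
 (.n (.n (.l (nat_lit 0xa4034))
 (.l (nat_lit 0x20b7)))
 (.l (nat_lit 0x10b2c6))))
 (.n (.n (.n (.l (nat_lit 0x20156))
 (.l (nat_lit 0x108057)))
 (.l (nat_lit 0xe92b6)))
 (.n (.n (.l (nat_lit 0x27074))
 (.l (nat_lit 0xc40d3)))
 (.l (nat_lit 0x65184)))))
 (.n (.n (.n (.n (.l (nat_lit 0xa2076))
 (.l (nat_lit 0x271a5)))
 (.l (nat_lit 0x103086)))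
 (.n (.n (.l (nat_lit 0x62a4))
 (.l (nat_lit 0xa5227)))
 (.l (nat_lit 0x120186))))
 (.n (.n (.n (.l (nat_lit 0x103064))
 (.l (nat_lit 0x161296)))
 (.l (nat_lit 0x124105)))
 (.n (.n (.l (nat_lit 0x27046))
 (.l (nat_lit 0x800b)))
 (.l (nat_lit 0x20b4)))))

def a256_52 : TA := .n a512_52 a512_308

def a512_180 : TA :=
 .n (.n (.n (.n (.n (.l (nat_lit 0x8c0072))
 (.l (nat_lit 0x272e5)))
 (.n (.l (nat_lit 0x10a074))
 (.l (nat_lit 0x1086a90e500000c))))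
 (.n (.n (.l (nat_lit 0x160236))
 (.l (nat_lit 0x124077)))
 (.l (nat_lit 0x64094))))
 (.n (.n (.n (.l (nat_lit 0x1270e6))
 (.l (nat_lit 0xc6057)))
 (.l (nat_lit 0x161246)))
 (.n (.n (.l (nat_lit 0x87064))
 (.l (nat_lit 0x5043)))
 (.l (nat_lit 0x640a4)))))
 (.n (.n (.n (.n (.l (nat_lit 0x28075))
 (.l (nat_lit 0x7136)))
 (.l (nat_lit 0x169065)))
 (.n (.n (.l (nat_lit 0xc1015))
 (.l (nat_lit 0x91c7)))
 (.l (nat_lit 0x101037))))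
 (.n (.n (.n (.l (nat_lit 0x461c6))
 (.l (nat_lit 0x40225)))
 (.l (nat_lit 0x69095)))
 (.n (.n (.l (nat_lit 0xa8234))
 (.l (nat_lit 0x1500009)))
 (.l (nat_lit 0x81204)))))

def a512_436 : TA :=
 .n (.n (.n (.n (.n (.l (nat_lit 0xc0200))
 (.l (nat_lit 0x6b0b4)))
 (.l (nat_lit 0xc1065)))
 (.n (.n (.l (nat_lit 0x4b2a5))
 (.l (nat_lit 0xab0e7)))
 (.l (nat_lit 0x14a2c4))))
 (.n (.n (.n (.l (nat_lit 0x142014))
 (.l (nat_lit 0x680d6)))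
 (.l (nat_lit 0x68244)))
 (.n (.n (.l (nat_lit 0xc5035))
 (.l (nat_lit 0x861a3)))
 (.l (nat_lit 0x14b037)))))
 (.n (.n (.n (.n (.l (nat_lit 0xa0034))
 (.l (nat_lit 0xa32f4)))
 (.l (nat_lit 0x1640f5)))
 (.n (.n (.l (nat_lit 0xc9016))
 (.l (nat_lit 0x12a267)))
 (.l (nat_lit 0x43037))))
 (.n (.n (.n (.l (nat_lit 0x23074))
 (.l (nat_lit 0x1451b4)))
 (.l (nat_lit 0x165175)))
 (.n (.n (.l (nat_lit 0x83045))
 (.l (nat_lit 0xea81d31102600c)))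
 (.l (nat_lit 0x66206)))))

def a256_180 : TA := .n a512_180 a512_436

def a128_52 : TA := .n a256_52 a256_180

def a512_116 : TA :=
 .n (.n (.n (.n (.n (.l (nat_lit 0xc0050))
 (.l (nat_lit 0x167275)))
 (.n (.l (nat_lit 0x24056))
 (.l (nat_lit 0x1103598e900000c))))
 (.n (.n (.l (nat_lit 0x44154))
 (.l (nat_lit 0x1090d4)))
 (.l (nat_lit 0x8b255))))
 (.n (.n (.n (.l (nat_lit 0x21005))
 (.l (nat_lit 0x1412f6)))
 (.l (nat_lit 0x63017)))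
 (.n (.n (.l (nat_lit 0x10b026))
 (.l (nat_lit 0x102023)))
 (.l (nat_lit 0x144114)))))
 (.n (.n (.n (.n (.l (nat_lit 0x42075))
 (.l (nat_lit 0x147135)))
 (.l (nat_lit 0x63065)))
 (.n (.n (.l (nat_lit 0x1251c4))
 (.l (nat_lit 0x861a7)))
 (.l (nat_lit 0xc30a6))))
 (.n (.n (.n (.l (nat_lit 0xe2044))
 (.l (nat_lit 0x491b5)))
 (.l (nat_lit 0x6b096)))
 (.n (.n (.l (nat_lit 0x106035))
 (.l (nat_lit 0x440009)))
 (.l (nat_lit 0x10b0b5)))))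

def a512_372 : TA :=
 .n (.n (.n (.n (.n (.l (nat_lit 0x80190))
 (.l (nat_lit 0x107274)))
 (.l (nat_lit 0x16a154)))
 (.n (.n (.l (nat_lit 0x232a6))
 (.l (nat_lit 0x1050e7)))
 (.l (nat_lit 0x69174))))
 (.n (.n (.n (.l (nat_lit 0x128155))
 (.l (nat_lit 0xa70d5)))
 (.l (nat_lit 0xa5164)))
 (.n (.n (.l (nat_lit 0x108006))
 (.l (nat_lit 0x46113)))
 (.l (nat_lit 0xca0a4)))))
 (.n (.n (.n (.n (.l (nat_lit 0x129075))
 (.l (nat_lit 0x430c4)))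
 (.l (nat_lit 0x1040f5)))
 (.n (.n (.l (nat_lit 0x161016))
 (.l (nat_lit 0x8237)))
 (.l (nat_lit 0xa0185))))
 (.n (.n (.n (.l (nat_lit 0x871c5))
 (.l (nat_lit 0x7295)))
 (.l (nat_lit 0x85175)))
 (.n (.n (.l (nat_lit 0x109014))
 (.l (nat_lit 0x12a2198d100600c)))
 (.l (nat_lit 0xe6195)))))

def a256_116 : TA := .n a512_116 a512_372

def a512_244 : TA :=
 .n (.n (.n (.n (.n (.l (nat_lit 0x400e0))
 (.l (nat_lit 0xc72e6)))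
 (.n (.l (nat_lit 0x80056))
 (.l (nat_lit 0x5382a31d00000c))))
 (.n (.n (.l (nat_lit 0x69235))
 (.l (nat_lit 0x82087)))
 (.l (nat_lit 0x105104))))
 (.n (.n (.n (.l (nat_lit 0xa1234))
 (.l (nat_lit 0x1071a4)))
 (.l (nat_lit 0x29245)))
 (.n (.n (.l (nat_lit 0x84026))
 (.l (nat_lit 0x49063)))
 (.l (nat_lit 0x145114)))))
 (.n (.n (.n (.n (.l (nat_lit 0x100234))
 (.l (nat_lit 0x1071a6)))
 (.l (nat_lit 0xc2085)))
 (.n (.n (.l (nat_lit 0xa8015))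
 (.l (nat_lit 0x12b1f7)))
 (.l (nat_lit 0xc4116))))
 (.n (.n (.n (.l (nat_lit 0x2b1c5))
 (.l (nat_lit 0x163067)))
 (.l (nat_lit 0x145106)))
 (.n (.n (.l (nat_lit 0x2046))
 (.l (nat_lit 0xc200b)))
 (.l (nat_lit 0x61204)))))

def a512_500 : TA :=
 .n (.n (.n (.n (.n (.l (nat_lit 0x140250))
 (.l (nat_lit 0xe60c5)))
 (.l (nat_lit 0x88065)))
 (.n (.n (.l (nat_lit 0x145064))
 (.l (nat_lit 0x2b127)))
 (.l (nat_lit 0x10b174))))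
 (.n (.n (.n (.l (nat_lit 0xe4156))
 (.l (nat_lit 0x8145)))
 (.l (nat_lit 0x290f4)))
 (.n (.n (.l (nat_lit 0x48154))
 (.l (nat_lit 0xcb233)))
 (.l (nat_lit 0xeb1f4)))))
 (.n (.n (.n (.n (.l (nat_lit 0x250e6))
 (.l (nat_lit 0xc41a4)))
 (.l (nat_lit 0x68165)))
 (.n (.n (.l (nat_lit 0x66034))
 (.l (nat_lit 0xa62a7)))
 (.l (nat_lit 0x23037))))
 (.n (.n (.n (.l (nat_lit 0x104006))
 (.l (nat_lit 0x47294)))
 (.l (nat_lit 0xa1e5)))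
 (.n (.n (.l (nat_lit 0x6b046))
 (.l (nat_lit 0xc1aa074c42000c)))
 (.l (nat_lit 0x146205)))))

def a256_244 : TA := .n a512_244 a512_500

def a128_116 : TA := .n a256_116 a256_244

def a64_52 : TA := .n a128_52 a128_116

def a32_20 : TA := .n a64_20 a64_52

def a16_4 : TA := .n a32_4 a32_20

def a512_12 : TA :=
 .n (.n (.n (.n (.n (.l (nat_lit 0x640002))
 (.l (nat_lit 0x1630b4)))
 (.n (.l (nat_lit 0x69154))
 (.l (nat_lit 0x11aae02d100000c))))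
 (.n (.n (.l (nat_lit 0x121236))
 (.l (nat_lit 0xa71b4)))
 (.l (nat_lit 0x832c4))))
 (.n (.n (.n (.l (nat_lit 0x880e5))
 (.l (nat_lit 0x121285)))
 (.l (nat_lit 0x22b4)))
 (.n (.n (.l (nat_lit 0x47006))
 (.l (nat_lit 0x892a7)))
 (.l (nat_lit 0x1211f5)))))
 (.n (.n (.n (.n (.l (nat_lit 0x800282))
 (.l (nat_lit 0x140214)))
 (.l (nat_lit 0x8b074)))
 (.n (.n (.l (nat_lit 0x1612a6))
 (.l (nat_lit 0x24157)))
 (.l (nat_lit 0x16b027))))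
 (.n (.n (.n (.l (nat_lit 0xe6155))
 (.l (nat_lit 0x1304)))
 (.l (nat_lit 0x292b4)))
 (.n (.n (.l (nat_lit 0x48014))
 (.l (nat_lit 0x88293)))
 (.l (nat_lit 0xc30b5)))))

def a512_268 : TA :=
 .n (.n (.n (.n (.n (.l (nat_lit 0x1400f1))
 (.l (nat_lit 0x860b4)))
 (.l (nat_lit 0x82055)))
 (.n (.n (.l (nat_lit 0x12b236))
 (.l (nat_lit 0x820a7)))
 (.l (nat_lit 0x222c5))))
 (.n (.n (.n (.l (nat_lit 0xa1034))
 (.l (nat_lit 0x167057)))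
 (.l (nat_lit 0x85017)))
 (.n (.n (.l (nat_lit 0x89026))
 (.l (nat_lit 0x10a073)))
 (.l (nat_lit 0x212d6)))))
 (.n (.n (.n (.n (.l (nat_lit 0x100044))
 (.l (nat_lit 0x162057)))
 (.l (nat_lit 0x88085)))
 (.n (.n (.l (nat_lit 0xaa016))
 (.l (nat_lit 0x107207)))
 (.l (nat_lit 0x14a115))))
 (.n (.n (.n (.l (nat_lit 0x32a4))
 (.l (nat_lit 0x168225)))
 (.l (nat_lit 0x10b106)))
 (.n (.n (.l (nat_lit 0x84045))
 (.l (nat_lit 0xc400b)))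
 (.l (nat_lit 0x60196)))))

def a256_12 : TA := .n a512_12 a512_268

def a512_140 : TA :=
 .n (.n (.n (.n (.n (.l (nat_lit 0xc0060))
 (.l (nat_lit 0x45047)))
 (.n (.l (nat_lit 0x26055))
 (.l (nat_lit 0xd094872900600c))))
 (.n (.n (.l (nat_lit 0x44044))
 (.l (nat_lit 0x29067)))
 (.l (nat_lit 0x120256))))
 (.n (.n (.n (.l (nat_lit 0x40e6))
 (.l (nat_lit 0xa32f5)))
 (.l (nat_lit 0x691d6)))
 (.n (.n (.l (nat_lit 0x1070e4))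
 (.l (nat_lit 0x140033)))
 (.l (nat_lit 0x141266)))))
 (.n (.n (.n (.n (.l (nat_lit 0x44076))
 (.l (nat_lit 0x41284)))
 (.l (nat_lit 0x65065)))
 (.n (.n (.l (nat_lit 0x125044))
 (.l (nat_lit 0x851c7)))
 (.l (nat_lit 0x1460a6))))
 (.n (.n (.n (.l (nat_lit 0xc3006))
 (.l (nat_lit 0x1241b6)))
 (.l (nat_lit 0x82096)))
 (.n (.n (.l (nat_lit 0x10b036))
 (.l (nat_lit 0x480009)))
 (.l (nat_lit 0x4125)))))

def a512_396 : TA :=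
 .n (.n (.n (.n (.n (.l (nat_lit 0x2001c2))
 (.l (nat_lit 0x27274)))
 (.l (nat_lit 0x16a014)))
 (.n (.n (.l (nat_lit 0x272a5))
 (.l (nat_lit 0x1270e7)))
 (.l (nat_lit 0x4a027))))
 (.n (.n (.n (.l (nat_lit 0xb156))
 (.l (nat_lit 0x1001b4)))
 (.l (nat_lit 0x88164)))
 (.n (.n (.l (nat_lit 0x121036))
 (.l (nat_lit 0x146153)))
 (.l (nat_lit 0x14a264)))))
 (.n (.n (.n (.n (.l (nat_lit 0x12b075))
 (.l (nat_lit 0x60215)))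
 (.l (nat_lit 0x1090f5)))
 (.n (.n (.l (nat_lit 0x163016))
 (.l (nat_lit 0xa237)))
 (.l (nat_lit 0x86185))))
 (.n (.n (.n (.l (nat_lit 0x891c6))
 (.l (nat_lit 0xa40d4)))
 (.l (nat_lit 0x2a175)))
 (.n (.n (.l (nat_lit 0x129006))
 (.l (nat_lit 0x6889d2d400600c)))
 (.l (nat_lit 0x1620b4)))))

def a256_140 : TA := .n a512_140 a512_396

def a128_12 : TA := .n a256_12 a256_140

def a512_76 : TA :=
 .n (.n (.n (.n (.n (.l (nat_lit 0x200032))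
 (.l (nat_lit 0x24047)))
 (.n (.l (nat_lit 0x160055))
 (.l (nat_lit 0xd094a72900000c))))
 (.n (.n (.l (nat_lit 0xca235))
 (.l (nat_lit 0x28144)))
 (.l (nat_lit 0x63104))))
 (.n (.n (.n (.l (nat_lit 0x812a4))
 (.l (nat_lit 0x1432f6)))
 (.l (nat_lit 0xa01d6)))
 (.n (.n (.l (nat_lit 0x5026))
 (.l (nat_lit 0x82013)))
 (.l (nat_lit 0x161266)))))
 (.n (.n (.n (.n (.l (nat_lit 0x1402d0))
 (.l (nat_lit 0x1201a4)))
 (.l (nat_lit 0x66)))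
 (.n (.n (.l (nat_lit 0x1692a5))
 (.l (nat_lit 0x10a157)))
 (.l (nat_lit 0x16a0a6))))
 (.n (.n (.n (.l (nat_lit 0x163004))
 (.l (nat_lit 0xc2067)))
 (.l (nat_lit 0x22095)))
 (.n (.n (.l (nat_lit 0x162035))
 (.l (nat_lit 0x2400009)))
 (.l (nat_lit 0x1430b6)))))

def a512_332 : TA :=
 .n (.n (.n (.n (.n (.l (nat_lit 0xa00152))
 (.l (nat_lit 0x262e4)))
 (.l (nat_lit 0x67055)))
 (.n (.n (.l (nat_lit 0x85005))
 (.l (nat_lit 0x30d7)))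
 (.l (nat_lit 0x109094))))
 (.n (.n (.n (.l (nat_lit 0x25156))
 (.l (nat_lit 0x681a4)))
 (.l (nat_lit 0xe22b5)))
 (.n (.n (.l (nat_lit 0x27234))
 (.l (nat_lit 0x1070e3)))
 (.l (nat_lit 0x46114)))))
 (.n (.n (.n (.n (.l (nat_lit 0xa4075))
 (.l (nat_lit 0x3057)))
 (.l (nat_lit 0x9085)))
 (.n (.n (.l (nat_lit 0x26005))
 (.l (nat_lit 0x81237)))
 (.l (nat_lit 0x4a185))))
 (.n (.n (.n (.l (nat_lit 0x1201c5))
 (.l (nat_lit 0x44144)))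
 (.l (nat_lit 0x6a105)))
 (.n (.n (.l (nat_lit 0x9074))
 (.l (nat_lit 0x4a00a)))
 (.l (nat_lit 0x80195)))))

def a256_76 : TA := .n a512_76 a512_332

def a512_204 : TA :=
 .n (.n (.n (.n (.n (.l (nat_lit 0xa0))
 (.l (nat_lit 0xc5194)))
 (.n (.l (nat_lit 0x10a234))
 (.l (nat_lit 0xd08a970522000c))))
 (.n (.n (.l (nat_lit 0x162235))
 (.l (nat_lit 0x108077)))
 (.l (nat_lit 0xc22c5))))
 (.n (.n (.n (.l (nat_lit 0x1290e6))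
 (.l (nat_lit 0x62f4)))
 (.l (nat_lit 0xc40f4)))
 (.n (.n (.l (nat_lit 0xa0025))
 (.l (nat_lit 0x83053)))
 (.l (nat_lit 0x1412d5)))))
 (.n (.n (.n (.n (.l (nat_lit 0x2a076))
 (.l (nat_lit 0xe12f4)))
 (.l (nat_lit 0x16b1c4)))
 (.n (.n (.l (nat_lit 0xc3015))
 (.l (nat_lit 0xb1c7)))
 (.l (nat_lit 0x86116))))
 (.n (.n (.n (.l (nat_lit 0x481c6))
 (.l (nat_lit 0xe7226)))
 (.l (nat_lit 0xeb095)))
 (.n (.n (.l (nat_lit 0xa8064))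
 (.l (nat_lit 0x1540009)))
 (.l (nat_lit 0x104126)))))

def a512_460 : TA :=
 .n (.n (.n (.n (.n (.l (nat_lit 0xc0220))
 (.l (nat_lit 0xeb274)))
 (.l (nat_lit 0xc3066)))
 (.n (.n (.l (nat_lit 0x451c4))
 (.l (nat_lit 0x89107)))
 (.l (nat_lit 0x16a174))))
 (.n (.n (.n (.l (nat_lit 0x142054))
 (.l (nat_lit 0x120294)))
 (.l (nat_lit 0x890f4)))
 (.n (.n (.l (nat_lit 0xca035))
 (.l (nat_lit 0x1071c3)))
 (.l (nat_lit 0x14b1f4)))))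
 (.n (.n (.n (.n (.l (nat_lit 0x81005))
 (.l (nat_lit 0xe1286)))
 (.l (nat_lit 0x690f6)))
 (.n (.n (.l (nat_lit 0xe7004))
 (.l (nat_lit 0x108297)))
 (.l (nat_lit 0x451f5))))
 (.n (.n (.n (.l (nat_lit 0x23024))
 (.l (nat_lit 0xa8305)))
 (.l (nat_lit 0x22254)))
 (.n (.n (.l (nat_lit 0x85046))
 (.l (nat_lit 0x222ec05562600c)))
 (.l (nat_lit 0x1030b4)))))

def a256_204 : TA := .n a512_204 a512_460

def a128_76 : TA := .n a256_76 a256_204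

def a64_12 : TA := .n a128_12 a128_76

def a512_44 : TA :=
 .n (.n (.n (.n (.n (.l (nat_lit 0x20))
 (.l (nat_lit 0xc6275)))
 (.n (.l (nat_lit 0xe9024))
 (.l (nat_lit 0x14189cacc42600c))))
 (.n (.n (.l (nat_lit 0x27236))
 (.l (nat_lit 0x1081b4)))
 (.l (nat_lit 0x1211e5))))
 (.n (.n (.n (.l (nat_lit 0xb0e6))
 (.l (nat_lit 0x641a4)))
 (.l (nat_lit 0xe9166)))
 (.n (.n (.l (nat_lit 0x102025))
 (.l (nat_lit 0x1032c7)))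
 (.l (nat_lit 0x16b1f6)))))
 (.n (.n (.n (.n (.l (nat_lit 0x6802a2))
 (.l (nat_lit 0x1040c5)))
 (.l (nat_lit 0x10b2a4)))
 (.n (.n (.l (nat_lit 0x472a6))
 (.l (nat_lit 0xa7157)))
 (.l (nat_lit 0x430a5))))
 (.n (.n (.n (.l (nat_lit 0xa9156))
 (.l (nat_lit 0x47146)))
 (.l (nat_lit 0x16a017)))
 (.n (.n (.l (nat_lit 0xc0035))
 (.l (nat_lit 0x92a3)))
 (.l (nat_lit 0x80194)))))

def a512_300 : TA :=
 .n (.n (.n (.n (.n (.l (nat_lit 0x140120))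
 (.l (nat_lit 0x1062e4)))
 (.l (nat_lit 0x164055)))
 (.n (.n (.l (nat_lit 0x24024))
 (.l (nat_lit 0x1260a7)))
 (.l (nat_lit 0x2a2c5))))
 (.n (.n (.n (.l (nat_lit 0x102006))
 (.l (nat_lit 0xa72f4)))
 (.l (nat_lit 0x492b6)))
 (.n (.n (.l (nat_lit 0x12b025))
 (.l (nat_lit 0x14a0a3)))
 (.l (nat_lit 0x14b2d6)))))
 (.n (.n (.n (.n (.l (nat_lit 0x2076))
 (.l (nat_lit 0x1061a5)))
 (.l (nat_lit 0x82086)))
 (.n (.n (.l (nat_lit 0x1061c4))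
 (.l (nat_lit 0x21227)))
 (.l (nat_lit 0x42037))))
 (.n (.n (.n (.l (nat_lit 0x83054))
 (.l (nat_lit 0xc1295)))
 (.l (nat_lit 0x84106)))
 (.n (.n (.l (nat_lit 0x126046))
 (.l (nat_lit 0x8700b)))
 (.l (nat_lit 0x67196)))))

def a256_44 : TA := .n a512_44 a512_300

def a512_172 : TA :=
 .n (.n (.n (.n (.n (.l (nat_lit 0xa00072))
 (.l (nat_lit 0x1062e5)))
 (.n (.l (nat_lit 0x8b004))
 (.l (nat_lit 0xd4a0a76100600c))))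
 (.n (.n (.l (nat_lit 0xc0236))
 (.l (nat_lit 0x84077)))
 (.l (nat_lit 0x8a256))))
 (.n (.n (.n (.l (nat_lit 0xa60e5))
 (.l (nat_lit 0x65214)))
 (.l (nat_lit 0xc1245)))
 (.n (.n (.l (nat_lit 0x7054))
 (.l (nat_lit 0xc2043)))
 (.l (nat_lit 0x14b266)))))
 (.n (.n (.n (.n (.l (nat_lit 0x127075))
 (.l (nat_lit 0xe5135)))
 (.l (nat_lit 0xc9065)))
 (.n (.n (.l (nat_lit 0x16))
 (.l (nat_lit 0x1081c7)))
 (.l (nat_lit 0xa0264))))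
 (.n (.n (.n (.l (nat_lit 0x1451c5))
 (.l (nat_lit 0x162304)))
 (.l (nat_lit 0x164095)))
 (.n (.n (.l (nat_lit 0x281c4))
 (.l (nat_lit 0x2500009)))
 (.l (nat_lit 0x147125)))))

def a512_428 : TA :=
 .n (.n (.n (.n (.n (.l (nat_lit 0x1401f0))
 (.l (nat_lit 0x14b2e4)))
 (.l (nat_lit 0x60065)))
 (.n (.n (.l (nat_lit 0x14a2a6))
 (.l (nat_lit 0xb0e7)))
 (.l (nat_lit 0xca254))))
 (.n (.n (.n (.l (nat_lit 0xc22a4))
 (.l (nat_lit 0x1240d5)))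
 (.l (nat_lit 0xa80f4)))
 (.n (.n (.l (nat_lit 0x64035))
 (.l (nat_lit 0x10b193)))
 (.l (nat_lit 0xea2d4)))))
 (.n (.n (.n (.n (.l (nat_lit 0x20024))
 (.l (nat_lit 0x1630c4)))
 (.l (nat_lit 0xc40f6)))
 (.n (.n (.l (nat_lit 0x68016))
 (.l (nat_lit 0x82267)))
 (.l (nat_lit 0x162264))))
 (.n (.n (.n (.l (nat_lit 0x12b1c6))
 (.l (nat_lit 0x48306)))
 (.l (nat_lit 0xc5176)))
 (.n (.n (.l (nat_lit 0x22045))
 (.l (nat_lit 0x688988d400600c)))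
 (.l (nat_lit 0x121206)))))

def a256_172 : TA := .n a512_172 a512_428

def a128_44 : TA := .n a256_44 a256_172

def a512_108 : TA :=
 .n (.n (.n (.n (.n (.l (nat_lit 0x880042))
 (.l (nat_lit 0x87275)))
 (.n (.l (nat_lit 0xa3056))
 (.l (nat_lit 0xd50988ec02000c))))
 (.n (.n (.l (nat_lit 0x144074))
 (.l (nat_lit 0x89067)))
 (.l (nat_lit 0x2a255))))
 (.n (.n (.n (.l (nat_lit 0x101054))
 (.l (nat_lit 0xa5057)))
 (.l (nat_lit 0x830f4)))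
 (.n (.n (.l (nat_lit 0xaa026))
 (.l (nat_lit 0x40023)))
 (.l (nat_lit 0xc40a4)))))
 (.n (.n (.n (.n (.l (nat_lit 0x140006))
 (.l (nat_lit 0xa5136)))
 (.l (nat_lit 0x122066)))
 (.n (.n (.l (nat_lit 0xa5154))
 (.l (nat_lit 0x241a7)))
 (.l (nat_lit 0x620a6))))
 (.n (.n (.n (.l (nat_lit 0x62034))
 (.l (nat_lit 0x1481b5)))
 (.l (nat_lit 0xea096)))
 (.n (.n (.l (nat_lit 0xa5036))
 (.l (nat_lit 0x1440009)))
 (.l (nat_lit 0x670b6)))))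

def a512_364 : TA :=
 .n (.n (.n (.n (.n (.l (nat_lit 0x100181))
 (.l (nat_lit 0x87204)))
 (.l (nat_lit 0xea0e4)))
 (.n (.n (.l (nat_lit 0x1222a6))
 (.l (nat_lit 0xa30e7)))
 (.l (nat_lit 0xe9094))))
 (.n (.n (.n (.l (nat_lit 0x88155))
 (.l (nat_lit 0x1240d6)))
 (.l (nat_lit 0x250f4)))
 (.n (.n (.l (nat_lit 0x88005))
 (.l (nat_lit 0x109103)))
 (.l (nat_lit 0x4a037)))))
 (.n (.n (.n (.n (.l (nat_lit 0x49075))
 (.l (nat_lit 0x147216)))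
 (.l (nat_lit 0x81017)))
 (.n (.n (.l (nat_lit 0xc1016))
 (.l (nat_lit 0x126237)))
 (.l (nat_lit 0x1422d4))))
 (.n (.n (.n (.l (nat_lit 0x261c5))
 (.l (nat_lit 0xe1295)))
 (.l (nat_lit 0x142027)))
 (.n (.n (.l (nat_lit 0x892a4))
 (.l (nat_lit 0x1283610d100000c)))
 (.l (nat_lit 0x46195)))))

def a256_108 : TA := .n a512_108 a512_364

def a512_236 : TA :=
 .n (.n (.n (.n (.n (.l (nat_lit 0xd0))
 (.l (nat_lit 0x662e6)))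
 (.n (.l (nat_lit 0x2a006))
 (.l (nat_lit 0x150899b0320000c))))
 (.n (.n (.l (nat_lit 0x168235))
 (.l (nat_lit 0x2b077)))
 (.l (nat_lit 0x4b2c5))))
 (.n (.n (.n (.l (nat_lit 0x211c4))
 (.l (nat_lit 0x87134)))
 (.l (nat_lit 0x128245)))
 (.n (.n (.l (nat_lit 0x143026))
 (.l (nat_lit 0x144063)))
 (.l (nat_lit 0xeb2d5)))))
 (.n (.n (.n (.n (.l (nat_lit 0x801c4))
 (.l (nat_lit 0x461a6)))
 (.l (nat_lit 0x40017)))
 (.n (.n (.l (nat_lit 0x8015))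
 (.l (nat_lit 0xaa1f7)))
 (.l (nat_lit 0x61037))))
 (.n (.n (.n (.l (nat_lit 0x12a1c5))
 (.l (nat_lit 0xc3304)))
 (.l (nat_lit 0xa4106)))
 (.n (.n (.l (nat_lit 0x101046))
 (.l (nat_lit 0x14100b)))
 (.l (nat_lit 0xc7126)))))

def a512_492 : TA :=
 .n (.n (.n (.n (.n (.l (nat_lit 0x100240))
 (.l (nat_lit 0x240c6)))
 (.l (nat_lit 0x27065)))
 (.n (.n (.l (nat_lit 0xc5054))
 (.l (nat_lit 0x105127)))
 (.l (nat_lit 0x4b104))))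
 (.n (.n (.n (.l (nat_lit 0x44156))
 (.l (nat_lit 0x47145)))
 (.l (nat_lit 0x129017)))
 (.n (.n (.l (nat_lit 0x148074))
 (.l (nat_lit 0xa233)))
 (.l (nat_lit 0x6b184)))))
 (.n (.n (.n (.n (.l (nat_lit 0x1240e6))
 (.l (nat_lit 0x4134)))
 (.l (nat_lit 0x165166)))
 (.n (.n (.l (nat_lit 0x166234))
 (.l (nat_lit 0x62a7)))
 (.l (nat_lit 0xc30a4))))
 (.n (.n (.n (.l (nat_lit 0x84005))
 (.l (nat_lit 0x1470d4)))
 (.l (nat_lit 0xc11e6)))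
 (.n (.n (.l (nat_lit 0x167045))
 (.l (nat_lit 0xe10a870d42600c)))
 (.l (nat_lit 0xe1205)))))

def a256_236 : TA := .n a512_236 a512_492

def a128_108 : TA := .n a256_108 a256_236

def a64_44 : TA := .n a128_44 a128_108

def a32_12 : TA := .n a64_12 a64_44

def a512_28 : TA :=
 .n (.n (.n (.n (.n (.l (nat_lit 0x140011))
 (.l (nat_lit 0xe1276)))
 (.n (.l (nat_lit 0x169234))
 (.l (nat_lit 0x12a0588d022000c))))
 (.n (.n (.l (nat_lit 0x86235))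
 (.l (nat_lit 0x80d4)))
 (.l (nat_lit 0x201e5))))
 (.n (.n (.n (.l (nat_lit 0x290e5))
 (.l (nat_lit 0xe7285)))
 (.l (nat_lit 0x145166)))
 (.n (.n (.l (nat_lit 0x160026))
 (.l (nat_lit 0x2a2a7)))
 (.l (nat_lit 0x2a1f6)))))
 (.n (.n (.n (.n (.l (nat_lit 0x802a0))
 (.l (nat_lit 0x1220c6)))
 (.l (nat_lit 0xb1c4)))
 (.n (.n (.l (nat_lit 0xc32a5))
 (.l (nat_lit 0x106157)))
 (.l (nat_lit 0xc0037))))
 (.n (.n (.n (.l (nat_lit 0x108156))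
 (.l (nat_lit 0x63146)))
 (.l (nat_lit 0x10a0f4)))
 (.n (.n (.l (nat_lit 0x148064))
 (.l (nat_lit 0x62a3)))
 (.l (nat_lit 0xa60b5)))))

def a512_284 : TA :=
 .n (.n (.n (.n (.n (.l (nat_lit 0x110))
 (.l (nat_lit 0x6204)))
 (.l (nat_lit 0x63055)))
 (.n (.n (.l (nat_lit 0xa40e4))
 (.l (nat_lit 0x240a7)))
 (.l (nat_lit 0x92c5))))
 (.n (.n (.n (.l (nat_lit 0x21064))
 (.l (nat_lit 0x1271a4)))
 (.l (nat_lit 0xa22b6)))
 (.n (.n (.l (nat_lit 0x2a025))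
 (.l (nat_lit 0x102093)))
 (.l (nat_lit 0x1622d5)))))
 (.n (.n (.n (.n (.l (nat_lit 0xa0005))
 (.l (nat_lit 0x1641a6)))
 (.l (nat_lit 0xa9086)))
 (.n (.n (.l (nat_lit 0x60e4))
 (.l (nat_lit 0xa5217)))
 (.l (nat_lit 0xe11f4))))
 (.n (.n (.n (.l (nat_lit 0x103024))
 (.l (nat_lit 0xc4067)))
 (.l (nat_lit 0xc1254)))
 (.n (.n (.l (nat_lit 0x25045))
 (.l (nat_lit 0x600b)))
 (.l (nat_lit 0x6196)))))

def a256_28 : TA := .n a512_28 a512_284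

def a512_156 : TA :=
 .n (.n (.n (.n (.n (.l (nat_lit 0xa80062))
 (.l (nat_lit 0x222e6)))
 (.n (.l (nat_lit 0x127056))
 (.l (nat_lit 0xd0a8876100000c))))
 (.n (.n (.l (nat_lit 0x144064))
 (.l (nat_lit 0x102077)))
 (.l (nat_lit 0xe2255))))
 (.n (.n (.n (.l (nat_lit 0x1050e5))
 (.l (nat_lit 0xe72f6)))
 (.l (nat_lit 0x1632b4)))
 (.n (.n (.l (nat_lit 0x87234))
 (.l (nat_lit 0xc4033)))
 (.l (nat_lit 0x26266)))))
 (.n (.n (.n (.n (.l (nat_lit 0x146075))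
 (.l (nat_lit 0x163136)))
 (.l (nat_lit 0x167066)))
 (.n (.n (.l (nat_lit 0x86005))
 (.l (nat_lit 0x71c7)))
 (.l (nat_lit 0x12b0a5))))
 (.n (.n (.n (.l (nat_lit 0x411c6))
 (.l (nat_lit 0x1271b5)))
 (.l (nat_lit 0x63095)))
 (.n (.n (.l (nat_lit 0xa8074))
 (.l (nat_lit 0x14c0009)))
 (.l (nat_lit 0x165126)))))

def a512_412 : TA :=
 .n (.n (.n (.n (.n (.l (nat_lit 0x401d0))
 (.l (nat_lit 0xb0b4)))
 (.l (nat_lit 0xcb005)))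
 (.n (.n (.l (nat_lit 0x92a6))
 (.l (nat_lit 0x890e7)))
 (.l (nat_lit 0x14a104))))
 (.n (.n (.n (.l (nat_lit 0x143004))
 (.l (nat_lit 0x120067)))
 (.l (nat_lit 0xc82b4)))
 (.n (.n (.l (nat_lit 0xc3035))
 (.l (nat_lit 0x10a153)))
 (.l (nat_lit 0x16a0a4)))))
 (.n (.n (.n (.n (.l (nat_lit 0xa01c4))
 (.l (nat_lit 0x47215)))
 (.l (nat_lit 0x81244)))
 (.n (.n (.l (nat_lit 0xc5015))
 (.l (nat_lit 0x12b237)))
 (.l (nat_lit 0x2b185))))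
 (.n (.n (.n (.l (nat_lit 0x2a1c6))
 (.l (nat_lit 0x5067)))
 (.l (nat_lit 0x142094)))
 (.n (.n (.l (nat_lit 0x81045))
 (.l (nat_lit 0xe895831102000c)))
 (.l (nat_lit 0x103047)))))

def a256_156 : TA := .n a512_156 a512_412

def a128_28 : TA := .n a256_28 a256_156

def a512_92 : TA :=
 .n (.n (.n (.n (.n (.l (nat_lit 0x80040))
 (.l (nat_lit 0x121275)))
 (.n (.l (nat_lit 0x102056))
 (.l (nat_lit 0xd40988ec00000c))))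
 (.n (.n (.l (nat_lit 0x6b235))
 (.l (nat_lit 0x128224)))
 (.l (nat_lit 0x144027))))
 (.n (.n (.n (.l (nat_lit 0x1034))
 (.l (nat_lit 0x1272f5)))
 (.l (nat_lit 0xa91d5)))
 (.n (.n (.l (nat_lit 0x109025))
 (.l (nat_lit 0xc5013)))
 (.l (nat_lit 0x16a265)))))
 (.n (.n (.n (.n (.l (nat_lit 0x300))
 (.l (nat_lit 0x81057)))
 (.l (nat_lit 0x101066)))
 (.n (.n (.l (nat_lit 0x10b2a6))
 (.l (nat_lit 0xa0187)))
 (.l (nat_lit 0xc0184))))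
 (.n (.n (.n (.l (nat_lit 0xe22a4))
 (.l (nat_lit 0x1241b5)))
 (.l (nat_lit 0x123096)))
 (.n (.n (.l (nat_lit 0x104036))
 (.l (nat_lit 0x400009)))
 (.l (nat_lit 0xe40b5)))))

def a512_348 : TA :=
 .n (.n (.n (.n (.n (.l (nat_lit 0x140160))
 (.l (nat_lit 0x1070b4)))
 (.l (nat_lit 0x168055)))
 (.n (.n (.l (nat_lit 0x212a5))
 (.l (nat_lit 0x1270d7)))
 (.l (nat_lit 0x109254))))
 (.n (.n (.n (.l (nat_lit 0x126156))
 (.l (nat_lit 0x30d5)))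
 (.l (nat_lit 0x282b5)))
 (.n (.n (.l (nat_lit 0x127044))
 (.l (nat_lit 0x830f3)))
 (.l (nat_lit 0x26037)))))
 (.n (.n (.n (.n (.l (nat_lit 0xa7076))
 (.l (nat_lit 0x120216)))
 (.l (nat_lit 0x12a085)))
 (.n (.n (.l (nat_lit 0x126004))
 (.l (nat_lit 0x22237)))
 (.l (nat_lit 0x420a4))))
 (.n (.n (.n (.l (nat_lit 0x851c6))
 (.l (nat_lit 0x164067)))
 (.l (nat_lit 0x1611e4)))
 (.n (.n (.l (nat_lit 0x109154))
 (.l (nat_lit 0xcb00b)))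
 (.l (nat_lit 0xe4196)))))

def a256_92 : TA := .n a512_92 a512_348

def a512_220 : TA :=
 .n (.n (.n (.n (.n (.l (nat_lit 0x1000b1))
 (.l (nat_lit 0x822e6)))
 (.n (.l (nat_lit 0x8a024))
 (.l (nat_lit 0xc8899b1d40000c))))
 (.n (.n (.l (nat_lit 0x67235))
 (.l (nat_lit 0x8a077)))
 (.l (nat_lit 0x492c6))))
 (.n (.n (.n (.l (nat_lit 0x8b0e5))
 (.l (nat_lit 0x1260c4)))
 (.l (nat_lit 0xc1246)))
 (.n (.n (.l (nat_lit 0x2026))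
 (.l (nat_lit 0x48053)))
 (.l (nat_lit 0x1632d6)))))
 (.n (.n (.n (.n (.l (nat_lit 0x12b076))
 (.l (nat_lit 0xe41a5)))
 (.l (nat_lit 0xeb024)))
 (.n (.n (.l (nat_lit 0xa4016))
 (.l (nat_lit 0x1081d7)))
 (.l (nat_lit 0x11f4))))
 (.n (.n (.n (.l (nat_lit 0x291c5))
 (.l (nat_lit 0x89225)))
 (.l (nat_lit 0xc1027)))
 (.n (.n (.l (nat_lit 0x45))
 (.l (nat_lit 0x8000a)))
 (.l (nat_lit 0x165125)))))

def a512_476 : TA :=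
 .n (.n (.n (.n (.n (.l (nat_lit 0x800232))
 (.l (nat_lit 0x420c5)))
 (.l (nat_lit 0xa4066)))
 (.n (.n (.l (nat_lit 0x145024))
 (.l (nat_lit 0x24117)))
 (.l (nat_lit 0xea2c4))))
 (.n (.n (.n (.l (nat_lit 0xe2006))
 (.l (nat_lit 0xc4145)))
 (.l (nat_lit 0x9244)))
 (.n (.n (.l (nat_lit 0x6b036))
 (.l (nat_lit 0x5213)))
 (.l (nat_lit 0xeb037)))))
 (.n (.n (.n (.n (.l (nat_lit 0x230e5))
 (.l (nat_lit 0x47286)))
 (.l (nat_lit 0x42017)))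
 (.n (.n (.l (nat_lit 0x66154))
 (.l (nat_lit 0xa22a7)))
 (.l (nat_lit 0x16a1f5))))
 (.n (.n (.n (.l (nat_lit 0x123044))
 (.l (nat_lit 0x25224)))
 (.l (nat_lit 0x103027)))
 (.n (.n (.l (nat_lit 0x66045))
 (.l (nat_lit 0x2560bb0142600c)))
 (.l (nat_lit 0x100206)))))

def a256_220 : TA := .n a512_220 a512_476

def a128_92 : TA := .n a256_92 a256_220

def a64_28 : TA := .n a128_28 a128_92

def a512_60 : TA :=
 .n (.n (.n (.n (.n (.l (nat_lit 0x840022))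
 (.l (nat_lit 0x440b4)))
 (.n (.l (nat_lit 0x4a006))
 (.l (nat_lit 0x11a22b85500600c))))
 (.n (.n (.l (nat_lit 0x128236))
 (.l (nat_lit 0x88304)))
 (.l (nat_lit 0xea1e6))))
 (.n (.n (.n (.l (nat_lit 0x102004))
 (.l (nat_lit 0x422f5)))
 (.l (nat_lit 0xe2244)))
 (.n (.n (.l (nat_lit 0xa3025))
 (.l (nat_lit 0x822d7)))
 (.l (nat_lit 0x44037)))))
 (.n (.n (.n (.n (.l (nat_lit 0xb002b2))
 (.l (nat_lit 0x1070c6)))
 (.l (nat_lit 0x8b044)))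
 (.n (.n (.l (nat_lit 0x282a5))
 (.l (nat_lit 0x9157)))
 (.l (nat_lit 0x1440a6))))
 (.n (.n (.n (.l (nat_lit 0xb155))
 (.l (nat_lit 0x89146)))
 (.l (nat_lit 0x6a244)))
 (.n (.n (.l (nat_lit 0x61035))
 (.l (nat_lit 0x1412d3)))
 (.l (nat_lit 0x420b6)))))

def a512_316 : TA :=
 .n (.n (.n (.n (.n (.l (nat_lit 0x600142))
 (.l (nat_lit 0xa6194)))
 (.l (nat_lit 0xc6056)))
 (.n (.n (.l (nat_lit 0x124044))
 (.l (nat_lit 0x870b7)))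
 (.l (nat_lit 0x25174))))
 (.n (.n (.n (.l (nat_lit 0x84155))
 (.l (nat_lit 0x48134)))
 (.l (nat_lit 0x145164)))
 (.n (.n (.l (nat_lit 0xa70e4))
 (.l (nat_lit 0x50e3)))
 (.l (nat_lit 0xe51f4)))))
 (.n (.n (.n (.n (.l (nat_lit 0x103076))
 (.l (nat_lit 0xa20c4)))
 (.l (nat_lit 0x24085)))
 (.n (.n (.l (nat_lit 0x86034))
 (.l (nat_lit 0x127227)))
 (.l (nat_lit 0x85185))))
 (.n (.n (.n (.l (nat_lit 0x23006))
 (.l (nat_lit 0xc7296)))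
 (.l (nat_lit 0x9106)))
 (.n (.n (.l (nat_lit 0x8b045))
 (.l (nat_lit 0x10800b)))
 (.l (nat_lit 0xc2274)))))

def a256_60 : TA := .n a512_60 a512_316

def a512_188 : TA :=
 .n (.n (.n (.n (.n (.l (nat_lit 0x140080))
 (.l (nat_lit 0x14b2e5)))
 (.n (.l (nat_lit 0xa154))
 (.l (nat_lit 0x1486a1ac440000c))))
 (.n (.n (.l (nat_lit 0x61235))
 (.l (nat_lit 0x7077)))
 (.l (nat_lit 0xe4104))))
 (.n (.n (.n (.l (nat_lit 0x280e6))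
 (.l (nat_lit 0x86134)))
 (.l (nat_lit 0x89246)))
 (.n (.n (.l (nat_lit 0x127005))
 (.l (nat_lit 0xc7043)))
 (.l (nat_lit 0xe4114)))))
 (.n (.n (.n (.n (.l (nat_lit 0x89076))
 (.l (nat_lit 0x127136)))
 (.l (nat_lit 0x6b0e4)))
 (.n (.n (.l (nat_lit 0x161015))
 (.l (nat_lit 0xa91c7)))
 (.l (nat_lit 0x84115))))
 (.n (.n (.n (.l (nat_lit 0xe61c6))
 (.l (nat_lit 0x120226)))
 (.l (nat_lit 0x10a095)))
 (.n (.n (.l (nat_lit 0x1282a4))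
 (.l (nat_lit 0x500009)))
 (.l (nat_lit 0x101274)))))

def a512_444 : TA :=
 .n (.n (.n (.n (.n (.l (nat_lit 0x840202))
 (.l (nat_lit 0x16b124)))
 (.l (nat_lit 0x161065)))
 (.n (.n (.l (nat_lit 0xeb2a5))
 (.l (nat_lit 0x1030f7)))
 (.l (nat_lit 0x6a094))))
 (.n (.n (.n (.l (nat_lit 0x42034))
 (.l (nat_lit 0x1090d5)))
 (.l (nat_lit 0x1282b4)))
 (.n (.n (.l (nat_lit 0x165035))
 (.l (nat_lit 0x1471a3)))
 (.l (nat_lit 0x4b114)))))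
 (.n (.n (.n (.n (.l (nat_lit 0x120044))
 (.l (nat_lit 0x144057)))
 (.l (nat_lit 0x480f6)))
 (.n (.n (.l (nat_lit 0x169015))
 (.l (nat_lit 0x20287)))
 (.l (nat_lit 0xc01f5))))
 (.n (.n (.n (.l (nat_lit 0xa30e4))
 (.l (nat_lit 0xc2306)))
 (.l (nat_lit 0x8a176)))
 (.n (.n (.l (nat_lit 0x123045))
 (.l (nat_lit 0x1582ec0d100000c)))
 (.l (nat_lit 0xc7206)))))

def a256_188 : TA := .n a512_188 a512_444

def a128_60 : TA := .n a256_60 a256_188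

def a512_124 : TA :=
 .n (.n (.n (.n (.n (.l (nat_lit 0x600052))
 (.l (nat_lit 0xa40b4)))
 (.n (.l (nat_lit 0x85055))
 (.l (nat_lit 0x1183588e900600c))))
 (.n (.n (.l (nat_lit 0xc4014))
 (.l (nat_lit 0x91b4)))
 (.l (nat_lit 0x144094))))
 (.n (.n (.n (.l (nat_lit 0xa1006))
 (.l (nat_lit 0x422f6)))
 (.l (nat_lit 0xe01d5)))
 (.n (.n (.l (nat_lit 0x8004))
 (.l (nat_lit 0x49023)))
 (.l (nat_lit 0x64037)))))
 (.n (.n (.n (.n (.l (nat_lit 0xe2075))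
 (.l (nat_lit 0x48135)))
 (.l (nat_lit 0xc4065)))
 (.n (.n (.l (nat_lit 0x25024))
 (.l (nat_lit 0x1001c7)))
 (.l (nat_lit 0x40a5))))
 (.n (.n (.n (.l (nat_lit 0x162054))
 (.l (nat_lit 0x1020d4)))
 (.l (nat_lit 0xc0174)))
 (.n (.n (.l (nat_lit 0xa036))
 (.l (nat_lit 0x2480009)))
 (.l (nat_lit 0xa0194)))))

def a512_380 : TA :=
 .n (.n (.n (.n (.n (.l (nat_lit 0xc01a0))
 (.l (nat_lit 0x67047)))
 (.l (nat_lit 0x6a234)))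
 (.n (.n (.l (nat_lit 0x862a5))
 (.l (nat_lit 0x60e7)))
 (.l (nat_lit 0xe91e4))))
 (.n (.n (.n (.l (nat_lit 0xa9155))
 (.l (nat_lit 0x1480d5)))
 (.l (nat_lit 0x108017)))
 (.n (.n (.l (nat_lit 0x20036))
 (.l (nat_lit 0x14b123)))
 (.l (nat_lit 0x14a114)))))
 (.n (.n (.n (.n (.l (nat_lit 0x2a075))
 (.l (nat_lit 0xc32f4)))
 (.l (nat_lit 0x250f6)))
 (.n (.n (.l (nat_lit 0x62016))
 (.l (nat_lit 0xa8237)))
 (.l (nat_lit 0x104186))))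
 (.n (.n (.n (.l (nat_lit 0x1271c5))
 (.l (nat_lit 0xc8295)))
 (.l (nat_lit 0x125176)))
 (.n (.n (.l (nat_lit 0x9064))
 (.l (nat_lit 0xe894c0d102600c)))
 (.l (nat_lit 0x147195)))))

def a256_124 : TA := .n a512_124 a512_380

def a256_252 : TA :=
 .n (.n (.n (.n (.n (.n (.l (nat_lit 0x4000e2))
 (.l (nat_lit 0x65124)))
 (.l (nat_lit 0x120056)))
 (.n (.n (.l (nat_lit 0x14a236))
 (.l (nat_lit 0x128087)))
 (.l (nat_lit 0x25027))))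
 (.n (.n (.n (.l (nat_lit 0x1212a4))
 (.l (nat_lit 0x7284)))
 (.l (nat_lit 0x10a246)))
 (.n (.n (.l (nat_lit 0x124026))
 (.l (nat_lit 0xc2073)))
 (.l (nat_lit 0x451f4)))))
 (.n (.n (.n (.n (.l (nat_lit 0x24))
 (.l (nat_lit 0x420c4)))
 (.l (nat_lit 0x3085)))
 (.n (.n (.l (nat_lit 0x109015))
 (.l (nat_lit 0x25207)))
 (.l (nat_lit 0x164115))))
 (.n (.n (.n (.l (nat_lit 0x84004))
 (.l (nat_lit 0x41225)))
 (.l (nat_lit 0x129105)))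
 (.n (.n (.l (nat_lit 0xa2046))
 (.l (nat_lit 0x4300a)))
 (.l (nat_lit 0xe1274))))))
 (.n (.n (.n (.n (.n (.l (nat_lit 0x100261))
 (.l (nat_lit 0x670c5)))
 (.l (nat_lit 0x128066)))
 (.n (.n (.l (nat_lit 0x65006))
 (.l (nat_lit 0x80157)))
 (.l (nat_lit 0xb254))))
 (.n (.n (.n (.l (nat_lit 0x145156))
 (.l (nat_lit 0xa8145)))
 (.l (nat_lit 0xa9164)))
 (.n (.n (.l (nat_lit 0xc81c4))
 (.l (nat_lit 0x8243)))
 (.l (nat_lit 0x16b264)))))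
 (.n (.n (.n (.n (.l (nat_lit 0xc60e6))
 (.l (nat_lit 0x20286)))
 (.l (nat_lit 0x109165)))
 (.n (.n (.l (nat_lit 0xe6044))
 (.l (nat_lit 0x1072a7)))
 (.l (nat_lit 0xc01f6))))
 (.n (.n (.n (.l (nat_lit 0x20235))
 (.l (nat_lit 0xe7067)))
 (.l (nat_lit 0xaa1e5)))
 (.n (.n (.l (nat_lit 0xea004))
 (.l (nat_lit 0x119ae02d100000c)))
 (.l (nat_lit 0x47205))))))

def a128_124 : TA := .n a256_124 a256_252

def a64_60 : TA := .n a128_60 a128_124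

def a32_28 : TA := .n a64_28 a64_60

def a16_12 : TA := .n a32_12 a32_28

def a8_4 : TA := .n a16_4 a16_12

def a4_0 : TA := .n a8_0 a8_4

def a512_2 : TA :=
 .n (.n (.n (.n (.n (.l (nat_lit 0x80000))
 (.l (nat_lit 0x4b206)))
 (.n (.l (nat_lit 0xe9074))
 (.l (nat_lit 0x1016a82d522600c))))
 (.n (.n (.l (nat_lit 0x1235))
 (.l (nat_lit 0x1270d4)))
 (.l (nat_lit 0x8b1e5))))
 (.n (.n (.n (.l (nat_lit 0x1070e5))
 (.l (nat_lit 0x1286)))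
 (.l (nat_lit 0x2a165)))
 (.n (.n (.l (nat_lit 0xe6054))
 (.l (nat_lit 0x1272a7)))
 (.l (nat_lit 0xe01f5)))))
 (.n (.n (.n (.n (.l (nat_lit 0x140270))
 (.l (nat_lit 0x401a4)))
 (.l (nat_lit 0x109066)))
 (.n (.n (.l (nat_lit 0x412a6))
 (.l (nat_lit 0xa0157)))
 (.l (nat_lit 0x4b2c4))))
 (.n (.n (.n (.l (nat_lit 0x165155))
 (.l (nat_lit 0x81224)))
 (.l (nat_lit 0xa91d4)))
 (.n (.n (.l (nat_lit 0xc8234))
 (.l (nat_lit 0x4b253)))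
 (.l (nat_lit 0x16b2d4)))))

def a512_258 : TA :=
 .n (.n (.n (.n (.n (.l (nat_lit 0x6800e2))
 (.l (nat_lit 0x65194)))
 (.l (nat_lit 0x101056)))
 (.n (.n (.l (nat_lit 0xb236))
 (.l (nat_lit 0x122097)))
 (.l (nat_lit 0x212c6))))
 (.n (.n (.n (.l (nat_lit 0x121014))
 (.l (nat_lit 0x472f4)))
 (.l (nat_lit 0x124084)))
 (.n (.n (.l (nat_lit 0x105025))
 (.l (nat_lit 0x144073)))
 (.l (nat_lit 0x65037)))))
 (.n (.n (.n (.n (.l (nat_lit 0x34))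
 (.l (nat_lit 0x422f4)))
 (.l (nat_lit 0x23086)))
 (.n (.n (.l (nat_lit 0x129016))
 (.l (nat_lit 0x6207)))
 (.l (nat_lit 0x6115))))
 (.n (.n (.n (.l (nat_lit 0x83074))
 (.l (nat_lit 0x48225)))
 (.l (nat_lit 0x2a106)))
 (.n (.n (.l (nat_lit 0xc3046))
 (.l (nat_lit 0x10300a)))
 (.l (nat_lit 0xe12e4)))))

def a256_2 : TA := .n a512_2 a512_258

def a512_130 : TA :=
 .n (.n (.n (.n (.n (.l (nat_lit 0xa40052))
 (.l (nat_lit 0xa4124)))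
 (.n (.l (nat_lit 0xa5055))
 (.l (nat_lit 0xd094886c00000c))))
 (.n (.n (.l (nat_lit 0xc4024))
 (.l (nat_lit 0x49224)))
 (.l (nat_lit 0x144104))))
 (.n (.n (.n (.l (nat_lit 0x830e6))
 (.l (nat_lit 0x622f5)))
 (.l (nat_lit 0xc11d5)))
 (.n (.n (.l (nat_lit 0x7074))
 (.l (nat_lit 0x4b023)))
 (.l (nat_lit 0x60266)))))
 (.n (.n (.n (.n (.l (nat_lit 0xc3075))
 (.l (nat_lit 0x68135)))
 (.l (nat_lit 0xe4065)))
 (.n (.n (.l (nat_lit 0x25034))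
 (.l (nat_lit 0x1011c7)))
 (.l (nat_lit 0x240a5))))
 (.n (.n (.n (.l (nat_lit 0x162064))
 (.l (nat_lit 0x102304)))
 (.l (nat_lit 0x1001e4)))
 (.n (.n (.l (nat_lit 0x2a036))
 (.l (nat_lit 0x1880009)))
 (.l (nat_lit 0xa0204)))))

def a512_386 : TA :=
 .n (.n (.n (.n (.n (.l (nat_lit 0x1401b0))
 (.l (nat_lit 0x670b4)))
 (.l (nat_lit 0x6a2a4)))
 (.n (.n (.l (nat_lit 0xa62a5))
 (.l (nat_lit 0x70e7)))
 (.l (nat_lit 0xe9254))))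
 (.n (.n (.n (.l (nat_lit 0x8a155))
 (.l (nat_lit 0x1680d5)))
 (.l (nat_lit 0x108084)))
 (.n (.n (.l (nat_lit 0x1036))
 (.l (nat_lit 0x140153)))
 (.l (nat_lit 0x14a184)))))
 (.n (.n (.n (.n (.l (nat_lit 0xb075))
 (.l (nat_lit 0xe3057)))
 (.l (nat_lit 0x80f5)))
 (.n (.n (.l (nat_lit 0x43016))
 (.l (nat_lit 0x89237)))
 (.l (nat_lit 0x105186))))
 (.n (.n (.n (.l (nat_lit 0x1081c5))
 (.l (nat_lit 0xe8295)))
 (.l (nat_lit 0x69175)))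
 (.n (.n (.l (nat_lit 0x29005))
 (.l (nat_lit 0x6889d2d402600c)))
 (.l (nat_lit 0x6b195)))))

def a256_130 : TA := .n a512_130 a512_386

def a128_2 : TA := .n a256_2 a256_130

def a512_66 : TA :=
 .n (.n (.n (.n (.n (.l (nat_lit 0xb00022))
 (.l (nat_lit 0x44124)))
 (.n (.l (nat_lit 0x40055))
 (.l (nat_lit 0xd508872900000c))))
 (.n (.n (.l (nat_lit 0x109236))
 (.l (nat_lit 0xa8067)))
 (.l (nat_lit 0xcb1e6))))
 (.n (.n (.n (.l (nat_lit 0x1011c4))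
 (.l (nat_lit 0x622f6)))
 (.l (nat_lit 0xe22b4)))
 (.n (.n (.l (nat_lit 0x84025))
 (.l (nat_lit 0x80013)))
 (.l (nat_lit 0x41265)))))
 (.n (.n (.n (.n (.l (nat_lit 0x1402c0))
 (.l (nat_lit 0x1670c6)))
 (.l (nat_lit 0xab005)))
 (.n (.n (.l (nat_lit 0x92a5))
 (.l (nat_lit 0x29157)))
 (.l (nat_lit 0x1460a5))))
 (.n (.n (.n (.l (nat_lit 0x6b155))
 (.l (nat_lit 0x121224)))
 (.l (nat_lit 0x40027)))
 (.n (.n (.l (nat_lit 0x42035))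
 (.l (nat_lit 0x32f3)))
 (.l (nat_lit 0x620b6)))))

def a512_322 : TA :=
 .n (.n (.n (.n (.n (.l (nat_lit 0x80150))
 (.l (nat_lit 0xa6204)))
 (.l (nat_lit 0xe6056)))
 (.n (.n (.l (nat_lit 0x124054))
 (.l (nat_lit 0x820c7)))
 (.l (nat_lit 0x9027))))
 (.n (.n (.n (.l (nat_lit 0xa4155))
 (.l (nat_lit 0x68057)))
 (.l (nat_lit 0x165017)))
 (.n (.n (.l (nat_lit 0xa7154))
 (.l (nat_lit 0x60e3)))
 (.l (nat_lit 0xc6037)))))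
 (.n (.n (.n (.n (.l (nat_lit 0x123075))
 (.l (nat_lit 0xa2284)))
 (.l (nat_lit 0x48086)))
 (.n (.n (.l (nat_lit 0x86044))
 (.l (nat_lit 0x100237)))
 (.l (nat_lit 0xa5186))))
 (.n (.n (.n (.l (nat_lit 0x1c6))
 (.l (nat_lit 0xc8296)))
 (.l (nat_lit 0xe9106)))
 (.n (.n (.l (nat_lit 0xab045))
 (.l (nat_lit 0x4900b)))
 (.l (nat_lit 0xc22e4)))))

def a256_66 : TA := .n a512_66 a512_322

def a512_194 : TA :=
 .n (.n (.n (.n (.n (.l (nat_lit 0x90))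
 (.l (nat_lit 0x16b2e5)))
 (.n (.l (nat_lit 0xa1c4))
 (.l (nat_lit 0x1086a1ae542000c))))
 (.n (.n (.l (nat_lit 0x42235))
 (.l (nat_lit 0x27077)))
 (.l (nat_lit 0xc5027))))
 (.n (.n (.n (.l (nat_lit 0x90e6))
 (.l (nat_lit 0x861a4)))
 (.l (nat_lit 0xea245)))
 (.n (.n (.l (nat_lit 0x127006))
 (.l (nat_lit 0x10b043)))
 (.l (nat_lit 0xe4184)))))
 (.n (.n (.n (.n (.l (nat_lit 0xa9076))
 (.l (nat_lit 0x121214)))
 (.l (nat_lit 0x6b154)))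
 (.n (.n (.l (nat_lit 0x142015))
 (.l (nat_lit 0x8a1c7)))
 (.l (nat_lit 0xa4116))))
 (.n (.n (.n (.l (nat_lit 0xc71c6))
 (.l (nat_lit 0x141226)))
 (.l (nat_lit 0x12a095)))
 (.n (.n (.l (nat_lit 0x128014))
 (.l (nat_lit 0x2940009)))
 (.l (nat_lit 0x121047)))))

def a512_450 : TA :=
 .n (.n (.n (.n (.n (.l (nat_lit 0x210))
 (.l (nat_lit 0x16b194)))
 (.l (nat_lit 0x142065)))
 (.n (.n (.l (nat_lit 0xc50e4))
 (.l (nat_lit 0x1250f7)))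
 (.l (nat_lit 0x6a104))))
 (.n (.n (.n (.l (nat_lit 0x42044))
 (.l (nat_lit 0x20224)))
 (.l (nat_lit 0x109017)))
 (.n (.n (.l (nat_lit 0x146036))
 (.l (nat_lit 0x1411c3)))
 (.l (nat_lit 0x4b184)))))
 (.n (.n (.n (.n (.l (nat_lit 0x120054))
 (.l (nat_lit 0x160285)))
 (.l (nat_lit 0xa80f6)))
 (.n (.n (.l (nat_lit 0x14a015))
 (.l (nat_lit 0x22297)))
 (.l (nat_lit 0xe01f6))))
 (.n (.n (.n (.l (nat_lit 0xa32a4))
 (.l (nat_lit 0x122305)))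
 (.l (nat_lit 0xaa176)))
 (.n (.n (.l (nat_lit 0x104046))
 (.l (nat_lit 0x16068cad102000c)))
 (.l (nat_lit 0x14b205)))))

def a256_194 : TA := .n a512_194 a512_450

def a128_66 : TA := .n a256_66 a256_194

def a64_2 : TA := .n a128_2 a128_66

def a512_34 : TA :=
 .n (.n (.n (.n (.n (.l (nat_lit 0xa00012))
 (.l (nat_lit 0x102276)))
 (.n (.l (nat_lit 0x1692a4))
 (.l (nat_lit 0x102a5895322600c))))
 (.n (.n (.l (nat_lit 0xa6235))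
 (.l (nat_lit 0x8144)))
 (.l (nat_lit 0x11e5))))
 (.n (.n (.n (.l (nat_lit 0xa0e6))
 (.l (nat_lit 0xe40c4)))
 (.l (nat_lit 0x165165)))
 (.n (.n (.l (nat_lit 0x21026))
 (.l (nat_lit 0x2b2a7)))
 (.l (nat_lit 0x4b1f6)))))
 (.n (.n (.n (.n (.l (nat_lit 0x1802a1))
 (.l (nat_lit 0x1430c6)))
 (.l (nat_lit 0xb234)))
 (.n (.n (.l (nat_lit 0xe32a5))
 (.l (nat_lit 0x126157)))
 (.l (nat_lit 0xc20a5))))
 (.n (.n (.n (.l (nat_lit 0x128156))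
 (.l (nat_lit 0x44146)))
 (.l (nat_lit 0x14a164)))
 (.n (.n (.l (nat_lit 0x168005))
 (.l (nat_lit 0x72a3)))
 (.l (nat_lit 0x870b5)))))

def a512_290 : TA :=
 .n (.n (.n (.n (.n (.l (nat_lit 0x100111))
 (.l (nat_lit 0x6274)))
 (.l (nat_lit 0x44055)))
 (.n (.n (.l (nat_lit 0xa4154))
 (.l (nat_lit 0x60a7)))
 (.l (nat_lit 0x292c5))))
 (.n (.n (.n (.l (nat_lit 0x2005))
 (.l (nat_lit 0x127214)))
 (.l (nat_lit 0xc82b6)))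
 (.n (.n (.l (nat_lit 0xb025))
 (.l (nat_lit 0x104093)))
 (.l (nat_lit 0xa2d5)))))
 (.n (.n (.n (.n (.l (nat_lit 0xa0006))
 (.l (nat_lit 0x251a5)))
 (.l (nat_lit 0x80244)))
 (.n (.n (.l (nat_lit 0x6154))
 (.l (nat_lit 0xa7217)))
 (.l (nat_lit 0xe1264))))
 (.n (.n (.n (.l (nat_lit 0x103034))
 (.l (nat_lit 0x100295)))
 (.l (nat_lit 0xe1027)))
 (.n (.n (.l (nat_lit 0x6045))
 (.l (nat_lit 0xc600b)))
 (.l (nat_lit 0x26196)))))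

def a256_34 : TA := .n a512_34 a512_290

def a512_162 : TA :=
 .n (.n (.n (.n (.n (.l (nat_lit 0x80070))
 (.l (nat_lit 0x32e6)))
 (.n (.l (nat_lit 0x108056))
 (.l (nat_lit 0xec08876100000c))))
 (.n (.n (.l (nat_lit 0x164005))
 (.l (nat_lit 0x122077)))
 (.l (nat_lit 0xc9255))))
 (.n (.n (.n (.l (nat_lit 0x1250e5))
 (.l (nat_lit 0xe5134)))
 (.l (nat_lit 0x144017)))
 (.n (.n (.l (nat_lit 0x872a4))
 (.l (nat_lit 0xc6033)))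
 (.l (nat_lit 0xa266)))))
 (.n (.n (.n (.n (.l (nat_lit 0x7075))
 (.l (nat_lit 0x144136)))
 (.l (nat_lit 0x148066)))
 (.n (.n (.l (nat_lit 0x86006))
 (.l (nat_lit 0x271c7)))
 (.l (nat_lit 0x120184))))
 (.n (.n (.n (.l (nat_lit 0x611c6))
 (.l (nat_lit 0x22294)))
 (.l (nat_lit 0x44095)))
 (.n (.n (.l (nat_lit 0xa80e4))
 (.l (nat_lit 0x8c0009)))
 (.l (nat_lit 0x146126)))))

def a512_418 : TA :=
 .n (.n (.n (.n (.n (.l (nat_lit 0x1e0))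
 (.l (nat_lit 0xb204)))
 (.l (nat_lit 0xcb006)))
 (.n (.n (.l (nat_lit 0x692a6))
 (.l (nat_lit 0xa90e7)))
 (.l (nat_lit 0x14a174))))
 (.n (.n (.n (.l (nat_lit 0x142074))
 (.l (nat_lit 0x230d5)))
 (.l (nat_lit 0xe8017)))
 (.n (.n (.l (nat_lit 0xe3035))
 (.l (nat_lit 0x144163)))
 (.l (nat_lit 0x16a1f4)))))
 (.n (.n (.n (.n (.l (nat_lit 0xa0234))
 (.l (nat_lit 0x67215)))
 (.l (nat_lit 0x1012b4)))
 (.n (.n (.l (nat_lit 0xe5015))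
 (.l (nat_lit 0x108247)))
 (.l (nat_lit 0x620a4))))
 (.n (.n (.n (.l (nat_lit 0xb1c6))
 (.l (nat_lit 0x2305)))
 (.l (nat_lit 0x1422c4)))
 (.n (.n (.l (nat_lit 0xa1045))
 (.l (nat_lit 0x687488d402600c)))
 (.l (nat_lit 0x140205)))))

def a256_162 : TA := .n a512_162 a512_418

def a128_34 : TA := .n a256_34 a256_162

def a512_98 : TA :=
 .n (.n (.n (.n (.n (.l (nat_lit 0x180041))
 (.l (nat_lit 0x106276)))
 (.n (.l (nat_lit 0x122056))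
 (.l (nat_lit 0xd50988ec00000c))))
 (.n (.n (.l (nat_lit 0x45004))
 (.l (nat_lit 0x128294)))
 (.l (nat_lit 0x21256))))
 (.n (.n (.n (.l (nat_lit 0x1044))
 (.l (nat_lit 0x1051a4)))
 (.l (nat_lit 0xaa1d5)))
 (.n (.n (.l (nat_lit 0x129025))
 (.l (nat_lit 0xc8013)))
 (.l (nat_lit 0x14b265)))))
 (.n (.n (.n (.n (.l (nat_lit 0x40005))
 (.l (nat_lit 0x84135)))
 (.l (nat_lit 0x121066)))
 (.n (.n (.l (nat_lit 0x12b2a6))
 (.l (nat_lit 0x86187)))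
 (.l (nat_lit 0xc01f4))))
 (.n (.n (.n (.l (nat_lit 0xe2014))
 (.l (nat_lit 0x271b6)))
 (.l (nat_lit 0x164096)))
 (.n (.n (.l (nat_lit 0x124036))
 (.l (nat_lit 0x2840009)))
 (.l (nat_lit 0xc60b6)))))

def a512_354 : TA :=
 .n (.n (.n (.n (.n (.l (nat_lit 0x100170))
 (.l (nat_lit 0x107124)))
 (.l (nat_lit 0x16b004)))
 (.n (.n (.l (nat_lit 0x22a5))
 (.l (nat_lit 0x1290d7)))
 (.l (nat_lit 0x1092c4))))
 (.n (.n (.n (.l (nat_lit 0x107156))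
 (.l (nat_lit 0x230d6)))
 (.l (nat_lit 0x892b5)))
 (.n (.n (.l (nat_lit 0x127054))
 (.l (nat_lit 0x1080f3)))
 (.l (nat_lit 0x260a4)))))
 (.n (.n (.n (.n (.l (nat_lit 0xc8076))
 (.l (nat_lit 0x121216)))
 (.l (nat_lit 0x1201d4)))
 (.n (.n (.l (nat_lit 0x100015))
 (.l (nat_lit 0x6237)))
 (.l (nat_lit 0x42264))))
 (.n (.n (.n (.l (nat_lit 0xa51c6))
 (.l (nat_lit 0x160296)))
 (.l (nat_lit 0x161254)))
 (.n (.n (.l (nat_lit 0x1091c4))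
 (.l (nat_lit 0x982e10d100000c)))
 (.l (nat_lit 0xc5196)))))

def a256_98 : TA := .n a512_98 a512_354

def a512_226 : TA :=
 .n (.n (.n (.n (.n (.l (nat_lit 0xc0))
 (.l (nat_lit 0xe22e5)))
 (.n (.l (nat_lit 0x8a034))
 (.l (nat_lit 0xd085a12820600c))))
 (.n (.n (.l (nat_lit 0x48235))
 (.l (nat_lit 0xaa077)))
 (.l (nat_lit 0xe92c6))))
 (.n (.n (.n (.l (nat_lit 0xab0e5))
 (.l (nat_lit 0x107057)))
 (.l (nat_lit 0xe1245)))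
 (.n (.n (.l (nat_lit 0x62026))
 (.l (nat_lit 0x41063)))
 (.l (nat_lit 0x16a2d6)))))
 (.n (.n (.n (.n (.l (nat_lit 0x101004))
 (.l (nat_lit 0xc51a5)))
 (.l (nat_lit 0xeb034)))
 (.n (.n (.l (nat_lit 0x85016))
 (.l (nat_lit 0x1011f7)))
 (.l (nat_lit 0x81264))))
 (.n (.n (.n (.l (nat_lit 0xa1c5))
 (.l (nat_lit 0x830d4)))
 (.l (nat_lit 0x123105)))
 (.n (.n (.l (nat_lit 0x20045))
 (.l (nat_lit 0x100b)))
 (.l (nat_lit 0x146125)))))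

def a512_482 : TA :=
 .n (.n (.n (.n (.n (.l (nat_lit 0x680232))
 (.l (nat_lit 0x830c5)))
 (.l (nat_lit 0x85066)))
 (.n (.n (.l (nat_lit 0x145034))
 (.l (nat_lit 0xb117)))
 (.l (nat_lit 0xcb027))))
 (.n (.n (.n (.l (nat_lit 0xc0155))
 (.l (nat_lit 0xe4146)))
 (.l (nat_lit 0x92b4)))
 (.n (.n (.l (nat_lit 0x49004))
 (.l (nat_lit 0x45223)))
 (.l (nat_lit 0xeb0a4)))))
 (.n (.n (.n (.n (.l (nat_lit 0x40e5))
 (.l (nat_lit 0xa7286)))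
 (.l (nat_lit 0x45165)))
 (.n (.n (.l (nat_lit 0x661c4))
 (.l (nat_lit 0x832a7)))
 (.l (nat_lit 0x14b1f5))))
 (.n (.n (.n (.l (nat_lit 0x123054))
 (.l (nat_lit 0x7067)))
 (.l (nat_lit 0x1001e5)))
 (.n (.n (.l (nat_lit 0x47045))
 (.l (nat_lit 0x2260ba4560600c)))
 (.l (nat_lit 0x120205)))))

def a256_226 : TA := .n a512_226 a512_482

def a128_98 : TA := .n a256_98 a256_226

def a64_34 : TA := .n a128_34 a128_98

def a32_2 : TA := .n a64_2 a64_34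

def a512_18 : TA :=
 .n (.n (.n (.n (.n (.l (nat_lit 0x8c0002))
 (.l (nat_lit 0x144047)))
 (.n (.l (nat_lit 0x691c4))
 (.l (nat_lit 0x101a9894b40600c))))
 (.n (.n (.l (nat_lit 0x102236))
 (.l (nat_lit 0xa7224)))
 (.l (nat_lit 0xa3027))))
 (.n (.n (.n (.l (nat_lit 0xa80e5))
 (.l (nat_lit 0x122285)))
 (.l (nat_lit 0x22017)))
 (.n (.n (.l (nat_lit 0x40026))
 (.l (nat_lit 0xa92a7)))
 (.l (nat_lit 0x1451f6)))))
 (.n (.n (.n (.n (.l (nat_lit 0x100290))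
 (.l (nat_lit 0x160057)))
 (.l (nat_lit 0x8b0e4)))
 (.n (.n (.l (nat_lit 0x1422a6))
 (.l (nat_lit 0x5157)))
 (.l (nat_lit 0x16b094))))
 (.n (.n (.n (.l (nat_lit 0x107155))
 (.l (nat_lit 0xa1067)))
 (.l (nat_lit 0xa017)))
 (.n (.n (.l (nat_lit 0x48054))
 (.l (nat_lit 0x812a3)))
 (.l (nat_lit 0x1230b6)))))

def a512_274 : TA :=
 .n (.n (.n (.n (.n (.l (nat_lit 0x40100))
 (.l (nat_lit 0x86124)))
 (.l (nat_lit 0xa2055)))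
 (.n (.n (.l (nat_lit 0x125004))
 (.l (nat_lit 0x830a7)))
 (.l (nat_lit 0x432c5))))
 (.n (.n (.n (.l (nat_lit 0xa1044))
 (.l (nat_lit 0x27134)))
 (.l (nat_lit 0x1012b5)))
 (.n (.n (.l (nat_lit 0xa9026))
 (.l (nat_lit 0x142083)))
 (.l (nat_lit 0x422d6)))))
 (.n (.n (.n (.n (.l (nat_lit 0x100054))
 (.l (nat_lit 0x601a5)))
 (.l (nat_lit 0xe8085)))
 (.n (.n (.l (nat_lit 0x87004))
 (.l (nat_lit 0x10b207)))
 (.l (nat_lit 0x14b115))))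
 (.n (.n (.n (.l (nat_lit 0x3014))
 (.l (nat_lit 0x1630d4)))
 (.l (nat_lit 0x16b106)))
 (.n (.n (.l (nat_lit 0xa4045))
 (.l (nat_lit 0x500b)))
 (.l (nat_lit 0x85195)))))

def a256_18 : TA := .n a512_18 a512_274

def a512_146 : TA :=
 .n (.n (.n (.n (.n (.l (nat_lit 0x200062))
 (.l (nat_lit 0x612e5)))
 (.n (.l (nat_lit 0x7055))
 (.l (nat_lit 0x11521a8e900000c))))
 (.n (.n (.l (nat_lit 0x44054))
 (.l (nat_lit 0x290d4)))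
 (.l (nat_lit 0x141256))))
 (.n (.n (.n (.l (nat_lit 0x240e5))
 (.l (nat_lit 0x1062f6)))
 (.l (nat_lit 0x63084)))
 (.n (.n (.l (nat_lit 0x107154))
 (.l (nat_lit 0x141033)))
 (.l (nat_lit 0x161265)))))
 (.n (.n (.n (.n (.l (nat_lit 0x64076))
 (.l (nat_lit 0x412f4)))
 (.l (nat_lit 0x47066)))
 (.n (.n (.l (nat_lit 0x125054))
 (.l (nat_lit 0xa51c7)))
 (.l (nat_lit 0xb0a5))))
 (.n (.n (.n (.l (nat_lit 0xc01c5))
 (.l (nat_lit 0x1451b6)))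
 (.l (nat_lit 0xa2096)))
 (.n (.n (.l (nat_lit 0x12b035))
 (.l (nat_lit 0x28c0009)))
 (.l (nat_lit 0x24126)))))

def a512_402 : TA :=
 .n (.n (.n (.n (.n (.l (nat_lit 0x6401c2))
 (.l (nat_lit 0x672e4)))
 (.l (nat_lit 0x16a024)))
 (.n (.n (.l (nat_lit 0x482a6))
 (.l (nat_lit 0x1080e7)))
 (.l (nat_lit 0x4a094))))
 (.n (.n (.n (.l (nat_lit 0x6b156))
 (.l (nat_lit 0x140224)))
 (.l (nat_lit 0xc81d4)))
 (.n (.n (.l (nat_lit 0x142036))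
 (.l (nat_lit 0x147153)))
 (.l (nat_lit 0x2a037)))))
 (.n (.n (.n (.n (.l (nat_lit 0x121004))
 (.l (nat_lit 0x41215)))
 (.l (nat_lit 0x1290f5)))
 (.n (.n (.l (nat_lit 0x144015))
 (.l (nat_lit 0xb237)))
 (.l (nat_lit 0x8a186))))
 (.n (.n (.n (.l (nat_lit 0xa91c6))
 (.l (nat_lit 0xa4144)))
 (.l (nat_lit 0xb176)))
 (.n (.n (.l (nat_lit 0x100046))
 (.l (nat_lit 0xe89582d102600c)))
 (.l (nat_lit 0x222e4)))))

def a256_146 : TA := .n a512_146 a512_402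

def a128_18 : TA := .n a256_18 a256_146

def a512_82 : TA :=
 .n (.n (.n (.n (.n (.l (nat_lit 0x640032))
 (.l (nat_lit 0x1276)))
 (.n (.l (nat_lit 0x141055))
 (.l (nat_lit 0xd181a32902000c))))
 (.n (.n (.l (nat_lit 0xea235))
 (.l (nat_lit 0x281b4)))
 (.l (nat_lit 0x632c4))))
 (.n (.n (.n (.l (nat_lit 0x81014))
 (.l (nat_lit 0x72f5)))
 (.l (nat_lit 0x1081d6)))
 (.n (.n (.l (nat_lit 0x25026))
 (.l (nat_lit 0xc3013)))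
 (.l (nat_lit 0x22266)))))
 (.n (.n (.n (.n (.l (nat_lit 0x402e0))
 (.l (nat_lit 0x120214)))
 (.l (nat_lit 0x20066)))
 (.n (.n (.l (nat_lit 0x14a2a5))
 (.l (nat_lit 0x12a157)))
 (.l (nat_lit 0x14b0a6))))
 (.n (.n (.n (.l (nat_lit 0x162074))
 (.l (nat_lit 0xc01b6)))
 (.l (nat_lit 0x3095)))
 (.n (.n (.l (nat_lit 0x23036))
 (.l (nat_lit 0x1800009)))
 (.l (nat_lit 0x1630b5)))))

def a512_338 : TA :=
 .n (.n (.n (.n (.n (.l (nat_lit 0x880152))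
 (.l (nat_lit 0x7047)))
 (.l (nat_lit 0x48055)))
 (.n (.n (.l (nat_lit 0x85006))
 (.l (nat_lit 0x240d7)))
 (.l (nat_lit 0x109104))))
 (.n (.n (.n (.l (nat_lit 0x6156))
 (.l (nat_lit 0x80067)))
 (.l (nat_lit 0x1432b5)))
 (.n (.n (.l (nat_lit 0x272a4))
 (.l (nat_lit 0x1080e3)))
 (.l (nat_lit 0x46184)))))
 (.n (.n (.n (.n (.l (nat_lit 0xa6076))
 (.l (nat_lit 0x215)))
 (.l (nat_lit 0x29085)))
 (.n (.n (.l (nat_lit 0x26006))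
 (.l (nat_lit 0xa1237)))
 (.l (nat_lit 0x4b186))))
 (.n (.n (.n (.l (nat_lit 0x1011c5))
 (.l (nat_lit 0x441b4)))
 (.l (nat_lit 0x4b105)))
 (.n (.n (.l (nat_lit 0x90e4))
 (.l (nat_lit 0x10a00a)))
 (.l (nat_lit 0xe0195)))))

def a256_82 : TA := .n a512_82 a512_338

def a512_210 : TA :=
 .n (.n (.n (.n (.n (.l (nat_lit 0x1000a1))
 (.l (nat_lit 0xe5047)))
 (.n (.l (nat_lit 0x10a2a4))
 (.l (nat_lit 0xc88a970542000c))))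
 (.n (.n (.l (nat_lit 0x146236))
 (.l (nat_lit 0x128077)))
 (.l (nat_lit 0xe22c6))))
 (.n (.n (.n (.l (nat_lit 0x10a0e5))
 (.l (nat_lit 0x26057)))
 (.l (nat_lit 0xe4017)))
 (.n (.n (.l (nat_lit 0x81025))
 (.l (nat_lit 0xc5053)))
 (.l (nat_lit 0x1612d5)))))
 (.n (.n (.n (.n (.l (nat_lit 0xb076))
 (.l (nat_lit 0xc2057)))
 (.l (nat_lit 0x16b234)))
 (.n (.n (.l (nat_lit 0xe3015))
 (.l (nat_lit 0x2b1c7)))
 (.l (nat_lit 0x8b116))))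
 (.n (.n (.n (.l (nat_lit 0xa81c6))
 (.l (nat_lit 0x108226)))
 (.l (nat_lit 0x1201e4)))
 (.n (.n (.l (nat_lit 0x89005))
 (.l (nat_lit 0x940009)))
 (.l (nat_lit 0x124125)))))

def a512_466 : TA :=
 .n (.n (.n (.n (.n (.l (nat_lit 0x80230))
 (.l (nat_lit 0xeb2e4)))
 (.l (nat_lit 0x123066)))
 (.n (.n (.l (nat_lit 0x45014))
 (.l (nat_lit 0x8b107)))
 (.l (nat_lit 0x16a1e4))))
 (.n (.n (.n (.l (nat_lit 0x142064))
 (.l (nat_lit 0x101067)))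
 (.l (nat_lit 0x89164)))
 (.n (.n (.l (nat_lit 0xea035))
 (.l (nat_lit 0x51d3)))
 (.l (nat_lit 0x14b264)))))
 (.n (.n (.n (.n (.l (nat_lit 0x81006))
 (.l (nat_lit 0xe2286)))
 (.l (nat_lit 0x8a0f5)))
 (.n (.n (.l (nat_lit 0xe6074))
 (.l (nat_lit 0x1012a7)))
 (.l (nat_lit 0x1651f5))))
 (.n (.n (.n (.l (nat_lit 0x23034))
 (.l (nat_lit 0xa5144)))
 (.l (nat_lit 0x222c4)))
 (.n (.n (.l (nat_lit 0xe5046))
 (.l (nat_lit 0x1622ec0d100000c)))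
 (.l (nat_lit 0x32e4)))))

def a256_210 : TA := .n a512_210 a512_466

def a128_82 : TA := .n a256_82 a256_210

def a64_18 : TA := .n a128_18 a128_82

def a512_50 : TA :=
 .n (.n (.n (.n (.n (.l (nat_lit 0x100021))
 (.l (nat_lit 0xe6275)))
 (.n (.l (nat_lit 0xe9064))
 (.l (nat_lit 0x216ac0cd40600c))))
 (.n (.n (.l (nat_lit 0x8236))
 (.l (nat_lit 0x108224)))
 (.l (nat_lit 0x1691e6))))
 (.n (.n (.n (.l (nat_lit 0x2b0e6))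
 (.l (nat_lit 0x45057)))
 (.l (nat_lit 0x14a166)))
 (.n (.n (.l (nat_lit 0x122025))
 (.l (nat_lit 0x10a2c7)))
 (.l (nat_lit 0x1630a4)))))
 (.n (.n (.n (.n (.l (nat_lit 0x402b0))
 (.l (nat_lit 0x1240c5)))
 (.l (nat_lit 0x10b024)))
 (.n (.n (.l (nat_lit 0xa72a6))
 (.l (nat_lit 0x88157)))
 (.l (nat_lit 0x630a6))))
 (.n (.n (.n (.l (nat_lit 0x8a156))
 (.l (nat_lit 0xe7146)))
 (.l (nat_lit 0x16a084)))
 (.n (.n (.l (nat_lit 0xe0035))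
 (.l (nat_lit 0xa2a3)))
 (.l (nat_lit 0xc0204)))))

def a512_306 : TA :=
 .n (.n (.n (.n (.n (.l (nat_lit 0x100130))
 (.l (nat_lit 0x1260b4)))
 (.l (nat_lit 0x145056)))
 (.n (.n (.l (nat_lit 0x24034))
 (.l (nat_lit 0x10a0a7)))
 (.l (nat_lit 0x4b2c6))))
 (.n (.n (.n (.l (nat_lit 0x100156))
 (.l (nat_lit 0x88057)))
 (.l (nat_lit 0x692b6)))
 (.n (.n (.l (nat_lit 0x128004))
 (.l (nat_lit 0x40d3)))
 (.l (nat_lit 0x16b2d6)))))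
 (.n (.n (.n (.n (.l (nat_lit 0x22076))
 (.l (nat_lit 0x1071a5)))
 (.l (nat_lit 0x83086)))
 (.n (.n (.l (nat_lit 0x106234))
 (.l (nat_lit 0x25227)))
 (.l (nat_lit 0xa0186))))
 (.n (.n (.n (.l (nat_lit 0x83064))
 (.l (nat_lit 0xe1296)))
 (.l (nat_lit 0xa4105)))
 (.n (.n (.l (nat_lit 0x107046))
 (.l (nat_lit 0x14700a)))
 (.l (nat_lit 0xab196)))))

def a256_50 : TA := .n a512_50 a512_306

def a512_178 : TA :=
 .n (.n (.n (.n (.n (.l (nat_lit 0x880072))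
 (.l (nat_lit 0x1262e5)))
 (.n (.l (nat_lit 0x8a074))
 (.l (nat_lit 0xd0318ae102600c))))
 (.n (.n (.l (nat_lit 0xe0236))
 (.l (nat_lit 0xa4077)))
 (.l (nat_lit 0x16a256))))
 (.n (.n (.n (.l (nat_lit 0xa70e6))
 (.l (nat_lit 0x46057)))
 (.l (nat_lit 0xe1246)))
 (.n (.n (.l (nat_lit 0x7064))
 (.l (nat_lit 0x104043)))
 (.l (nat_lit 0x16b266)))))
 (.n (.n (.n (.n (.l (nat_lit 0x108075))
 (.l (nat_lit 0x106135)))
 (.l (nat_lit 0xe9065)))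
 (.n (.n (.l (nat_lit 0x41015))
 (.l (nat_lit 0x1281c7)))
 (.l (nat_lit 0x81037))))
 (.n (.n (.n (.l (nat_lit 0x1651c5))
 (.l (nat_lit 0x143067)))
 (.l (nat_lit 0x149095)))
 (.n (.n (.l (nat_lit 0x28234))
 (.l (nat_lit 0x1900009)))
 (.l (nat_lit 0x1204)))))

def a512_434 : TA :=
 .n (.n (.n (.n (.n (.l (nat_lit 0x40200))
 (.l (nat_lit 0x16b047)))
 (.l (nat_lit 0x41065)))
 (.n (.n (.l (nat_lit 0x16a2a6))
 (.l (nat_lit 0x2b0e7)))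
 (.l (nat_lit 0xca2c4))))
 (.n (.n (.n (.l (nat_lit 0xc2014))
 (.l (nat_lit 0x1080d6)))
 (.l (nat_lit 0x128164)))
 (.n (.n (.l (nat_lit 0x45035))
 (.l (nat_lit 0x1441a3)))
 (.l (nat_lit 0xcb037)))))
 (.n (.n (.n (.n (.l (nat_lit 0x20034))
 (.l (nat_lit 0x163134)))
 (.l (nat_lit 0xe40f5)))
 (.n (.n (.l (nat_lit 0x49016))
 (.l (nat_lit 0xaa267)))
 (.l (nat_lit 0x1622d4))))
 (.n (.n (.n (.l (nat_lit 0x124004))
 (.l (nat_lit 0xc51b4)))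
 (.l (nat_lit 0xe5175)))
 (.n (.n (.l (nat_lit 0x3045))
 (.l (nat_lit 0xea81d2d102600c)))
 (.l (nat_lit 0x146206)))))

def a256_178 : TA := .n a512_178 a512_434

def a128_50 : TA := .n a256_50 a256_178

def a512_114 : TA :=
 .n (.n (.n (.n (.n (.l (nat_lit 0x40050))
 (.l (nat_lit 0xa7275)))
 (.n (.l (nat_lit 0xc4056))
 (.l (nat_lit 0x11035a8e900000c))))
 (.n (.n (.l (nat_lit 0x1440e4))
 (.l (nat_lit 0x890d4)))
 (.l (nat_lit 0xb255))))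
 (.n (.n (.n (.l (nat_lit 0x101064))
 (.l (nat_lit 0xc12f6)))
 (.l (nat_lit 0x1432b4)))
 (.n (.n (.l (nat_lit 0x8b026))
 (.l (nat_lit 0x42023)))
 (.l (nat_lit 0xc4114)))))
 (.n (.n (.n (.n (.l (nat_lit 0x140004))
 (.l (nat_lit 0xc7135)))
 (.l (nat_lit 0x143065)))
 (.n (.n (.l (nat_lit 0xa51c4))
 (.l (nat_lit 0x61a7)))
 (.l (nat_lit 0x430a6))))
 (.n (.n (.n (.l (nat_lit 0x62044))
 (.l (nat_lit 0x1681b5)))
 (.l (nat_lit 0xcb096)))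
 (.n (.n (.l (nat_lit 0x86035))
 (.l (nat_lit 0x840009)))
 (.l (nat_lit 0x8b0b5)))))

def a512_370 : TA :=
 .n (.n (.n (.n (.n (.l (nat_lit 0x190))
 (.l (nat_lit 0x87274)))
 (.l (nat_lit 0xea154)))
 (.n (.n (.l (nat_lit 0x1032a6))
 (.l (nat_lit 0x850e7)))
 (.l (nat_lit 0x129104))))
 (.n (.n (.n (.l (nat_lit 0xa8155))
 (.l (nat_lit 0x1470d5)))
 (.l (nat_lit 0x25164)))
 (.n (.n (.l (nat_lit 0x88006))
 (.l (nat_lit 0x14b103)))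
 (.l (nat_lit 0x4a0a4)))))
 (.n (.n (.n (.n (.l (nat_lit 0xa9075))
 (.l (nat_lit 0x167216)))
 (.l (nat_lit 0x840f5)))
 (.n (.n (.l (nat_lit 0xe1016))
 (.l (nat_lit 0x127237)))
 (.l (nat_lit 0x20185))))
 (.n (.n (.n (.l (nat_lit 0x71c5))
 (.l (nat_lit 0xe2295)))
 (.l (nat_lit 0x5175)))
 (.n (.n (.l (nat_lit 0x89014))
 (.l (nat_lit 0x12a2198d102600c)))
 (.l (nat_lit 0x66195)))))

def a256_114 : TA := .n a512_114 a512_370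

def a512_242 : TA :=
 .n (.n (.n (.n (.n (.l (nat_lit 0x1000d1))
 (.l (nat_lit 0x472e6)))
 (.n (.l (nat_lit 0x56))
 (.l (nat_lit 0x5382a31d00600c))))
 (.n (.n (.l (nat_lit 0x149235))
 (.l (nat_lit 0x2087)))
 (.l (nat_lit 0x85104))))
 (.n (.n (.n (.l (nat_lit 0x21234))
 (.l (nat_lit 0x871a4)))
 (.l (nat_lit 0x109245)))
 (.n (.n (.l (nat_lit 0x4026))
 (.l (nat_lit 0x147063)))
 (.l (nat_lit 0xc5114)))))
 (.n (.n (.n (.n (.l (nat_lit 0x80234))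
 (.l (nat_lit 0x871a6)))
 (.l (nat_lit 0x42085)))
 (.n (.n (.l (nat_lit 0x28015))
 (.l (nat_lit 0xab1f7)))
 (.l (nat_lit 0x44116))))
 (.n (.n (.n (.l (nat_lit 0x10b1c5))
 (.l (nat_lit 0xe3067)))
 (.l (nat_lit 0xc5106)))
 (.n (.n (.l (nat_lit 0x121046))
 (.l (nat_lit 0x8200b)))
 (.l (nat_lit 0x12b125)))))

def a512_498 : TA :=
 .n (.n (.n (.n (.n (.l (nat_lit 0xc0250))
 (.l (nat_lit 0x660c5)))
 (.l (nat_lit 0x8065)))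
 (.n (.n (.l (nat_lit 0xc5064))
 (.l (nat_lit 0x125127)))
 (.l (nat_lit 0x8b174))))
 (.n (.n (.n (.l (nat_lit 0x64156))
 (.l (nat_lit 0x127145)))
 (.l (nat_lit 0x129084)))
 (.n (.n (.l (nat_lit 0x1480e4))
 (.l (nat_lit 0x4b233)))
 (.l (nat_lit 0x6b1f4)))))
 (.n (.n (.n (.n (.l (nat_lit 0x1050e6))
 (.l (nat_lit 0x41a4)))
 (.l (nat_lit 0x148165)))
 (.n (.n (.l (nat_lit 0x1662a4))
 (.l (nat_lit 0x262a7)))
 (.l (nat_lit 0x1032d4))))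
 (.n (.n (.n (.l (nat_lit 0x84006))
 (.l (nat_lit 0x147144)))
 (.l (nat_lit 0x1291e5)))
 (.n (.n (.l (nat_lit 0x14b046))
 (.l (nat_lit 0xc18a870d40600c)))
 (.l (nat_lit 0xc6205)))))

def a256_242 : TA := .n a512_242 a512_498

def a128_114 : TA := .n a256_114 a256_242

def a64_50 : TA := .n a128_50 a128_114

def a32_18 : TA := .n a64_18 a64_50

def a16_2 : TA := .n a32_2 a32_18

def a512_10 : TA :=
 .n (.n (.n (.n (.n (.l (nat_lit 0xa00002))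
 (.l (nat_lit 0xe30b4)))
 (.n (.l (nat_lit 0x1690e4))
 (.l (nat_lit 0x1016a88cd42600c))))
 (.n (.n (.l (nat_lit 0xa1236))
 (.l (nat_lit 0x271b4)))
 (.l (nat_lit 0x143094))))
 (.n (.n (.n (.l (nat_lit 0x80e5))
 (.l (nat_lit 0xa1285)))
 (.l (nat_lit 0x102084)))
 (.n (.n (.l (nat_lit 0x147005))
 (.l (nat_lit 0x92a7)))
 (.l (nat_lit 0x611f5)))))
 (.n (.n (.n (.n (.l (nat_lit 0x100281))
 (.l (nat_lit 0xc0214)))
 (.l (nat_lit 0xb074)))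
 (.n (.n (.l (nat_lit 0xe12a6))
 (.l (nat_lit 0x104157)))
 (.l (nat_lit 0xeb027))))
 (.n (.n (.n (.l (nat_lit 0x66155))
 (.l (nat_lit 0x101294)))
 (.l (nat_lit 0x129244)))
 (.n (.n (.l (nat_lit 0x1482a4))
 (.l (nat_lit 0x142263)))
 (.l (nat_lit 0x430b5)))))

def a512_266 : TA :=
 .n (.n (.n (.n (.n (.l (nat_lit 0x1400f0))
 (.l (nat_lit 0x60b4)))
 (.l (nat_lit 0x2055)))
 (.n (.n (.l (nat_lit 0xab236))
 (.l (nat_lit 0x20a7)))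
 (.l (nat_lit 0x1022c6))))
 (.n (.n (.n (.l (nat_lit 0x21034))
 (.l (nat_lit 0xe7057)))
 (.l (nat_lit 0x5017)))
 (.n (.n (.l (nat_lit 0x9026))
 (.l (nat_lit 0x4a073)))
 (.l (nat_lit 0x1012d6)))))
 (.n (.n (.n (.n (.l (nat_lit 0x80044))
 (.l (nat_lit 0xe2057)))
 (.l (nat_lit 0x144086)))
 (.n (.n (.l (nat_lit 0x2a016))
 (.l (nat_lit 0x87207)))
 (.l (nat_lit 0xca115))))
 (.n (.n (.n (.l (nat_lit 0x1030e4))
 (.l (nat_lit 0xe8225)))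
 (.l (nat_lit 0x8b106)))
 (.n (.n (.l (nat_lit 0x4045))
 (.l (nat_lit 0x8400b)))
 (.l (nat_lit 0x142047)))))

def a256_10 : TA := .n a512_10 a512_266

def a512_138 : TA :=
 .n (.n (.n (.n (.n (.l (nat_lit 0x40060))
 (.l (nat_lit 0x164194)))
 (.n (.l (nat_lit 0x106055))
 (.l (nat_lit 0xd089886c02000c))))
 (.n (.n (.l (nat_lit 0x144034))
 (.l (nat_lit 0xc9294)))
 (.l (nat_lit 0x60256))))
 (.n (.n (.n (.l (nat_lit 0x1230e6))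
 (.l (nat_lit 0x1032f5)))
 (.l (nat_lit 0x1491d6)))
 (.n (.n (.l (nat_lit 0x870e4))
 (.l (nat_lit 0xc0033)))
 (.l (nat_lit 0xc1266)))))
 (.n (.n (.n (.n (.l (nat_lit 0x163076))
 (.l (nat_lit 0x141214)))
 (.l (nat_lit 0x145065)))
 (.n (.n (.l (nat_lit 0xa5044))
 (.l (nat_lit 0x51c7)))
 (.l (nat_lit 0xc60a6))))
 (.n (.n (.n (.l (nat_lit 0x43006))
 (.l (nat_lit 0x641b6)))
 (.l (nat_lit 0x2096)))
 (.n (.n (.l (nat_lit 0x8b036))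
 (.l (nat_lit 0x880009)))
 (.l (nat_lit 0x101047)))))

def a512_394 : TA :=
 .n (.n (.n (.n (.n (.l (nat_lit 0x1401c1))
 (.l (nat_lit 0xe7194)))
 (.l (nat_lit 0xea014)))
 (.n (.n (.l (nat_lit 0x1072a5))
 (.l (nat_lit 0xa70e7)))
 (.l (nat_lit 0x1692c4))))
 (.n (.n (.n (.l (nat_lit 0x12a155))
 (.l (nat_lit 0x801b4)))
 (.l (nat_lit 0x8164)))
 (.n (.n (.l (nat_lit 0xa1036))
 (.l (nat_lit 0x86153)))
 (.l (nat_lit 0xca264)))))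
 (.n (.n (.n (.n (.l (nat_lit 0xab075))
 (.l (nat_lit 0x140216)))
 (.l (nat_lit 0x890f5)))
 (.n (.n (.l (nat_lit 0xe3016))
 (.l (nat_lit 0x129237)))
 (.l (nat_lit 0x6185))))
 (.n (.n (.n (.l (nat_lit 0x91c6))
 (.l (nat_lit 0x240d4)))
 (.l (nat_lit 0x10a175)))
 (.n (.n (.l (nat_lit 0xa9006))
 (.l (nat_lit 0xea94c0d100600c)))
 (.l (nat_lit 0xe20b4)))))

def a256_138 : TA := .n a512_138 a512_394

def a128_10 : TA := .n a256_10 a256_138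

def a512_74 : TA :=
 .n (.n (.n (.n (.n (.l (nat_lit 0x140031))
 (.l (nat_lit 0xc4194)))
 (.n (.l (nat_lit 0xe0055))
 (.l (nat_lit 0xd094a72900600c))))
 (.n (.n (.l (nat_lit 0x4a235))
 (.l (nat_lit 0x1280d4)))
 (.l (nat_lit 0x163094))))
 (.n (.n (.n (.l (nat_lit 0x12a4))
 (.l (nat_lit 0xc32f6)))
 (.l (nat_lit 0x143017)))
 (.n (.n (.l (nat_lit 0x124025))
 (.l (nat_lit 0x2013)))
 (.l (nat_lit 0xe1266)))))
 (.n (.n (.n (.n (.l (nat_lit 0xc02d0))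
 (.l (nat_lit 0xa01a4)))
 (.l (nat_lit 0x12b006)))
 (.n (.n (.l (nat_lit 0xe92a5))
 (.l (nat_lit 0x8a157)))
 (.l (nat_lit 0xea0a6))))
 (.n (.n (.n (.l (nat_lit 0xe3004))
 (.l (nat_lit 0x42067)))
 (.l (nat_lit 0x102095)))
 (.n (.n (.l (nat_lit 0xe2035))
 (.l (nat_lit 0x2800009)))
 (.l (nat_lit 0xc30b6)))))

def a512_330 : TA :=
 .n (.n (.n (.n (.n (.l (nat_lit 0x600152))
 (.l (nat_lit 0x126274)))
 (.l (nat_lit 0x147056)))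
 (.n (.n (.l (nat_lit 0x5005))
 (.l (nat_lit 0x1020d7)))
 (.l (nat_lit 0x89094))))
 (.n (.n (.n (.l (nat_lit 0x105155))
 (.l (nat_lit 0x128134)))
 (.l (nat_lit 0x622b5)))
 (.n (.n (.l (nat_lit 0x1271c4))
 (.l (nat_lit 0x870e3)))
 (.l (nat_lit 0x1460a4)))))
 (.n (.n (.n (.n (.l (nat_lit 0x24075))
 (.l (nat_lit 0x1222f4)))
 (.l (nat_lit 0xe8086)))
 (.n (.n (.l (nat_lit 0x106054))
 (.l (nat_lit 0x1237)))
 (.l (nat_lit 0x106186))))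
 (.n (.n (.n (.l (nat_lit 0xa01c5))
 (.l (nat_lit 0x168296)))
 (.l (nat_lit 0x14a105)))
 (.n (.n (.l (nat_lit 0x10a004))
 (.l (nat_lit 0xa00a)))
 (.l (nat_lit 0x162047)))))

def a256_74 : TA := .n a512_74 a512_330

def a512_202 : TA :=
 .n (.n (.n (.n (.n (.l (nat_lit 0xa00092))
 (.l (nat_lit 0x45194)))
 (.n (.l (nat_lit 0x8a234))
 (.l (nat_lit 0xe02a970520000c))))
 (.n (.n (.l (nat_lit 0xe2235))
 (.l (nat_lit 0x88077)))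
 (.l (nat_lit 0x422c5))))
 (.n (.n (.n (.l (nat_lit 0xa90e6))
 (.l (nat_lit 0x106284)))
 (.l (nat_lit 0x440f4)))
 (.n (.n (.l (nat_lit 0x20025))
 (.l (nat_lit 0x3053)))
 (.l (nat_lit 0x412d5)))))
 (.n (.n (.n (.n (.l (nat_lit 0x10a076))
 (.l (nat_lit 0x612f4)))
 (.l (nat_lit 0xeb1c4)))
 (.n (.n (.l (nat_lit 0x43015))
 (.l (nat_lit 0x12a1c7)))
 (.l (nat_lit 0x145116))))
 (.n (.n (.n (.l (nat_lit 0x1671c6))
 (.l (nat_lit 0x67226)))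
 (.l (nat_lit 0x2b095)))
 (.n (.n (.l (nat_lit 0x28064))
 (.l (nat_lit 0x1940009)))
 (.l (nat_lit 0x84126)))))

def a512_458 : TA :=
 .n (.n (.n (.n (.n (.l (nat_lit 0x40220))
 (.l (nat_lit 0x6b274)))
 (.l (nat_lit 0x43066)))
 (.n (.n (.l (nat_lit 0x145154))
 (.l (nat_lit 0x9107)))
 (.l (nat_lit 0xea174))))
 (.n (.n (.n (.l (nat_lit 0xc2054))
 (.l (nat_lit 0xa0294)))
 (.l (nat_lit 0x90f4)))
 (.n (.n (.l (nat_lit 0x4a035))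
 (.l (nat_lit 0x871c3)))
 (.l (nat_lit 0xcb1f4)))))
 (.n (.n (.n (.n (.l (nat_lit 0x1005))
 (.l (nat_lit 0x61286)))
 (.l (nat_lit 0x1490f6)))
 (.n (.n (.l (nat_lit 0x67004))
 (.l (nat_lit 0x88297)))
 (.l (nat_lit 0x1611f6))))
 (.n (.n (.n (.l (nat_lit 0x123014))
 (.l (nat_lit 0x28305)))
 (.l (nat_lit 0x122094)))
 (.n (.n (.l (nat_lit 0x5046))
 (.l (nat_lit 0x16068c0a900600c)))
 (.l (nat_lit 0x830b4)))))

def a256_202 : TA := .n a512_202 a512_458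

def a128_74 : TA := .n a256_74 a256_202

def a64_10 : TA := .n a128_10 a128_74

def a512_42 : TA :=
 .n (.n (.n (.n (.n (.l (nat_lit 0xac0012))
 (.l (nat_lit 0x46275)))
 (.n (.l (nat_lit 0x69024))
 (.l (nat_lit 0x16162c2d100000c))))
 (.n (.n (.l (nat_lit 0x107236))
 (.l (nat_lit 0x881b4)))
 (.l (nat_lit 0xa11e5))))
 (.n (.n (.n (.l (nat_lit 0x12a0e6))
 (.l (nat_lit 0x164134)))
 (.l (nat_lit 0x69166)))
 (.n (.n (.l (nat_lit 0x82025))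
 (.l (nat_lit 0x832c7)))
 (.l (nat_lit 0xeb1f6)))))
 (.n (.n (.n (.n (.l (nat_lit 0x8402a2))
 (.l (nat_lit 0x440c5)))
 (.l (nat_lit 0x8b2a4)))
 (.n (.n (.l (nat_lit 0x1462a6))
 (.l (nat_lit 0x27157)))
 (.l (nat_lit 0x1620a5))))
 (.n (.n (.n (.l (nat_lit 0x29156))
 (.l (nat_lit 0x124145)))
 (.l (nat_lit 0xea017)))
 (.n (.n (.l (nat_lit 0x40035))
 (.l (nat_lit 0x1082a3)))
 (.l (nat_lit 0x1270b5)))))

def a512_298 : TA :=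
 .n (.n (.n (.n (.n (.l (nat_lit 0xc0120))
 (.l (nat_lit 0x862e4)))
 (.l (nat_lit 0xe4055)))
 (.n (.n (.l (nat_lit 0x124014))
 (.l (nat_lit 0xa60a7)))
 (.l (nat_lit 0x10a2c5))))
 (.n (.n (.n (.l (nat_lit 0x82006))
 (.l (nat_lit 0x272f4)))
 (.l (nat_lit 0x1682b6)))
 (.n (.n (.l (nat_lit 0xab025))
 (.l (nat_lit 0xca0a3)))
 (.l (nat_lit 0xcb2d6)))))
 (.n (.n (.n (.n (.l (nat_lit 0x120004))
 (.l (nat_lit 0x861a5)))
 (.l (nat_lit 0x2086)))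
 (.n (.n (.l (nat_lit 0x861c4))
 (.l (nat_lit 0x101227)))
 (.l (nat_lit 0x1612d4))))
 (.n (.n (.n (.l (nat_lit 0x3054))
 (.l (nat_lit 0x41295)))
 (.l (nat_lit 0x4106)))
 (.n (.n (.l (nat_lit 0xa6046))
 (.l (nat_lit 0x4700b)))
 (.l (nat_lit 0xc7196)))))

def a256_42 : TA := .n a512_42 a512_298

def a512_170 : TA :=
 .n (.n (.n (.n (.n (.l (nat_lit 0x600072))
 (.l (nat_lit 0x862e5)))
 (.n (.l (nat_lit 0xb004))
 (.l (nat_lit 0x540ea22560000c))))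
 (.n (.n (.l (nat_lit 0x40236))
 (.l (nat_lit 0x4077)))
 (.l (nat_lit 0xa256))))
 (.n (.n (.n (.l (nat_lit 0x260e5))
 (.l (nat_lit 0x1651a4)))
 (.l (nat_lit 0x41245)))
 (.n (.n (.l (nat_lit 0x107044))
 (.l (nat_lit 0x42043)))
 (.l (nat_lit 0xcb266)))))
 (.n (.n (.n (.n (.l (nat_lit 0xa7075))
 (.l (nat_lit 0x65135)))
 (.l (nat_lit 0x49065)))
 (.n (.n (.l (nat_lit 0x106004))
 (.l (nat_lit 0x881c7)))
 (.l (nat_lit 0x20264))))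
 (.n (.n (.n (.l (nat_lit 0xc51c5))
 (.l (nat_lit 0xe2304)))
 (.l (nat_lit 0xe4095)))
 (.n (.n (.l (nat_lit 0x128154))
 (.l (nat_lit 0x2900009)))
 (.l (nat_lit 0xc7125)))))

def a512_426 : TA :=
 .n (.n (.n (.n (.n (.l (nat_lit 0xc01f0))
 (.l (nat_lit 0xcb2e4)))
 (.l (nat_lit 0x140065)))
 (.n (.n (.l (nat_lit 0xca2a6))
 (.l (nat_lit 0x12a0e7)))
 (.l (nat_lit 0x4a254))))
 (.n (.n (.n (.l (nat_lit 0x422a4))
 (.l (nat_lit 0xa40d5)))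
 (.l (nat_lit 0x168084)))
 (.n (.n (.l (nat_lit 0x144035))
 (.l (nat_lit 0x8b193)))
 (.l (nat_lit 0x6a2d4)))))
 (.n (.n (.n (.n (.l (nat_lit 0x120014))
 (.l (nat_lit 0xe30c4)))
 (.l (nat_lit 0x440f6)))
 (.n (.n (.l (nat_lit 0x148016))
 (.l (nat_lit 0x2267)))
 (.l (nat_lit 0xe2264))))
 (.n (.n (.n (.l (nat_lit 0xab1c6))
 (.l (nat_lit 0x143306)))
 (.l (nat_lit 0x45176)))
 (.n (.n (.l (nat_lit 0x102045))
 (.l (nat_lit 0x689488d400600c)))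
 (.l (nat_lit 0xa1206)))))

def a256_170 : TA := .n a512_170 a512_426

def a128_42 : TA := .n a256_42 a256_170

def a512_106 : TA :=
 .n (.n (.n (.n (.n (.l (nat_lit 0xa40042))
 (.l (nat_lit 0x7275)))
 (.n (.l (nat_lit 0x23056))
 (.l (nat_lit 0xd529886c02000c))))
 (.n (.n (.l (nat_lit 0xc4074))
 (.l (nat_lit 0x9067)))
 (.l (nat_lit 0xe9256))))
 (.n (.n (.n (.l (nat_lit 0x81054))
 (.l (nat_lit 0x25057)))
 (.l (nat_lit 0x143084)))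
 (.n (.n (.l (nat_lit 0x2a026))
 (.l (nat_lit 0x14a013)))
 (.l (nat_lit 0x440a4)))))
 (.n (.n (.n (.n (.l (nat_lit 0xc0006))
 (.l (nat_lit 0x164136)))
 (.l (nat_lit 0xa2066)))
 (.n (.n (.l (nat_lit 0x25154))
 (.l (nat_lit 0x107197)))
 (.l (nat_lit 0x160037))))
 (.n (.n (.n (.l (nat_lit 0x162024))
 (.l (nat_lit 0xc81b5)))
 (.l (nat_lit 0x6a096)))
 (.n (.n (.l (nat_lit 0x25036))
 (.l (nat_lit 0x1840009)))
 (.l (nat_lit 0x1660b6)))))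

def a512_362 : TA :=
 .n (.n (.n (.n (.n (.l (nat_lit 0x100180))
 (.l (nat_lit 0x7204)))
 (.l (nat_lit 0x6a0e4)))
 (.n (.n (.l (nat_lit 0xa22a6))
 (.l (nat_lit 0x230e7)))
 (.l (nat_lit 0x29094))))
 (.n (.n (.n (.l (nat_lit 0x8155))
 (.l (nat_lit 0xa40d6)))
 (.l (nat_lit 0x1292b5)))
 (.n (.n (.l (nat_lit 0x8005))
 (.l (nat_lit 0x89103)))
 (.l (nat_lit 0x166264)))))
 (.n (.n (.n (.n (.l (nat_lit 0x168076))
 (.l (nat_lit 0xc7216)))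
 (.l (nat_lit 0x1017)))
 (.n (.n (.l (nat_lit 0x1016))
 (.l (nat_lit 0xa6237)))
 (.l (nat_lit 0xc22d4))))
 (.n (.n (.n (.l (nat_lit 0x1061c5))
 (.l (nat_lit 0x61295)))
 (.l (nat_lit 0xc2027)))
 (.n (.n (.l (nat_lit 0x92a4))
 (.l (nat_lit 0x1286888d102000c)))
 (.l (nat_lit 0x165195)))))

def a256_106 : TA := .n a512_106 a512_362

def a512_234 : TA :=
 .n (.n (.n (.n (.n (.l (nat_lit 0x8000c2))
 (.l (nat_lit 0x1462e6)))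
 (.n (.l (nat_lit 0x12a005))
 (.l (nat_lit 0x15085ab0322000c))))
 (.n (.n (.l (nat_lit 0xe8235))
 (.l (nat_lit 0x10b077)))
 (.l (nat_lit 0x14a2c6))))
 (.n (.n (.n (.l (nat_lit 0x122004))
 (.l (nat_lit 0x7134)))
 (.l (nat_lit 0x68245)))
 (.n (.n (.l (nat_lit 0xc3026))
 (.l (nat_lit 0xc4063)))
 (.l (nat_lit 0x6b2d5)))))
 (.n (.n (.n (.n (.l (nat_lit 0x1c4))
 (.l (nat_lit 0x1651a6)))
 (.l (nat_lit 0x16b044)))
 (.n (.n (.l (nat_lit 0x125016))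
 (.l (nat_lit 0x2a1f7)))
 (.l (nat_lit 0x1412d4))))
 (.n (.n (.n (.l (nat_lit 0xaa1c5))
 (.l (nat_lit 0x143144)))
 (.l (nat_lit 0x24106)))
 (.n (.n (.l (nat_lit 0x81046))
 (.l (nat_lit 0x10100b)))
 (.l (nat_lit 0x47126)))))

def a512_490 : TA :=
 .n (.n (.n (.n (.n (.l (nat_lit 0x80240))
 (.l (nat_lit 0x1230c6)))
 (.l (nat_lit 0x107065)))
 (.n (.n (.l (nat_lit 0x45054))
 (.l (nat_lit 0x85127)))
 (.l (nat_lit 0x14b094))))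
 (.n (.n (.n (.l (nat_lit 0x160155))
 (.l (nat_lit 0x165146)))
 (.l (nat_lit 0xa9017)))
 (.n (.n (.l (nat_lit 0xc8074))
 (.l (nat_lit 0x100233)))
 (.l (nat_lit 0x16b114)))))
 (.n (.n (.n (.n (.l (nat_lit 0xa40e6))
 (.l (nat_lit 0x1040c4)))
 (.l (nat_lit 0xe5166)))
 (.n (.n (.l (nat_lit 0xe6234))
 (.l (nat_lit 0x1232a7)))
 (.l (nat_lit 0x430a4))))
 (.n (.n (.n (.l (nat_lit 0x4005))
 (.l (nat_lit 0x870d4)))
 (.l (nat_lit 0x11e6)))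
 (.n (.n (.l (nat_lit 0xe7045))
 (.l (nat_lit 0xe0b182d100000c)))
 (.l (nat_lit 0x61205)))))

def a256_234 : TA := .n a512_234 a512_490

def a128_106 : TA := .n a256_106 a256_234

def a64_42 : TA := .n a128_42 a128_106

def a32_10 : TA := .n a64_10 a64_42

def a512_26 : TA :=
 .n (.n (.n (.n (.n (.l (nat_lit 0x140010))
 (.l (nat_lit 0x61276)))
 (.n (.l (nat_lit 0xe9234))
 (.l (nat_lit 0x1026688cd40600c))))
 (.n (.n (.l (nat_lit 0x6235))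
 (.l (nat_lit 0x108067)))
 (.l (nat_lit 0x1001e6))))
 (.n (.n (.n (.l (nat_lit 0x1090e5))
 (.l (nat_lit 0x67285)))
 (.l (nat_lit 0x85166)))
 (.n (.n (.l (nat_lit 0xe0026))
 (.l (nat_lit 0x10a2a7)))
 (.l (nat_lit 0x10a1f6)))))
 (.n (.n (.n (.n (.l (nat_lit 0x2a0))
 (.l (nat_lit 0xa20c6)))
 (.l (nat_lit 0x10b154)))
 (.n (.n (.l (nat_lit 0x432a5))
 (.l (nat_lit 0x86157)))
 (.l (nat_lit 0x40037))))
 (.n (.n (.n (.l (nat_lit 0x8156))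
 (.l (nat_lit 0x143146)))
 (.l (nat_lit 0x8a0f4)))
 (.n (.n (.l (nat_lit 0xc8064))
 (.l (nat_lit 0x1032a3)))
 (.l (nat_lit 0x260b5)))))

def a512_282 : TA :=
 .n (.n (.n (.n (.n (.l (nat_lit 0x440102))
 (.l (nat_lit 0x106194)))
 (.l (nat_lit 0x143055)))
 (.n (.n (.l (nat_lit 0x240e4))
 (.l (nat_lit 0x1040a7)))
 (.l (nat_lit 0x1232c5))))
 (.n (.n (.n (.l (nat_lit 0x121054))
 (.l (nat_lit 0xa71a4)))
 (.l (nat_lit 0x222b6)))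
 (.n (.n (.l (nat_lit 0x10a026))
 (.l (nat_lit 0x82093)))
 (.l (nat_lit 0xe22d5)))))
 (.n (.n (.n (.n (.l (nat_lit 0x20005))
 (.l (nat_lit 0xe41a6)))
 (.l (nat_lit 0x149086)))
 (.n (.n (.l (nat_lit 0x106074))
 (.l (nat_lit 0x25217)))
 (.l (nat_lit 0x611f4))))
 (.n (.n (.n (.l (nat_lit 0x83024))
 (.l (nat_lit 0x44067)))
 (.l (nat_lit 0x41254)))
 (.n (.n (.l (nat_lit 0x105045))
 (.l (nat_lit 0x14500a)))
 (.l (nat_lit 0x125196)))))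

def a256_26 : TA := .n a512_26 a512_282

def a512_154 : TA :=
 .n (.n (.n (.n (.n (.l (nat_lit 0x680062))
 (.l (nat_lit 0x1022e5)))
 (.n (.l (nat_lit 0xa7056))
 (.l (nat_lit 0xd0a8876100600c))))
 (.n (.n (.l (nat_lit 0xc4064))
 (.l (nat_lit 0x82077)))
 (.l (nat_lit 0x62255))))
 (.n (.n (.n (.l (nat_lit 0x850e5))
 (.l (nat_lit 0x672f6)))
 (.l (nat_lit 0xe32b4)))
 (.n (.n (.l (nat_lit 0x7234))
 (.l (nat_lit 0x44033)))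
 (.l (nat_lit 0x122265)))))
 (.n (.n (.n (.n (.l (nat_lit 0xc6075))
 (.l (nat_lit 0xe3136)))
 (.l (nat_lit 0xe7066)))
 (.n (.n (.l (nat_lit 0x6005))
 (.l (nat_lit 0x1261c7)))
 (.l (nat_lit 0xab0a5))))
 (.n (.n (.n (.l (nat_lit 0x1601c6))
 (.l (nat_lit 0x671b5)))
 (.l (nat_lit 0x143096)))
 (.n (.n (.l (nat_lit 0x28074))
 (.l (nat_lit 0x18c0009)))
 (.l (nat_lit 0xa5126)))))

def a512_410 : TA :=
 .n (.n (.n (.n (.n (.l (nat_lit 0xb001c2))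
 (.l (nat_lit 0x10b047)))
 (.l (nat_lit 0x4b005)))
 (.n (.n (.l (nat_lit 0xe82a6))
 (.l (nat_lit 0x90e7)))
 (.l (nat_lit 0xca104))))
 (.n (.n (.n (.l (nat_lit 0xc3004))
 (.l (nat_lit 0xa0067)))
 (.l (nat_lit 0x482b4)))
 (.n (.n (.l (nat_lit 0x43035))
 (.l (nat_lit 0x8a153)))
 (.l (nat_lit 0xea0a4)))))
 (.n (.n (.n (.n (.l (nat_lit 0x201c4))
 (.l (nat_lit 0x145216)))
 (.l (nat_lit 0x1244)))
 (.n (.n (.l (nat_lit 0x45015))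
 (.l (nat_lit 0xab237)))
 (.l (nat_lit 0x10b185))))
 (.n (.n (.n (.l (nat_lit 0x10a1c6))
 (.l (nat_lit 0x1241b4)))
 (.l (nat_lit 0xc2094)))
 (.n (.n (.l (nat_lit 0x1045))
 (.l (nat_lit 0xe895831100600c)))
 (.l (nat_lit 0x83047)))))

def a256_154 : TA := .n a512_154 a512_410

def a128_26 : TA := .n a256_26 a256_154

def a512_90 : TA :=
 .n (.n (.n (.n (.n (.l (nat_lit 0x40))
 (.l (nat_lit 0xa1275)))
 (.n (.l (nat_lit 0x82056))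
 (.l (nat_lit 0xd41488e900000c))))
 (.n (.n (.l (nat_lit 0x14b235))
 (.l (nat_lit 0xa8224)))
 (.l (nat_lit 0xc4027))))
 (.n (.n (.n (.l (nat_lit 0x101024))
 (.l (nat_lit 0xa72f5)))
 (.l (nat_lit 0x291d5)))
 (.n (.n (.l (nat_lit 0x89025))
 (.l (nat_lit 0x45013)))
 (.l (nat_lit 0xea265)))))
 (.n (.n (.n (.n (.l (nat_lit 0x1402f0))
 (.l (nat_lit 0x1057)))
 (.l (nat_lit 0x81066)))
 (.n (.n (.l (nat_lit 0x8b2a6))
 (.l (nat_lit 0x20187)))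
 (.l (nat_lit 0x40184))))
 (.n (.n (.n (.l (nat_lit 0x622a4))
 (.l (nat_lit 0xa41b5)))
 (.l (nat_lit 0xa3096)))
 (.n (.n (.l (nat_lit 0x84036))
 (.l (nat_lit 0x800009)))
 (.l (nat_lit 0x640b5)))))

def a512_346 : TA :=
 .n (.n (.n (.n (.n (.l (nat_lit 0xc0160))
 (.l (nat_lit 0x870b4)))
 (.l (nat_lit 0xe8055)))
 (.n (.n (.l (nat_lit 0x1012a5))
 (.l (nat_lit 0xa70d7)))
 (.l (nat_lit 0x89254))))
 (.n (.n (.n (.l (nat_lit 0xa6156))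
 (.l (nat_lit 0x1020d5)))
 (.l (nat_lit 0xc82b5)))
 (.n (.n (.l (nat_lit 0xa7044))
 (.l (nat_lit 0x30f3)))
 (.l (nat_lit 0x1061f4)))))
 (.n (.n (.n (.n (.l (nat_lit 0x147076))
 (.l (nat_lit 0xa0216)))
 (.l (nat_lit 0xaa085)))
 (.n (.n (.l (nat_lit 0xa6004))
 (.l (nat_lit 0x102237)))
 (.l (nat_lit 0x16b186))))
 (.n (.n (.n (.l (nat_lit 0x51c6))
 (.l (nat_lit 0xe4067)))
 (.l (nat_lit 0xe11e4)))
 (.n (.n (.l (nat_lit 0x89154))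
 (.l (nat_lit 0x8b00b)))
 (.l (nat_lit 0x64196)))))

def a256_90 : TA := .n a512_90 a512_346

def a512_218 : TA :=
 .n (.n (.n (.n (.n (.l (nat_lit 0x1000b0))
 (.l (nat_lit 0x22e6)))
 (.n (.l (nat_lit 0xa024))
 (.l (nat_lit 0xc8899b0540600c))))
 (.n (.n (.l (nat_lit 0x107235))
 (.l (nat_lit 0xa077)))
 (.l (nat_lit 0x1632c6))))
 (.n (.n (.n (.l (nat_lit 0xb0e5))
 (.l (nat_lit 0xa60c4)))
 (.l (nat_lit 0x41246)))
 (.n (.n (.l (nat_lit 0x121025))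
 (.l (nat_lit 0x146053)))
 (.l (nat_lit 0xa32d6)))))
 (.n (.n (.n (.n (.l (nat_lit 0xab076))
 (.l (nat_lit 0x641a5)))
 (.l (nat_lit 0x6b024)))
 (.n (.n (.l (nat_lit 0x24016))
 (.l (nat_lit 0x881d7)))
 (.l (nat_lit 0x12b116))))
 (.n (.n (.n (.l (nat_lit 0x1091c5))
 (.l (nat_lit 0x9225)))
 (.l (nat_lit 0x41027)))
 (.n (.n (.l (nat_lit 0x109006))
 (.l (nat_lit 0x4000a)))
 (.l (nat_lit 0xa5125)))))

def a512_474 : TA :=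
 .n (.n (.n (.n (.n (.l (nat_lit 0x400232))
 (.l (nat_lit 0x140057)))
 (.l (nat_lit 0x24066)))
 (.n (.n (.l (nat_lit 0xc5024))
 (.l (nat_lit 0x104117)))
 (.l (nat_lit 0x6a2c4))))
 (.n (.n (.n (.l (nat_lit 0x62006))
 (.l (nat_lit 0x44145)))
 (.l (nat_lit 0x1091d4)))
 (.n (.n (.l (nat_lit 0x14b035))
 (.l (nat_lit 0x10a1f3)))
 (.l (nat_lit 0x6b037)))))
 (.n (.n (.n (.n (.l (nat_lit 0x1030e5))
 (.l (nat_lit 0x146285)))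
 (.l (nat_lit 0x161244)))
 (.n (.n (.l (nat_lit 0x1660e4))
 (.l (nat_lit 0x222a7)))
 (.l (nat_lit 0xea1f5))))
 (.n (.n (.n (.l (nat_lit 0xa3044))
 (.l (nat_lit 0x1251b4)))
 (.l (nat_lit 0x83027)))
 (.n (.n (.l (nat_lit 0x146046))
 (.l (nat_lit 0x2560bb0162600c)))
 (.l (nat_lit 0x80206)))))

def a256_218 : TA := .n a512_218 a512_474

def a128_90 : TA := .n a256_90 a256_218

def a64_26 : TA := .n a128_26 a128_90

def a512_58 : TA :=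
 .n (.n (.n (.n (.n (.l (nat_lit 0x440022))
 (.l (nat_lit 0x147276)))
 (.n (.l (nat_lit 0x14a005))
 (.l (nat_lit 0x11a22b85502000c))))
 (.n (.n (.l (nat_lit 0xa8236))
 (.l (nat_lit 0x8304)))
 (.l (nat_lit 0x6a1e6))))
 (.n (.n (.n (.l (nat_lit 0x82004))
 (.l (nat_lit 0x1012f5)))
 (.l (nat_lit 0x62244)))
 (.n (.n (.l (nat_lit 0x23025))
 (.l (nat_lit 0x22d7)))
 (.l (nat_lit 0x1632d4)))))
 (.n (.n (.n (.n (.l (nat_lit 0x8c02b2))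
 (.l (nat_lit 0x870c6)))
 (.l (nat_lit 0xb044)))
 (.n (.n (.l (nat_lit 0x1082a5))
 (.l (nat_lit 0x128157)))
 (.l (nat_lit 0xc40a6))))
 (.n (.n (.n (.l (nat_lit 0x12a156))
 (.l (nat_lit 0x9146)))
 (.l (nat_lit 0xea1d4)))
 (.n (.n (.l (nat_lit 0x141035))
 (.l (nat_lit 0xc12d3)))
 (.l (nat_lit 0x160047)))))

def a512_314 : TA :=
 .n (.n (.n (.n (.n (.l (nat_lit 0x140141))
 (.l (nat_lit 0x26194)))
 (.l (nat_lit 0x46056)))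
 (.n (.n (.l (nat_lit 0xa4044))
 (.l (nat_lit 0x70b7)))
 (.l (nat_lit 0x125104))))
 (.n (.n (.n (.l (nat_lit 0x4155))
 (.l (nat_lit 0x1080c4)))
 (.l (nat_lit 0xc5164)))
 (.n (.n (.l (nat_lit 0x270e4))
 (.l (nat_lit 0x1030e3)))
 (.l (nat_lit 0x651f4)))))
 (.n (.n (.n (.n (.l (nat_lit 0x83076))
 (.l (nat_lit 0x220c4)))
 (.l (nat_lit 0x123085)))
 (.n (.n (.l (nat_lit 0x6034))
 (.l (nat_lit 0xa7227)))
 (.l (nat_lit 0x5185))))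
 (.n (.n (.n (.l (nat_lit 0x123005))
 (.l (nat_lit 0x47296)))
 (.l (nat_lit 0x125105)))
 (.n (.n (.l (nat_lit 0xb045))
 (.l (nat_lit 0xc800b)))
 (.l (nat_lit 0x2274)))))

def a256_58 : TA := .n a512_58 a512_314

def a512_186 : TA :=
 .n (.n (.n (.n (.n (.l (nat_lit 0xc0080))
 (.l (nat_lit 0x8b2e5)))
 (.n (.l (nat_lit 0x10a0e4))
 (.l (nat_lit 0x1486a1ac440600c))))
 (.n (.n (.l (nat_lit 0x141236))
 (.l (nat_lit 0x126077)))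
 (.l (nat_lit 0x64104))))
 (.n (.n (.n (.l (nat_lit 0x1080e6))
 (.l (nat_lit 0x1460c4)))
 (.l (nat_lit 0x9246)))
 (.n (.n (.l (nat_lit 0xa7005))
 (.l (nat_lit 0x47043)))
 (.l (nat_lit 0x64114)))))
 (.n (.n (.n (.n (.l (nat_lit 0x9076))
 (.l (nat_lit 0x67136)))
 (.l (nat_lit 0x16b074)))
 (.n (.n (.l (nat_lit 0xe1015))
 (.l (nat_lit 0x291c7)))
 (.l (nat_lit 0x4115))))
 (.n (.n (.n (.l (nat_lit 0x661c6))
 (.l (nat_lit 0xa0226)))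
 (.l (nat_lit 0x8a095)))
 (.n (.n (.l (nat_lit 0xa82a4))
 (.l (nat_lit 0x900009)))
 (.l (nat_lit 0x81274)))))

def a512_442 : TA :=
 .n (.n (.n (.n (.n (.l (nat_lit 0x600202))
 (.l (nat_lit 0xeb124)))
 (.l (nat_lit 0xe1065)))
 (.n (.n (.l (nat_lit 0x6b2a5))
 (.l (nat_lit 0x830f7)))
 (.l (nat_lit 0x16a027))))
 (.n (.n (.n (.l (nat_lit 0x142024))
 (.l (nat_lit 0x890d5)))
 (.l (nat_lit 0xa82b4)))
 (.n (.n (.l (nat_lit 0xe5035))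
 (.l (nat_lit 0xc71a3)))
 (.l (nat_lit 0x14b0a4)))))
 (.n (.n (.n (.n (.l (nat_lit 0xa0044))
 (.l (nat_lit 0xc4057)))
 (.l (nat_lit 0x1650f5)))
 (.n (.n (.l (nat_lit 0xe9015))
 (.l (nat_lit 0x12b277)))
 (.l (nat_lit 0x401f5))))
 (.n (.n (.n (.l (nat_lit 0x230e4))
 (.l (nat_lit 0x42306)))
 (.l (nat_lit 0xa176)))
 (.n (.n (.l (nat_lit 0xa3045))
 (.l (nat_lit 0x6a81d2d402000c)))
 (.l (nat_lit 0x47206)))))

def a256_186 : TA := .n a512_186 a512_442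

def a128_58 : TA := .n a256_58 a256_186

def a512_122 : TA :=
 .n (.n (.n (.n (.n (.l (nat_lit 0x200052))
 (.l (nat_lit 0x240b4)))
 (.n (.l (nat_lit 0x5055))
 (.l (nat_lit 0x1103588e900600c))))
 (.n (.n (.l (nat_lit 0x44014))
 (.l (nat_lit 0x109144)))
 (.l (nat_lit 0xc4094))))
 (.n (.n (.n (.l (nat_lit 0x21006))
 (.l (nat_lit 0x1612f6)))
 (.l (nat_lit 0x601d5)))
 (.n (.n (.l (nat_lit 0x12b026))
 (.l (nat_lit 0x105023)))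
 (.l (nat_lit 0x144184)))))
 (.n (.n (.n (.n (.l (nat_lit 0x62075))
 (.l (nat_lit 0x167135)))
 (.l (nat_lit 0x44065)))
 (.n (.n (.l (nat_lit 0x125014))
 (.l (nat_lit 0x801c7)))
 (.l (nat_lit 0x1230a5))))
 (.n (.n (.n (.l (nat_lit 0xe2054))
 (.l (nat_lit 0x820d4)))
 (.l (nat_lit 0x40174)))
 (.n (.n (.l (nat_lit 0x126035))
 (.l (nat_lit 0x2880009)))
 (.l (nat_lit 0x20194)))))

def a512_378 : TA :=
 .n (.n (.n (.n (.n (.l (nat_lit 0x401a0))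
 (.l (nat_lit 0x1472e4)))
 (.l (nat_lit 0x16a1c4)))
 (.n (.n (.l (nat_lit 0x62a5))
 (.l (nat_lit 0x1250e7)))
 (.l (nat_lit 0x691e4))))
 (.n (.n (.n (.l (nat_lit 0x29155))
 (.l (nat_lit 0xc80d5)))
 (.l (nat_lit 0x88017)))
 (.n (.n (.l (nat_lit 0x100036))
 (.l (nat_lit 0x8b123)))
 (.l (nat_lit 0xca114)))))
 (.n (.n (.n (.n (.l (nat_lit 0x10a075))
 (.l (nat_lit 0x432f4)))
 (.l (nat_lit 0x1240f6)))
 (.n (.n (.l (nat_lit 0x142016))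
 (.l (nat_lit 0x28237)))
 (.l (nat_lit 0x84186))))
 (.n (.n (.n (.l (nat_lit 0xa71c5))
 (.l (nat_lit 0x48295)))
 (.l (nat_lit 0xa5176)))
 (.n (.n (.l (nat_lit 0x109024))
 (.l (nat_lit 0xa074c0d100000c)))
 (.l (nat_lit 0xc7195)))))

def a256_122 : TA := .n a512_122 a512_378

def a256_250 : TA :=
 .n (.n (.n (.n (.n (.n (.l (nat_lit 0x1400e1))
 (.l (nat_lit 0x14b2e6)))
 (.l (nat_lit 0xa0056)))
 (.n (.n (.l (nat_lit 0x8a236))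
 (.l (nat_lit 0xa8087)))
 (.l (nat_lit 0x105174))))
 (.n (.n (.n (.l (nat_lit 0xa12a4))
 (.l (nat_lit 0x107214)))
 (.l (nat_lit 0x8a246)))
 (.n (.n (.l (nat_lit 0xa4026))
 (.l (nat_lit 0x42073)))
 (.l (nat_lit 0x145184)))))
 (.n (.n (.n (.n (.l (nat_lit 0x100014))
 (.l (nat_lit 0x1681a5)))
 (.l (nat_lit 0xe2085)))
 (.n (.n (.l (nat_lit 0x89015))
 (.l (nat_lit 0x121207)))
 (.l (nat_lit 0xe4115))))
 (.n (.n (.n (.l (nat_lit 0x4004))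
 (.l (nat_lit 0x160225)))
 (.l (nat_lit 0x29105)))
 (.n (.n (.l (nat_lit 0x22046))
 (.l (nat_lit 0x300a)))
 (.l (nat_lit 0x61274))))))
 (.n (.n (.n (.n (.n (.l (nat_lit 0x100260))
 (.l (nat_lit 0x1070c5)))
 (.l (nat_lit 0xa8066)))
 (.n (.n (.l (nat_lit 0x165005))
 (.l (nat_lit 0x157)))
 (.l (nat_lit 0x10b1e4))))
 (.n (.n (.n (.l (nat_lit 0xc5156))
 (.l (nat_lit 0x28145)))
 (.l (nat_lit 0x29164)))
 (.n (.n (.l (nat_lit 0x481c4))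
 (.l (nat_lit 0x102243)))
 (.l (nat_lit 0xeb264)))))
 (.n (.n (.n (.n (.l (nat_lit 0x60e6))
 (.l (nat_lit 0x124057)))
 (.l (nat_lit 0x89165)))
 (.n (.n (.l (nat_lit 0x66044))
 (.l (nat_lit 0x872a7)))
 (.l (nat_lit 0x1f6))))
 (.n (.n (.n (.l (nat_lit 0x100235))
 (.l (nat_lit 0x67067)))
 (.l (nat_lit 0x2a1e5)))
 (.n (.n (.l (nat_lit 0x6a004))
 (.l (nat_lit 0xc1aa070d40600c)))
 (.l (nat_lit 0x166205))))))

def a128_122 : TA := .n a256_122 a256_250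

def a64_58 : TA := .n a128_58 a128_122

def a32_26 : TA := .n a64_26 a64_58

def a16_10 : TA := .n a32_10 a32_26

def a8_2 : TA := .n a16_2 a16_10

def a512_6 : TA :=
 .n (.n (.n (.n (.n (.l (nat_lit 0x200002))
 (.l (nat_lit 0x14b206)))
 (.n (.l (nat_lit 0x690e4))
 (.l (nat_lit 0x1016a82d520600c))))
 (.n (.n (.l (nat_lit 0x101235))
 (.l (nat_lit 0xa7144)))
 (.l (nat_lit 0x43094))))
 (.n (.n (.n (.l (nat_lit 0xa70e5))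
 (.l (nat_lit 0x101286)))
 (.l (nat_lit 0x2084)))
 (.n (.n (.l (nat_lit 0x47005))
 (.l (nat_lit 0xa82a7)))
 (.l (nat_lit 0x411f5)))))
 (.n (.n (.n (.n (.l (nat_lit 0x80280))
 (.l (nat_lit 0x1401a4)))
 (.l (nat_lit 0xa9066)))
 (.n (.n (.l (nat_lit 0x1412a6))
 (.l (nat_lit 0x4157)))
 (.l (nat_lit 0x14b2c4))))
 (.n (.n (.n (.l (nat_lit 0xc6155))
 (.l (nat_lit 0x1294)))
 (.l (nat_lit 0x29244)))
 (.n (.n (.l (nat_lit 0x482a4))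
 (.l (nat_lit 0x2263)))
 (.l (nat_lit 0xc0047)))))

def a512_262 : TA :=
 .n (.n (.n (.n (.n (.l (nat_lit 0x400f0))
 (.l (nat_lit 0x165194)))
 (.l (nat_lit 0xa1056)))
 (.n (.n (.l (nat_lit 0x10b236))
 (.l (nat_lit 0xa4097)))
 (.l (nat_lit 0x1612c6))))
 (.n (.n (.n (.l (nat_lit 0xa1024))
 (.l (nat_lit 0x1472f4)))
 (.l (nat_lit 0xa40f4)))
 (.n (.n (.l (nat_lit 0xa5025))
 (.l (nat_lit 0xc7073)))
 (.l (nat_lit 0x165037)))))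
 (.n (.n (.n (.n (.l (nat_lit 0x100034))
 (.l (nat_lit 0x1422f4)))
 (.l (nat_lit 0x163086)))
 (.n (.n (.l (nat_lit 0x8a016))
 (.l (nat_lit 0x106207)))
 (.l (nat_lit 0x106115))))
 (.n (.n (.n (.l (nat_lit 0x30e4))
 (.l (nat_lit 0x148225)))
 (.l (nat_lit 0x12a106)))
 (.n (.n (.l (nat_lit 0xa3046))
 (.l (nat_lit 0x400b)))
 (.l (nat_lit 0x42047)))))

def a256_6 : TA := .n a512_6 a512_262

def a512_134 : TA :=
 .n (.n (.n (.n (.n (.l (nat_lit 0x8c0052))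
 (.l (nat_lit 0x64194)))
 (.n (.l (nat_lit 0x6055))
 (.l (nat_lit 0xd094866c02000c))))
 (.n (.n (.l (nat_lit 0x44034))
 (.l (nat_lit 0x149224)))
 (.l (nat_lit 0xe4027))))
 (.n (.n (.n (.l (nat_lit 0x230e6))
 (.l (nat_lit 0x1622f5)))
 (.l (nat_lit 0x491d6)))
 (.n (.n (.l (nat_lit 0x107074))
 (.l (nat_lit 0x14b023)))
 (.l (nat_lit 0x160266)))))
 (.n (.n (.n (.n (.l (nat_lit 0x63076))
 (.l (nat_lit 0x41214)))
 (.l (nat_lit 0x45065)))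
 (.n (.n (.l (nat_lit 0x125034))
 (.l (nat_lit 0xa11c7)))
 (.l (nat_lit 0x1240a5))))
 (.n (.n (.n (.l (nat_lit 0xc3005))
 (.l (nat_lit 0xc41b6)))
 (.l (nat_lit 0xa0027)))
 (.n (.n (.l (nat_lit 0x12a036))
 (.l (nat_lit 0x1080009)))
 (.l (nat_lit 0x1047)))))

def a512_390 : TA :=
 .n (.n (.n (.n (.n (.l (nat_lit 0xc01c0))
 (.l (nat_lit 0x1670b4)))
 (.l (nat_lit 0x16a2a4)))
 (.n (.n (.l (nat_lit 0x72a5))
 (.l (nat_lit 0x1070e7)))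
 (.l (nat_lit 0x692c4))))
 (.n (.n (.n (.l (nat_lit 0x2a155))
 (.l (nat_lit 0xc90d6)))
 (.l (nat_lit 0x880f4)))
 (.n (.n (.l (nat_lit 0x101036))
 (.l (nat_lit 0x104153)))
 (.l (nat_lit 0x10a1f4)))))
 (.n (.n (.n (.n (.l (nat_lit 0x10b075))
 (.l (nat_lit 0x40216)))
 (.l (nat_lit 0x1080f5)))
 (.n (.n (.l (nat_lit 0x143016))
 (.l (nat_lit 0x29237)))
 (.l (nat_lit 0xa5185))))
 (.n (.n (.n (.l (nat_lit 0xa81c5))
 (.l (nat_lit 0x49295)))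
 (.l (nat_lit 0xa175)))
 (.n (.n (.l (nat_lit 0x129005))
 (.l (nat_lit 0xe894c0d100600c)))
 (.l (nat_lit 0x16b195)))))

def a256_134 : TA := .n a512_134 a512_390

def a128_6 : TA := .n a256_6 a256_134

def a512_70 : TA :=
 .n (.n (.n (.n (.n (.l (nat_lit 0xc0030))
 (.l (nat_lit 0x144124)))
 (.n (.l (nat_lit 0x140055))
 (.l (nat_lit 0xd088872902000c))))
 (.n (.n (.l (nat_lit 0xa9236))
 (.l (nat_lit 0x280d4)))
 (.l (nat_lit 0x63094))))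
 (.n (.n (.n (.l (nat_lit 0x81234))
 (.l (nat_lit 0x1622f6)))
 (.l (nat_lit 0x43017)))
 (.n (.n (.l (nat_lit 0x24025))
 (.l (nat_lit 0x81013)))
 (.l (nat_lit 0x141265)))))
 (.n (.n (.n (.n (.l (nat_lit 0x4402c2))
 (.l (nat_lit 0xc80c6)))
 (.l (nat_lit 0x2b006)))
 (.n (.n (.l (nat_lit 0x1092a5))
 (.l (nat_lit 0x129157)))
 (.l (nat_lit 0xca0a6))))
 (.n (.n (.n (.l (nat_lit 0x16b155))
 (.l (nat_lit 0xe1294)))
 (.l (nat_lit 0x140027)))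
 (.n (.n (.l (nat_lit 0x142035))
 (.l (nat_lit 0x1432f3)))
 (.l (nat_lit 0x1620b6)))))

def a512_326 : TA :=
 .n (.n (.n (.n (.n (.l (nat_lit 0x100151))
 (.l (nat_lit 0x26274)))
 (.l (nat_lit 0x47056)))
 (.n (.n (.l (nat_lit 0xa4064))
 (.l (nat_lit 0x20d7)))
 (.l (nat_lit 0x109027))))
 (.n (.n (.n (.l (nat_lit 0x5155))
 (.l (nat_lit 0x168057)))
 (.l (nat_lit 0xc22b6)))
 (.n (.n (.l (nat_lit 0x271c4))
 (.l (nat_lit 0x1060e3)))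
 (.l (nat_lit 0x460a4)))))
 (.n (.n (.n (.n (.l (nat_lit 0x84075))
 (.l (nat_lit 0x222f4)))
 (.l (nat_lit 0x148086)))
 (.n (.n (.l (nat_lit 0x6054))
 (.l (nat_lit 0xa0237)))
 (.l (nat_lit 0x6186))))
 (.n (.n (.n (.l (nat_lit 0x1001c6))
 (.l (nat_lit 0x68296)))
 (.l (nat_lit 0x4a105)))
 (.n (.n (.l (nat_lit 0xa004))
 (.l (nat_lit 0xc900b)))
 (.l (nat_lit 0x62047)))))

def a256_70 : TA := .n a512_70 a512_326

def a512_198 : TA :=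
 .n (.n (.n (.n (.n (.l (nat_lit 0x100090))
 (.l (nat_lit 0xc5124)))
 (.n (.l (nat_lit 0x10a1c4))
 (.l (nat_lit 0x153222a5c02000c))))
 (.n (.n (.l (nat_lit 0x142235))
 (.l (nat_lit 0x127077)))
 (.l (nat_lit 0x612c5))))
 (.n (.n (.n (.l (nat_lit 0x1090e6))
 (.l (nat_lit 0x6284)))
 (.l (nat_lit 0x44084)))
 (.n (.n (.l (nat_lit 0x80025))
 (.l (nat_lit 0x80053)))
 (.l (nat_lit 0xc5037)))))
 (.n (.n (.n (.n (.l (nat_lit 0xa076))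
 (.l (nat_lit 0xe1284)))
 (.l (nat_lit 0x16b154)))
 (.n (.n (.l (nat_lit 0xe2015))
 (.l (nat_lit 0x2a1c7)))
 (.l (nat_lit 0x5116))))
 (.n (.n (.n (.l (nat_lit 0x671c6))
 (.l (nat_lit 0xe5225)))
 (.l (nat_lit 0x8b095)))
 (.n (.n (.l (nat_lit 0xa8054))
 (.l (nat_lit 0x2140009)))
 (.l (nat_lit 0x103126)))))

def a512_454 : TA :=
 .n (.n (.n (.n (.n (.l (nat_lit 0x100210))
 (.l (nat_lit 0xeb204)))
 (.l (nat_lit 0xe2065)))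
 (.n (.n (.l (nat_lit 0x45154))
 (.l (nat_lit 0x880f7)))
 (.l (nat_lit 0x16a104))))
 (.n (.n (.n (.l (nat_lit 0x142044))
 (.l (nat_lit 0x120224)))
 (.l (nat_lit 0x89084)))
 (.n (.n (.l (nat_lit 0xe6036))
 (.l (nat_lit 0x1051c3)))
 (.l (nat_lit 0x14b184)))))
 (.n (.n (.n (.n (.l (nat_lit 0xa0064))
 (.l (nat_lit 0xc1285)))
 (.l (nat_lit 0x490f6)))
 (.n (.n (.l (nat_lit 0xea015))
 (.l (nat_lit 0x122297)))
 (.l (nat_lit 0x611f6))))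
 (.n (.n (.n (.l (nat_lit 0x23014))
 (.l (nat_lit 0x88305)))
 (.l (nat_lit 0x22094)))
 (.n (.n (.l (nat_lit 0xa4046))
 (.l (nat_lit 0x16068c0d100600c)))
 (.l (nat_lit 0x12b205)))))

def a256_198 : TA := .n a512_198 a512_454

def a128_70 : TA := .n a256_70 a256_198

def a64_6 : TA := .n a128_6 a128_70

def a512_38 : TA :=
 .n (.n (.n (.n (.n (.l (nat_lit 0x680012))
 (.l (nat_lit 0xa2276)))
 (.n (.l (nat_lit 0xe9014))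
 (.l (nat_lit 0x101a9895320600c))))
 (.n (.n (.l (nat_lit 0x7236))
 (.l (nat_lit 0x108144)))
 (.l (nat_lit 0x1011e5))))
 (.n (.n (.n (.l (nat_lit 0x2a0e6))
 (.l (nat_lit 0x64134)))
 (.l (nat_lit 0xc9166)))
 (.n (.n (.l (nat_lit 0x121026))
 (.l (nat_lit 0x12b2a7)))
 (.l (nat_lit 0x14b1f6)))))
 (.n (.n (.n (.n (.l (nat_lit 0x8002a2))
 (.l (nat_lit 0xe30c5)))
 (.l (nat_lit 0x10b234)))
 (.n (.n (.l (nat_lit 0x462a6))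
 (.l (nat_lit 0x87157)))
 (.l (nat_lit 0x620a5))))
 (.n (.n (.n (.l (nat_lit 0x89156))
 (.l (nat_lit 0x24145)))
 (.l (nat_lit 0x14a244)))
 (.n (.n (.l (nat_lit 0xe8006))
 (.l (nat_lit 0x1472a3)))
 (.l (nat_lit 0x270b5)))))

def a512_294 : TA :=
 .n (.n (.n (.n (.n (.l (nat_lit 0x440112))
 (.l (nat_lit 0x106274)))
 (.l (nat_lit 0x144055)))
 (.n (.n (.l (nat_lit 0x24014))
 (.l (nat_lit 0x1060a7)))
 (.l (nat_lit 0xa2c5))))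
 (.n (.n (.n (.l (nat_lit 0x102005))
 (.l (nat_lit 0xa7284)))
 (.l (nat_lit 0x682b6)))
 (.n (.n (.l (nat_lit 0x10b025))
 (.l (nat_lit 0xc40a3)))
 (.l (nat_lit 0x14a2d5)))))
 (.n (.n (.n (.n (.l (nat_lit 0x20004))
 (.l (nat_lit 0x1251a5)))
 (.l (nat_lit 0xa0017)))
 (.n (.n (.l (nat_lit 0x106154))
 (.l (nat_lit 0x1227)))
 (.l (nat_lit 0x612d4))))
 (.n (.n (.n (.l (nat_lit 0x83044))
 (.l (nat_lit 0xe0295)))
 (.l (nat_lit 0x63106)))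
 (.n (.n (.l (nat_lit 0x106045))
 (.l (nat_lit 0x14600b)))
 (.l (nat_lit 0x126196)))))

def a256_38 : TA := .n a512_38 a512_294

def a512_166 : TA :=
 .n (.n (.n (.n (.n (.l (nat_lit 0x100071))
 (.l (nat_lit 0x1032e6)))
 (.n (.l (nat_lit 0xa8056))
 (.l (nat_lit 0xec08876142000c))))
 (.n (.n (.l (nat_lit 0xe4006))
 (.l (nat_lit 0x83077)))
 (.l (nat_lit 0x69255))))
 (.n (.n (.n (.l (nat_lit 0x860e5))
 (.l (nat_lit 0x651a4)))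
 (.l (nat_lit 0xe0245)))
 (.n (.n (.l (nat_lit 0x7044))
 (.l (nat_lit 0x40043)))
 (.l (nat_lit 0x14a266)))))
 (.n (.n (.n (.n (.l (nat_lit 0x107075))
 (.l (nat_lit 0xe4135)))
 (.l (nat_lit 0xe8065)))
 (.n (.n (.l (nat_lit 0x6004))
 (.l (nat_lit 0x1271c7)))
 (.l (nat_lit 0xa01f4))))
 (.n (.n (.n (.l (nat_lit 0x1611c6))
 (.l (nat_lit 0x122294)))
 (.l (nat_lit 0x144095)))
 (.n (.n (.l (nat_lit 0x28154))
 (.l (nat_lit 0xc0009)))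
 (.l (nat_lit 0x166126)))))

def a512_422 : TA :=
 .n (.n (.n (.n (.n (.l (nat_lit 0x1401e0))
 (.l (nat_lit 0x10b204)))
 (.l (nat_lit 0x40065)))
 (.n (.n (.l (nat_lit 0x1692a6))
 (.l (nat_lit 0x2a0e7)))
 (.l (nat_lit 0xca1e4))))
 (.n (.n (.n (.l (nat_lit 0xc2234))
 (.l (nat_lit 0x1230d5)))
 (.l (nat_lit 0x68084)))
 (.n (.n (.l (nat_lit 0x44035))
 (.l (nat_lit 0x100193)))
 (.l (nat_lit 0xea264)))))
 (.n (.n (.n (.n (.l (nat_lit 0x20014))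
 (.l (nat_lit 0x167215)))
 (.l (nat_lit 0xa1017)))
 (.n (.n (.l (nat_lit 0x48016))
 (.l (nat_lit 0x8b257)))
 (.l (nat_lit 0x1620a4))))
 (.n (.n (.n (.l (nat_lit 0x10b1c6))
 (.l (nat_lit 0x142305)))
 (.l (nat_lit 0xe2027)))
 (.n (.n (.l (nat_lit 0x2045))
 (.l (nat_lit 0x688988d402600c)))
 (.l (nat_lit 0x120206)))))

def a256_166 : TA := .n a512_166 a512_422

def a128_38 : TA := .n a256_38 a256_166

def a512_102 : TA :=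
 .n (.n (.n (.n (.n (.l (nat_lit 0xa00042))
 (.l (nat_lit 0xa6276)))
 (.n (.l (nat_lit 0x83056))
 (.l (nat_lit 0xd40988ec02000c))))
 (.n (.n (.l (nat_lit 0x145004))
 (.l (nat_lit 0xa8304)))
 (.l (nat_lit 0x121256))))
 (.n (.n (.n (.l (nat_lit 0x101044))
 (.l (nat_lit 0x85214)))
 (.l (nat_lit 0x43084)))
 (.n (.n (.l (nat_lit 0x8a025))
 (.l (nat_lit 0x4a013)))
 (.l (nat_lit 0xeb265)))))
 (.n (.n (.n (.n (.l (nat_lit 0x140005))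
 (.l (nat_lit 0x64136)))
 (.l (nat_lit 0xc2066)))
 (.n (.n (.l (nat_lit 0xa50e4))
 (.l (nat_lit 0x7197)))
 (.l (nat_lit 0x60037))))
 (.n (.n (.n (.l (nat_lit 0x62024))
 (.l (nat_lit 0x1671b6)))
 (.l (nat_lit 0xca096)))
 (.n (.n (.l (nat_lit 0x85036))
 (.l (nat_lit 0x2040009)))
 (.l (nat_lit 0x660b6)))))

def a512_358 : TA :=
 .n (.n (.n (.n (.n (.l (nat_lit 0x640172))
 (.l (nat_lit 0x87194)))
 (.l (nat_lit 0xea074)))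
 (.n (.n (.l (nat_lit 0x1022a5))
 (.l (nat_lit 0x830e7)))
 (.l (nat_lit 0xa9027))))
 (.n (.n (.n (.l (nat_lit 0xa7156))
 (.l (nat_lit 0x1230d6)))
 (.l (nat_lit 0x292b5)))
 (.n (.n (.l (nat_lit 0xa7064))
 (.l (nat_lit 0xc5103)))
 (.l (nat_lit 0x66264)))))
 (.n (.n (.n (.n (.l (nat_lit 0x68076))
 (.l (nat_lit 0x165215)))
 (.l (nat_lit 0xa0244)))
 (.n (.n (.l (nat_lit 0xa0015))
 (.l (nat_lit 0x106237)))
 (.l (nat_lit 0x142264))))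
 (.n (.n (.n (.l (nat_lit 0x61c5))
 (.l (nat_lit 0xc1296)))
 (.l (nat_lit 0x1612c4)))
 (.n (.n (.l (nat_lit 0x89234))
 (.l (nat_lit 0x12868d8d102600c)))
 (.l (nat_lit 0x65195)))))

def a256_102 : TA := .n a512_102 a512_358

def a512_230 : TA :=
 .n (.n (.n (.n (.n (.l (nat_lit 0x1000c0))
 (.l (nat_lit 0x462e6)))
 (.n (.l (nat_lit 0x2a005))
 (.l (nat_lit 0xd085a12822000c))))
 (.n (.n (.l (nat_lit 0x148235))
 (.l (nat_lit 0xb077)))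
 (.l (nat_lit 0x4a2c6))))
 (.n (.n (.n (.l (nat_lit 0x22004))
 (.l (nat_lit 0x870c4)))
 (.l (nat_lit 0x62245)))
 (.n (.n (.l (nat_lit 0x162026))
 (.l (nat_lit 0x141063)))
 (.l (nat_lit 0xcb2d5)))))
 (.n (.n (.n (.n (.l (nat_lit 0x80154))
 (.l (nat_lit 0x651a6)))
 (.l (nat_lit 0x6b044)))
 (.n (.n (.l (nat_lit 0x25016))
 (.l (nat_lit 0xa11f7)))
 (.l (nat_lit 0x12d4))))
 (.n (.n (.n (.l (nat_lit 0x10a1c5))
 (.l (nat_lit 0x3144)))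
 (.l (nat_lit 0x84105)))
 (.n (.n (.l (nat_lit 0x120045))
 (.l (nat_lit 0x8100b)))
 (.l (nat_lit 0xe6125)))))

def a512_486 : TA :=
 .n (.n (.n (.n (.n (.l (nat_lit 0xac0232))
 (.l (nat_lit 0x230c6)))
 (.l (nat_lit 0x7065)))
 (.n (.n (.l (nat_lit 0xc5044))
 (.l (nat_lit 0x10b117)))
 (.l (nat_lit 0x4b094))))
 (.n (.n (.n (.l (nat_lit 0x60155))
 (.l (nat_lit 0x65146)))
 (.l (nat_lit 0x1092b4)))
 (.n (.n (.l (nat_lit 0x149004))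
 (.l (nat_lit 0x145223)))
 (.l (nat_lit 0x6b114)))))
 (.n (.n (.n (.n (.l (nat_lit 0x1040e5))
 (.l (nat_lit 0x40c4)))
 (.l (nat_lit 0x145165)))
 (.n (.n (.l (nat_lit 0x1661c4))
 (.l (nat_lit 0x232a7)))
 (.l (nat_lit 0xeb1f5))))
 (.n (.n (.n (.l (nat_lit 0xa3064))
 (.l (nat_lit 0x107067)))
 (.l (nat_lit 0xa01e6)))
 (.n (.n (.l (nat_lit 0x147045))
 (.l (nat_lit 0x2560cac140600c)))
 (.l (nat_lit 0x81205)))))

def a256_230 : TA := .n a512_230 a512_486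

def a128_102 : TA := .n a256_102 a256_230

def a64_38 : TA := .n a128_38 a128_102

def a32_6 : TA := .n a64_6 a64_38

def a512_22 : TA :=
 .n (.n (.n (.n (.n (.l (nat_lit 0x40010))
 (.l (nat_lit 0xc1275)))
 (.n (.l (nat_lit 0x1691c4))
 (.l (nat_lit 0x101a988cd40600c))))
 (.n (.n (.l (nat_lit 0xa2236))
 (.l (nat_lit 0x8067)))
 (.l (nat_lit 0x1e6))))
 (.n (.n (.n (.l (nat_lit 0x90e5))
 (.l (nat_lit 0xc6286)))
 (.l (nat_lit 0x122017)))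
 (.n (.n (.l (nat_lit 0x140026))
 (.l (nat_lit 0xa2a7)))
 (.l (nat_lit 0x1251f6)))))
 (.n (.n (.n (.n (.l (nat_lit 0x600292))
 (.l (nat_lit 0x1020c6)))
 (.l (nat_lit 0xb154)))
 (.n (.n (.l (nat_lit 0xe22a5))
 (.l (nat_lit 0x105157)))
 (.l (nat_lit 0xeb104))))
 (.n (.n (.n (.l (nat_lit 0xa7155))
 (.l (nat_lit 0x3146)))
 (.l (nat_lit 0x10a017)))
 (.n (.n (.l (nat_lit 0x148054))
 (.l (nat_lit 0x32a3)))
 (.l (nat_lit 0x860b5)))))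

def a512_278 : TA :=
 .n (.n (.n (.n (.n (.l (nat_lit 0x140100))
 (.l (nat_lit 0x6194)))
 (.l (nat_lit 0x3055)))
 (.n (.n (.l (nat_lit 0xa4074))
 (.l (nat_lit 0x40a7)))
 (.l (nat_lit 0x1432c5))))
 (.n (.n (.n (.l (nat_lit 0x21054))
 (.l (nat_lit 0x127134)))
 (.l (nat_lit 0x822b5)))
 (.n (.n (.l (nat_lit 0xa026))
 (.l (nat_lit 0x104083)))
 (.l (nat_lit 0x1422d6)))))
 (.n (.n (.n (.n (.l (nat_lit 0x80064))
 (.l (nat_lit 0x1601a5)))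
 (.l (nat_lit 0x49086)))
 (.n (.n (.l (nat_lit 0x6074))
 (.l (nat_lit 0xab207)))
 (.l (nat_lit 0xeb115))))
 (.n (.n (.n (.l (nat_lit 0x103014))
 (.l (nat_lit 0xe3144)))
 (.l (nat_lit 0xc11e4)))
 (.n (.n (.l (nat_lit 0x5045))
 (.l (nat_lit 0xc500a)))
 (.l (nat_lit 0x25196)))))

def a256_22 : TA := .n a512_22 a512_278

def a512_150 : TA :=
 .n (.n (.n (.n (.n (.l (nat_lit 0x440062))
 (.l (nat_lit 0x22e5)))
 (.n (.l (nat_lit 0x107055))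
 (.l (nat_lit 0x11521a8e902000c))))
 (.n (.n (.l (nat_lit 0x144054))
 (.l (nat_lit 0x1290d4)))
 (.l (nat_lit 0xe1255))))
 (.n (.n (.n (.l (nat_lit 0x1240e5))
 (.l (nat_lit 0xc72f6)))
 (.l (nat_lit 0x163084)))
 (.n (.n (.l (nat_lit 0x871c4))
 (.l (nat_lit 0xc3033)))
 (.l (nat_lit 0x102265)))))
 (.n (.n (.n (.n (.l (nat_lit 0x164076))
 (.l (nat_lit 0x1412f4)))
 (.l (nat_lit 0x147066)))
 (.n (.n (.l (nat_lit 0xa5064))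
 (.l (nat_lit 0x261c7)))
 (.l (nat_lit 0x10b0a5))))
 (.n (.n (.n (.l (nat_lit 0x601c6))
 (.l (nat_lit 0xe51b5)))
 (.l (nat_lit 0x43096)))
 (.n (.n (.l (nat_lit 0xa9004))
 (.l (nat_lit 0x20c0009)))
 (.l (nat_lit 0x124126)))))

def a512_406 : TA :=
 .n (.n (.n (.n (.n (.l (nat_lit 0x8801c2))
 (.l (nat_lit 0xb047)))
 (.l (nat_lit 0xea034)))
 (.n (.n (.l (nat_lit 0x1482a6))
 (.l (nat_lit 0xa80e7)))
 (.l (nat_lit 0x14a094))))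
 (.n (.n (.n (.l (nat_lit 0x16b156))
 (.l (nat_lit 0x100294)))
 (.l (nat_lit 0x48244)))
 (.n (.n (.l (nat_lit 0xe2036))
 (.l (nat_lit 0xc9153)))
 (.l (nat_lit 0x12a037)))))
 (.n (.n (.n (.n (.l (nat_lit 0xa0154))
 (.l (nat_lit 0x141215)))
 (.l (nat_lit 0x811d4)))
 (.n (.n (.l (nat_lit 0xe4015))
 (.l (nat_lit 0x10b237)))
 (.l (nat_lit 0xb185))))
 (.n (.n (.n (.l (nat_lit 0xa1c6))
 (.l (nat_lit 0x241b4)))
 (.l (nat_lit 0x14b176)))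
 (.n (.n (.l (nat_lit 0xa0046))
 (.l (nat_lit 0xe995831102600c)))
 (.l (nat_lit 0x1222e4)))))

def a256_150 : TA := .n a512_150 a512_406

def a128_22 : TA := .n a256_22 a256_150

def a512_86 : TA :=
 .n (.n (.n (.n (.n (.l (nat_lit 0xa80032))
 (.l (nat_lit 0x101276)))
 (.n (.l (nat_lit 0x121055))
 (.l (nat_lit 0xd094872902000c))))
 (.n (.n (.l (nat_lit 0x4b235))
 (.l (nat_lit 0x1281b4)))
 (.l (nat_lit 0x1632c4))))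
 (.n (.n (.n (.l (nat_lit 0x1024))
 (.l (nat_lit 0x1072f5)))
 (.l (nat_lit 0x891d5)))
 (.n (.n (.l (nat_lit 0x125026))
 (.l (nat_lit 0x84013)))
 (.l (nat_lit 0x122266)))))
 (.n (.n (.n (.n (.l (nat_lit 0x402f0))
 (.l (nat_lit 0xa0284)))
 (.l (nat_lit 0x120066)))
 (.n (.n (.l (nat_lit 0xea2a5))
 (.l (nat_lit 0xab157)))
 (.l (nat_lit 0xeb0a6))))
 (.n (.n (.n (.l (nat_lit 0xe2234))
 (.l (nat_lit 0xc41b5)))
 (.l (nat_lit 0x103095)))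
 (.n (.n (.l (nat_lit 0x123036))
 (.l (nat_lit 0x1000009)))
 (.l (nat_lit 0xc40b5)))))

def a512_342 : TA :=
 .n (.n (.n (.n (.n (.l (nat_lit 0xb00152))
 (.l (nat_lit 0x107047)))
 (.l (nat_lit 0x148055)))
 (.n (.n (.l (nat_lit 0x12a5))
 (.l (nat_lit 0x1240d7)))
 (.l (nat_lit 0xc9174))))
 (.n (.n (.n (.l (nat_lit 0x106156))
 (.l (nat_lit 0x20d5)))
 (.l (nat_lit 0x1632b5)))
 (.n (.n (.l (nat_lit 0x1272a4))
 (.l (nat_lit 0x8b0e3)))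
 (.l (nat_lit 0x146184)))))
 (.n (.n (.n (.n (.l (nat_lit 0x47076))
 (.l (nat_lit 0x100215)))
 (.l (nat_lit 0x129085)))
 (.n (.n (.l (nat_lit 0x126006))
 (.l (nat_lit 0x2237)))
 (.l (nat_lit 0x6b186))))
 (.n (.n (.n (.l (nat_lit 0xa11c5))
 (.l (nat_lit 0x1441b4)))
 (.l (nat_lit 0x14b105)))
 (.n (.n (.l (nat_lit 0x1090e4))
 (.l (nat_lit 0xb00b)))
 (.l (nat_lit 0x44196)))))

def a256_86 : TA := .n a512_86 a512_342

def a512_214 : TA :=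
 .n (.n (.n (.n (.n (.l (nat_lit 0xb0))
 (.l (nat_lit 0x612e6)))
 (.n (.l (nat_lit 0x8a014))
 (.l (nat_lit 0xd086a70522000c))))
 (.n (.n (.l (nat_lit 0xe6236))
 (.l (nat_lit 0xa9077)))
 (.l (nat_lit 0x632c6))))
 (.n (.n (.n (.l (nat_lit 0xaa0e5))
 (.l (nat_lit 0x126057)))
 (.l (nat_lit 0x40246)))
 (.n (.n (.l (nat_lit 0x21025))
 (.l (nat_lit 0x46053)))
 (.l (nat_lit 0xc22d5)))))
 (.n (.n (.n (.n (.l (nat_lit 0x10b076))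
 (.l (nat_lit 0x841a5)))
 (.l (nat_lit 0xeb2a4)))
 (.n (.n (.l (nat_lit 0x44016))
 (.l (nat_lit 0x12b1c7)))
 (.l (nat_lit 0x2b116))))
 (.n (.n (.n (.l (nat_lit 0x91c5))
 (.l (nat_lit 0xa8226)))
 (.l (nat_lit 0xa0254)))
 (.n (.n (.l (nat_lit 0x9006))
 (.l (nat_lit 0x140009)))
 (.l (nat_lit 0x105125)))))

def a512_470 : TA :=
 .n (.n (.n (.n (.n (.l (nat_lit 0x100231))
 (.l (nat_lit 0x40057)))
 (.l (nat_lit 0x84066)))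
 (.n (.n (.l (nat_lit 0x145014))
 (.l (nat_lit 0x4117)))
 (.l (nat_lit 0xea254))))
 (.n (.n (.n (.l (nat_lit 0xe2005))
 (.l (nat_lit 0xe3145)))
 (.l (nat_lit 0x91d4)))
 (.n (.n (.l (nat_lit 0x4b035))
 (.l (nat_lit 0x1451d3)))
 (.l (nat_lit 0xcb2d4)))))
 (.n (.n (.n (.n (.l (nat_lit 0x30e5))
 (.l (nat_lit 0x46285)))
 (.l (nat_lit 0x61244)))
 (.n (.n (.l (nat_lit 0x660e4))
 (.l (nat_lit 0xa12a7)))
 (.l (nat_lit 0x1061f6))))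
 (.n (.n (.n (.l (nat_lit 0x123034))
 (.l (nat_lit 0x251b4)))
 (.l (nat_lit 0x1222c4)))
 (.n (.n (.l (nat_lit 0x46046))
 (.l (nat_lit 0x2260ca4562600c)))
 (.l (nat_lit 0x1032e4)))))

def a256_214 : TA := .n a512_214 a512_470

def a128_86 : TA := .n a256_86 a256_214

def a64_22 : TA := .n a128_22 a128_86

def a512_54 : TA :=
 .n (.n (.n (.n (.n (.l (nat_lit 0x400022))
 (.l (nat_lit 0x47276)))
 (.n (.l (nat_lit 0x4a005))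
 (.l (nat_lit 0x162058ad022600c))))
 (.n (.n (.l (nat_lit 0x108236))
 (.l (nat_lit 0x88294)))
 (.l (nat_lit 0xca1e6))))
 (.n (.n (.n (.l (nat_lit 0x12b0e6))
 (.l (nat_lit 0x145057)))
 (.l (nat_lit 0xe2084)))
 (.n (.n (.l (nat_lit 0x83025))
 (.l (nat_lit 0xaa2c7)))
 (.l (nat_lit 0x123114)))))
 (.n (.n (.n (.n (.l (nat_lit 0x1402b0))
 (.l (nat_lit 0x1060c6)))
 (.l (nat_lit 0x8b034)))
 (.n (.n (.l (nat_lit 0x82a5))
 (.l (nat_lit 0x28157)))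
 (.l (nat_lit 0x1630a6))))
 (.n (.n (.n (.l (nat_lit 0x2a156))
 (.l (nat_lit 0x48146)))
 (.l (nat_lit 0x16a164)))
 (.n (.n (.l (nat_lit 0x41035))
 (.l (nat_lit 0x10a2a3)))
 (.l (nat_lit 0x60047)))))

def a512_310 : TA :=
 .n (.n (.n (.n (.n (.l (nat_lit 0x80140))
 (.l (nat_lit 0xa6124)))
 (.l (nat_lit 0xe5056)))
 (.n (.n (.l (nat_lit 0x124034))
 (.l (nat_lit 0x820b7)))
 (.l (nat_lit 0x25104))))
 (.n (.n (.n (.l (nat_lit 0xa0156))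
 (.l (nat_lit 0x80c4)))
 (.l (nat_lit 0x1692b6)))
 (.n (.n (.l (nat_lit 0xa7074))
 (.l (nat_lit 0x1440d3)))
 (.l (nat_lit 0xe5184)))))
 (.n (.n (.n (.n (.l (nat_lit 0x122076))
 (.l (nat_lit 0xa71a5)))
 (.l (nat_lit 0x23085)))
 (.n (.n (.l (nat_lit 0x862a4))
 (.l (nat_lit 0x125227)))
 (.l (nat_lit 0x24185))))
 (.n (.n (.n (.l (nat_lit 0x23005))
 (.l (nat_lit 0x62296)))
 (.l (nat_lit 0x25105)))
 (.n (.n (.l (nat_lit 0xa7046))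
 (.l (nat_lit 0x4800b)))
 (.l (nat_lit 0x820b4)))))

def a256_54 : TA := .n a512_54 a512_310

def a512_182 : TA :=
 .n (.n (.n (.n (.n (.l (nat_lit 0xb00072))
 (.l (nat_lit 0xa72e5)))
 (.n (.l (nat_lit 0xa0e4))
 (.l (nat_lit 0x1086a90e502000c))))
 (.n (.n (.l (nat_lit 0x41236))
 (.l (nat_lit 0x26077)))
 (.l (nat_lit 0xe4094))))
 (.n (.n (.n (.l (nat_lit 0x80e6))
 (.l (nat_lit 0x146057)))
 (.l (nat_lit 0x62246)))
 (.n (.n (.l (nat_lit 0x107064))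
 (.l (nat_lit 0x85043)))
 (.l (nat_lit 0xe40a4)))))
 (.n (.n (.n (.n (.l (nat_lit 0xa8075))
 (.l (nat_lit 0x87136)))
 (.l (nat_lit 0x6b074)))
 (.n (.n (.l (nat_lit 0x141015))
 (.l (nat_lit 0x891c7)))
 (.l (nat_lit 0x63115))))
 (.n (.n (.n (.l (nat_lit 0xc61c6))
 (.l (nat_lit 0xc0225)))
 (.l (nat_lit 0x129095)))
 (.n (.n (.l (nat_lit 0x128234))
 (.l (nat_lit 0x1100009)))
 (.l (nat_lit 0x101204)))))

def a512_438 : TA :=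
 .n (.n (.n (.n (.n (.l (nat_lit 0x140200))
 (.l (nat_lit 0x12b0b4)))
 (.l (nat_lit 0x141065)))
 (.n (.n (.l (nat_lit 0xcb2a5))
 (.l (nat_lit 0x12b0e7)))
 (.l (nat_lit 0x6a027))))
 (.n (.n (.n (.l (nat_lit 0x42024))
 (.l (nat_lit 0xe80d6)))
 (.l (nat_lit 0x128244)))
 (.n (.n (.l (nat_lit 0x145035))
 (.l (nat_lit 0x1061a3)))
 (.l (nat_lit 0x4b0a4)))))
 (.n (.n (.n (.n (.l (nat_lit 0x120034))
 (.l (nat_lit 0x1632f4)))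
 (.l (nat_lit 0x650f5)))
 (.n (.n (.l (nat_lit 0x149016))
 (.l (nat_lit 0x2b277)))
 (.l (nat_lit 0xc3037))))
 (.n (.n (.n (.l (nat_lit 0xa3074))
 (.l (nat_lit 0x41306)))
 (.l (nat_lit 0xa9176)))
 (.n (.n (.l (nat_lit 0x103045))
 (.l (nat_lit 0xea81d2d100600c)))
 (.l (nat_lit 0xe6206)))))

def a256_182 : TA := .n a512_182 a512_438

def a128_54 : TA := .n a256_54 a256_182

def a512_118 : TA :=
 .n (.n (.n (.n (.n (.l (nat_lit 0x140050))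
 (.l (nat_lit 0x6b276)))
 (.n (.l (nat_lit 0xa4056))
 (.l (nat_lit 0xd035a8e902000c))))
 (.n (.n (.l (nat_lit 0xc4154))
 (.l (nat_lit 0x9144)))
 (.l (nat_lit 0x10b255))))
 (.n (.n (.n (.l (nat_lit 0xa1005))
 (.l (nat_lit 0x612f6)))
 (.l (nat_lit 0xe3017)))
 (.n (.n (.l (nat_lit 0x2b026))
 (.l (nat_lit 0x5023)))
 (.l (nat_lit 0x44184)))))
 (.n (.n (.n (.n (.l (nat_lit 0xc2075))
 (.l (nat_lit 0x67135)))
 (.l (nat_lit 0xe3065)))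
 (.n (.n (.l (nat_lit 0x25014))
 (.l (nat_lit 0x1061a7)))
 (.l (nat_lit 0x230a5))))
 (.n (.n (.n (.l (nat_lit 0x162044))
 (.l (nat_lit 0xc91b5)))
 (.l (nat_lit 0xeb096)))
 (.n (.n (.l (nat_lit 0x26035))
 (.l (nat_lit 0x40009)))
 (.l (nat_lit 0x2b0b5)))))

def a512_374 : TA :=
 .n (.n (.n (.n (.n (.l (nat_lit 0x100190))
 (.l (nat_lit 0x72e4)))
 (.l (nat_lit 0x6a1c4)))
 (.n (.n (.l (nat_lit 0xa32a6))
 (.l (nat_lit 0x250e7)))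
 (.l (nat_lit 0xe9174))))
 (.n (.n (.n (.l (nat_lit 0x89155))
 (.l (nat_lit 0x1670d5)))
 (.l (nat_lit 0x125164)))
 (.n (.n (.l (nat_lit 0x36))
 (.l (nat_lit 0xc6113)))
 (.l (nat_lit 0x14a0a4)))))
 (.n (.n (.n (.n (.l (nat_lit 0xa075))
 (.l (nat_lit 0xc30c4)))
 (.l (nat_lit 0x240f6)))
 (.n (.n (.l (nat_lit 0x42016))
 (.l (nat_lit 0x88237)))
 (.l (nat_lit 0x120185))))
 (.n (.n (.n (.l (nat_lit 0x1071c5))
 (.l (nat_lit 0xc7295)))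
 (.l (nat_lit 0x105175)))
 (.n (.n (.l (nat_lit 0x9024))
 (.l (nat_lit 0x1287610d100000c)))
 (.l (nat_lit 0x166195)))))

def a256_118 : TA := .n a512_118 a512_374

def a512_246 : TA :=
 .n (.n (.n (.n (.n (.l (nat_lit 0xc00e0))
 (.l (nat_lit 0x4b2e6)))
 (.n (.l (nat_lit 0x100056))
 (.l (nat_lit 0xe0a8c74140600c))))
 (.n (.n (.l (nat_lit 0xe9235))
 (.l (nat_lit 0x102087)))
 (.l (nat_lit 0x5174))))
 (.n (.n (.n (.l (nat_lit 0x121234))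
 (.l (nat_lit 0x7214)))
 (.l (nat_lit 0xa9245)))
 (.n (.n (.l (nat_lit 0x104026))
 (.l (nat_lit 0xc9063)))
 (.l (nat_lit 0x45184)))))
 (.n (.n (.n (.n (.l (nat_lit 0x14))
 (.l (nat_lit 0x281a5)))
 (.l (nat_lit 0x142085)))
 (.n (.n (.l (nat_lit 0x128015))
 (.l (nat_lit 0x21207)))
 (.l (nat_lit 0x144116))))
 (.n (.n (.n (.l (nat_lit 0xab1c5))
 (.l (nat_lit 0x60225)))
 (.l (nat_lit 0xa5106)))
 (.n (.n (.l (nat_lit 0x82046))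
 (.l (nat_lit 0x10200b)))
 (.l (nat_lit 0xe1204)))))

def a512_502 : TA :=
 .n (.n (.n (.n (.n (.l (nat_lit 0x260))
 (.l (nat_lit 0x70c5)))
 (.l (nat_lit 0x108065)))
 (.n (.n (.l (nat_lit 0x65005))
 (.l (nat_lit 0xab127)))
 (.l (nat_lit 0xb1e4))))
 (.n (.n (.n (.l (nat_lit 0x164156))
 (.l (nat_lit 0x88145)))
 (.l (nat_lit 0xa90f4)))
 (.n (.n (.l (nat_lit 0xc8154))
 (.l (nat_lit 0x14b233)))
 (.l (nat_lit 0x16b1f4)))))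
 (.n (.n (.n (.n (.l (nat_lit 0xa50e6))
 (.l (nat_lit 0x24057)))
 (.l (nat_lit 0x128165)))
 (.n (.n (.l (nat_lit 0xe6034))
 (.l (nat_lit 0x1262a7)))
 (.l (nat_lit 0xa3037))))
 (.n (.n (.n (.l (nat_lit 0x235))
 (.l (nat_lit 0xc7294)))
 (.l (nat_lit 0x8a1e5)))
 (.n (.n (.l (nat_lit 0xeb046))
 (.l (nat_lit 0xc1aa074c40600c)))
 (.l (nat_lit 0x66205)))))

def a256_246 : TA := .n a512_246 a512_502

def a128_118 : TA := .n a256_118 a256_246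

def a64_54 : TA := .n a128_54 a128_118

def a32_22 : TA := .n a64_22 a64_54

def a16_6 : TA := .n a32_6 a32_22

def a512_14 : TA :=
 .n (.n (.n (.n (.n (.l (nat_lit 0xa40002))
 (.l (nat_lit 0x44047)))
 (.n (.l (nat_lit 0xe9154))
 (.l (nat_lit 0x1026688d522600c))))
 (.n (.n (.l (nat_lit 0x2236))
 (.l (nat_lit 0x1271b4)))
 (.l (nat_lit 0x1032c4))))
 (.n (.n (.n (.l (nat_lit 0x1080e5))
 (.l (nat_lit 0x22285)))
 (.l (nat_lit 0x822b4)))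
 (.n (.n (.l (nat_lit 0xc7006))
 (.l (nat_lit 0x1092a7)))
 (.l (nat_lit 0x51f6)))))
 (.n (.n (.n (.n (.l (nat_lit 0x290))
 (.l (nat_lit 0x60057)))
 (.l (nat_lit 0x10b074)))
 (.n (.n (.l (nat_lit 0x422a6))
 (.l (nat_lit 0xa4157)))
 (.l (nat_lit 0x6b094))))
 (.n (.n (.n (.l (nat_lit 0x7155))
 (.l (nat_lit 0x101304)))
 (.l (nat_lit 0xa92b4)))
 (.n (.n (.l (nat_lit 0xc8014))
 (.l (nat_lit 0x108293)))
 (.l (nat_lit 0x1430b5)))))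

def a512_270 : TA :=
 .n (.n (.n (.n (.n (.l (nat_lit 0x6800f2))
 (.l (nat_lit 0x1060b4)))
 (.l (nat_lit 0x102055)))
 (.n (.n (.l (nat_lit 0x25004))
 (.l (nat_lit 0x1020a7)))
 (.l (nat_lit 0xa22c5))))
 (.n (.n (.n (.l (nat_lit 0x121034))
 (.l (nat_lit 0xa70c4)))
 (.l (nat_lit 0x105017)))
 (.n (.n (.l (nat_lit 0x109026))
 (.l (nat_lit 0x2083)))
 (.l (nat_lit 0xa12d6)))))
 (.n (.n (.n (.n (.l (nat_lit 0x54))
 (.l (nat_lit 0x801a5)))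
 (.l (nat_lit 0x108085)))
 (.n (.n (.l (nat_lit 0x12a016))
 (.l (nat_lit 0xb207)))
 (.l (nat_lit 0x4b115))))
 (.n (.n (.n (.l (nat_lit 0x832a4))
 (.l (nat_lit 0x630d4)))
 (.l (nat_lit 0x2b106)))
 (.n (.n (.l (nat_lit 0x104045))
 (.l (nat_lit 0x10400b)))
 (.l (nat_lit 0x120196)))))

def a256_14 : TA := .n a512_14 a512_270

def a512_142 : TA :=
 .n (.n (.n (.n (.n (.l (nat_lit 0x140060))
 (.l (nat_lit 0xc5047)))
 (.n (.l (nat_lit 0xa6055))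
 (.l (nat_lit 0xd521a8e900600c))))
 (.n (.n (.l (nat_lit 0xc4044))
 (.l (nat_lit 0xa9067)))
 (.l (nat_lit 0x1256))))
 (.n (.n (.n (.l (nat_lit 0x840e6))
 (.l (nat_lit 0x1632f5)))
 (.l (nat_lit 0xe91d6)))
 (.n (.n (.l (nat_lit 0x7154))
 (.l (nat_lit 0x41033)))
 (.l (nat_lit 0x61265)))))
 (.n (.n (.n (.n (.l (nat_lit 0xc4076))
 (.l (nat_lit 0xc1284)))
 (.l (nat_lit 0xe5065)))
 (.n (.n (.l (nat_lit 0x25054))
 (.l (nat_lit 0x1051c7)))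
 (.l (nat_lit 0x4a0a5))))
 (.n (.n (.n (.l (nat_lit 0x143006))
 (.l (nat_lit 0x451b6)))
 (.l (nat_lit 0x102096)))
 (.n (.n (.l (nat_lit 0x2b035))
 (.l (nat_lit 0x80009)))
 (.l (nat_lit 0x84125)))))

def a512_398 : TA :=
 .n (.n (.n (.n (.n (.l (nat_lit 0x6001c2))
 (.l (nat_lit 0xa7274)))
 (.l (nat_lit 0x6a024)))
 (.n (.n (.l (nat_lit 0xa72a5))
 (.l (nat_lit 0x80e7)))
 (.l (nat_lit 0xca027))))
 (.n (.n (.n (.l (nat_lit 0x8b156))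
 (.l (nat_lit 0x40224)))
 (.l (nat_lit 0x108164)))
 (.n (.n (.l (nat_lit 0x2036))
 (.l (nat_lit 0x47153)))
 (.l (nat_lit 0x4a2d4)))))
 (.n (.n (.n (.n (.l (nat_lit 0x21004))
 (.l (nat_lit 0xe0215)))
 (.l (nat_lit 0x290f5)))
 (.n (.n (.l (nat_lit 0x44015))
 (.l (nat_lit 0x8a237)))
 (.l (nat_lit 0x106185))))
 (.n (.n (.n (.l (nat_lit 0x1091c6))
 (.l (nat_lit 0x1240d4)))
 (.l (nat_lit 0xaa175)))
 (.n (.n (.l (nat_lit 0x46))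
 (.l (nat_lit 0xe889d0d400600c)))
 (.l (nat_lit 0x62274)))))

def a256_142 : TA := .n a512_142 a512_398

def a128_14 : TA := .n a256_14 a256_142

def a512_78 : TA :=
 .n (.n (.n (.n (.n (.l (nat_lit 0x600032))
 (.l (nat_lit 0xa4047)))
 (.n (.l (nat_lit 0x41055))
 (.l (nat_lit 0xd181a32900600c))))
 (.n (.n (.l (nat_lit 0x14a235))
 (.l (nat_lit 0xa8144)))
 (.l (nat_lit 0xe3104))))
 (.n (.n (.n (.l (nat_lit 0x1012a4))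
 (.l (nat_lit 0x862f5)))
 (.l (nat_lit 0x1601d6)))
 (.n (.n (.l (nat_lit 0x85026))
 (.l (nat_lit 0x102013)))
 (.l (nat_lit 0x42266)))))
 (.n (.n (.n (.n (.l (nat_lit 0x1402d1))
 (.l (nat_lit 0x20214)))
 (.l (nat_lit 0x80066)))
 (.n (.n (.l (nat_lit 0x4a2a5))
 (.l (nat_lit 0x2a157)))
 (.l (nat_lit 0x4b0a6))))
 (.n (.n (.n (.l (nat_lit 0x62074))
 (.l (nat_lit 0x142067)))
 (.l (nat_lit 0xa2095)))
 (.n (.n (.l (nat_lit 0x43036))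
 (.l (nat_lit 0x2000009)))
 (.l (nat_lit 0x630b5)))))

def a512_334 : TA :=
 .n (.n (.n (.n (.n (.l (nat_lit 0x640152))
 (.l (nat_lit 0xa62e4)))
 (.l (nat_lit 0xe7055)))
 (.n (.n (.l (nat_lit 0x105005))
 (.l (nat_lit 0x830d7)))
 (.l (nat_lit 0x9104))))
 (.n (.n (.n (.l (nat_lit 0xa5156))
 (.l (nat_lit 0x1281a4)))
 (.l (nat_lit 0x1622b5)))
 (.n (.n (.l (nat_lit 0xa7234))
 (.l (nat_lit 0x80e3)))
 (.l (nat_lit 0xc6114)))))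
 (.n (.n (.n (.n (.l (nat_lit 0x124075))
 (.l (nat_lit 0x83057)))
 (.l (nat_lit 0x89085)))
 (.n (.n (.l (nat_lit 0xa6005))
 (.l (nat_lit 0x101237)))
 (.l (nat_lit 0xca185))))
 (.n (.n (.n (.l (nat_lit 0x11c5))
 (.l (nat_lit 0xc4144)))
 (.l (nat_lit 0xea105)))
 (.n (.n (.l (nat_lit 0x89074))
 (.l (nat_lit 0x8a00a)))
 (.l (nat_lit 0x100195)))))

def a256_78 : TA := .n a512_78 a512_334

def a512_206 : TA :=
 .n (.n (.n (.n (.n (.l (nat_lit 0x800a0))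
 (.l (nat_lit 0x145194)))
 (.n (.l (nat_lit 0xa2a4))
 (.l (nat_lit 0xe02a970522000c))))
 (.n (.n (.l (nat_lit 0x46236))
 (.l (nat_lit 0x28077)))
 (.l (nat_lit 0x1422c5))))
 (.n (.n (.n (.l (nat_lit 0xa0e5))
 (.l (nat_lit 0x862f4)))
 (.l (nat_lit 0x1440f4)))
 (.n (.n (.l (nat_lit 0x120025))
 (.l (nat_lit 0x103053)))
 (.l (nat_lit 0x612d5)))))
 (.n (.n (.n (.n (.l (nat_lit 0xaa076))
 (.l (nat_lit 0x1612f4)))
 (.l (nat_lit 0x6b234)))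
 (.n (.n (.l (nat_lit 0x143015))
 (.l (nat_lit 0x8b1c7)))
 (.l (nat_lit 0x106116))))
 (.n (.n (.n (.l (nat_lit 0xc81c6))
 (.l (nat_lit 0x8226)))
 (.l (nat_lit 0x201e4)))
 (.n (.n (.l (nat_lit 0x128064))
 (.l (nat_lit 0x1140009)))
 (.l (nat_lit 0x24125)))))

def a512_462 : TA :=
 .n (.n (.n (.n (.n (.l (nat_lit 0x140220))
 (.l (nat_lit 0x16b274)))
 (.l (nat_lit 0x23066)))
 (.n (.n (.l (nat_lit 0xc51c4))
 (.l (nat_lit 0x109107)))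
 (.l (nat_lit 0x6a1e4))))
 (.n (.n (.n (.l (nat_lit 0x42064))
 (.l (nat_lit 0x1067)))
 (.l (nat_lit 0x1090f4)))
 (.n (.n (.l (nat_lit 0x14a035))
 (.l (nat_lit 0x881c3)))
 (.l (nat_lit 0x4b264)))))
 (.n (.n (.n (.n (.l (nat_lit 0x101005))
 (.l (nat_lit 0x161286)))
 (.l (nat_lit 0x1290f6)))
 (.n (.n (.l (nat_lit 0x167004))
 (.l (nat_lit 0x12a7)))
 (.l (nat_lit 0x1051f5))))
 (.n (.n (.n (.l (nat_lit 0xa3024))
 (.l (nat_lit 0x128305)))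
 (.l (nat_lit 0xa2254)))
 (.n (.n (.l (nat_lit 0x105046))
 (.l (nat_lit 0x15a2ec0d100000c)))
 (.l (nat_lit 0x3124)))))

def a256_206 : TA := .n a512_206 a512_462

def a128_78 : TA := .n a256_78 a256_206

def a64_14 : TA := .n a128_14 a128_78

def a512_46 : TA :=
 .n (.n (.n (.n (.n (.l (nat_lit 0x80020))
 (.l (nat_lit 0x146275)))
 (.n (.l (nat_lit 0x169024))
 (.l (nat_lit 0x14189cacc40600c))))
 (.n (.n (.l (nat_lit 0xa7236))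
 (.l (nat_lit 0x8224)))
 (.l (nat_lit 0x291e6))))
 (.n (.n (.n (.l (nat_lit 0x8b0e6))
 (.l (nat_lit 0xe41a4)))
 (.l (nat_lit 0xa166)))
 (.n (.n (.l (nat_lit 0x22025))
 (.l (nat_lit 0xa2c7)))
 (.l (nat_lit 0x630a4)))))
 (.n (.n (.n (.n (.l (nat_lit 0xa802a2))
 (.l (nat_lit 0x240c5)))
 (.l (nat_lit 0xb024)))
 (.n (.n (.l (nat_lit 0xc72a6))
 (.l (nat_lit 0x127157)))
 (.l (nat_lit 0xc30a5))))
 (.n (.n (.n (.l (nat_lit 0x129156))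
 (.l (nat_lit 0xc7146)))
 (.l (nat_lit 0x6a084)))
 (.n (.n (.l (nat_lit 0x140035))
 (.l (nat_lit 0x892a3)))
 (.l (nat_lit 0x100194)))))

def a512_302 : TA :=
 .n (.n (.n (.n (.n (.l (nat_lit 0x130))
 (.l (nat_lit 0x260b4)))
 (.l (nat_lit 0x45056)))
 (.n (.n (.l (nat_lit 0xa4024))
 (.l (nat_lit 0xa0a7)))
 (.l (nat_lit 0xaa2c5))))
 (.n (.n (.n (.l (nat_lit 0x156))
 (.l (nat_lit 0x1272f4)))
 (.l (nat_lit 0xc92b6)))
 (.n (.n (.l (nat_lit 0x28004))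
 (.l (nat_lit 0x470b3)))
 (.l (nat_lit 0x6b2d6)))))
 (.n (.n (.n (.n (.l (nat_lit 0x82076))
 (.l (nat_lit 0x71a5)))
 (.l (nat_lit 0x102086)))
 (.n (.n (.l (nat_lit 0x6234))
 (.l (nat_lit 0xa1227)))
 (.l (nat_lit 0xc2037))))
 (.n (.n (.n (.l (nat_lit 0x103054))
 (.l (nat_lit 0x141295)))
 (.l (nat_lit 0x104106)))
 (.n (.n (.l (nat_lit 0x7046))
 (.l (nat_lit 0xc700a)))
 (.l (nat_lit 0xe7196)))))

def a256_46 : TA := .n a512_46 a512_302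

def a512_174 : TA :=
 .n (.n (.n (.n (.n (.l (nat_lit 0x640072))
 (.l (nat_lit 0x262e5)))
 (.n (.l (nat_lit 0x10b004))
 (.l (nat_lit 0xd4a0a76100000c))))
 (.n (.n (.l (nat_lit 0x140236))
 (.l (nat_lit 0x104077)))
 (.l (nat_lit 0x10a256))))
 (.n (.n (.n (.l (nat_lit 0x1260e5))
 (.l (nat_lit 0xe5214)))
 (.l (nat_lit 0x141245)))
 (.n (.n (.l (nat_lit 0x87054))
 (.l (nat_lit 0x142043)))
 (.l (nat_lit 0x6b266)))))
 (.n (.n (.n (.n (.l (nat_lit 0x8075))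
 (.l (nat_lit 0x165135)))
 (.l (nat_lit 0x149065)))
 (.n (.n (.l (nat_lit 0x80016))
 (.l (nat_lit 0x281c7)))
 (.l (nat_lit 0x120264))))
 (.n (.n (.n (.l (nat_lit 0x651c5))
 (.l (nat_lit 0x43067)))
 (.l (nat_lit 0x49095)))
 (.n (.n (.l (nat_lit 0xa81c4))
 (.l (nat_lit 0x2100009)))
 (.l (nat_lit 0x6b126)))))

def a512_430 : TA :=
 .n (.n (.n (.n (.n (.l (nat_lit 0x1401f1))
 (.l (nat_lit 0x6b047)))
 (.l (nat_lit 0xe0065)))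
 (.n (.n (.l (nat_lit 0x6a2a6))
 (.l (nat_lit 0x8b0e7)))
 (.l (nat_lit 0x14a254))))
 (.n (.n (.n (.l (nat_lit 0x1422a4))
 (.l (nat_lit 0x80d6)))
 (.l (nat_lit 0x1280f4)))
 (.n (.n (.l (nat_lit 0xe4035))
 (.l (nat_lit 0x441a3)))
 (.l (nat_lit 0x16a2d4)))))
 (.n (.n (.n (.n (.l (nat_lit 0xa0024))
 (.l (nat_lit 0x63134)))
 (.l (nat_lit 0x1440f6)))
 (.n (.n (.l (nat_lit 0xe8016))
 (.l (nat_lit 0x102267)))
 (.l (nat_lit 0x622d4))))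
 (.n (.n (.n (.l (nat_lit 0x24004))
 (.l (nat_lit 0xc8306)))
 (.l (nat_lit 0x145176)))
 (.n (.n (.l (nat_lit 0xa2045))
 (.l (nat_lit 0x9894c0d100000c)))
 (.l (nat_lit 0x6206)))))

def a256_174 : TA := .n a512_174 a512_430

def a128_46 : TA := .n a256_46 a256_174

def a512_110 : TA :=
 .n (.n (.n (.n (.n (.l (nat_lit 0x8c0042))
 (.l (nat_lit 0x107275)))
 (.n (.l (nat_lit 0x123056))
 (.l (nat_lit 0xd41588e900600c))))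
 (.n (.n (.l (nat_lit 0x440e4))
 (.l (nat_lit 0x109067)))
 (.l (nat_lit 0xaa255))))
 (.n (.n (.n (.l (nat_lit 0x1064))
 (.l (nat_lit 0x125057)))
 (.l (nat_lit 0x1030f4)))
 (.n (.n (.l (nat_lit 0x12a026))
 (.l (nat_lit 0xc0023)))
 (.l (nat_lit 0x1440a4)))))
 (.n (.n (.n (.n (.l (nat_lit 0x40004))
 (.l (nat_lit 0x165136)))
 (.l (nat_lit 0x43065)))
 (.n (.n (.l (nat_lit 0x125154))
 (.l (nat_lit 0xa41a7)))
 (.l (nat_lit 0xe20a6))))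
 (.n (.n (.n (.l (nat_lit 0xe2034))
 (.l (nat_lit 0x681b5)))
 (.l (nat_lit 0x16a096)))
 (.n (.n (.l (nat_lit 0x125036))
 (.l (nat_lit 0x1040009)))
 (.l (nat_lit 0xe70b6)))))

def a512_366 : TA :=
 .n (.n (.n (.n (.n (.l (nat_lit 0x800182))
 (.l (nat_lit 0x107204)))
 (.l (nat_lit 0x16a0e4)))
 (.n (.n (.l (nat_lit 0x32a6))
 (.l (nat_lit 0x1230e7)))
 (.l (nat_lit 0x169094))))
 (.n (.n (.n (.l (nat_lit 0x108155))
 (.l (nat_lit 0x70d5)))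
 (.l (nat_lit 0xa50f4)))
 (.n (.n (.l (nat_lit 0x108005))
 (.l (nat_lit 0xb103)))
 (.l (nat_lit 0xca037)))))
 (.n (.n (.n (.n (.l (nat_lit 0xc9075))
 (.l (nat_lit 0x67216)))
 (.l (nat_lit 0x101017)))
 (.n (.n (.l (nat_lit 0x141016))
 (.l (nat_lit 0x27237)))
 (.l (nat_lit 0x40185))))
 (.n (.n (.n (.l (nat_lit 0xa61c5))
 (.l (nat_lit 0x161295)))
 (.l (nat_lit 0x40176)))
 (.n (.n (.l (nat_lit 0x1092a4))
 (.l (nat_lit 0x12a7488d102600c)))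
 (.l (nat_lit 0xc6195)))))

def a256_110 : TA := .n a512_110 a512_366

def a512_238 : TA :=
 .n (.n (.n (.n (.n (.l (nat_lit 0x800d0))
 (.l (nat_lit 0xe62e6)))
 (.n (.l (nat_lit 0xaa006))
 (.l (nat_lit 0xcc0a962540600c))))
 (.n (.n (.l (nat_lit 0x49235))
 (.l (nat_lit 0xab077)))
 (.l (nat_lit 0xcb2c5))))
 (.n (.n (.n (.l (nat_lit 0xa11c4))
 (.l (nat_lit 0x107134)))
 (.l (nat_lit 0x9245)))
 (.n (.n (.l (nat_lit 0x63026))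
 (.l (nat_lit 0x47063)))
 (.l (nat_lit 0x16b2d5)))))
 (.n (.n (.n (.n (.l (nat_lit 0x1001c4))
 (.l (nat_lit 0x1061a6)))
 (.l (nat_lit 0xc0017)))
 (.n (.n (.l (nat_lit 0x88015))
 (.l (nat_lit 0x12a1f7)))
 (.l (nat_lit 0xe1037))))
 (.n (.n (.n (.l (nat_lit 0xb1c5))
 (.l (nat_lit 0x143304)))
 (.l (nat_lit 0x124106)))
 (.n (.n (.l (nat_lit 0x21046))
 (.l (nat_lit 0x200b)))
 (.l (nat_lit 0x147126)))))

def a512_494 : TA :=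
 .n (.n (.n (.n (.n (.l (nat_lit 0x100241))
 (.l (nat_lit 0xa40c6)))
 (.l (nat_lit 0xa7065)))
 (.n (.n (.l (nat_lit 0x145054))
 (.l (nat_lit 0x25127)))
 (.l (nat_lit 0xcb104))))
 (.n (.n (.n (.l (nat_lit 0xc4156))
 (.l (nat_lit 0x147145)))
 (.l (nat_lit 0x29084)))
 (.n (.n (.l (nat_lit 0x480e4))
 (.l (nat_lit 0x8a233)))
 (.l (nat_lit 0xeb184)))))
 (.n (.n (.n (.n (.l (nat_lit 0x50e6))
 (.l (nat_lit 0x84134)))
 (.l (nat_lit 0x48165)))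
 (.n (.n (.l (nat_lit 0x662a4))
 (.l (nat_lit 0x862a7)))
 (.l (nat_lit 0x1430a4))))
 (.n (.n (.n (.l (nat_lit 0x104005))
 (.l (nat_lit 0x47144)))
 (.l (nat_lit 0x291e5)))
 (.n (.n (.l (nat_lit 0x4b046))
 (.l (nat_lit 0xe10a870d40600c)))
 (.l (nat_lit 0x161205)))))

def a256_238 : TA := .n a512_238 a512_494

def a128_110 : TA := .n a256_110 a256_238

def a64_46 : TA := .n a128_46 a128_110

def a32_14 : TA := .n a64_14 a64_46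

def a512_30 : TA :=
 .n (.n (.n (.n (.n (.l (nat_lit 0x200012))
 (.l (nat_lit 0x161276)))
 (.n (.l (nat_lit 0x692a4))
 (.l (nat_lit 0x12a05d8d022600c))))
 (.n (.n (.l (nat_lit 0x106235))
 (.l (nat_lit 0x880d4)))
 (.l (nat_lit 0xa01e5))))
 (.n (.n (.n (.l (nat_lit 0xa90e5))
 (.l (nat_lit 0x167285)))
 (.l (nat_lit 0x65165)))
 (.n (.n (.l (nat_lit 0x81026))
 (.l (nat_lit 0xaa2a7)))
 (.l (nat_lit 0xea1f6)))))
 (.n (.n (.n (.n (.l (nat_lit 0x1002a0))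
 (.l (nat_lit 0x30c6)))
 (.l (nat_lit 0x8b1c4)))
 (.n (.n (.l (nat_lit 0x1432a5))
 (.l (nat_lit 0x26157)))
 (.l (nat_lit 0x140037))))
 (.n (.n (.n (.l (nat_lit 0x28156))
 (.l (nat_lit 0xe3146)))
 (.l (nat_lit 0xa164)))
 (.n (.n (.l (nat_lit 0x68005))
 (.l (nat_lit 0x862a3)))
 (.l (nat_lit 0x1260b5)))))

def a512_286 : TA :=
 .n (.n (.n (.n (.n (.l (nat_lit 0x80110))
 (.l (nat_lit 0x86204)))
 (.l (nat_lit 0xe3055)))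
 (.n (.n (.l (nat_lit 0x1240e4))
 (.l (nat_lit 0xa40a7)))
 (.l (nat_lit 0x892c5))))
 (.n (.n (.n (.l (nat_lit 0xa1064))
 (.l (nat_lit 0x27214)))
 (.l (nat_lit 0x1222b6)))
 (.n (.n (.l (nat_lit 0xaa025))
 (.l (nat_lit 0x4093)))
 (.l (nat_lit 0x432d5)))))
 (.n (.n (.n (.n (.l (nat_lit 0x120005))
 (.l (nat_lit 0x851a6)))
 (.l (nat_lit 0x129086)))
 (.n (.n (.l (nat_lit 0x860e4))
 (.l (nat_lit 0x125217)))
 (.l (nat_lit 0x1611f4))))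
 (.n (.n (.n (.l (nat_lit 0x3034))
 (.l (nat_lit 0x144067)))
 (.l (nat_lit 0x141254)))
 (.n (.n (.l (nat_lit 0xa5045))
 (.l (nat_lit 0x4600b)))
 (.l (nat_lit 0x86196)))))

def a256_30 : TA := .n a512_30 a512_286

def a512_158 : TA :=
 .n (.n (.n (.n (.n (.l (nat_lit 0xac0062))
 (.l (nat_lit 0xa22e6)))
 (.n (.l (nat_lit 0x8056))
 (.l (nat_lit 0xd0a8876102000c))))
 (.n (.n (.l (nat_lit 0x64005))
 (.l (nat_lit 0x22077)))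
 (.l (nat_lit 0x162255))))
 (.n (.n (.n (.l (nat_lit 0x250e5))
 (.l (nat_lit 0x1672f6)))
 (.l (nat_lit 0x44017)))
 (.n (.n (.l (nat_lit 0x107234))
 (.l (nat_lit 0x144033)))
 (.l (nat_lit 0xa6266)))))
 (.n (.n (.n (.n (.l (nat_lit 0xa6075))
 (.l (nat_lit 0x44136)))
 (.l (nat_lit 0x48066)))
 (.n (.n (.l (nat_lit 0x106005))
 (.l (nat_lit 0x871c7)))
 (.l (nat_lit 0x20184))))
 (.n (.n (.n (.l (nat_lit 0xc11c6))
 (.l (nat_lit 0x91b6)))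
 (.l (nat_lit 0xe3095)))
 (.n (.n (.l (nat_lit 0x128074))
 (.l (nat_lit 0x10c0009)))
 (.l (nat_lit 0x46126)))))

def a512_414 : TA :=
 .n (.n (.n (.n (.n (.l (nat_lit 0xc01d0))
 (.l (nat_lit 0x8b0b4)))
 (.l (nat_lit 0x14b005)))
 (.n (.n (.l (nat_lit 0x892a6))
 (.l (nat_lit 0x1090e7)))
 (.l (nat_lit 0x4a174))))
 (.n (.n (.n (.l (nat_lit 0x42074))
 (.l (nat_lit 0x30d6)))
 (.l (nat_lit 0x1482b4)))
 (.n (.n (.l (nat_lit 0x143035))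
 (.l (nat_lit 0x4163)))
 (.l (nat_lit 0x6a1f4)))))
 (.n (.n (.n (.n (.l (nat_lit 0x1201c4))
 (.l (nat_lit 0xc7215)))
 (.l (nat_lit 0x101244)))
 (.n (.n (.l (nat_lit 0x145015))
 (.l (nat_lit 0x8247)))
 (.l (nat_lit 0xab185))))
 (.n (.n (.n (.l (nat_lit 0xaa1c6))
 (.l (nat_lit 0x85067)))
 (.l (nat_lit 0x422c4)))
 (.n (.n (.l (nat_lit 0x101045))
 (.l (nat_lit 0xe895831902000c)))
 (.l (nat_lit 0x40205)))))

def a256_158 : TA := .n a512_158 a512_414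

def a128_30 : TA := .n a256_30 a256_158

def a512_94 : TA :=
 .n (.n (.n (.n (.n (.l (nat_lit 0x100040))
 (.l (nat_lit 0x6276)))
 (.n (.l (nat_lit 0x22056))
 (.l (nat_lit 0xd414a8e900000c))))
 (.n (.n (.l (nat_lit 0xeb235))
 (.l (nat_lit 0x28294)))
 (.l (nat_lit 0x41255))))
 (.n (.n (.n (.l (nat_lit 0x81034))
 (.l (nat_lit 0x51a4)))
 (.l (nat_lit 0x1291d5)))
 (.n (.n (.l (nat_lit 0x29025))
 (.l (nat_lit 0x145013)))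
 (.l (nat_lit 0x4b265)))))
 (.n (.n (.n (.n (.l (nat_lit 0xc0300))
 (.l (nat_lit 0x101057)))
 (.l (nat_lit 0x21066)))
 (.n (.n (.l (nat_lit 0x2b2a6))
 (.l (nat_lit 0x120187)))
 (.l (nat_lit 0x140184))))
 (.n (.n (.n (.l (nat_lit 0x1622a4))
 (.l (nat_lit 0x251b6)))
 (.l (nat_lit 0x24096)))
 (.n (.n (.l (nat_lit 0x24036))
 (.l (nat_lit 0x9)))
 (.l (nat_lit 0x1640b5)))))

def a512_350 : TA :=
 .n (.n (.n (.n (.n (.l (nat_lit 0x170))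
 (.l (nat_lit 0x7124)))
 (.l (nat_lit 0x6b004)))
 (.n (.n (.l (nat_lit 0xa12a5))
 (.l (nat_lit 0x290d7)))
 (.l (nat_lit 0x92c4))))
 (.n (.n (.n (.l (nat_lit 0x7156))
 (.l (nat_lit 0x830d5)))
 (.l (nat_lit 0x1282b5)))
 (.n (.n (.l (nat_lit 0x27054))
 (.l (nat_lit 0x1430f3)))
 (.l (nat_lit 0xa6037)))))
 (.n (.n (.n (.n (.l (nat_lit 0x127076))
 (.l (nat_lit 0x21216)))
 (.l (nat_lit 0x201d4)))
 (.n (.n (.l (nat_lit 0x15))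
 (.l (nat_lit 0xa2237)))
 (.l (nat_lit 0xc20a4))))
 (.n (.n (.n (.l (nat_lit 0x1051c6))
 (.l (nat_lit 0x60296)))
 (.l (nat_lit 0x61254)))
 (.n (.n (.l (nat_lit 0x91c4))
 (.l (nat_lit 0x10b00b)))
 (.l (nat_lit 0x164196)))))

def a256_94 : TA := .n a512_94 a512_350

def a512_222 : TA :=
 .n (.n (.n (.n (.n (.l (nat_lit 0x6000b2))
 (.l (nat_lit 0x1422e6)))
 (.n (.l (nat_lit 0x10a024))
 (.l (nat_lit 0xc8899b1d42000c))))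
 (.n (.n (.l (nat_lit 0xe7235))
 (.l (nat_lit 0x10a077)))
 (.l (nat_lit 0x1092c6))))
 (.n (.n (.n (.l (nat_lit 0x10b0e5))
 (.l (nat_lit 0x7057)))
 (.l (nat_lit 0x141246)))
 (.n (.n (.l (nat_lit 0x82026))
 (.l (nat_lit 0xc8053)))
 (.l (nat_lit 0x6a2d6)))))
 (.n (.n (.n (.n (.l (nat_lit 0x1004))
 (.l (nat_lit 0x1641a5)))
 (.l (nat_lit 0x16b024)))
 (.n (.n (.l (nat_lit 0x124016))
 (.l (nat_lit 0x11f7)))
 (.l (nat_lit 0x1011f4))))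
 (.n (.n (.n (.l (nat_lit 0xa91c5))
 (.l (nat_lit 0x109225)))
 (.l (nat_lit 0x141027)))
 (.n (.n (.l (nat_lit 0x80045))
 (.l (nat_lit 0xc000a)))
 (.l (nat_lit 0x46125)))))

def a512_478 : TA :=
 .n (.n (.n (.n (.n (.l (nat_lit 0x440232))
 (.l (nat_lit 0xc20c5)))
 (.l (nat_lit 0x124066)))
 (.n (.n (.l (nat_lit 0x45034))
 (.l (nat_lit 0xa4117)))
 (.l (nat_lit 0x16a2c4))))
 (.n (.n (.n (.l (nat_lit 0x162006))
 (.l (nat_lit 0x144145)))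
 (.l (nat_lit 0x89244)))
 (.n (.n (.l (nat_lit 0xeb036))
 (.l (nat_lit 0x85213)))
 (.l (nat_lit 0x16b037)))))
 (.n (.n (.n (.n (.l (nat_lit 0xa30e5))
 (.l (nat_lit 0xc7286)))
 (.l (nat_lit 0xc2017)))
 (.n (.n (.l (nat_lit 0xe6154))
 (.l (nat_lit 0x1222a7)))
 (.l (nat_lit 0x4b1f5))))
 (.n (.n (.n (.l (nat_lit 0x23054))
 (.l (nat_lit 0xa5224)))
 (.l (nat_lit 0x1e5)))
 (.n (.n (.l (nat_lit 0xe6045))
 (.l (nat_lit 0x2568cac142600c)))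
 (.l (nat_lit 0x20205)))))

def a256_222 : TA := .n a512_222 a512_478

def a128_94 : TA := .n a256_94 a256_222

def a64_30 : TA := .n a128_30 a128_94

def a512_62 : TA :=
 .n (.n (.n (.n (.n (.l (nat_lit 0x680022))
 (.l (nat_lit 0xc40b4)))
 (.n (.l (nat_lit 0xca006))
 (.l (nat_lit 0x144688ae142600c))))
 (.n (.n (.l (nat_lit 0x9236))
 (.l (nat_lit 0x108304)))
 (.l (nat_lit 0x16a1e6))))
 (.n (.n (.n (.l (nat_lit 0x11c4))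
 (.l (nat_lit 0xc22f5)))
 (.l (nat_lit 0x162244)))
 (.n (.n (.l (nat_lit 0x123025))
 (.l (nat_lit 0x1022d7)))
 (.l (nat_lit 0xc4037)))))
 (.n (.n (.n (.n (.l (nat_lit 0x402c0))
 (.l (nat_lit 0x670c6)))
 (.l (nat_lit 0x10b044)))
 (.n (.n (.l (nat_lit 0xa82a5))
 (.l (nat_lit 0x89157)))
 (.l (nat_lit 0x460a5))))
 (.n (.n (.n (.l (nat_lit 0xcb155))
 (.l (nat_lit 0x109146)))
 (.l (nat_lit 0xea244)))
 (.n (.n (.l (nat_lit 0xe1035))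
 (.l (nat_lit 0x462d3)))
 (.l (nat_lit 0xc20b6)))))

def a512_318 : TA :=
 .n (.n (.n (.n (.n (.l (nat_lit 0xa00142))
 (.l (nat_lit 0x126194)))
 (.l (nat_lit 0x146056)))
 (.n (.n (.l (nat_lit 0x24054))
 (.l (nat_lit 0x1070b7)))
 (.l (nat_lit 0xa5174))))
 (.n (.n (.n (.l (nat_lit 0x104155))
 (.l (nat_lit 0xc8134)))
 (.l (nat_lit 0x65017)))
 (.n (.n (.l (nat_lit 0x1270e4))
 (.l (nat_lit 0x850e3)))
 (.l (nat_lit 0x1651f4)))))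
 (.n (.n (.n (.n (.l (nat_lit 0x23075))
 (.l (nat_lit 0x1220c4)))
 (.l (nat_lit 0xa4085)))
 (.n (.n (.l (nat_lit 0x106034))
 (.l (nat_lit 0x237)))
 (.l (nat_lit 0x105185))))
 (.n (.n (.n (.l (nat_lit 0xa3006))
 (.l (nat_lit 0x147296)))
 (.l (nat_lit 0xc9106)))
 (.n (.n (.l (nat_lit 0x10b045))
 (.l (nat_lit 0x14800b)))
 (.l (nat_lit 0x142274)))))

def a256_62 : TA := .n a512_62 a512_318

def a512_190 : TA :=
 .n (.n (.n (.n (.n (.l (nat_lit 0x140081))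
 (.l (nat_lit 0x6b2e5)))
 (.n (.l (nat_lit 0x8a154))
 (.l (nat_lit 0x1086a1ac540600c))))
 (.n (.n (.l (nat_lit 0xe1235))
 (.l (nat_lit 0x87077)))
 (.l (nat_lit 0x164104))))
 (.n (.n (.n (.l (nat_lit 0xa80e6))
 (.l (nat_lit 0x106134)))
 (.l (nat_lit 0x109246)))
 (.n (.n (.l (nat_lit 0x27006))
 (.l (nat_lit 0xb043)))
 (.l (nat_lit 0x164114)))))
 (.n (.n (.n (.n (.l (nat_lit 0x109076))
 (.l (nat_lit 0x21214)))
 (.l (nat_lit 0xeb0e4)))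
 (.n (.n (.l (nat_lit 0x42015))
 (.l (nat_lit 0x1291c7)))
 (.l (nat_lit 0x104115))))
 (.n (.n (.n (.l (nat_lit 0x1661c6))
 (.l (nat_lit 0x1226)))
 (.l (nat_lit 0x2a095)))
 (.n (.n (.l (nat_lit 0x28014))
 (.l (nat_lit 0x100009)))
 (.l (nat_lit 0x21047)))))

def a512_446 : TA :=
 .n (.n (.n (.n (.n (.l (nat_lit 0x680202))
 (.l (nat_lit 0x6b194)))
 (.l (nat_lit 0x42065)))
 (.n (.n (.l (nat_lit 0x16b2a5))
 (.l (nat_lit 0x250f7)))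
 (.l (nat_lit 0xea094))))
 (.n (.n (.n (.l (nat_lit 0xc2034))
 (.l (nat_lit 0x290d5)))
 (.l (nat_lit 0x9017)))
 (.n (.n (.l (nat_lit 0x46036))
 (.l (nat_lit 0x411c3)))
 (.l (nat_lit 0xcb114)))))
 (.n (.n (.n (.n (.l (nat_lit 0x20054))
 (.l (nat_lit 0x60285)))
 (.l (nat_lit 0xc80f6)))
 (.n (.n (.l (nat_lit 0x4a015))
 (.l (nat_lit 0xa0287)))
 (.l (nat_lit 0x1401f5))))
 (.n (.n (.n (.l (nat_lit 0x1230e4))
 (.l (nat_lit 0x142306)))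
 (.l (nat_lit 0x10a176)))
 (.n (.n (.l (nat_lit 0x4046))
 (.l (nat_lit 0x160688ad102600c)))
 (.l (nat_lit 0xb205)))))

def a256_190 : TA := .n a512_190 a512_446

def a128_62 : TA := .n a256_62 a256_190

def a512_126 : TA :=
 .n (.n (.n (.n (.n (.l (nat_lit 0xa00052))
 (.l (nat_lit 0x1240b4)))
 (.n (.l (nat_lit 0x105055))
 (.l (nat_lit 0xd02988ec00600c))))
 (.n (.n (.l (nat_lit 0x144014))
 (.l (nat_lit 0x891b4)))
 (.l (nat_lit 0x44104))))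
 (.n (.n (.n (.l (nat_lit 0x121006))
 (.l (nat_lit 0xc22f6)))
 (.l (nat_lit 0x1601d5)))
 (.n (.n (.l (nat_lit 0x88004))
 (.l (nat_lit 0xc9023)))
 (.l (nat_lit 0xe4037)))))
 (.n (.n (.n (.n (.l (nat_lit 0x162075))
 (.l (nat_lit 0xc8135)))
 (.l (nat_lit 0x144065)))
 (.n (.n (.l (nat_lit 0xa5024))
 (.l (nat_lit 0x11c7)))
 (.l (nat_lit 0x840a5))))
 (.n (.n (.n (.l (nat_lit 0x62064))
 (.l (nat_lit 0x2304)))
 (.l (nat_lit 0x1e4)))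
 (.n (.n (.l (nat_lit 0x8a036))
 (.l (nat_lit 0x2080009)))
 (.l (nat_lit 0x120194)))))

def a512_382 : TA :=
 .n (.n (.n (.n (.n (.l (nat_lit 0x1401a0))
 (.l (nat_lit 0xe7047)))
 (.l (nat_lit 0xea234)))
 (.n (.n (.l (nat_lit 0x1062a5))
 (.l (nat_lit 0x860e7)))
 (.l (nat_lit 0x1691e4))))
 (.n (.n (.n (.l (nat_lit 0x129155))
 (.l (nat_lit 0x680d5)))
 (.l (nat_lit 0x8084)))
 (.n (.n (.l (nat_lit 0xa0036))
 (.l (nat_lit 0x40153)))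
 (.l (nat_lit 0x4a184)))))
 (.n (.n (.n (.n (.l (nat_lit 0xaa075))
 (.l (nat_lit 0x1432f4)))
 (.l (nat_lit 0xa50f6)))
 (.n (.n (.l (nat_lit 0xe2016))
 (.l (nat_lit 0x128237)))
 (.l (nat_lit 0x5186))))
 (.n (.n (.n (.l (nat_lit 0x81c5))
 (.l (nat_lit 0x148295)))
 (.l (nat_lit 0x49175)))
 (.n (.n (.l (nat_lit 0x89064))
 (.l (nat_lit 0xe889c0d402600c)))
 (.l (nat_lit 0x67195)))))

def a256_126 : TA := .n a512_126 a512_382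

def a256_254 : TA :=
 .n (.n (.n (.n (.n (.n (.l (nat_lit 0x4400e2))
 (.l (nat_lit 0xe5124)))
 (.l (nat_lit 0x1056)))
 (.n (.n (.l (nat_lit 0x6a236))
 (.l (nat_lit 0x22097)))
 (.l (nat_lit 0xa5027))))
 (.n (.n (.n (.l (nat_lit 0x21014))
 (.l (nat_lit 0x87284)))
 (.l (nat_lit 0x24084)))
 (.n (.n (.l (nat_lit 0x5025))
 (.l (nat_lit 0x4073)))
 (.l (nat_lit 0xc51f4)))))
 (.n (.n (.n (.n (.l (nat_lit 0x80024))
 (.l (nat_lit 0xc20c4)))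
 (.l (nat_lit 0x83085)))
 (.n (.n (.l (nat_lit 0x29016))
 (.l (nat_lit 0xa5207)))
 (.l (nat_lit 0x45115))))
 (.n (.n (.n (.l (nat_lit 0x104004))
 (.l (nat_lit 0xc1225)))
 (.l (nat_lit 0x4a106)))
 (.n (.n (.l (nat_lit 0x122046))
 (.l (nat_lit 0x8300a)))
 (.l (nat_lit 0x161274))))))
 (.n (.n (.n (.n (.n (.l (nat_lit 0x40270))
 (.l (nat_lit 0xe70c5)))
 (.l (nat_lit 0x9066)))
 (.n (.n (.l (nat_lit 0xe5006))
 (.l (nat_lit 0x100157)))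
 (.l (nat_lit 0x8b254))))
 (.n (.n (.n (.l (nat_lit 0x65155))
 (.l (nat_lit 0x128145)))
 (.l (nat_lit 0x129164)))
 (.n (.n (.l (nat_lit 0x1481c4))
 (.l (nat_lit 0xc8243)))
 (.l (nat_lit 0x6b2d4)))))
 (.n (.n (.n (.n (.l (nat_lit 0x70e5))
 (.l (nat_lit 0xa0286)))
 (.l (nat_lit 0x29165)))
 (.n (.n (.l (nat_lit 0x166044))
 (.l (nat_lit 0x272a7)))
 (.l (nat_lit 0x1401f6))))
 (.n (.n (.n (.l (nat_lit 0xa0235))
 (.l (nat_lit 0x167067)))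
 (.l (nat_lit 0x12a1e5)))
 (.n (.n (.l (nat_lit 0x16a004))
 (.l (nat_lit 0x5aa2335402600c)))
 (.l (nat_lit 0xc7205))))))

def a128_126 : TA := .n a256_126 a256_254

def a64_62 : TA := .n a128_62 a128_126

def a32_30 : TA := .n a64_30 a64_62

def a16_14 : TA := .n a32_14 a32_30

def a8_6 : TA := .n a16_6 a16_14

def a4_2 : TA := .n a8_2 a8_6

def a2_0 : TA := .n a4_0 a4_2

def a512_1 : TA :=
 .n (.n (.n (.n (.n (.l (nat_lit 0x40000))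
 (.l (nat_lit 0xb206)))
 (.n (.l (nat_lit 0xa9074))
 (.l (nat_lit 0x1016a88d522600c))))
 (.n (.n (.l (nat_lit 0x160235))
 (.l (nat_lit 0xe70d4)))
 (.l (nat_lit 0x4b1e5))))
 (.n (.n (.n (.l (nat_lit 0xc70e5))
 (.l (nat_lit 0x160286)))
 (.l (nat_lit 0x129165)))
 (.n (.n (.l (nat_lit 0xa6054))
 (.l (nat_lit 0xe72a7)))
 (.l (nat_lit 0xa01f5)))))
 (.n (.n (.n (.n (.l (nat_lit 0x100270))
 (.l (nat_lit 0x1a4)))
 (.l (nat_lit 0xc9066)))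
 (.n (.n (.l (nat_lit 0x12a6))
 (.l (nat_lit 0x60157)))
 (.l (nat_lit 0xb2c4))))
 (.n (.n (.n (.l (nat_lit 0x125155))
 (.l (nat_lit 0x41224)))
 (.l (nat_lit 0x691d4)))
 (.n (.n (.l (nat_lit 0x88234))
 (.l (nat_lit 0xb253)))
 (.l (nat_lit 0x12b2d4)))))

def a512_257 : TA :=
 .n (.n (.n (.n (.n (.l (nat_lit 0xa400e2))
 (.l (nat_lit 0x25194)))
 (.l (nat_lit 0xc1056)))
 (.n (.n (.l (nat_lit 0x16a236))
 (.l (nat_lit 0xe2097)))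
 (.l (nat_lit 0x165027))))
 (.n (.n (.n (.l (nat_lit 0xe1014))
 (.l (nat_lit 0x72f4)))
 (.l (nat_lit 0xe4084)))
 (.n (.n (.l (nat_lit 0xc5025))
 (.l (nat_lit 0x104073)))
 (.l (nat_lit 0x25037)))))
 (.n (.n (.n (.n (.l (nat_lit 0x140024))
 (.l (nat_lit 0x22f4)))
 (.l (nat_lit 0x143085)))
 (.n (.n (.l (nat_lit 0xe9016))
 (.l (nat_lit 0x165207)))
 (.l (nat_lit 0x145115))))
 (.n (.n (.n (.l (nat_lit 0x43074))
 (.l (nat_lit 0x8225)))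
 (.l (nat_lit 0x14a106)))
 (.n (.n (.l (nat_lit 0x83046))
 (.l (nat_lit 0xc300b)))
 (.l (nat_lit 0xa12e4)))))

def a256_1 : TA := .n a512_1 a512_257

def a512_129 : TA :=
 .n (.n (.n (.n (.n (.l (nat_lit 0x840052))
 (.l (nat_lit 0x64124)))
 (.n (.l (nat_lit 0x65055))
 (.l (nat_lit 0xd094a66c00000c))))
 (.n (.n (.l (nat_lit 0x84024))
 (.l (nat_lit 0x9224)))
 (.l (nat_lit 0x104104))))
 (.n (.n (.n (.l (nat_lit 0x430e6))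
 (.l (nat_lit 0x222f5)))
 (.l (nat_lit 0x811d5)))
 (.n (.n (.l (nat_lit 0x148004))
 (.l (nat_lit 0xb023)))
 (.l (nat_lit 0x20266)))))
 (.n (.n (.n (.n (.l (nat_lit 0x83075))
 (.l (nat_lit 0x28135)))
 (.l (nat_lit 0xa4065)))
 (.n (.n (.l (nat_lit 0x165024))
 (.l (nat_lit 0xc11c7)))
 (.l (nat_lit 0x1440a5))))
 (.n (.n (.n (.l (nat_lit 0x122064))
 (.l (nat_lit 0xc2304)))
 (.l (nat_lit 0xc01e4)))
 (.n (.n (.l (nat_lit 0x14a036))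
 (.l (nat_lit 0x1a80009)))
 (.l (nat_lit 0x60204)))))

def a512_385 : TA :=
 .n (.n (.n (.n (.n (.l (nat_lit 0x1001b0))
 (.l (nat_lit 0x270b4)))
 (.l (nat_lit 0x2a2a4)))
 (.n (.n (.l (nat_lit 0x662a5))
 (.l (nat_lit 0x1460e7)))
 (.l (nat_lit 0xa9254))))
 (.n (.n (.n (.l (nat_lit 0x4a155))
 (.l (nat_lit 0x1280d5)))
 (.l (nat_lit 0xc8084)))
 (.n (.n (.l (nat_lit 0x160036))
 (.l (nat_lit 0x100153)))
 (.l (nat_lit 0x10a184)))))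
 (.n (.n (.n (.n (.l (nat_lit 0x16a075))
 (.l (nat_lit 0xa3057)))
 (.l (nat_lit 0x1650f6)))
 (.n (.n (.l (nat_lit 0x3016))
 (.l (nat_lit 0x49237)))
 (.l (nat_lit 0xc5186))))
 (.n (.n (.n (.l (nat_lit 0xc81c5))
 (.l (nat_lit 0xa8295)))
 (.l (nat_lit 0x109175)))
 (.n (.n (.l (nat_lit 0x149064))
 (.l (nat_lit 0xe88982d402600c)))
 (.l (nat_lit 0x2b195)))))

def a256_129 : TA := .n a512_129 a512_385

def a128_1 : TA := .n a256_1 a256_129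

def a512_65 : TA :=
 .n (.n (.n (.n (.n (.l (nat_lit 0x8c0022))
 (.l (nat_lit 0x4124)))
 (.n (.l (nat_lit 0x55))
 (.l (nat_lit 0xd10e029902600c))))
 (.n (.n (.l (nat_lit 0xc9236))
 (.l (nat_lit 0x68067)))
 (.l (nat_lit 0x8b1e6))))
 (.n (.n (.n (.l (nat_lit 0xc11c4))
 (.l (nat_lit 0x222f6)))
 (.l (nat_lit 0xa22b4)))
 (.n (.n (.l (nat_lit 0x44025))
 (.l (nat_lit 0x40013)))
 (.l (nat_lit 0x1265)))))
 (.n (.n (.n (.n (.l (nat_lit 0x1002c0))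
 (.l (nat_lit 0x1270c6)))
 (.l (nat_lit 0x6b005)))
 (.n (.n (.l (nat_lit 0x1682a5))
 (.l (nat_lit 0x149157)))
 (.l (nat_lit 0x1060a5))))
 (.n (.n (.n (.l (nat_lit 0x2b155))
 (.l (nat_lit 0xe1224)))
 (.l (nat_lit 0x27)))
 (.n (.n (.l (nat_lit 0x2035))
 (.l (nat_lit 0x1462d3)))
 (.l (nat_lit 0x220b6)))))

def a512_321 : TA :=
 .n (.n (.n (.n (.n (.l (nat_lit 0x40150))
 (.l (nat_lit 0x66204)))
 (.l (nat_lit 0xa6056)))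
 (.n (.n (.l (nat_lit 0xe4054))
 (.l (nat_lit 0x420c7)))
 (.l (nat_lit 0x165174))))
 (.n (.n (.n (.l (nat_lit 0x64155))
 (.l (nat_lit 0x28057)))
 (.l (nat_lit 0x125017)))
 (.n (.n (.l (nat_lit 0x67154))
 (.l (nat_lit 0x1450e3)))
 (.l (nat_lit 0x86037)))))
 (.n (.n (.n (.n (.l (nat_lit 0xe3075))
 (.l (nat_lit 0x62284)))
 (.l (nat_lit 0x164085)))
 (.n (.n (.l (nat_lit 0x46044))
 (.l (nat_lit 0xc0237)))
 (.l (nat_lit 0x65186))))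
 (.n (.n (.n (.l (nat_lit 0x163006))
 (.l (nat_lit 0x88296)))
 (.l (nat_lit 0x69106)))
 (.n (.n (.l (nat_lit 0x6b045))
 (.l (nat_lit 0x4900a)))
 (.l (nat_lit 0x822e4)))))

def a256_65 : TA := .n a512_65 a512_321

def a512_193 : TA :=
 .n (.n (.n (.n (.n (.l (nat_lit 0x880082))
 (.l (nat_lit 0x12b2e5)))
 (.n (.l (nat_lit 0x14a154))
 (.l (nat_lit 0x1086a1ac542000c))))
 (.n (.n (.l (nat_lit 0x2235))
 (.l (nat_lit 0x147077)))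
 (.l (nat_lit 0x85027))))
 (.n (.n (.n (.l (nat_lit 0x1680e6))
 (.l (nat_lit 0x461a4)))
 (.l (nat_lit 0xaa245)))
 (.n (.n (.l (nat_lit 0xe7006))
 (.l (nat_lit 0xcb043)))
 (.l (nat_lit 0xa4184)))))
 (.n (.n (.n (.n (.l (nat_lit 0x69076))
 (.l (nat_lit 0xe1214)))
 (.l (nat_lit 0x2b154)))
 (.n (.n (.l (nat_lit 0x102015))
 (.l (nat_lit 0x4a1c7)))
 (.l (nat_lit 0x64116))))
 (.n (.n (.n (.l (nat_lit 0x871c6))
 (.l (nat_lit 0x101226)))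
 (.l (nat_lit 0xea095)))
 (.n (.n (.l (nat_lit 0xe8014))
 (.l (nat_lit 0x2b40009)))
 (.l (nat_lit 0xe1047)))))

def a512_449 : TA :=
 .n (.n (.n (.n (.n (.l (nat_lit 0xb00202))
 (.l (nat_lit 0x12b194)))
 (.l (nat_lit 0x102065)))
 (.n (.n (.l (nat_lit 0x850e4))
 (.l (nat_lit 0xe50f7)))
 (.l (nat_lit 0x2a104))))
 (.n (.n (.n (.l (nat_lit 0x2044))
 (.l (nat_lit 0x1290d5)))
 (.l (nat_lit 0xc9017)))
 (.n (.n (.l (nat_lit 0x106036))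
 (.l (nat_lit 0x1011c3)))
 (.l (nat_lit 0xb184)))))
 (.n (.n (.n (.n (.l (nat_lit 0xe0054))
 (.l (nat_lit 0x120285)))
 (.l (nat_lit 0x680f6)))
 (.n (.n (.l (nat_lit 0x10a015))
 (.l (nat_lit 0x160287)))
 (.l (nat_lit 0xa01f6))))
 (.n (.n (.n (.l (nat_lit 0x632a4))
 (.l (nat_lit 0xe2305)))
 (.l (nat_lit 0x6a176)))
 (.n (.n (.l (nat_lit 0xc4046))
 (.l (nat_lit 0x16068cad100600c)))
 (.l (nat_lit 0xcb205)))))

def a256_193 : TA := .n a512_193 a512_449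

def a128_65 : TA := .n a256_65 a256_193

def a64_1 : TA := .n a128_1 a128_65

def a512_33 : TA :=
 .n (.n (.n (.n (.n (.l (nat_lit 0x800012))
 (.l (nat_lit 0xc2276)))
 (.n (.l (nat_lit 0x1292a4))
 (.l (nat_lit 0x102a5895322000c))))
 (.n (.n (.l (nat_lit 0x66235))
 (.l (nat_lit 0x1480d4)))
 (.l (nat_lit 0x1601e5))))
 (.n (.n (.n (.l (nat_lit 0x1690e5))
 (.l (nat_lit 0xa40c4)))
 (.l (nat_lit 0x125165)))
 (.n (.n (.l (nat_lit 0x141026))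
 (.l (nat_lit 0x16a2a7)))
 (.l (nat_lit 0xb1f6)))))
 (.n (.n (.n (.n (.l (nat_lit 0x1402a1))
 (.l (nat_lit 0xc30c6)))
 (.l (nat_lit 0x14b1c4)))
 (.n (.n (.l (nat_lit 0xa32a5))
 (.l (nat_lit 0xe6157)))
 (.l (nat_lit 0x820a5))))
 (.n (.n (.n (.l (nat_lit 0xe8156))
 (.l (nat_lit 0x4146)))
 (.l (nat_lit 0x10a164)))
 (.n (.n (.l (nat_lit 0x128005))
 (.l (nat_lit 0x1462a3)))
 (.l (nat_lit 0x470b5)))))

def a512_289 : TA :=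
 .n (.n (.n (.n (.n (.l (nat_lit 0x140110))
 (.l (nat_lit 0x146204)))
 (.l (nat_lit 0x4055)))
 (.n (.n (.l (nat_lit 0x64154))
 (.l (nat_lit 0x1640a7)))
 (.l (nat_lit 0x1492c5))))
 (.n (.n (.n (.l (nat_lit 0x161064))
 (.l (nat_lit 0xe7214)))
 (.l (nat_lit 0x482b6)))
 (.n (.n (.l (nat_lit 0x16a025))
 (.l (nat_lit 0xc4093)))
 (.l (nat_lit 0x1432d5)))))
 (.n (.n (.n (.n (.l (nat_lit 0x60006))
 (.l (nat_lit 0x1451a6)))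
 (.l (nat_lit 0x40244)))
 (.n (.n (.l (nat_lit 0x1460e4))
 (.l (nat_lit 0x67217)))
 (.l (nat_lit 0xa1264))))
 (.n (.n (.n (.l (nat_lit 0xc3034))
 (.l (nat_lit 0xc0295)))
 (.l (nat_lit 0xa1027)))
 (.n (.n (.l (nat_lit 0x165045))
 (.l (nat_lit 0x8600a)))
 (.l (nat_lit 0x146196)))))

def a256_33 : TA := .n a512_33 a512_289

def a512_161 : TA :=
 .n (.n (.n (.n (.n (.l (nat_lit 0x40070))
 (.l (nat_lit 0x1622e6)))
 (.n (.l (nat_lit 0xc8056))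
 (.l (nat_lit 0xd408876100000c))))
 (.n (.n (.l (nat_lit 0x124005))
 (.l (nat_lit 0xe2077)))
 (.l (nat_lit 0x89255))))
 (.n (.n (.n (.l (nat_lit 0xe50e5))
 (.l (nat_lit 0xa5134)))
 (.l (nat_lit 0x104017)))
 (.n (.n (.l (nat_lit 0x472a4))
 (.l (nat_lit 0x86033)))
 (.l (nat_lit 0x166266)))))
 (.n (.n (.n (.n (.l (nat_lit 0x166075))
 (.l (nat_lit 0x104136)))
 (.l (nat_lit 0x108066)))
 (.n (.n (.l (nat_lit 0x46006))
 (.l (nat_lit 0x1471c7)))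
 (.l (nat_lit 0xe0184))))
 (.n (.n (.n (.l (nat_lit 0x211c6))
 (.l (nat_lit 0x1491b6)))
 (.l (nat_lit 0x4095)))
 (.n (.n (.l (nat_lit 0x680e4))
 (.l (nat_lit 0xac0009)))
 (.l (nat_lit 0x106126)))))

def a512_417 : TA :=
 .n (.n (.n (.n (.n (.l (nat_lit 0x1001d1))
 (.l (nat_lit 0x14b0b4)))
 (.l (nat_lit 0x8b006)))
 (.n (.n (.l (nat_lit 0x292a6))
 (.l (nat_lit 0x690e7)))
 (.l (nat_lit 0x10a174))))
 (.n (.n (.n (.l (nat_lit 0x102074))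
 (.l (nat_lit 0x1430d6)))
 (.l (nat_lit 0xa8017)))
 (.n (.n (.l (nat_lit 0xa3035))
 (.l (nat_lit 0xc4163)))
 (.l (nat_lit 0x12a1f4)))))
 (.n (.n (.n (.n (.l (nat_lit 0x60234))
 (.l (nat_lit 0x27215)))
 (.l (nat_lit 0x412b4)))
 (.n (.n (.l (nat_lit 0xa5015))
 (.l (nat_lit 0xc8247)))
 (.l (nat_lit 0x220a4))))
 (.n (.n (.n (.l (nat_lit 0x16a1c6))
 (.l (nat_lit 0x145067)))
 (.l (nat_lit 0x1022c4)))
 (.n (.n (.l (nat_lit 0x61045))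
 (.l (nat_lit 0x687488d402000c)))
 (.l (nat_lit 0x100205)))))

def a256_161 : TA := .n a512_161 a512_417

def a128_33 : TA := .n a256_33 a256_161

def a512_97 : TA :=
 .n (.n (.n (.n (.n (.l (nat_lit 0x140041))
 (.l (nat_lit 0xc6276)))
 (.n (.l (nat_lit 0xe2056))
 (.l (nat_lit 0xd52988ec00000c))))
 (.n (.n (.l (nat_lit 0x5004))
 (.l (nat_lit 0xe8294)))
 (.l (nat_lit 0x101255))))
 (.n (.n (.n (.l (nat_lit 0x141034))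
 (.l (nat_lit 0xc51a4)))
 (.l (nat_lit 0x6a1d5)))
 (.n (.n (.l (nat_lit 0xe9025))
 (.l (nat_lit 0x88013)))
 (.l (nat_lit 0x10b265)))))
 (.n (.n (.n (.n (.l (nat_lit 0x5))
 (.l (nat_lit 0x44135)))
 (.l (nat_lit 0xe1066)))
 (.n (.n (.l (nat_lit 0xeb2a6))
 (.l (nat_lit 0x46187)))
 (.l (nat_lit 0x801f4))))
 (.n (.n (.n (.l (nat_lit 0xa2014))
 (.l (nat_lit 0x1651b6)))
 (.l (nat_lit 0x124096)))
 (.n (.n (.l (nat_lit 0xe4036))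
 (.l (nat_lit 0x2a40009)))
 (.l (nat_lit 0x860b6)))))

def a512_353 : TA :=
 .n (.n (.n (.n (.n (.l (nat_lit 0xc0170))
 (.l (nat_lit 0xc7124)))
 (.l (nat_lit 0x12b004)))
 (.n (.n (.l (nat_lit 0x1612a5))
 (.l (nat_lit 0xe90d7)))
 (.l (nat_lit 0xc92c4))))
 (.n (.n (.n (.l (nat_lit 0xc7156))
 (.l (nat_lit 0x1430d5)))
 (.l (nat_lit 0x492b5)))
 (.n (.n (.l (nat_lit 0xe7054))
 (.l (nat_lit 0xc80f3)))
 (.l (nat_lit 0x166037)))))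
 (.n (.n (.n (.n (.l (nat_lit 0x88076))
 (.l (nat_lit 0xe1216)))
 (.l (nat_lit 0xe01d4)))
 (.n (.n (.l (nat_lit 0xc0015))
 (.l (nat_lit 0x162237)))
 (.l (nat_lit 0x2264))))
 (.n (.n (.n (.l (nat_lit 0x651c6))
 (.l (nat_lit 0x120296)))
 (.l (nat_lit 0x121254)))
 (.n (.n (.l (nat_lit 0xc91c4))
 (.l (nat_lit 0x14b00a)))
 (.l (nat_lit 0x85196)))))

def a256_97 : TA := .n a512_97 a512_353

def a512_225 : TA :=
 .n (.n (.n (.n (.n (.l (nat_lit 0xac00b2))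
 (.l (nat_lit 0xa22e5)))
 (.n (.l (nat_lit 0x4a034))
 (.l (nat_lit 0xc886a70542000c))))
 (.n (.n (.l (nat_lit 0x8235))
 (.l (nat_lit 0x6a077)))
 (.l (nat_lit 0xa92c6))))
 (.n (.n (.n (.l (nat_lit 0x6b0e5))
 (.l (nat_lit 0xc7057)))
 (.l (nat_lit 0xa1245)))
 (.n (.n (.l (nat_lit 0x22026))
 (.l (nat_lit 0x1063)))
 (.l (nat_lit 0x12a2d6)))))
 (.n (.n (.n (.n (.l (nat_lit 0xc1004))
 (.l (nat_lit 0x851a5)))
 (.l (nat_lit 0xab034)))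
 (.n (.n (.l (nat_lit 0x45016))
 (.l (nat_lit 0xc11f7)))
 (.l (nat_lit 0x41264))))
 (.n (.n (.n (.l (nat_lit 0x1691c5))
 (.l (nat_lit 0x430d4)))
 (.l (nat_lit 0xe3105)))
 (.n (.n (.l (nat_lit 0x140045))
 (.l (nat_lit 0x14000b)))
 (.l (nat_lit 0x106125)))))

def a512_481 : TA :=
 .n (.n (.n (.n (.n (.l (nat_lit 0xa40232))
 (.l (nat_lit 0x430c5)))
 (.l (nat_lit 0x45066)))
 (.n (.n (.l (nat_lit 0x105034))
 (.l (nat_lit 0x164117)))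
 (.l (nat_lit 0x8b027))))
 (.n (.n (.n (.l (nat_lit 0x80155))
 (.l (nat_lit 0xa4146)))
 (.l (nat_lit 0x149244)))
 (.n (.n (.l (nat_lit 0x9004))
 (.l (nat_lit 0x5223)))
 (.l (nat_lit 0xab0a4)))))
 (.n (.n (.n (.n (.l (nat_lit 0x1630e5))
 (.l (nat_lit 0x67286)))
 (.l (nat_lit 0x5165)))
 (.n (.n (.l (nat_lit 0x261c4))
 (.l (nat_lit 0x432a7)))
 (.l (nat_lit 0x10b1f5))))
 (.n (.n (.n (.l (nat_lit 0xe3054))
 (.l (nat_lit 0x165224)))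
 (.l (nat_lit 0xc01e5)))
 (.n (.n (.l (nat_lit 0x7045))
 (.l (nat_lit 0x2260ca4560600c)))
 (.l (nat_lit 0xe0205)))))

def a256_225 : TA := .n a512_225 a512_481

def a128_97 : TA := .n a256_97 a256_225

def a64_33 : TA := .n a128_33 a128_97

def a32_1 : TA := .n a64_1 a64_33

def a512_17 : TA :=
 .n (.n (.n (.n (.n (.l (nat_lit 0xa80002))
 (.l (nat_lit 0x104047)))
 (.n (.l (nat_lit 0x291c4))
 (.l (nat_lit 0x101a9894b42600c))))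
 (.n (.n (.l (nat_lit 0xc2236))
 (.l (nat_lit 0x67224)))
 (.l (nat_lit 0x63027))))
 (.n (.n (.n (.l (nat_lit 0x680e5))
 (.l (nat_lit 0xe2285)))
 (.l (nat_lit 0x1422b4)))
 (.n (.n (.l (nat_lit 0x26))
 (.l (nat_lit 0x692a7)))
 (.l (nat_lit 0x1051f6)))))
 (.n (.n (.n (.n (.l (nat_lit 0xc0290))
 (.l (nat_lit 0x120057)))
 (.l (nat_lit 0x4b0e4)))
 (.n (.n (.l (nat_lit 0x1022a6))
 (.l (nat_lit 0x164157)))
 (.l (nat_lit 0x12b094))))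
 (.n (.n (.n (.l (nat_lit 0xc7155))
 (.l (nat_lit 0x61067)))
 (.l (nat_lit 0x1692b4)))
 (.n (.n (.l (nat_lit 0x8054))
 (.l (nat_lit 0x412a3)))
 (.l (nat_lit 0xe30b6)))))

def a512_273 : TA :=
 .n (.n (.n (.n (.n (.l (nat_lit 0x100))
 (.l (nat_lit 0x46124)))
 (.l (nat_lit 0x62055)))
 (.n (.n (.l (nat_lit 0xe5004))
 (.l (nat_lit 0x430a7)))
 (.l (nat_lit 0x1622c5))))
 (.n (.n (.n (.l (nat_lit 0x61044))
 (.l (nat_lit 0x1670c4)))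
 (.l (nat_lit 0x412b5)))
 (.n (.n (.l (nat_lit 0x69026))
 (.l (nat_lit 0x102083)))
 (.l (nat_lit 0x22d6)))))
 (.n (.n (.n (.n (.l (nat_lit 0xc0054))
 (.l (nat_lit 0x201a5)))
 (.l (nat_lit 0xa8085)))
 (.n (.n (.l (nat_lit 0x47004))
 (.l (nat_lit 0xcb207)))
 (.l (nat_lit 0x10b115))))
 (.n (.n (.n (.l (nat_lit 0x1432a4))
 (.l (nat_lit 0x1230d4)))
 (.l (nat_lit 0x12b106)))
 (.n (.n (.l (nat_lit 0x64045))
 (.l (nat_lit 0x500a)))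
 (.l (nat_lit 0x45195)))))

def a256_17 : TA := .n a512_17 a512_273

def a512_145 : TA :=
 .n (.n (.n (.n (.n (.l (nat_lit 0x180061))
 (.l (nat_lit 0x212e5)))
 (.n (.l (nat_lit 0x166055))
 (.l (nat_lit 0xd521a8ec00000c))))
 (.n (.n (.l (nat_lit 0x4054))
 (.l (nat_lit 0x169067)))
 (.l (nat_lit 0x101256))))
 (.n (.n (.n (.l (nat_lit 0x1440e6))
 (.l (nat_lit 0xc62f6)))
 (.l (nat_lit 0x23084)))
 (.n (.n (.l (nat_lit 0xc7154))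
 (.l (nat_lit 0x101033)))
 (.l (nat_lit 0x121265)))))
 (.n (.n (.n (.n (.l (nat_lit 0x24076))
 (.l (nat_lit 0x12f4)))
 (.l (nat_lit 0x7066)))
 (.n (.n (.l (nat_lit 0xe5054))
 (.l (nat_lit 0x651c7)))
 (.l (nat_lit 0x14a0a5))))
 (.n (.n (.n (.l (nat_lit 0x801c5))
 (.l (nat_lit 0x1051b6)))
 (.l (nat_lit 0x62096)))
 (.n (.n (.l (nat_lit 0xeb035))
 (.l (nat_lit 0x2ac0009)))
 (.l (nat_lit 0x144125)))))

def a512_401 : TA :=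
 .n (.n (.n (.n (.n (.l (nat_lit 0x4401c2))
 (.l (nat_lit 0x272e4)))
 (.l (nat_lit 0x12a024)))
 (.n (.n (.l (nat_lit 0x82a6))
 (.l (nat_lit 0xc80e7)))
 (.l (nat_lit 0xa094))))
 (.n (.n (.n (.l (nat_lit 0x14b156))
 (.l (nat_lit 0x100224)))
 (.l (nat_lit 0x481d4)))
 (.n (.n (.l (nat_lit 0x102036))
 (.l (nat_lit 0x107153)))
 (.l (nat_lit 0x14a2d4)))))
 (.n (.n (.n (.n (.l (nat_lit 0xe1004))
 (.l (nat_lit 0x1215)))
 (.l (nat_lit 0xe90f5)))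
 (.n (.n (.l (nat_lit 0x104015))
 (.l (nat_lit 0x14a237)))
 (.l (nat_lit 0x4a186))))
 (.n (.n (.n (.l (nat_lit 0x691c6))
 (.l (nat_lit 0x64144)))
 (.l (nat_lit 0x16a175)))
 (.n (.n (.l (nat_lit 0xc0046))
 (.l (nat_lit 0xe89582d102000c)))
 (.l (nat_lit 0x162274)))))

def a256_145 : TA := .n a512_145 a512_401

def a128_17 : TA := .n a256_17 a256_145

def a512_81 : TA :=
 .n (.n (.n (.n (.n (.l (nat_lit 0x440032))
 (.l (nat_lit 0x164047)))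
 (.n (.l (nat_lit 0x101055))
 (.l (nat_lit 0xd581a32900000c))))
 (.n (.n (.l (nat_lit 0xaa235))
 (.l (nat_lit 0x168144)))
 (.l (nat_lit 0x232c4))))
 (.n (.n (.n (.l (nat_lit 0x41014))
 (.l (nat_lit 0x1462f5)))
 (.l (nat_lit 0xc81d6)))
 (.n (.n (.l (nat_lit 0x145026))
 (.l (nat_lit 0x83013)))
 (.l (nat_lit 0x102266)))))
 (.n (.n (.n (.n (.l (nat_lit 0x2e0))
 (.l (nat_lit 0xe0214)))
 (.l (nat_lit 0x140066)))
 (.n (.n (.l (nat_lit 0x10a2a5))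
 (.l (nat_lit 0xea157)))
 (.l (nat_lit 0x10b0a6))))
 (.n (.n (.n (.l (nat_lit 0x122074))
 (.l (nat_lit 0x801b6)))
 (.l (nat_lit 0x162095)))
 (.n (.n (.l (nat_lit 0x143036))
 (.l (nat_lit 0x1a00009)))
 (.l (nat_lit 0x1230b5)))))

def a512_337 : TA :=
 .n (.n (.n (.n (.n (.l (nat_lit 0x680152))
 (.l (nat_lit 0x1662e4)))
 (.l (nat_lit 0x8055)))
 (.n (.n (.l (nat_lit 0x45006))
 (.l (nat_lit 0x1430d7)))
 (.l (nat_lit 0xc9104))))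
 (.n (.n (.n (.l (nat_lit 0x165156))
 (.l (nat_lit 0x40067)))
 (.l (nat_lit 0x1032b5)))
 (.n (.n (.l (nat_lit 0x167234))
 (.l (nat_lit 0xc80e3)))
 (.l (nat_lit 0x6184)))))
 (.n (.n (.n (.n (.l (nat_lit 0x66076))
 (.l (nat_lit 0x143057)))
 (.l (nat_lit 0x149085)))
 (.n (.n (.l (nat_lit 0x166005))
 (.l (nat_lit 0x61237)))
 (.l (nat_lit 0xb186))))
 (.n (.n (.n (.l (nat_lit 0xc11c5))
 (.l (nat_lit 0x41b4)))
 (.l (nat_lit 0xb105)))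
 (.n (.n (.l (nat_lit 0x149074))
 (.l (nat_lit 0xca00b)))
 (.l (nat_lit 0xa0195)))))

def a256_81 : TA := .n a512_81 a512_337

def a512_209 : TA :=
 .n (.n (.n (.n (.n (.l (nat_lit 0x1400a0))
 (.l (nat_lit 0xa5047)))
 (.n (.l (nat_lit 0xca2a4))
 (.l (nat_lit 0xc88a970540000c))))
 (.n (.n (.l (nat_lit 0x106236))
 (.l (nat_lit 0xe8077)))
 (.l (nat_lit 0xa22c6))))
 (.n (.n (.n (.l (nat_lit 0xca0e5))
 (.l (nat_lit 0x1462f4)))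
 (.l (nat_lit 0xa4017)))
 (.n (.n (.l (nat_lit 0x41025))
 (.l (nat_lit 0x45053)))
 (.l (nat_lit 0x1212d5)))))
 (.n (.n (.n (.n (.l (nat_lit 0x16a076))
 (.l (nat_lit 0x82057)))
 (.l (nat_lit 0x12b234)))
 (.n (.n (.l (nat_lit 0xa3015))
 (.l (nat_lit 0x14b1c7)))
 (.l (nat_lit 0x4b116))))
 (.n (.n (.n (.l (nat_lit 0x681c6))
 (.l (nat_lit 0xc8226)))
 (.l (nat_lit 0xe01e4)))
 (.n (.n (.l (nat_lit 0x49005))
 (.l (nat_lit 0xb40009)))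
 (.l (nat_lit 0xe4125)))))

def a512_465 : TA :=
 .n (.n (.n (.n (.n (.l (nat_lit 0x40230))
 (.l (nat_lit 0xab2e4)))
 (.l (nat_lit 0xe3066)))
 (.n (.n (.l (nat_lit 0x5014))
 (.l (nat_lit 0x4b107)))
 (.l (nat_lit 0x12a1e4))))
 (.n (.n (.n (.l (nat_lit 0x102064))
 (.l (nat_lit 0xc1067)))
 (.l (nat_lit 0x49164)))
 (.n (.n (.l (nat_lit 0xaa035))
 (.l (nat_lit 0x1481c3)))
 (.l (nat_lit 0x10b264)))))
 (.n (.n (.n (.n (.l (nat_lit 0x41006))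
 (.l (nat_lit 0xa2286)))
 (.l (nat_lit 0x4a0f5)))
 (.n (.n (.l (nat_lit 0xa6074))
 (.l (nat_lit 0xc12a7)))
 (.l (nat_lit 0x1251f5))))
 (.n (.n (.n (.l (nat_lit 0x163024))
 (.l (nat_lit 0x65144)))
 (.l (nat_lit 0x162254)))
 (.n (.n (.l (nat_lit 0xa5046))
 (.l (nat_lit 0x16260cad100600c)))
 (.l (nat_lit 0x143124)))))

def a256_209 : TA := .n a512_209 a512_465

def a128_81 : TA := .n a256_81 a256_209

def a64_17 : TA := .n a128_17 a128_81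

def a512_49 : TA :=
 .n (.n (.n (.n (.n (.l (nat_lit 0x140020))
 (.l (nat_lit 0xa6275)))
 (.n (.l (nat_lit 0xa9064))
 (.l (nat_lit 0x216ac0cd42600c))))
 (.n (.n (.l (nat_lit 0x167236))
 (.l (nat_lit 0xc8224)))
 (.l (nat_lit 0x1291e6))))
 (.n (.n (.n (.l (nat_lit 0x14b0e6))
 (.l (nat_lit 0x5057)))
 (.l (nat_lit 0x10a166)))
 (.n (.n (.l (nat_lit 0xe2025))
 (.l (nat_lit 0xca2c7)))
 (.l (nat_lit 0x1230a4)))))
 (.n (.n (.n (.n (.l (nat_lit 0x2b0))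
 (.l (nat_lit 0xe40c5)))
 (.l (nat_lit 0xcb024)))
 (.n (.n (.l (nat_lit 0x672a6))
 (.l (nat_lit 0x48157)))
 (.l (nat_lit 0x230a6))))
 (.n (.n (.n (.l (nat_lit 0x4a156))
 (.l (nat_lit 0xa7146)))
 (.l (nat_lit 0x12a084)))
 (.n (.n (.l (nat_lit 0xa0035))
 (.l (nat_lit 0x1492a3)))
 (.l (nat_lit 0x80204)))))

def a512_305 : TA :=
 .n (.n (.n (.n (.n (.l (nat_lit 0xc0130))
 (.l (nat_lit 0xe60b4)))
 (.l (nat_lit 0x105056)))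
 (.n (.n (.l (nat_lit 0x164024))
 (.l (nat_lit 0xca0a7)))
 (.l (nat_lit 0x16a2c5))))
 (.n (.n (.n (.l (nat_lit 0xc0156))
 (.l (nat_lit 0x48057)))
 (.l (nat_lit 0x292b6)))
 (.n (.n (.l (nat_lit 0xe8004))
 (.l (nat_lit 0x1470b3)))
 (.l (nat_lit 0x12b2d6)))))
 (.n (.n (.n (.n (.l (nat_lit 0x142076))
 (.l (nat_lit 0xc71a5)))
 (.l (nat_lit 0x43086)))
 (.n (.n (.l (nat_lit 0xc6234))
 (.l (nat_lit 0x161227)))
 (.l (nat_lit 0x60186))))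
 (.n (.n (.n (.l (nat_lit 0x43064))
 (.l (nat_lit 0xa1296)))
 (.l (nat_lit 0x64105)))
 (.n (.n (.l (nat_lit 0xc7046))
 (.l (nat_lit 0x14700b)))
 (.l (nat_lit 0x6b196)))))

def a256_49 : TA := .n a512_49 a512_305

def a512_177 : TA :=
 .n (.n (.n (.n (.n (.l (nat_lit 0x680072))
 (.l (nat_lit 0xe62e5)))
 (.n (.l (nat_lit 0x4a074))
 (.l (nat_lit 0x1086a90e540600c))))
 (.n (.n (.l (nat_lit 0xa0236))
 (.l (nat_lit 0x64077)))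
 (.l (nat_lit 0x12a256))))
 (.n (.n (.n (.l (nat_lit 0x670e6))
 (.l (nat_lit 0x6057)))
 (.l (nat_lit 0xa1246)))
 (.n (.n (.l (nat_lit 0x147054))
 (.l (nat_lit 0xc4043)))
 (.l (nat_lit 0x12b266)))))
 (.n (.n (.n (.n (.l (nat_lit 0xc8075))
 (.l (nat_lit 0xc6135)))
 (.l (nat_lit 0xa9065)))
 (.n (.n (.l (nat_lit 0x1015))
 (.l (nat_lit 0xe81c7)))
 (.l (nat_lit 0x41037))))
 (.n (.n (.n (.l (nat_lit 0x1251c5))
 (.l (nat_lit 0x103067)))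
 (.l (nat_lit 0x109095)))
 (.n (.n (.l (nat_lit 0x1681c4))
 (.l (nat_lit 0x1b00009)))
 (.l (nat_lit 0x12b126)))))

def a512_433 : TA :=
 .n (.n (.n (.n (.n (.l (nat_lit 0x200))
 (.l (nat_lit 0x12b047)))
 (.l (nat_lit 0x1065)))
 (.n (.n (.l (nat_lit 0x12a2a6))
 (.l (nat_lit 0x14b0e7)))
 (.l (nat_lit 0x8a2c4))))
 (.n (.n (.n (.l (nat_lit 0x82014))
 (.l (nat_lit 0xc80d6)))
 (.l (nat_lit 0xa8164)))
 (.n (.n (.l (nat_lit 0x5035))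
 (.l (nat_lit 0x1041a3)))
 (.l (nat_lit 0x8b037)))))
 (.n (.n (.n (.n (.l (nat_lit 0x160024))
 (.l (nat_lit 0x123134)))
 (.l (nat_lit 0xa40f5)))
 (.n (.n (.l (nat_lit 0x9016))
 (.l (nat_lit 0x6a267)))
 (.l (nat_lit 0x1222d4))))
 (.n (.n (.n (.l (nat_lit 0xe4004))
 (.l (nat_lit 0x851b4)))
 (.l (nat_lit 0xa5175)))
 (.n (.n (.l (nat_lit 0x162045))
 (.l (nat_lit 0xea81d2d102000c)))
 (.l (nat_lit 0x106206)))))

def a256_177 : TA := .n a512_177 a512_433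

def a128_49 : TA := .n a256_49 a256_177

def a512_113 : TA :=
 .n (.n (.n (.n (.n (.l (nat_lit 0x50))
 (.l (nat_lit 0x67275)))
 (.n (.l (nat_lit 0x84056))
 (.l (nat_lit 0xd035a8e900000c))))
 (.n (.n (.l (nat_lit 0x1040e4))
 (.l (nat_lit 0x490d4)))
 (.l (nat_lit 0x16a255))))
 (.n (.n (.n (.l (nat_lit 0xc1064))
 (.l (nat_lit 0x412f6)))
 (.l (nat_lit 0x1032b4)))
 (.n (.n (.l (nat_lit 0x4b026))
 (.l (nat_lit 0x2023)))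
 (.l (nat_lit 0x84114)))))
 (.n (.n (.n (.n (.l (nat_lit 0x100004))
 (.l (nat_lit 0x87135)))
 (.l (nat_lit 0x103065)))
 (.n (.n (.l (nat_lit 0x651c4))
 (.l (nat_lit 0x1641a7)))
 (.l (nat_lit 0x30a6))))
 (.n (.n (.n (.l (nat_lit 0x22044))
 (.l (nat_lit 0x1281b5)))
 (.l (nat_lit 0x8b096)))
 (.n (.n (.l (nat_lit 0x46035))
 (.l (nat_lit 0xa40009)))
 (.l (nat_lit 0x4b0b5)))))

def a512_369 : TA :=
 .n (.n (.n (.n (.n (.l (nat_lit 0xa80182))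
 (.l (nat_lit 0x47274)))
 (.l (nat_lit 0xaa154)))
 (.n (.n (.l (nat_lit 0xc32a6))
 (.l (nat_lit 0x450e7)))
 (.l (nat_lit 0xe9104))))
 (.n (.n (.n (.l (nat_lit 0x68155))
 (.l (nat_lit 0xc70d5)))
 (.l (nat_lit 0x1650f4)))
 (.n (.n (.l (nat_lit 0x48006))
 (.l (nat_lit 0xcb103)))
 (.l (nat_lit 0xa0a4)))))
 (.n (.n (.n (.n (.l (nat_lit 0x29075))
 (.l (nat_lit 0x127216)))
 (.l (nat_lit 0x440f5)))
 (.n (.n (.l (nat_lit 0xa1016))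
 (.l (nat_lit 0xe7237)))
 (.l (nat_lit 0x140185))))
 (.n (.n (.n (.l (nat_lit 0x1661c5))
 (.l (nat_lit 0xa2295)))
 (.l (nat_lit 0x100176)))
 (.n (.n (.l (nat_lit 0x49014))
 (.l (nat_lit 0x12a2198d102000c)))
 (.l (nat_lit 0x26195)))))

def a256_113 : TA := .n a512_113 a512_369

def a512_241 : TA :=
 .n (.n (.n (.n (.n (.l (nat_lit 0x1400d0))
 (.l (nat_lit 0x72e6)))
 (.n (.l (nat_lit 0x16a006))
 (.l (nat_lit 0xcc0a962542000c))))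
 (.n (.n (.l (nat_lit 0x109235))
 (.l (nat_lit 0x16b077)))
 (.l (nat_lit 0x45104))))
 (.n (.n (.n (.l (nat_lit 0x1611c4))
 (.l (nat_lit 0x471a4)))
 (.l (nat_lit 0xc9245)))
 (.n (.n (.l (nat_lit 0x163026))
 (.l (nat_lit 0x107063)))
 (.l (nat_lit 0x85114)))))
 (.n (.n (.n (.n (.l (nat_lit 0x40234))
 (.l (nat_lit 0x471a6)))
 (.l (nat_lit 0x2085)))
 (.n (.n (.l (nat_lit 0x148015))
 (.l (nat_lit 0x6b1f7)))
 (.l (nat_lit 0x4116))))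
 (.n (.n (.n (.l (nat_lit 0xcb1c5))
 (.l (nat_lit 0xa3067)))
 (.l (nat_lit 0x85106)))
 (.n (.n (.l (nat_lit 0xe1046))
 (.l (nat_lit 0x4200a)))
 (.l (nat_lit 0xab125)))))

def a512_497 : TA :=
 .n (.n (.n (.n (.n (.l (nat_lit 0x80250))
 (.l (nat_lit 0x260c5)))
 (.l (nat_lit 0x167065)))
 (.n (.n (.l (nat_lit 0x85064))
 (.l (nat_lit 0xe5127)))
 (.l (nat_lit 0xb174))))
 (.n (.n (.n (.l (nat_lit 0x24156))
 (.l (nat_lit 0xe7145)))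
 (.l (nat_lit 0xe9084)))
 (.n (.n (.l (nat_lit 0x1080e4))
 (.l (nat_lit 0xb233)))
 (.l (nat_lit 0x2b1f4)))))
 (.n (.n (.n (.n (.l (nat_lit 0xc50e6))
 (.l (nat_lit 0x144134)))
 (.l (nat_lit 0x108165)))
 (.n (.n (.l (nat_lit 0x1262a4))
 (.l (nat_lit 0x1462a7)))
 (.l (nat_lit 0xc32d4))))
 (.n (.n (.n (.l (nat_lit 0x44006))
 (.l (nat_lit 0x107144)))
 (.l (nat_lit 0xe91e5)))
 (.n (.n (.l (nat_lit 0x10b046))
 (.l (nat_lit 0xc18a870d42600c)))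
 (.l (nat_lit 0x86205)))))

def a256_241 : TA := .n a512_241 a512_497

def a128_113 : TA := .n a256_113 a256_241

def a64_49 : TA := .n a128_49 a128_113

def a32_17 : TA := .n a64_17 a64_49

def a16_1 : TA := .n a32_1 a32_17

def a512_9 : TA :=
 .n (.n (.n (.n (.n (.l (nat_lit 0x800002))
 (.l (nat_lit 0xa30b4)))
 (.n (.l (nat_lit 0x1290e4))
 (.l (nat_lit 0x1016a88cd42000c))))
 (.n (.n (.l (nat_lit 0x61236))
 (.l (nat_lit 0x167144)))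
 (.l (nat_lit 0x103094))))
 (.n (.n (.n (.l (nat_lit 0x1670e5))
 (.l (nat_lit 0x61285)))
 (.l (nat_lit 0xc2084)))
 (.n (.n (.l (nat_lit 0x107005))
 (.l (nat_lit 0x1682a7)))
 (.l (nat_lit 0x211f5)))))
 (.n (.n (.n (.n (.l (nat_lit 0x140280))
 (.l (nat_lit 0x80214)))
 (.l (nat_lit 0x169066)))
 (.n (.n (.l (nat_lit 0xa12a6))
 (.l (nat_lit 0xc4157)))
 (.l (nat_lit 0xab027))))
 (.n (.n (.n (.l (nat_lit 0x26155))
 (.l (nat_lit 0xc1294)))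
 (.l (nat_lit 0xe9244)))
 (.n (.n (.l (nat_lit 0x1082a4))
 (.l (nat_lit 0x102263)))
 (.l (nat_lit 0x30b5)))))

def a512_265 : TA :=
 .n (.n (.n (.n (.n (.l (nat_lit 0x1000f0))
 (.l (nat_lit 0x165204)))
 (.l (nat_lit 0x161056)))
 (.n (.n (.l (nat_lit 0x6b236))
 (.l (nat_lit 0x164097)))
 (.l (nat_lit 0x822c6))))
 (.n (.n (.n (.l (nat_lit 0x161024))
 (.l (nat_lit 0xa7057)))
 (.l (nat_lit 0x1640f4)))
 (.n (.n (.l (nat_lit 0x165025))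
 (.l (nat_lit 0xa073)))
 (.l (nat_lit 0xc12d6)))))
 (.n (.n (.n (.n (.l (nat_lit 0x40044))
 (.l (nat_lit 0xa2057)))
 (.l (nat_lit 0x104086)))
 (.n (.n (.l (nat_lit 0x14a016))
 (.l (nat_lit 0x47207)))
 (.l (nat_lit 0x8a115))))
 (.n (.n (.n (.l (nat_lit 0xc30e4))
 (.l (nat_lit 0xa8225)))
 (.l (nat_lit 0x4b106)))
 (.n (.n (.l (nat_lit 0x163046))
 (.l (nat_lit 0x8400a)))
 (.l (nat_lit 0x102047)))))

def a256_9 : TA := .n a512_9 a512_265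

def a512_137 : TA :=
 .n (.n (.n (.n (.n (.l (nat_lit 0x60))
 (.l (nat_lit 0x124194)))
 (.n (.l (nat_lit 0xc6055))
 (.l (nat_lit 0xd094a86c02000c))))
 (.n (.n (.l (nat_lit 0x104034))
 (.l (nat_lit 0x89294)))
 (.l (nat_lit 0x20256))))
 (.n (.n (.n (.l (nat_lit 0xe30e6))
 (.l (nat_lit 0xc32f5)))
 (.l (nat_lit 0x1091d6)))
 (.n (.n (.l (nat_lit 0x470e4))
 (.l (nat_lit 0x80033)))
 (.l (nat_lit 0x81266)))))
 (.n (.n (.n (.n (.l (nat_lit 0x123076))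
 (.l (nat_lit 0x101214)))
 (.l (nat_lit 0x105065)))
 (.n (.n (.l (nat_lit 0x65044))
 (.l (nat_lit 0x1611c7)))
 (.l (nat_lit 0x460a6))))
 (.n (.n (.n (.l (nat_lit 0x3006))
 (.l (nat_lit 0x241b6)))
 (.l (nat_lit 0x160027)))
 (.n (.n (.l (nat_lit 0x4b036))
 (.l (nat_lit 0xa80009)))
 (.l (nat_lit 0xc1047)))))

def a512_393 : TA :=
 .n (.n (.n (.n (.n (.l (nat_lit 0x1001c1))
 (.l (nat_lit 0xa7194)))
 (.l (nat_lit 0xaa014)))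
 (.n (.n (.l (nat_lit 0xc72a5))
 (.l (nat_lit 0x670e7)))
 (.l (nat_lit 0x1292c4))))
 (.n (.n (.n (.l (nat_lit 0xea155))
 (.l (nat_lit 0x401b4)))
 (.l (nat_lit 0x1480f4)))
 (.n (.n (.l (nat_lit 0x61036))
 (.l (nat_lit 0x46153)))
 (.l (nat_lit 0x8a264)))))
 (.n (.n (.n (.n (.l (nat_lit 0x6b075))
 (.l (nat_lit 0x100216)))
 (.l (nat_lit 0x490f5)))
 (.n (.n (.l (nat_lit 0xa3016))
 (.l (nat_lit 0xe9237)))
 (.l (nat_lit 0x165185))))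
 (.n (.n (.n (.l (nat_lit 0x1681c5))
 (.l (nat_lit 0x109295)))
 (.l (nat_lit 0xca175)))
 (.n (.n (.l (nat_lit 0x69006))
 (.l (nat_lit 0xea95c0d100600c)))
 (.l (nat_lit 0xa20b4)))))

def a256_137 : TA := .n a512_137 a512_393

def a128_9 : TA := .n a256_9 a256_137

def a512_73 : TA :=
 .n (.n (.n (.n (.n (.l (nat_lit 0x100031))
 (.l (nat_lit 0x84194)))
 (.n (.l (nat_lit 0xa0055))
 (.l (nat_lit 0xd588872900600c))))
 (.n (.n (.l (nat_lit 0xa235))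
 (.l (nat_lit 0xe80d4)))
 (.l (nat_lit 0x123094))))
 (.n (.n (.n (.l (nat_lit 0x141234))
 (.l (nat_lit 0x832f6)))
 (.l (nat_lit 0x103017)))
 (.n (.n (.l (nat_lit 0xe4025))
 (.l (nat_lit 0x141013)))
 (.l (nat_lit 0xa1266)))))
 (.n (.n (.n (.n (.l (nat_lit 0x802d0))
 (.l (nat_lit 0x601a4)))
 (.l (nat_lit 0xeb006)))
 (.n (.n (.l (nat_lit 0x692a5))
 (.l (nat_lit 0x4a157)))
 (.l (nat_lit 0x6a0a6))))
 (.n (.n (.n (.l (nat_lit 0xa3004))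
 (.l (nat_lit 0x2067)))
 (.l (nat_lit 0xc2095)))
 (.n (.n (.l (nat_lit 0xa2035))
 (.l (nat_lit 0x2a00009)))
 (.l (nat_lit 0x830b6)))))

def a512_329 : TA :=
 .n (.n (.n (.n (.n (.l (nat_lit 0x400152))
 (.l (nat_lit 0xe6274)))
 (.l (nat_lit 0x107056)))
 (.n (.n (.l (nat_lit 0x164064))
 (.l (nat_lit 0xc20d7)))
 (.l (nat_lit 0x49094))))
 (.n (.n (.n (.l (nat_lit 0xc5155))
 (.l (nat_lit 0xe8134)))
 (.l (nat_lit 0x222b5)))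
 (.n (.n (.l (nat_lit 0xe71c4))
 (.l (nat_lit 0x470e3)))
 (.l (nat_lit 0x1060a4)))))
 (.n (.n (.n (.n (.l (nat_lit 0x144075))
 (.l (nat_lit 0xe22f4)))
 (.l (nat_lit 0xa8086)))
 (.n (.n (.l (nat_lit 0xc6054))
 (.l (nat_lit 0x160237)))
 (.l (nat_lit 0xc6186))))
 (.n (.n (.n (.l (nat_lit 0x601c5))
 (.l (nat_lit 0x128296)))
 (.l (nat_lit 0x10a105)))
 (.n (.n (.l (nat_lit 0xca004))
 (.l (nat_lit 0x14900b)))
 (.l (nat_lit 0x122047)))))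

def a256_73 : TA := .n a512_73 a512_329

def a512_201 : TA :=
 .n (.n (.n (.n (.n (.l (nat_lit 0x140091))
 (.l (nat_lit 0x5194)))
 (.n (.l (nat_lit 0x4a234))
 (.l (nat_lit 0xd02a970520000c))))
 (.n (.n (.l (nat_lit 0xa2235))
 (.l (nat_lit 0x48077)))
 (.l (nat_lit 0x22c5))))
 (.n (.n (.n (.l (nat_lit 0x690e6))
 (.l (nat_lit 0xc6284)))
 (.l (nat_lit 0x40f4)))
 (.n (.n (.l (nat_lit 0x140025))
 (.l (nat_lit 0x140053)))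
 (.l (nat_lit 0x12d5)))))
 (.n (.n (.n (.n (.l (nat_lit 0xca076))
 (.l (nat_lit 0x212f4)))
 (.l (nat_lit 0xab1c4)))
 (.n (.n (.l (nat_lit 0x3015))
 (.l (nat_lit 0xea1c7)))
 (.l (nat_lit 0x105116))))
 (.n (.n (.n (.l (nat_lit 0x1271c6))
 (.l (nat_lit 0x27226)))
 (.l (nat_lit 0x14b095)))
 (.n (.n (.l (nat_lit 0x168054))
 (.l (nat_lit 0x1b40009)))
 (.l (nat_lit 0x44126)))))

def a512_457 : TA :=
 .n (.n (.n (.n (.n (.l (nat_lit 0x220))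
 (.l (nat_lit 0x2b274)))
 (.l (nat_lit 0x3066)))
 (.n (.n (.l (nat_lit 0x105154))
 (.l (nat_lit 0x1480f7)))
 (.l (nat_lit 0xaa174))))
 (.n (.n (.n (.l (nat_lit 0x82054))
 (.l (nat_lit 0x60294)))
 (.l (nat_lit 0x149084)))
 (.n (.n (.l (nat_lit 0xa035))
 (.l (nat_lit 0x471c3)))
 (.l (nat_lit 0x8b1f4)))))
 (.n (.n (.n (.n (.l (nat_lit 0x160064))
 (.l (nat_lit 0x21286)))
 (.l (nat_lit 0x1090f6)))
 (.n (.n (.l (nat_lit 0x27004))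
 (.l (nat_lit 0x48297)))
 (.l (nat_lit 0x1211f6))))
 (.n (.n (.n (.l (nat_lit 0xe3014))
 (.l (nat_lit 0x148305)))
 (.l (nat_lit 0xe2094)))
 (.n (.n (.l (nat_lit 0x164046))
 (.l (nat_lit 0x1602ec0d100000c)))
 (.l (nat_lit 0x430b4)))))

def a256_201 : TA := .n a512_201 a512_457

def a128_73 : TA := .n a256_73 a256_201

def a64_9 : TA := .n a128_9 a128_73

def a512_41 : TA :=
 .n (.n (.n (.n (.n (.l (nat_lit 0x8c0012))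
 (.l (nat_lit 0x6275)))
 (.n (.l (nat_lit 0x29024))
 (.l (nat_lit 0x102a588cd40600c))))
 (.n (.n (.l (nat_lit 0xc7236))
 (.l (nat_lit 0x481b4)))
 (.l (nat_lit 0x611e5))))
 (.n (.n (.n (.l (nat_lit 0xea0e6))
 (.l (nat_lit 0x124134)))
 (.l (nat_lit 0x29166)))
 (.n (.n (.l (nat_lit 0x42025))
 (.l (nat_lit 0x432c7)))
 (.l (nat_lit 0xab1f6)))))
 (.n (.n (.n (.n (.l (nat_lit 0x6402a2))
 (.l (nat_lit 0x40c5)))
 (.l (nat_lit 0x4b2a4)))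
 (.n (.n (.l (nat_lit 0x1062a6))
 (.l (nat_lit 0x147157)))
 (.l (nat_lit 0x1220a5))))
 (.n (.n (.n (.l (nat_lit 0x149156))
 (.l (nat_lit 0xe4145)))
 (.l (nat_lit 0xaa017)))
 (.n (.n (.l (nat_lit 0x35))
 (.l (nat_lit 0xc82a3)))
 (.l (nat_lit 0xe70b5)))))

def a512_297 : TA :=
 .n (.n (.n (.n (.n (.l (nat_lit 0x80120))
 (.l (nat_lit 0x462e4)))
 (.l (nat_lit 0xa4055)))
 (.n (.n (.l (nat_lit 0xe4014))
 (.l (nat_lit 0x660a7)))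
 (.l (nat_lit 0xca2c5))))
 (.n (.n (.n (.l (nat_lit 0x42006))
 (.l (nat_lit 0x167284)))
 (.l (nat_lit 0x1282b6)))
 (.n (.n (.l (nat_lit 0x6b025))
 (.l (nat_lit 0x8a0a3)))
 (.l (nat_lit 0x8b2d6)))))
 (.n (.n (.n (.n (.l (nat_lit 0xe0004))
 (.l (nat_lit 0x461a5)))
 (.l (nat_lit 0x160017)))
 (.n (.n (.l (nat_lit 0x461c4))
 (.l (nat_lit 0xc1227)))
 (.l (nat_lit 0x1212d4))))
 (.n (.n (.n (.l (nat_lit 0x143044))
 (.l (nat_lit 0x1295)))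
 (.l (nat_lit 0x123106)))
 (.n (.n (.l (nat_lit 0x66046))
 (.l (nat_lit 0x700a)))
 (.l (nat_lit 0x87196)))))

def a256_41 : TA := .n a512_41 a512_297

def a512_169 : TA :=
 .n (.n (.n (.n (.n (.l (nat_lit 0x400072))
 (.l (nat_lit 0x462e5)))
 (.n (.l (nat_lit 0x168056))
 (.l (nat_lit 0x540ea22560600c))))
 (.n (.n (.l (nat_lit 0x236))
 (.l (nat_lit 0x143077)))
 (.l (nat_lit 0x169255))))
 (.n (.n (.n (.l (nat_lit 0x1460e5))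
 (.l (nat_lit 0x1251a4)))
 (.l (nat_lit 0x1245)))
 (.n (.n (.l (nat_lit 0xc7044))
 (.l (nat_lit 0x100043)))
 (.l (nat_lit 0x8b266)))))
 (.n (.n (.n (.n (.l (nat_lit 0x67075))
 (.l (nat_lit 0x25135)))
 (.l (nat_lit 0x9065)))
 (.n (.n (.l (nat_lit 0xc6004))
 (.l (nat_lit 0x481c7)))
 (.l (nat_lit 0x1601f4))))
 (.n (.n (.n (.l (nat_lit 0x851c5))
 (.l (nat_lit 0xa2304)))
 (.l (nat_lit 0xa4095)))
 (.n (.n (.l (nat_lit 0xe8154))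
 (.l (nat_lit 0x2b00009)))
 (.l (nat_lit 0x87125)))))

def a512_425 : TA :=
 .n (.n (.n (.n (.n (.l (nat_lit 0x801f0))
 (.l (nat_lit 0x8b2e4)))
 (.l (nat_lit 0x100065)))
 (.n (.n (.l (nat_lit 0x8a2a6))
 (.l (nat_lit 0xea0e7)))
 (.l (nat_lit 0xa254))))
 (.n (.n (.n (.l (nat_lit 0x22a4))
 (.l (nat_lit 0x640d5)))
 (.l (nat_lit 0x128084)))
 (.n (.n (.l (nat_lit 0x104035))
 (.l (nat_lit 0x4b193)))
 (.l (nat_lit 0x2a2d4)))))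
 (.n (.n (.n (.n (.l (nat_lit 0xe0014))
 (.l (nat_lit 0xa30c4)))
 (.l (nat_lit 0x161017)))
 (.n (.n (.l (nat_lit 0x108016))
 (.l (nat_lit 0x14b257)))
 (.l (nat_lit 0xa2264))))
 (.n (.n (.n (.l (nat_lit 0x6b1c6))
 (.l (nat_lit 0x103306)))
 (.l (nat_lit 0x5176)))
 (.n (.n (.l (nat_lit 0xc2045))
 (.l (nat_lit 0x6a7488d400600c)))
 (.l (nat_lit 0x61206)))))

def a256_169 : TA := .n a512_169 a512_425

def a128_41 : TA := .n a256_41 a256_169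

def a512_105 : TA :=
 .n (.n (.n (.n (.n (.l (nat_lit 0x840042))
 (.l (nat_lit 0x166276)))
 (.n (.l (nat_lit 0x143056))
 (.l (nat_lit 0xd02988ec02000c))))
 (.n (.n (.l (nat_lit 0x84074))
 (.l (nat_lit 0x168304)))
 (.l (nat_lit 0xa9256))))
 (.n (.n (.n (.l (nat_lit 0x41054))
 (.l (nat_lit 0x145214)))
 (.l (nat_lit 0x103084)))
 (.n (.n (.l (nat_lit 0x14a025))
 (.l (nat_lit 0x10a013)))
 (.l (nat_lit 0x40a4)))))
 (.n (.n (.n (.n (.l (nat_lit 0x80006))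
 (.l (nat_lit 0x124136)))
 (.l (nat_lit 0x62066)))
 (.n (.n (.l (nat_lit 0x1650e4))
 (.l (nat_lit 0xc7197)))
 (.l (nat_lit 0x120037))))
 (.n (.n (.n (.l (nat_lit 0x122024))
 (.l (nat_lit 0x881b5)))
 (.l (nat_lit 0x2a096)))
 (.n (.n (.l (nat_lit 0x145036))
 (.l (nat_lit 0x1a40009)))
 (.l (nat_lit 0x1260b6)))))

def a512_361 : TA :=
 .n (.n (.n (.n (.n (.l (nat_lit 0x80180))
 (.l (nat_lit 0x147194)))
 (.l (nat_lit 0x2a0e4)))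
 (.n (.n (.l (nat_lit 0x622a6))
 (.l (nat_lit 0x1430e7)))
 (.l (nat_lit 0x169027))))
 (.n (.n (.n (.l (nat_lit 0x167156))
 (.l (nat_lit 0x640d6)))
 (.l (nat_lit 0xe92b5)))
 (.n (.n (.l (nat_lit 0x167064))
 (.l (nat_lit 0x9103)))
 (.l (nat_lit 0x126264)))))
 (.n (.n (.n (.n (.l (nat_lit 0x128076))
 (.l (nat_lit 0x87216)))
 (.l (nat_lit 0x160244)))
 (.n (.n (.l (nat_lit 0x160015))
 (.l (nat_lit 0x66237)))
 (.l (nat_lit 0x822d4))))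
 (.n (.n (.n (.l (nat_lit 0xc61c5))
 (.l (nat_lit 0x21295)))
 (.l (nat_lit 0x82027)))
 (.n (.n (.l (nat_lit 0x149234))
 (.l (nat_lit 0x12868d8d100600c)))
 (.l (nat_lit 0x125195)))))

def a256_105 : TA := .n a512_105 a512_361

def a512_233 : TA :=
 .n (.n (.n (.n (.n (.l (nat_lit 0x1400c1))
 (.l (nat_lit 0x1062e6)))
 (.n (.l (nat_lit 0xea005))
 (.l (nat_lit 0x15085ab0320000c))))
 (.n (.n (.l (nat_lit 0xa8235))
 (.l (nat_lit 0xcb077)))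
 (.l (nat_lit 0x10a2c6))))
 (.n (.n (.n (.l (nat_lit 0xe2004))
 (.l (nat_lit 0x1470c4)))
 (.l (nat_lit 0x162245)))
 (.n (.n (.l (nat_lit 0x83026))
 (.l (nat_lit 0x84063)))
 (.l (nat_lit 0x2b2d5)))))
 (.n (.n (.n (.n (.l (nat_lit 0x140154))
 (.l (nat_lit 0x1251a6)))
 (.l (nat_lit 0x12b044)))
 (.n (.n (.l (nat_lit 0xe5016))
 (.l (nat_lit 0x1611f7)))
 (.l (nat_lit 0x1012d4))))
 (.n (.n (.n (.l (nat_lit 0x6a1c5))
 (.l (nat_lit 0x103144)))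
 (.l (nat_lit 0x144105)))
 (.n (.n (.l (nat_lit 0x41046))
 (.l (nat_lit 0xc100a)))
 (.l (nat_lit 0x7126)))))

def a512_489 : TA :=
 .n (.n (.n (.n (.n (.l (nat_lit 0x40240))
 (.l (nat_lit 0xe30c6)))
 (.l (nat_lit 0xc7065)))
 (.n (.n (.l (nat_lit 0x5054))
 (.l (nat_lit 0x45127)))
 (.l (nat_lit 0x10b094))))
 (.n (.n (.n (.l (nat_lit 0x120155))
 (.l (nat_lit 0x125146)))
 (.l (nat_lit 0x69017)))
 (.n (.n (.l (nat_lit 0x88074))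
 (.l (nat_lit 0xc0233)))
 (.l (nat_lit 0x12b114)))))
 (.n (.n (.n (.n (.l (nat_lit 0x640e6))
 (.l (nat_lit 0xc40c4)))
 (.l (nat_lit 0xa5166)))
 (.n (.n (.l (nat_lit 0xa6234))
 (.l (nat_lit 0xe32a7)))
 (.l (nat_lit 0x30a4))))
 (.n (.n (.n (.l (nat_lit 0x163064))
 (.l (nat_lit 0x470d4)))
 (.l (nat_lit 0x1601e6)))
 (.n (.n (.l (nat_lit 0xa7045))
 (.l (nat_lit 0x2568cac140600c)))
 (.l (nat_lit 0x21205)))))

def a256_233 : TA := .n a512_233 a512_489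

def a128_105 : TA := .n a256_105 a256_233

def a64_41 : TA := .n a128_41 a128_105

def a32_9 : TA := .n a64_9 a64_41

def a512_25 : TA :=
 .n (.n (.n (.n (.n (.l (nat_lit 0x100010))
 (.l (nat_lit 0x21276)))
 (.n (.l (nat_lit 0xa9234))
 (.l (nat_lit 0x1026688cd42600c))))
 (.n (.n (.l (nat_lit 0x162236))
 (.l (nat_lit 0xc8067)))
 (.l (nat_lit 0xc01e6))))
 (.n (.n (.n (.l (nat_lit 0xc90e5))
 (.l (nat_lit 0x27285)))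
 (.l (nat_lit 0x45166)))
 (.n (.n (.l (nat_lit 0xa0026))
 (.l (nat_lit 0xca2a7)))
 (.l (nat_lit 0x8a1f6)))))
 (.n (.n (.n (.n (.l (nat_lit 0xb00292))
 (.l (nat_lit 0x620c6)))
 (.l (nat_lit 0xcb154)))
 (.n (.n (.l (nat_lit 0x32a5))
 (.l (nat_lit 0x46157)))
 (.l (nat_lit 0x37))))
 (.n (.n (.n (.l (nat_lit 0x167155))
 (.l (nat_lit 0x103146)))
 (.l (nat_lit 0x4a0f4)))
 (.n (.n (.l (nat_lit 0x88064))
 (.l (nat_lit 0xc32a3)))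
 (.l (nat_lit 0x1460b5)))))

def a512_281 : TA :=
 .n (.n (.n (.n (.n (.l (nat_lit 0x600102))
 (.l (nat_lit 0xc6194)))
 (.l (nat_lit 0x103055)))
 (.n (.n (.l (nat_lit 0x164074))
 (.l (nat_lit 0xc40a7)))
 (.l (nat_lit 0xe32c5))))
 (.n (.n (.n (.l (nat_lit 0xe1054))
 (.l (nat_lit 0x671a4)))
 (.l (nat_lit 0x1422b5)))
 (.n (.n (.l (nat_lit 0xca026))
 (.l (nat_lit 0x42093)))
 (.l (nat_lit 0xa22d5)))))
 (.n (.n (.n (.n (.l (nat_lit 0x140064))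
 (.l (nat_lit 0xa41a6)))
 (.l (nat_lit 0x109086)))
 (.n (.n (.l (nat_lit 0xc6074))
 (.l (nat_lit 0x16b207)))
 (.l (nat_lit 0x211f4))))
 (.n (.n (.n (.l (nat_lit 0x43024))
 (.l (nat_lit 0x4067)))
 (.l (nat_lit 0x1254)))
 (.n (.n (.l (nat_lit 0xc5045))
 (.l (nat_lit 0x10500b)))
 (.l (nat_lit 0xe5196)))))

def a256_25 : TA := .n a512_25 a512_281

def a512_153 : TA :=
 .n (.n (.n (.n (.n (.l (nat_lit 0xa40062))
 (.l (nat_lit 0xc22e5)))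
 (.n (.l (nat_lit 0x67056))
 (.l (nat_lit 0xd521a8ec00600c))))
 (.n (.n (.l (nat_lit 0x84064))
 (.l (nat_lit 0x42077)))
 (.l (nat_lit 0x22255))))
 (.n (.n (.n (.l (nat_lit 0x450e5))
 (.l (nat_lit 0x272f6)))
 (.l (nat_lit 0xa32b4)))
 (.n (.n (.l (nat_lit 0x1471c4))
 (.l (nat_lit 0x4033)))
 (.l (nat_lit 0x62265)))))
 (.n (.n (.n (.n (.l (nat_lit 0x86075))
 (.l (nat_lit 0xa3136)))
 (.l (nat_lit 0xa7066)))
 (.n (.n (.l (nat_lit 0x165064))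
 (.l (nat_lit 0xe61c7)))
 (.l (nat_lit 0x6b0a5))))
 (.n (.n (.n (.l (nat_lit 0x1201c6))
 (.l (nat_lit 0x271b5)))
 (.l (nat_lit 0x103096)))
 (.n (.n (.l (nat_lit 0x169004))
 (.l (nat_lit 0x1ac0009)))
 (.l (nat_lit 0x65126)))))

def a512_409 : TA :=
 .n (.n (.n (.n (.n (.l (nat_lit 0xac01c2))
 (.l (nat_lit 0xcb047)))
 (.l (nat_lit 0xb005)))
 (.n (.n (.l (nat_lit 0xa82a6))
 (.l (nat_lit 0x1680e7)))
 (.l (nat_lit 0x8a104))))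
 (.n (.n (.n (.l (nat_lit 0x83004))
 (.l (nat_lit 0x60067)))
 (.l (nat_lit 0x82b4)))
 (.n (.n (.l (nat_lit 0x3035))
 (.l (nat_lit 0x4a153)))
 (.l (nat_lit 0x6a0a4)))))
 (.n (.n (.n (.n (.l (nat_lit 0x160154))
 (.l (nat_lit 0x105216)))
 (.l (nat_lit 0x1411d4)))
 (.n (.n (.l (nat_lit 0x5015))
 (.l (nat_lit 0x6b237)))
 (.l (nat_lit 0xcb185))))
 (.n (.n (.n (.l (nat_lit 0xca1c6))
 (.l (nat_lit 0xe41b4)))
 (.l (nat_lit 0x82094)))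
 (.n (.n (.l (nat_lit 0x160046))
 (.l (nat_lit 0xea95831100600c)))
 (.l (nat_lit 0x43047)))))

def a256_153 : TA := .n a512_153 a512_409

def a128_25 : TA := .n a256_25 a256_153

def a512_89 : TA :=
 .n (.n (.n (.n (.n (.l (nat_lit 0xb00032))
 (.l (nat_lit 0x61275)))
 (.n (.l (nat_lit 0x42056))
 (.l (nat_lit 0xd41486a102600c))))
 (.n (.n (.l (nat_lit 0x10b235))
 (.l (nat_lit 0x68224)))
 (.l (nat_lit 0x84027))))
 (.n (.n (.n (.l (nat_lit 0xc1024))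
 (.l (nat_lit 0x672f5)))
 (.l (nat_lit 0x1491d5)))
 (.n (.n (.l (nat_lit 0x49025))
 (.l (nat_lit 0x5013)))
 (.l (nat_lit 0x6a265)))))
 (.n (.n (.n (.n (.l (nat_lit 0x1002f0))
 (.l (nat_lit 0x160284)))
 (.l (nat_lit 0x41066)))
 (.n (.n (.l (nat_lit 0x4b2a6))
 (.l (nat_lit 0x16b157)))
 (.l (nat_lit 0x184))))
 (.n (.n (.n (.l (nat_lit 0x222a4))
 (.l (nat_lit 0x641b5)))
 (.l (nat_lit 0x63096)))
 (.n (.n (.l (nat_lit 0x44036))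
 (.l (nat_lit 0xa00009)))
 (.l (nat_lit 0x240b5)))))

def a512_345 : TA :=
 .n (.n (.n (.n (.n (.l (nat_lit 0x80160))
 (.l (nat_lit 0x470b4)))
 (.l (nat_lit 0xa8055)))
 (.n (.n (.l (nat_lit 0xc12a5))
 (.l (nat_lit 0x670d7)))
 (.l (nat_lit 0x49254))))
 (.n (.n (.n (.l (nat_lit 0x66156))
 (.l (nat_lit 0xc20d5)))
 (.l (nat_lit 0x882b5)))
 (.n (.n (.l (nat_lit 0x67044))
 (.l (nat_lit 0x14b0e3)))
 (.l (nat_lit 0x861f4)))))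
 (.n (.n (.n (.n (.l (nat_lit 0x107076))
 (.l (nat_lit 0x60216)))
 (.l (nat_lit 0x6a085)))
 (.n (.n (.l (nat_lit 0x66004))
 (.l (nat_lit 0xc2237)))
 (.l (nat_lit 0x12b186))))
 (.n (.n (.n (.l (nat_lit 0x1611c5))
 (.l (nat_lit 0xa4067)))
 (.l (nat_lit 0xa11e4)))
 (.n (.n (.l (nat_lit 0x49154))
 (.l (nat_lit 0x4b00a)))
 (.l (nat_lit 0x144196)))))

def a256_89 : TA := .n a512_89 a512_345

def a512_217 : TA :=
 .n (.n (.n (.n (.n (.l (nat_lit 0xc00b0))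
 (.l (nat_lit 0x1612e6)))
 (.n (.l (nat_lit 0x14a014))
 (.l (nat_lit 0x148899b0342000c))))
 (.n (.n (.l (nat_lit 0xc7235))
 (.l (nat_lit 0x169077)))
 (.l (nat_lit 0x1232c6))))
 (.n (.n (.n (.l (nat_lit 0x16a0e5))
 (.l (nat_lit 0x660c4)))
 (.l (nat_lit 0x1246)))
 (.n (.n (.l (nat_lit 0xe1025))
 (.l (nat_lit 0x106053)))
 (.l (nat_lit 0x232d6)))))
 (.n (.n (.n (.n (.l (nat_lit 0x6b076))
 (.l (nat_lit 0x241a5)))
 (.l (nat_lit 0x2b024)))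
 (.n (.n (.l (nat_lit 0x144016))
 (.l (nat_lit 0x481d7)))
 (.l (nat_lit 0xeb116))))
 (.n (.n (.n (.l (nat_lit 0xc91c5))
 (.l (nat_lit 0x168226)))
 (.l (nat_lit 0x1027)))
 (.n (.n (.l (nat_lit 0xc9006))
 (.l (nat_lit 0x4000b)))
 (.l (nat_lit 0x65125)))))

def a512_473 : TA :=
 .n (.n (.n (.n (.n (.l (nat_lit 0x200232))
 (.l (nat_lit 0x100057)))
 (.l (nat_lit 0x144066)))
 (.n (.n (.l (nat_lit 0x85024))
 (.l (nat_lit 0xc4117)))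
 (.l (nat_lit 0x2a2c4))))
 (.n (.n (.n (.l (nat_lit 0x22006))
 (.l (nat_lit 0x4145)))
 (.l (nat_lit 0xc91d4)))
 (.n (.n (.l (nat_lit 0x10b035))
 (.l (nat_lit 0xca1f3)))
 (.l (nat_lit 0x2b037)))))
 (.n (.n (.n (.n (.l (nat_lit 0xc30e5))
 (.l (nat_lit 0x106285)))
 (.l (nat_lit 0x121244)))
 (.n (.n (.l (nat_lit 0x1260e4))
 (.l (nat_lit 0x1612a7)))
 (.l (nat_lit 0x6a1f5))))
 (.n (.n (.n (.l (nat_lit 0x63044))
 (.l (nat_lit 0xe51b4)))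
 (.l (nat_lit 0x43027)))
 (.n (.n (.l (nat_lit 0x106046))
 (.l (nat_lit 0x2560bb0562600c)))
 (.l (nat_lit 0x40206)))))

def a256_217 : TA := .n a512_217 a512_473

def a128_89 : TA := .n a256_89 a256_217

def a64_25 : TA := .n a128_25 a128_89

def a512_57 : TA :=
 .n (.n (.n (.n (.n (.l (nat_lit 0xa00022))
 (.l (nat_lit 0x107276)))
 (.n (.l (nat_lit 0x10a005))
 (.l (nat_lit 0x15c2a88d100000c))))
 (.n (.n (.l (nat_lit 0x68236))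
 (.l (nat_lit 0x148294)))
 (.l (nat_lit 0x2a1e6))))
 (.n (.n (.n (.l (nat_lit 0x42004))
 (.l (nat_lit 0x812f5)))
 (.l (nat_lit 0x22244)))
 (.n (.n (.l (nat_lit 0x143025))
 (.l (nat_lit 0x16a2c7)))
 (.l (nat_lit 0x1232d4)))))
 (.n (.n (.n (.n (.l (nat_lit 0x6402b2))
 (.l (nat_lit 0x470c6)))
 (.l (nat_lit 0x14b034)))
 (.n (.n (.l (nat_lit 0xc82a5))
 (.l (nat_lit 0xe8157)))
 (.l (nat_lit 0x840a6))))
 (.n (.n (.n (.l (nat_lit 0xea156))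
 (.l (nat_lit 0x148146)))
 (.l (nat_lit 0xaa1d4)))
 (.n (.n (.l (nat_lit 0x101035))
 (.l (nat_lit 0x812d3)))
 (.l (nat_lit 0x120047)))))

def a512_313 : TA :=
 .n (.n (.n (.n (.n (.l (nat_lit 0x140140))
 (.l (nat_lit 0x166124)))
 (.l (nat_lit 0x6056)))
 (.n (.n (.l (nat_lit 0x64044))
 (.l (nat_lit 0x1420b7)))
 (.l (nat_lit 0xe5104))))
 (.n (.n (.n (.l (nat_lit 0x160156))
 (.l (nat_lit 0xc80c4)))
 (.l (nat_lit 0x85164)))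
 (.n (.n (.l (nat_lit 0x167074))
 (.l (nat_lit 0x830e3)))
 (.l (nat_lit 0x251f4)))))
 (.n (.n (.n (.n (.l (nat_lit 0x43076))
 (.l (nat_lit 0x1671a5)))
 (.l (nat_lit 0xe3085)))
 (.n (.n (.l (nat_lit 0x1462a4))
 (.l (nat_lit 0x67227)))
 (.l (nat_lit 0xe4185))))
 (.n (.n (.n (.l (nat_lit 0xe3005))
 (.l (nat_lit 0x162296)))
 (.l (nat_lit 0xe5105)))
 (.n (.n (.l (nat_lit 0x167046))
 (.l (nat_lit 0xc800a)))
 (.l (nat_lit 0x1420b4)))))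

def a256_57 : TA := .n a512_57 a512_313

def a512_185 : TA :=
 .n (.n (.n (.n (.n (.l (nat_lit 0x80080))
 (.l (nat_lit 0x4b2e5)))
 (.n (.l (nat_lit 0xca0e4))
 (.l (nat_lit 0x1086a98c542000c))))
 (.n (.n (.l (nat_lit 0x101236))
 (.l (nat_lit 0xe6077)))
 (.l (nat_lit 0x24104))))
 (.n (.n (.n (.l (nat_lit 0xc80e6))
 (.l (nat_lit 0x1060c4)))
 (.l (nat_lit 0x162246)))
 (.n (.n (.l (nat_lit 0x67005))
 (.l (nat_lit 0x7043)))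
 (.l (nat_lit 0x24114)))))
 (.n (.n (.n (.n (.l (nat_lit 0x168075))
 (.l (nat_lit 0x27136)))
 (.l (nat_lit 0x12b074)))
 (.n (.n (.l (nat_lit 0xa1015))
 (.l (nat_lit 0x1491c7)))
 (.l (nat_lit 0x123115))))
 (.n (.n (.n (.l (nat_lit 0x261c6))
 (.l (nat_lit 0x60226)))
 (.l (nat_lit 0x4a095)))
 (.n (.n (.l (nat_lit 0x682a4))
 (.l (nat_lit 0xb00009)))
 (.l (nat_lit 0x41274)))))

def a512_441 : TA :=
 .n (.n (.n (.n (.n (.l (nat_lit 0x180201))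
 (.l (nat_lit 0xab124)))
 (.l (nat_lit 0xa1065)))
 (.n (.n (.l (nat_lit 0x2b2a5))
 (.l (nat_lit 0x430f7)))
 (.l (nat_lit 0x12a027))))
 (.n (.n (.n (.l (nat_lit 0x102024))
 (.l (nat_lit 0x90d5)))
 (.l (nat_lit 0x682b4)))
 (.n (.n (.l (nat_lit 0xa5035))
 (.l (nat_lit 0x871a3)))
 (.l (nat_lit 0x10b0a4)))))
 (.n (.n (.n (.n (.l (nat_lit 0x60044))
 (.l (nat_lit 0x84057)))
 (.l (nat_lit 0x1250f5)))
 (.n (.n (.l (nat_lit 0xa9015))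
 (.l (nat_lit 0xeb277)))
 (.l (nat_lit 0x1f5))))
 (.n (.n (.n (.l (nat_lit 0x163074))
 (.l (nat_lit 0x2306)))
 (.l (nat_lit 0x169176)))
 (.n (.n (.l (nat_lit 0x63045))
 (.l (nat_lit 0x6a81d2d400600c)))
 (.l (nat_lit 0x7206)))))

def a256_185 : TA := .n a512_185 a512_441

def a128_57 : TA := .n a256_57 a256_185

def a512_121 : TA :=
 .n (.n (.n (.n (.n (.l (nat_lit 0x180051))
 (.l (nat_lit 0x12b276)))
 (.n (.l (nat_lit 0x164056))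
 (.l (nat_lit 0x1103598e902000c))))
 (.n (.n (.l (nat_lit 0x4014))
 (.l (nat_lit 0xc9144)))
 (.l (nat_lit 0x84094))))
 (.n (.n (.n (.l (nat_lit 0x161005))
 (.l (nat_lit 0x1212f6)))
 (.l (nat_lit 0x201d5)))
 (.n (.n (.l (nat_lit 0xeb026))
 (.l (nat_lit 0xc5023)))
 (.l (nat_lit 0x104184)))))
 (.n (.n (.n (.n (.l (nat_lit 0x22075))
 (.l (nat_lit 0x127135)))
 (.l (nat_lit 0x4065)))
 (.n (.n (.l (nat_lit 0xe5014))
 (.l (nat_lit 0x401c7)))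
 (.l (nat_lit 0xe30a5))))
 (.n (.n (.n (.l (nat_lit 0xa2054))
 (.l (nat_lit 0x420d4)))
 (.l (nat_lit 0x174)))
 (.n (.n (.l (nat_lit 0xe6035))
 (.l (nat_lit 0x2a80009)))
 (.l (nat_lit 0x12b0b5)))))

def a512_377 : TA :=
 .n (.n (.n (.n (.n (.l (nat_lit 0x1a0))
 (.l (nat_lit 0xc72e4)))
 (.l (nat_lit 0x12a1c4)))
 (.n (.n (.l (nat_lit 0x1632a6))
 (.l (nat_lit 0xe50e7)))
 (.l (nat_lit 0x291e4))))
 (.n (.n (.n (.l (nat_lit 0x149155))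
 (.l (nat_lit 0x880d5)))
 (.l (nat_lit 0x48017)))
 (.n (.n (.l (nat_lit 0xc0036))
 (.l (nat_lit 0x4b123)))
 (.l (nat_lit 0x8a114)))))
 (.n (.n (.n (.n (.l (nat_lit 0xca075))
 (.l (nat_lit 0x32f4)))
 (.l (nat_lit 0xe40f6)))
 (.n (.n (.l (nat_lit 0x102016))
 (.l (nat_lit 0x148237)))
 (.l (nat_lit 0x44186))))
 (.n (.n (.n (.l (nat_lit 0x671c5))
 (.l (nat_lit 0x8295)))
 (.l (nat_lit 0x65176)))
 (.n (.n (.l (nat_lit 0xc9024))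
 (.l (nat_lit 0x12a7610d100000c)))
 (.l (nat_lit 0x87195)))))

def a256_121 : TA := .n a512_121 a512_377

def a256_249 : TA :=
 .n (.n (.n (.n (.n (.n (.l (nat_lit 0x1000e1))
 (.l (nat_lit 0x10b2e6)))
 (.l (nat_lit 0x60056)))
 (.n (.n (.l (nat_lit 0x4a236))
 (.l (nat_lit 0x68087)))
 (.l (nat_lit 0xc5174))))
 (.n (.n (.n (.l (nat_lit 0x612a4))
 (.l (nat_lit 0xc7214)))
 (.l (nat_lit 0x169245)))
 (.n (.n (.l (nat_lit 0x64026))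
 (.l (nat_lit 0x2073)))
 (.l (nat_lit 0x105184)))))
 (.n (.n (.n (.n (.l (nat_lit 0xc0014))
 (.l (nat_lit 0x1281a5)))
 (.l (nat_lit 0xa2085)))
 (.n (.n (.l (nat_lit 0x49015))
 (.l (nat_lit 0xe1207)))
 (.l (nat_lit 0xa4115))))
 (.n (.n (.n (.l (nat_lit 0x16b1c5))
 (.l (nat_lit 0x120225)))
 (.l (nat_lit 0x165106)))
 (.n (.n (.l (nat_lit 0x142046))
 (.l (nat_lit 0x14200a)))
 (.l (nat_lit 0x21274))))))
 (.n (.n (.n (.n (.n (.l (nat_lit 0xc0260))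
 (.l (nat_lit 0xc70c5)))
 (.l (nat_lit 0x68066)))
 (.n (.n (.l (nat_lit 0x125005))
 (.l (nat_lit 0x16b127)))
 (.l (nat_lit 0xcb1e4))))
 (.n (.n (.n (.l (nat_lit 0x85156))
 (.l (nat_lit 0x148145)))
 (.l (nat_lit 0x1690f4)))
 (.n (.n (.l (nat_lit 0x81c4))
 (.l (nat_lit 0xc2243)))
 (.l (nat_lit 0xab264)))))
 (.n (.n (.n (.n (.l (nat_lit 0x1650e6))
 (.l (nat_lit 0xe4057)))
 (.l (nat_lit 0x49165)))
 (.n (.n (.l (nat_lit 0x26044))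
 (.l (nat_lit 0x472a7)))
 (.l (nat_lit 0x163037))))
 (.n (.n (.n (.l (nat_lit 0xc0235))
 (.l (nat_lit 0x27067)))
 (.l (nat_lit 0x14a1e5)))
 (.n (.n (.l (nat_lit 0x2a004))
 (.l (nat_lit 0xe1aa070d42600c)))
 (.l (nat_lit 0x126205))))))

def a128_121 : TA := .n a256_121 a256_249

def a64_57 : TA := .n a128_57 a128_121

def a32_25 : TA := .n a64_25 a64_57

def a16_9 : TA := .n a32_9 a32_25

def a8_1 : TA := .n a16_1 a16_9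

def a512_5 : TA :=
 .n (.n (.n (.n (.n (.l (nat_lit 0x140000))
 (.l (nat_lit 0x10b206)))
 (.n (.l (nat_lit 0x290e4))
 (.l (nat_lit 0x1016a88d520600c))))
 (.n (.n (.l (nat_lit 0xc1235))
 (.l (nat_lit 0x67144)))
 (.l (nat_lit 0x3094))))
 (.n (.n (.n (.l (nat_lit 0x670e5))
 (.l (nat_lit 0xc1286)))
 (.l (nat_lit 0x16a165)))
 (.n (.n (.l (nat_lit 0x7005))
 (.l (nat_lit 0x682a7)))
 (.l (nat_lit 0x11f5)))))
 (.n (.n (.n (.n (.l (nat_lit 0x40280))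
 (.l (nat_lit 0x1001a4)))
 (.l (nat_lit 0x69066)))
 (.n (.n (.l (nat_lit 0x1012a6))
 (.l (nat_lit 0x160157)))
 (.l (nat_lit 0x10b2c4))))
 (.n (.n (.n (.l (nat_lit 0x86155))
 (.l (nat_lit 0x141224)))
 (.l (nat_lit 0x1691d4)))
 (.n (.n (.l (nat_lit 0x82a4))
 (.l (nat_lit 0x14b253)))
 (.l (nat_lit 0x80047)))))

def a512_261 : TA :=
 .n (.n (.n (.n (.n (.l (nat_lit 0xf0))
 (.l (nat_lit 0x125194)))
 (.l (nat_lit 0x61056)))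
 (.n (.n (.l (nat_lit 0xcb236))
 (.l (nat_lit 0x64097)))
 (.l (nat_lit 0xe12c6))))
 (.n (.n (.n (.l (nat_lit 0x61024))
 (.l (nat_lit 0x1072f4)))
 (.l (nat_lit 0x640f4)))
 (.n (.n (.l (nat_lit 0x65025))
 (.l (nat_lit 0x87073)))
 (.l (nat_lit 0x125037)))))
 (.n (.n (.n (.n (.l (nat_lit 0xc0034))
 (.l (nat_lit 0x1022f4)))
 (.l (nat_lit 0x123086)))
 (.n (.n (.l (nat_lit 0x4a016))
 (.l (nat_lit 0xc6207)))
 (.l (nat_lit 0xc6115))))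
 (.n (.n (.n (.l (nat_lit 0x143074))
 (.l (nat_lit 0x108225)))
 (.l (nat_lit 0xea106)))
 (.n (.n (.l (nat_lit 0x63046))
 (.l (nat_lit 0x400a)))
 (.l (nat_lit 0x2047)))))

def a256_5 : TA := .n a512_5 a512_261

def a512_133 : TA :=
 .n (.n (.n (.n (.n (.l (nat_lit 0xa80052))
 (.l (nat_lit 0x164124)))
 (.n (.l (nat_lit 0x165055))
 (.l (nat_lit 0xd589886c00000c))))
 (.n (.n (.l (nat_lit 0x4034))
 (.l (nat_lit 0x109224)))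
 (.l (nat_lit 0xa4027))))
 (.n (.n (.n (.l (nat_lit 0x1430e6))
 (.l (nat_lit 0x1222f5)))
 (.l (nat_lit 0x91d6)))
 (.n (.n (.l (nat_lit 0xc7074))
 (.l (nat_lit 0x10b023)))
 (.l (nat_lit 0x120266)))))
 (.n (.n (.n (.n (.l (nat_lit 0x23076))
 (.l (nat_lit 0x1214)))
 (.l (nat_lit 0x5065)))
 (.n (.n (.l (nat_lit 0xe5034))
 (.l (nat_lit 0x611c7)))
 (.l (nat_lit 0xe40a5))))
 (.n (.n (.n (.l (nat_lit 0x83005))
 (.l (nat_lit 0x841b6)))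
 (.l (nat_lit 0x60027)))
 (.n (.n (.l (nat_lit 0xea036))
 (.l (nat_lit 0x1280009)))
 (.l (nat_lit 0x160204)))))

def a512_389 : TA :=
 .n (.n (.n (.n (.n (.l (nat_lit 0x801c0))
 (.l (nat_lit 0x1270b4)))
 (.l (nat_lit 0x12a2a4)))
 (.n (.n (.l (nat_lit 0x1662a5))
 (.l (nat_lit 0xc70e7)))
 (.l (nat_lit 0x292c4))))
 (.n (.n (.n (.l (nat_lit 0x14a155))
 (.l (nat_lit 0x890d6)))
 (.l (nat_lit 0x480f4)))
 (.n (.n (.l (nat_lit 0xc1036))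
 (.l (nat_lit 0xc4153)))
 (.l (nat_lit 0x8a1f4)))))
 (.n (.n (.n (.n (.l (nat_lit 0xcb075))
 (.l (nat_lit 0x216)))
 (.l (nat_lit 0xc80f5)))
 (.n (.n (.l (nat_lit 0x103016))
 (.l (nat_lit 0x149237)))
 (.l (nat_lit 0x65185))))
 (.n (.n (.n (.l (nat_lit 0x681c5))
 (.l (nat_lit 0x9295)))
 (.l (nat_lit 0x129175)))
 (.n (.n (.l (nat_lit 0xe9005))
 (.l (nat_lit 0x688982d402600c)))
 (.l (nat_lit 0x12b195)))))

def a256_133 : TA := .n a512_133 a512_389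

def a128_5 : TA := .n a256_5 a256_133

def a512_69 : TA :=
 .n (.n (.n (.n (.n (.l (nat_lit 0x80030))
 (.l (nat_lit 0x104124)))
 (.n (.l (nat_lit 0x100055))
 (.l (nat_lit 0xd508872902000c))))
 (.n (.n (.l (nat_lit 0x69236))
 (.l (nat_lit 0x168067)))
 (.l (nat_lit 0x23094))))
 (.n (.n (.n (.l (nat_lit 0x41234))
 (.l (nat_lit 0x1222f6)))
 (.l (nat_lit 0x3017)))
 (.n (.n (.l (nat_lit 0x144025))
 (.l (nat_lit 0x41013)))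
 (.l (nat_lit 0x101265)))))
 (.n (.n (.n (.n (.l (nat_lit 0x8002c2))
 (.l (nat_lit 0x880c6)))
 (.l (nat_lit 0x16b005)))
 (.n (.n (.l (nat_lit 0xc92a5))
 (.l (nat_lit 0xe9157)))
 (.l (nat_lit 0x8a0a6))))
 (.n (.n (.n (.l (nat_lit 0x12b155))
 (.l (nat_lit 0xa1294)))
 (.l (nat_lit 0x100027)))
 (.n (.n (.l (nat_lit 0x102035))
 (.l (nat_lit 0x1032f3)))
 (.l (nat_lit 0x1220b6)))))

def a512_325 : TA :=
 .n (.n (.n (.n (.n (.l (nat_lit 0x140150))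
 (.l (nat_lit 0x166204)))
 (.l (nat_lit 0x7056)))
 (.n (.n (.l (nat_lit 0x64064))
 (.l (nat_lit 0x1420c7)))
 (.l (nat_lit 0xc9027))))
 (.n (.n (.n (.l (nat_lit 0x164155))
 (.l (nat_lit 0x128057)))
 (.l (nat_lit 0x822b6)))
 (.n (.n (.l (nat_lit 0x167154))
 (.l (nat_lit 0xc60e3)))
 (.l (nat_lit 0x60a4)))))
 (.n (.n (.n (.n (.l (nat_lit 0x44075))
 (.l (nat_lit 0x162284)))
 (.l (nat_lit 0x108086)))
 (.n (.n (.l (nat_lit 0x146044))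
 (.l (nat_lit 0x60237)))
 (.l (nat_lit 0x165186))))
 (.n (.n (.n (.l (nat_lit 0xc01c6))
 (.l (nat_lit 0x28296)))
 (.l (nat_lit 0xa105)))
 (.n (.n (.l (nat_lit 0x16b045))
 (.l (nat_lit 0xc900a)))
 (.l (nat_lit 0x22047)))))

def a256_69 : TA := .n a512_69 a512_325

def a512_197 : TA :=
 .n (.n (.n (.n (.n (.l (nat_lit 0xc0090))
 (.l (nat_lit 0x85124)))
 (.n (.l (nat_lit 0xca1c4))
 (.l (nat_lit 0x153222a5c00000c))))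
 (.n (.n (.l (nat_lit 0x102235))
 (.l (nat_lit 0xe7077)))
 (.l (nat_lit 0x212c5))))
 (.n (.n (.n (.l (nat_lit 0xc90e6))
 (.l (nat_lit 0x1461a4)))
 (.l (nat_lit 0x4084)))
 (.n (.n (.l (nat_lit 0x40025))
 (.l (nat_lit 0x40053)))
 (.l (nat_lit 0x85037)))))
 (.n (.n (.n (.n (.l (nat_lit 0x169076))
 (.l (nat_lit 0xa1284)))
 (.l (nat_lit 0x12b154)))
 (.n (.n (.l (nat_lit 0xa2015))
 (.l (nat_lit 0x14a1c7)))
 (.l (nat_lit 0x164116))))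
 (.n (.n (.n (.l (nat_lit 0x271c6))
 (.l (nat_lit 0xa5225)))
 (.l (nat_lit 0x4b095)))
 (.n (.n (.l (nat_lit 0x68054))
 (.l (nat_lit 0x2340009)))
 (.l (nat_lit 0x83126)))))

def a512_453 : TA :=
 .n (.n (.n (.n (.n (.l (nat_lit 0xc0210))
 (.l (nat_lit 0xab204)))
 (.l (nat_lit 0xa2065)))
 (.n (.n (.l (nat_lit 0x5154))
 (.l (nat_lit 0x480f7)))
 (.l (nat_lit 0x12a104))))
 (.n (.n (.n (.l (nat_lit 0x102044))
 (.l (nat_lit 0xe0224)))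
 (.l (nat_lit 0x49084)))
 (.n (.n (.l (nat_lit 0xa6036))
 (.l (nat_lit 0x851c3)))
 (.l (nat_lit 0x10b184)))))
 (.n (.n (.n (.n (.l (nat_lit 0x60064))
 (.l (nat_lit 0x81285)))
 (.l (nat_lit 0x90f6)))
 (.n (.n (.l (nat_lit 0xaa015))
 (.l (nat_lit 0xe2297)))
 (.l (nat_lit 0x211f6))))
 (.n (.n (.n (.l (nat_lit 0x1632a4))
 (.l (nat_lit 0x48305)))
 (.l (nat_lit 0x16a176)))
 (.n (.n (.l (nat_lit 0x64046))
 (.l (nat_lit 0x16068c0e942600c)))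
 (.l (nat_lit 0xab205)))))

def a256_197 : TA := .n a512_197 a512_453

def a128_69 : TA := .n a256_69 a256_197

def a64_5 : TA := .n a128_5 a128_69

def a512_37 : TA :=
 .n (.n (.n (.n (.n (.l (nat_lit 0xa40012))
 (.l (nat_lit 0x62276)))
 (.n (.l (nat_lit 0xa9014))
 (.l (nat_lit 0x101a9895322600c))))
 (.n (.n (.l (nat_lit 0x166235))
 (.l (nat_lit 0xc8144)))
 (.l (nat_lit 0xc11e5))))
 (.n (.n (.n (.l (nat_lit 0x14a0e6))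
 (.l (nat_lit 0x24134)))
 (.l (nat_lit 0x89166)))
 (.n (.n (.l (nat_lit 0xe1026))
 (.l (nat_lit 0xeb2a7)))
 (.l (nat_lit 0x10b1f6)))))
 (.n (.n (.n (.n (.l (nat_lit 0x6002a2))
 (.l (nat_lit 0xa30c5)))
 (.l (nat_lit 0xcb234)))
 (.n (.n (.l (nat_lit 0x62a6))
 (.l (nat_lit 0x47157)))
 (.l (nat_lit 0x220a5))))
 (.n (.n (.n (.l (nat_lit 0x49156))
 (.l (nat_lit 0x144146)))
 (.l (nat_lit 0x10a244)))
 (.n (.n (.l (nat_lit 0xa8006))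
 (.l (nat_lit 0x1072a3)))
 (.l (nat_lit 0x1470b5)))))

def a512_293 : TA :=
 .n (.n (.n (.n (.n (.l (nat_lit 0xa00112))
 (.l (nat_lit 0xc6274)))
 (.l (nat_lit 0x104055)))
 (.n (.n (.l (nat_lit 0x164154))
 (.l (nat_lit 0xc60a7)))
 (.l (nat_lit 0x1692c5))))
 (.n (.n (.n (.l (nat_lit 0xc2005))
 (.l (nat_lit 0x67284)))
 (.l (nat_lit 0x282b6)))
 (.n (.n (.l (nat_lit 0xcb025))
 (.l (nat_lit 0x840a3)))
 (.l (nat_lit 0xca2d5)))))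
 (.n (.n (.n (.n (.l (nat_lit 0x160006))
 (.l (nat_lit 0xe51a5)))
 (.l (nat_lit 0x60017)))
 (.n (.n (.l (nat_lit 0xc6154))
 (.l (nat_lit 0x167217)))
 (.l (nat_lit 0x212d4))))
 (.n (.n (.n (.l (nat_lit 0x43044))
 (.l (nat_lit 0x60295)))
 (.l (nat_lit 0x23106)))
 (.n (.n (.l (nat_lit 0xc6045))
 (.l (nat_lit 0x10600a)))
 (.l (nat_lit 0xe6196)))))

def a256_37 : TA := .n a512_37 a512_293

def a512_165 : TA :=
 .n (.n (.n (.n (.n (.l (nat_lit 0x140070))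
 (.l (nat_lit 0xc32e6)))
 (.n (.l (nat_lit 0x68056))
 (.l (nat_lit 0xec08876102000c))))
 (.n (.n (.l (nat_lit 0xa4006))
 (.l (nat_lit 0x43077)))
 (.l (nat_lit 0x29255))))
 (.n (.n (.n (.l (nat_lit 0x460e5))
 (.l (nat_lit 0x251a4)))
 (.l (nat_lit 0xa0245)))
 (.n (.n (.l (nat_lit 0x1472a4))
 (.l (nat_lit 0x43)))
 (.l (nat_lit 0x10a266)))))
 (.n (.n (.n (.n (.l (nat_lit 0xc7075))
 (.l (nat_lit 0xa4135)))
 (.l (nat_lit 0xa8065)))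
 (.n (.n (.l (nat_lit 0x146006))
 (.l (nat_lit 0xe71c7)))
 (.l (nat_lit 0x601f4))))
 (.n (.n (.n (.l (nat_lit 0x1211c6))
 (.l (nat_lit 0xe2294)))
 (.l (nat_lit 0x104095)))
 (.n (.n (.l (nat_lit 0x1680e4))
 (.l (nat_lit 0x2c0009)))
 (.l (nat_lit 0xe6126)))))

def a512_421 : TA :=
 .n (.n (.n (.n (.n (.l (nat_lit 0x1001e0))
 (.l (nat_lit 0xcb204)))
 (.l (nat_lit 0x65)))
 (.n (.n (.l (nat_lit 0x1292a6))
 (.l (nat_lit 0x1690e7)))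
 (.l (nat_lit 0x8a1e4))))
 (.n (.n (.n (.l (nat_lit 0x82234))
 (.l (nat_lit 0xe30d5)))
 (.l (nat_lit 0x28084)))
 (.n (.n (.l (nat_lit 0x4035))
 (.l (nat_lit 0x80193)))
 (.l (nat_lit 0xaa264)))))
 (.n (.n (.n (.n (.l (nat_lit 0x160234))
 (.l (nat_lit 0x127215)))
 (.l (nat_lit 0x61017)))
 (.n (.n (.l (nat_lit 0x8016))
 (.l (nat_lit 0x4b257)))
 (.l (nat_lit 0x1220a4))))
 (.n (.n (.n (.l (nat_lit 0xcb1c6))
 (.l (nat_lit 0x102305)))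
 (.l (nat_lit 0xa2027)))
 (.n (.n (.l (nat_lit 0x161045))
 (.l (nat_lit 0x6a9488d402600c)))
 (.l (nat_lit 0xa0206)))))

def a256_165 : TA := .n a512_165 a512_421

def a128_37 : TA := .n a256_37 a256_165

def a512_101 : TA :=
 .n (.n (.n (.n (.n (.l (nat_lit 0x800042))
 (.l (nat_lit 0x66276)))
 (.n (.l (nat_lit 0x43056))
 (.l (nat_lit 0xd41588e902000c))))
 (.n (.n (.l (nat_lit 0x105004))
 (.l (nat_lit 0x68304)))
 (.l (nat_lit 0xe1256))))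
 (.n (.n (.n (.l (nat_lit 0xc1044))
 (.l (nat_lit 0x45214)))
 (.l (nat_lit 0x3084)))
 (.n (.n (.l (nat_lit 0x4a025))
 (.l (nat_lit 0xa013)))
 (.l (nat_lit 0xab265)))))
 (.n (.n (.n (.n (.l (nat_lit 0x100005))
 (.l (nat_lit 0x24136)))
 (.l (nat_lit 0x82066)))
 (.n (.n (.l (nat_lit 0x650e4))
 (.l (nat_lit 0x146187)))
 (.l (nat_lit 0x20037))))
 (.n (.n (.n (.l (nat_lit 0x22024))
 (.l (nat_lit 0x1271b6)))
 (.l (nat_lit 0x8a096)))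
 (.n (.n (.l (nat_lit 0x45036))
 (.l (nat_lit 0x2240009)))
 (.l (nat_lit 0x260b6)))))

def a512_357 : TA :=
 .n (.n (.n (.n (.n (.l (nat_lit 0xa00172))
 (.l (nat_lit 0x47194)))
 (.l (nat_lit 0xaa074)))
 (.n (.n (.l (nat_lit 0xc22a5))
 (.l (nat_lit 0x430e7)))
 (.l (nat_lit 0x69027))))
 (.n (.n (.n (.l (nat_lit 0x67156))
 (.l (nat_lit 0xe30d6)))
 (.l (nat_lit 0x1492b5)))
 (.n (.n (.l (nat_lit 0x67064))
 (.l (nat_lit 0x45103)))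
 (.l (nat_lit 0x26264)))))
 (.n (.n (.n (.n (.l (nat_lit 0x28076))
 (.l (nat_lit 0x125215)))
 (.l (nat_lit 0x60244)))
 (.n (.n (.l (nat_lit 0x60015))
 (.l (nat_lit 0xc6237)))
 (.l (nat_lit 0x102264))))
 (.n (.n (.n (.l (nat_lit 0x1651c6))
 (.l (nat_lit 0x81296)))
 (.l (nat_lit 0xe12c4)))
 (.n (.n (.l (nat_lit 0x49234))
 (.l (nat_lit 0x1286888d102600c)))
 (.l (nat_lit 0x25195)))))

def a256_101 : TA := .n a512_101 a512_357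

def a512_229 : TA :=
 .n (.n (.n (.n (.n (.l (nat_lit 0xc00c0))
 (.l (nat_lit 0x62e6)))
 (.n (.l (nat_lit 0x14a034))
 (.l (nat_lit 0xd585a12820000c))))
 (.n (.n (.l (nat_lit 0x108235))
 (.l (nat_lit 0x16a077)))
 (.l (nat_lit 0xa2c6))))
 (.n (.n (.n (.l (nat_lit 0x16b0e5))
 (.l (nat_lit 0x470c4)))
 (.l (nat_lit 0x22245)))
 (.n (.n (.l (nat_lit 0x122026))
 (.l (nat_lit 0x101063)))
 (.l (nat_lit 0x8b2d5)))))
 (.n (.n (.n (.n (.l (nat_lit 0x40154))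
 (.l (nat_lit 0x251a6)))
 (.l (nat_lit 0x2b044)))
 (.n (.n (.l (nat_lit 0x145016))
 (.l (nat_lit 0x611f7)))
 (.l (nat_lit 0x141264))))
 (.n (.n (.n (.l (nat_lit 0xca1c5))
 (.l (nat_lit 0x1430d4)))
 (.l (nat_lit 0x44105)))
 (.n (.n (.l (nat_lit 0xe0045))
 (.l (nat_lit 0x4100a)))
 (.l (nat_lit 0xa6125)))))

def a512_485 : TA :=
 .n (.n (.n (.n (.n (.l (nat_lit 0x8c0232))
 (.l (nat_lit 0x1430c5)))
 (.l (nat_lit 0x145066)))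
 (.n (.n (.l (nat_lit 0x85044))
 (.l (nat_lit 0xcb117)))
 (.l (nat_lit 0xb094))))
 (.n (.n (.n (.l (nat_lit 0x20155))
 (.l (nat_lit 0x25146)))
 (.l (nat_lit 0xc92b4)))
 (.n (.n (.l (nat_lit 0x109004))
 (.l (nat_lit 0x105223)))
 (.l (nat_lit 0x2b114)))))
 (.n (.n (.n (.n (.l (nat_lit 0xc40e5))
 (.l (nat_lit 0x167286)))
 (.l (nat_lit 0x105165)))
 (.n (.n (.l (nat_lit 0x1261c4))
 (.l (nat_lit 0x1432a7)))
 (.l (nat_lit 0xab1f5))))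
 (.n (.n (.n (.l (nat_lit 0x63064))
 (.l (nat_lit 0xc7067)))
 (.l (nat_lit 0x601e6)))
 (.n (.n (.l (nat_lit 0x107045))
 (.l (nat_lit 0x2560bb0160600c)))
 (.l (nat_lit 0x41205)))))

def a256_229 : TA := .n a512_229 a512_485

def a128_101 : TA := .n a256_101 a256_229

def a64_37 : TA := .n a128_37 a128_101

def a32_5 : TA := .n a64_5 a64_37

def a512_21 : TA :=
 .n (.n (.n (.n (.n (.l (nat_lit 0x10))
 (.l (nat_lit 0x81275)))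
 (.n (.l (nat_lit 0x1291c4))
 (.l (nat_lit 0x119a988cd42600c))))
 (.n (.n (.l (nat_lit 0x62236))
 (.l (nat_lit 0x167224)))
 (.l (nat_lit 0x163027))))
 (.n (.n (.n (.l (nat_lit 0x1680e5))
 (.l (nat_lit 0x86286)))
 (.l (nat_lit 0xe2017)))
 (.n (.n (.l (nat_lit 0x100026))
 (.l (nat_lit 0x1692a7)))
 (.l (nat_lit 0xa51f6)))))
 (.n (.n (.n (.n (.l (nat_lit 0x140291))
 (.l (nat_lit 0xc20c6)))
 (.l (nat_lit 0x14b0e4)))
 (.n (.n (.l (nat_lit 0xa22a5))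
 (.l (nat_lit 0xc5157)))
 (.l (nat_lit 0xab104))))
 (.n (.n (.n (.l (nat_lit 0x67155))
 (.l (nat_lit 0x161067)))
 (.l (nat_lit 0xca017)))
 (.n (.n (.l (nat_lit 0x108054))
 (.l (nat_lit 0x1412a3)))
 (.l (nat_lit 0x460b5)))))

def a512_277 : TA :=
 .n (.n (.n (.n (.n (.l (nat_lit 0x100100))
 (.l (nat_lit 0x146124)))
 (.l (nat_lit 0x162055)))
 (.n (.n (.l (nat_lit 0x64074))
 (.l (nat_lit 0x1430a7)))
 (.l (nat_lit 0x1032c5))))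
 (.n (.n (.n (.l (nat_lit 0x161044))
 (.l (nat_lit 0xe7134)))
 (.l (nat_lit 0x422b5)))
 (.n (.n (.l (nat_lit 0x169026))
 (.l (nat_lit 0xc4083)))
 (.l (nat_lit 0x1022d6)))))
 (.n (.n (.n (.n (.l (nat_lit 0x40064))
 (.l (nat_lit 0x1201a5)))
 (.l (nat_lit 0x9086)))
 (.n (.n (.l (nat_lit 0x147004))
 (.l (nat_lit 0x6b207)))
 (.l (nat_lit 0xab115))))
 (.n (.n (.n (.l (nat_lit 0xc3014))
 (.l (nat_lit 0xa3144)))
 (.l (nat_lit 0x811e4)))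
 (.n (.n (.l (nat_lit 0x164045))
 (.l (nat_lit 0x8500b)))
 (.l (nat_lit 0x145195)))))

def a256_21 : TA := .n a512_21 a512_277

def a512_149 : TA :=
 .n (.n (.n (.n (.n (.l (nat_lit 0xa00062))
 (.l (nat_lit 0x1612e5)))
 (.n (.l (nat_lit 0xc7055))
 (.l (nat_lit 0xd521a8ec02000c))))
 (.n (.n (.l (nat_lit 0x104054))
 (.l (nat_lit 0xe90d4)))
 (.l (nat_lit 0xa1255))))
 (.n (.n (.n (.l (nat_lit 0xe40e5))
 (.l (nat_lit 0x872f6)))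
 (.l (nat_lit 0x123084)))
 (.n (.n (.l (nat_lit 0x471c4))
 (.l (nat_lit 0x83033)))
 (.l (nat_lit 0x82265)))))
 (.n (.n (.n (.n (.l (nat_lit 0x124076))
 (.l (nat_lit 0x1012f4)))
 (.l (nat_lit 0x107066)))
 (.n (.n (.l (nat_lit 0x65064))
 (.l (nat_lit 0x1651c7)))
 (.l (nat_lit 0xcb0a5))))
 (.n (.n (.n (.l (nat_lit 0x201c6))
 (.l (nat_lit 0xa51b5)))
 (.l (nat_lit 0x3096)))
 (.n (.n (.l (nat_lit 0x69004))
 (.l (nat_lit 0x22c0009)))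
 (.l (nat_lit 0xe4126)))))

def a512_405 : TA :=
 .n (.n (.n (.n (.n (.l (nat_lit 0x6801c2))
 (.l (nat_lit 0x1672e4)))
 (.l (nat_lit 0xaa034)))
 (.n (.n (.l (nat_lit 0x1082a6))
 (.l (nat_lit 0x680e7)))
 (.l (nat_lit 0x10a094))))
 (.n (.n (.n (.l (nat_lit 0x12b156))
 (.l (nat_lit 0xc0294)))
 (.l (nat_lit 0x8244)))
 (.n (.n (.l (nat_lit 0xa2036))
 (.l (nat_lit 0x89153)))
 (.l (nat_lit 0xea037)))))
 (.n (.n (.n (.n (.l (nat_lit 0x60154))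
 (.l (nat_lit 0x101215)))
 (.l (nat_lit 0x411d4)))
 (.n (.n (.l (nat_lit 0xa4015))
 (.l (nat_lit 0xcb237)))
 (.l (nat_lit 0x14a186))))
 (.n (.n (.n (.l (nat_lit 0x1691c6))
 (.l (nat_lit 0x164144)))
 (.l (nat_lit 0x10b176)))
 (.n (.n (.l (nat_lit 0x60046))
 (.l (nat_lit 0xe895831102600c)))
 (.l (nat_lit 0xe22e4)))))

def a256_149 : TA := .n a512_149 a512_405

def a128_21 : TA := .n a256_21 a256_149

def a512_85 : TA :=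
 .n (.n (.n (.n (.n (.l (nat_lit 0x680032))
 (.l (nat_lit 0xc1276)))
 (.n (.l (nat_lit 0xe1055))
 (.l (nat_lit 0xd094872900000c))))
 (.n (.n (.l (nat_lit 0xb235))
 (.l (nat_lit 0xe81b4)))
 (.l (nat_lit 0x1232c4))))
 (.n (.n (.n (.l (nat_lit 0x141014))
 (.l (nat_lit 0xc72f5)))
 (.l (nat_lit 0x491d5)))
 (.n (.n (.l (nat_lit 0xe5026))
 (.l (nat_lit 0x44013)))
 (.l (nat_lit 0xe2266)))))
 (.n (.n (.n (.n (.l (nat_lit 0x2f0))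
 (.l (nat_lit 0x60284)))
 (.l (nat_lit 0xe0066)))
 (.n (.n (.l (nat_lit 0xaa2a5))
 (.l (nat_lit 0x6b157)))
 (.l (nat_lit 0xab0a6))))
 (.n (.n (.n (.l (nat_lit 0xa2234))
 (.l (nat_lit 0x441b5)))
 (.l (nat_lit 0xc3095)))
 (.n (.n (.l (nat_lit 0xe3036))
 (.l (nat_lit 0x1200009)))
 (.l (nat_lit 0x840b5)))))

def a512_341 : TA :=
 .n (.n (.n (.n (.n (.l (nat_lit 0xac0152))
 (.l (nat_lit 0xc7047)))
 (.l (nat_lit 0x108055)))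
 (.n (.n (.l (nat_lit 0x145006))
 (.l (nat_lit 0xe40d7)))
 (.l (nat_lit 0x89174))))
 (.n (.n (.n (.l (nat_lit 0xc6156))
 (.l (nat_lit 0x140067)))
 (.l (nat_lit 0xa32b5)))
 (.n (.n (.l (nat_lit 0xe72a4))
 (.l (nat_lit 0x4b0e3)))
 (.l (nat_lit 0x106184)))))
 (.n (.n (.n (.n (.l (nat_lit 0x7076))
 (.l (nat_lit 0xc0215)))
 (.l (nat_lit 0xe9085)))
 (.n (.n (.l (nat_lit 0xe6006))
 (.l (nat_lit 0x161237)))
 (.l (nat_lit 0x2b186))))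
 (.n (.n (.n (.l (nat_lit 0x611c5))
 (.l (nat_lit 0x1041b4)))
 (.l (nat_lit 0x10b105)))
 (.n (.n (.l (nat_lit 0xc90e4))
 (.l (nat_lit 0x14a00b)))
 (.l (nat_lit 0x4196)))))

def a256_85 : TA := .n a512_85 a512_341

def a512_213 : TA :=
 .n (.n (.n (.n (.n (.l (nat_lit 0xac00a2))
 (.l (nat_lit 0x212e6)))
 (.n (.l (nat_lit 0x4a014))
 (.l (nat_lit 0xd086a70520000c))))
 (.n (.n (.l (nat_lit 0xa6236))
 (.l (nat_lit 0x69077)))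
 (.l (nat_lit 0x232c6))))
 (.n (.n (.n (.l (nat_lit 0x6a0e5))
 (.l (nat_lit 0xe6057)))
 (.l (nat_lit 0x246)))
 (.n (.n (.l (nat_lit 0x141025))
 (.l (nat_lit 0x6053)))
 (.l (nat_lit 0x822d5)))))
 (.n (.n (.n (.n (.l (nat_lit 0xcb076))
 (.l (nat_lit 0x41a5)))
 (.l (nat_lit 0xab2a4)))
 (.n (.n (.l (nat_lit 0x4016))
 (.l (nat_lit 0xeb1c7)))
 (.l (nat_lit 0x14b116))))
 (.n (.n (.n (.l (nat_lit 0x1681c6))
 (.l (nat_lit 0x68226)))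
 (.l (nat_lit 0x60254)))
 (.n (.n (.l (nat_lit 0x149005))
 (.l (nat_lit 0x340009)))
 (.l (nat_lit 0x85125)))))

def a512_469 : TA :=
 .n (.n (.n (.n (.n (.l (nat_lit 0x140230))
 (.l (nat_lit 0x57)))
 (.l (nat_lit 0x44066)))
 (.n (.n (.l (nat_lit 0x105014))
 (.l (nat_lit 0x14b107)))
 (.l (nat_lit 0xaa254))))
 (.n (.n (.n (.l (nat_lit 0xa2005))
 (.l (nat_lit 0x63145)))
 (.l (nat_lit 0x149164)))
 (.n (.n (.l (nat_lit 0xb035))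
 (.l (nat_lit 0x1051d3)))
 (.l (nat_lit 0x8b2d4)))))
 (.n (.n (.n (.n (.l (nat_lit 0x141006))
 (.l (nat_lit 0x6285)))
 (.l (nat_lit 0x21244)))
 (.n (.n (.l (nat_lit 0x260e4))
 (.l (nat_lit 0x612a7)))
 (.l (nat_lit 0x861f6))))
 (.n (.n (.n (.l (nat_lit 0xe3034))
 (.l (nat_lit 0x165144)))
 (.l (nat_lit 0xe22c4)))
 (.n (.n (.l (nat_lit 0x6046))
 (.l (nat_lit 0x2260ba5562600c)))
 (.l (nat_lit 0xc32e4)))))

def a256_213 : TA := .n a512_213 a512_469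

def a128_85 : TA := .n a256_85 a256_213

def a64_21 : TA := .n a128_21 a128_85

def a512_53 : TA :=
 .n (.n (.n (.n (.n (.l (nat_lit 0x200022))
 (.l (nat_lit 0x7276)))
 (.n (.l (nat_lit 0xa005))
 (.l (nat_lit 0x16205cad022600c))))
 (.n (.n (.l (nat_lit 0xc8236))
 (.l (nat_lit 0x48294)))
 (.l (nat_lit 0x8a1e6))))
 (.n (.n (.n (.l (nat_lit 0xeb0e6))
 (.l (nat_lit 0x105057)))
 (.l (nat_lit 0xa2084)))
 (.n (.n (.l (nat_lit 0x43025))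
 (.l (nat_lit 0x6a2c7)))
 (.l (nat_lit 0xe3114)))))
 (.n (.n (.n (.n (.l (nat_lit 0x1002b0))
 (.l (nat_lit 0xc60c6)))
 (.l (nat_lit 0x4b034)))
 (.n (.n (.l (nat_lit 0x1672a6))
 (.l (nat_lit 0x148157)))
 (.l (nat_lit 0x1230a6))))
 (.n (.n (.n (.l (nat_lit 0x14a156))
 (.l (nat_lit 0x8146)))
 (.l (nat_lit 0x12a164)))
 (.n (.n (.l (nat_lit 0x1035))
 (.l (nat_lit 0xca2a3)))
 (.l (nat_lit 0x20047)))))

def a512_309 : TA :=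
 .n (.n (.n (.n (.n (.l (nat_lit 0x40140))
 (.l (nat_lit 0x66124)))
 (.l (nat_lit 0xa5056)))
 (.n (.n (.l (nat_lit 0xe4034))
 (.l (nat_lit 0x420b7)))
 (.l (nat_lit 0x14b2c6))))
 (.n (.n (.n (.l (nat_lit 0x60156))
 (.l (nat_lit 0x148057)))
 (.l (nat_lit 0x1292b6)))
 (.n (.n (.l (nat_lit 0x67074))
 (.l (nat_lit 0x1040d3)))
 (.l (nat_lit 0xa5184)))))
 (.n (.n (.n (.n (.l (nat_lit 0xe2076))
 (.l (nat_lit 0x671a5)))
 (.l (nat_lit 0x143086)))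
 (.n (.n (.l (nat_lit 0x462a4))
 (.l (nat_lit 0xe5227)))
 (.l (nat_lit 0x160186))))
 (.n (.n (.n (.l (nat_lit 0x143064))
 (.l (nat_lit 0x22296)))
 (.l (nat_lit 0x164105)))
 (.n (.n (.l (nat_lit 0x67046))
 (.l (nat_lit 0x4800a)))
 (.l (nat_lit 0x420b4)))))

def a256_53 : TA := .n a512_53 a512_309

def a512_181 : TA :=
 .n (.n (.n (.n (.n (.l (nat_lit 0xac0072))
 (.l (nat_lit 0x672e5)))
 (.n (.l (nat_lit 0x14a074))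
 (.l (nat_lit 0x1086a90e542000c))))
 (.n (.n (.l (nat_lit 0x1236))
 (.l (nat_lit 0x164077)))
 (.l (nat_lit 0xa4094))))
 (.n (.n (.n (.l (nat_lit 0x1670e6))
 (.l (nat_lit 0x106057)))
 (.l (nat_lit 0x22246)))
 (.n (.n (.l (nat_lit 0xc7064))
 (.l (nat_lit 0x45043)))
 (.l (nat_lit 0xa40a4)))))
 (.n (.n (.n (.n (.l (nat_lit 0x68075))
 (.l (nat_lit 0x47136)))
 (.l (nat_lit 0x2b074)))
 (.n (.n (.l (nat_lit 0x101015))
 (.l (nat_lit 0x491c7)))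
 (.l (nat_lit 0x141037))))
 (.n (.n (.n (.l (nat_lit 0x861c6))
 (.l (nat_lit 0x80225)))
 (.l (nat_lit 0xe9095)))
 (.n (.n (.l (nat_lit 0xe8234))
 (.l (nat_lit 0x1300009)))
 (.l (nat_lit 0xc1204)))))

def a512_437 : TA :=
 .n (.n (.n (.n (.n (.l (nat_lit 0x100200))
 (.l (nat_lit 0xab0b4)))
 (.l (nat_lit 0x101065)))
 (.n (.n (.l (nat_lit 0x8b2a5))
 (.l (nat_lit 0xeb0e7)))
 (.l (nat_lit 0x2a027))))
 (.n (.n (.n (.l (nat_lit 0x2024))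
 (.l (nat_lit 0xa80d6)))
 (.l (nat_lit 0xe8244)))
 (.n (.n (.l (nat_lit 0x105035))
 (.l (nat_lit 0xc61a3)))
 (.l (nat_lit 0xb0a4)))))
 (.n (.n (.n (.n (.l (nat_lit 0xe0034))
 (.l (nat_lit 0xe32f4)))
 (.l (nat_lit 0x250f5)))
 (.n (.n (.l (nat_lit 0x109016))
 (.l (nat_lit 0x16a267)))
 (.l (nat_lit 0x83037))))
 (.n (.n (.n (.l (nat_lit 0x63074))
 (.l (nat_lit 0x1306)))
 (.l (nat_lit 0x69176)))
 (.n (.n (.l (nat_lit 0xc3045))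
 (.l (nat_lit 0x6a81d2d402600c)))
 (.l (nat_lit 0xa6206)))))

def a256_181 : TA := .n a512_181 a512_437

def a128_53 : TA := .n a256_53 a256_181

def a512_117 : TA :=
 .n (.n (.n (.n (.n (.l (nat_lit 0x100050))
 (.l (nat_lit 0x2b276)))
 (.n (.l (nat_lit 0x64056))
 (.l (nat_lit 0xd03588e902000c))))
 (.n (.n (.l (nat_lit 0x84154))
 (.l (nat_lit 0x1490d4)))
 (.l (nat_lit 0xcb255))))
 (.n (.n (.n (.l (nat_lit 0x61005))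
 (.l (nat_lit 0x212f6)))
 (.l (nat_lit 0xa3017)))
 (.n (.n (.l (nat_lit 0x14b026))
 (.l (nat_lit 0x142023)))
 (.l (nat_lit 0x4184)))))
 (.n (.n (.n (.n (.l (nat_lit 0x82075))
 (.l (nat_lit 0x27135)))
 (.l (nat_lit 0xa3065)))
 (.n (.n (.l (nat_lit 0x1651c4))
 (.l (nat_lit 0xc61a7)))
 (.l (nat_lit 0x1430a6))))
 (.n (.n (.n (.l (nat_lit 0x122044))
 (.l (nat_lit 0x891b5)))
 (.l (nat_lit 0xab096)))
 (.n (.n (.l (nat_lit 0x146035))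
 (.l (nat_lit 0x240009)))
 (.l (nat_lit 0x14b0b5)))))

def a512_373 : TA :=
 .n (.n (.n (.n (.n (.l (nat_lit 0xc0190))
 (.l (nat_lit 0x147274)))
 (.l (nat_lit 0x2a1c4)))
 (.n (.n (.l (nat_lit 0x632a6))
 (.l (nat_lit 0x1450e7)))
 (.l (nat_lit 0xa9174))))
 (.n (.n (.n (.l (nat_lit 0x168155))
 (.l (nat_lit 0x1270d5)))
 (.l (nat_lit 0xe5164)))
 (.n (.n (.l (nat_lit 0x148006))
 (.l (nat_lit 0x86113)))
 (.l (nat_lit 0x10a0a4)))))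
 (.n (.n (.n (.n (.l (nat_lit 0x169075))
 (.l (nat_lit 0x830c4)))
 (.l (nat_lit 0x1440f5)))
 (.n (.n (.l (nat_lit 0x2016))
 (.l (nat_lit 0x48237)))
 (.l (nat_lit 0xe0185))))
 (.n (.n (.n (.l (nat_lit 0xc71c5))
 (.l (nat_lit 0x47295)))
 (.l (nat_lit 0xc5175)))
 (.n (.n (.l (nat_lit 0x149014))
 (.l (nat_lit 0x12a21d8d100600c)))
 (.l (nat_lit 0x126195)))))

def a256_117 : TA := .n a512_117 a512_373

def a512_245 : TA :=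
 .n (.n (.n (.n (.n (.l (nat_lit 0x800e0))
 (.l (nat_lit 0x1472e6)))
 (.n (.l (nat_lit 0xc0056))
 (.l (nat_lit 0x5382a31d02000c))))
 (.n (.n (.l (nat_lit 0xa9235))
 (.l (nat_lit 0xc2087)))
 (.l (nat_lit 0x145104))))
 (.n (.n (.n (.l (nat_lit 0xe1234))
 (.l (nat_lit 0x1471a4)))
 (.l (nat_lit 0x69245)))
 (.n (.n (.l (nat_lit 0xc4026))
 (.l (nat_lit 0x89063)))
 (.l (nat_lit 0x5184)))))
 (.n (.n (.n (.n (.l (nat_lit 0x140234))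
 (.l (nat_lit 0x1471a6)))
 (.l (nat_lit 0x102085)))
 (.n (.n (.l (nat_lit 0xe8015))
 (.l (nat_lit 0x16b1f7)))
 (.l (nat_lit 0x104116))))
 (.n (.n (.n (.l (nat_lit 0x6b1c5))
 (.l (nat_lit 0x20225)))
 (.l (nat_lit 0x65106)))
 (.n (.n (.l (nat_lit 0x42046))
 (.l (nat_lit 0xc200a)))
 (.l (nat_lit 0xa1204)))))

def a512_501 : TA :=
 .n (.n (.n (.n (.n (.l (nat_lit 0x100251))
 (.l (nat_lit 0x1260c5)))
 (.l (nat_lit 0xc8065)))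
 (.n (.n (.l (nat_lit 0x25005))
 (.l (nat_lit 0x6b127)))
 (.l (nat_lit 0x14b174))))
 (.n (.n (.n (.l (nat_lit 0x124156))
 (.l (nat_lit 0x48145)))
 (.l (nat_lit 0x690f4)))
 (.n (.n (.l (nat_lit 0x88154))
 (.l (nat_lit 0x10b233)))
 (.l (nat_lit 0x12b1f4)))))
 (.n (.n (.n (.n (.l (nat_lit 0x650e6))
 (.l (nat_lit 0x1441a4)))
 (.l (nat_lit 0xa8165)))
 (.n (.n (.l (nat_lit 0xa6034))
 (.l (nat_lit 0xe62a7)))
 (.l (nat_lit 0x63037))))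
 (.n (.n (.n (.l (nat_lit 0x144006))
 (.l (nat_lit 0x87294)))
 (.l (nat_lit 0x4a1e5)))
 (.n (.n (.l (nat_lit 0xab046))
 (.l (nat_lit 0xc1aa074c42600c)))
 (.l (nat_lit 0x26205)))))

def a256_245 : TA := .n a512_245 a512_501

def a128_117 : TA := .n a256_117 a256_245

def a64_53 : TA := .n a128_53 a128_117

def a32_21 : TA := .n a64_21 a64_53

def a16_5 : TA := .n a32_5 a32_21

def a512_13 : TA :=
 .n (.n (.n (.n (.n (.l (nat_lit 0x840002))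
 (.l (nat_lit 0x4047)))
 (.n (.l (nat_lit 0xa9154))
 (.l (nat_lit 0x1026688d522000c))))
 (.n (.n (.l (nat_lit 0x161236))
 (.l (nat_lit 0xe71b4)))
 (.l (nat_lit 0xc32c4))))
 (.n (.n (.n (.l (nat_lit 0xc80e5))
 (.l (nat_lit 0x161285)))
 (.l (nat_lit 0x422b4)))
 (.n (.n (.l (nat_lit 0x87006))
 (.l (nat_lit 0xc92a7)))
 (.l (nat_lit 0x1611f5)))))
 (.n (.n (.n (.n (.l (nat_lit 0x640282))
 (.l (nat_lit 0x20057)))
 (.l (nat_lit 0xcb074)))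
 (.n (.n (.l (nat_lit 0x22a6))
 (.l (nat_lit 0x64157)))
 (.l (nat_lit 0x2b094))))
 (.n (.n (.n (.l (nat_lit 0x126155))
 (.l (nat_lit 0x41304)))
 (.l (nat_lit 0x692b4)))
 (.n (.n (.l (nat_lit 0x88014))
 (.l (nat_lit 0xc8293)))
 (.l (nat_lit 0x1030b5)))))

def a512_269 : TA :=
 .n (.n (.n (.n (.n (.l (nat_lit 0x8000f2))
 (.l (nat_lit 0xc60b4)))
 (.l (nat_lit 0xc2055)))
 (.n (.n (.l (nat_lit 0x16b236))
 (.l (nat_lit 0xc20a7)))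
 (.l (nat_lit 0x622c5))))
 (.n (.n (.n (.l (nat_lit 0xe1034))
 (.l (nat_lit 0x670c4)))
 (.l (nat_lit 0xc5017)))
 (.n (.n (.l (nat_lit 0xc9026))
 (.l (nat_lit 0x14a073)))
 (.l (nat_lit 0x612d6)))))
 (.n (.n (.n (.n (.l (nat_lit 0x140044))
 (.l (nat_lit 0x1a5)))
 (.l (nat_lit 0xc8085)))
 (.n (.n (.l (nat_lit 0xea016))
 (.l (nat_lit 0x147207)))
 (.l (nat_lit 0xb115))))
 (.n (.n (.n (.l (nat_lit 0x432a4))
 (.l (nat_lit 0x230d4)))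
 (.l (nat_lit 0x14b106)))
 (.n (.n (.l (nat_lit 0xc4045))
 (.l (nat_lit 0x10400a)))
 (.l (nat_lit 0xa0196)))))

def a256_13 : TA := .n a512_13 a512_269

def a512_141 : TA :=
 .n (.n (.n (.n (.n (.l (nat_lit 0x100060))
 (.l (nat_lit 0x85047)))
 (.n (.l (nat_lit 0x66055))
 (.l (nat_lit 0xd414889902600c))))
 (.n (.n (.l (nat_lit 0x84044))
 (.l (nat_lit 0x69067)))
 (.l (nat_lit 0x160256))))
 (.n (.n (.n (.l (nat_lit 0x440e6))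
 (.l (nat_lit 0xe32f5)))
 (.l (nat_lit 0xa91d6)))
 (.n (.n (.l (nat_lit 0x1470e4))
 (.l (nat_lit 0x1033)))
 (.l (nat_lit 0x21265)))))
 (.n (.n (.n (.n (.l (nat_lit 0x84076))
 (.l (nat_lit 0x81284)))
 (.l (nat_lit 0xa5065)))
 (.n (.n (.l (nat_lit 0x165044))
 (.l (nat_lit 0xc51c7)))
 (.l (nat_lit 0xa0a5))))
 (.n (.n (.n (.l (nat_lit 0x103006))
 (.l (nat_lit 0x1641b6)))
 (.l (nat_lit 0xc2096)))
 (.n (.n (.l (nat_lit 0x14b036))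
 (.l (nat_lit 0x280009)))
 (.l (nat_lit 0x44125)))))

def a512_397 : TA :=
 .n (.n (.n (.n (.n (.l (nat_lit 0x4001c2))
 (.l (nat_lit 0x67274)))
 (.l (nat_lit 0x2a024)))
 (.n (.n (.l (nat_lit 0x672a5))
 (.l (nat_lit 0x1670e7)))
 (.l (nat_lit 0x8a027))))
 (.n (.n (.n (.l (nat_lit 0x4b156))
 (.l (nat_lit 0x224)))
 (.l (nat_lit 0xc8164)))
 (.n (.n (.l (nat_lit 0x161036))
 (.l (nat_lit 0x7153)))
 (.l (nat_lit 0xa2d4)))))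
 (.n (.n (.n (.n (.l (nat_lit 0x16b075))
 (.l (nat_lit 0xa0215)))
 (.l (nat_lit 0x1490f5)))
 (.n (.n (.l (nat_lit 0x4015))
 (.l (nat_lit 0x4a237)))
 (.l (nat_lit 0xc6185))))
 (.n (.n (.n (.l (nat_lit 0xc91c6))
 (.l (nat_lit 0xe40d4)))
 (.l (nat_lit 0x6a175)))
 (.n (.n (.l (nat_lit 0x169006))
 (.l (nat_lit 0xe889d2d400600c)))
 (.l (nat_lit 0x22274)))))

def a256_141 : TA := .n a512_141 a512_397

def a128_13 : TA := .n a256_13 a256_141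

def a512_77 : TA :=
 .n (.n (.n (.n (.n (.l (nat_lit 0x400032))
 (.l (nat_lit 0x64047)))
 (.n (.l (nat_lit 0x1055))
 (.l (nat_lit 0xd094a72902000c))))
 (.n (.n (.l (nat_lit 0x10a235))
 (.l (nat_lit 0x68144)))
 (.l (nat_lit 0xa3104))))
 (.n (.n (.n (.l (nat_lit 0xc12a4))
 (.l (nat_lit 0x462f5)))
 (.l (nat_lit 0x1201d6)))
 (.n (.n (.l (nat_lit 0x45026))
 (.l (nat_lit 0xc2013)))
 (.l (nat_lit 0x2266)))))
 (.n (.n (.n (.n (.l (nat_lit 0x1002d1))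
 (.l (nat_lit 0x1601a4)))
 (.l (nat_lit 0x40066)))
 (.n (.n (.l (nat_lit 0xa2a5))
 (.l (nat_lit 0x14a157)))
 (.l (nat_lit 0xb0a6))))
 (.n (.n (.n (.l (nat_lit 0x22074))
 (.l (nat_lit 0x102067)))
 (.l (nat_lit 0x62095)))
 (.n (.n (.l (nat_lit 0x3036))
 (.l (nat_lit 0x2200009)))
 (.l (nat_lit 0x230b5)))))

def a512_333 : TA :=
 .n (.n (.n (.n (.n (.l (nat_lit 0x440152))
 (.l (nat_lit 0x662e4)))
 (.l (nat_lit 0xa7055)))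
 (.n (.n (.l (nat_lit 0xc5005))
 (.l (nat_lit 0x430d7)))
 (.l (nat_lit 0x149094))))
 (.n (.n (.n (.l (nat_lit 0x65156))
 (.l (nat_lit 0xa81a4)))
 (.l (nat_lit 0x1222b5)))
 (.n (.n (.l (nat_lit 0x67234))
 (.l (nat_lit 0x1470e3)))
 (.l (nat_lit 0x86114)))))
 (.n (.n (.n (.n (.l (nat_lit 0xe4075))
 (.l (nat_lit 0x43057)))
 (.l (nat_lit 0x49085)))
 (.n (.n (.l (nat_lit 0x66005))
 (.l (nat_lit 0xc1237)))
 (.l (nat_lit 0x8a185))))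
 (.n (.n (.n (.l (nat_lit 0x1601c5))
 (.l (nat_lit 0x84144)))
 (.l (nat_lit 0xaa105)))
 (.n (.n (.l (nat_lit 0x49074))
 (.l (nat_lit 0x4a00b)))
 (.l (nat_lit 0xc0195)))))

def a256_77 : TA := .n a512_77 a512_333

def a512_205 : TA :=
 .n (.n (.n (.n (.n (.l (nat_lit 0x400a0))
 (.l (nat_lit 0x105194)))
 (.n (.l (nat_lit 0x14a234))
 (.l (nat_lit 0xd02a970522000c))))
 (.n (.n (.l (nat_lit 0x6236))
 (.l (nat_lit 0x148077)))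
 (.l (nat_lit 0x1022c5))))
 (.n (.n (.n (.l (nat_lit 0x1690e6))
 (.l (nat_lit 0x462f4)))
 (.l (nat_lit 0x1040f4)))
 (.n (.n (.l (nat_lit 0xe0025))
 (.l (nat_lit 0xc3053)))
 (.l (nat_lit 0x212d5)))))
 (.n (.n (.n (.n (.l (nat_lit 0x6a076))
 (.l (nat_lit 0x1212f4)))
 (.l (nat_lit 0x2b234)))
 (.n (.n (.l (nat_lit 0x103015))
 (.l (nat_lit 0x4b1c7)))
 (.l (nat_lit 0xc6116))))
 (.n (.n (.n (.l (nat_lit 0x881c6))
 (.l (nat_lit 0x167226)))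
 (.l (nat_lit 0x16b095)))
 (.n (.n (.l (nat_lit 0xe8064))
 (.l (nat_lit 0x1340009)))
 (.l (nat_lit 0x144126)))))

def a512_461 : TA :=
 .n (.n (.n (.n (.n (.l (nat_lit 0x100220))
 (.l (nat_lit 0x12b274)))
 (.l (nat_lit 0x143066)))
 (.n (.n (.l (nat_lit 0x851c4))
 (.l (nat_lit 0xc9107)))
 (.l (nat_lit 0x2a1e4))))
 (.n (.n (.n (.l (nat_lit 0x2064))
 (.l (nat_lit 0x160294)))
 (.l (nat_lit 0xc90f4)))
 (.n (.n (.l (nat_lit 0x10a035))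
 (.l (nat_lit 0x81c3)))
 (.l (nat_lit 0xb264)))))
 (.n (.n (.n (.n (.l (nat_lit 0xc1005))
 (.l (nat_lit 0x121286)))
 (.l (nat_lit 0xe90f6)))
 (.n (.n (.l (nat_lit 0x127004))
 (.l (nat_lit 0x148297)))
 (.l (nat_lit 0x851f5))))
 (.n (.n (.n (.l (nat_lit 0x63024))
 (.l (nat_lit 0xe8305)))
 (.l (nat_lit 0x62254)))
 (.n (.n (.l (nat_lit 0xc5046))
 (.l (nat_lit 0x222ec05560600c)))
 (.l (nat_lit 0x1430b4)))))

def a256_205 : TA := .n a512_205 a512_461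

def a128_77 : TA := .n a256_77 a256_205

def a64_13 : TA := .n a128_13 a128_77

def a512_45 : TA :=
 .n (.n (.n (.n (.n (.l (nat_lit 0x40020))
 (.l (nat_lit 0x106275)))
 (.n (.l (nat_lit 0x129024))
 (.l (nat_lit 0x14189ca0c42600c))))
 (.n (.n (.l (nat_lit 0x67236))
 (.l (nat_lit 0x1481b4)))
 (.l (nat_lit 0x1611e5))))
 (.n (.n (.n (.l (nat_lit 0x4b0e6))
 (.l (nat_lit 0xa41a4)))
 (.l (nat_lit 0x169166)))
 (.n (.n (.l (nat_lit 0x142025))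
 (.l (nat_lit 0x1432c7)))
 (.l (nat_lit 0x230a4)))))
 (.n (.n (.n (.n (.l (nat_lit 0x8802a2))
 (.l (nat_lit 0x1440c5)))
 (.l (nat_lit 0x14b2a4)))
 (.n (.n (.l (nat_lit 0x872a6))
 (.l (nat_lit 0xe7157)))
 (.l (nat_lit 0x830a5))))
 (.n (.n (.n (.l (nat_lit 0xe9156))
 (.l (nat_lit 0x87146)))
 (.l (nat_lit 0x2a084)))
 (.n (.n (.l (nat_lit 0x100035))
 (.l (nat_lit 0x492a3)))
 (.l (nat_lit 0xc0194)))))

def a512_301 : TA :=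
 .n (.n (.n (.n (.n (.l (nat_lit 0x100121))
 (.l (nat_lit 0x1462e4)))
 (.l (nat_lit 0x5056)))
 (.n (.n (.l (nat_lit 0x64024))
 (.l (nat_lit 0x1660a7)))
 (.l (nat_lit 0x6a2c5))))
 (.n (.n (.n (.l (nat_lit 0x142006))
 (.l (nat_lit 0xe72f4)))
 (.l (nat_lit 0x892b6)))
 (.n (.n (.l (nat_lit 0x16b025))
 (.l (nat_lit 0x70b3)))
 (.l (nat_lit 0x2b2d6)))))
 (.n (.n (.n (.n (.l (nat_lit 0x42076))
 (.l (nat_lit 0x1461a5)))
 (.l (nat_lit 0xc2086)))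
 (.n (.n (.l (nat_lit 0x1461c4))
 (.l (nat_lit 0x61227)))
 (.l (nat_lit 0x82037))))
 (.n (.n (.n (.l (nat_lit 0xc3054))
 (.l (nat_lit 0x101295)))
 (.l (nat_lit 0xc4106)))
 (.n (.n (.l (nat_lit 0x166046))
 (.l (nat_lit 0xc700b)))
 (.l (nat_lit 0xa7196)))))

def a256_45 : TA := .n a512_45 a512_301

def a512_173 : TA :=
 .n (.n (.n (.n (.n (.l (nat_lit 0x440072))
 (.l (nat_lit 0x1462e5)))
 (.n (.l (nat_lit 0xcb004))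
 (.l (nat_lit 0xd40ea35902600c))))
 (.n (.n (.l (nat_lit 0x100236))
 (.l (nat_lit 0xc4077)))
 (.l (nat_lit 0xca256))))
 (.n (.n (.n (.l (nat_lit 0xe60e5))
 (.l (nat_lit 0xa5214)))
 (.l (nat_lit 0x101245)))
 (.n (.n (.l (nat_lit 0x47054))
 (.l (nat_lit 0x102043)))
 (.l (nat_lit 0x2b266)))))
 (.n (.n (.n (.n (.l (nat_lit 0x167075))
 (.l (nat_lit 0x125135)))
 (.l (nat_lit 0x109065)))
 (.n (.n (.l (nat_lit 0x40016))
 (.l (nat_lit 0x1481c7)))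
 (.l (nat_lit 0xe0264))))
 (.n (.n (.n (.l (nat_lit 0x251c5))
 (.l (nat_lit 0x3067)))
 (.l (nat_lit 0x9095)))
 (.n (.n (.l (nat_lit 0x681c4))
 (.l (nat_lit 0x2300009)))
 (.l (nat_lit 0x2b126)))))

def a512_429 : TA :=
 .n (.n (.n (.n (.n (.l (nat_lit 0x1001f1))
 (.l (nat_lit 0x2b047)))
 (.l (nat_lit 0xa0065)))
 (.n (.n (.l (nat_lit 0x2a2a6))
 (.l (nat_lit 0x4b0e7)))
 (.l (nat_lit 0x10a254))))
 (.n (.n (.n (.l (nat_lit 0x1022a4))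
 (.l (nat_lit 0x1640d5)))
 (.l (nat_lit 0xe80f4)))
 (.n (.n (.l (nat_lit 0xa4035))
 (.l (nat_lit 0x41a3)))
 (.l (nat_lit 0x12a2d4)))))
 (.n (.n (.n (.n (.l (nat_lit 0x60024))
 (.l (nat_lit 0x23134)))
 (.l (nat_lit 0x1040f6)))
 (.n (.n (.l (nat_lit 0xa8016))
 (.l (nat_lit 0xc2267)))
 (.l (nat_lit 0x222d4))))
 (.n (.n (.n (.l (nat_lit 0x16b1c6))
 (.l (nat_lit 0x88306)))
 (.l (nat_lit 0x105176)))
 (.n (.n (.l (nat_lit 0x62045))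
 (.l (nat_lit 0x6889d8d400600c)))
 (.l (nat_lit 0x161206)))))

def a256_173 : TA := .n a512_173 a512_429

def a128_45 : TA := .n a256_45 a256_173

def a512_109 : TA :=
 .n (.n (.n (.n (.n (.l (nat_lit 0xa80042))
 (.l (nat_lit 0xc7275)))
 (.n (.l (nat_lit 0xe3056))
 (.l (nat_lit 0xd029886c02000c))))
 (.n (.n (.l (nat_lit 0x40e4))
 (.l (nat_lit 0xc9067)))
 (.l (nat_lit 0x6a255))))
 (.n (.n (.n (.l (nat_lit 0x141054))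
 (.l (nat_lit 0xe5057)))
 (.l (nat_lit 0xc30f4)))
 (.n (.n (.l (nat_lit 0xea026))
 (.l (nat_lit 0x80023)))
 (.l (nat_lit 0x1040a4)))))
 (.n (.n (.n (.n (.l (nat_lit 0x4))
 (.l (nat_lit 0xe5136)))
 (.l (nat_lit 0x162066)))
 (.n (.n (.l (nat_lit 0xe5154))
 (.l (nat_lit 0x641a7)))
 (.l (nat_lit 0xa20a6))))
 (.n (.n (.n (.l (nat_lit 0xa2034))
 (.l (nat_lit 0x281b5)))
 (.l (nat_lit 0x12a096)))
 (.n (.n (.l (nat_lit 0xe5036))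
 (.l (nat_lit 0x1240009)))
 (.l (nat_lit 0xa70b6)))))

def a512_365 : TA :=
 .n (.n (.n (.n (.n (.l (nat_lit 0x140181))
 (.l (nat_lit 0xc7204)))
 (.l (nat_lit 0x12a0e4)))
 (.n (.n (.l (nat_lit 0x1622a6))
 (.l (nat_lit 0xe30e7)))
 (.l (nat_lit 0x129094))))
 (.n (.n (.n (.l (nat_lit 0xc8155))
 (.l (nat_lit 0x1640d6)))
 (.l (nat_lit 0x650f4)))
 (.n (.n (.l (nat_lit 0xc8005))
 (.l (nat_lit 0x149103)))
 (.l (nat_lit 0x8a037)))))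
 (.n (.n (.n (.n (.l (nat_lit 0x89075))
 (.l (nat_lit 0x27216)))
 (.l (nat_lit 0xc1017)))
 (.n (.n (.l (nat_lit 0x101016))
 (.l (nat_lit 0x166237)))
 (.l (nat_lit 0x185))))
 (.n (.n (.n (.l (nat_lit 0x661c5))
 (.l (nat_lit 0x121295)))
 (.l (nat_lit 0x176)))
 (.n (.n (.l (nat_lit 0xc92a4))
 (.l (nat_lit 0x12a7488d102000c)))
 (.l (nat_lit 0x86195)))))

def a256_109 : TA := .n a512_109 a512_365

def a512_237 : TA :=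
 .n (.n (.n (.n (.n (.l (nat_lit 0x400d0))
 (.l (nat_lit 0xa62e6)))
 (.n (.l (nat_lit 0x6a006))
 (.l (nat_lit 0x150899b0322000c))))
 (.n (.n (.l (nat_lit 0x9235))
 (.l (nat_lit 0x6b077)))
 (.l (nat_lit 0x8b2c5))))
 (.n (.n (.n (.l (nat_lit 0x611c4))
 (.l (nat_lit 0xc7134)))
 (.l (nat_lit 0x168245)))
 (.n (.n (.l (nat_lit 0x23026))
 (.l (nat_lit 0x7063)))
 (.l (nat_lit 0x12b2d5)))))
 (.n (.n (.n (.n (.l (nat_lit 0xc01c4))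
 (.l (nat_lit 0xc61a6)))
 (.l (nat_lit 0x80017)))
 (.n (.n (.l (nat_lit 0x48015))
 (.l (nat_lit 0xea1f7)))
 (.l (nat_lit 0xa1037))))
 (.n (.n (.n (.l (nat_lit 0x16a1c5))
 (.l (nat_lit 0x103304)))
 (.l (nat_lit 0xe4106)))
 (.n (.n (.l (nat_lit 0x141046))
 (.l (nat_lit 0x14100a)))
 (.l (nat_lit 0x107126)))))

def a512_493 : TA :=
 .n (.n (.n (.n (.n (.l (nat_lit 0x140240))
 (.l (nat_lit 0x640c6)))
 (.l (nat_lit 0x67065)))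
 (.n (.n (.l (nat_lit 0x105054))
 (.l (nat_lit 0x145127)))
 (.l (nat_lit 0x8b104))))
 (.n (.n (.n (.l (nat_lit 0x84156))
 (.l (nat_lit 0x107145)))
 (.l (nat_lit 0x169017)))
 (.n (.n (.l (nat_lit 0x80e4))
 (.l (nat_lit 0x4a233)))
 (.l (nat_lit 0xab184)))))
 (.n (.n (.n (.n (.l (nat_lit 0x1640e6))
 (.l (nat_lit 0x44134)))
 (.l (nat_lit 0x8165)))
 (.n (.n (.l (nat_lit 0x262a4))
 (.l (nat_lit 0x462a7)))
 (.l (nat_lit 0x1030a4))))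
 (.n (.n (.n (.l (nat_lit 0xc4005))
 (.l (nat_lit 0x7144)))
 (.l (nat_lit 0x1011e6)))
 (.n (.n (.l (nat_lit 0xb046))
 (.l (nat_lit 0xe10a870d02600c)))
 (.l (nat_lit 0x121205)))))

def a256_237 : TA := .n a512_237 a512_493

def a128_109 : TA := .n a256_109 a256_237

def a64_45 : TA := .n a128_45 a128_109

def a32_13 : TA := .n a64_13 a64_45

def a512_29 : TA :=
 .n (.n (.n (.n (.n (.l (nat_lit 0x180011))
 (.l (nat_lit 0x121276)))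
 (.n (.l (nat_lit 0x292a4))
 (.l (nat_lit 0x12a0588d022600c))))
 (.n (.n (.l (nat_lit 0xc6235))
 (.l (nat_lit 0x480d4)))
 (.l (nat_lit 0x601e5))))
 (.n (.n (.n (.l (nat_lit 0x690e5))
 (.l (nat_lit 0x127285)))
 (.l (nat_lit 0x25165)))
 (.n (.n (.l (nat_lit 0x1026))
 (.l (nat_lit 0x6a2a7)))
 (.l (nat_lit 0x6a1f6)))))
 (.n (.n (.n (.n (.l (nat_lit 0xc02a0))
 (.l (nat_lit 0x1620c6)))
 (.l (nat_lit 0x4b1c4)))
 (.n (.n (.l (nat_lit 0x1032a5))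
 (.l (nat_lit 0x146157)))
 (.l (nat_lit 0x100037))))
 (.n (.n (.n (.l (nat_lit 0x148156))
 (.l (nat_lit 0xa3146)))
 (.l (nat_lit 0x14a0f4)))
 (.n (.n (.l (nat_lit 0x28005))
 (.l (nat_lit 0x462a3)))
 (.l (nat_lit 0xe60b5)))))

def a512_285 : TA :=
 .n (.n (.n (.n (.n (.l (nat_lit 0x40110))
 (.l (nat_lit 0x46204)))
 (.l (nat_lit 0xa3055)))
 (.n (.n (.l (nat_lit 0xe40e4))
 (.l (nat_lit 0x640a7)))
 (.l (nat_lit 0x492c5))))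
 (.n (.n (.n (.l (nat_lit 0x61064))
 (.l (nat_lit 0x1671a4)))
 (.l (nat_lit 0xe22b6)))
 (.n (.n (.l (nat_lit 0x6a025))
 (.l (nat_lit 0x142093)))
 (.l (nat_lit 0x32d5)))))
 (.n (.n (.n (.n (.l (nat_lit 0xe0005))
 (.l (nat_lit 0x451a6)))
 (.l (nat_lit 0xe9086)))
 (.n (.n (.l (nat_lit 0x460e4))
 (.l (nat_lit 0xe5217)))
 (.l (nat_lit 0x1211f4))))
 (.n (.n (.n (.l (nat_lit 0x143024))
 (.l (nat_lit 0x104067)))
 (.l (nat_lit 0x101254)))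
 (.n (.n (.l (nat_lit 0x65045))
 (.l (nat_lit 0x600a)))
 (.l (nat_lit 0x46196)))))

def a256_29 : TA := .n a512_29 a512_285

def a512_157 : TA :=
 .n (.n (.n (.n (.n (.l (nat_lit 0x8c0062))
 (.l (nat_lit 0x622e6)))
 (.n (.l (nat_lit 0x167056))
 (.l (nat_lit 0xd4a8876100000c))))
 (.n (.n (.l (nat_lit 0x24005))
 (.l (nat_lit 0x142077)))
 (.l (nat_lit 0x122255))))
 (.n (.n (.n (.l (nat_lit 0x1450e5))
 (.l (nat_lit 0x1272f6)))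
 (.l (nat_lit 0x4017)))
 (.n (.n (.l (nat_lit 0xc7234))
 (.l (nat_lit 0x104033)))
 (.l (nat_lit 0x66266)))))
 (.n (.n (.n (.n (.l (nat_lit 0x66075))
 (.l (nat_lit 0x4136)))
 (.l (nat_lit 0x8066)))
 (.n (.n (.l (nat_lit 0xc6005))
 (.l (nat_lit 0x471c7)))
 (.l (nat_lit 0x16b0a5))))
 (.n (.n (.n (.l (nat_lit 0x811c6))
 (.l (nat_lit 0x1671b5)))
 (.l (nat_lit 0xa3095)))
 (.n (.n (.l (nat_lit 0xe8074))
 (.l (nat_lit 0x12c0009)))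
 (.l (nat_lit 0x6126)))))

def a512_413 : TA :=
 .n (.n (.n (.n (.n (.l (nat_lit 0x801d0))
 (.l (nat_lit 0x4b0b4)))
 (.l (nat_lit 0x10b005)))
 (.n (.n (.l (nat_lit 0x492a6))
 (.l (nat_lit 0xc90e7)))
 (.l (nat_lit 0xa174))))
 (.n (.n (.n (.l (nat_lit 0x2074))
 (.l (nat_lit 0x160067)))
 (.l (nat_lit 0x1082b4)))
 (.n (.n (.l (nat_lit 0x103035))
 (.l (nat_lit 0x14a153)))
 (.l (nat_lit 0x2a1f4)))))
 (.n (.n (.n (.n (.l (nat_lit 0xe01c4))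
 (.l (nat_lit 0x87215)))
 (.l (nat_lit 0xc1244)))
 (.n (.n (.l (nat_lit 0x105015))
 (.l (nat_lit 0x16b237)))
 (.l (nat_lit 0x6b185))))
 (.n (.n (.n (.l (nat_lit 0x6a1c6))
 (.l (nat_lit 0x45067)))
 (.l (nat_lit 0x22c4)))
 (.n (.n (.l (nat_lit 0xc1045))
 (.l (nat_lit 0xe995831102000c)))
 (.l (nat_lit 0x143047)))))

def a256_157 : TA := .n a512_157 a512_413

def a128_29 : TA := .n a256_29 a256_157

def a512_93 : TA :=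
 .n (.n (.n (.n (.n (.l (nat_lit 0xc0040))
 (.l (nat_lit 0x161275)))
 (.n (.l (nat_lit 0x142056))
 (.l (nat_lit 0xd415a8e900000c))))
 (.n (.n (.l (nat_lit 0xab235))
 (.l (nat_lit 0x168224)))
 (.l (nat_lit 0x1255))))
 (.n (.n (.n (.l (nat_lit 0x41034))
 (.l (nat_lit 0x1672f5)))
 (.l (nat_lit 0xe91d5)))
 (.n (.n (.l (nat_lit 0x149025))
 (.l (nat_lit 0x105013)))
 (.l (nat_lit 0xb265)))))
 (.n (.n (.n (.n (.l (nat_lit 0x40300))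
 (.l (nat_lit 0xc1057)))
 (.l (nat_lit 0x141066)))
 (.n (.n (.l (nat_lit 0x14b2a6))
 (.l (nat_lit 0xe0187)))
 (.l (nat_lit 0x100184))))
 (.n (.n (.n (.l (nat_lit 0x1222a4))
 (.l (nat_lit 0x1641b5)))
 (.l (nat_lit 0x163096)))
 (.n (.n (.l (nat_lit 0x144036))
 (.l (nat_lit 0x200009)))
 (.l (nat_lit 0x1240b5)))))

def a512_349 : TA :=
 .n (.n (.n (.n (.n (.l (nat_lit 0x100161))
 (.l (nat_lit 0x1470b4)))
 (.l (nat_lit 0x2b004)))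
 (.n (.n (.l (nat_lit 0x612a5))
 (.l (nat_lit 0x1670d7)))
 (.l (nat_lit 0x149254))))
 (.n (.n (.n (.l (nat_lit 0x166156))
 (.l (nat_lit 0x430d5)))
 (.l (nat_lit 0xa82b5)))
 (.n (.n (.l (nat_lit 0x167044))
 (.l (nat_lit 0x1030f3)))
 (.l (nat_lit 0x66037)))))
 (.n (.n (.n (.n (.l (nat_lit 0xe7076))
 (.l (nat_lit 0x160216)))
 (.l (nat_lit 0x16a085)))
 (.n (.n (.l (nat_lit 0x166004))
 (.l (nat_lit 0x62237)))
 (.l (nat_lit 0x820a4))))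
 (.n (.n (.n (.l (nat_lit 0xc51c6))
 (.l (nat_lit 0x20296)))
 (.l (nat_lit 0x21254)))
 (.n (.n (.l (nat_lit 0x149154))
 (.l (nat_lit 0xcb00a)))
 (.l (nat_lit 0x124196)))))

def a256_93 : TA := .n a512_93 a512_349

def a512_221 : TA :=
 .n (.n (.n (.n (.n (.l (nat_lit 0x1400b1))
 (.l (nat_lit 0x1022e6)))
 (.n (.l (nat_lit 0xca024))
 (.l (nat_lit 0xc8899b0542000c))))
 (.n (.n (.l (nat_lit 0xa7235))
 (.l (nat_lit 0xca077)))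
 (.l (nat_lit 0xc92c6))))
 (.n (.n (.n (.l (nat_lit 0xcb0e5))
 (.l (nat_lit 0x1660c4)))
 (.l (nat_lit 0x101246)))
 (.n (.n (.l (nat_lit 0x42026))
 (.l (nat_lit 0x88053)))
 (.l (nat_lit 0x2a2d6)))))
 (.n (.n (.n (.n (.l (nat_lit 0x16b076))
 (.l (nat_lit 0x1241a5)))
 (.l (nat_lit 0x12b024)))
 (.n (.n (.l (nat_lit 0xe4016))
 (.l (nat_lit 0x1481d7)))
 (.l (nat_lit 0x411f4))))
 (.n (.n (.n (.l (nat_lit 0x691c5))
 (.l (nat_lit 0xc9225)))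
 (.l (nat_lit 0x101027)))
 (.n (.n (.l (nat_lit 0x40045))
 (.l (nat_lit 0xc000b)))
 (.l (nat_lit 0x6125)))))

def a512_477 : TA :=
 .n (.n (.n (.n (.n (.l (nat_lit 0xa00232))
 (.l (nat_lit 0x820c5)))
 (.l (nat_lit 0xe4066)))
 (.n (.n (.l (nat_lit 0x5034))
 (.l (nat_lit 0x64117)))
 (.l (nat_lit 0x12a2c4))))
 (.n (.n (.n (.l (nat_lit 0x122006))
 (.l (nat_lit 0x104145)))
 (.l (nat_lit 0x49244)))
 (.n (.n (.l (nat_lit 0xab036))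
 (.l (nat_lit 0x45213)))
 (.l (nat_lit 0x12b037)))))
 (.n (.n (.n (.n (.l (nat_lit 0x630e5))
 (.l (nat_lit 0x87286)))
 (.l (nat_lit 0x82017)))
 (.n (.n (.l (nat_lit 0xa6154))
 (.l (nat_lit 0xe22a7)))
 (.l (nat_lit 0xb1f5))))
 (.n (.n (.n (.l (nat_lit 0x163044))
 (.l (nat_lit 0x65224)))
 (.l (nat_lit 0x143027)))
 (.n (.n (.l (nat_lit 0xa6045))
 (.l (nat_lit 0x2568bb0142600c)))
 (.l (nat_lit 0x140206)))))

def a256_221 : TA := .n a512_221 a512_477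

def a128_93 : TA := .n a256_93 a256_221

def a64_29 : TA := .n a128_29 a128_93

def a512_61 : TA :=
 .n (.n (.n (.n (.n (.l (nat_lit 0xa40022))
 (.l (nat_lit 0x840b4)))
 (.n (.l (nat_lit 0x8a006))
 (.l (nat_lit 0x144688ae142000c))))
 (.n (.n (.l (nat_lit 0x168236))
 (.l (nat_lit 0xc8304)))
 (.l (nat_lit 0x12a1e6))))
 (.n (.n (.n (.l (nat_lit 0x142004))
 (.l (nat_lit 0x822f5)))
 (.l (nat_lit 0x122244)))
 (.n (.n (.l (nat_lit 0xe3025))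
 (.l (nat_lit 0xc22d7)))
 (.l (nat_lit 0x84037)))))
 (.n (.n (.n (.n (.l (nat_lit 0x2c0))
 (.l (nat_lit 0x1470c6)))
 (.l (nat_lit 0xcb044)))
 (.n (.n (.l (nat_lit 0x682a5))
 (.l (nat_lit 0x49157)))
 (.l (nat_lit 0x60a5))))
 (.n (.n (.n (.l (nat_lit 0x4b155))
 (.l (nat_lit 0xc9146)))
 (.l (nat_lit 0xaa244)))
 (.n (.n (.l (nat_lit 0xa1035))
 (.l (nat_lit 0x62d3)))
 (.l (nat_lit 0x820b6)))))

def a512_317 : TA :=
 .n (.n (.n (.n (.n (.l (nat_lit 0x800142))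
 (.l (nat_lit 0xe6194)))
 (.l (nat_lit 0x106056)))
 (.n (.n (.l (nat_lit 0x164044))
 (.l (nat_lit 0xc70b7)))
 (.l (nat_lit 0x65174))))
 (.n (.n (.n (.l (nat_lit 0xc4155))
 (.l (nat_lit 0x88134)))
 (.l (nat_lit 0x25017)))
 (.n (.n (.l (nat_lit 0xe70e4))
 (.l (nat_lit 0x450e3)))
 (.l (nat_lit 0x1251f4)))))
 (.n (.n (.n (.n (.l (nat_lit 0x143076))
 (.l (nat_lit 0xe20c4)))
 (.l (nat_lit 0x64085)))
 (.n (.n (.l (nat_lit 0xc6034))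
 (.l (nat_lit 0x167227)))
 (.l (nat_lit 0xc5185))))
 (.n (.n (.n (.l (nat_lit 0x63006))
 (.l (nat_lit 0x107296)))
 (.l (nat_lit 0x89106)))
 (.n (.n (.l (nat_lit 0xcb045))
 (.l (nat_lit 0x14800a)))
 (.l (nat_lit 0x102274)))))

def a256_61 : TA := .n a512_61 a512_317

def a512_189 : TA :=
 .n (.n (.n (.n (.n (.l (nat_lit 0x100081))
 (.l (nat_lit 0x2b2e5)))
 (.n (.l (nat_lit 0x4a154))
 (.l (nat_lit 0x1486a1ac442000c))))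
 (.n (.n (.l (nat_lit 0xa1235))
 (.l (nat_lit 0x47077)))
 (.l (nat_lit 0x124104))))
 (.n (.n (.n (.l (nat_lit 0x680e6))
 (.l (nat_lit 0xc6134)))
 (.l (nat_lit 0xc9246)))
 (.n (.n (.l (nat_lit 0x167005))
 (.l (nat_lit 0x147043)))
 (.l (nat_lit 0x124114)))))
 (.n (.n (.n (.n (.l (nat_lit 0xc9076))
 (.l (nat_lit 0x167136)))
 (.l (nat_lit 0xab0e4)))
 (.n (.n (.l (nat_lit 0x2015))
 (.l (nat_lit 0xe91c7)))
 (.l (nat_lit 0xc4115))))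
 (.n (.n (.n (.l (nat_lit 0x1261c6))
 (.l (nat_lit 0x160226)))
 (.l (nat_lit 0x14a095)))
 (.n (.n (.l (nat_lit 0x1682a4))
 (.l (nat_lit 0x300009)))
 (.l (nat_lit 0x141274)))))

def a512_445 : TA :=
 .n (.n (.n (.n (.n (.l (nat_lit 0xa40202))
 (.l (nat_lit 0x2b194)))
 (.l (nat_lit 0x2065)))
 (.n (.n (.l (nat_lit 0x12b2a5))
 (.l (nat_lit 0x1430f7)))
 (.l (nat_lit 0xaa094))))
 (.n (.n (.n (.l (nat_lit 0x82034))
 (.l (nat_lit 0x1490d5)))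
 (.l (nat_lit 0x1682b4)))
 (.n (.n (.l (nat_lit 0x6036))
 (.l (nat_lit 0x11c3)))
 (.l (nat_lit 0x8b114)))))
 (.n (.n (.n (.n (.l (nat_lit 0x160044))
 (.l (nat_lit 0x20285)))
 (.l (nat_lit 0x880f6)))
 (.n (.n (.l (nat_lit 0xa015))
 (.l (nat_lit 0x60287)))
 (.l (nat_lit 0x1001f5))))
 (.n (.n (.n (.l (nat_lit 0xe30e4))
 (.l (nat_lit 0x102306)))
 (.l (nat_lit 0xca176)))
 (.n (.n (.l (nat_lit 0x163045))
 (.l (nat_lit 0x160688ad102000c)))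
 (.l (nat_lit 0x147206)))))

def a256_189 : TA := .n a512_189 a512_445

def a128_61 : TA := .n a256_61 a256_189

def a512_125 : TA :=
 .n (.n (.n (.n (.n (.l (nat_lit 0x800052))
 (.l (nat_lit 0xe40b4)))
 (.n (.l (nat_lit 0xc5055))
 (.l (nat_lit 0x1183588e902000c))))
 (.n (.n (.l (nat_lit 0x104014))
 (.l (nat_lit 0x491b4)))
 (.l (nat_lit 0x4104))))
 (.n (.n (.n (.l (nat_lit 0xe1006))
 (.l (nat_lit 0x822f6)))
 (.l (nat_lit 0x1201d5)))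
 (.n (.n (.l (nat_lit 0x48004))
 (.l (nat_lit 0x89023)))
 (.l (nat_lit 0xa4037)))))
 (.n (.n (.n (.n (.l (nat_lit 0x122075))
 (.l (nat_lit 0x88135)))
 (.l (nat_lit 0x104065)))
 (.n (.n (.l (nat_lit 0x65024))
 (.l (nat_lit 0x1401c7)))
 (.l (nat_lit 0x440a5))))
 (.n (.n (.n (.l (nat_lit 0x22064))
 (.l (nat_lit 0x1420d4)))
 (.l (nat_lit 0x100174)))
 (.n (.n (.l (nat_lit 0x4a036))
 (.l (nat_lit 0x2280009)))
 (.l (nat_lit 0xe0194)))))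

def a512_381 : TA :=
 .n (.n (.n (.n (.n (.l (nat_lit 0x1001a0))
 (.l (nat_lit 0xa7047)))
 (.l (nat_lit 0xaa234)))
 (.n (.n (.l (nat_lit 0xc62a5))
 (.l (nat_lit 0x460e7)))
 (.l (nat_lit 0x1291e4))))
 (.n (.n (.n (.l (nat_lit 0xe9155))
 (.l (nat_lit 0x280d5)))
 (.l (nat_lit 0x148017)))
 (.n (.n (.l (nat_lit 0x60036))
 (.l (nat_lit 0x153)))
 (.l (nat_lit 0xa184)))))
 (.n (.n (.n (.n (.l (nat_lit 0x6a075))
 (.l (nat_lit 0x1032f4)))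
 (.l (nat_lit 0x650f6)))
 (.n (.n (.l (nat_lit 0xa2016))
 (.l (nat_lit 0xe8237)))
 (.l (nat_lit 0x144186))))
 (.n (.n (.n (.l (nat_lit 0x1671c5))
 (.l (nat_lit 0x108295)))
 (.l (nat_lit 0x165176)))
 (.n (.n (.l (nat_lit 0x49064))
 (.l (nat_lit 0xe895c0d102600c)))
 (.l (nat_lit 0x27195)))))

def a256_125 : TA := .n a512_125 a512_381

def a256_253 : TA :=
 .n (.n (.n (.n (.n (.n (.l (nat_lit 0x6000e2))
 (.l (nat_lit 0xa5124)))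
 (.l (nat_lit 0x160056)))
 (.n (.n (.l (nat_lit 0x2a236))
 (.l (nat_lit 0x168087)))
 (.l (nat_lit 0x65027))))
 (.n (.n (.n (.l (nat_lit 0x1612a4))
 (.l (nat_lit 0x47284)))
 (.l (nat_lit 0x14a246)))
 (.n (.n (.l (nat_lit 0x164026))
 (.l (nat_lit 0x102073)))
 (.l (nat_lit 0x851f4)))))
 (.n (.n (.n (.n (.l (nat_lit 0x40024))
 (.l (nat_lit 0x820c4)))
 (.l (nat_lit 0x43085)))
 (.n (.n (.l (nat_lit 0x149015))
 (.l (nat_lit 0x65207)))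
 (.l (nat_lit 0x5115))))
 (.n (.n (.n (.l (nat_lit 0xc4004))
 (.l (nat_lit 0x81225)))
 (.l (nat_lit 0x169105)))
 (.n (.n (.l (nat_lit 0xe2046))
 (.l (nat_lit 0x4300b)))
 (.l (nat_lit 0x121274))))))
 (.n (.n (.n (.n (.n (.l (nat_lit 0x270))
 (.l (nat_lit 0xa70c5)))
 (.l (nat_lit 0x168066)))
 (.n (.n (.l (nat_lit 0xa5006))
 (.l (nat_lit 0xc0157)))
 (.l (nat_lit 0x4b254))))
 (.n (.n (.n (.l (nat_lit 0x25155))
 (.l (nat_lit 0xe8145)))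
 (.l (nat_lit 0xe9164)))
 (.n (.n (.l (nat_lit 0x1081c4))
 (.l (nat_lit 0x88243)))
 (.l (nat_lit 0x2b2d4)))))
 (.n (.n (.n (.n (.l (nat_lit 0x1460e6))
 (.l (nat_lit 0x60286)))
 (.l (nat_lit 0x149165)))
 (.n (.n (.l (nat_lit 0x126044))
 (.l (nat_lit 0x1472a7)))
 (.l (nat_lit 0x1001f6))))
 (.n (.n (.n (.l (nat_lit 0x60235))
 (.l (nat_lit 0x127067)))
 (.l (nat_lit 0xea1e5)))
 (.n (.n (.l (nat_lit 0x12a004))
 (.l (nat_lit 0x5aa2335402000c)))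
 (.l (nat_lit 0x87205))))))

def a128_125 : TA := .n a256_125 a256_253

def a64_61 : TA := .n a128_61 a128_125

def a32_29 : TA := .n a64_29 a64_61

def a16_13 : TA := .n a32_13 a32_29

def a8_5 : TA := .n a16_5 a16_13

def a4_1 : TA := .n a8_1 a8_5

def a512_3 : TA :=
 .n (.n (.n (.n (.n (.l (nat_lit 0xc0000))
 (.l (nat_lit 0x8b206)))
 (.n (.l (nat_lit 0x129074))
 (.l (nat_lit 0x1016a82e522600c))))
 (.n (.n (.l (nat_lit 0x41235))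
 (.l (nat_lit 0x1670d4)))
 (.l (nat_lit 0xcb1e5))))
 (.n (.n (.n (.l (nat_lit 0x1470e5))
 (.l (nat_lit 0x41286)))
 (.l (nat_lit 0x6a165)))
 (.n (.n (.l (nat_lit 0x126054))
 (.l (nat_lit 0x1672a7)))
 (.l (nat_lit 0x1201f5)))))
 (.n (.n (.n (.n (.l (nat_lit 0x100271))
 (.l (nat_lit 0x801a4)))
 (.l (nat_lit 0x149066)))
 (.n (.n (.l (nat_lit 0x812a6))
 (.l (nat_lit 0xe0157)))
 (.l (nat_lit 0x8b2c4))))
 (.n (.n (.n (.l (nat_lit 0x6155))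
 (.l (nat_lit 0xc1224)))
 (.l (nat_lit 0xe91d4)))
 (.n (.n (.l (nat_lit 0x108234))
 (.l (nat_lit 0x8b253)))
 (.l (nat_lit 0x47)))))

def a512_259 : TA :=
 .n (.n (.n (.n (.n (.l (nat_lit 0x8c00e2))
 (.l (nat_lit 0xa5194)))
 (.l (nat_lit 0x141056)))
 (.n (.n (.l (nat_lit 0x4b236))
 (.l (nat_lit 0x162097)))
 (.l (nat_lit 0x612c6))))
 (.n (.n (.n (.l (nat_lit 0x161014))
 (.l (nat_lit 0x872f4)))
 (.l (nat_lit 0x164084)))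
 (.n (.n (.l (nat_lit 0x145025))
 (.l (nat_lit 0x7073)))
 (.l (nat_lit 0xa5037)))))
 (.n (.n (.n (.n (.l (nat_lit 0x40034))
 (.l (nat_lit 0x822f4)))
 (.l (nat_lit 0x63086)))
 (.n (.n (.l (nat_lit 0x169016))
 (.l (nat_lit 0x46207)))
 (.l (nat_lit 0x46115))))
 (.n (.n (.n (.l (nat_lit 0xc3074))
 (.l (nat_lit 0x88225)))
 (.l (nat_lit 0x6a106)))
 (.n (.n (.l (nat_lit 0x143046))
 (.l (nat_lit 0x10300b)))
 (.l (nat_lit 0x1212e4)))))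

def a256_3 : TA := .n a512_3 a512_259

def a512_131 : TA :=
 .n (.n (.n (.n (.n (.l (nat_lit 0x680052))
 (.l (nat_lit 0xe4124)))
 (.n (.l (nat_lit 0xe5055))
 (.l (nat_lit 0xd094a86c00000c))))
 (.n (.n (.l (nat_lit 0x104024))
 (.l (nat_lit 0x89224)))
 (.l (nat_lit 0x24027))))
 (.n (.n (.n (.l (nat_lit 0xc30e6))
 (.l (nat_lit 0xa22f5)))
 (.l (nat_lit 0x1011d5)))
 (.n (.n (.l (nat_lit 0x47074))
 (.l (nat_lit 0x8b023)))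
 (.l (nat_lit 0xa0266)))))
 (.n (.n (.n (.n (.l (nat_lit 0x103075))
 (.l (nat_lit 0xe8135)))
 (.l (nat_lit 0x124065)))
 (.n (.n (.l (nat_lit 0x65034))
 (.l (nat_lit 0x1411c7)))
 (.l (nat_lit 0x640a5))))
 (.n (.n (.n (.l (nat_lit 0x3005))
 (.l (nat_lit 0x142304)))
 (.l (nat_lit 0x1401e4)))
 (.n (.n (.l (nat_lit 0x6a036))
 (.l (nat_lit 0x1680009)))
 (.l (nat_lit 0xe0204)))))

def a512_387 : TA :=
 .n (.n (.n (.n (.n (.l (nat_lit 0x1c0))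
 (.l (nat_lit 0xa70b4)))
 (.l (nat_lit 0xaa2a4)))
 (.n (.n (.l (nat_lit 0xe62a5))
 (.l (nat_lit 0x470e7)))
 (.l (nat_lit 0x129254))))
 (.n (.n (.n (.l (nat_lit 0xca155))
 (.l (nat_lit 0x90d6)))
 (.l (nat_lit 0x148084)))
 (.n (.n (.l (nat_lit 0x41036))
 (.l (nat_lit 0x4153)))
 (.l (nat_lit 0xa1f4)))))
 (.n (.n (.n (.n (.l (nat_lit 0x4b075))
 (.l (nat_lit 0x123057)))
 (.l (nat_lit 0x480f5)))
 (.n (.n (.l (nat_lit 0x83016))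
 (.l (nat_lit 0xc9237)))
 (.l (nat_lit 0x145186))))
 (.n (.n (.n (.l (nat_lit 0x1481c5))
 (.l (nat_lit 0x128295)))
 (.l (nat_lit 0xa9175)))
 (.n (.n (.l (nat_lit 0x69005))
 (.l (nat_lit 0xe889d2d402600c)))
 (.l (nat_lit 0xab195)))))

def a256_131 : TA := .n a512_131 a512_387

def a128_3 : TA := .n a256_3 a256_131

def a512_67 : TA :=
 .n (.n (.n (.n (.n (.l (nat_lit 0x30))
 (.l (nat_lit 0x84124)))
 (.n (.l (nat_lit 0x80055))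
 (.l (nat_lit 0xd088872900000c))))
 (.n (.n (.l (nat_lit 0x149236))
 (.l (nat_lit 0xe8067)))
 (.l (nat_lit 0x10b1e6))))
 (.n (.n (.n (.l (nat_lit 0x1411c4))
 (.l (nat_lit 0xa22f6)))
 (.l (nat_lit 0x1222b4)))
 (.n (.n (.l (nat_lit 0xc4025))
 (.l (nat_lit 0xc0013)))
 (.l (nat_lit 0x81265)))))
 (.n (.n (.n (.n (.l (nat_lit 0x1002c1))
 (.l (nat_lit 0x80c6)))
 (.l (nat_lit 0xeb005)))
 (.n (.n (.l (nat_lit 0x492a5))
 (.l (nat_lit 0x69157)))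
 (.l (nat_lit 0xa0a6))))
 (.n (.n (.n (.l (nat_lit 0xab155))
 (.l (nat_lit 0x21294)))
 (.l (nat_lit 0x80027)))
 (.n (.n (.l (nat_lit 0x82035))
 (.l (nat_lit 0x432f3)))
 (.l (nat_lit 0xa20b6)))))

def a512_323 : TA :=
 .n (.n (.n (.n (.n (.l (nat_lit 0xc0150))
 (.l (nat_lit 0xe6204)))
 (.l (nat_lit 0x126056)))
 (.n (.n (.l (nat_lit 0x164054))
 (.l (nat_lit 0xc20c7)))
 (.l (nat_lit 0x49027))))
 (.n (.n (.n (.l (nat_lit 0xe4155))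
 (.l (nat_lit 0xa8057)))
 (.l (nat_lit 0x22b6)))
 (.n (.n (.l (nat_lit 0xe7154))
 (.l (nat_lit 0x460e3)))
 (.l (nat_lit 0x106037)))))
 (.n (.n (.n (.n (.l (nat_lit 0x163075))
 (.l (nat_lit 0xe2284)))
 (.l (nat_lit 0x88086)))
 (.n (.n (.l (nat_lit 0xc6044))
 (.l (nat_lit 0x140237)))
 (.l (nat_lit 0xe5186))))
 (.n (.n (.n (.l (nat_lit 0x401c6))
 (.l (nat_lit 0x108296)))
 (.l (nat_lit 0x129106)))
 (.n (.n (.l (nat_lit 0xeb045))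
 (.l (nat_lit 0x8900a)))
 (.l (nat_lit 0x1022e4)))))

def a256_67 : TA := .n a512_67 a512_323

def a512_195 : TA :=
 .n (.n (.n (.n (.n (.l (nat_lit 0x40090))
 (.l (nat_lit 0x5124)))
 (.n (.l (nat_lit 0x4a1c4))
 (.l (nat_lit 0x153222a5c00600c))))
 (.n (.n (.l (nat_lit 0x82235))
 (.l (nat_lit 0x67077)))
 (.l (nat_lit 0x105027))))
 (.n (.n (.n (.l (nat_lit 0x490e6))
 (.l (nat_lit 0xc61a4)))
 (.l (nat_lit 0x12a245)))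
 (.n (.n (.l (nat_lit 0x167006))
 (.l (nat_lit 0x14b043)))
 (.l (nat_lit 0x5037)))))
 (.n (.n (.n (.n (.l (nat_lit 0xe9076))
 (.l (nat_lit 0x21284)))
 (.l (nat_lit 0xab154)))
 (.n (.n (.l (nat_lit 0x22015))
 (.l (nat_lit 0xca1c7)))
 (.l (nat_lit 0xe4116))))
 (.n (.n (.n (.l (nat_lit 0x1071c6))
 (.l (nat_lit 0x25225)))
 (.l (nat_lit 0x16a095)))
 (.n (.n (.l (nat_lit 0x168014))
 (.l (nat_lit 0x2740009)))
 (.l (nat_lit 0x161047)))))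

def a512_451 : TA :=
 .n (.n (.n (.n (.n (.l (nat_lit 0x40210))
 (.l (nat_lit 0x2b204)))
 (.l (nat_lit 0x22065)))
 (.n (.n (.l (nat_lit 0x1050e4))
 (.l (nat_lit 0x1650f7)))
 (.l (nat_lit 0xaa104))))
 (.n (.n (.n (.l (nat_lit 0x82044))
 (.l (nat_lit 0x60224)))
 (.l (nat_lit 0x149017)))
 (.n (.n (.l (nat_lit 0x26036))
 (.l (nat_lit 0x51c3)))
 (.l (nat_lit 0x8b184)))))
 (.n (.n (.n (.n (.l (nat_lit 0x160054))
 (.l (nat_lit 0x1285)))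
 (.l (nat_lit 0xe80f6)))
 (.n (.n (.l (nat_lit 0x2a015))
 (.l (nat_lit 0x62297)))
 (.l (nat_lit 0x1201f6))))
 (.n (.n (.n (.l (nat_lit 0xe32a4))
 (.l (nat_lit 0x162305)))
 (.l (nat_lit 0xea176)))
 (.n (.n (.l (nat_lit 0x144046))
 (.l (nat_lit 0x16068c0d102600c)))
 (.l (nat_lit 0x2b205)))))

def a256_195 : TA := .n a512_195 a512_451

def a128_67 : TA := .n a256_67 a256_195

def a64_3 : TA := .n a128_3 a128_67

def a512_35 : TA :=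
 .n (.n (.n (.n (.n (.l (nat_lit 0x440012))
 (.l (nat_lit 0x142276)))
 (.n (.l (nat_lit 0x29014))
 (.l (nat_lit 0x102a5895320600c))))
 (.n (.n (.l (nat_lit 0xe6235))
 (.l (nat_lit 0x48144)))
 (.l (nat_lit 0x411e5))))
 (.n (.n (.n (.l (nat_lit 0x4a0e6))
 (.l (nat_lit 0x1240c4)))
 (.l (nat_lit 0x9166)))
 (.n (.n (.l (nat_lit 0x61026))
 (.l (nat_lit 0x6b2a7)))
 (.l (nat_lit 0x8b1f6)))))
 (.n (.n (.n (.n (.l (nat_lit 0x2002a2))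
 (.l (nat_lit 0x230c5)))
 (.l (nat_lit 0x4b234)))
 (.n (.n (.l (nat_lit 0x1232a5))
 (.l (nat_lit 0x166157)))
 (.l (nat_lit 0x1020a5))))
 (.n (.n (.n (.l (nat_lit 0x168156))
 (.l (nat_lit 0x84146)))
 (.l (nat_lit 0x8a244)))
 (.n (.n (.l (nat_lit 0x28006))
 (.l (nat_lit 0x472a3)))
 (.l (nat_lit 0xc70b5)))))

def a512_291 : TA :=
 .n (.n (.n (.n (.n (.l (nat_lit 0x140111))
 (.l (nat_lit 0x46274)))
 (.l (nat_lit 0x84055)))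
 (.n (.n (.l (nat_lit 0xe4154))
 (.l (nat_lit 0x460a7)))
 (.l (nat_lit 0x692c5))))
 (.n (.n (.n (.l (nat_lit 0x42005))
 (.l (nat_lit 0x167214)))
 (.l (nat_lit 0x1082b6)))
 (.n (.n (.l (nat_lit 0x4b025))
 (.l (nat_lit 0x40a3)))
 (.l (nat_lit 0x4a2d5)))))
 (.n (.n (.n (.n (.l (nat_lit 0xe0006))
 (.l (nat_lit 0x651a5)))
 (.l (nat_lit 0xc0244)))
 (.n (.n (.l (nat_lit 0x46154))
 (.l (nat_lit 0xe7217)))
 (.l (nat_lit 0x121264))))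
 (.n (.n (.n (.l (nat_lit 0x143034))
 (.l (nat_lit 0x140295)))
 (.l (nat_lit 0x121027)))
 (.n (.n (.l (nat_lit 0x46045))
 (.l (nat_lit 0xc600a)))
 (.l (nat_lit 0x66196)))))

def a256_35 : TA := .n a512_35 a512_291

def a512_163 : TA :=
 .n (.n (.n (.n (.n (.l (nat_lit 0xc0070))
 (.l (nat_lit 0x432e6)))
 (.n (.l (nat_lit 0x148056))
 (.l (nat_lit 0xec08876140000c))))
 (.n (.n (.l (nat_lit 0x24006))
 (.l (nat_lit 0x162077)))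
 (.l (nat_lit 0x109255))))
 (.n (.n (.n (.l (nat_lit 0x1650e5))
 (.l (nat_lit 0x125134)))
 (.l (nat_lit 0x20245)))
 (.n (.n (.l (nat_lit 0xc72a4))
 (.l (nat_lit 0x106033)))
 (.l (nat_lit 0x8a266)))))
 (.n (.n (.n (.n (.l (nat_lit 0x47075))
 (.l (nat_lit 0x24135)))
 (.l (nat_lit 0x28065)))
 (.n (.n (.l (nat_lit 0xc6006))
 (.l (nat_lit 0x671c7)))
 (.l (nat_lit 0x160184))))
 (.n (.n (.n (.l (nat_lit 0xa11c6))
 (.l (nat_lit 0x62294)))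
 (.l (nat_lit 0x84095)))
 (.n (.n (.l (nat_lit 0xe80e4))
 (.l (nat_lit 0x6c0009)))
 (.l (nat_lit 0x26126)))))

def a512_419 : TA :=
 .n (.n (.n (.n (.n (.l (nat_lit 0x401e0))
 (.l (nat_lit 0x4b204)))
 (.l (nat_lit 0x10b006)))
 (.n (.n (.l (nat_lit 0xa92a6))
 (.l (nat_lit 0xe90e7)))
 (.l (nat_lit 0xa1e4))))
 (.n (.n (.n (.l (nat_lit 0x2234))
 (.l (nat_lit 0x630d5)))
 (.l (nat_lit 0x128017)))
 (.n (.n (.l (nat_lit 0x123035))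
 (.l (nat_lit 0x193)))
 (.l (nat_lit 0x2a264)))))
 (.n (.n (.n (.n (.l (nat_lit 0xe0234))
 (.l (nat_lit 0xa7215)))
 (.l (nat_lit 0x1412b4)))
 (.n (.n (.l (nat_lit 0x125015))
 (.l (nat_lit 0x148247)))
 (.l (nat_lit 0xa20a4))))
 (.n (.n (.n (.l (nat_lit 0x4b1c6))
 (.l (nat_lit 0x82305)))
 (.l (nat_lit 0x22027)))
 (.n (.n (.l (nat_lit 0xe1045))
 (.l (nat_lit 0x6a7488d402600c)))
 (.l (nat_lit 0x20206)))))

def a256_163 : TA := .n a512_163 a512_419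

def a128_35 : TA := .n a256_35 a256_163

def a512_99 : TA :=
 .n (.n (.n (.n (.n (.l (nat_lit 0x200042))
 (.l (nat_lit 0x146276)))
 (.n (.l (nat_lit 0x162056))
 (.l (nat_lit 0xd029886c00000c))))
 (.n (.n (.l (nat_lit 0x85004))
 (.l (nat_lit 0x168294)))
 (.l (nat_lit 0x61256))))
 (.n (.n (.n (.l (nat_lit 0x41044))
 (.l (nat_lit 0x1451a4)))
 (.l (nat_lit 0xea1d5)))
 (.n (.n (.l (nat_lit 0x169025))
 (.l (nat_lit 0x108013)))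
 (.l (nat_lit 0x2b265)))))
 (.n (.n (.n (.n (.l (nat_lit 0x80005))
 (.l (nat_lit 0x104135)))
 (.l (nat_lit 0x161066)))
 (.n (.n (.l (nat_lit 0x16b2a6))
 (.l (nat_lit 0xc6187)))
 (.l (nat_lit 0x1001f4))))
 (.n (.n (.n (.l (nat_lit 0x122014))
 (.l (nat_lit 0x671b6)))
 (.l (nat_lit 0xa096)))
 (.n (.n (.l (nat_lit 0x164036))
 (.l (nat_lit 0x2640009)))
 (.l (nat_lit 0x1060b6)))))

def a512_355 : TA :=
 .n (.n (.n (.n (.n (.l (nat_lit 0x140170))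
 (.l (nat_lit 0x147124)))
 (.l (nat_lit 0x2a074)))
 (.n (.n (.l (nat_lit 0x422a5))
 (.l (nat_lit 0x1690d7)))
 (.l (nat_lit 0x1492c4))))
 (.n (.n (.n (.l (nat_lit 0x147156))
 (.l (nat_lit 0x630d6)))
 (.l (nat_lit 0xc92b5)))
 (.n (.n (.l (nat_lit 0x167054))
 (.l (nat_lit 0x1480f3)))
 (.l (nat_lit 0xe60a4)))))
 (.n (.n (.n (.n (.l (nat_lit 0x108076))
 (.l (nat_lit 0x25215)))
 (.l (nat_lit 0x1601d4)))
 (.n (.n (.l (nat_lit 0x140015))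
 (.l (nat_lit 0x46237)))
 (.l (nat_lit 0x82264))))
 (.n (.n (.n (.l (nat_lit 0xe51c6))
 (.l (nat_lit 0x1296)))
 (.l (nat_lit 0x612c4)))
 (.n (.n (.l (nat_lit 0x1491c4))
 (.l (nat_lit 0x12868d0d102000c)))
 (.l (nat_lit 0x105196)))))

def a256_99 : TA := .n a512_99 a512_355

def a512_227 : TA :=
 .n (.n (.n (.n (.n (.l (nat_lit 0x400c0))
 (.l (nat_lit 0x1222e5)))
 (.n (.l (nat_lit 0xca034))
 (.l (nat_lit 0xd036272902600c))))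
 (.n (.n (.l (nat_lit 0x88235))
 (.l (nat_lit 0xea077)))
 (.l (nat_lit 0x1292c6))))
 (.n (.n (.n (.l (nat_lit 0xeb0e5))
 (.l (nat_lit 0x147057)))
 (.l (nat_lit 0x121245)))
 (.n (.n (.l (nat_lit 0xa2026))
 (.l (nat_lit 0x81063)))
 (.l (nat_lit 0xb2d5)))))
 (.n (.n (.n (.n (.l (nat_lit 0x141004))
 (.l (nat_lit 0x1051a5)))
 (.l (nat_lit 0x12b034)))
 (.n (.n (.l (nat_lit 0xc5016))
 (.l (nat_lit 0x1411f7)))
 (.l (nat_lit 0xc1264))))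
 (.n (.n (.n (.l (nat_lit 0x4a1c5))
 (.l (nat_lit 0xc30d4)))
 (.l (nat_lit 0x163105)))
 (.n (.n (.l (nat_lit 0x60045))
 (.l (nat_lit 0x100a)))
 (.l (nat_lit 0x26125)))))

def a512_483 : TA :=
 .n (.n (.n (.n (.n (.l (nat_lit 0x880232))
 (.l (nat_lit 0xc30c5)))
 (.l (nat_lit 0xc5066)))
 (.n (.n (.l (nat_lit 0x5044))
 (.l (nat_lit 0x4b117)))
 (.l (nat_lit 0x10b027))))
 (.n (.n (.n (.l (nat_lit 0x100155))
 (.l (nat_lit 0x124146)))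
 (.l (nat_lit 0x492b4)))
 (.n (.n (.l (nat_lit 0x89004))
 (.l (nat_lit 0x85223)))
 (.l (nat_lit 0x12b0a4)))))
 (.n (.n (.n (.n (.l (nat_lit 0x440e5))
 (.l (nat_lit 0xe7286)))
 (.l (nat_lit 0x85165)))
 (.n (.n (.l (nat_lit 0xa61c4))
 (.l (nat_lit 0xc32a7)))
 (.l (nat_lit 0x2b1f5))))
 (.n (.n (.n (.l (nat_lit 0x163054))
 (.l (nat_lit 0x47067)))
 (.l (nat_lit 0x1401e5)))
 (.n (.n (.l (nat_lit 0x87045))
 (.l (nat_lit 0x2260cac140600c)))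
 (.l (nat_lit 0x160205)))))

def a256_227 : TA := .n a512_227 a512_483

def a128_99 : TA := .n a256_99 a256_227

def a64_35 : TA := .n a128_35 a128_99

def a32_3 : TA := .n a64_3 a64_35

def a512_19 : TA :=
 .n (.n (.n (.n (.n (.l (nat_lit 0xac0002))
 (.l (nat_lit 0x1275)))
 (.n (.l (nat_lit 0xa91c4))
 (.l (nat_lit 0x101a988cd42000c))))
 (.n (.n (.l (nat_lit 0x142236))
 (.l (nat_lit 0xe7224)))
 (.l (nat_lit 0xe3027))))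
 (.n (.n (.n (.l (nat_lit 0xe80e5))
 (.l (nat_lit 0x162285)))
 (.l (nat_lit 0x62017)))
 (.n (.n (.l (nat_lit 0x80026))
 (.l (nat_lit 0xe92a7)))
 (.l (nat_lit 0x251f6)))))
 (.n (.n (.n (.n (.l (nat_lit 0x140290))
 (.l (nat_lit 0x420c6)))
 (.l (nat_lit 0xcb0e4)))
 (.n (.n (.l (nat_lit 0x222a5))
 (.l (nat_lit 0x45157)))
 (.l (nat_lit 0x2b104))))
 (.n (.n (.n (.l (nat_lit 0x147155))
 (.l (nat_lit 0xe1067)))
 (.l (nat_lit 0x4a017)))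
 (.n (.n (.l (nat_lit 0x88054))
 (.l (nat_lit 0xc12a3)))
 (.l (nat_lit 0x1630b6)))))

def a512_275 : TA :=
 .n (.n (.n (.n (.n (.l (nat_lit 0x80100))
 (.l (nat_lit 0xc6124)))
 (.l (nat_lit 0xe2055)))
 (.n (.n (.l (nat_lit 0x165004))
 (.l (nat_lit 0xc30a7)))
 (.l (nat_lit 0x832c5))))
 (.n (.n (.n (.l (nat_lit 0xe1044))
 (.l (nat_lit 0x67134)))
 (.l (nat_lit 0x1412b5)))
 (.n (.n (.l (nat_lit 0xe9026))
 (.l (nat_lit 0x4083)))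
 (.l (nat_lit 0x822d6)))))
 (.n (.n (.n (.n (.l (nat_lit 0x140054))
 (.l (nat_lit 0xa01a5)))
 (.l (nat_lit 0x128085)))
 (.n (.n (.l (nat_lit 0xc7004))
 (.l (nat_lit 0x14b207)))
 (.l (nat_lit 0x2b115))))
 (.n (.n (.n (.l (nat_lit 0x43014))
 (.l (nat_lit 0x23144)))
 (.l (nat_lit 0x11e4)))
 (.n (.n (.l (nat_lit 0xe4045))
 (.l (nat_lit 0x4500a)))
 (.l (nat_lit 0xc5195)))))

def a256_19 : TA := .n a512_19 a512_275

def a512_147 : TA :=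
 .n (.n (.n (.n (.n (.l (nat_lit 0x400062))
 (.l (nat_lit 0xa12e5)))
 (.n (.l (nat_lit 0x47055))
 (.l (nat_lit 0xd521a86c00000c))))
 (.n (.n (.l (nat_lit 0x84054))
 (.l (nat_lit 0x690d4)))
 (.l (nat_lit 0x21255))))
 (.n (.n (.n (.l (nat_lit 0x640e5))
 (.l (nat_lit 0x72f6)))
 (.l (nat_lit 0xa3084)))
 (.n (.n (.l (nat_lit 0x147154))
 (.l (nat_lit 0x3033)))
 (.l (nat_lit 0x2265)))))
 (.n (.n (.n (.n (.l (nat_lit 0xa4076))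
 (.l (nat_lit 0x812f4)))
 (.l (nat_lit 0x87066)))
 (.n (.n (.l (nat_lit 0x165054))
 (.l (nat_lit 0xe51c7)))
 (.l (nat_lit 0x4b0a5))))
 (.n (.n (.n (.l (nat_lit 0x1001c5))
 (.l (nat_lit 0x251b5)))
 (.l (nat_lit 0xe2096)))
 (.n (.n (.l (nat_lit 0x16b035))
 (.l (nat_lit 0x26c0009)))
 (.l (nat_lit 0x64126)))))

def a512_403 : TA :=
 .n (.n (.n (.n (.n (.l (nat_lit 0x8401c2))
 (.l (nat_lit 0xa72e4)))
 (.l (nat_lit 0x2a034)))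
 (.n (.n (.l (nat_lit 0x882a6))
 (.l (nat_lit 0x1480e7)))
 (.l (nat_lit 0x8a094))))
 (.n (.n (.n (.l (nat_lit 0xab156))
 (.l (nat_lit 0x40294)))
 (.l (nat_lit 0x1081d4)))
 (.n (.n (.l (nat_lit 0x22036))
 (.l (nat_lit 0x9153)))
 (.l (nat_lit 0x6a037)))))
 (.n (.n (.n (.n (.l (nat_lit 0x161004))
 (.l (nat_lit 0x81215)))
 (.l (nat_lit 0x1690f5)))
 (.n (.n (.l (nat_lit 0x24015))
 (.l (nat_lit 0x4b237)))
 (.l (nat_lit 0xca186))))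
 (.n (.n (.n (.l (nat_lit 0xe91c6))
 (.l (nat_lit 0xe4144)))
 (.l (nat_lit 0x8b176)))
 (.n (.n (.l (nat_lit 0x140046))
 (.l (nat_lit 0xea9582d102600c)))
 (.l (nat_lit 0x622e4)))))

def a256_147 : TA := .n a512_147 a512_403

def a128_19 : TA := .n a256_19 a256_147

def a512_83 : TA :=
 .n (.n (.n (.n (.n (.l (nat_lit 0x840032))
 (.l (nat_lit 0x41276)))
 (.n (.l (nat_lit 0x21055))
 (.l (nat_lit 0xd581a32902000c))))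
 (.n (.n (.l (nat_lit 0x12a235))
 (.l (nat_lit 0x681b4)))
 (.l (nat_lit 0xa32c4))))
 (.n (.n (.n (.l (nat_lit 0xc1014))
 (.l (nat_lit 0x472f5)))
 (.l (nat_lit 0x1481d6)))
 (.n (.n (.l (nat_lit 0x65026))
 (.l (nat_lit 0x103013)))
 (.l (nat_lit 0x62266)))))
 (.n (.n (.n (.n (.l (nat_lit 0x802e0))
 (.l (nat_lit 0x160214)))
 (.l (nat_lit 0x60066)))
 (.n (.n (.l (nat_lit 0x2a2a5))
 (.l (nat_lit 0x16a157)))
 (.l (nat_lit 0x2b0a6))))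
 (.n (.n (.n (.l (nat_lit 0x22234))
 (.l (nat_lit 0x1001b6)))
 (.l (nat_lit 0x43095)))
 (.n (.n (.l (nat_lit 0x63036))
 (.l (nat_lit 0x1600009)))
 (.l (nat_lit 0x40b5)))))

def a512_339 : TA :=
 .n (.n (.n (.n (.n (.l (nat_lit 0xa80152))
 (.l (nat_lit 0x47047)))
 (.l (nat_lit 0x88055)))
 (.n (.n (.l (nat_lit 0xc5006))
 (.l (nat_lit 0x640d7)))
 (.l (nat_lit 0x149104))))
 (.n (.n (.n (.l (nat_lit 0x46156))
 (.l (nat_lit 0xc0067)))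
 (.l (nat_lit 0x232b5)))
 (.n (.n (.l (nat_lit 0x672a4))
 (.l (nat_lit 0x1480e3)))
 (.l (nat_lit 0x86184)))))
 (.n (.n (.n (.n (.l (nat_lit 0xe6076))
 (.l (nat_lit 0x40215)))
 (.l (nat_lit 0x69085)))
 (.n (.n (.l (nat_lit 0x66006))
 (.l (nat_lit 0xe1237)))
 (.l (nat_lit 0x10b186))))
 (.n (.n (.n (.l (nat_lit 0x1411c5))
 (.l (nat_lit 0x841b4)))
 (.l (nat_lit 0x8b105)))
 (.n (.n (.l (nat_lit 0x490e4))
 (.l (nat_lit 0x10a00b)))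
 (.l (nat_lit 0x120195)))))

def a256_83 : TA := .n a512_83 a512_339

def a512_211 : TA :=
 .n (.n (.n (.n (.n (.l (nat_lit 0x1400a1))
 (.l (nat_lit 0x125047)))
 (.n (.l (nat_lit 0x14a2a4))
 (.l (nat_lit 0xd086a70520600c))))
 (.n (.n (.l (nat_lit 0x26236))
 (.l (nat_lit 0x168077)))
 (.l (nat_lit 0x1222c6))))
 (.n (.n (.n (.l (nat_lit 0x14a0e5))
 (.l (nat_lit 0x66057)))
 (.l (nat_lit 0x124017)))
 (.n (.n (.l (nat_lit 0xc1025))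
 (.l (nat_lit 0x105053)))
 (.l (nat_lit 0x22d5)))))
 (.n (.n (.n (.n (.l (nat_lit 0x4b076))
 (.l (nat_lit 0x102057)))
 (.l (nat_lit 0x2b2a4)))
 (.n (.n (.l (nat_lit 0x123015))
 (.l (nat_lit 0x6b1c7)))
 (.l (nat_lit 0xcb116))))
 (.n (.n (.n (.l (nat_lit 0xe81c6))
 (.l (nat_lit 0x148226)))
 (.l (nat_lit 0x1601e4)))
 (.n (.n (.l (nat_lit 0xc9005))
 (.l (nat_lit 0x740009)))
 (.l (nat_lit 0x164125)))))

def a512_467 : TA :=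
 .n (.n (.n (.n (.n (.l (nat_lit 0xc0230))
 (.l (nat_lit 0x12b2e4)))
 (.l (nat_lit 0x163066)))
 (.n (.n (.l (nat_lit 0x85014))
 (.l (nat_lit 0xcb107)))
 (.l (nat_lit 0x2a254))))
 (.n (.n (.n (.l (nat_lit 0x22005))
 (.l (nat_lit 0x141067)))
 (.l (nat_lit 0xc9164)))
 (.n (.n (.l (nat_lit 0x12a035))
 (.l (nat_lit 0x451d3)))
 (.l (nat_lit 0xb2d4)))))
 (.n (.n (.n (.n (.l (nat_lit 0xc1006))
 (.l (nat_lit 0x122286)))
 (.l (nat_lit 0xca0f5)))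
 (.n (.n (.l (nat_lit 0x126074))
 (.l (nat_lit 0x1412a7)))
 (.l (nat_lit 0x61f6))))
 (.n (.n (.n (.l (nat_lit 0x63034))
 (.l (nat_lit 0xe5144)))
 (.l (nat_lit 0x622c4)))
 (.n (.n (.l (nat_lit 0x125046))
 (.l (nat_lit 0x2260ca5562000c)))
 (.l (nat_lit 0x432e4)))))

def a256_211 : TA := .n a512_211 a512_467

def a128_83 : TA := .n a256_83 a256_211

def a64_19 : TA := .n a128_19 a128_83

def a512_51 : TA :=
 .n (.n (.n (.n (.n (.l (nat_lit 0x140021))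
 (.l (nat_lit 0x126275)))
 (.n (.l (nat_lit 0x129064))
 (.l (nat_lit 0x16262c2d100000c))))
 (.n (.n (.l (nat_lit 0x48236))
 (.l (nat_lit 0x148224)))
 (.l (nat_lit 0xa1e6))))
 (.n (.n (.n (.l (nat_lit 0x6b0e6))
 (.l (nat_lit 0x85057)))
 (.l (nat_lit 0x22084)))
 (.n (.n (.l (nat_lit 0x162025))
 (.l (nat_lit 0x14a2c7)))
 (.l (nat_lit 0x63114)))))
 (.n (.n (.n (.n (.l (nat_lit 0x802b0))
 (.l (nat_lit 0x1640c5)))
 (.l (nat_lit 0x14b024)))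
 (.n (.n (.l (nat_lit 0xe72a6))
 (.l (nat_lit 0xc8157)))
 (.l (nat_lit 0xa30a6))))
 (.n (.n (.n (.l (nat_lit 0xca156))
 (.l (nat_lit 0x127146)))
 (.l (nat_lit 0x2a164)))
 (.n (.n (.l (nat_lit 0x120035))
 (.l (nat_lit 0x4a2a3)))
 (.l (nat_lit 0x100204)))))

def a512_307 : TA :=
 .n (.n (.n (.n (.n (.l (nat_lit 0x140130))
 (.l (nat_lit 0x1660b4)))
 (.l (nat_lit 0x25056)))
 (.n (.n (.l (nat_lit 0x64034))
 (.l (nat_lit 0x14a0a7)))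
 (.l (nat_lit 0xcb2c6))))
 (.n (.n (.n (.l (nat_lit 0x140156))
 (.l (nat_lit 0xc8057)))
 (.l (nat_lit 0xa92b6)))
 (.n (.n (.l (nat_lit 0x168004))
 (.l (nat_lit 0x440d3)))
 (.l (nat_lit 0x25184)))))
 (.n (.n (.n (.n (.l (nat_lit 0x62076))
 (.l (nat_lit 0x1471a5)))
 (.l (nat_lit 0xc3086)))
 (.n (.n (.l (nat_lit 0x146234))
 (.l (nat_lit 0x65227)))
 (.l (nat_lit 0xe0186))))
 (.n (.n (.n (.l (nat_lit 0xc3064))
 (.l (nat_lit 0x121296)))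
 (.l (nat_lit 0xe4105)))
 (.n (.n (.l (nat_lit 0x147046))
 (.l (nat_lit 0x800a)))
 (.l (nat_lit 0x12b196)))))

def a256_51 : TA := .n a512_51 a512_307

def a512_179 : TA :=
 .n (.n (.n (.n (.n (.l (nat_lit 0xa80072))
 (.l (nat_lit 0x1662e5)))
 (.n (.l (nat_lit 0xca074))
 (.l (nat_lit 0x1086a90e540000c))))
 (.n (.n (.l (nat_lit 0x120236))
 (.l (nat_lit 0xe4077)))
 (.l (nat_lit 0x24094))))
 (.n (.n (.n (.l (nat_lit 0xe70e6))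
 (.l (nat_lit 0x86057)))
 (.l (nat_lit 0x121246)))
 (.n (.n (.l (nat_lit 0x47064))
 (.l (nat_lit 0x144043)))
 (.l (nat_lit 0x240a4)))))
 (.n (.n (.n (.n (.l (nat_lit 0x148075))
 (.l (nat_lit 0x146135)))
 (.l (nat_lit 0x129065)))
 (.n (.n (.l (nat_lit 0x81015))
 (.l (nat_lit 0x1681c7)))
 (.l (nat_lit 0xc1037))))
 (.n (.n (.n (.l (nat_lit 0x61c6))
 (.l (nat_lit 0x225)))
 (.l (nat_lit 0x29095)))
 (.n (.n (.l (nat_lit 0x68234))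
 (.l (nat_lit 0x1700009)))
 (.l (nat_lit 0x41204)))))

def a512_435 : TA :=
 .n (.n (.n (.n (.n (.l (nat_lit 0x80200))
 (.l (nat_lit 0x2b0b4)))
 (.l (nat_lit 0x81065)))
 (.n (.n (.l (nat_lit 0xb2a5))
 (.l (nat_lit 0x6b0e7)))
 (.l (nat_lit 0x10a2c4))))
 (.n (.n (.n (.l (nat_lit 0x102014))
 (.l (nat_lit 0x1480d6)))
 (.l (nat_lit 0x168164)))
 (.n (.n (.l (nat_lit 0x85035))
 (.l (nat_lit 0x461a3)))
 (.l (nat_lit 0x10b037)))))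
 (.n (.n (.n (.n (.l (nat_lit 0x60034))
 (.l (nat_lit 0x632f4)))
 (.l (nat_lit 0x1240f5)))
 (.n (.n (.l (nat_lit 0x89016))
 (.l (nat_lit 0xea267)))
 (.l (nat_lit 0x3037))))
 (.n (.n (.n (.l (nat_lit 0x164004))
 (.l (nat_lit 0x1051b4)))
 (.l (nat_lit 0x125175)))
 (.n (.n (.l (nat_lit 0x43045))
 (.l (nat_lit 0xea81d2d402600c)))
 (.l (nat_lit 0x26206)))))

def a256_179 : TA := .n a512_179 a512_435

def a128_51 : TA := .n a256_51 a256_179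

def a512_115 : TA :=
 .n (.n (.n (.n (.n (.l (nat_lit 0x80050))
 (.l (nat_lit 0x127275)))
 (.n (.l (nat_lit 0x144056))
 (.l (nat_lit 0x1103588e900000c))))
 (.n (.n (.l (nat_lit 0x4154))
 (.l (nat_lit 0xc90d4)))
 (.l (nat_lit 0x4b255))))
 (.n (.n (.n (.l (nat_lit 0x141064))
 (.l (nat_lit 0x1012f6)))
 (.l (nat_lit 0x23017)))
 (.n (.n (.l (nat_lit 0xcb026))
 (.l (nat_lit 0x82023)))
 (.l (nat_lit 0x104114)))))
 (.n (.n (.n (.n (.l (nat_lit 0x2075))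
 (.l (nat_lit 0x107135)))
 (.l (nat_lit 0x23065)))
 (.n (.n (.l (nat_lit 0xe51c4))
 (.l (nat_lit 0x461a7)))
 (.l (nat_lit 0x830a6))))
 (.n (.n (.n (.l (nat_lit 0xa2044))
 (.l (nat_lit 0x91b5)))
 (.l (nat_lit 0x10b096)))
 (.n (.n (.l (nat_lit 0xc6035))
 (.l (nat_lit 0x640009)))
 (.l (nat_lit 0xcb0b5)))))

def a512_371 : TA :=
 .n (.n (.n (.n (.n (.l (nat_lit 0x40190))
 (.l (nat_lit 0xc7274)))
 (.l (nat_lit 0x12a154)))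
 (.n (.n (.l (nat_lit 0x1432a6))
 (.l (nat_lit 0xc50e7)))
 (.l (nat_lit 0x169104))))
 (.n (.n (.n (.l (nat_lit 0xe8155))
 (.l (nat_lit 0x270d5)))
 (.l (nat_lit 0x65164)))
 (.n (.n (.l (nat_lit 0xc8006))
 (.l (nat_lit 0x6113)))
 (.l (nat_lit 0x8a0a4)))))
 (.n (.n (.n (.n (.l (nat_lit 0xe9075))
 (.l (nat_lit 0x30c4)))
 (.l (nat_lit 0xc40f5)))
 (.n (.n (.l (nat_lit 0x121016))
 (.l (nat_lit 0x167237)))
 (.l (nat_lit 0x60185))))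
 (.n (.n (.n (.l (nat_lit 0x471c5))
 (.l (nat_lit 0x162295)))
 (.l (nat_lit 0x45175)))
 (.n (.n (.l (nat_lit 0xc9014))
 (.l (nat_lit 0x12a21d8d102600c)))
 (.l (nat_lit 0xa6195)))))

def a256_115 : TA := .n a512_115 a512_371

def a512_243 : TA :=
 .n (.n (.n (.n (.n (.l (nat_lit 0xe0))
 (.l (nat_lit 0x872e6)))
 (.n (.l (nat_lit 0x40056))
 (.l (nat_lit 0xd08ac35902600c))))
 (.n (.n (.l (nat_lit 0x29235))
 (.l (nat_lit 0x42087)))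
 (.l (nat_lit 0xc5104))))
 (.n (.n (.n (.l (nat_lit 0x61234))
 (.l (nat_lit 0xc71a4)))
 (.l (nat_lit 0x149245)))
 (.n (.n (.l (nat_lit 0x44026))
 (.l (nat_lit 0x9063)))
 (.l (nat_lit 0x105114)))))
 (.n (.n (.n (.n (.l (nat_lit 0xc0234))
 (.l (nat_lit 0xc71a6)))
 (.l (nat_lit 0x82085)))
 (.n (.n (.l (nat_lit 0x68015))
 (.l (nat_lit 0xeb1f7)))
 (.l (nat_lit 0x84116))))
 (.n (.n (.n (.l (nat_lit 0x14b1c5))
 (.l (nat_lit 0x123067)))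
 (.l (nat_lit 0x105106)))
 (.n (.n (.l (nat_lit 0x161046))
 (.l (nat_lit 0x8200a)))
 (.l (nat_lit 0x21204)))))

def a512_499 : TA :=
 .n (.n (.n (.n (.n (.l (nat_lit 0x100250))
 (.l (nat_lit 0xa60c5)))
 (.l (nat_lit 0x48065)))
 (.n (.n (.l (nat_lit 0x105064))
 (.l (nat_lit 0x165127)))
 (.l (nat_lit 0xcb174))))
 (.n (.n (.n (.l (nat_lit 0xa4156))
 (.l (nat_lit 0x167145)))
 (.l (nat_lit 0x169084)))
 (.n (.n (.l (nat_lit 0x8154))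
 (.l (nat_lit 0x8b233)))
 (.l (nat_lit 0xab1f4)))))
 (.n (.n (.n (.n (.l (nat_lit 0x1450e6))
 (.l (nat_lit 0x841a4)))
 (.l (nat_lit 0x28165)))
 (.n (.n (.l (nat_lit 0x26034))
 (.l (nat_lit 0x662a7)))
 (.l (nat_lit 0x1432d4))))
 (.n (.n (.n (.l (nat_lit 0xc4006))
 (.l (nat_lit 0x7294)))
 (.l (nat_lit 0x1691e5)))
 (.n (.n (.l (nat_lit 0x2b046))
 (.l (nat_lit 0xe2b182d100000c)))
 (.l (nat_lit 0x106205)))))

def a256_243 : TA := .n a512_243 a512_499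

def a128_115 : TA := .n a256_115 a256_243

def a64_51 : TA := .n a128_51 a128_115

def a32_19 : TA := .n a64_19 a64_51

def a16_3 : TA := .n a32_3 a32_19

def a512_11 : TA :=
 .n (.n (.n (.n (.n (.l (nat_lit 0x440002))
 (.l (nat_lit 0x1230b4)))
 (.n (.l (nat_lit 0x29154))
 (.l (nat_lit 0x1016a88cd40600c))))
 (.n (.n (.l (nat_lit 0xe1236))
 (.l (nat_lit 0x671b4)))
 (.l (nat_lit 0x432c4))))
 (.n (.n (.n (.l (nat_lit 0x480e5))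
 (.l (nat_lit 0xe1285)))
 (.l (nat_lit 0x142084)))
 (.n (.n (.l (nat_lit 0x7006))
 (.l (nat_lit 0x492a7)))
 (.l (nat_lit 0xa11f5)))))
 (.n (.n (.n (.n (.l (nat_lit 0x140281))
 (.l (nat_lit 0x100214)))
 (.l (nat_lit 0x4b074)))
 (.n (.n (.l (nat_lit 0x1212a6))
 (.l (nat_lit 0x144157)))
 (.l (nat_lit 0x12b027))))
 (.n (.n (.n (.l (nat_lit 0xa6155))
 (.l (nat_lit 0x141294)))
 (.l (nat_lit 0x169244)))
 (.n (.n (.l (nat_lit 0x8014))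
 (.l (nat_lit 0x48293)))
 (.l (nat_lit 0x830b5)))))

def a512_267 : TA :=
 .n (.n (.n (.n (.n (.l (nat_lit 0x1000f1))
 (.l (nat_lit 0x460b4)))
 (.l (nat_lit 0x42055)))
 (.n (.n (.l (nat_lit 0xeb236))
 (.l (nat_lit 0x420a7)))
 (.l (nat_lit 0x1422c6))))
 (.n (.n (.n (.l (nat_lit 0x61034))
 (.l (nat_lit 0x127057)))
 (.l (nat_lit 0x45017)))
 (.n (.n (.l (nat_lit 0x49026))
 (.l (nat_lit 0x8a073)))
 (.l (nat_lit 0x1412d6)))))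
 (.n (.n (.n (.n (.l (nat_lit 0xc0044))
 (.l (nat_lit 0x122057)))
 (.l (nat_lit 0x48085)))
 (.n (.n (.l (nat_lit 0x6a016))
 (.l (nat_lit 0xc7207)))
 (.l (nat_lit 0x10a115))))
 (.n (.n (.n (.l (nat_lit 0x1430e4))
 (.l (nat_lit 0x128225)))
 (.l (nat_lit 0xcb106)))
 (.n (.n (.l (nat_lit 0x44045))
 (.l (nat_lit 0xc400a)))
 (.l (nat_lit 0x20196)))))

def a256_11 : TA := .n a512_11 a512_267

def a512_139 : TA :=
 .n (.n (.n (.n (.n (.l (nat_lit 0x80060))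
 (.l (nat_lit 0x5047)))
 (.n (.l (nat_lit 0x146055))
 (.l (nat_lit 0xd589886c02000c))))
 (.n (.n (.l (nat_lit 0x4044))
 (.l (nat_lit 0x109294)))
 (.l (nat_lit 0xa0256))))
 (.n (.n (.n (.l (nat_lit 0x1630e6))
 (.l (nat_lit 0x632f5)))
 (.l (nat_lit 0x291d6)))
 (.n (.n (.l (nat_lit 0xc70e4))
 (.l (nat_lit 0x100033)))
 (.l (nat_lit 0x101266)))))
 (.n (.n (.n (.n (.l (nat_lit 0x4076))
 (.l (nat_lit 0x1284)))
 (.l (nat_lit 0x25065)))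
 (.n (.n (.l (nat_lit 0xe5044))
 (.l (nat_lit 0x451c7)))
 (.l (nat_lit 0x1060a6))))
 (.n (.n (.n (.l (nat_lit 0x83006))
 (.l (nat_lit 0xe41b6)))
 (.l (nat_lit 0x42096)))
 (.n (.n (.l (nat_lit 0xcb036))
 (.l (nat_lit 0x680009)))
 (.l (nat_lit 0x141047)))))

def a512_395 : TA :=
 .n (.n (.n (.n (.n (.l (nat_lit 0x1801c1))
 (.l (nat_lit 0x127194)))
 (.l (nat_lit 0x12a014)))
 (.n (.n (.l (nat_lit 0x1472a5))
 (.l (nat_lit 0xe70e7)))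
 (.l (nat_lit 0xa027))))
 (.n (.n (.n (.l (nat_lit 0x16a155))
 (.l (nat_lit 0xc01b4)))
 (.l (nat_lit 0x48164)))
 (.n (.n (.l (nat_lit 0xe1036))
 (.l (nat_lit 0x106153)))
 (.l (nat_lit 0x10a264)))))
 (.n (.n (.n (.n (.l (nat_lit 0xeb075))
 (.l (nat_lit 0x20215)))
 (.l (nat_lit 0xc90f5)))
 (.n (.n (.l (nat_lit 0x123016))
 (.l (nat_lit 0x169237)))
 (.l (nat_lit 0x46185))))
 (.n (.n (.n (.l (nat_lit 0x491c6))
 (.l (nat_lit 0x640d4)))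
 (.l (nat_lit 0x14a175)))
 (.n (.n (.l (nat_lit 0xe9006))
 (.l (nat_lit 0xe88982d400600c)))
 (.l (nat_lit 0x1220b4)))))

def a256_139 : TA := .n a512_139 a512_395

def a128_11 : TA := .n a256_11 a256_139

def a512_75 : TA :=
 .n (.n (.n (.n (.n (.l (nat_lit 0x180031))
 (.l (nat_lit 0x144194)))
 (.n (.l (nat_lit 0x120055))
 (.l (nat_lit 0xd116032902600c))))
 (.n (.n (.l (nat_lit 0x8a235))
 (.l (nat_lit 0x1680d4)))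
 (.l (nat_lit 0x23104))))
 (.n (.n (.n (.l (nat_lit 0x412a4))
 (.l (nat_lit 0x1032f6)))
 (.l (nat_lit 0x201d6)))
 (.n (.n (.l (nat_lit 0x164025))
 (.l (nat_lit 0x42013)))
 (.l (nat_lit 0x121266)))))
 (.n (.n (.n (.n (.l (nat_lit 0x1002d0))
 (.l (nat_lit 0xe01a4)))
 (.l (nat_lit 0x16b006)))
 (.n (.n (.l (nat_lit 0x1292a5))
 (.l (nat_lit 0xca157)))
 (.l (nat_lit 0x12a0a6))))
 (.n (.n (.n (.l (nat_lit 0x123004))
 (.l (nat_lit 0x82067)))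
 (.l (nat_lit 0x142095)))
 (.n (.n (.l (nat_lit 0x122035))
 (.l (nat_lit 0x2600009)))
 (.l (nat_lit 0x1030b6)))))

def a512_331 : TA :=
 .n (.n (.n (.n (.n (.l (nat_lit 0x800152))
 (.l (nat_lit 0x166274)))
 (.l (nat_lit 0x27055)))
 (.n (.n (.l (nat_lit 0x45005))
 (.l (nat_lit 0x1420d7)))
 (.l (nat_lit 0xc9094))))
 (.n (.n (.n (.l (nat_lit 0x145155))
 (.l (nat_lit 0x281a4)))
 (.l (nat_lit 0xa22b5)))
 (.n (.n (.l (nat_lit 0x1671c4))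
 (.l (nat_lit 0xc70e3)))
 (.l (nat_lit 0x6114)))))
 (.n (.n (.n (.n (.l (nat_lit 0x64075))
 (.l (nat_lit 0x1622f4)))
 (.l (nat_lit 0x128086)))
 (.n (.n (.l (nat_lit 0x146054))
 (.l (nat_lit 0x41237)))
 (.l (nat_lit 0x146186))))
 (.n (.n (.n (.l (nat_lit 0xe01c5))
 (.l (nat_lit 0x4144)))
 (.l (nat_lit 0x2a105)))
 (.n (.n (.l (nat_lit 0x14a004))
 (.l (nat_lit 0xa00b)))
 (.l (nat_lit 0x195)))))

def a256_75 : TA := .n a512_75 a512_331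

def a512_203 : TA :=
 .n (.n (.n (.n (.n (.l (nat_lit 0x8c0092))
 (.l (nat_lit 0x85194)))
 (.n (.l (nat_lit 0xca234))
 (.l (nat_lit 0xe02a970540000c))))
 (.n (.n (.l (nat_lit 0x122235))
 (.l (nat_lit 0xc8077)))
 (.l (nat_lit 0x822c5))))
 (.n (.n (.n (.l (nat_lit 0xe90e6))
 (.l (nat_lit 0x146284)))
 (.l (nat_lit 0x840f4)))
 (.n (.n (.l (nat_lit 0x60025))
 (.l (nat_lit 0x43053)))
 (.l (nat_lit 0x1012d5)))))
 (.n (.n (.n (.n (.l (nat_lit 0x14a076))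
 (.l (nat_lit 0xa12f4)))
 (.l (nat_lit 0x12b1c4)))
 (.n (.n (.l (nat_lit 0x83015))
 (.l (nat_lit 0x16a1c7)))
 (.l (nat_lit 0x46116))))
 (.n (.n (.n (.l (nat_lit 0x81c6))
 (.l (nat_lit 0xa7226)))
 (.l (nat_lit 0x6b095)))
 (.n (.n (.l (nat_lit 0x68064))
 (.l (nat_lit 0x1740009)))
 (.l (nat_lit 0xc4126)))))

def a512_459 : TA :=
 .n (.n (.n (.n (.n (.l (nat_lit 0x80220))
 (.l (nat_lit 0xab274)))
 (.l (nat_lit 0x83066)))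
 (.n (.n (.l (nat_lit 0x51c4))
 (.l (nat_lit 0x49107)))
 (.l (nat_lit 0x12a174))))
 (.n (.n (.n (.l (nat_lit 0x102054))
 (.l (nat_lit 0xe0294)))
 (.l (nat_lit 0x490f4)))
 (.n (.n (.l (nat_lit 0x8a035))
 (.l (nat_lit 0xc71c3)))
 (.l (nat_lit 0x10b1f4)))))
 (.n (.n (.n (.n (.l (nat_lit 0x41005))
 (.l (nat_lit 0xa1286)))
 (.l (nat_lit 0x290f6)))
 (.n (.n (.l (nat_lit 0xa7004))
 (.l (nat_lit 0xc8297)))
 (.l (nat_lit 0x51f5))))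
 (.n (.n (.n (.l (nat_lit 0x163014))
 (.l (nat_lit 0x68305)))
 (.l (nat_lit 0x162094)))
 (.n (.n (.l (nat_lit 0x45046))
 (.l (nat_lit 0x222ec05562000c)))
 (.l (nat_lit 0xc30b4)))))

def a256_203 : TA := .n a512_203 a512_459

def a128_75 : TA := .n a256_75 a256_203

def a64_11 : TA := .n a128_11 a128_75

def a512_43 : TA :=
 .n (.n (.n (.n (.n (.l (nat_lit 0xb00012))
 (.l (nat_lit 0x86275)))
 (.n (.l (nat_lit 0xa9024))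
 (.l (nat_lit 0x14189cacc42000c))))
 (.n (.n (.l (nat_lit 0x147236))
 (.l (nat_lit 0xc81b4)))
 (.l (nat_lit 0xe11e5))))
 (.n (.n (.n (.l (nat_lit 0x16a0e6))
 (.l (nat_lit 0x241a4)))
 (.l (nat_lit 0xa9166)))
 (.n (.n (.l (nat_lit 0xc2025))
 (.l (nat_lit 0xc32c7)))
 (.l (nat_lit 0x12b1f6)))))
 (.n (.n (.n (.n (.l (nat_lit 0xa402a2))
 (.l (nat_lit 0x840c5)))
 (.l (nat_lit 0xcb2a4)))
 (.n (.n (.l (nat_lit 0x72a6))
 (.l (nat_lit 0x67157)))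
 (.l (nat_lit 0x30a5))))
 (.n (.n (.n (.l (nat_lit 0x69156))
 (.l (nat_lit 0x164145)))
 (.l (nat_lit 0x12a017)))
 (.n (.n (.l (nat_lit 0x80035))
 (.l (nat_lit 0x1482a3)))
 (.l (nat_lit 0x194)))))

def a512_299 : TA :=
 .n (.n (.n (.n (.n (.l (nat_lit 0x100120))
 (.l (nat_lit 0xc62e4)))
 (.l (nat_lit 0x124055)))
 (.n (.n (.l (nat_lit 0x164014))
 (.l (nat_lit 0xe60a7)))
 (.l (nat_lit 0x14a2c5))))
 (.n (.n (.n (.l (nat_lit 0xc2006))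
 (.l (nat_lit 0x672f4)))
 (.l (nat_lit 0x92b6)))
 (.n (.n (.l (nat_lit 0xeb025))
 (.l (nat_lit 0x10a0a3)))
 (.l (nat_lit 0x10b2d6)))))
 (.n (.n (.n (.n (.l (nat_lit 0x160004))
 (.l (nat_lit 0xc61a5)))
 (.l (nat_lit 0x42086)))
 (.n (.n (.l (nat_lit 0xc61c4))
 (.l (nat_lit 0x141227)))
 (.l (nat_lit 0x2037))))
 (.n (.n (.n (.l (nat_lit 0x43054))
 (.l (nat_lit 0x81295)))
 (.l (nat_lit 0x44106)))
 (.n (.n (.l (nat_lit 0xe6046))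
 (.l (nat_lit 0x4700a)))
 (.l (nat_lit 0x147196)))))

def a256_43 : TA := .n a512_43 a512_299

def a512_171 : TA :=
 .n (.n (.n (.n (.n (.l (nat_lit 0x800072))
 (.l (nat_lit 0xc62e5)))
 (.n (.l (nat_lit 0x4b004))
 (.l (nat_lit 0x540ea22562000c))))
 (.n (.n (.l (nat_lit 0x80236))
 (.l (nat_lit 0x44077)))
 (.l (nat_lit 0x4a256))))
 (.n (.n (.n (.l (nat_lit 0x660e5))
 (.l (nat_lit 0x25214)))
 (.l (nat_lit 0x81245)))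
 (.n (.n (.l (nat_lit 0x147044))
 (.l (nat_lit 0x82043)))
 (.l (nat_lit 0x10b266)))))
 (.n (.n (.n (.n (.l (nat_lit 0xe7075))
 (.l (nat_lit 0xa5135)))
 (.l (nat_lit 0x89065)))
 (.n (.n (.l (nat_lit 0x146004))
 (.l (nat_lit 0xc81c7)))
 (.l (nat_lit 0x60264))))
 (.n (.n (.n (.l (nat_lit 0x1051c5))
 (.l (nat_lit 0x122304)))
 (.l (nat_lit 0x124095)))
 (.n (.n (.l (nat_lit 0x168154))
 (.l (nat_lit 0x2700009)))
 (.l (nat_lit 0x107125)))))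

def a512_427 : TA :=
 .n (.n (.n (.n (.n (.l (nat_lit 0x1001f0))
 (.l (nat_lit 0x10b2e4)))
 (.l (nat_lit 0x20065)))
 (.n (.n (.l (nat_lit 0x10a2a6))
 (.l (nat_lit 0x16a0e7)))
 (.l (nat_lit 0x8a254))))
 (.n (.n (.n (.l (nat_lit 0x822a4))
 (.l (nat_lit 0xe40d5)))
 (.l (nat_lit 0x680f4)))
 (.n (.n (.l (nat_lit 0x24035))
 (.l (nat_lit 0xcb193)))
 (.l (nat_lit 0xaa2d4)))))
 (.n (.n (.n (.n (.l (nat_lit 0x160014))
 (.l (nat_lit 0x1230c4)))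
 (.l (nat_lit 0x840f6)))
 (.n (.n (.l (nat_lit 0x28016))
 (.l (nat_lit 0x42267)))
 (.l (nat_lit 0x122264))))
 (.n (.n (.n (.l (nat_lit 0xeb1c6))
 (.l (nat_lit 0x8306)))
 (.l (nat_lit 0x85176)))
 (.n (.n (.l (nat_lit 0x142045))
 (.l (nat_lit 0x6a9488d400600c)))
 (.l (nat_lit 0xe1206)))))

def a256_171 : TA := .n a512_171 a512_427

def a128_43 : TA := .n a256_43 a256_171

def a512_107 : TA :=
 .n (.n (.n (.n (.n (.l (nat_lit 0x680042))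
 (.l (nat_lit 0x47275)))
 (.n (.l (nat_lit 0x63056))
 (.l (nat_lit 0xd52988ec02000c))))
 (.n (.n (.l (nat_lit 0x104074))
 (.l (nat_lit 0x49067)))
 (.l (nat_lit 0x129256))))
 (.n (.n (.n (.l (nat_lit 0xc1054))
 (.l (nat_lit 0x65057)))
 (.l (nat_lit 0x430f4)))
 (.n (.n (.l (nat_lit 0x6a026))
 (.l (nat_lit 0x23)))
 (.l (nat_lit 0x840a4)))))
 (.n (.n (.n (.n (.l (nat_lit 0x100006))
 (.l (nat_lit 0x65136)))
 (.l (nat_lit 0xe2066)))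
 (.n (.n (.l (nat_lit 0x65154))
 (.l (nat_lit 0x147197)))
 (.l (nat_lit 0x220a6))))
 (.n (.n (.n (.l (nat_lit 0x22034))
 (.l (nat_lit 0x1081b5)))
 (.l (nat_lit 0xaa096)))
 (.n (.n (.l (nat_lit 0x65036))
 (.l (nat_lit 0x1640009)))
 (.l (nat_lit 0x270b6)))))

def a512_363 : TA :=
 .n (.n (.n (.n (.n (.l (nat_lit 0x140180))
 (.l (nat_lit 0x47204)))
 (.l (nat_lit 0xaa0e4)))
 (.n (.n (.l (nat_lit 0xe22a6))
 (.l (nat_lit 0x630e7)))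
 (.l (nat_lit 0x69094))))
 (.n (.n (.n (.l (nat_lit 0x48155))
 (.l (nat_lit 0xe40d6)))
 (.l (nat_lit 0x1692b5)))
 (.n (.n (.l (nat_lit 0x48005))
 (.l (nat_lit 0xc9103)))
 (.l (nat_lit 0xa037)))))
 (.n (.n (.n (.n (.l (nat_lit 0x9075))
 (.l (nat_lit 0x107216)))
 (.l (nat_lit 0x41017)))
 (.n (.n (.l (nat_lit 0x81016))
 (.l (nat_lit 0xe6237)))
 (.l (nat_lit 0x1022d4))))
 (.n (.n (.n (.l (nat_lit 0x1461c5))
 (.l (nat_lit 0xa1295)))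
 (.l (nat_lit 0x102027)))
 (.n (.n (.l (nat_lit 0x492a4))
 (.l (nat_lit 0x12868d8d102000c)))
 (.l (nat_lit 0x6195)))))

def a256_107 : TA := .n a512_107 a512_363

def a512_235 : TA :=
 .n (.n (.n (.n (.n (.l (nat_lit 0xa800c2))
 (.l (nat_lit 0x262e6)))
 (.n (.l (nat_lit 0x16a005))
 (.l (nat_lit 0x150899b0320600c))))
 (.n (.n (.l (nat_lit 0x128235))
 (.l (nat_lit 0x14b077)))
 (.l (nat_lit 0xb2c5))))
 (.n (.n (.n (.l (nat_lit 0x162004))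
 (.l (nat_lit 0x47134)))
 (.l (nat_lit 0xe8245)))
 (.n (.n (.l (nat_lit 0x103026))
 (.l (nat_lit 0x104063)))
 (.l (nat_lit 0xab2d5)))))
 (.n (.n (.n (.n (.l (nat_lit 0x401c4))
 (.l (nat_lit 0x61a6)))
 (.l (nat_lit 0x17)))
 (.n (.n (.l (nat_lit 0x165016))
 (.l (nat_lit 0x6a1f7)))
 (.l (nat_lit 0x21037))))
 (.n (.n (.n (.l (nat_lit 0xea1c5))
 (.l (nat_lit 0x43304)))
 (.l (nat_lit 0x64106)))
 (.n (.n (.l (nat_lit 0xc1046))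
 (.l (nat_lit 0x10100a)))
 (.l (nat_lit 0x87126)))))

def a512_491 : TA :=
 .n (.n (.n (.n (.n (.l (nat_lit 0xc0240))
 (.l (nat_lit 0x1630c6)))
 (.l (nat_lit 0x147065)))
 (.n (.n (.l (nat_lit 0x85054))
 (.l (nat_lit 0xc5127)))
 (.l (nat_lit 0xb104))))
 (.n (.n (.n (.l (nat_lit 0x4156))
 (.l (nat_lit 0x7145)))
 (.l (nat_lit 0xe9017)))
 (.n (.n (.l (nat_lit 0x108074))
 (.l (nat_lit 0x140233)))
 (.l (nat_lit 0x2b184)))))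
 (.n (.n (.n (.n (.l (nat_lit 0xe40e6))
 (.l (nat_lit 0x1440c4)))
 (.l (nat_lit 0x125166)))
 (.n (.n (.l (nat_lit 0x126234))
 (.l (nat_lit 0x1632a7)))
 (.l (nat_lit 0x830a4))))
 (.n (.n (.n (.l (nat_lit 0x44005))
 (.l (nat_lit 0xc70d4)))
 (.l (nat_lit 0x811e6)))
 (.n (.n (.l (nat_lit 0x127045))
 (.l (nat_lit 0xe10a870d42000c)))
 (.l (nat_lit 0xa1205)))))

def a256_235 : TA := .n a512_235 a512_491

def a128_107 : TA := .n a256_107 a256_235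

def a64_43 : TA := .n a128_43 a128_107

def a32_11 : TA := .n a64_11 a64_43

def a512_27 : TA :=
 .n (.n (.n (.n (.n (.l (nat_lit 0x100011))
 (.l (nat_lit 0xa1276)))
 (.n (.l (nat_lit 0x129234))
 (.l (nat_lit 0x12a7602d100000c))))
 (.n (.n (.l (nat_lit 0x46235))
 (.l (nat_lit 0x148067)))
 (.l (nat_lit 0x1401e6))))
 (.n (.n (.n (.l (nat_lit 0x1490e5))
 (.l (nat_lit 0xa7285)))
 (.l (nat_lit 0x105166)))
 (.n (.n (.l (nat_lit 0x120026))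
 (.l (nat_lit 0x14a2a7)))
 (.l (nat_lit 0x14a1f6)))))
 (.n (.n (.n (.n (.l (nat_lit 0x402a0))
 (.l (nat_lit 0xe20c6)))
 (.l (nat_lit 0x14b154)))
 (.n (.n (.l (nat_lit 0x832a5))
 (.l (nat_lit 0xc6157)))
 (.l (nat_lit 0x80037))))
 (.n (.n (.n (.l (nat_lit 0xc8156))
 (.l (nat_lit 0x23146)))
 (.l (nat_lit 0xca0f4)))
 (.n (.n (.l (nat_lit 0x108064))
 (.l (nat_lit 0x1432a3)))
 (.l (nat_lit 0x660b5)))))

def a512_283 : TA :=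
 .n (.n (.n (.n (.n (.l (nat_lit 0xa80102))
 (.l (nat_lit 0x146194)))
 (.l (nat_lit 0x23055)))
 (.n (.n (.l (nat_lit 0x640e4))
 (.l (nat_lit 0x1440a7)))
 (.l (nat_lit 0x1632c5))))
 (.n (.n (.n (.l (nat_lit 0x161054))
 (.l (nat_lit 0xe71a4)))
 (.l (nat_lit 0x622b6)))
 (.n (.n (.l (nat_lit 0x14a026))
 (.l (nat_lit 0xc2093)))
 (.l (nat_lit 0x1222d5)))))
 (.n (.n (.n (.n (.l (nat_lit 0x60005))
 (.l (nat_lit 0x1241a6)))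
 (.l (nat_lit 0x29086)))
 (.n (.n (.l (nat_lit 0x146074))
 (.l (nat_lit 0x65217)))
 (.l (nat_lit 0xa11f4))))
 (.n (.n (.n (.l (nat_lit 0xc3024))
 (.l (nat_lit 0x84067)))
 (.l (nat_lit 0x81254)))
 (.n (.n (.l (nat_lit 0x145045))
 (.l (nat_lit 0x14500b)))
 (.l (nat_lit 0x165196)))))

def a256_27 : TA := .n a512_27 a512_283

def a512_155 : TA :=
 .n (.n (.n (.n (.n (.l (nat_lit 0x880062))
 (.l (nat_lit 0x1422e5)))
 (.n (.l (nat_lit 0xe7056))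
 (.l (nat_lit 0xd40e835902600c))))
 (.n (.n (.l (nat_lit 0x104064))
 (.l (nat_lit 0xc2077)))
 (.l (nat_lit 0xa2255))))
 (.n (.n (.n (.l (nat_lit 0xc50e5))
 (.l (nat_lit 0xa72f6)))
 (.l (nat_lit 0x1232b4)))
 (.n (.n (.l (nat_lit 0x47234))
 (.l (nat_lit 0x84033)))
 (.l (nat_lit 0x162265)))))
 (.n (.n (.n (.n (.l (nat_lit 0x106075))
 (.l (nat_lit 0x123136)))
 (.l (nat_lit 0x127066)))
 (.n (.n (.l (nat_lit 0x46005))
 (.l (nat_lit 0x1661c7)))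
 (.l (nat_lit 0xeb0a5))))
 (.n (.n (.n (.l (nat_lit 0x11c6))
 (.l (nat_lit 0xa71b5)))
 (.l (nat_lit 0x23095)))
 (.n (.n (.l (nat_lit 0x68074))
 (.l (nat_lit 0x16c0009)))
 (.l (nat_lit 0xe5126)))))

def a512_411 : TA :=
 .n (.n (.n (.n (.n (.l (nat_lit 0x1d0))
 (.l (nat_lit 0x14b047)))
 (.l (nat_lit 0x8b005)))
 (.n (.n (.l (nat_lit 0x1682a6))
 (.l (nat_lit 0x490e7)))
 (.l (nat_lit 0x10a104))))
 (.n (.n (.n (.l (nat_lit 0x103004))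
 (.l (nat_lit 0xe0067)))
 (.l (nat_lit 0x882b4)))
 (.n (.n (.l (nat_lit 0x83035))
 (.l (nat_lit 0xca153)))
 (.l (nat_lit 0x12a0a4)))))
 (.n (.n (.n (.n (.l (nat_lit 0x601c4))
 (.l (nat_lit 0x7215)))
 (.l (nat_lit 0x41244)))
 (.n (.n (.l (nat_lit 0x85015))
 (.l (nat_lit 0xeb237)))
 (.l (nat_lit 0x14b185))))
 (.n (.n (.n (.l (nat_lit 0x14a1c6))
 (.l (nat_lit 0x1641b4)))
 (.l (nat_lit 0x102094)))
 (.n (.n (.l (nat_lit 0x41045))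
 (.l (nat_lit 0xe995831100600c)))
 (.l (nat_lit 0xc3047)))))

def a256_155 : TA := .n a512_155 a512_411

def a128_27 : TA := .n a256_27 a256_155

def a512_91 : TA :=
 .n (.n (.n (.n (.n (.l (nat_lit 0x40040))
 (.l (nat_lit 0xe1275)))
 (.n (.l (nat_lit 0xc2056))
 (.l (nat_lit 0xd41588e900000c))))
 (.n (.n (.l (nat_lit 0x2b235))
 (.l (nat_lit 0xe8224)))
 (.l (nat_lit 0x104027))))
 (.n (.n (.n (.l (nat_lit 0x141024))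
 (.l (nat_lit 0xe72f5)))
 (.l (nat_lit 0x691d5)))
 (.n (.n (.l (nat_lit 0xc9025))
 (.l (nat_lit 0x85013)))
 (.l (nat_lit 0x12a265)))))
 (.n (.n (.n (.n (.l (nat_lit 0x1002f1))
 (.l (nat_lit 0x41057)))
 (.l (nat_lit 0xc1066)))
 (.n (.n (.l (nat_lit 0xcb2a6))
 (.l (nat_lit 0x60187)))
 (.l (nat_lit 0x80184))))
 (.n (.n (.n (.l (nat_lit 0xa22a4))
 (.l (nat_lit 0xe41b5)))
 (.l (nat_lit 0xe3096)))
 (.n (.n (.l (nat_lit 0xc4036))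
 (.l (nat_lit 0x600009)))
 (.l (nat_lit 0xa40b5)))))

def a512_347 : TA :=
 .n (.n (.n (.n (.n (.l (nat_lit 0x100160))
 (.l (nat_lit 0xc70b4)))
 (.l (nat_lit 0x128055)))
 (.n (.n (.l (nat_lit 0x1412a5))
 (.l (nat_lit 0xe70d7)))
 (.l (nat_lit 0xc9254))))
 (.n (.n (.n (.l (nat_lit 0xe6156))
 (.l (nat_lit 0x1420d5)))
 (.l (nat_lit 0x1482b5)))
 (.n (.n (.l (nat_lit 0xe7044))
 (.l (nat_lit 0x430f3)))
 (.l (nat_lit 0x1461f4)))))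
 (.n (.n (.n (.n (.l (nat_lit 0x67076))
 (.l (nat_lit 0xe0216)))
 (.l (nat_lit 0xea085)))
 (.n (.n (.l (nat_lit 0xe6004))
 (.l (nat_lit 0x142237)))
 (.l (nat_lit 0x20a4))))
 (.n (.n (.n (.l (nat_lit 0x451c6))
 (.l (nat_lit 0x124067)))
 (.l (nat_lit 0x1211e4)))
 (.n (.n (.l (nat_lit 0xc9154))
 (.l (nat_lit 0x8b00a)))
 (.l (nat_lit 0xa4196)))))

def a256_91 : TA := .n a512_91 a512_347

def a512_219 : TA :=
 .n (.n (.n (.n (.n (.l (nat_lit 0x1400b0))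
 (.l (nat_lit 0x422e6)))
 (.n (.l (nat_lit 0x4a024))
 (.l (nat_lit 0xc8899b0540000c))))
 (.n (.n (.l (nat_lit 0x147235))
 (.l (nat_lit 0x4a077)))
 (.l (nat_lit 0x92c6))))
 (.n (.n (.n (.l (nat_lit 0x4b0e5))
 (.l (nat_lit 0xe60c4)))
 (.l (nat_lit 0x81246)))
 (.n (.n (.l (nat_lit 0x161025))
 (.l (nat_lit 0x8053)))
 (.l (nat_lit 0x1232d6)))))
 (.n (.n (.n (.n (.l (nat_lit 0xeb076))
 (.l (nat_lit 0xa41a5)))
 (.l (nat_lit 0xab024)))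
 (.n (.n (.l (nat_lit 0x64016))
 (.l (nat_lit 0xc81d7)))
 (.l (nat_lit 0x16b116))))
 (.n (.n (.n (.l (nat_lit 0x1491c5))
 (.l (nat_lit 0x49225)))
 (.l (nat_lit 0x81027)))
 (.n (.n (.l (nat_lit 0x149006))
 (.l (nat_lit 0x8000b)))
 (.l (nat_lit 0x125125)))))

def a512_475 : TA :=
 .n (.n (.n (.n (.n (.l (nat_lit 0x600232))
 (.l (nat_lit 0x20c5)))
 (.l (nat_lit 0x64066)))
 (.n (.n (.l (nat_lit 0x105024))
 (.l (nat_lit 0x144117)))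
 (.l (nat_lit 0xaa2c4))))
 (.n (.n (.n (.l (nat_lit 0xa2006))
 (.l (nat_lit 0x84145)))
 (.l (nat_lit 0x1491d4)))
 (.n (.n (.l (nat_lit 0x2b036))
 (.l (nat_lit 0x14a1f3)))
 (.l (nat_lit 0xab037)))))
 (.n (.n (.n (.n (.l (nat_lit 0x1430e5))
 (.l (nat_lit 0x7286)))
 (.l (nat_lit 0x2017)))
 (.n (.n (.l (nat_lit 0x26154))
 (.l (nat_lit 0x622a7)))
 (.l (nat_lit 0x12a1f5))))
 (.n (.n (.n (.l (nat_lit 0xe3044))
 (.l (nat_lit 0x1651b4)))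
 (.l (nat_lit 0xc3027)))
 (.n (.n (.l (nat_lit 0x26045))
 (.l (nat_lit 0x2560cac142600c)))
 (.l (nat_lit 0xc0206)))))

def a256_219 : TA := .n a512_219 a512_475

def a128_91 : TA := .n a256_91 a256_219

def a64_27 : TA := .n a128_27 a128_91

def a512_59 : TA :=
 .n (.n (.n (.n (.n (.l (nat_lit 0x640022))
 (.l (nat_lit 0x40b4)))
 (.n (.l (nat_lit 0xa006))
 (.l (nat_lit 0x11a22b85502600c))))
 (.n (.n (.l (nat_lit 0xe8236))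
 (.l (nat_lit 0x48304)))
 (.l (nat_lit 0xaa1e6))))
 (.n (.n (.n (.l (nat_lit 0xc2004))
 (.l (nat_lit 0x22f5)))
 (.l (nat_lit 0xa2244)))
 (.n (.n (.l (nat_lit 0x63025))
 (.l (nat_lit 0x422d7)))
 (.l (nat_lit 0x4037)))))
 (.n (.n (.n (.n (.l (nat_lit 0xac02b2))
 (.l (nat_lit 0xc70c6)))
 (.l (nat_lit 0x4b044)))
 (.n (.n (.l (nat_lit 0x1482a5))
 (.l (nat_lit 0x168157)))
 (.l (nat_lit 0x1040a6))))
 (.n (.n (.n (.l (nat_lit 0x16a156))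
 (.l (nat_lit 0x49146)))
 (.l (nat_lit 0x16a1d4)))
 (.n (.n (.l (nat_lit 0x21035))
 (.l (nat_lit 0x1012d3)))
 (.l (nat_lit 0x20b6)))))

def a512_315 : TA :=
 .n (.n (.n (.n (.n (.l (nat_lit 0x180141))
 (.l (nat_lit 0x66194)))
 (.l (nat_lit 0x86056)))
 (.n (.n (.l (nat_lit 0xe4044))
 (.l (nat_lit 0x470b7)))
 (.l (nat_lit 0x165104))))
 (.n (.n (.n (.l (nat_lit 0x44155))
 (.l (nat_lit 0x8134)))
 (.l (nat_lit 0x105164)))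
 (.n (.n (.l (nat_lit 0x670e4))
 (.l (nat_lit 0x1430e3)))
 (.l (nat_lit 0xa51f4)))))
 (.n (.n (.n (.n (.l (nat_lit 0xc3076))
 (.l (nat_lit 0x620c4)))
 (.l (nat_lit 0x163085)))
 (.n (.n (.l (nat_lit 0x46034))
 (.l (nat_lit 0xe7227)))
 (.l (nat_lit 0x45185))))
 (.n (.n (.n (.l (nat_lit 0x163005))
 (.l (nat_lit 0x87296)))
 (.l (nat_lit 0x165105)))
 (.n (.n (.l (nat_lit 0x4b045))
 (.l (nat_lit 0x10800a)))
 (.l (nat_lit 0x82274)))))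

def a256_59 : TA := .n a512_59 a512_315

def a512_187 : TA :=
 .n (.n (.n (.n (.n (.l (nat_lit 0x100080))
 (.l (nat_lit 0xcb2e5)))
 (.n (.l (nat_lit 0x14a0e4))
 (.l (nat_lit 0xd031aae102600c))))
 (.n (.n (.l (nat_lit 0x21235))
 (.l (nat_lit 0x166077)))
 (.l (nat_lit 0xa4104))))
 (.n (.n (.n (.l (nat_lit 0x1480e6))
 (.l (nat_lit 0x46134)))
 (.l (nat_lit 0x49246)))
 (.n (.n (.l (nat_lit 0xe7005))
 (.l (nat_lit 0x87043)))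
 (.l (nat_lit 0xa4114)))))
 (.n (.n (.n (.n (.l (nat_lit 0x49076))
 (.l (nat_lit 0xe7136)))
 (.l (nat_lit 0x2b0e4)))
 (.n (.n (.l (nat_lit 0x121015))
 (.l (nat_lit 0x691c7)))
 (.l (nat_lit 0x44115))))
 (.n (.n (.n (.l (nat_lit 0xa61c6))
 (.l (nat_lit 0xe0226)))
 (.l (nat_lit 0xca095)))
 (.n (.n (.l (nat_lit 0xe82a4))
 (.l (nat_lit 0x700009)))
 (.l (nat_lit 0xc1274)))))

def a512_443 : TA :=
 .n (.n (.n (.n (.n (.l (nat_lit 0x800202))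
 (.l (nat_lit 0x12b124)))
 (.l (nat_lit 0x121065)))
 (.n (.n (.l (nat_lit 0xab2a5))
 (.l (nat_lit 0xc30f7)))
 (.l (nat_lit 0x2a094))))
 (.n (.n (.n (.l (nat_lit 0x2034))
 (.l (nat_lit 0xc90d5)))
 (.l (nat_lit 0xe82b4)))
 (.n (.n (.l (nat_lit 0x125035))
 (.l (nat_lit 0x1071a3)))
 (.l (nat_lit 0xb114)))))
 (.n (.n (.n (.n (.l (nat_lit 0xe0044))
 (.l (nat_lit 0x104057)))
 (.l (nat_lit 0x80f6)))
 (.n (.n (.l (nat_lit 0x129015))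
 (.l (nat_lit 0x16b277)))
 (.l (nat_lit 0x801f5))))
 (.n (.n (.n (.l (nat_lit 0x630e4))
 (.l (nat_lit 0x82306)))
 (.l (nat_lit 0x4a176)))
 (.n (.n (.l (nat_lit 0xe3045))
 (.l (nat_lit 0xea81d2d402000c)))
 (.l (nat_lit 0x87206)))))

def a256_187 : TA := .n a512_187 a512_443

def a128_59 : TA := .n a256_59 a256_187

def a512_123 : TA :=
 .n (.n (.n (.n (.n (.l (nat_lit 0x400052))
 (.l (nat_lit 0x640b4)))
 (.n (.l (nat_lit 0x45055))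
 (.l (nat_lit 0x1103598e900600c))))
 (.n (.n (.l (nat_lit 0x84014))
 (.l (nat_lit 0x149144)))
 (.l (nat_lit 0x104094))))
 (.n (.n (.n (.l (nat_lit 0x61006))
 (.l (nat_lit 0x22f6)))
 (.l (nat_lit 0xa01d5)))
 (.n (.n (.l (nat_lit 0x16b026))
 (.l (nat_lit 0x9023)))
 (.l (nat_lit 0x24037)))))
 (.n (.n (.n (.n (.l (nat_lit 0xa2075))
 (.l (nat_lit 0x8135)))
 (.l (nat_lit 0x84065)))
 (.n (.n (.l (nat_lit 0x165014))
 (.l (nat_lit 0xc01c7)))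
 (.l (nat_lit 0x1630a5))))
 (.n (.n (.n (.l (nat_lit 0x122054))
 (.l (nat_lit 0xc20d4)))
 (.l (nat_lit 0x80174)))
 (.n (.n (.l (nat_lit 0x166035))
 (.l (nat_lit 0x2680009)))
 (.l (nat_lit 0x60194)))))

def a512_379 : TA :=
 .n (.n (.n (.n (.n (.l (nat_lit 0x801a0))
 (.l (nat_lit 0x27047)))
 (.l (nat_lit 0x2a234)))
 (.n (.n (.l (nat_lit 0x462a5))
 (.l (nat_lit 0x1650e7)))
 (.l (nat_lit 0xa91e4))))
 (.n (.n (.n (.l (nat_lit 0x69155))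
 (.l (nat_lit 0x1080d5)))
 (.l (nat_lit 0xc8017)))
 (.n (.n (.l (nat_lit 0x140036))
 (.l (nat_lit 0x10b123)))
 (.l (nat_lit 0x10a114)))))
 (.n (.n (.n (.n (.l (nat_lit 0x14a075))
 (.l (nat_lit 0x832f4)))
 (.l (nat_lit 0x1640f6)))
 (.n (.n (.l (nat_lit 0x22016))
 (.l (nat_lit 0x68237)))
 (.l (nat_lit 0xc4186))))
 (.n (.n (.n (.l (nat_lit 0xe71c5))
 (.l (nat_lit 0x88295)))
 (.l (nat_lit 0xe5176)))
 (.n (.n (.l (nat_lit 0x149024))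
 (.l (nat_lit 0xe894c0d102000c)))
 (.l (nat_lit 0x107195)))))

def a256_123 : TA := .n a512_123 a512_379

def a256_251 : TA :=
 .n (.n (.n (.n (.n (.n (.l (nat_lit 0x2000e2))
 (.l (nat_lit 0x25124)))
 (.l (nat_lit 0xe0056)))
 (.n (.n (.l (nat_lit 0x10a236))
 (.l (nat_lit 0xe8087)))
 (.l (nat_lit 0x145174))))
 (.n (.n (.n (.l (nat_lit 0xe12a4))
 (.l (nat_lit 0x147214)))
 (.l (nat_lit 0xca246)))
 (.n (.n (.l (nat_lit 0xe4026))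
 (.l (nat_lit 0x82073)))
 (.l (nat_lit 0x51f4)))))
 (.n (.n (.n (.n (.l (nat_lit 0x140014))
 (.l (nat_lit 0x20c4)))
 (.l (nat_lit 0x122085)))
 (.n (.n (.l (nat_lit 0xc9015))
 (.l (nat_lit 0x161207)))
 (.l (nat_lit 0x124115))))
 (.n (.n (.n (.l (nat_lit 0x44004))
 (.l (nat_lit 0x1225)))
 (.l (nat_lit 0x69105)))
 (.n (.n (.l (nat_lit 0x62046))
 (.l (nat_lit 0x300b)))
 (.l (nat_lit 0xa1274))))))
 (.n (.n (.n (.n (.n (.l (nat_lit 0x140260))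
 (.l (nat_lit 0x1470c5)))
 (.l (nat_lit 0xe8066)))
 (.n (.n (.l (nat_lit 0x25006))
 (.l (nat_lit 0x40157)))
 (.l (nat_lit 0x14b1e4))))
 (.n (.n (.n (.l (nat_lit 0x105156))
 (.l (nat_lit 0x68145)))
 (.l (nat_lit 0x69164)))
 (.n (.n (.l (nat_lit 0x881c4))
 (.l (nat_lit 0x142243)))
 (.l (nat_lit 0x12b264)))))
 (.n (.n (.n (.n (.l (nat_lit 0x860e6))
 (.l (nat_lit 0x164057)))
 (.l (nat_lit 0xc9165)))
 (.n (.n (.l (nat_lit 0xa6044))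
 (.l (nat_lit 0xc72a7)))
 (.l (nat_lit 0x801f6))))
 (.n (.n (.n (.l (nat_lit 0x140235))
 (.l (nat_lit 0xa7067)))
 (.l (nat_lit 0x6a1e5)))
 (.n (.n (.l (nat_lit 0xaa004))
 (.l (nat_lit 0xe1aa070d40600c)))
 (.l (nat_lit 0x7205))))))

def a128_123 : TA := .n a256_123 a256_251

def a64_59 : TA := .n a128_59 a128_123

def a32_27 : TA := .n a64_27 a64_59

def a16_11 : TA := .n a32_11 a32_27

def a8_3 : TA := .n a16_3 a16_11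

def a512_7 : TA :=
 .n (.n (.n (.n (.n (.l (nat_lit 0x400002))
 (.l (nat_lit 0x230b4)))
 (.n (.l (nat_lit 0xa90e4))
 (.l (nat_lit 0x1016a82e520600c))))
 (.n (.n (.l (nat_lit 0x141235))
 (.l (nat_lit 0xe7144)))
 (.l (nat_lit 0x83094))))
 (.n (.n (.n (.l (nat_lit 0xe70e5))
 (.l (nat_lit 0x141286)))
 (.l (nat_lit 0x42084)))
 (.n (.n (.l (nat_lit 0x87005))
 (.l (nat_lit 0xe82a7)))
 (.l (nat_lit 0x1011f5)))))
 (.n (.n (.n (.n (.l (nat_lit 0xc0280))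
 (.l (nat_lit 0x214)))
 (.l (nat_lit 0xe9066)))
 (.n (.n (.l (nat_lit 0x212a6))
 (.l (nat_lit 0x44157)))
 (.l (nat_lit 0x2b027))))
 (.n (.n (.n (.l (nat_lit 0x106155))
 (.l (nat_lit 0x41294)))
 (.l (nat_lit 0x69244)))
 (.n (.n (.l (nat_lit 0x882a4))
 (.l (nat_lit 0x82263)))
 (.l (nat_lit 0x100047)))))

def a512_263 : TA :=
 .n (.n (.n (.n (.n (.l (nat_lit 0x800f0))
 (.l (nat_lit 0xa5204)))
 (.l (nat_lit 0xe1056)))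
 (.n (.n (.l (nat_lit 0x14b236))
 (.l (nat_lit 0xe4097)))
 (.l (nat_lit 0x22c6))))
 (.n (.n (.n (.l (nat_lit 0xe1024))
 (.l (nat_lit 0x27057)))
 (.l (nat_lit 0xe40f4)))
 (.n (.n (.l (nat_lit 0xe5025))
 (.l (nat_lit 0x107073)))
 (.l (nat_lit 0x12d6)))))
 (.n (.n (.n (.n (.l (nat_lit 0x140034))
 (.l (nat_lit 0x22057)))
 (.l (nat_lit 0x4086)))
 (.n (.n (.l (nat_lit 0xca016))
 (.l (nat_lit 0x146207)))
 (.l (nat_lit 0x146115))))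
 (.n (.n (.n (.l (nat_lit 0x430e4))
 (.l (nat_lit 0x28225)))
 (.l (nat_lit 0x16a106)))
 (.n (.n (.l (nat_lit 0xe3046))
 (.l (nat_lit 0x4400a)))
 (.l (nat_lit 0x82047)))))

def a256_7 : TA := .n a512_7 a512_263

def a512_135 : TA :=
 .n (.n (.n (.n (.n (.l (nat_lit 0xac0052))
 (.l (nat_lit 0xa4194)))
 (.n (.l (nat_lit 0x46055))
 (.l (nat_lit 0xd094a66c02000c))))
 (.n (.n (.l (nat_lit 0x84034))
 (.l (nat_lit 0x9294)))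
 (.l (nat_lit 0x124027))))
 (.n (.n (.n (.l (nat_lit 0x630e6))
 (.l (nat_lit 0x432f5)))
 (.l (nat_lit 0x891d6)))
 (.n (.n (.l (nat_lit 0x147074))
 (.l (nat_lit 0x33)))
 (.l (nat_lit 0x1266)))))
 (.n (.n (.n (.n (.l (nat_lit 0xa3076))
 (.l (nat_lit 0x81214)))
 (.l (nat_lit 0x85065)))
 (.n (.n (.l (nat_lit 0x165034))
 (.l (nat_lit 0xe11c7)))
 (.l (nat_lit 0x1640a5))))
 (.n (.n (.n (.l (nat_lit 0x103005))
 (.l (nat_lit 0x1041b6)))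
 (.l (nat_lit 0xe0027)))
 (.n (.n (.l (nat_lit 0x16a036))
 (.l (nat_lit 0xe80009)))
 (.l (nat_lit 0x41047)))))

def a512_391 : TA :=
 .n (.n (.n (.n (.n (.l (nat_lit 0x1001c0))
 (.l (nat_lit 0x27194)))
 (.l (nat_lit 0x2a014)))
 (.n (.n (.l (nat_lit 0x472a5))
 (.l (nat_lit 0x1470e7)))
 (.l (nat_lit 0xa92c4))))
 (.n (.n (.n (.l (nat_lit 0x6a155))
 (.l (nat_lit 0x1490d6)))
 (.l (nat_lit 0xc80f4)))
 (.n (.n (.l (nat_lit 0x141036))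
 (.l (nat_lit 0x144153)))
 (.l (nat_lit 0x14a1f4)))))
 (.n (.n (.n (.n (.l (nat_lit 0x14b075))
 (.l (nat_lit 0x80216)))
 (.l (nat_lit 0x1480f5)))
 (.n (.n (.l (nat_lit 0x23016))
 (.l (nat_lit 0x69237)))
 (.l (nat_lit 0xe5185))))
 (.n (.n (.n (.l (nat_lit 0xe81c5))
 (.l (nat_lit 0x89295)))
 (.l (nat_lit 0x4a175)))
 (.n (.n (.l (nat_lit 0x169005))
 (.l (nat_lit 0xe895c0d100600c)))
 (.l (nat_lit 0x220b4)))))

def a256_135 : TA := .n a512_135 a512_391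

def a128_7 : TA := .n a256_7 a256_135

def a512_71 : TA :=
 .n (.n (.n (.n (.n (.l (nat_lit 0x100030))
 (.l (nat_lit 0x4194)))
 (.n (.l (nat_lit 0x20055))
 (.l (nat_lit 0xd588872902000c))))
 (.n (.n (.l (nat_lit 0xe9236))
 (.l (nat_lit 0x680d4)))
 (.l (nat_lit 0xa3094))))
 (.n (.n (.n (.l (nat_lit 0xc1234))
 (.l (nat_lit 0x32f6)))
 (.l (nat_lit 0x83017)))
 (.n (.n (.l (nat_lit 0x64025))
 (.l (nat_lit 0xc1013)))
 (.l (nat_lit 0x21266)))))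
 (.n (.n (.n (.n (.l (nat_lit 0x2d0))
 (.l (nat_lit 0x1080c6)))
 (.l (nat_lit 0x6b006)))
 (.n (.n (.l (nat_lit 0x1492a5))
 (.l (nat_lit 0x169157)))
 (.l (nat_lit 0x10a0a6))))
 (.n (.n (.n (.l (nat_lit 0x23004))
 (.l (nat_lit 0x121294)))
 (.l (nat_lit 0x2095)))
 (.n (.n (.l (nat_lit 0x22035))
 (.l (nat_lit 0x2e00009)))
 (.l (nat_lit 0x30b6)))))

def a512_327 : TA :=
 .n (.n (.n (.n (.n (.l (nat_lit 0x140151))
 (.l (nat_lit 0x66274)))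
 (.l (nat_lit 0x87056)))
 (.n (.n (.l (nat_lit 0xe4064))
 (.l (nat_lit 0x420d7)))
 (.l (nat_lit 0x149027))))
 (.n (.n (.n (.l (nat_lit 0x45155))
 (.l (nat_lit 0x28134)))
 (.l (nat_lit 0x1022b6)))
 (.n (.n (.l (nat_lit 0x671c4))
 (.l (nat_lit 0x1460e3)))
 (.l (nat_lit 0x860a4)))))
 (.n (.n (.n (.n (.l (nat_lit 0xc4075))
 (.l (nat_lit 0x622f4)))
 (.l (nat_lit 0x28086)))
 (.n (.n (.l (nat_lit 0x46054))
 (.l (nat_lit 0xe0237)))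
 (.l (nat_lit 0x46186))))
 (.n (.n (.n (.l (nat_lit 0x1401c6))
 (.l (nat_lit 0xa8296)))
 (.l (nat_lit 0x8a105)))
 (.n (.n (.l (nat_lit 0x4a004))
 (.l (nat_lit 0x10900b)))
 (.l (nat_lit 0xa2047)))))

def a256_71 : TA := .n a512_71 a512_327

def a512_199 : TA :=
 .n (.n (.n (.n (.n (.l (nat_lit 0x140090))
 (.l (nat_lit 0x105124)))
 (.n (.l (nat_lit 0x14a1c4))
 (.l (nat_lit 0xd08a970520600c))))
 (.n (.n (.l (nat_lit 0x22235))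
 (.l (nat_lit 0x167077)))
 (.l (nat_lit 0xe12c5))))
 (.n (.n (.n (.l (nat_lit 0x1490e6))
 (.l (nat_lit 0x46284)))
 (.l (nat_lit 0x104084)))
 (.n (.n (.l (nat_lit 0xc0025))
 (.l (nat_lit 0xc0053)))
 (.l (nat_lit 0x105037)))))
 (.n (.n (.n (.n (.l (nat_lit 0x4a076))
 (.l (nat_lit 0x121284)))
 (.l (nat_lit 0x2b1c4)))
 (.n (.n (.l (nat_lit 0x122015))
 (.l (nat_lit 0x6a1c7)))
 (.l (nat_lit 0x45116))))
 (.n (.n (.n (.l (nat_lit 0xa71c6))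
 (.l (nat_lit 0x125225)))
 (.l (nat_lit 0xcb095)))
 (.n (.n (.l (nat_lit 0xe8054))
 (.l (nat_lit 0x1f40009)))
 (.l (nat_lit 0x143126)))))

def a512_455 : TA :=
 .n (.n (.n (.n (.n (.l (nat_lit 0x140210))
 (.l (nat_lit 0x12b204)))
 (.l (nat_lit 0x122065)))
 (.n (.n (.l (nat_lit 0x85154))
 (.l (nat_lit 0xc80f7)))
 (.l (nat_lit 0x2a174))))
 (.n (.n (.n (.l (nat_lit 0x2054))
 (.l (nat_lit 0x160224)))
 (.l (nat_lit 0xc9084)))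
 (.n (.n (.l (nat_lit 0x126036))
 (.l (nat_lit 0x1451c3)))
 (.l (nat_lit 0xb1f4)))))
 (.n (.n (.n (.n (.l (nat_lit 0xe0064))
 (.l (nat_lit 0x101285)))
 (.l (nat_lit 0x890f6)))
 (.n (.n (.l (nat_lit 0x12a015))
 (.l (nat_lit 0x162297)))
 (.l (nat_lit 0xa11f6))))
 (.n (.n (.n (.l (nat_lit 0x63014))
 (.l (nat_lit 0xc8305)))
 (.l (nat_lit 0x62094)))
 (.n (.n (.l (nat_lit 0xe4046))
 (.l (nat_lit 0x16068c0e900600c)))
 (.l (nat_lit 0x16b205)))))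

def a256_199 : TA := .n a512_199 a512_455

def a128_71 : TA := .n a256_71 a256_199

def a64_7 : TA := .n a128_7 a128_71

def a512_39 : TA :=
 .n (.n (.n (.n (.n (.l (nat_lit 0x880012))
 (.l (nat_lit 0x122276)))
 (.n (.l (nat_lit 0x129014))
 (.l (nat_lit 0x102a588cd42000c))))
 (.n (.n (.l (nat_lit 0x47236))
 (.l (nat_lit 0x148144)))
 (.l (nat_lit 0x1411e5))))
 (.n (.n (.n (.l (nat_lit 0x6a0e6))
 (.l (nat_lit 0xa4134)))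
 (.l (nat_lit 0x109166)))
 (.n (.n (.l (nat_lit 0x161026))
 (.l (nat_lit 0x16b2a7)))
 (.l (nat_lit 0x2b1f6)))))
 (.n (.n (.n (.n (.l (nat_lit 0xa002a2))
 (.l (nat_lit 0x1230c5)))
 (.l (nat_lit 0x14b234)))
 (.n (.n (.l (nat_lit 0x862a6))
 (.l (nat_lit 0xc7157)))
 (.l (nat_lit 0xa20a5))))
 (.n (.n (.n (.l (nat_lit 0xc9156))
 (.l (nat_lit 0x64145)))
 (.l (nat_lit 0x2a017)))
 (.n (.n (.l (nat_lit 0x128006))
 (.l (nat_lit 0x82a3)))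
 (.l (nat_lit 0x670b5)))))

def a512_295 : TA :=
 .n (.n (.n (.n (.n (.l (nat_lit 0x120))
 (.l (nat_lit 0x146274)))
 (.l (nat_lit 0x24055)))
 (.n (.n (.l (nat_lit 0x64014))
 (.l (nat_lit 0x1460a7)))
 (.l (nat_lit 0x4a2c5))))
 (.n (.n (.n (.l (nat_lit 0x142005))
 (.l (nat_lit 0xe7284)))
 (.l (nat_lit 0xa82b6)))
 (.n (.n (.l (nat_lit 0x14b025))
 (.l (nat_lit 0x1040a3)))
 (.l (nat_lit 0xb2d6)))))
 (.n (.n (.n (.n (.l (nat_lit 0x60004))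
 (.l (nat_lit 0x1651a5)))
 (.l (nat_lit 0xe0017)))
 (.n (.n (.l (nat_lit 0x146154))
 (.l (nat_lit 0x41227)))
 (.l (nat_lit 0xa12d4))))
 (.n (.n (.n (.l (nat_lit 0xc3044))
 (.l (nat_lit 0x120295)))
 (.l (nat_lit 0xa3106)))
 (.n (.n (.l (nat_lit 0x146045))
 (.l (nat_lit 0x14600a)))
 (.l (nat_lit 0x166196)))))

def a256_39 : TA := .n a512_39 a512_295

def a512_167 : TA :=
 .n (.n (.n (.n (.n (.l (nat_lit 0x140071))
 (.l (nat_lit 0x1432e6)))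
 (.n (.l (nat_lit 0xe8056))
 (.l (nat_lit 0xd40e836102600c))))
 (.n (.n (.l (nat_lit 0x124006))
 (.l (nat_lit 0xc3077)))
 (.l (nat_lit 0xe9255))))
 (.n (.n (.n (.l (nat_lit 0xc60e5))
 (.l (nat_lit 0xa51a4)))
 (.l (nat_lit 0x120245)))
 (.n (.n (.l (nat_lit 0x47044))
 (.l (nat_lit 0x80043)))
 (.l (nat_lit 0xb266)))))
 (.n (.n (.n (.n (.l (nat_lit 0x147075))
 (.l (nat_lit 0x124135)))
 (.l (nat_lit 0x128065)))
 (.n (.n (.l (nat_lit 0x46004))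
 (.l (nat_lit 0x1671c7)))
 (.l (nat_lit 0xe01f4))))
 (.n (.n (.n (.l (nat_lit 0x51c5))
 (.l (nat_lit 0x162294)))
 (.l (nat_lit 0x24095)))
 (.n (.n (.l (nat_lit 0x68154))
 (.l (nat_lit 0x2f00009)))
 (.l (nat_lit 0x7125)))))

def a512_423 : TA :=
 .n (.n (.n (.n (.n (.l (nat_lit 0x1f0))
 (.l (nat_lit 0x14b204)))
 (.l (nat_lit 0x80065)))
 (.n (.n (.l (nat_lit 0xa2a6))
 (.l (nat_lit 0x6a0e7)))
 (.l (nat_lit 0x10a1e4))))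
 (.n (.n (.n (.l (nat_lit 0x102234))
 (.l (nat_lit 0x1630d5)))
 (.l (nat_lit 0xa8084)))
 (.n (.n (.l (nat_lit 0x84035))
 (.l (nat_lit 0x140193)))
 (.l (nat_lit 0x12a264)))))
 (.n (.n (.n (.n (.l (nat_lit 0x60014))
 (.l (nat_lit 0x230c4)))
 (.l (nat_lit 0xe1017)))
 (.n (.n (.l (nat_lit 0x88016))
 (.l (nat_lit 0xcb257)))
 (.l (nat_lit 0x22264))))
 (.n (.n (.n (.l (nat_lit 0x14b1c6))
 (.l (nat_lit 0x43306)))
 (.l (nat_lit 0x122027)))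
 (.n (.n (.l (nat_lit 0x42045))
 (.l (nat_lit 0x6889d8d402600c)))
 (.l (nat_lit 0x160206)))))

def a256_167 : TA := .n a512_167 a512_423

def a128_39 : TA := .n a256_39 a256_167

def a512_103 : TA :=
 .n (.n (.n (.n (.n (.l (nat_lit 0x440042))
 (.l (nat_lit 0xe6276)))
 (.n (.l (nat_lit 0xc3056))
 (.l (nat_lit 0xd415a8e902000c))))
 (.n (.n (.l (nat_lit 0x4074))
 (.l (nat_lit 0xe8304)))
 (.l (nat_lit 0x161256))))
 (.n (.n (.n (.l (nat_lit 0x141044))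
 (.l (nat_lit 0xc5214)))
 (.l (nat_lit 0x83084)))
 (.n (.n (.l (nat_lit 0xca025))
 (.l (nat_lit 0x8a013)))
 (.l (nat_lit 0x12b265)))))
 (.n (.n (.n (.n (.l (nat_lit 0x6))
 (.l (nat_lit 0xa4136)))
 (.l (nat_lit 0x102066)))
 (.n (.n (.l (nat_lit 0xe50e4))
 (.l (nat_lit 0x47197)))
 (.l (nat_lit 0xa0037))))
 (.n (.n (.n (.l (nat_lit 0xa2024))
 (.l (nat_lit 0x81b5)))
 (.l (nat_lit 0x10a096)))
 (.n (.n (.l (nat_lit 0xc5036))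
 (.l (nat_lit 0x1e40009)))
 (.l (nat_lit 0xa60b6)))))

def a512_359 : TA :=
 .n (.n (.n (.n (.n (.l (nat_lit 0x180))
 (.l (nat_lit 0xc7194)))
 (.l (nat_lit 0x12a074)))
 (.n (.n (.l (nat_lit 0x1422a5))
 (.l (nat_lit 0xc30e7)))
 (.l (nat_lit 0xe9027))))
 (.n (.n (.n (.l (nat_lit 0xe7156))
 (.l (nat_lit 0x1630d6)))
 (.l (nat_lit 0x692b5)))
 (.n (.n (.l (nat_lit 0xe7064))
 (.l (nat_lit 0x105103)))
 (.l (nat_lit 0xa6264)))))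
 (.n (.n (.n (.n (.l (nat_lit 0xa8076))
 (.l (nat_lit 0x7216)))
 (.l (nat_lit 0xe0244)))
 (.n (.n (.l (nat_lit 0xe0015))
 (.l (nat_lit 0x146237)))
 (.l (nat_lit 0x22d4))))
 (.n (.n (.n (.l (nat_lit 0x461c5))
 (.l (nat_lit 0x101296)))
 (.l (nat_lit 0x2027)))
 (.n (.n (.l (nat_lit 0xc9234))
 (.l (nat_lit 0x12868d0d100600c)))
 (.l (nat_lit 0xa5195)))))

def a256_103 : TA := .n a512_103 a512_359

def a512_231 : TA :=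
 .n (.n (.n (.n (.n (.l (nat_lit 0x1400c0))
 (.l (nat_lit 0x862e6)))
 (.n (.l (nat_lit 0x6a005))
 (.l (nat_lit 0xd585a12822000c))))
 (.n (.n (.l (nat_lit 0x28235))
 (.l (nat_lit 0x4b077)))
 (.l (nat_lit 0x8a2c6))))
 (.n (.n (.n (.l (nat_lit 0x62004))
 (.l (nat_lit 0xc70c4)))
 (.l (nat_lit 0xa2245)))
 (.n (.n (.l (nat_lit 0x3026))
 (.l (nat_lit 0x4063)))
 (.l (nat_lit 0x10b2d5)))))
 (.n (.n (.n (.n (.l (nat_lit 0xc0154))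
 (.l (nat_lit 0xa51a6)))
 (.l (nat_lit 0xab044)))
 (.n (.n (.l (nat_lit 0x65016))
 (.l (nat_lit 0xe11f7)))
 (.l (nat_lit 0x412d4))))
 (.n (.n (.n (.l (nat_lit 0x14a1c5))
 (.l (nat_lit 0x83144)))
 (.l (nat_lit 0xc4105)))
 (.n (.n (.l (nat_lit 0x160045))
 (.l (nat_lit 0x8100a)))
 (.l (nat_lit 0x126125)))))

def a512_487 : TA :=
 .n (.n (.n (.n (.n (.l (nat_lit 0xb00232))
 (.l (nat_lit 0x630c6)))
 (.l (nat_lit 0x47065)))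
 (.n (.n (.l (nat_lit 0x105044))
 (.l (nat_lit 0x14b117)))
 (.l (nat_lit 0x8b094))))
 (.n (.n (.n (.l (nat_lit 0xa0155))
 (.l (nat_lit 0xa5146)))
 (.l (nat_lit 0x1492b4)))
 (.n (.n (.l (nat_lit 0x8074))
 (.l (nat_lit 0x233)))
 (.l (nat_lit 0xab114)))))
 (.n (.n (.n (.n (.l (nat_lit 0x1440e5))
 (.l (nat_lit 0x440c4)))
 (.l (nat_lit 0x25166)))
 (.n (.n (.l (nat_lit 0x26234))
 (.l (nat_lit 0x632a7)))
 (.l (nat_lit 0x12b1f5))))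
 (.n (.n (.n (.l (nat_lit 0xe3064))
 (.l (nat_lit 0x147067)))
 (.l (nat_lit 0xe01e6)))
 (.n (.n (.l (nat_lit 0x27045))
 (.l (nat_lit 0x2560bb0140600c)))
 (.l (nat_lit 0xc1205)))))

def a256_231 : TA := .n a512_231 a512_487

def a128_103 : TA := .n a256_103 a256_231

def a64_39 : TA := .n a128_39 a128_103

def a32_7 : TA := .n a64_7 a64_39

def a512_23 : TA :=
 .n (.n (.n (.n (.n (.l (nat_lit 0x80010))
 (.l (nat_lit 0x101275)))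
 (.n (.l (nat_lit 0x29234))
 (.l (nat_lit 0x119a988cd40600c))))
 (.n (.n (.l (nat_lit 0xe2236))
 (.l (nat_lit 0x48067)))
 (.l (nat_lit 0x401e6))))
 (.n (.n (.n (.l (nat_lit 0x490e5))
 (.l (nat_lit 0x106286)))
 (.l (nat_lit 0x162017)))
 (.n (.n (.l (nat_lit 0x20026))
 (.l (nat_lit 0x4a2a7)))
 (.l (nat_lit 0xa1f6)))))
 (.n (.n (.n (.n (.l (nat_lit 0x840292))
 (.l (nat_lit 0x1420c6)))
 (.l (nat_lit 0x4b154)))
 (.n (.n (.l (nat_lit 0x1222a5))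
 (.l (nat_lit 0x145157)))
 (.l (nat_lit 0x12b104))))
 (.n (.n (.n (.l (nat_lit 0xe7155))
 (.l (nat_lit 0x83146)))
 (.l (nat_lit 0x14a017)))
 (.n (.n (.l (nat_lit 0x8064))
 (.l (nat_lit 0x432a3)))
 (.l (nat_lit 0xc60b5)))))

def a512_279 : TA :=
 .n (.n (.n (.n (.n (.l (nat_lit 0x100101))
 (.l (nat_lit 0x46194)))
 (.l (nat_lit 0x43055)))
 (.n (.n (.l (nat_lit 0xe4074))
 (.l (nat_lit 0x440a7)))
 (.l (nat_lit 0x232c5))))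
 (.n (.n (.n (.l (nat_lit 0x61054))
 (.l (nat_lit 0x167134)))
 (.l (nat_lit 0xc22b5)))
 (.n (.n (.l (nat_lit 0x4a026))
 (.l (nat_lit 0x144083)))
 (.l (nat_lit 0x222d5)))))
 (.n (.n (.n (.n (.l (nat_lit 0xc0064))
 (.l (nat_lit 0x241a6)))
 (.l (nat_lit 0x89086)))
 (.n (.n (.l (nat_lit 0x46074))
 (.l (nat_lit 0xeb207)))
 (.l (nat_lit 0x12b115))))
 (.n (.n (.n (.l (nat_lit 0x143014))
 (.l (nat_lit 0x123144)))
 (.l (nat_lit 0x1011e4)))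
 (.n (.n (.l (nat_lit 0x45045))
 (.l (nat_lit 0xc500b)))
 (.l (nat_lit 0x65196)))))

def a256_23 : TA := .n a512_23 a512_279

def a512_151 : TA :=
 .n (.n (.n (.n (.n (.l (nat_lit 0x640062))
 (.l (nat_lit 0x422e5)))
 (.n (.l (nat_lit 0x147055))
 (.l (nat_lit 0xd521a86c02000c))))
 (.n (.n (.l (nat_lit 0x4064))
 (.l (nat_lit 0x1690d4)))
 (.l (nat_lit 0x121255))))
 (.n (.n (.n (.l (nat_lit 0x1640e5))
 (.l (nat_lit 0x1072f6)))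
 (.l (nat_lit 0x232b4)))
 (.n (.n (.l (nat_lit 0xc71c4))
 (.l (nat_lit 0x103033)))
 (.l (nat_lit 0x142265)))))
 (.n (.n (.n (.n (.l (nat_lit 0x6075))
 (.l (nat_lit 0x23136)))
 (.l (nat_lit 0x27066)))
 (.n (.n (.l (nat_lit 0xe5064))
 (.l (nat_lit 0x661c7)))
 (.l (nat_lit 0x14b0a5))))
 (.n (.n (.n (.l (nat_lit 0xa01c6))
 (.l (nat_lit 0x1251b5)))
 (.l (nat_lit 0x83096)))
 (.n (.n (.l (nat_lit 0xe9004))
 (.l (nat_lit 0x1ec0009)))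
 (.l (nat_lit 0x164126)))))

def a512_407 : TA :=
 .n (.n (.n (.n (.n (.l (nat_lit 0xa801c2))
 (.l (nat_lit 0x4b047)))
 (.l (nat_lit 0x12a034)))
 (.n (.n (.l (nat_lit 0x282a6))
 (.l (nat_lit 0xe80e7)))
 (.l (nat_lit 0xa104))))
 (.n (.n (.n (.l (nat_lit 0x3004))
 (.l (nat_lit 0x140294)))
 (.l (nat_lit 0x88244)))
 (.n (.n (.l (nat_lit 0x122036))
 (.l (nat_lit 0x109153)))
 (.l (nat_lit 0x16a037)))))
 (.n (.n (.n (.n (.l (nat_lit 0xe0154))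
 (.l (nat_lit 0x5216)))
 (.l (nat_lit 0xc11d4)))
 (.n (.n (.l (nat_lit 0x124015))
 (.l (nat_lit 0x14b237)))
 (.l (nat_lit 0x4b185))))
 (.n (.n (.n (.l (nat_lit 0x4a1c6))
 (.l (nat_lit 0x641b4)))
 (.l (nat_lit 0x2094)))
 (.n (.n (.l (nat_lit 0xe0046))
 (.l (nat_lit 0xe89582d100600c)))
 (.l (nat_lit 0x1622e4)))))

def a256_151 : TA := .n a512_151 a512_407

def a128_23 : TA := .n a256_23 a256_151

def a512_87 : TA :=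
 .n (.n (.n (.n (.n (.l (nat_lit 0x8c0032))
 (.l (nat_lit 0x141276)))
 (.n (.l (nat_lit 0x161055))
 (.l (nat_lit 0xd116272902600c))))
 (.n (.n (.l (nat_lit 0x8b235))
 (.l (nat_lit 0x1681b4)))
 (.l (nat_lit 0x4027))))
 (.n (.n (.n (.l (nat_lit 0x41024))
 (.l (nat_lit 0x1472f5)))
 (.l (nat_lit 0xc91d5)))
 (.n (.n (.l (nat_lit 0x165026))
 (.l (nat_lit 0xc4013)))
 (.l (nat_lit 0x162266)))))
 (.n (.n (.n (.n (.l (nat_lit 0x802f0))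
 (.l (nat_lit 0xe0284)))
 (.l (nat_lit 0x160066)))
 (.n (.n (.l (nat_lit 0x12a2a5))
 (.l (nat_lit 0xeb157)))
 (.l (nat_lit 0x12b0a6))))
 (.n (.n (.n (.l (nat_lit 0x122234))
 (.l (nat_lit 0x1041b5)))
 (.l (nat_lit 0x143095)))
 (.n (.n (.l (nat_lit 0x163036))
 (.l (nat_lit 0xe00009)))
 (.l (nat_lit 0x1040b5)))))

def a512_343 : TA :=
 .n (.n (.n (.n (.n (.l (nat_lit 0x160))
 (.l (nat_lit 0x147047)))
 (.l (nat_lit 0x28055)))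
 (.n (.n (.l (nat_lit 0x412a5))
 (.l (nat_lit 0x1640d7)))
 (.l (nat_lit 0x109174))))
 (.n (.n (.n (.l (nat_lit 0x146156))
 (.l (nat_lit 0x420d5)))
 (.l (nat_lit 0x82b5)))
 (.n (.n (.l (nat_lit 0x1672a4))
 (.l (nat_lit 0xcb0e3)))
 (.l (nat_lit 0x61f4)))))
 (.n (.n (.n (.n (.l (nat_lit 0x87076))
 (.l (nat_lit 0x140215)))
 (.l (nat_lit 0x169085)))
 (.n (.n (.l (nat_lit 0x166006))
 (.l (nat_lit 0x42237)))
 (.l (nat_lit 0xab186))))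
 (.n (.n (.n (.l (nat_lit 0xe11c5))
 (.l (nat_lit 0x24067)))
 (.l (nat_lit 0x211e4)))
 (.n (.n (.l (nat_lit 0x1490e4))
 (.l (nat_lit 0xb00a)))
 (.l (nat_lit 0x84196)))))

def a256_87 : TA := .n a512_87 a512_343

def a512_215 : TA :=
 .n (.n (.n (.n (.n (.l (nat_lit 0x400b0))
 (.l (nat_lit 0xa12e6)))
 (.n (.l (nat_lit 0xca014))
 (.l (nat_lit 0x148899b0340600c))))
 (.n (.n (.l (nat_lit 0x47235))
 (.l (nat_lit 0xe9077)))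
 (.l (nat_lit 0xa32c6))))
 (.n (.n (.n (.l (nat_lit 0xea0e5))
 (.l (nat_lit 0x166057)))
 (.l (nat_lit 0x80246)))
 (.n (.n (.l (nat_lit 0x61025))
 (.l (nat_lit 0x86053)))
 (.l (nat_lit 0x1022d5)))))
 (.n (.n (.n (.n (.l (nat_lit 0x14b076))
 (.l (nat_lit 0xc41a5)))
 (.l (nat_lit 0x12b2a4)))
 (.n (.n (.l (nat_lit 0xc4016))
 (.l (nat_lit 0x16b1c7)))
 (.l (nat_lit 0x6b116))))
 (.n (.n (.n (.l (nat_lit 0x491c5))
 (.l (nat_lit 0xe8226)))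
 (.l (nat_lit 0x120254)))
 (.n (.n (.l (nat_lit 0x49006))
 (.l (nat_lit 0xb)))
 (.l (nat_lit 0x145125)))))

def a512_471 : TA :=
 .n (.n (.n (.n (.n (.l (nat_lit 0x140231))
 (.l (nat_lit 0x80057)))
 (.l (nat_lit 0xc4066)))
 (.n (.n (.l (nat_lit 0x5024))
 (.l (nat_lit 0x44117)))
 (.l (nat_lit 0x12a254))))
 (.n (.n (.n (.l (nat_lit 0x122005))
 (.l (nat_lit 0x123145)))
 (.l (nat_lit 0x491d4)))
 (.n (.n (.l (nat_lit 0x8b035))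
 (.l (nat_lit 0xa1f3)))
 (.l (nat_lit 0x10b2d4)))))
 (.n (.n (.n (.n (.l (nat_lit 0x430e5))
 (.l (nat_lit 0x86285)))
 (.l (nat_lit 0xa1244)))
 (.n (.n (.l (nat_lit 0xa60e4))
 (.l (nat_lit 0xe12a7)))
 (.l (nat_lit 0x1461f6))))
 (.n (.n (.n (.l (nat_lit 0x163034))
 (.l (nat_lit 0x651b4)))
 (.l (nat_lit 0x1622c4)))
 (.n (.n (.l (nat_lit 0x86046))
 (.l (nat_lit 0x2260ba4562600c)))
 (.l (nat_lit 0x1432e4)))))

def a256_215 : TA := .n a512_215 a512_471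

def a128_87 : TA := .n a256_87 a256_215

def a64_23 : TA := .n a128_23 a128_87

def a512_55 : TA :=
 .n (.n (.n (.n (.n (.l (nat_lit 0x600022))
 (.l (nat_lit 0x87276)))
 (.n (.l (nat_lit 0x8a005))
 (.l (nat_lit 0x16205cad020600c))))
 (.n (.n (.l (nat_lit 0x148236))
 (.l (nat_lit 0xc8294)))
 (.l (nat_lit 0x10a1e6))))
 (.n (.n (.n (.l (nat_lit 0x16b0e6))
 (.l (nat_lit 0x12f5)))
 (.l (nat_lit 0x122084)))
 (.n (.n (.l (nat_lit 0xc3025))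
 (.l (nat_lit 0xea2c7)))
 (.l (nat_lit 0x232d4)))))
 (.n (.n (.n (.n (.l (nat_lit 0x1402b1))
 (.l (nat_lit 0x1460c6)))
 (.l (nat_lit 0xcb034)))
 (.n (.n (.l (nat_lit 0x482a5))
 (.l (nat_lit 0x68157)))
 (.l (nat_lit 0x40a6))))
 (.n (.n (.n (.l (nat_lit 0x6a156))
 (.l (nat_lit 0x88146)))
 (.l (nat_lit 0x2a1d4)))
 (.n (.n (.l (nat_lit 0x81035))
 (.l (nat_lit 0x14a2a3)))
 (.l (nat_lit 0xa0047)))))

def a512_311 : TA :=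
 .n (.n (.n (.n (.n (.l (nat_lit 0xc0140))
 (.l (nat_lit 0xe6124)))
 (.l (nat_lit 0x125056)))
 (.n (.n (.l (nat_lit 0x164034))
 (.l (nat_lit 0xc20b7)))
 (.l (nat_lit 0x65104))))
 (.n (.n (.n (.l (nat_lit 0xe0156))
 (.l (nat_lit 0x480c4)))
 (.l (nat_lit 0x5164)))
 (.n (.n (.l (nat_lit 0xe7074))
 (.l (nat_lit 0x30e3)))
 (.l (nat_lit 0x125184)))))
 (.n (.n (.n (.n (.l (nat_lit 0x162076))
 (.l (nat_lit 0xe71a5)))
 (.l (nat_lit 0x63085)))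
 (.n (.n (.l (nat_lit 0xc62a4))
 (.l (nat_lit 0x165227)))
 (.l (nat_lit 0x64185))))
 (.n (.n (.n (.l (nat_lit 0x63005))
 (.l (nat_lit 0xa2296)))
 (.l (nat_lit 0x65105)))
 (.n (.n (.l (nat_lit 0xe7046))
 (.l (nat_lit 0x8800a)))
 (.l (nat_lit 0xc20b4)))))

def a256_55 : TA := .n a512_55 a512_311

def a512_183 : TA :=
 .n (.n (.n (.n (.n (.l (nat_lit 0x80))
 (.l (nat_lit 0xe72e5)))
 (.n (.l (nat_lit 0x4a0e4))
 (.l (nat_lit 0x1086a98c540600c))))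
 (.n (.n (.l (nat_lit 0x81236))
 (.l (nat_lit 0x66077)))
 (.l (nat_lit 0x124094))))
 (.n (.n (.n (.l (nat_lit 0x480e6))
 (.l (nat_lit 0x60c4)))
 (.l (nat_lit 0xa2246)))
 (.n (.n (.l (nat_lit 0x147064))
 (.l (nat_lit 0xc5043)))
 (.l (nat_lit 0x1240a4)))))
 (.n (.n (.n (.n (.l (nat_lit 0xe8075))
 (.l (nat_lit 0x107136)))
 (.l (nat_lit 0xab074)))
 (.n (.n (.l (nat_lit 0x21015))
 (.l (nat_lit 0xc91c7)))
 (.l (nat_lit 0xa3115))))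
 (.n (.n (.n (.l (nat_lit 0x1061c6))
 (.l (nat_lit 0x100225)))
 (.l (nat_lit 0x169095)))
 (.n (.n (.l (nat_lit 0x168234))
 (.l (nat_lit 0xf00009)))
 (.l (nat_lit 0x141204)))))

def a512_439 : TA :=
 .n (.n (.n (.n (.n (.l (nat_lit 0x100201))
 (.l (nat_lit 0x2b124)))
 (.l (nat_lit 0x21065)))
 (.n (.n (.l (nat_lit 0x10b2a5))
 (.l (nat_lit 0x16b0e7)))
 (.l (nat_lit 0xaa027))))
 (.n (.n (.n (.l (nat_lit 0x82024))
 (.l (nat_lit 0x1280d6)))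
 (.l (nat_lit 0x168244)))
 (.n (.n (.l (nat_lit 0x25035))
 (.l (nat_lit 0x1461a3)))
 (.l (nat_lit 0x8b0a4)))))
 (.n (.n (.n (.n (.l (nat_lit 0x160034))
 (.l (nat_lit 0x4057)))
 (.l (nat_lit 0xa50f5)))
 (.n (.n (.l (nat_lit 0x29015))
 (.l (nat_lit 0x6b277)))
 (.l (nat_lit 0x103037))))
 (.n (.n (.n (.l (nat_lit 0xe3074))
 (.l (nat_lit 0x101306)))
 (.l (nat_lit 0xe9176)))
 (.n (.n (.l (nat_lit 0x143045))
 (.l (nat_lit 0xea81d2d400600c)))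
 (.l (nat_lit 0x126206)))))

def a256_183 : TA := .n a512_183 a512_439

def a128_55 : TA := .n a256_55 a256_183

def a512_119 : TA :=
 .n (.n (.n (.n (.n (.l (nat_lit 0x100051))
 (.l (nat_lit 0xab276)))
 (.n (.l (nat_lit 0xe4056))
 (.l (nat_lit 0x11035a8e902000c))))
 (.n (.n (.l (nat_lit 0x104154))
 (.l (nat_lit 0x49144)))
 (.l (nat_lit 0x4094))))
 (.n (.n (.n (.l (nat_lit 0xe1005))
 (.l (nat_lit 0xa12f6)))
 (.l (nat_lit 0x123017)))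
 (.n (.n (.l (nat_lit 0x6b026))
 (.l (nat_lit 0x45023)))
 (.l (nat_lit 0x84184)))))
 (.n (.n (.n (.n (.l (nat_lit 0x102075))
 (.l (nat_lit 0xa7135)))
 (.l (nat_lit 0x123065)))
 (.n (.n (.l (nat_lit 0x65014))
 (.l (nat_lit 0x1461a7)))
 (.l (nat_lit 0x630a5))))
 (.n (.n (.n (.l (nat_lit 0x22054))
 (.l (nat_lit 0x1491b5)))
 (.l (nat_lit 0x12b096)))
 (.n (.n (.l (nat_lit 0x66035))
 (.l (nat_lit 0x2e80009)))
 (.l (nat_lit 0x6b0b5)))))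

def a512_375 : TA :=
 .n (.n (.n (.n (.n (.l (nat_lit 0x140190))
 (.l (nat_lit 0x472e4)))
 (.l (nat_lit 0xaa1c4)))
 (.n (.n (.l (nat_lit 0xe32a6))
 (.l (nat_lit 0x650e7)))
 (.l (nat_lit 0x129174))))
 (.n (.n (.n (.l (nat_lit 0xc9155))
 (.l (nat_lit 0x80d5)))
 (.l (nat_lit 0x165164)))
 (.n (.n (.l (nat_lit 0x40036))
 (.l (nat_lit 0x146113)))
 (.l (nat_lit 0xa114)))))
 (.n (.n (.n (.n (.l (nat_lit 0x4a075))
 (.l (nat_lit 0x1030c4)))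
 (.l (nat_lit 0x640f6)))
 (.n (.n (.l (nat_lit 0x82016))
 (.l (nat_lit 0xc8237)))
 (.l (nat_lit 0x160185))))
 (.n (.n (.n (.l (nat_lit 0x1471c5))
 (.l (nat_lit 0x107295)))
 (.l (nat_lit 0x145175)))
 (.n (.n (.l (nat_lit 0x49024))
 (.l (nat_lit 0x1287488d102600c)))
 (.l (nat_lit 0x7195)))))

def a256_119 : TA := .n a512_119 a512_375

def a512_247 : TA :=
 .n (.n (.n (.n (.n (.l (nat_lit 0x1000e0))
 (.l (nat_lit 0x8b2e6)))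
 (.n (.l (nat_lit 0x140056))
 (.l (nat_lit 0xe0a8c74140000c))))
 (.n (.n (.l (nat_lit 0x129235))
 (.l (nat_lit 0x142087)))
 (.l (nat_lit 0x45174))))
 (.n (.n (.n (.l (nat_lit 0x161234))
 (.l (nat_lit 0x47214)))
 (.l (nat_lit 0xe9245)))
 (.n (.n (.l (nat_lit 0x144026))
 (.l (nat_lit 0x109063)))
 (.l (nat_lit 0x85184)))))
 (.n (.n (.n (.n (.l (nat_lit 0x40014))
 (.l (nat_lit 0x681a5)))
 (.l (nat_lit 0x22085)))
 (.n (.n (.l (nat_lit 0x168015))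
 (.l (nat_lit 0x61207)))
 (.l (nat_lit 0x24115))))
 (.n (.n (.n (.l (nat_lit 0xeb1c5))
 (.l (nat_lit 0xa0225)))
 (.l (nat_lit 0xe5106)))
 (.n (.n (.l (nat_lit 0xc2046))
 (.l (nat_lit 0x10200a)))
 (.l (nat_lit 0x121204)))))

def a512_503 : TA :=
 .n (.n (.n (.n (.n (.l (nat_lit 0x40260))
 (.l (nat_lit 0x470c5)))
 (.l (nat_lit 0x148065)))
 (.n (.n (.l (nat_lit 0xa5005))
 (.l (nat_lit 0xeb127)))
 (.l (nat_lit 0x4b1e4))))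
 (.n (.n (.n (.l (nat_lit 0x5156))
 (.l (nat_lit 0xc8145)))
 (.l (nat_lit 0xe90f4)))
 (.n (.n (.l (nat_lit 0x108154))
 (.l (nat_lit 0x2243)))
 (.l (nat_lit 0x2b264)))))
 (.n (.n (.n (.n (.l (nat_lit 0xe50e6))
 (.l (nat_lit 0x64057)))
 (.l (nat_lit 0x168165)))
 (.n (.n (.l (nat_lit 0x126034))
 (.l (nat_lit 0x1662a7)))
 (.l (nat_lit 0xe3037))))
 (.n (.n (.n (.l (nat_lit 0x40235))
 (.l (nat_lit 0x107294)))
 (.l (nat_lit 0xca1e5)))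
 (.n (.n (.l (nat_lit 0x12b046))
 (.l (nat_lit 0xc1aa070d42000c)))
 (.l (nat_lit 0xa6205)))))

def a256_247 : TA := .n a512_247 a512_503

def a128_119 : TA := .n a256_119 a256_247

def a64_55 : TA := .n a128_55 a128_119

def a32_23 : TA := .n a64_23 a64_55

def a16_7 : TA := .n a32_7 a32_23

def a512_15 : TA :=
 .n (.n (.n (.n (.n (.l (nat_lit 0x680002))
 (.l (nat_lit 0x84047)))
 (.n (.l (nat_lit 0x129154))
 (.l (nat_lit 0x1026688d520600c))))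
 (.n (.n (.l (nat_lit 0x42236))
 (.l (nat_lit 0x1671b4)))
 (.l (nat_lit 0x1432c4))))
 (.n (.n (.n (.l (nat_lit 0x1480e5))
 (.l (nat_lit 0x62285)))
 (.l (nat_lit 0xc22b4)))
 (.n (.n (.l (nat_lit 0x107006))
 (.l (nat_lit 0x1492a7)))
 (.l (nat_lit 0x451f6)))))
 (.n (.n (.n (.n (.l (nat_lit 0x40290))
 (.l (nat_lit 0xa0057)))
 (.l (nat_lit 0x14b074)))
 (.n (.n (.l (nat_lit 0x822a6))
 (.l (nat_lit 0xe4157)))
 (.l (nat_lit 0xab094))))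
 (.n (.n (.n (.l (nat_lit 0x47155))
 (.l (nat_lit 0x141304)))
 (.l (nat_lit 0xe92b4)))
 (.n (.n (.l (nat_lit 0x108014))
 (.l (nat_lit 0x148293)))
 (.l (nat_lit 0x230b6)))))

def a512_271 : TA :=
 .n (.n (.n (.n (.n (.l (nat_lit 0xac00f2))
 (.l (nat_lit 0x1460b4)))
 (.l (nat_lit 0x142055)))
 (.n (.n (.l (nat_lit 0x65004))
 (.l (nat_lit 0x1420a7)))
 (.l (nat_lit 0xe22c5))))
 (.n (.n (.n (.l (nat_lit 0x161034))
 (.l (nat_lit 0xe70c4)))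
 (.l (nat_lit 0x145017)))
 (.n (.n (.l (nat_lit 0x149026))
 (.l (nat_lit 0x42083)))
 (.l (nat_lit 0x1212d6)))))
 (.n (.n (.n (.n (.l (nat_lit 0x40054))
 (.l (nat_lit 0xc01a5)))
 (.l (nat_lit 0x148085)))
 (.n (.n (.l (nat_lit 0x16a016))
 (.l (nat_lit 0x4b207)))
 (.l (nat_lit 0x8b115))))
 (.n (.n (.n (.l (nat_lit 0xc32a4))
 (.l (nat_lit 0xa30d4)))
 (.l (nat_lit 0x6b106)))
 (.n (.n (.l (nat_lit 0x144045))
 (.l (nat_lit 0x14400a)))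
 (.l (nat_lit 0x160196)))))

def a256_15 : TA := .n a512_15 a512_271

def a512_143 : TA :=
 .n (.n (.n (.n (.n (.l (nat_lit 0x100061))
 (.l (nat_lit 0x105047)))
 (.n (.l (nat_lit 0xe6055))
 (.l (nat_lit 0xd415a8e902600c))))
 (.n (.n (.l (nat_lit 0x104044))
 (.l (nat_lit 0xe9067)))
 (.l (nat_lit 0x41256))))
 (.n (.n (.n (.l (nat_lit 0xc40e6))
 (.l (nat_lit 0x462f6)))
 (.l (nat_lit 0x1291d6)))
 (.n (.n (.l (nat_lit 0x47154))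
 (.l (nat_lit 0x81033)))
 (.l (nat_lit 0xa1265)))))
 (.n (.n (.n (.n (.l (nat_lit 0x104076))
 (.l (nat_lit 0x101284)))
 (.l (nat_lit 0x125065)))
 (.n (.n (.l (nat_lit 0x65054))
 (.l (nat_lit 0x1451c7)))
 (.l (nat_lit 0xca0a5))))
 (.n (.n (.n (.l (nat_lit 0x1c5))
 (.l (nat_lit 0x851b6)))
 (.l (nat_lit 0x142096)))
 (.n (.n (.l (nat_lit 0x6b035))
 (.l (nat_lit 0x2ec0009)))
 (.l (nat_lit 0xc4125)))))

def a512_399 : TA :=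
 .n (.n (.n (.n (.n (.l (nat_lit 0x8001c2))
 (.l (nat_lit 0x127274)))
 (.l (nat_lit 0xaa024)))
 (.n (.n (.l (nat_lit 0x1272a5))
 (.l (nat_lit 0x480e7)))
 (.l (nat_lit 0x10a027))))
 (.n (.n (.n (.l (nat_lit 0xcb156))
 (.l (nat_lit 0x80224)))
 (.l (nat_lit 0x148164)))
 (.n (.n (.l (nat_lit 0x42036))
 (.l (nat_lit 0x87153)))
 (.l (nat_lit 0x8a2d4)))))
 (.n (.n (.n (.n (.l (nat_lit 0x61004))
 (.l (nat_lit 0x120215)))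
 (.l (nat_lit 0x690f5)))
 (.n (.n (.l (nat_lit 0x84015))
 (.l (nat_lit 0xca237)))
 (.l (nat_lit 0x146185))))
 (.n (.n (.n (.l (nat_lit 0x1491c6))
 (.l (nat_lit 0x1640d4)))
 (.l (nat_lit 0xea175)))
 (.n (.n (.l (nat_lit 0x40046))
 (.l (nat_lit 0x688982d400600c)))
 (.l (nat_lit 0xa2274)))))

def a256_143 : TA := .n a512_143 a512_399

def a128_15 : TA := .n a256_15 a256_143

def a512_79 : TA :=
 .n (.n (.n (.n (.n (.l (nat_lit 0x800032))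
 (.l (nat_lit 0xe4047)))
 (.n (.l (nat_lit 0x81055))
 (.l (nat_lit 0xd116232902600c))))
 (.n (.n (.l (nat_lit 0x2a235))
 (.l (nat_lit 0xe8144)))
 (.l (nat_lit 0x123104))))
 (.n (.n (.n (.l (nat_lit 0x1412a4))
 (.l (nat_lit 0xc62f5)))
 (.l (nat_lit 0x81d6)))
 (.n (.n (.l (nat_lit 0xc5026))
 (.l (nat_lit 0x3013)))
 (.l (nat_lit 0x82266)))))
 (.n (.n (.n (.n (.l (nat_lit 0x8402d2))
 (.l (nat_lit 0x60214)))
 (.l (nat_lit 0xc0066)))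
 (.n (.n (.l (nat_lit 0x8a2a5))
 (.l (nat_lit 0x6a157)))
 (.l (nat_lit 0x8b0a6))))
 (.n (.n (.n (.l (nat_lit 0xa2074))
 (.l (nat_lit 0x1b6)))
 (.l (nat_lit 0xe2095)))
 (.n (.n (.l (nat_lit 0x83036))
 (.l (nat_lit 0x1e00009)))
 (.l (nat_lit 0xa30b5)))))

def a512_335 : TA :=
 .n (.n (.n (.n (.n (.l (nat_lit 0x840152))
 (.l (nat_lit 0xe62e4)))
 (.l (nat_lit 0x127055)))
 (.n (.n (.l (nat_lit 0x145005))
 (.l (nat_lit 0xc30d7)))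
 (.l (nat_lit 0x49104))))
 (.n (.n (.n (.l (nat_lit 0xe5156))
 (.l (nat_lit 0x1681a4)))
 (.l (nat_lit 0x32b5)))
 (.n (.n (.l (nat_lit 0xe7234))
 (.l (nat_lit 0x480e3)))
 (.l (nat_lit 0x106114)))))
 (.n (.n (.n (.n (.l (nat_lit 0x164075))
 (.l (nat_lit 0xc3057)))
 (.l (nat_lit 0xc9085)))
 (.n (.n (.l (nat_lit 0xe6005))
 (.l (nat_lit 0x141237)))
 (.l (nat_lit 0x10a185))))
 (.n (.n (.n (.l (nat_lit 0x411c5))
 (.l (nat_lit 0x104144)))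
 (.l (nat_lit 0x12a105)))
 (.n (.n (.l (nat_lit 0xc9074))
 (.l (nat_lit 0x8a00b)))
 (.l (nat_lit 0x20195)))))

def a256_79 : TA := .n a512_79 a512_335

def a512_207 : TA :=
 .n (.n (.n (.n (.n (.l (nat_lit 0xc00a0))
 (.l (nat_lit 0x25047)))
 (.n (.l (nat_lit 0x4a2a4))
 (.l (nat_lit 0xe02a970542000c))))
 (.n (.n (.l (nat_lit 0x86236))
 (.l (nat_lit 0x68077)))
 (.l (nat_lit 0x222c6))))
 (.n (.n (.n (.l (nat_lit 0x4a0e5))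
 (.l (nat_lit 0xc62f4)))
 (.l (nat_lit 0x24017)))
 (.n (.n (.l (nat_lit 0x160025))
 (.l (nat_lit 0x143053)))
 (.l (nat_lit 0xa12d5)))))
 (.n (.n (.n (.n (.l (nat_lit 0xea076))
 (.l (nat_lit 0x2057)))
 (.l (nat_lit 0xab234)))
 (.n (.n (.l (nat_lit 0x23015))
 (.l (nat_lit 0xcb1c7)))
 (.l (nat_lit 0x146116))))
 (.n (.n (.n (.l (nat_lit 0x1081c6))
 (.l (nat_lit 0x48226)))
 (.l (nat_lit 0x601e4)))
 (.n (.n (.l (nat_lit 0x168064))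
 (.l (nat_lit 0xf40009)))
 (.l (nat_lit 0x64125)))))

def a512_463 : TA :=
 .n (.n (.n (.n (.n (.l (nat_lit 0x100221))
 (.l (nat_lit 0x2b2e4)))
 (.l (nat_lit 0x63066)))
 (.n (.n (.l (nat_lit 0x1051c4))
 (.l (nat_lit 0x149107)))
 (.l (nat_lit 0xaa1e4))))
 (.n (.n (.n (.l (nat_lit 0x82064))
 (.l (nat_lit 0x41067)))
 (.l (nat_lit 0x1490f4)))
 (.n (.n (.l (nat_lit 0x2a035))
 (.l (nat_lit 0xc81c3)))
 (.l (nat_lit 0x8b264)))))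
 (.n (.n (.n (.n (.l (nat_lit 0x141005))
 (.l (nat_lit 0x22286)))
 (.l (nat_lit 0x1690f6)))
 (.n (.n (.l (nat_lit 0x26074))
 (.l (nat_lit 0x412a7)))
 (.l (nat_lit 0x251f5))))
 (.n (.n (.n (.l (nat_lit 0xe3024))
 (.l (nat_lit 0x168305)))
 (.l (nat_lit 0xe2254)))
 (.n (.n (.l (nat_lit 0x25046))
 (.l (nat_lit 0x16260cad102000c)))
 (.l (nat_lit 0x83124)))))

def a256_207 : TA := .n a512_207 a512_463

def a128_79 : TA := .n a256_79 a256_207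

def a64_15 : TA := .n a128_15 a128_79

def a512_47 : TA :=
 .n (.n (.n (.n (.n (.l (nat_lit 0xc0020))
 (.l (nat_lit 0x26275)))
 (.n (.l (nat_lit 0x29064))
 (.l (nat_lit 0x14189ca0c40600c))))
 (.n (.n (.l (nat_lit 0xe7236))
 (.l (nat_lit 0x48224)))
 (.l (nat_lit 0xa91e6))))
 (.n (.n (.n (.l (nat_lit 0xcb0e6))
 (.l (nat_lit 0x1241a4)))
 (.l (nat_lit 0x4a166)))
 (.n (.n (.l (nat_lit 0x62025))
 (.l (nat_lit 0x4a2c7)))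
 (.l (nat_lit 0xa30a4)))))
 (.n (.n (.n (.n (.l (nat_lit 0x8c02a2))
 (.l (nat_lit 0x640c5)))
 (.l (nat_lit 0x4b024)))
 (.n (.n (.l (nat_lit 0x1072a6))
 (.l (nat_lit 0x167157)))
 (.l (nat_lit 0x1030a5))))
 (.n (.n (.n (.l (nat_lit 0x169156))
 (.l (nat_lit 0x107146)))
 (.l (nat_lit 0xaa084)))
 (.n (.n (.l (nat_lit 0x20035))
 (.l (nat_lit 0xc92a3)))
 (.l (nat_lit 0x204)))))

def a512_303 : TA :=
 .n (.n (.n (.n (.n (.l (nat_lit 0x40130))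
 (.l (nat_lit 0x660b4)))
 (.l (nat_lit 0x85056)))
 (.n (.n (.l (nat_lit 0xe4024))
 (.l (nat_lit 0x4a0a7)))
 (.l (nat_lit 0xea2c5))))
 (.n (.n (.n (.l (nat_lit 0x40156))
 (.l (nat_lit 0x1672f4)))
 (.l (nat_lit 0x1092b6)))
 (.n (.n (.l (nat_lit 0x68004))
 (.l (nat_lit 0x870b3)))
 (.l (nat_lit 0xab2d6)))))
 (.n (.n (.n (.n (.l (nat_lit 0xc2076))
 (.l (nat_lit 0x471a5)))
 (.l (nat_lit 0x142086)))
 (.n (.n (.l (nat_lit 0x46234))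
 (.l (nat_lit 0xe1227)))
 (.l (nat_lit 0x102037))))
 (.n (.n (.n (.l (nat_lit 0x143054))
 (.l (nat_lit 0x21296)))
 (.l (nat_lit 0x144106)))
 (.n (.n (.l (nat_lit 0x47046))
 (.l (nat_lit 0x10700b)))
 (.l (nat_lit 0x127196)))))

def a256_47 : TA := .n a512_47 a512_303

def a512_175 : TA :=
 .n (.n (.n (.n (.n (.l (nat_lit 0x840072))
 (.l (nat_lit 0x662e5)))
 (.n (.l (nat_lit 0x14b004))
 (.l (nat_lit 0xd4a0a76102000c))))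
 (.n (.n (.l (nat_lit 0x20236))
 (.l (nat_lit 0x144077)))
 (.l (nat_lit 0xaa256))))
 (.n (.n (.n (.l (nat_lit 0x1660e5))
 (.l (nat_lit 0x125214)))
 (.l (nat_lit 0x21246)))
 (.n (.n (.l (nat_lit 0xc7054))
 (.l (nat_lit 0x4043)))
 (.l (nat_lit 0xab266)))))
 (.n (.n (.n (.n (.l (nat_lit 0x48075))
 (.l (nat_lit 0x46135)))
 (.l (nat_lit 0x29065)))
 (.n (.n (.l (nat_lit 0xc0016))
 (.l (nat_lit 0x681c7)))
 (.l (nat_lit 0x160264))))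
 (.n (.n (.n (.l (nat_lit 0xa51c5))
 (.l (nat_lit 0x83067)))
 (.l (nat_lit 0x89095)))
 (.n (.n (.l (nat_lit 0xe81c4))
 (.l (nat_lit 0x1f00009)))
 (.l (nat_lit 0xab126)))))

def a512_431 : TA :=
 .n (.n (.n (.n (.n (.l (nat_lit 0x8801f2))
 (.l (nat_lit 0xab047)))
 (.l (nat_lit 0x120065)))
 (.n (.n (.l (nat_lit 0xaa2a6))
 (.l (nat_lit 0xcb0e7)))
 (.l (nat_lit 0xa2c4))))
 (.n (.n (.n (.l (nat_lit 0x2014))
 (.l (nat_lit 0x480d6)))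
 (.l (nat_lit 0x28164)))
 (.n (.n (.l (nat_lit 0x124035))
 (.l (nat_lit 0x841a3)))
 (.l (nat_lit 0xb037)))))
 (.n (.n (.n (.n (.l (nat_lit 0xe0024))
 (.l (nat_lit 0xa3134)))
 (.l (nat_lit 0x240f5)))
 (.n (.n (.l (nat_lit 0x128016))
 (.l (nat_lit 0x142267)))
 (.l (nat_lit 0xa22d4))))
 (.n (.n (.n (.l (nat_lit 0x64004))
 (.l (nat_lit 0x148306)))
 (.l (nat_lit 0x25175)))
 (.n (.n (.l (nat_lit 0xe2045))
 (.l (nat_lit 0x1287488d102000c)))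
 (.l (nat_lit 0x46206)))))

def a256_175 : TA := .n a512_175 a512_431

def a128_47 : TA := .n a256_47 a256_175

def a512_111 : TA :=
 .n (.n (.n (.n (.n (.l (nat_lit 0xac0042))
 (.l (nat_lit 0x147275)))
 (.n (.l (nat_lit 0x163056))
 (.l (nat_lit 0xd03588e900600c))))
 (.n (.n (.l (nat_lit 0x840e4))
 (.l (nat_lit 0x149067)))
 (.l (nat_lit 0xea255))))
 (.n (.n (.n (.l (nat_lit 0x41064))
 (.l (nat_lit 0x165057)))
 (.l (nat_lit 0x32b4)))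
 (.n (.n (.l (nat_lit 0x16a026))
 (.l (nat_lit 0x100023)))
 (.l (nat_lit 0x4114)))))
 (.n (.n (.n (.n (.l (nat_lit 0x80004))
 (.l (nat_lit 0x7135)))
 (.l (nat_lit 0x83065)))
 (.n (.n (.l (nat_lit 0x165154))
 (.l (nat_lit 0xe41a7)))
 (.l (nat_lit 0x1220a6))))
 (.n (.n (.n (.l (nat_lit 0x122034))
 (.l (nat_lit 0xa81b5)))
 (.l (nat_lit 0xb096)))
 (.n (.n (.l (nat_lit 0x165036))
 (.l (nat_lit 0xe40009)))
 (.l (nat_lit 0x1270b6)))))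

def a512_367 : TA :=
 .n (.n (.n (.n (.n (.l (nat_lit 0xa00182))
 (.l (nat_lit 0x147204)))
 (.l (nat_lit 0x2a154)))
 (.n (.n (.l (nat_lit 0x432a6))
 (.l (nat_lit 0x1630e7)))
 (.l (nat_lit 0x29104))))
 (.n (.n (.n (.l (nat_lit 0x148155))
 (.l (nat_lit 0x470d5)))
 (.l (nat_lit 0xe50f4)))
 (.n (.n (.l (nat_lit 0x148005))
 (.l (nat_lit 0x4b103)))
 (.l (nat_lit 0x10a037)))))
 (.n (.n (.n (.n (.l (nat_lit 0x109075))
 (.l (nat_lit 0xa7216)))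
 (.l (nat_lit 0x141017)))
 (.n (.n (.l (nat_lit 0x21016))
 (.l (nat_lit 0x67237)))
 (.l (nat_lit 0x80185))))
 (.n (.n (.n (.l (nat_lit 0xe61c5))
 (.l (nat_lit 0x22295)))
 (.l (nat_lit 0x80176)))
 (.n (.n (.l (nat_lit 0x1492a4))
 (.l (nat_lit 0x12a7488d100600c)))
 (.l (nat_lit 0x106195)))))

def a256_111 : TA := .n a512_111 a512_367

def a512_239 : TA :=
 .n (.n (.n (.n (.n (.l (nat_lit 0xc00d0))
 (.l (nat_lit 0x1262e6)))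
 (.n (.l (nat_lit 0xea006))
 (.l (nat_lit 0xd422976102600c))))
 (.n (.n (.l (nat_lit 0x89235))
 (.l (nat_lit 0xeb077)))
 (.l (nat_lit 0x14b2c5))))
 (.n (.n (.n (.l (nat_lit 0xe11c4))
 (.l (nat_lit 0x147134)))
 (.l (nat_lit 0x49245)))
 (.n (.n (.l (nat_lit 0xa3026))
 (.l (nat_lit 0x87063)))
 (.l (nat_lit 0x5114)))))
 (.n (.n (.n (.n (.l (nat_lit 0x1401c4))
 (.l (nat_lit 0x1461a6)))
 (.l (nat_lit 0x100017)))
 (.n (.n (.l (nat_lit 0xc8015))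
 (.l (nat_lit 0x16a1f7)))
 (.l (nat_lit 0x121037))))
 (.n (.n (.n (.l (nat_lit 0x4b1c5))
 (.l (nat_lit 0x23067)))
 (.l (nat_lit 0x164106)))
 (.n (.n (.l (nat_lit 0x61046))
 (.l (nat_lit 0x200a)))
 (.l (nat_lit 0x2b125)))))

def a512_495 : TA :=
 .n (.n (.n (.n (.n (.l (nat_lit 0x250))
 (.l (nat_lit 0xe40c6)))
 (.l (nat_lit 0xe7065)))
 (.n (.n (.l (nat_lit 0x5064))
 (.l (nat_lit 0x65127)))
 (.l (nat_lit 0x10b104))))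
 (.n (.n (.n (.l (nat_lit 0x104156))
 (.l (nat_lit 0x27145)))
 (.l (nat_lit 0x69084)))
 (.n (.n (.l (nat_lit 0x880e4))
 (.l (nat_lit 0x10a233)))
 (.l (nat_lit 0x12b184)))))
 (.n (.n (.n (.n (.l (nat_lit 0x450e6))
 (.l (nat_lit 0xc4134)))
 (.l (nat_lit 0x88165)))
 (.n (.n (.l (nat_lit 0xa62a4))
 (.l (nat_lit 0xc62a7)))
 (.l (nat_lit 0x32d4))))
 (.n (.n (.n (.l (nat_lit 0x144005))
 (.l (nat_lit 0x87144)))
 (.l (nat_lit 0x691e5)))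
 (.n (.n (.l (nat_lit 0x8b046))
 (.l (nat_lit 0xe10a870d00600c)))
 (.l (nat_lit 0x6205)))))

def a256_239 : TA := .n a512_239 a512_495

def a128_111 : TA := .n a256_111 a256_239

def a64_47 : TA := .n a128_47 a128_111

def a32_15 : TA := .n a64_15 a64_47

def a512_31 : TA :=
 .n (.n (.n (.n (.n (.l (nat_lit 0x400012))
 (.l (nat_lit 0x2276)))
 (.n (.l (nat_lit 0xa92a4))
 (.l (nat_lit 0x12a0588d020600c))))
 (.n (.n (.l (nat_lit 0x146235))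
 (.l (nat_lit 0xc80d4)))
 (.l (nat_lit 0xe01e5))))
 (.n (.n (.n (.l (nat_lit 0xe90e5))
 (.l (nat_lit 0x240c4)))
 (.l (nat_lit 0xa5165)))
 (.n (.n (.l (nat_lit 0xc1026))
 (.l (nat_lit 0xea2a7)))
 (.l (nat_lit 0x12a1f6)))))
 (.n (.n (.n (.n (.l (nat_lit 0x1402a0))
 (.l (nat_lit 0x430c6)))
 (.l (nat_lit 0xcb1c4)))
 (.n (.n (.l (nat_lit 0x232a5))
 (.l (nat_lit 0x66157)))
 (.l (nat_lit 0x20a5))))
 (.n (.n (.n (.l (nat_lit 0x68156))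
 (.l (nat_lit 0x123146)))
 (.l (nat_lit 0x4a164)))
 (.n (.n (.l (nat_lit 0xa8005))
 (.l (nat_lit 0xc62a3)))
 (.l (nat_lit 0x1660b5)))))

def a512_287 : TA :=
 .n (.n (.n (.n (.n (.l (nat_lit 0xc0110))
 (.l (nat_lit 0xc6204)))
 (.l (nat_lit 0x123055)))
 (.n (.n (.l (nat_lit 0x1640e4))
 (.l (nat_lit 0xe40a7)))
 (.l (nat_lit 0xc92c5))))
 (.n (.n (.n (.l (nat_lit 0xe1064))
 (.l (nat_lit 0x67214)))
 (.l (nat_lit 0x1622b6)))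
 (.n (.n (.l (nat_lit 0xea025))
 (.l (nat_lit 0x44093)))
 (.l (nat_lit 0xc32d5)))))
 (.n (.n (.n (.n (.l (nat_lit 0x160005))
 (.l (nat_lit 0xc51a6)))
 (.l (nat_lit 0x169086)))
 (.n (.n (.l (nat_lit 0xc60e4))
 (.l (nat_lit 0x165217)))
 (.l (nat_lit 0x21264))))
 (.n (.n (.n (.l (nat_lit 0x43034))
 (.l (nat_lit 0x40295)))
 (.l (nat_lit 0x21027)))
 (.n (.n (.l (nat_lit 0xe5045))
 (.l (nat_lit 0x4600a)))
 (.l (nat_lit 0xc6196)))))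

def a256_31 : TA := .n a512_31 a512_287

def a512_159 : TA :=
 .n (.n (.n (.n (.n (.l (nat_lit 0xb00062))
 (.l (nat_lit 0xe22e6)))
 (.n (.l (nat_lit 0x48056))
 (.l (nat_lit 0xd4a8876102000c))))
 (.n (.n (.l (nat_lit 0xa4005))
 (.l (nat_lit 0x62077)))
 (.l (nat_lit 0x9255))))
 (.n (.n (.n (.l (nat_lit 0x650e5))
 (.l (nat_lit 0x25134)))
 (.l (nat_lit 0x84017)))
 (.n (.n (.l (nat_lit 0x147234))
 (.l (nat_lit 0x6033)))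
 (.l (nat_lit 0xe6266)))))
 (.n (.n (.n (.n (.l (nat_lit 0xe6075))
 (.l (nat_lit 0x84136)))
 (.l (nat_lit 0x88066)))
 (.n (.n (.l (nat_lit 0x146005))
 (.l (nat_lit 0xc71c7)))
 (.l (nat_lit 0x60184))))
 (.n (.n (.n (.l (nat_lit 0x1011c6))
 (.l (nat_lit 0x491b6)))
 (.l (nat_lit 0x123095)))
 (.n (.n (.l (nat_lit 0x168074))
 (.l (nat_lit 0xec0009)))
 (.l (nat_lit 0x86126)))))

def a512_415 : TA :=
 .n (.n (.n (.n (.n (.l (nat_lit 0x1001d0))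
 (.l (nat_lit 0xcb0b4)))
 (.l (nat_lit 0xb006)))
 (.n (.n (.l (nat_lit 0xc92a6))
 (.l (nat_lit 0x1490e7)))
 (.l (nat_lit 0x8a174))))
 (.n (.n (.n (.l (nat_lit 0x82074))
 (.l (nat_lit 0x830d6)))
 (.l (nat_lit 0x28017)))
 (.n (.n (.l (nat_lit 0x23035))
 (.l (nat_lit 0x44163)))
 (.l (nat_lit 0xaa1f4)))))
 (.n (.n (.n (.n (.l (nat_lit 0x1601c4))
 (.l (nat_lit 0x107215)))
 (.l (nat_lit 0x141244)))
 (.n (.n (.l (nat_lit 0x25015))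
 (.l (nat_lit 0x48247)))
 (.l (nat_lit 0xeb185))))
 (.n (.n (.n (.l (nat_lit 0xea1c6))
 (.l (nat_lit 0xc5067)))
 (.l (nat_lit 0x822c4)))
 (.n (.n (.l (nat_lit 0x141045))
 (.l (nat_lit 0xe895831900600c)))
 (.l (nat_lit 0x80205)))))

def a256_159 : TA := .n a512_159 a512_415

def a128_31 : TA := .n a256_31 a256_159

def a512_95 : TA :=
 .n (.n (.n (.n (.n (.l (nat_lit 0x140040))
 (.l (nat_lit 0x46276)))
 (.n (.l (nat_lit 0x62056))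
 (.l (nat_lit 0xd02988ec00000c))))
 (.n (.n (.l (nat_lit 0x12b235))
 (.l (nat_lit 0x68294)))
 (.l (nat_lit 0x81255))))
 (.n (.n (.n (.l (nat_lit 0xc1034))
 (.l (nat_lit 0x451a4)))
 (.l (nat_lit 0x1691d5)))
 (.n (.n (.l (nat_lit 0x69025))
 (.l (nat_lit 0x8013)))
 (.l (nat_lit 0x8b265)))))
 (.n (.n (.n (.n (.l (nat_lit 0x100300))
 (.l (nat_lit 0x141057)))
 (.l (nat_lit 0x61066)))
 (.n (.n (.l (nat_lit 0x6b2a6))
 (.l (nat_lit 0x160187)))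
 (.l (nat_lit 0x1f4))))
 (.n (.n (.n (.l (nat_lit 0x22014))
 (.l (nat_lit 0xa51b6)))
 (.l (nat_lit 0x64096)))
 (.n (.n (.l (nat_lit 0x64036))
 (.l (nat_lit 0x2e40009)))
 (.l (nat_lit 0x60b6)))))

def a512_351 : TA :=
 .n (.n (.n (.n (.n (.l (nat_lit 0x40170))
 (.l (nat_lit 0x47124)))
 (.l (nat_lit 0xab004)))
 (.n (.n (.l (nat_lit 0xe12a5))
 (.l (nat_lit 0x690d7)))
 (.l (nat_lit 0x492c4))))
 (.n (.n (.n (.l (nat_lit 0x47156))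
 (.l (nat_lit 0xc30d5)))
 (.l (nat_lit 0x1682b5)))
 (.n (.n (.l (nat_lit 0x67054))
 (.l (nat_lit 0x80f3)))
 (.l (nat_lit 0xe6037)))))
 (.n (.n (.n (.n (.l (nat_lit 0x8076))
 (.l (nat_lit 0x61216)))
 (.l (nat_lit 0x601d4)))
 (.n (.n (.l (nat_lit 0x40015))
 (.l (nat_lit 0xe2237)))
 (.l (nat_lit 0x1020a4))))
 (.n (.n (.n (.l (nat_lit 0x1451c6))
 (.l (nat_lit 0xa0296)))
 (.l (nat_lit 0xa1254)))
 (.n (.n (.l (nat_lit 0x491c4))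
 (.l (nat_lit 0x10b00a)))
 (.l (nat_lit 0x5196)))))

def a256_95 : TA := .n a512_95 a512_351

def a512_223 : TA :=
 .n (.n (.n (.n (.n (.l (nat_lit 0x8000b2))
 (.l (nat_lit 0x222e5)))
 (.n (.l (nat_lit 0x14a024))
 (.l (nat_lit 0xc886a70540600c))))
 (.n (.n (.l (nat_lit 0x127235))
 (.l (nat_lit 0x14a077)))
 (.l (nat_lit 0x1492c6))))
 (.n (.n (.n (.l (nat_lit 0x14b0e5))
 (.l (nat_lit 0x47057)))
 (.l (nat_lit 0x21245)))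
 (.n (.n (.l (nat_lit 0x102026))
 (.l (nat_lit 0x108053)))
 (.l (nat_lit 0xaa2d6)))))
 (.n (.n (.n (.n (.l (nat_lit 0x41004))
 (.l (nat_lit 0x51a5)))
 (.l (nat_lit 0x2b034)))
 (.n (.n (.l (nat_lit 0x164016))
 (.l (nat_lit 0x411f7)))
 (.l (nat_lit 0x1411f4))))
 (.n (.n (.n (.l (nat_lit 0xe91c5))
 (.l (nat_lit 0x149225)))
 (.l (nat_lit 0x23105)))
 (.n (.n (.l (nat_lit 0xc0045))
 (.l (nat_lit 0x10000b)))
 (.l (nat_lit 0x86125)))))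

def a512_479 : TA :=
 .n (.n (.n (.n (.n (.l (nat_lit 0x640232))
 (.l (nat_lit 0x1420c5)))
 (.l (nat_lit 0x164066)))
 (.n (.n (.l (nat_lit 0x85034))
 (.l (nat_lit 0xe4117)))
 (.l (nat_lit 0xb027))))
 (.n (.n (.n (.l (nat_lit 0x155))
 (.l (nat_lit 0x24146)))
 (.l (nat_lit 0xc9244)))
 (.n (.n (.l (nat_lit 0x12b036))
 (.l (nat_lit 0xc5213)))
 (.l (nat_lit 0x2b0a4)))))
 (.n (.n (.n (.n (.l (nat_lit 0xe30e5))
 (.l (nat_lit 0x107286)))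
 (.l (nat_lit 0x102017)))
 (.n (.n (.l (nat_lit 0x126154))
 (.l (nat_lit 0x1622a7)))
 (.l (nat_lit 0x8b1f5))))
 (.n (.n (.n (.l (nat_lit 0x63054))
 (.l (nat_lit 0xe5224)))
 (.l (nat_lit 0x401e5)))
 (.n (.n (.l (nat_lit 0x126045))
 (.l (nat_lit 0x2260ca5560600c)))
 (.l (nat_lit 0x60205)))))

def a256_223 : TA := .n a512_223 a512_479

def a128_95 : TA := .n a256_95 a256_223

def a64_31 : TA := .n a128_31 a128_95

def a512_63 : TA :=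
 .n (.n (.n (.n (.n (.l (nat_lit 0x880022))
 (.l (nat_lit 0x1040b4)))
 (.n (.l (nat_lit 0x10a006))
 (.l (nat_lit 0x144688ae140600c))))
 (.n (.n (.l (nat_lit 0x49236))
 (.l (nat_lit 0x148304)))
 (.l (nat_lit 0xb1e6))))
 (.n (.n (.n (.l (nat_lit 0x411c4))
 (.l (nat_lit 0x1022f5)))
 (.l (nat_lit 0x222b4)))
 (.n (.n (.l (nat_lit 0x163025))
 (.l (nat_lit 0x1422d7)))
 (.l (nat_lit 0x104037)))))
 (.n (.n (.n (.n (.l (nat_lit 0x802c0))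
 (.l (nat_lit 0xa70c6)))
 (.l (nat_lit 0x14b044)))
 (.n (.n (.l (nat_lit 0xe82a5))
 (.l (nat_lit 0xc9157)))
 (.l (nat_lit 0x860a5))))
 (.n (.n (.n (.l (nat_lit 0x10b155))
 (.l (nat_lit 0x149146)))
 (.l (nat_lit 0x12a244)))
 (.n (.n (.l (nat_lit 0x121035))
 (.l (nat_lit 0x862d3)))
 (.l (nat_lit 0x1020b6)))))

def a512_319 : TA :=
 .n (.n (.n (.n (.n (.l (nat_lit 0x640142))
 (.l (nat_lit 0x166194)))
 (.l (nat_lit 0x26056)))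
 (.n (.n (.l (nat_lit 0x64054))
 (.l (nat_lit 0x1470b7)))
 (.l (nat_lit 0xe5174))))
 (.n (.n (.n (.l (nat_lit 0x144155))
 (.l (nat_lit 0x108134)))
 (.l (nat_lit 0xa5017)))
 (.n (.n (.l (nat_lit 0x1670e4))
 (.l (nat_lit 0xc50e3)))
 (.l (nat_lit 0x6037)))))
 (.n (.n (.n (.n (.l (nat_lit 0x63075))
 (.l (nat_lit 0x1620c4)))
 (.l (nat_lit 0xe4085)))
 (.n (.n (.l (nat_lit 0x146034))
 (.l (nat_lit 0x40237)))
 (.l (nat_lit 0x145185))))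
 (.n (.n (.n (.l (nat_lit 0xe3006))
 (.l (nat_lit 0x8296)))
 (.l (nat_lit 0x109106)))
 (.n (.n (.l (nat_lit 0x14b045))
 (.l (nat_lit 0x900a)))
 (.l (nat_lit 0x22e4)))))

def a256_63 : TA := .n a512_63 a512_319

def a512_191 : TA :=
 .n (.n (.n (.n (.n (.l (nat_lit 0x400082))
 (.l (nat_lit 0xab2e5)))
 (.n (.l (nat_lit 0xca154))
 (.l (nat_lit 0x1086a1ac540000c))))
 (.n (.n (.l (nat_lit 0x121235))
 (.l (nat_lit 0xc7077)))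
 (.l (nat_lit 0x5027))))
 (.n (.n (.n (.l (nat_lit 0xe80e6))
 (.l (nat_lit 0x146134)))
 (.l (nat_lit 0x149246)))
 (.n (.n (.l (nat_lit 0x67006))
 (.l (nat_lit 0x4b043)))
 (.l (nat_lit 0x24184)))))
 (.n (.n (.n (.n (.l (nat_lit 0x149076))
 (.l (nat_lit 0x61214)))
 (.l (nat_lit 0x12b0e4)))
 (.n (.n (.l (nat_lit 0x82015))
 (.l (nat_lit 0x1691c7)))
 (.l (nat_lit 0x144115))))
 (.n (.n (.n (.l (nat_lit 0x71c6))
 (.l (nat_lit 0x41226)))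
 (.l (nat_lit 0x6a095)))
 (.n (.n (.l (nat_lit 0x68014))
 (.l (nat_lit 0x2f40009)))
 (.l (nat_lit 0x61047)))))

def a512_447 : TA :=
 .n (.n (.n (.n (.n (.l (nat_lit 0x880202))
 (.l (nat_lit 0xab194)))
 (.l (nat_lit 0x82065)))
 (.n (.n (.l (nat_lit 0x50e4))
 (.l (nat_lit 0x650f7)))
 (.l (nat_lit 0x12a094))))
 (.n (.n (.n (.l (nat_lit 0x102034))
 (.l (nat_lit 0x690d5)))
 (.l (nat_lit 0x49017)))
 (.n (.n (.l (nat_lit 0x86036))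
 (.l (nat_lit 0x811c3)))
 (.l (nat_lit 0x10b114)))))
 (.n (.n (.n (.n (.l (nat_lit 0x60054))
 (.l (nat_lit 0xa0285)))
 (.l (nat_lit 0x1080f6)))
 (.n (.n (.l (nat_lit 0x8a015))
 (.l (nat_lit 0xe0287)))
 (.l (nat_lit 0x201f6))))
 (.n (.n (.n (.l (nat_lit 0x1630e4))
 (.l (nat_lit 0x62305)))
 (.l (nat_lit 0x14a176)))
 (.n (.n (.l (nat_lit 0x44046))
 (.l (nat_lit 0x16068cad102600c)))
 (.l (nat_lit 0x4b205)))))

def a256_191 : TA := .n a512_191 a512_447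

def a128_63 : TA := .n a256_63 a256_191

def a512_127 : TA :=
 .n (.n (.n (.n (.n (.l (nat_lit 0x440052))
 (.l (nat_lit 0x1640b4)))
 (.n (.l (nat_lit 0x145055))
 (.l (nat_lit 0xd094866c00600c))))
 (.n (.n (.l (nat_lit 0x4024))
 (.l (nat_lit 0xc91b4)))
 (.l (nat_lit 0x84104))))
 (.n (.n (.n (.l (nat_lit 0x161006))
 (.l (nat_lit 0x1022f6)))
 (.l (nat_lit 0x11d5)))
 (.n (.n (.l (nat_lit 0xc8004))
 (.l (nat_lit 0x109023)))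
 (.l (nat_lit 0x124037)))))
 (.n (.n (.n (.n (.l (nat_lit 0x3075))
 (.l (nat_lit 0x108135)))
 (.l (nat_lit 0x24065)))
 (.n (.n (.l (nat_lit 0xe5024))
 (.l (nat_lit 0x411c7)))
 (.l (nat_lit 0xc40a5))))
 (.n (.n (.n (.l (nat_lit 0xa2064))
 (.l (nat_lit 0x42304)))
 (.l (nat_lit 0x401e4)))
 (.n (.n (.l (nat_lit 0xca036))
 (.l (nat_lit 0x1e80009)))
 (.l (nat_lit 0x160194)))))

def a512_383 : TA :=
 .n (.n (.n (.n (.n (.l (nat_lit 0x1001a1))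
 (.l (nat_lit 0x127047)))
 (.l (nat_lit 0x12a234)))
 (.n (.n (.l (nat_lit 0x1462a5))
 (.l (nat_lit 0xc60e7)))
 (.l (nat_lit 0x29254))))
 (.n (.n (.n (.l (nat_lit 0x169155))
 (.l (nat_lit 0xa80d5)))
 (.l (nat_lit 0x48084)))
 (.n (.n (.l (nat_lit 0xe0036))
 (.l (nat_lit 0x80153)))
 (.l (nat_lit 0x8a184)))))
 (.n (.n (.n (.n (.l (nat_lit 0xea075))
 (.l (nat_lit 0x23057)))
 (.l (nat_lit 0xe50f6)))
 (.n (.n (.l (nat_lit 0x122016))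
 (.l (nat_lit 0x168237)))
 (.l (nat_lit 0x45186))))
 (.n (.n (.n (.l (nat_lit 0x481c5))
 (.l (nat_lit 0x28295)))
 (.l (nat_lit 0x89175)))
 (.n (.n (.l (nat_lit 0xc9064))
 (.l (nat_lit 0xea95c0d102600c)))
 (.l (nat_lit 0xa7195)))))

def a256_127 : TA := .n a512_127 a512_383

def a256_255 : TA :=
 .n (.n (.n (.n (.n (.n (.l (nat_lit 0x6400e2))
 (.l (nat_lit 0x125124)))
 (.l (nat_lit 0x41056)))
 (.n (.n (.l (nat_lit 0xaa236))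
 (.l (nat_lit 0x62097)))
 (.l (nat_lit 0xe5027))))
 (.n (.n (.n (.l (nat_lit 0x61014))
 (.l (nat_lit 0xc7284)))
 (.l (nat_lit 0x64084)))
 (.n (.n (.l (nat_lit 0x45025))
 (.l (nat_lit 0x44073)))
 (.l (nat_lit 0x1051f4)))))
 (.n (.n (.n (.n (.l (nat_lit 0xc0024))
 (.l (nat_lit 0x1020c4)))
 (.l (nat_lit 0xc3085)))
 (.n (.n (.l (nat_lit 0x69016))
 (.l (nat_lit 0xe5207)))
 (.l (nat_lit 0x85115))))
 (.n (.n (.n (.l (nat_lit 0x144004))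
 (.l (nat_lit 0x101225)))
 (.l (nat_lit 0xca106)))
 (.n (.n (.l (nat_lit 0x162046))
 (.l (nat_lit 0x8300b)))
 (.l (nat_lit 0x212e4))))))
 (.n (.n (.n (.n (.n (.l (nat_lit 0x80270))
 (.l (nat_lit 0x1270c5)))
 (.l (nat_lit 0x49066)))
 (.n (.n (.l (nat_lit 0x125006))
 (.l (nat_lit 0x140157)))
 (.l (nat_lit 0xcb254))))
 (.n (.n (.n (.l (nat_lit 0xa5155))
 (.l (nat_lit 0x168145)))
 (.l (nat_lit 0x169164)))
 (.n (.n (.l (nat_lit 0x8234))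
 (.l (nat_lit 0x108243)))
 (.l (nat_lit 0xab2d4)))))
 (.n (.n (.n (.n (.l (nat_lit 0x470e5))
 (.l (nat_lit 0xe0286)))
 (.l (nat_lit 0xa9165)))
 (.n (.n (.l (nat_lit 0x26054))
 (.l (nat_lit 0x672a7)))
 (.l (nat_lit 0x201f5))))
 (.n (.n (.n (.l (nat_lit 0xe0235))
 (.l (nat_lit 0x270d4)))
 (.l (nat_lit 0x16a1e5)))
 (.n (.n (.l (nat_lit 0x29074))
 (.l (nat_lit 0x5aa2335400600c)))
 (.l (nat_lit 0x107205))))))

def a128_127 : TA := .n a256_127 a256_255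

def a64_63 : TA := .n a128_63 a128_127

def a32_31 : TA := .n a64_31 a64_63

def a16_15 : TA := .n a32_15 a32_31

def a8_7 : TA := .n a16_7 a16_15

def a4_3 : TA := .n a8_3 a8_7

def a2_1 : TA := .n a4_1 a4_3

def a1_0 : TA := .n a2_0 a2_1

/-- the table of the atoms -/
def DT : TA := a1_0

end Vale.Agent.P032.H437.Ev2
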